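import Crest.Agent.T157.KbDef_24
import Crest.Agent.T157.St0B_5

/-!
# Row 157, part A2, section 2 (helper98): the area formula for the planted law, `Kb.AreaStmt`
-/

set_option autoImplicit false
set_option maxHeartbeats 400000

noncomputable section

namespace Crest.Agent.T157.Kb

open MeasureTheory Matrix Set Filter
open scoped ENNReal
open Crest.Agent.T157.E Crest.Agent.T157.Cond Crest.Agent.T157.Tap
open Crest.Agent.T157.Conc (ex)

variable {n : ℕ}

namespace Ar98

lemma cont_det : Continuous fun z : V n × Mx n => (Deg.DY z.2 1 z.1).det := by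
  unfold Deg.DY; fun_prop

lemma cont_Y : Continuous fun z : V n × Mx n => Ymap z.2 1 z.1 := by fun_prop

lemma meas_phi (t : ℝ) : Measurable fun z : V n × Mx n =>
    ENNReal.ofReal (Kr.phi t (Ymap z.2 1 z.1 - t • (1 : V n))) :=
  (measurable_const.t157_phi (cont_Y.measurable.sub measurable_const)).ennreal_ofReal


lemma meas_abs : Measurable fun z : V n × Mx n => ENNReal.ofReal |(Deg.DY z.2 1 z.1).det| :=
  cont_det.abs.measurable.ennreal_ofReal

lemma meas_pl : Measurable fun z : V n × Mx n => (z.1, plW 1 z.2 1) :=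
  measurable_fst.prodMk ((Ks.St0.meas_plW 1).comp measurable_snd)

/-- Cameron-Martin -/
lemma lint_nu {G : Mx n → ℝ≥0∞} (hG : Measurable G) :
    ∫⁻ W, ex ((1 : V n) ⬝ᵥ W *ᵥ 1 / 2 - n / 4) * G W ∂GOE n = ∫⁻ W, G (plW 1 W 1) ∂GOE n := by
  have h := Ks.St0.lint_pl (fun _ => true) hG
  have e : sv (fun _ : Fin n => true) = 1 := by funext i; simp [sv, Crest.ProbabilityR.SpinGlassDynamics.spin]
  have e2 : ∀ W : Mx n, ex ((1 : V n) ⬝ᵥ W *ᵥ 1 / 2 - n / 4) * G W =
      ex (-(n / 4)) * (ENNReal.ofReal (ising W 0 fun _ => true) * G W) := fun W => by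
    rw [← mul_assoc, ising, e, ← ex, ← Conc.ex_add, zero_dotProduct]; congr 2; ring
  simp only [e2]
  rw [lintegral_const_mul' _ _ (Conc.ex_ne_top _), h, e, ← mul_assoc, ← ex, ← Conc.ex_add,
    neg_add_cancel, Conc.ex_zero, one_mul]

/-- the measure `nuW` in planted form -/
lemma nu_eq (t : ℝ) {F : V n × Mx n → ℝ≥0∞} (hF : Measurable F) (x : V n) :
    ∫⁻ W, nuW t (x, W) * F (x, W) ∂GOE n = ∫⁻ W, ENNReal.ofReal
      (Kr.phi t (Ymap (plW 1 W 1) 1 x - t • (1 : V n))) * F (x, plW 1 W 1) ∂GOE n := by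
  have hm : Measurable fun W : Mx n =>
      ENNReal.ofReal (Kr.phi t (Ymap W 1 x - t • (1 : V n))) * F (x, W) := by
    simpa only [Function.comp_def] using
      ((meas_phi t).fun_mul hF).comp (measurable_prodMk_left (x := x))
  simp only [nuW, mul_assoc]
  exact lint_nu hm

lemma KR_eq (t : ℝ) {F : V n × Mx n → ℝ≥0∞} (hF : Measurable F) :
    KR t F = ∫⁻ x, ∫⁻ W, ENNReal.ofReal |(Deg.DY (plW 1 W 1) 1 x).det| * (ENNReal.ofReal
      (Kr.phi t (Ymap (plW 1 W 1) 1 x - t • (1 : V n))) * F (x, plW 1 W 1)) ∂GOE n := by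
  refine lintegral_congr fun x => ?_
  simp only [mul_assoc, mul_left_comm (ENNReal.ofReal |_|)]
  exact nu_eq t (meas_abs.mul hF) x

lemma KR_eq' (t : ℝ) {F : V n × Mx n → ℝ≥0∞} (hF : Measurable F) :
    KR t F = ∫⁻ W, (∫⁻ x, ENNReal.ofReal |(Deg.DY (plW 1 W 1) 1 x).det| * (ENNReal.ofReal
      (Kr.phi t (Ymap (plW 1 W 1) 1 x - t • (1 : V n))) * F (x, plW 1 W 1))) ∂GOE n := by
  rw [KR_eq t hF]
  exact lintegral_lintegral_swap
    ((meas_abs.mul ((meas_phi t).mul hF)).comp meas_pl).aemeasurable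

lemma Pl_eq {t : ℝ} (ht : 0 < t) {E : Set (Mx n × V n)} (hE : MeasurableSet E) :
    Pl n t E = ∫⁻ W, (∫⁻ y, ENNReal.ofReal (Kr.phi t (y - t • (1 : V n))) *
      E.indicator 1 (plW 1 W 1, y)) ∂GOE n := by
  have hm : Measurable fun z : Mx n × V n =>
      (plW 1 z.1 1, t • (1 : V n) + Real.sqrt t • z.2) := by unfold plW; fun_prop
  refine (lintegral_indicator_one (hm hE)).symm.trans ?_
  rw [lintegral_prod _ (measurable_one.indicator (hm hE)).aemeasurable]
  exact lintegral_congr fun W => Kr.lintegral_gv_scale ht _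
    (G := fun y => E.indicator 1 (plW 1 W 1, y))
    ((measurable_one.indicator hE).comp measurable_prodMk_left)

end Ar98

open Ar98

/-- **area formula and (DEG)** -/
theorem areaStmt : AreaStmt := by
  intro n t _ ht
  refine ⟨fun B hB => ?_, fun E hE => ?_⟩
  · have h := Kr.kacRice_borel (GOE n) (Y := fun W x => Ymap (plW 1 W 1) 1 x)
      (D := fun W x => Deg.DY (plW 1 W 1) 1 x) (c := fun _ => t • (1 : V n))
      (B := {p : Mx n × V n | (p.2, plW 1 p.1 1) ∈ B}) ((meas_pl.comp measurable_swap) hB)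
      (by fun_prop) (by unfold Deg.DY; fun_prop) continuous_const
      (fun W x => Cell.hasJac_Ymap _ _ x) ht
    refine h.trans (le_of_eq ?_)
    rw [KR_eq t (measurable_one.indicator hB)]
    refine lintegral_congr fun x => lintegral_congr fun W => ?_
    by_cases hx : (x, plW 1 W 1) ∈ B
    · rw [indicator_of_mem hx, indicator_of_mem (by exact hx), ENNReal.ofReal_mul (abs_nonneg _),
        Pi.one_apply, mul_one]
    · rw [indicator_of_notMem hx, indicator_of_notMem (by exact hx), mul_zero, mul_zero]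
  · have hY : Measurable fun z : V n × Mx n => (z.2, Ymap z.2 1 z.1) :=
      measurable_snd.prodMk cont_Y.measurable
    have h1 : MeasurableSet {z : V n × Mx n | (z.2, Ymap z.2 1 z.1) ∈ E} := hY hE
    have h2 : MeasurableSet {z : V n × Mx n | (z.2, Ymap z.2 1 z.1) ∈ E ∧
        (Deg.DY z.2 1 z.1).det < 0} :=
      h1.inter (measurableSet_lt cont_det.measurable measurable_const)
    have hf : Measurable fun p : Mx n × V n => ENNReal.ofReal (Kr.phi t (p.2 - t • (1 : V n))) *
        E.indicator 1 (plW 1 p.1 1, p.2) :=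
      (measurable_const.t157_phi (measurable_snd.sub measurable_const)).ennreal_ofReal.mul
        ((measurable_one.indicator hE).comp
          (((Ks.St0.meas_plW 1).comp measurable_fst).prodMk measurable_snd))
    have hg : ∀ W : Mx n, Measurable fun y : V n => ENNReal.ofReal (Kr.phi t (y - t • (1 : V n))) *
        E.indicator 1 (plW 1 W 1, y) := fun W => by
      simpa only [Function.comp_def] using hf.comp (measurable_prodMk_left (x := W))
    have hi : Measurable fun W : Mx n => ∫⁻ y, ENNReal.ofReal (Kr.phi t (y - t • (1 : V n))) *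
        E.indicator 1 (plW 1 W 1, y) := hf.lintegral_prod_right'
    rw [KR_eq' t (measurable_one.indicator h1), KR_eq' t (measurable_one.indicator h2),
      Pl_eq ht hE]
    refine ⟨lintegral_mono fun W => (Deg.prp_Ymap (plW 1 W 1) 1).le_kr (hg W), ?_⟩
    rw [← lintegral_const_mul' _ _ (by simp), ← lintegral_add_left hi]
    refine lintegral_mono fun W => ((Deg.prp_Ymap (plW 1 W 1) 1).kr_le (hg W)
      (S := {x | (Deg.DY (plW 1 W 1) 1 x).det < 0}) fun _ h => h).trans (le_of_eq ?_)
    congr 2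
    refine lintegral_congr fun x => ?_
    by_cases hx : (Deg.DY (plW 1 W 1) 1 x).det < 0
    · rw [indicator_of_mem (by exact hx)]
      by_cases hy : (plW 1 W 1, Ymap (plW 1 W 1) 1 x) ∈ E
      · rw [indicator_of_mem hy, indicator_of_mem (by exact ⟨hy, hx⟩)]; rfl
      · rw [indicator_of_notMem hy, indicator_of_notMem (fun h => hy h.1)]
    · rw [indicator_of_notMem (by exact hx), indicator_of_notMem (fun h => hx h.2), mul_zero,
        mul_zero]

end Crest.Agent.T157.Kb

end
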