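import Crest.Agent.T157.KbM_24

/-!
# Row 157, part A2, section 2 (helper27): `GoodGlue`
-/

set_option autoImplicit false

noncomputable section

namespace Crest.Agent.T157.Kb

open MeasureTheory Matrix Set Filter
open scoped ENNReal
open Crest.Agent.T157.E Crest.Agent.T157.Cond Crest.Agent.T157.Tap
open Crest.Agent.T157.Qe (Le R1 bv Wm Mm St Dv WS FS P3 Sg Tm zz gg uu)
open Crest.Agent.T157.Conc (ex)

namespace Gd27

variable {n : ℕ}

/-- `Pt` as a measure -/
def PM (n : ℕ) (t : ℝ) : Measure (V n × Mx n) :=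
  ((volume : Measure (V n)).prod (GOE n)).withDensity fun z => nuW t z * cX z.1

theorem Pt_eq (t : ℝ) {B : Set (V n × Mx n)} (hB : MeasurableSet B) :
    Pt t (B.indicator 1) = PM n t B := by
  have hm : Measurable fun z : V n × Mx n => nuW t z * cX z.1 :=
    (meas_nuW measurable_id).mul (meas_cX measurable_fst)
  rw [PM, withDensity_apply _ hB, ← lintegral_indicator hB,
    lintegral_prod _ (hm.indicator hB).aemeasurable, Pt]
  refine lintegral_congr fun x => lintegral_congr fun W => ?_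
  by_cases h : (x, W) ∈ B <;> simp [h]

theorem PM_x (hM : MargStmt) (hn : 0 < n) {t : ℝ} (ht : 0 < t) {E : Set (V n)}
    (hE : MeasurableSet E) : PM n t {z | z.1 ∈ E} ≤ Px t E := by
  have hB : MeasurableSet {z : V n × Mx n | z.1 ∈ E} := measurable_fst hE
  rw [← Pt_eq t hB, hM n t _ hn ht (measurable_one.indicator hB), Px_eq t hE]
  refine lintegral_mono fun x => ?_
  by_cases h : x ∈ E
  · have h1 := ga_pos ht x
    have h2 := aS_nonneg x
    have h3 : Real.sqrt (ga t x / (ga t x + aS x)) ≤ 1 :=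
      Real.sqrt_le_one.2 ((div_le_one (by linarith)).2 (by linarith))
    simp only [h, indicator_of_mem, mem_ofPred_eq, Pi.one_apply, lintegral_const, measure_univ, mul_one]
    exact ENNReal.ofReal_le_ofReal (mul_le_of_le_one_left (rho_nonneg t x) h3)
  · simp [h]

theorem col_le {W : Mx n} {a : V n} (h : Dq.Dg W a) (ha : ∀ i, |a i| ≤ 4) (x : V n) :
    (W *ᵥ ee x) ⬝ᵥ (W *ᵥ ee x) ≤ 16 := by
  obtain ⟨O, h1, rfl⟩ := h
  have h2 : Oᵀ * O = 1 := mul_eq_one_comm.1 h1
  have e1 : ∀ (G : Mx n), Gᵀ * G = 1 → ∀ v, G *ᵥ v ⬝ᵥ G *ᵥ v = v ⬝ᵥ v := fun G h v => by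
    rw [dotProduct_mulVec, ← mulVec_transpose, mulVec_mulVec, h, one_mulVec]
  have h3 : ee x ⬝ᵥ ee x ≤ 1 := by
    by_cases h : th x = 0
    · simp [ee, h, unitv_zero]
    · exact (unitv_dot h).le
  rw [← mulVec_mulVec, ← mulVec_mulVec, e1 O h2]
  rw [← e1 Oᵀ (by rwa [transpose_transpose])] at h3
  refine le_trans ?_ (mul_le_of_le_one_right (by norm_num) h3)
  simp only [dotProduct, mulVec_diagonal, Finset.mul_sum]
  refine Finset.sum_le_sum fun i _ => ?_
  have h4 : a i * a i ≤ 16 := by nlinarith [abs_le.1 (ha i)]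
  nlinarith [mul_self_nonneg ((Oᵀ *ᵥ ee x) i)]

/-- the number of small sets -/
theorem card_small {κ y : ℝ} (y0 : 0 < y) (y1 : y ≤ 1) (κ0 : 0 ≤ κ) :
    ((Finset.univ.filter fun S : Finset (Fin n) => (S.card : ℝ) ≤ κ * n).card : ℝ) ≤
      Real.exp (n * (y + κ / y)) := by
  have a0 : 0 ≤ -Real.log y := neg_nonneg.2 (Real.log_nonpos y0.le y1)
  have a1 : -Real.log y ≤ 1 / y := by
    have := Real.log_le_sub_one_of_pos (inv_pos.2 y0)
    rw [Real.log_inv] at this
    rw [one_div]; linarith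
  have h1 := Finset.prod_one_add (s := (Finset.univ : Finset (Fin n))) (f := fun _ => y)
  simp only [Finset.prod_const, Finset.card_univ, Fintype.card_fin, Finset.powerset_univ] at h1
  have h2 : (1 + y) ^ n ≤ Real.exp (n * y) := by
    rw [Real.exp_nat_mul]
    exact pow_le_pow_left₀ (by linarith) (by linarith [Real.add_one_le_exp y]) n
  rw [mul_add, Real.exp_add, Finset.card_eq_sum_ones, Nat.cast_sum, Finset.sum_filter]
  refine le_trans ?_ (mul_le_mul_of_nonneg_right (h1 ▸ h2) (Real.exp_pos _).le)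
  rw [Finset.sum_mul]
  refine Finset.sum_le_sum fun S _ => ?_
  split_ifs with h
  · rw [← Real.exp_log y0, ← Real.exp_nat_mul, ← Real.exp_add, Real.exp_log y0, Nat.cast_one]
    refine Real.one_le_exp ?_
    have b1 := mul_le_mul_of_nonneg_right h a0
    have b2 := mul_le_mul_of_nonneg_left a1 (mul_nonneg κ0 (Nat.cast_nonneg n))
    have e : κ * n * (1 / y) = n * (κ / y) := by ring
    linarith
  · positivity

theorem cover3 {α : Type*} [MeasurableSpace α] {μ : Measure α} {B A1 A2 A3 : Set α} {b : ℝ≥0∞}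
    (h : ∀ z ∈ B, z ∈ A1 ∨ z ∈ A2 ∨ z ∈ A3) (h1 : μ A1 ≤ b) (h2 : μ A2 ≤ b) (h3 : μ A3 ≤ b) :
    μ B ≤ ((3 : ℕ) : ℝ≥0∞) * b :=
  calc μ B ≤ μ (A1 ∪ (A2 ∪ A3)) := measure_mono h
    _ ≤ b + (b + b) :=
      (measure_union_le _ _).trans (add_le_add h1 ((measure_union_le _ _).trans (add_le_add h2 h3)))
    _ = _ := by push_cast; ring

theorem ev_log (C a : ℝ) (ha : 0 < a) : ∀ᶠ n : ℕ in atTop, C * Real.log n ≤ n * a := by
  have h := (Real.isLittleO_log_id_atTop.const_mul_left C).bound ha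
  filter_upwards [tendsto_natCast_atTop_atTop.eventually h] with n hn
  simp only [id, Real.norm_eq_abs, Nat.abs_cast] at hn
  linarith [le_abs_self (C * Real.log n)]

theorem exists_small (l : List ℝ) (h : ∀ a ∈ l, 0 < a) : ∃ s > (0 : ℝ), ∀ a ∈ l, s ≤ a := by
  induction l with
  | nil => exact ⟨1, one_pos, by simp⟩
  | cons b l ih =>
    obtain ⟨s, s0, hs⟩ := ih fun a ha => h a (List.mem_cons_of_mem _ ha)
    refine ⟨min s b, lt_min s0 (h b List.mem_cons_self), fun a ha => ?_⟩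
    rcases List.mem_cons.1 ha with rfl | ha
    · exact min_le_right _ _
    · exact (min_le_left _ _).trans (hs a ha)

end Gd27

open Gd27


end Crest.Agent.T157.Kb

end
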