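import Crest.Agent.T157.KbM_24

/-!
# Row 157, part A2, section 2 (helper31): global Taylor bounds for `tanh`
-/

set_option autoImplicit false

noncomputable section

namespace Crest.Agent.T157.Kb.Tay

open Set Real

/-- integration of a power bound -/
theorem mvt {f g : ℝ → ℝ} (hf : ∀ x, HasDerivAt f (g x) x) (h0 : f 0 = 0) {c : ℝ} (k : ℕ)
    (hg : ∀ x, |g x| ≤ (k + 1) * c * |x| ^ k) (x : ℝ) : |f x| ≤ c * |x| ^ (k + 1) := by
  have key : ∀ {f g : ℝ → ℝ}, (∀ x, HasDerivAt f (g x) x) → f 0 = 0 →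
      (∀ x, |g x| ≤ (k + 1) * c * |x| ^ k) → ∀ x, 0 ≤ x → |f x| ≤ c * x ^ (k + 1) := by
    intro f g hf h0 hg x hx
    refine image_norm_le_of_norm_deriv_right_le_deriv_boundary (a := 0) (b := x)
      (B := fun y => c * y ^ (k + 1)) (B' := fun y => (k + 1) * c * y ^ k)
      (fun y _ => (hf y).continuousAt.continuousWithinAt) (fun y _ => (hf y).hasDerivWithinAt)
      (by simp [h0]) (fun y => ((hasDerivAt_pow (k + 1) y).const_mul c).congr_deriv (by simp; ring))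
      (fun y hy => ?_) ⟨hx, le_rfl⟩
    have := hg y
    rwa [abs_of_nonneg hy.1] at this
  rcases le_total 0 x with hx | hx
  · rw [abs_of_nonneg hx]; exact key hf h0 hg x hx
  · have := key (f := fun y => f (-y)) (g := fun y => -g (-y))
      (fun y => ((hf (-y)).comp y (hasDerivAt_neg y)).congr_deriv (by ring)) (by simpa using h0)
      (fun y => by simpa using hg (-y)) (-x) (neg_nonneg.2 hx)
    rwa [neg_neg, ← abs_of_nonpos hx] at this

theorem t1 (x : ℝ) : |tanh x| ≤ |x| := by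
  simpa using mvt hasDerivAt_tanh tanh_zero (c := 1) 0 (fun x => by
    rw [abs_of_nonneg (by linarith [tanh_sq_lt_one x])]
    simpa using sq_nonneg (tanh x)) x

theorem sq_le (x : ℝ) : tanh x ^ 2 ≤ x ^ 2 := sq_le_sq.2 (t1 x)

theorem hd (x : ℝ) : HasDerivAt (fun x => x - tanh x) (tanh x ^ 2) x :=
  ((hasDerivAt_id' x).sub (hasDerivAt_tanh x)).congr_deriv (by ring)

theorem t1' (x : ℝ) : |x - tanh x| ≤ |x| := by
  simpa using mvt hd (by simp) (c := 1) 0 (fun x => by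
    rw [abs_of_nonneg (sq_nonneg _)]
    simpa using (tanh_sq_lt_one x).le) x

theorem t3 (x : ℝ) : |x - tanh x| ≤ |x| ^ 3 / 3 := by
  have := mvt hd (by simp) (c := 1 / 3) 2 (fun x => by
    rw [abs_of_nonneg (sq_nonneg _), sq_abs]
    push_cast
    linarith [sq_le x]) x
  linarith

theorem p2a (x : ℝ) : |tanh x ^ 2 - x ^ 2| ≤ 2 / 3 * x ^ 4 := by
  have h1 : |x + tanh x| ≤ 2 * |x| := (abs_add_le _ _).trans (by linarith [t1 x])
  rw [abs_sub_comm, sq_sub_sq, abs_mul, ← Even.pow_abs (show Even 4 by decide)]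
  exact (mul_le_mul h1 (t3 x) (abs_nonneg _) (by positivity)).trans_eq (by ring)

theorem t5 (x : ℝ) : |x - tanh x - x ^ 3 / 3| ≤ 2 / 15 * |x| ^ 5 :=
  mvt (g := fun x => tanh x ^ 2 - x ^ 2)
    (fun x => ((hd x).sub ((hasDerivAt_pow 3 x).div_const 3)).congr_deriv (by simp)) (by simp) 4
    (fun x => (p2a x).trans_eq (by rw [Even.pow_abs (show Even 4 by decide)]; norm_num)) x

theorem r_sq (x : ℝ) : (x - tanh x) ^ 2 ≤ x ^ 6 / 9 := by
  rw [← sq_abs, ← Even.pow_abs (show Even 6 by decide)]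
  exact (pow_le_pow_left₀ (abs_nonneg _) (t3 x) 2).trans_eq (by ring)

theorem xe (x : ℝ) (k : ℕ) : |x ^ k * (x - tanh x - x ^ 3 / 3)| ≤ 2 / 15 * |x| ^ (k + 5) := by
  rw [abs_mul, abs_pow]
  exact (mul_le_mul_of_nonneg_left (t5 x) (by positivity)).trans_eq (by ring)

theorem p2 (x : ℝ) : |tanh x ^ 2 - x ^ 2 + 2 * x ^ 4 / 3| ≤ x ^ 6 := by
  have h := abs_le.1 (xe x 1)
  rw [Even.pow_abs (show Even (1 + 5) by decide)] at h
  have h6 : 0 ≤ x ^ 6 := by positivity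
  rw [abs_le]
  constructor <;> nlinarith [r_sq x, sq_nonneg (x - tanh x)]

theorem t7 (x : ℝ) : |x - tanh x - x ^ 3 / 3 + 2 * x ^ 5 / 15| ≤ |x| ^ 7 / 7 := by
  have := mvt (g := fun x => tanh x ^ 2 - x ^ 2 + 2 * x ^ 4 / 3) (c := 1 / 7)
    (fun x => (((hd x).sub ((hasDerivAt_pow 3 x).div_const 3)).add
      (((hasDerivAt_pow 5 x).const_mul 2).div_const 15)).congr_deriv (by simp; ring)) (by simp) 6
    (fun x => (p2 x).trans_eq (by rw [Even.pow_abs (show Even 6 by decide)]; norm_num)) x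
  simp only [Pi.add_apply, Pi.sub_apply] at this
  linarith

theorem p3 (x : ℝ) : |tanh x ^ 3 - x ^ 3 + x ^ 5| ≤ |x| ^ 7 := by
  have h := abs_le.1 (xe x 2)
  have h0 : (x - tanh x) ^ 2 ≤ |x| ^ 6 / 9 := by rw [Even.pow_abs (by decide)]; exact r_sq x
  have h1 : |(3 * x - (x - tanh x)) * (x - tanh x) ^ 2| ≤ 4 * |x| * (|x| ^ 6 / 9) := by
    rw [abs_mul, abs_of_nonneg (sq_nonneg (x - tanh x))]
    refine mul_le_mul ((abs_sub _ _).trans ?_) h0 (sq_nonneg _) (by positivity)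
    rw [abs_mul, abs_of_pos three_pos]
    linarith [t1' x]
  have h2 := abs_le.1 h1
  have h7 : 0 ≤ |x| ^ 7 := by positivity
  rw [abs_le]
  constructor <;> nlinarith

theorem p4 (x : ℝ) : |tanh x ^ 4 - x ^ 4 + 4 * x ^ 6 / 3| ≤ 3 * x ^ 8 := by
  have h := abs_le.1 (p2 x)
  have h1 : (tanh x ^ 2 - x ^ 2) ^ 2 ≤ (2 / 3 * x ^ 4) ^ 2 := by
    rw [← sq_abs]; exact pow_le_pow_left₀ (abs_nonneg _) (p2a x) 2
  have h2 := mul_le_mul_of_nonneg_left h.1 (sq_nonneg x)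
  have h3 := mul_le_mul_of_nonneg_left h.2 (sq_nonneg x)
  have h8 : 0 ≤ x ^ 8 := by positivity
  rw [abs_le]
  constructor <;> nlinarith [sq_nonneg (tanh x ^ 2 - x ^ 2)]

theorem p6 (x : ℝ) : |tanh x ^ 6 - x ^ 6| ≤ 2 * x ^ 8 := by
  have e : tanh x ^ 6 - x ^ 6 = (tanh x ^ 2 - x ^ 2) *
      ((tanh x ^ 2) ^ 2 + tanh x ^ 2 * x ^ 2 + x ^ 4) := by ring
  have h1 := sq_le x
  have h2 : (tanh x ^ 2) ^ 2 + tanh x ^ 2 * x ^ 2 + x ^ 4 ≤ 3 * x ^ 4 := by
    nlinarith [pow_le_pow_left₀ (sq_nonneg _) h1 2, mul_le_mul_of_nonneg_right h1 (sq_nonneg x)]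
  rw [e, abs_mul, abs_of_nonneg (a := _ + x ^ 4) (by positivity)]
  exact (mul_le_mul (p2a x) h2 (by positivity) (by positivity)).trans_eq (by ring)

theorem pr (x : ℝ) : |tanh x * (x - tanh x) - x ^ 4 / 3| ≤ x ^ 6 := by
  have h := abs_le.1 (xe x 1)
  rw [Even.pow_abs (show Even (1 + 5) by decide)] at h
  have h6 : 0 ≤ x ^ 6 := by positivity
  rw [abs_le]
  constructor <;> nlinarith [r_sq x, sq_nonneg (x - tanh x)]


theorem abs7 (x : ℝ) : |x| ^ 7 ≤ (x ^ 6 + x ^ 8) / 2 := by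
  rw [← Even.pow_abs (show Even 6 by decide), ← Even.pow_abs (show Even 8 by decide)]
  nlinarith [mul_nonneg (pow_nonneg (abs_nonneg x) 6) (sq_nonneg (|x| - 1))]

end Crest.Agent.T157.Kb.Tay

end
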