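import Crest.Agent.T157.KbB2_56
import Crest.Agent.T157.KbTay_31
import Crest.Agent.T157.KbE_24
import Crest.Agent.T157.KbCo_56
import Crest.Agent.T157.KbM_24
import Crest.Agent.T157.KbGood_27

-- ▼ part T157/KbB3_56
section

/-!
# Row 157, part A2, section 2 (helper56): `Kb.b3Glue : B3Glue`
-/

set_option autoImplicit false

noncomputable section

namespace Crest.Agent.T157.Kb

open MeasureTheory ProbabilityTheory Matrix Set Real
open scoped ENNReal
open Crest.Agent.T157.E Crest.Agent.T157.Cond Crest.Agent.T157.Tap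
open Crest.Agent.T157.Conc (ex ex_mono)

namespace B56
open Co56

variable {n : ℕ}

/-- `ev` with the tolerance of the cell decoupled, and `q ≪ e²` -/
theorem ev2 (hT : TiltStmt) (hM : MgfStmt) (hD : MomStmt) (hN : NetStmt) {K : ℝ} (hK : 1 ≤ K) :
    ∃ c > (0 : ℝ), ∃ C : ℕ, ∃ P κ : ℝ, ∀ (n : ℕ) (t e0 e : ℝ) (Q : V n → Prop) (k : ℝ → ℝ)
      (F : ℝ → ℝ → ℝ), 2 ≤ n → 1 / (n : ℝ) ≤ t → e0 ≤ 1 / 10 → e ∈ Ioc (0 : ℝ) (1 / 10) →
      √t ≤ c * e ^ 2 → MeasurableSet {x | Q x} → (∀ v, Measurable (F v)) →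
      (∀ x m v0 v, Nb P κ e (aS x) (bS x) m v0 v → 10 ^ 6 * P ^ 4 * aS x ≤ e ^ 2 →
        |gE (fun x => x - tanh x) m v - m * v| ≤ P * v ^ 3 → Q x →
        Req P κ e (aS x) m v0 v (k v0) (F v) x) →
      Px t {x | Co K e0 t x ∧ Q x} ≤ ex (C * Real.log n - c * e ^ 2 * n * t) := by
  obtain ⟨c, hc, C, A, hA, h⟩ := tool hT hM hN hK
  obtain ⟨D, hD1, hD⟩ := hD
  have L1 : 1 ≤ 12 * K := by linarith
  replace hD := hD _ L1
  generalize hL : 12 * K = L at h hD L1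
  have hj : ∀ j ≤ 4, D * L ^ j ≤ A * (D * L ^ 4) := fun j hj =>
    (mul_le_mul_of_nonneg_left (pow_le_pow_right₀ L1 hj) (by linarith)).trans
      (le_mul_of_one_le_left (by positivity) hA)
  have hl : ∀ j ≤ 4, L ^ j ≤ A * (D * L ^ 4) := fun j h =>
    (le_mul_of_one_le_left (by positivity) hD1).trans (hj j h)
  have hAP : A ≤ A * (D * L ^ 4) :=
    le_mul_of_one_le_right (by linarith) (one_le_mul_of_one_le_of_one_le hD1 (one_le_pow₀ L1))
  generalize A * (D * L ^ 4) = P at hj hl hAP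
  have P1 : 1 ≤ P := hA.trans hAP
  refine ⟨min c (1 / (10 ^ 6 * P ^ 4 * K)), by positivity, C, P, 1 / (10 ^ 4 * P),
    fun n t e0 e Q k F hn ht he0 he hs hQ hF H => ?_⟩
  have n2 : (2 : ℝ) ≤ n := by exact_mod_cast hn
  have t0 : 0 < t := lt_of_lt_of_le (by positivity) ht
  have c0 : 0 < min c (1 / (10 ^ 6 * P ^ 4 * K)) := by positivity
  have c2 : 10 ^ 6 * P ^ 4 * (K * min c (1 / (10 ^ 6 * P ^ 4 * K))) ≤ 1 := by
    have := (le_div_iff₀ (by positivity)).1 (min_le_right c (1 / (10 ^ 6 * P ^ 4 * K)))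
    linarith
  have c1 := min_le_left c (1 / (10 ^ 6 * P ^ 4 * K))
  generalize min c (1 / (10 ^ 6 * P ^ 4 * K)) = c' at hs c0 c1 c2 ⊢
  have ee : e ^ 2 ≤ e := by nlinarith [he.1, he.2]
  refine h n t e0 _ _ (fun v0 v y => k v0 * F v y) hn ht he0 (by nlinarith [he.2])
    ((measSet_Co K e0 t measurable_id).inter hQ) (fun _ v => (hF v).const_mul _)
    fun x hx => ⟨hx.1, fun m v0 v g => ?_⟩
  have q0 := g.q0
  have hq : 10 ^ 6 * P ^ 4 * aS x ≤ e ^ 2 := by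
    have h1 := (Co.le hx.1 hK t0).trans (mul_le_mul_of_nonneg_left hs (by linarith))
    have h2 := mul_le_mul_of_nonneg_left h1 (by positivity : 0 ≤ 10 ^ 6 * P ^ 4)
    have h3 := mul_le_mul_of_nonneg_right c2 (sq_nonneg e)
    linarith
  have P4 : P ≤ P ^ 4 := le_self_pow₀ P1 (by norm_num)
  have vp := g.vp
  obtain ⟨m1, m2, m3, m4, m6, m8, m7, -⟩ := hD m v vp (by
    have h1 := mul_le_mul (hl 2 (by norm_num)) g.w1 vp.le (by linarith)
    have h2 := mul_le_mul_of_nonneg_right P4 q0.le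
    linarith [he.2]) g.m1
  have l1 : L ≤ P := by simpa using hl 1 (by norm_num)
  have N : Nb P (1 / (10 ^ 4 * P)) e (aS x) (bS x) m v0 v :=
    ⟨P1, by positivity, by field_simp, he.1, he.2, q0, hq.trans ee, g.a1.trans (by gcongr), g.v1, g.v3,
      vp, g.w1, g.w.trans (by gcongr), m1.trans (by gcongr; simpa using hj 1 (by norm_num)),
      m2.trans (by gcongr; exact hj 2 (by norm_num)), m3.trans (by gcongr; exact hj 3 (by norm_num)),
      m4.trans (by gcongr; exact hj 4 le_rfl), m6.trans (by gcongr; exact hj 2 (by norm_num)),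
      m8.trans (by gcongr; simpa using hj 0 (by norm_num))⟩
  obtain ⟨b, b', j, k0, b0, j8, hb, f1, f2, f3⟩ := H x m v0 v N hq
    (m7.trans (by gcongr; exact hj 3 (by norm_num))) hx.2
  have v0p := g.v0p
  refine ⟨fun y => ?_, fun hS => red (r := 1 / (10 ^ 4 * P) * e ^ 2 * aS x ^ 2 / 20) (by omega) ?_ ?_⟩
  · rw [abs_mul, abs_of_nonneg k0]
    have h1 := mul_le_mul_of_nonneg_left (f1 y) k0
    have h2 := mul_le_mul_of_nonneg_right hb (by positivity : 0 ≤ y ^ 2 + v0)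
    rw [div_eq_mul_one_div]
    linarith
  · have h1 : c' * t ≤ 1 / (10 ^ 4 * P) * aS x ^ 2 / 20 := by
      have h1 := mul_le_mul_of_nonneg_left hx.1.q1 c0.le
      have h2 : K * c' ≤ 1 / (10 ^ 4 * P) / 20 := by
        rw [div_div, le_div_iff₀ (by positivity)]
        nlinarith [mul_le_mul_of_nonneg_right P4 (by positivity : 0 ≤ K * c'),
          mul_nonneg (by linarith : 0 ≤ P) (by positivity : 0 ≤ K * c')]
      have h3 := mul_le_mul_of_nonneg_right h2 (sq_nonneg (aS x))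
      linarith
    have := mul_le_mul_of_nonneg_left h1 (by positivity : 0 ≤ n * e ^ 2)
    linarith
  · have h1 := hS (k v0 ^ 2 * b') j (by positivity) j8 fun y => by
      rw [mul_pow, mul_assoc]; exact mul_le_mul_of_nonneg_left (f2 y) (sq_nonneg _)
    have h2 : A * (k v0 ^ 2 * b') * v0 ^ j ≤ P * (k v0 ^ 2 * b') * v0 ^ j := by gcongr
    have h3 : A * v0 ^ 4 ≤ P * v0 ^ 4 := by gcongr
    linarith [N.z4]

variable {P κ e m v0 v : ℝ} {x : V n}

lemma num3 {q a d : ℝ} (h : Nb P κ e q a m v0 v) (hq : 10 ^ 6 * P ^ 4 * q ≤ e ^ 2)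
    (hd : e * √(q ^ 5) - 35 * (P ^ 2 * q ^ 3) ≤ d) : κ * e / √v0 * 6 ≤ 1 / (64 * v0) ∧
    2 * (P * ((κ * e / √v0) ^ 2 * 36) * v0 ^ 3) + κ * e ^ 2 * q ^ 2 / 10 ≤ κ * e / √v0 * d := by
  have v0p := h.v0p
  have k0 := h.k0
  have e0 := h.e0
  have q0 := h.q0
  have w0 : 0 < √v0 := sqrt_pos.2 v0p
  have ww := sq_sqrt v0p.le
  have hd' : 7 / 10 * (q ^ 2 * √v0) ≤ √(q ^ 5) := by
    refine le_sqrt_of_sq_le ?_
    rw [mul_pow, mul_pow, ww]
    nlinarith [mul_le_mul_of_nonneg_left h.v3 (pow_pos q0 4).le, pow_pos q0 5]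
  have hw : P ^ 2 * √v0 ≤ e / 175 := by
    refine (abs_le_of_sq_le_sq' ?_ (by positivity)).2
    rw [mul_pow, ww]
    nlinarith [mul_le_mul_of_nonneg_left h.v3 (pow_pos (zero_lt_one.trans_le h.P1) 4).le, sq_nonneg e]
  generalize √v0 = w at *
  have w1 : w ≤ 1 := by
    nlinarith [mul_le_mul_of_nonneg_right (h.pw (by norm_num : 0 ≤ 2)) w0.le, h.e1]
  have ke : κ * e ≤ 1 / 10 ^ 4 * (1 / 10) := mul_le_mul h.k1 h.e1 e0.le (by norm_num)
  constructor
  · rw [div_mul_eq_mul_div, div_le_div_iff₀ w0 (by positivity), ← ww]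
    nlinarith [mul_le_mul ke w1 w0.le (by norm_num)]
  · have h6 : P ^ 2 * q ^ 3 ≤ e * (q ^ 2 * w) / 175 := by
      have h1 : P ^ 2 * q ≤ P ^ 2 * w ^ 2 := mul_le_mul_of_nonneg_left (ww ▸ h.v1) (by positivity)
      have h2 := mul_le_mul_of_nonneg_right hw w0.le
      have h3 := mul_le_mul_of_nonneg_left (by linarith : P ^ 2 * q ≤ e * w / 175) (sq_nonneg q)
      linarith
    have h5 := mul_le_mul_of_nonneg_left hd' e0.le
    have h7 := mul_le_mul_of_nonneg_left (by linarith : e * (q ^ 2 * w) / 2 ≤ d)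
      (by positivity : 0 ≤ κ * e / w)
    have e1 : κ * e / w * (e * (q ^ 2 * w) / 2) = κ * e ^ 2 * q ^ 2 / 2 := by field_simp
    have e2 : P * ((κ * e / w) ^ 2 * 36) * v0 ^ 3 = 36 * (P * κ) * (κ * e ^ 2 * v0 ^ 2) := by
      rw [← ww]; field_simp
    have h8 : κ * e ^ 2 * v0 ^ 2 ≤ κ * e ^ 2 * (2 * q) ^ 2 := by
      have := h.v3
      gcongr
    have h9 : 0 ≤ κ * e ^ 2 * q ^ 2 := by positivity
    rw [e2, h.kP]
    linarith

lemma err {s q a : ℝ} (hs : |s| = 1) (h : Nb P κ e q a m v0 v) :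
    s * (a * (v - q)) ≤ P ^ 2 * q ^ 3 ∧ -(v * (P * v ^ 2)) ≤ v * (s * (gE tanh m v - m)) ∧
      P * v ^ 3 ≤ 8 * (P ^ 2 * q ^ 3) := by
  refine ⟨?_, ?_, ?_⟩
  · have h1 := sl hs (a * (v - q))
    have h2 := mul_le_mul h.a1 h.w (abs_nonneg _) ((abs_nonneg _).trans h.a1)
    rw [abs_mul] at h1
    linarith
  · have := (sl (s := -s) (by rwa [abs_neg]) _).trans h.m1
    nlinarith [h.vp]
  · have : P * q ^ 3 ≤ P ^ 2 * q ^ 3 :=
      mul_le_mul_of_nonneg_right (le_self_pow₀ h.P1 two_ne_zero) (pow_pos h.q0 3).le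
    linarith [h.pv 3]

lemma rq3 {s : ℝ} (hs : |s| = 1) (h : Nb P κ e (aS x) (bS x) m v0 v)
    (hq : 10 ^ 6 * P ^ 4 * aS x ≤ e ^ 2)
    (hx : e * √(aS x ^ 5) < s * (avg (fun i => th x i ^ 3) - 3 * bS x * aS x)) :
    Req P κ e (aS x) m v0 v (κ * e / √v0) (fun y => s * (tanh y ^ 3 - 3 * v * tanh y ^ 1)) x := by
  have v0p := h.v0p
  have k0 := h.k0
  have e0 := h.e0
  have f : ∀ y, |s * (tanh y ^ 3 - 3 * v * tanh y ^ 1)| = |tanh y| * |tanh y ^ 2 - 3 * v| := fun y => by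
    rw [abs_mul, hs, one_mul, ← abs_mul]
    congr 1; ring
  have c := cz (c := 3) (by norm_num) v0p h.vp (by linarith [h.w1, h.v1])
  refine ⟨6, 36, 3, by positivity, by norm_num, by norm_num, (num3 h hq le_rfl).1, fun y => ?_,
    fun y => ?_, (num3 h hq ?_).2⟩
  · rw [f]
    have := mul_le_mul (abs_tanh_lt_one y).le (c y) (abs_nonneg _) zero_le_one
    linarith
  · rw [← sq_abs, f, mul_pow, sq_abs]
    have := mul_le_mul ((th2 y).trans (le_add_of_nonneg_right v0p.le))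
      (pow_le_pow_left₀ (abs_nonneg _) (c y) 2) (sq_nonneg _) (by positivity)
    linarith
  · rw [gE_lin, avg_lin s (3 * v) (fun i => tanh (x i) ^ 3) fun i => tanh (x i) ^ 1]
    simp only [pow_one]
    change _ ≤ s * (avg (fun i => th x i ^ 3) - 3 * v * bS x) - s * (_ - 3 * v * gE tanh m v)
    obtain ⟨h2, h3, h4⟩ := err hs h
    linarith [(sl hs _).trans h.m3]

lemma gE_r (s m v : ℝ) : gE (fun y => s * (y - tanh y - v * tanh y)) m v =
    s * (gE (fun y => y - tanh y) m v - v * gE tanh m v) := by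
  have h1 := SE.integrable_gE meas_tanh SE.abs_tanh_le m √v
  have h2 : Integrable (fun z : ℝ => m + √v * z) (gaussianReal 0 1) :=
    (integrable_const m).add (((memLp_id_gaussianReal 1).integrable le_rfl).const_mul _)
  rw [SE.gE_const_mul, ← SE.gE_const_mul v]
  exact congrArg _ (integral_sub (h2.sub h1) (h1.const_mul v))

lemma rqR {s : ℝ} (hs : |s| = 1) (h : Nb P κ e (aS x) (bS x) m v0 v)
    (hq : 10 ^ 6 * P ^ 4 * aS x ≤ e ^ 2) (m7 : |gE (fun x => x - tanh x) m v - m * v| ≤ P * v ^ 3)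
    (hx : e * √(aS x ^ 5) < s * (R3 x - bS x * aS x)) :
    Req P κ e (aS x) m v0 v (κ * e / √v0) (fun y => s * (y - tanh y - v * tanh y)) x := by
  have v0p := h.v0p
  have k0 := h.k0
  have e0 := h.e0
  have vp := h.vp
  have hv : v ≤ 2 * v0 := by linarith [h.w1, h.v1]
  refine ⟨6, 36, 3, by positivity, by norm_num, by norm_num, (num3 h hq le_rfl).1, fun y => ?_,
    fun y => ?_, (num3 h hq ?_).2⟩
  · rw [abs_mul, hs, one_mul]
    have h1 : |y - tanh y| ≤ y ^ 2 := by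
      rw [← sq_abs y]
      have := abs_nonneg y
      rcases le_total |y| 1 with h | h
      · nlinarith [Tay.t3 y, mul_le_mul_of_nonneg_left h (sq_nonneg |y|), sq_nonneg |y|]
      · nlinarith [Tay.t1' y]
    have h2 : |v * tanh y| ≤ v := by
      rw [abs_mul, abs_of_pos vp]; exact mul_le_of_le_one_right vp.le (SE.abs_tanh_le y)
    linarith [abs_sub (y - tanh y) (v * tanh y), sq_nonneg y]
  · rw [mul_pow, ← sq_abs s, hs]
    have z1 : y ^ 2 ≤ y ^ 2 + v0 := le_add_of_nonneg_right v0p.le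
    have h1 := pow_le_pow_left₀ (sq_nonneg y) z1 3
    have h2 := mul_le_mul (pow_le_pow_left₀ vp.le
      (by linarith [sq_nonneg y] : v ≤ 2 * (y ^ 2 + v0)) 2) ((th2 y).trans z1) (sq_nonneg _) (sq_nonneg _)
    have h3 : 0 ≤ (y ^ 2 + v0) ^ 3 := by positivity
    nlinarith [Tay.r_sq y, sq_nonneg (y - tanh y + v * tanh y)]
  · rw [gE_r, avg_lin s v (fun i => x i - tanh (x i)) fun i => tanh (x i)]
    change _ ≤ s * (R3 x - v * bS x) - _
    obtain ⟨h2, h3, h4⟩ := err hs h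
    have : 0 ≤ P ^ 2 * aS x ^ 3 := mul_nonneg (sq_nonneg P) (pow_pos h.q0 3).le
    linarith [(sl hs _).trans m7]

end B56

open B56 in
theorem b3Glue : B3Glue := by
  intro hT hM hD hN K hK
  obtain ⟨c, hc, C, P, κ, h⟩ := ev2 hT hM hD hN hK
  refine ⟨c / 100, by positivity, C + 4, fun n t e0 e' hn ht he0 he hs => ?_⟩
  have p := sqrt_pos.2 he.1
  have ee : (√e' / 10) ^ 2 = e' / 100 := by rw [div_pow, sq_sqrt he.1.le]; norm_num
  have e1 : √e' / 10 ≤ 1 / 10 := by linarith [sqrt_le_one.2 he.2]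
  replace h := fun Q k F => h n t e0 (√e' / 10) Q k F (by omega) ht he0 ⟨by positivity, e1⟩
    (by rw [ee]; linarith)
  have h3 := fun (s : ℝ) (hs : |s| = 1) => h _ _ (fun v y => s * (tanh y ^ 3 - 3 * v * tanh y ^ 1))
    (measurableSet_lt (by fun_prop) (by unfold avg th; fun_prop)) (fun v => by fun_prop)
    fun x m v0 v N hq _ hx => rq3 hs N hq hx
  have h4 := fun (s : ℝ) (hs : |s| = 1) => h _ _ (fun v y => s * (y - tanh y - v * tanh y))
    (measurableSet_lt (by fun_prop) (by fun_prop)) (fun v => by fun_prop)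
    fun x m v0 v N hq m7 hx => rqR hs N hq m7 hx
  have m1 : |(-1 : ℝ)| = 1 := by simp
  have u := fun {E F : Set (V n)} {a b : ℝ≥0∞} (h1 : Px t E ≤ a) (h2 : Px t F ≤ b) =>
    (Px_union t E F).trans (add_le_add h1 h2)
  have H := u (u (h3 1 abs_one) (h3 _ m1)) (u (h4 1 abs_one) (h4 _ m1))
  refine ((Px_mono t fun x hx => ?_).trans H).trans ?_
  · by_contra hc
    simp only [mem_union, mem_ofPred_eq, not_or, not_and] at hc
    obtain ⟨⟨a1, a2⟩, a3, a4⟩ := hc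
    have g : ∀ b : ℝ, |b| ≤ √e' / 10 * √(aS x ^ 5) → b ^ 2 ≤ e' * aS x ^ 5 := fun b hb => by
      have h1 := pow_le_pow_left₀ (abs_nonneg _) hb 2
      have h2 := pow_nonneg (aS_nonneg x) 5
      rw [sq_abs, mul_pow, ee, sq_sqrt h2] at h1
      nlinarith [mul_nonneg he.1.le h2]
    refine hx.2 ⟨g _ ?_, g _ ?_⟩
    · by_contra h
      exact (two h).elim (a3 hx.1) (a4 hx.1)
    · by_contra h
      exact (two h).elim (a1 hx.1) (a2 hx.1)
  · have h1 := ex_sum (k := 4) (n := n) (by omega) (by omega) C (c * (√e' / 10) ^ 2 * n * t)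
    have h2 : 0 ≤ Real.log n := log_natCast_nonneg n
    refine le_trans (le_of_eq ?_) (h1.trans (ex_mono ?_))
    · push_cast; ring
    · rw [ee]; push_cast; linarith

end Crest.Agent.T157.Kb

end
end

-- ▼ part T157/KbCnt_82
section

/-!
# Row 157, A2, section 2: few large sites (`Kb.CntSGlue`, `Kb.CntGlue`, helper82)
-/

set_option autoImplicit false

noncomputable section

namespace Crest.Agent.T157.Kb

open MeasureTheory ProbabilityTheory Matrix Set Filter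
open scoped ENNReal
open Crest.Agent.T157.E Crest.Agent.T157.Cond Crest.Agent.T157.Tap
open Crest.Agent.T157.Conc (ex ex_mono)

namespace Cnt82

lemma tanh_sq_le (x : ℝ) : Real.tanh x ^ 2 ≤ x ^ 2 := by
  have key : ∀ y : ℝ, 0 ≤ y → Real.tanh y ≤ y := fun y hy => by
    have := (monotone_of_deriv_nonneg (f := fun y => y - Real.tanh y)
      (fun y => ((hasDerivAt_id y).sub (hasDerivAt_tanh y)).differentiableAt)
      (fun y => by
        rw [((hasDerivAt_id' y).fun_sub (hasDerivAt_tanh y)).deriv]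
        nlinarith [sq_nonneg (Real.tanh y)])) hy
    simpa using this
  have h := tanh_mul_sub_nonneg x
  rcases le_total 0 x with hx | hx
  · nlinarith [key x hx, sq_nonneg (x - Real.tanh x)]
  · have := key (-x) (by linarith)
    rw [Real.tanh_neg] at this
    nlinarith [sq_nonneg (x - Real.tanh x)]

/-- the large-site test function -/
def Y (l v x : ℝ) : ℝ := if l * v ≤ 4 * x ^ 2 then l / 256 else 0

lemma meas_Y (l v : ℝ) : Measurable (Y l v) :=
  Measurable.ite (measurableSet_le measurable_const (by fun_prop)) measurable_const measurable_const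

lemma int_big {m v : ℝ} (hv : 0 < v) (l : ℝ) : Integrable (fun z => if l * v ≤
    16 * (m + √v * z) ^ 2 then Real.exp ((m + √v * z) ^ 2 / (4 * v)) else 0) (gaussianReal 0 1) := by
  have h1 : Integrable (fun z : ℝ => Real.exp (3 * m ^ 2 / (4 * v)) * Real.exp (3 / 4 * z ^ 2 / 2))
      (gaussianReal 0 1) := (Dq.integral_exp_sq (a := 3 / 4) (by norm_num)).1.const_mul _
  refine h1.mono' (Measurable.aestronglyMeasurable (Measurable.ite
    (measurableSet_le measurable_const (by fun_prop)) (by fun_prop) measurable_const))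
    (Eventually.of_forall fun z => ?_)
  split_ifs
  · rw [Real.norm_eq_abs, abs_of_pos (Real.exp_pos _), ← Real.exp_add]
    refine Real.exp_le_exp.2 ?_
    have e : √v ^ 2 = v := Real.sq_sqrt hv.le
    have : (m + √v * z) ^ 2 ≤ 3 * m ^ 2 + 3 / 2 * v * z ^ 2 := by
      nlinarith [sq_nonneg (2 * m - √v * z)]
    rw [div_le_iff₀ (by positivity)]
    have e2 : (3 * m ^ 2 / (4 * v) + 3 / 4 * z ^ 2 / 2) * (4 * v) =
        3 * m ^ 2 + 3 / 2 * v * z ^ 2 := by field_simp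
    linarith
  · simp only [norm_zero]; positivity

lemma gE_le {m v v0 l B : ℝ} (hv : 0 < v) (_h0 : 0 < v0) (h1 : v ≤ 4 * v0) (hl : 0 ≤ l)
    (hB : gE (fun x => if l * v ≤ 16 * x ^ 2 then Real.exp (x ^ 2 / (4 * v)) else 0) m v ≤ B) :
    gE (Y l v0) m v ≤ l / 256 * B ∧
      gE (fun x => Y l v0 x ^ 2 * Real.exp (x ^ 2 / (16 * v0))) m v ≤ (l / 256) ^ 2 * B := by
  have key : ∀ (c : ℝ) (f : ℝ → ℝ), 0 ≤ c → (∀ x, 0 ≤ f x) → (∀ x, f x ≤ c *
      if l * v ≤ 16 * x ^ 2 then Real.exp (x ^ 2 / (4 * v)) else 0) → gE f m v ≤ c * B :=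
    fun c f hc h0 hf => by
      refine le_trans ?_ (mul_le_mul_of_nonneg_left hB hc)
      unfold gE
      rw [← integral_const_mul]
      exact integral_mono_of_nonneg (Eventually.of_forall fun z => h0 _)
        ((int_big hv l).const_mul c) (Eventually.of_forall fun z => hf _)
  have imp : ∀ x : ℝ, l * v0 ≤ 4 * x ^ 2 → l * v ≤ 16 * x ^ 2 := fun x h => by
    nlinarith [mul_le_mul_of_nonneg_left h1 hl]
  constructor
  · refine key _ _ (by positivity) (fun x => by unfold Y; split_ifs <;> positivity) fun x => ?_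
    unfold Y
    by_cases h : l * v0 ≤ 4 * x ^ 2
    · rw [if_pos h, if_pos (imp x h)]
      exact le_mul_of_one_le_right (by positivity) (Real.one_le_exp (by positivity))
    · rw [if_neg h]; split_ifs <;> positivity
  · refine key _ _ (by positivity) (fun x => by positivity) fun x => ?_
    unfold Y
    by_cases h : l * v0 ≤ 4 * x ^ 2
    · rw [if_pos h, if_pos (imp x h)]
      refine mul_le_mul_of_nonneg_left (Real.exp_le_exp.2 ?_) (by positivity)
      exact div_le_div_of_nonneg_left (sq_nonneg x) (by positivity) (by linarith)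
    · rw [if_neg h]; split_ifs <;> simp; positivity

lemma poly_exp {l : ℝ} (hl : 0 ≤ l) :
    (l / 256 + 2 * (l / 256) ^ 2) * Real.exp (-l / 128) ≤ 5 * Real.exp (-(l / 256)) := by
  set z := l / 256 with hz
  have h0 : 0 ≤ z := by positivity
  have h1 := Real.quadratic_le_exp_of_nonneg h0
  have e : Real.exp (-l / 128) = Real.exp (-z) * Real.exp (-z) := by
    rw [← Real.exp_add, hz]; congr 1; ring
  have e2 : Real.exp z * Real.exp (-z) = 1 := by rw [← Real.exp_add]; simp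
  have h2 : (z + 2 * z ^ 2) * Real.exp (-z) ≤ 5 := by
    have := mul_le_mul_of_nonneg_right (show z + 2 * z ^ 2 ≤ 5 * Real.exp z by nlinarith)
      (Real.exp_pos (-z)).le
    nlinarith
  rw [e, ← mul_assoc]
  exact mul_le_mul_of_nonneg_right h2 (Real.exp_pos _).le

end Cnt82

open Cnt82 Co56 in
theorem cntSGlue : CntSGlue := by
  rintro hT hM ⟨C', hC', hG⟩ hN K hK
  obtain ⟨c1, hc1, Ct, A, hA, hT⟩ := tool hT hM hN hK
  have hK0 : 0 < K := by linarith
  refine ⟨min (min c1 (1 / 256)) (1 / (288 * K ^ 3)), by positivity,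
    Ct + ⌈5 * C' + 16 * A * K ^ 2⌉₊ + 512, fun n t e l k hn ht he hs hl => ?_⟩
  set c := min (min c1 (1 / 256)) (1 / (288 * K ^ 3)) with hc
  have hc0 : 0 < c := by positivity
  have hcc1 : c ≤ c1 := (min_le_left _ _).trans (min_le_left _ _)
  have hc2 : c ≤ 1 / 256 := (min_le_left _ _).trans (min_le_right _ _)
  have hc3 : c * (288 * K ^ 3) ≤ 1 := by
    rw [← le_div_iff₀ (by positivity)]; exact min_le_right _ _
  have hn2 : 512 ≤ n := le_trans (Nat.le_add_left _ _) hn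
  have hnR : (512 : ℝ) ≤ n := by exact_mod_cast hn2
  have ht0 : 0 < t := lt_of_lt_of_le (by positivity) ht
  have ht1 : t ≤ 1 := by
    rw [← Real.sqrt_le_one]; linarith
  have hlt : 0 ≤ Real.log (1 / t) := Real.log_nonneg (one_le_one_div ht0 ht1)
  have hlog : 0 ≤ Real.log n := Real.log_nonneg (by linarith)
  have a1 : (0 : ℝ) ≤ Ct := Nat.cast_nonneg _
  have a2 : 5 * C' + 16 * A * K ^ 2 ≤ ⌈5 * C' + 16 * A * K ^ 2⌉₊ := Nat.le_ceil _
  have a3 : (0 : ℝ) ≤ ⌈5 * C' + 16 * A * K ^ 2⌉₊ := Nat.cast_nonneg _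
  push_cast at hl ⊢
  have hl1 : 512 * Real.log (1 / t) ≤ l := le_trans (mul_le_mul_of_nonneg_right (by linarith) hlt) hl
  have hl0 : 0 ≤ l := by linarith
  have hex : Real.exp (-(l / 256)) ≤ t ^ 2 := by
    rw [one_div, Real.log_inv] at hl1
    rw [← Real.exp_log (pow_pos ht0 2), Real.log_pow]
    exact Real.exp_le_exp.2 (by push_cast; linarith)
  refine (hT n t e (c * l * k - (5 * C' + 16 * A * K ^ 2) * (n * t ^ 2)) _ (fun v0 _ => Y l v0)
    (by omega) ht he (hs.trans hcc1) ?_ (fun v _ => meas_Y l v) ?_).trans (ex_mono ?_)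
  · refine (measSet_Co K e t measurable_id).inter ?_
    refine measurableSet_le (f := fun _ : V n => k) (g := fun x : V n =>
      ((Finset.univ.filter fun i => l * aS x ≤ th x i ^ 2).card : ℝ)) measurable_const ?_
    simp only [Finset.card_filter, Nat.cast_sum]
    refine Finset.measurable_sum _ fun i _ => ?_
    simp only [Nat.cast_ite, Nat.cast_one, Nat.cast_zero]
    exact Measurable.ite (measurableSet_le (by fun_prop)
      (((measurable_pi_apply i).comp (meas_th measurable_id)).pow_const 2)) measurable_const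
      measurable_const
  · rintro x ⟨hx, hk⟩
    refine ⟨hx, fun m v0 v g => ⟨fun y => ?_, fun _ => ?_⟩⟩
    · have := g.v0p
      unfold Y
      split_ifs with h
      · rw [abs_of_nonneg (by positivity), le_div_iff₀ (by positivity)]; linarith
      · rw [abs_zero]; positivity
    have hq := (Co.le hx hK ht0).trans (mul_le_mul_of_nonneg_left hs hK0.le)
    have hb := (hG (12 * K) (by linarith) m v g.vp (by
      linarith [mul_le_mul_of_nonneg_left (g.w1.trans (by linarith : 2 * aS x ≤ 2 * (K * c)))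
        (sq_nonneg K)]) g.m1).2.2.2.2.2.2.2.2 l
    obtain ⟨g1, g2⟩ := gE_le g.vp g.v0p (by linarith [g.w3, g.v0p]) hl0 hb
    have h2 := mul_le_mul_of_nonneg_left ((poly_exp hl0).trans
      (mul_le_mul_of_nonneg_left hex (by norm_num))) (by linarith : 0 ≤ C')
    have b1 : (l / 256) * (Finset.univ.filter fun i => l * aS x ≤ th x i ^ 2).card ≤
        ∑ i, Y l v0 (x i) := by
      rw [Finset.card_filter, Nat.cast_sum, Finset.mul_sum]
      refine Finset.sum_le_sum fun i _ => ?_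
      unfold Y
      by_cases h : l * aS x ≤ th x i ^ 2
      · have e : th x i ^ 2 ≤ x i ^ 2 := tanh_sq_le (x i)
        rw [if_pos h, if_pos (by linarith [mul_le_mul_of_nonneg_left g.v3 hl0, sq_nonneg (x i)])]
        simp
      · rw [if_neg h]; split_ifs <;> simp; positivity
    have b2 : c * l * k ≤
        (l / 256) * (Finset.univ.filter fun i => l * aS x ≤ th x i ^ 2).card := by
      have := mul_le_mul_of_nonneg_left hk (mul_nonneg hc0.le hl0)
      refine this.trans (mul_le_mul_of_nonneg_right ?_ (Nat.cast_nonneg _))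
      linarith [mul_le_mul_of_nonneg_right hc2 hl0]
    have b3 : v0 ^ 4 ≤ 16 * K ^ 2 * t ^ 2 := by
      have e1 := pow_le_pow_left₀ g.v0p.le g.v3 4
      have e2 := pow_le_pow_left₀ (sq_nonneg (aS x)) hx.q2 2
      linarith
    have b4 : gE (Y l v0) m v + 2 * Sv (Y l v0) m v0 v + A * v0 ^ 4 ≤
        (5 * C' + 16 * A * K ^ 2) * t ^ 2 := by
      have := mul_le_mul_of_nonneg_left b3 (by linarith : 0 ≤ A)
      unfold Sv
      linarith
    have b5 := mul_le_mul_of_nonneg_left b4 (by linarith : (0 : ℝ) ≤ n)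
    linarith
  · have b1 : 0 ≤ (n : ℝ) * t ^ 2 := by positivity
    linarith [mul_le_mul_of_nonneg_right a2 b1, mul_nonneg a1 b1, mul_nonneg a3 hlog]

lemma cnt_of_cntS (h : CntS) : CntStmt := fun K hK => by
  obtain ⟨c, hc, C, h⟩ := h K hK
  refine ⟨c, hc, C + 1, fun n t e l k hn ht he hs hl => ?_⟩
  have hn0 : (1 : ℝ) ≤ n := by exact_mod_cast (by omega : 1 ≤ n)
  have ht0 : 0 < t := lt_of_lt_of_le (by positivity) ht
  have hlog : 0 ≤ Real.log n := Real.log_nonneg hn0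
  have h1 : Real.log (1 / t) ≤ Real.log n :=
    Real.log_le_log (by positivity) ((one_div_le ht0 (by linarith)).2 ht)
  push_cast at hl ⊢
  refine (h n t e l k (by omega) ht he hs ?_).trans (ex_mono ?_)
  · linarith [mul_le_mul_of_nonneg_left h1 (Nat.cast_nonneg C : (0 : ℝ) ≤ C)]
  · nlinarith [show 0 ≤ (n : ℝ) * t ^ 2 by positivity]

theorem cntGlue : CntGlue := fun a b c d => cnt_of_cntS (cntSGlue a b c d)

end Crest.Agent.T157.Kb
end
end

-- ▼ part T157/KbEvA_26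
section

/-!
# Row 157, part A2, section 2 (helper26): `C4Stmt`, `EvAGlue`
-/

set_option autoImplicit false

noncomputable section

namespace Crest.Agent.T157.Kb

open MeasureTheory ProbabilityTheory Matrix Set Filter
open scoped ENNReal NNReal
open Crest.Agent.T157.E Crest.Agent.T157.Cond Crest.Agent.T157.Tap
open Crest.Agent.T157.Conc (ex)

namespace EvA26

theorem tanh_sq_le (y : ℝ) : Real.tanh y ^ 2 ≤ y ^ 2 := by
  nlinarith [tanh_mul_sub_nonneg y, sq_nonneg (y - Real.tanh y)]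

theorem R_le4 (x : ℝ) : Real.tanh x * (x - Real.tanh x) ≤ x ^ 4 := by
  have h := (convex_Icc (-|x|) |x|).norm_image_sub_le_of_norm_hasDerivWithin_le
    (f := fun y => y - Real.tanh y) (f' := fun y => Real.tanh y ^ 2) (C := x ^ 2) (x := 0) (y := x)
    (fun y _ => (((hasDerivAt_id' y).sub (hasDerivAt_tanh y)).congr_deriv (by ring)).hasDerivWithinAt)
    (fun y hy => by
      rw [Real.norm_eq_abs, abs_of_nonneg (sq_nonneg _)]
      refine (tanh_sq_le y).trans ?_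
      rw [← sq_abs x]
      exact sq_le_sq' hy.1 hy.2)
    ⟨by linarith [abs_nonneg x], abs_nonneg x⟩ ⟨neg_abs_le x, le_abs_self x⟩
  simp only [Real.tanh_zero, sub_zero, Real.norm_eq_abs] at h
  have h1 : |Real.tanh x| ≤ |x| := sq_le_sq.1 (tanh_sq_le x)
  calc _ ≤ |Real.tanh x * (x - Real.tanh x)| := le_abs_self _
    _ = |Real.tanh x| * |x - Real.tanh x| := abs_mul _ _
    _ ≤ |x| * (x ^ 2 * |x|) := mul_le_mul h1 h (abs_nonneg _) (abs_nonneg _)
    _ = x ^ 2 * (|x| * |x|) := by ring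
    _ = x ^ 4 := by rw [abs_mul_abs_self]; ring

theorem exp_gR (m : ℝ) {v : ℝ} (hv : 0 < v) (x : ℝ) :
    Real.exp (gR m v 0 x) = (√(2 * Real.pi * v))⁻¹ * Real.exp (-(x - m) ^ 2 / (2 * v)) := by
  have hp : 0 < 2 * Real.pi * v := by positivity
  have e : gR m v 0 x = -Real.log (√(2 * Real.pi * v)) + -(x - m) ^ 2 / (2 * v) := by
    rw [gR, Real.log_sqrt hp.le]; simp; ring
  rw [e, Real.exp_add, Real.exp_neg, Real.exp_log (Real.sqrt_pos.2 hp)]

theorem pt {m v : ℝ} (hv : 0 < v) (hm : m ^ 2 ≤ 3 * v) (x : ℝ) :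
    Real.exp (gR m v 0 x + 3 / (2 * v) * (Real.tanh x * (x - Real.tanh x))) ≤
      gaussianPDFReal m v.toNNReal x +
        12288 * Real.exp 12 * v * gaussianPDFReal 0 (16 * v).toNNReal x := by
  have hp : 0 < 2 * Real.pi * v := by positivity
  have hs := Real.sqrt_pos.2 hp
  set y := 3 / (2 * v) * (Real.tanh x * (x - Real.tanh x)) with hy
  have y0 : 0 ≤ y := mul_nonneg (by positivity) (tanh_mul_sub_nonneg x)
  have y1 : y ≤ 3 / (2 * v) * x ^ 4 := mul_le_mul_of_nonneg_left (R_le4 x) (by positivity)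
  have y2 : y ≤ 3 * x ^ 2 / (8 * v) := by
    have : Real.tanh x * (x - Real.tanh x) ≤ x ^ 2 / 4 := by
      nlinarith [sq_nonneg (x - 2 * Real.tanh x)]
    refine (mul_le_mul_of_nonneg_left this (by positivity)).trans (le_of_eq ?_)
    field_simp; ring
  have y3 : Real.exp y ≤ 1 + y * Real.exp y := by
    have h1 := Real.add_one_le_exp (-y)
    have h2 : Real.exp (-y) * Real.exp y = 1 := by rw [← Real.exp_add]; simp
    nlinarith [Real.exp_pos y]
  have y4 : x ^ 4 ≤ 2048 * v ^ 2 * Real.exp (x ^ 2 / (32 * v)) := by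
    have h1 := Real.quadratic_le_exp_of_nonneg (x := x ^ 2 / (32 * v)) (by positivity)
    have h2 : x ^ 4 = 2048 * v ^ 2 * ((x ^ 2 / (32 * v)) ^ 2 / 2) := by field_simp; ring
    have h3 : 0 ≤ x ^ 2 / (32 * v) := by positivity
    rw [h2]
    exact mul_le_mul_of_nonneg_left (by linarith) (by positivity)
  have y5 : y * Real.exp y ≤ 3072 * v * Real.exp (x ^ 2 / (32 * v) + 3 * x ^ 2 / (8 * v)) := by
    have h1 : y ≤ 3072 * v * Real.exp (x ^ 2 / (32 * v)) := by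
      refine y1.trans ((mul_le_mul_of_nonneg_left y4 (by positivity)).trans (le_of_eq ?_))
      field_simp; ring
    rw [Real.exp_add, ← mul_assoc]
    exact mul_le_mul h1 (Real.exp_le_exp.2 y2) (Real.exp_pos _).le (by positivity)
  have y6 : Real.exp (-(x - m) ^ 2 / (2 * v)) * Real.exp (x ^ 2 / (32 * v) + 3 * x ^ 2 / (8 * v)) ≤
      Real.exp 12 * Real.exp (-(x - 0) ^ 2 / (2 * (16 * v))) := by
    rw [← Real.exp_add, ← Real.exp_add]
    refine Real.exp_le_exp.2 ?_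
    have : -(x - m) ^ 2 / (2 * v) + (x ^ 2 / (32 * v) + 3 * x ^ 2 / (8 * v)) -
        (12 + -(x - 0) ^ 2 / (2 * (16 * v))) =
        (-x ^ 2 / 16 + x * m - m ^ 2 / 2 - 12 * v) / v := by field_simp; ring
    have h2 : (-x ^ 2 / 16 + x * m - m ^ 2 / 2 - 12 * v) / v ≤ 0 :=
      div_nonpos_of_nonpos_of_nonneg (by nlinarith [sq_nonneg (x - 8 * m)]) hv.le
    linarith
  have s4 : √(2 * Real.pi * (16 * v)) = 4 * √(2 * Real.pi * v) := by
    rw [show 2 * Real.pi * (16 * v) = 4 ^ 2 * (2 * Real.pi * v) by ring,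
      Real.sqrt_mul (by positivity), Real.sqrt_sq (by norm_num)]
  rw [Real.exp_add, exp_gR m hv, gaussianPDFReal, gaussianPDFReal, Real.coe_toNNReal _ hv.le,
    Real.coe_toNNReal _ (by positivity), s4]
  have z1 : Real.exp (-(x - m) ^ 2 / (2 * v)) * Real.exp y ≤ Real.exp (-(x - m) ^ 2 / (2 * v)) +
      3072 * v * (Real.exp 12 * Real.exp (-(x - 0) ^ 2 / (2 * (16 * v)))) := by
    have a1 := mul_le_mul_of_nonneg_left (y3.trans (add_le_add le_rfl y5))
      (Real.exp_pos (-(x - m) ^ 2 / (2 * v))).le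
    have a2 := mul_le_mul_of_nonneg_left y6 (show 0 ≤ 3072 * v by positivity)
    linarith
  rw [mul_assoc]
  refine (mul_le_mul_of_nonneg_left z1 (inv_pos.2 hs).le).trans (le_of_eq ?_)
  field_simp
  ring

theorem key {D A B c1 q1 q t a w R : ℝ} (D1 : 1 ≤ D) (hA : A = 2 * D + 3) (B1 : 1 ≤ B)
    (hc : 16 * (D + 1) * c1 = 1) (h1 : q1 ≤ c1) (h2 : A ^ 2 * q1 ≤ 1) (h3 : B ^ 2 * q1 ≤ 1)
    (t0 : 0 < t) (q0 : 0 ≤ q) (ha : a ^ 2 ≤ q) (hq : q ≤ q1) (ht : t ≤ q1)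
    (hR : w = R + (q + t) * q - t - (a + t) * a) (hw : w ≤ 3 * (q + t))
    (hh : A * (q + t) ^ 2 ≤ w ∨ (|w| ≤ B * (q + t) ^ 2 ∧ A * (q + t) ^ 2 ≤ R) ∨
      (q ^ 2 ≤ c1 * t ∧ -(t / 2) ≤ w ∧ w ≤ A * (q + t) ^ 2)) :
    w ^ 2 + 2 * D * (q + t) ^ 2 * (q + t + q) ≤ 3 * (q + t + q) * R := by
  have c0 : c1 ≤ 1 / 32 := by nlinarith
  have c0' : 0 < c1 := by nlinarith
  have hR' : w + t - t ^ 2 / 4 - (q + t) * q ≤ R := by nlinarith [sq_nonneg (a + t / 2)]
  generalize hg : q + t = g at *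
  have g0 : 0 < g := by linarith
  have g1 : g ≤ 2 * q1 := by linarith
  have s0 : 0 < g + q := by linarith
  have A0 : 5 ≤ A := by linarith
  have tg : t ≤ g := by linarith
  have qg : q ≤ g := by linarith
  have t4 : t ^ 2 / 4 ≤ t / 4 * q1 := by nlinarith
  have gg : 2 * g ^ 3 ≤ 2 * g ^ 2 * (g + q) := by nlinarith [mul_nonneg (sq_nonneg g) q0]
  rcases hh with h | ⟨h, h'⟩ | ⟨h, h', h''⟩
  · have w0 : 0 ≤ w := le_trans (by positivity) h
    have a1 : w ^ 2 ≤ 3 * g * w := by nlinarith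
    have a2 := mul_le_mul_of_nonneg_left hR' (show 0 ≤ 3 * (g + q) by positivity)
    rcases le_total t q with b | b
    · have b1 : A * g ^ 2 * (g + q) ≤ 3 * q * w := by
        have : A * g ^ 2 * (g + q) ≤ A * g ^ 2 * (3 * q) :=
          mul_le_mul_of_nonneg_left (by linarith) (by positivity)
        nlinarith [mul_le_mul_of_nonneg_left h (show 0 ≤ 3 * q by positivity)]
      have b2 : -(g ^ 2) ≤ t - t ^ 2 / 4 - g * q := by nlinarith
      have b3 := mul_le_mul_of_nonneg_left b2 (show 0 ≤ 3 * (g + q) by positivity)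
      rw [hA] at b1
      nlinarith
    · have b1 : A * g ≤ 1 := by nlinarith
      have b2 : 3 * g / 8 - g ^ 2 ≤ t - t ^ 2 / 4 - g * q := by nlinarith
      have b3 : 2 * D * g ^ 2 ≤ 3 * (3 * g / 8 - g ^ 2) := by rw [hA] at b1; nlinarith
      have b4 := mul_le_mul_of_nonneg_left (b3.trans (mul_le_mul_of_nonneg_left b2 (by norm_num))) s0.le
      nlinarith [mul_nonneg q0 w0]
  · have a1 : w ^ 2 ≤ (B * g ^ 2) ^ 2 := by rw [← sq_abs]; exact pow_le_pow_left₀ (abs_nonneg _) h 2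
    have a2 : B ^ 2 * g ≤ 2 := by nlinarith [sq_nonneg B]
    have a3 : (B * g ^ 2) ^ 2 ≤ 2 * g ^ 3 := by
      have := mul_le_mul_of_nonneg_right a2 (show 0 ≤ g ^ 3 by positivity)
      nlinarith
    have a4 := mul_le_mul_of_nonneg_left h' (show 0 ≤ 3 * (g + q) by positivity)
    have a5 : (2 + 2 * D) * (g ^ 2 * (g + q)) ≤ 3 * A * (g ^ 2 * (g + q)) :=
      mul_le_mul_of_nonneg_right (by linarith) (by positivity)
    nlinarith
  · have a1 : w ^ 2 ≤ t ^ 2 / 4 + (A * g ^ 2) ^ 2 := by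
      rcases le_total 0 w with b | b
      · nlinarith [sq_nonneg t]
      · nlinarith [sq_nonneg (A * g ^ 2)]
    have a2 : A ^ 2 * g ≤ 2 := by nlinarith [sq_nonneg A]
    have a3 : (A * g ^ 2) ^ 2 ≤ 2 * g ^ 3 := by
      have := mul_le_mul_of_nonneg_right a2 (show 0 ≤ g ^ 3 by positivity)
      nlinarith
    have a4 : g * q ≤ 2 * c1 * t := by rw [← hg]; nlinarith
    have a5 : t / 3 ≤ R := by nlinarith
    have a6 : g ^ 2 ≤ 4 * c1 * t := by rw [← hg]; nlinarith [sq_nonneg (q - t)]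
    have a7 : (2 + 2 * D) * g ^ 2 ≤ t / 2 := by
      have := mul_le_mul_of_nonneg_left a6 (show 0 ≤ 2 + 2 * D by linarith)
      nlinarith
    have a8 := mul_le_mul_of_nonneg_right a7 s0.le
    have a9 := mul_le_mul_of_nonneg_left a5 (show 0 ≤ 3 * (g + q) by positivity)
    have a10 : t ^ 2 / 4 ≤ t / 4 * (g + q) := by nlinarith
    nlinarith [mul_pos t0 s0]

end EvA26

open EvA26

theorem c4Stmt : C4Stmt := by
  refine ⟨12288 * Real.exp 12, fun m v hv _ hm => ?_⟩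
  have c0 : 0 ≤ 12288 * Real.exp 12 * v := by positivity
  calc _ ≤ ∫⁻ x, (gaussianPDF m v.toNNReal x +
        ENNReal.ofReal (12288 * Real.exp 12 * v) * gaussianPDF 0 (16 * v).toNNReal x) := by
        refine lintegral_mono fun x => (ENNReal.ofReal_le_ofReal (pt hv hm x)).trans ?_
        rw [gaussianPDF, gaussianPDF, ← ENNReal.ofReal_mul c0]
        exact ENNReal.ofReal_add_le
    _ = 1 + ENNReal.ofReal (12288 * Real.exp 12 * v) := by
        rw [lintegral_add_left (measurable_gaussianPDF _ _),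
          lintegral_const_mul _ (measurable_gaussianPDF _ _),
          lintegral_gaussianPDF_eq_one _ (by simpa using hv),
          lintegral_gaussianPDF_eq_one _ (by simpa using hv), mul_one]
    _ ≤ _ := by
        rw [← ENNReal.ofReal_one, ← ENNReal.ofReal_add zero_le_one c0]
        exact ENNReal.ofReal_le_ofReal (by linarith [Real.add_one_le_exp (12288 * Real.exp 12 * v)])

theorem evAGlue : EvAGlue := by
  rintro hId ⟨C0, hT⟩ ⟨C4, h4⟩
  set D : ℝ := 2 * |C4| + 1 with hD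
  have D1 : 1 ≤ D := by linarith [abs_nonneg C4]
  set c1 : ℝ := 1 / (16 * (D + 1)) with hc1
  have c10 : 0 < c1 := by positivity
  have hc : 16 * (D + 1) * c1 = 1 := by rw [hc1]; field_simp
  have c32 : c1 ≤ 1 / 32 := by nlinarith
  refine ⟨2 * D + 3, by linarith, c1, c10, fun B B1 => ?_⟩
  set q1 : ℝ := min c1 (min (1 / (2 * D + 3) ^ 2) (1 / B ^ 2)) with hq1
  have B0 : 0 < B := by linarith
  have q10 : 0 < q1 := by positivity
  have h1 : q1 ≤ c1 := min_le_left _ _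
  have h2 : (2 * D + 3) ^ 2 * q1 ≤ 1 := by
    have : q1 ≤ 1 / (2 * D + 3) ^ 2 := (min_le_right _ _).trans (min_le_left _ _)
    rwa [le_div_iff₀ (by positivity), mul_comm] at this
  have h3 : B ^ 2 * q1 ≤ 1 := by
    have : q1 ≤ 1 / B ^ 2 := (min_le_right _ _).trans (min_le_right _ _)
    rwa [le_div_iff₀ (by positivity), mul_comm] at this
  refine ⟨q1, q10, C0 + 18, fun n t hn ht => ?_⟩
  have n3 : 3 ≤ n := by omega
  have n0 : 0 < n := by omega
  have nr : (3 : ℝ) ≤ n := by exact_mod_cast n3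
  have t0 : 0 < t := lt_of_lt_of_le (by positivity) ht.1
  have hlog : 1 ≤ Real.log n := by
    rw [Real.le_log_iff_exp_le (by linarith)]
    linarith [Real.exp_one_lt_d9]
  refine (hT n t (n * t - 18) _
    (fun _ v _ y => 3 / (2 * v) * (Real.tanh y * (y - Real.tanh y))) (by omega) ?_
    (fun _ _ _ => by fun_prop) ?_).trans (Conc.ex_mono (by push_cast; linarith))
  · have hm : ∀ {f g : V n → ℝ}, Measurable f → Measurable g → Measurable fun x => f x ≤ g x :=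
      fun hf hg => measurableSet_setOf.1 (measurableSet_le hf hg)
    refine measurableSet_setOf.2 ((hm ?_ ?_).and ((hm ?_ ?_).and ((hm ?_ ?_).or
      (((hm ?_ ?_).and (hm ?_ ?_)).or ((hm ?_ ?_).and ((hm ?_ ?_).and (hm ?_ ?_))))))) <;> fun_prop
  · rintro x ⟨hq, hw, hh⟩
    obtain ⟨i1, i2, -⟩ := hId n t x n0 t0
    have q0 := aS_nonneg x
    have ha := bS_sq_le n0 x
    have g0 : 0 < ga t x := by unfold ga; linarith
    have g1 : ga t x ≤ 1 / 16 := by unfold ga; linarith [ht.2]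
    have tg : t ≤ ga t x := by unfold ga; linarith
    have m2 : mu t x ^ 2 ≤ 2 * ga t x := by
      unfold mu ga; nlinarith [sq_nonneg (bS x - t), ht.2]
    have k := key D1 rfl B1 hc h1 h2 h3 t0 q0 ha hq ht.2 i1 hw hh
    change ww t x ^ 2 + 2 * D * ga t x ^ 2 * (ga t x + aS x) ≤ 3 * (ga t x + aS x) * R4 x at k
    have s0 : 0 < ga t x + aS x := by linarith
    have k1 : Wt t x + D * ga t x ≤ 3 / (2 * ga t x) * R4 x := by
      have e1 : Wt t x + D * ga t x = (ww t x ^ 2 + 2 * D * ga t x ^ 2 * (ga t x + aS x)) /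
          (2 * ga t x * (ga t x + aS x)) := by rw [Wt]; field_simp
      have e2 : 3 / (2 * ga t x) * R4 x = 3 * (ga t x + aS x) * R4 x /
          (2 * ga t x * (ga t x + aS x)) := by field_simp
      rw [e1, e2]
      exact div_le_div_of_nonneg_right k (by positivity)
    have R0 : 0 ≤ R4 x := by
      by_contra hc'
      nlinarith [mul_pos s0 (neg_pos.2 (not_le.1 hc')), sq_nonneg (ww t x),
        mul_pos (mul_pos (show 0 < 2 * D by linarith) (pow_pos g0 2)) s0]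
    have R6 : R4 x ≤ 6 * ga t x := by
      have : aS x ≤ ga t x := by unfold ga; linarith
      nlinarith [sq_nonneg (mu t x - bS x), mul_nonneg g0.le q0]
    refine ⟨mu t x, ga t x, 0, n * Wt t x, ?_, ⟨ht.1.trans tg, by linarith⟩, ⟨by norm_num, by norm_num⟩,
      ?_, fun m0 v0 u0 hcl => ?_⟩
    · exact abs_le_of_sq_le_sq' (by nlinarith) (by norm_num) |> abs_le.2
    · rw [i2 _ g0, div_self g0.ne', Real.log_one]
      exact le_of_eq (by congr 2; ring)
    · obtain ⟨c1', c2, c3, -, -, c6⟩ := hcl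
      rw [c6 rfl]
      have v0p : 0 < v0 := g0.trans_le c2
      have n2 : 2 / (n : ℝ) ≤ 1 := by rw [div_le_one (by linarith)]; linarith
      have v2 : v0 ≤ 2 * ga t x := by nlinarith
      have d1 : |mu t x - m0| ≤ ga t x := by
        refine c1'.trans (div_le_self g0.le (by nlinarith))
      have d2 : (mu t x - m0) ^ 2 ≤ ga t x ^ 2 := by
        rw [← sq_abs]; exact pow_le_pow_left₀ (abs_nonneg _) d1 2
      have m3 : m0 ^ 2 ≤ 3 * v0 := by
        nlinarith [sq_nonneg (mu t x / 2 + 2 * (mu t x - m0))]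
      refine ⟨C4 * v0, h4 m0 v0 v0p (by linarith) m3, ?_⟩
      have e1 : ∑ i, 3 / (2 * v0) * (Real.tanh (x i) * (x i - Real.tanh (x i))) =
          3 / (2 * v0) * (n * R4 x) := by
        rw [← Finset.mul_sum, R4, avg]
        simp only [th]
        field_simp
      rw [e1]
      have b1 : C4 * v0 ≤ 2 * |C4| * ga t x := by
        have := mul_le_mul (le_abs_self C4) v2 v0p.le (abs_nonneg C4)
        linarith
      have b2 : 3 / (2 * ga t x) * (1 - 2 / n) ≤ 3 / (2 * v0) := by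
        rw [div_mul_eq_mul_div, div_le_div_iff₀ (by positivity) (by positivity)]
        have p0 : 0 ≤ 2 / (n : ℝ) := by positivity
        have := mul_le_mul_of_nonneg_left c3 (show 0 ≤ 1 - 2 / (n : ℝ) by linarith)
        nlinarith [mul_nonneg g0.le (mul_nonneg p0 p0)]
      have b3 := mul_le_mul_of_nonneg_right b2 (mul_nonneg (show (0 : ℝ) ≤ n by linarith) R0)
      have b4 : 3 / (2 * ga t x) * (1 - 2 / n) * (n * R4 x) =
          n * (3 / (2 * ga t x) * R4 x) - 3 * (R4 x / ga t x) := by field_simp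
      have b5 : R4 x / ga t x ≤ 6 := by rwa [div_le_iff₀ g0]
      have b6 : Wt t x + C4 * v0 + t ≤ 3 / (2 * ga t x) * R4 x := by rw [hD] at k1; linarith
      have b7 := mul_le_mul_of_nonneg_left b6 (show (0 : ℝ) ≤ n by linarith)
      linarith

end Crest.Agent.T157.Kb

end
end

-- ▼ part T157/KbEvR_22
section

/-!
# Row 157, part A2, section 2 (helper22): `Kb.evRGlue`
-/

set_option autoImplicit false

noncomputable section

namespace Crest.Agent.T157.Kb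

open MeasureTheory Matrix Set
open scoped ENNReal
open Crest.Agent.T157.E Crest.Agent.T157.Cond Crest.Agent.T157.Tap
open Crest.Agent.T157.Conc (ex)

namespace Ev22

variable {n : ℕ}

lemma th_abs (x : ℝ) : |Real.tanh x| ≤ |x| := by
  have h := tanh_mul_sub_nonneg x
  exact sq_le_sq.1 (by nlinarith [sq_nonneg (x - Real.tanh x)])

lemma sub_abs (x : ℝ) : |x - Real.tanh x| ≤ |x| := by
  have h := tanh_mul_sub_nonneg x
  exact sq_le_sq.1 (by nlinarith [sq_nonneg (Real.tanh x)])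

lemma sub_cube (x : ℝ) : |x - Real.tanh x| ≤ x ^ 2 * |x| := by
  have h := (convex_Icc (-|x|) |x|).norm_image_sub_le_of_norm_hasDerivWithin_le
    (f := fun y => y - Real.tanh y) (f' := fun y => Real.tanh y ^ 2) (C := x ^ 2) (x := 0) (y := x)
    (fun y _ => (((hasDerivAt_id' y).sub (hasDerivAt_tanh y)).congr_deriv
      (by ring)).hasDerivWithinAt)
    (fun y hy => by
      rw [Real.norm_eq_abs, abs_of_nonneg (sq_nonneg _)]
      exact sq_le_sq.2 ((th_abs y).trans (abs_le.2 hy)))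
    ⟨by simp, by simp⟩ ⟨neg_abs_le x, le_abs_self x⟩
  simpa using h

lemma sub_sq6 (x : ℝ) : (x - Real.tanh x) ^ 2 ≤ (x ^ 2) ^ 3 := by
  have h := pow_le_pow_left₀ (abs_nonneg _) (sub_cube x) 2
  rw [sq_abs, mul_pow, sq_abs] at h
  exact h.trans_eq (by ring)

lemma sub_sq (x : ℝ) : |x - Real.tanh x| ≤ x ^ 2 := by
  have h := mul_le_mul (sub_cube x) (sub_abs x) (abs_nonneg _) (by positivity)
  rw [mul_assoc, abs_mul_abs_self, abs_mul_abs_self] at h
  exact abs_le_of_sq_le_sq (by nlinarith) (sq_nonneg _)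

lemma r_abs (x : ℝ) : |Real.tanh x * (x - Real.tanh x)| ≤ x ^ 2 / 4 := by
  rw [abs_of_nonneg (tanh_mul_sub_nonneg x)]
  nlinarith [sq_nonneg (x - 2 * Real.tanh x)]

lemma r_sq (x : ℝ) : (Real.tanh x * (x - Real.tanh x)) ^ 2 ≤ (x ^ 2) ^ 4 := by
  have h := mul_le_mul (sq_le_sq.2 (th_abs x)) (sub_sq6 x) (sq_nonneg _) (sq_nonneg _)
  rw [mul_pow]
  exact h.trans_eq (by ring)

/-- the body of `TiltStmt` -/
def TB (C : ℕ) : Prop := ∀ (n : ℕ) (t R : ℝ) (E : Set (V n)) (Y : ℝ → ℝ → ℝ → ℝ → ℝ),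
  2 ≤ n → MeasurableSet E → (∀ m v u, Measurable (Y m v u)) →
  (∀ x ∈ E, ∃ m v u g : ℝ, |m| ≤ 4 ∧ v ∈ Icc (1 / (n : ℝ)) 20 ∧ u ∈ Icc (-2 : ℝ) (1 / 2) ∧
    rho t x ≤ Real.exp (∑ i, gR m v u (x i) + g) ∧ ∀ m0 v0 u0, Cl n m v u m0 v0 u0 →
      ∃ Λ : ℝ, ∫⁻ y, ex (gR m0 v0 u0 y + Y m0 v0 u0 y) ≤ ex Λ ∧
        g + n * Λ + R ≤ ∑ i, Y m0 v0 u0 (x i)) →
  Px t E ≤ ex (C * Real.log n - R)

/-- `MgfStmt` at `u = 0`, for `Y = f / v` -/
def MB (C : ℝ) : Prop := ∀ K ≥ (1 : ℝ), ∀ (m v A : ℝ) (j : ℕ) (f : ℝ → ℝ), 0 < v →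
  C * K ^ 2 * v ≤ 1 → |m| ≤ K * v → Measurable f → (∀ y, |f y| ≤ y ^ 2 / 64) → 0 ≤ A → j ≤ 8 →
  (∀ y, f y ^ 2 ≤ A * (y ^ 2) ^ j) →
  ∫⁻ y, ex (gR m v 0 y + f y / v) ≤
    ex (gE f m v / v + 2 * (C * (A / v ^ 2) * v ^ j) + C * K ^ 2 * v ^ 4)

lemma mb_of (h : MgfStmt) : ∃ C ≥ (1 : ℝ), MB C := by
  obtain ⟨C, hC, h⟩ := h
  refine ⟨C, hC, fun K hK m v A j f hv h1 h2 hf h3 hA hj h4 => ?_⟩
  obtain ⟨k1, k2⟩ := h K hK m v 0 (fun y => f y / v) hv h1 h2
    (by rw [abs_zero]; positivity) (by fun_prop) fun y => by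
      rw [abs_div, abs_of_pos hv, div_le_div_iff₀ hv (by positivity)]
      have := h3 y
      nlinarith [mul_le_mul_of_nonneg_right this hv.le, sq_nonneg v]
  have k3 := k2 (A / v ^ 2) j (by positivity) hj fun y => by
    rw [div_pow, div_mul_eq_mul_div]
    refine div_le_div_of_nonneg_right ((h4 y).trans ?_) (by positivity)
    exact mul_le_mul_of_nonneg_left (pow_le_pow_left₀ (sq_nonneg _) (by linarith) j) hA
  simp only [sub_zero, div_one, one_pow] at k1 k3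
  refine k1.trans (Conc.ex_mono ?_)
  have e : gE (fun y => f y / v) m v = gE f m v / v := by
    unfold gE; exact integral_div _ _
  rw [e]; linarith

lemma geo {B Cm q a t γ : ℝ} (hB : 1 ≤ B) (hC : 1 ≤ Cm) (hq0 : 0 ≤ q) (ht0 : 0 < t)
    (eg : γ = q + t) (a1 : t ≤ B * q ^ 2) (a2 : 18 * Cm * B ^ 2 * q ≤ 1) (a4 : |a| ≤ B * γ) :
    γ ≤ 2 * q ∧ q ≤ 1 ∧ |a + t| ≤ 4 ∧ ∀ i m v : ℝ, 0 < i → i ≤ t → |a + t - m| ≤ γ * i * i →
      γ ≤ v → v ≤ γ * (1 + 2 * i) → v ≤ q * (1 + 2 * B * q) ∧ |m| ≤ 3 * B * v ∧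
        |m - a| ≤ 2 * B * q ^ 2 ∧ Cm * (3 * B) ^ 2 * v ≤ 1 := by
  have hBq : 18 * (B * q) ≤ 1 := by
    have k := mul_le_mul_of_nonneg_right hC (sq_nonneg B)
    have : B * q ≤ Cm * B ^ 2 * q := mul_le_mul_of_nonneg_right (by nlinarith) hq0
    linarith
  have hq : 18 * q ≤ 1 := by nlinarith
  have hB2 : 18 * (B * q ^ 2) ≤ q := by nlinarith
  have hγ : γ ≤ 2 * q := by linarith
  have hg : 0 < γ := by linarith
  have hBγ : γ ≤ B * γ := le_mul_of_one_le_left hg.le hB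
  have hmu : |a + t| ≤ 2 * (B * γ) := by
    refine (abs_add_le _ _).trans ?_
    rw [abs_of_pos ht0]; linarith
  have hBγ' : B * γ ≤ B * (2 * q) := mul_le_mul_of_nonneg_left hγ (by linarith)
  refine ⟨hγ, by linarith, by linarith, fun i m v hi0 hi c1 c2 c3 => ?_⟩
  have k0 : γ * i * i ≤ γ * i * 1 := mul_le_mul_of_nonneg_left (by linarith) (by positivity)
  have k1 : γ * i ≤ 2 * q * (B * q ^ 2) := mul_le_mul hγ (hi.trans a1) hi0.le (by linarith)
  have k2 : q * (B * q ^ 2) ≤ 1 / 18 * (B * q ^ 2) :=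
    mul_le_mul_of_nonneg_right (by linarith) (by positivity)
  have k3 : 0 ≤ B * q ^ 2 := by positivity
  have hv1 : v ≤ q + 2 * (B * q ^ 2) := by linarith
  have hBv : B * γ ≤ B * v := mul_le_mul_of_nonneg_left c2 (by linarith)
  refine ⟨by linarith, ?_, ?_, ?_⟩
  · have := abs_sub_abs_le_abs_sub m (a + t)
    rw [abs_sub_comm] at this
    linarith
  · have k := abs_sub_le m (a + t) a
    rw [abs_sub_comm m (a + t), add_sub_cancel_left, abs_of_pos ht0] at k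
    linarith
  · have := mul_le_mul_of_nonneg_left (show v ≤ 2 * q by linarith)
      (show 0 ≤ Cm * (3 * B) ^ 2 by positivity)
    linarith

lemma wt_le {B q γ w : ℝ} (hq0 : 0 ≤ q) (hg : 0 < γ) (hγ : γ ≤ 2 * q) (h : |w| ≤ B * γ ^ 2) :
    w ^ 2 / (2 * γ * (γ + q)) ≤ 2 * B ^ 2 * q ^ 2 := by
  rw [div_le_iff₀ (by positivity)]
  have k1 : w ^ 2 ≤ (B * γ ^ 2) ^ 2 := by
    rw [← sq_abs]; exact pow_le_pow_left₀ (abs_nonneg _) h 2
  have k2 : γ ^ 2 ≤ (2 * q) ^ 2 := pow_le_pow_left₀ hg.le hγ 2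
  have k3 := mul_le_mul_of_nonneg_left k2 (show 0 ≤ B ^ 2 * γ ^ 2 by positivity)
  have k4 : 0 ≤ B ^ 2 * q ^ 2 * γ * q := by positivity
  linarith

/-- one event -/
lemma one (hI : IdStmt) {Ct : ℕ} (hT : TB Ct) {Cm : ℝ} (hC : 1 ≤ Cm) (hM : MB Cm) {B : ℝ}
    (hB : 1 ≤ B) {t r A : ℝ} {j : ℕ} {E : Set (V n)} {f : ℝ → ℝ} (hn : 2 ≤ n)
    (ht : 1 / (n : ℝ) ≤ t) (hE : MeasurableSet E) (hf : Measurable f)
    (h1 : ∀ y, |f y| ≤ y ^ 2 / 64) (hA : 0 ≤ A) (hj : j ≤ 8) (h2 : ∀ y, f y ^ 2 ≤ A * (y ^ 2) ^ j)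
    (hx : ∀ x ∈ E, t ≤ B * aS x ^ 2 ∧ 18 * Cm * B ^ 2 * aS x ≤ 1 ∧ |ww t x| ≤ B * ga t x ^ 2 ∧
      |bS x| ≤ B * ga t x ∧ ∀ m v : ℝ, 0 < v → aS x ≤ v → v ≤ aS x * (1 + 2 * B * aS x) →
        |m| ≤ 3 * B * v → |m - bS x| ≤ 2 * B * aS x ^ 2 →
        v * (2 * B ^ 2 * aS x ^ 2 + Cm * (3 * B) ^ 2 * v ^ 4 + r) + gE f m v +
          2 * (Cm * (A / v) * v ^ j) ≤ avg fun i => f (x i)) :
    Px t E ≤ ex (Ct * Real.log n - n * r) := by
  have hn2 : (2 : ℝ) ≤ n := by exact_mod_cast hn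
  have hn0 : (0 : ℝ) < n := by linarith
  have ht0 : 0 < t := lt_of_lt_of_le (by positivity) ht
  refine hT n t (n * r) E (fun _ v _ y => f y / v) hn hE (fun _ _ _ => by fun_prop) fun x hxE => ?_
  obtain ⟨a1, a2, a3, a4, a5⟩ := hx x hxE
  have hq0 := aS_nonneg x
  have hg := ga_pos ht0 x
  have eg : ga t x = aS x + t := rfl
  obtain ⟨b1, b2, b3, b4⟩ := geo hB hC hq0 ht0 eg a1 a2 a4
  refine ⟨mu t x, ga t x, 0, n * Wt t x, b3, ⟨by linarith, by linarith⟩,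
    ⟨by norm_num, by norm_num⟩, ?_, ?_⟩
  · rw [(hI n t x (by omega) ht0).2.1 (ga t x) hg, div_self hg.ne', Real.log_one]
    exact le_of_eq (by congr 2; ring)
  rintro m v u ⟨c1, c2, c3, -, -, c6⟩
  obtain rfl := c6 rfl
  have hv : 0 < v := by linarith
  obtain ⟨d1, d2, d3, d4⟩ := b4 (1 / n) m v (by positivity) ht
    (c1.trans_eq (by field_simp)) c2 (c3.trans_eq (by field_simp))
  refine ⟨_, hM (3 * B) (by linarith) m v A j f hv d4 d2 hf h1 hA hj h2, ?_⟩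
  have hW : Wt t x ≤ 2 * B ^ 2 * aS x ^ 2 := wt_le hq0 hg b1 a3
  have k := a5 m v hv (by linarith) d1 d2 d3
  have k' : Wt t x + (gE f m v / v + 2 * (Cm * (A / v ^ 2) * v ^ j) + Cm * (3 * B) ^ 2 * v ^ 4) +
      r ≤ (avg fun i => f (x i)) / v := by
    rw [le_div_iff₀ hv]
    have e : (Wt t x + (gE f m v / v + 2 * (Cm * (A / v ^ 2) * v ^ j) +
        Cm * (3 * B) ^ 2 * v ^ 4) + r) * v = v * (Wt t x + Cm * (3 * B) ^ 2 * v ^ 4 + r) +
        gE f m v + 2 * (Cm * (A / v) * v ^ j) := by field_simp; ring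
    rw [e]
    linarith [mul_le_mul_of_nonneg_left hW hv.le]
  have hsum : ∑ i, f (x i) / v = n * ((avg fun i => f (x i)) / v) := by
    rw [← Finset.sum_div, avg]; field_simp
  simp only [hsum]
  linarith [mul_le_mul_of_nonneg_left k' hn0.le]

/-- the numbers -/
lemma num {B Cm Co c e q s : ℝ} (hB : 1 ≤ B) (hC : 1 ≤ Cm) (hO : 1 ≤ Co) (hc0 : 0 < c)
    (hc : 10 ^ 5 * (Cm ^ 2 * Co * B ^ 3) * c = 1) (he : e ∈ Ioc (0 : ℝ) 1) (hq0 : 0 ≤ q)
    (hq : q ≤ c * e ^ 2) (hs : s ≤ B * q) :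
    18 * Cm * B ^ 2 * q ≤ 1 ∧ 10 ^ 5 * (Co * B ^ 3 * q ^ 3) ≤ e * q ^ 2 ∧
    10 ^ 5 * (Cm * q ^ 3) ≤ e * q ^ 2 ∧ 10 ^ 5 * (B ^ 2 * q ^ 3) ≤ e * q ^ 2 ∧
    ∀ v : ℝ, 0 < v → v ≤ q * (1 + 2 * B * q) → v ≤ 2 * q ∧ (3 * B) ^ 2 * v ≤ 1 ∧
      v * (2 * B ^ 2 * q ^ 2 + Cm * (3 * B) ^ 2 * v ^ 4 + c * e ^ 2 * s) ≤
        e / (64 * Cm) * (e * q ^ 2) / 4 := by
  obtain ⟨he0, he1⟩ := he
  have hB0 : 0 ≤ B := by linarith
  have hC0 : 0 < Cm := by linarith
  -- every monomial below `P = Cm² Co B³`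
  have key : ∀ (i k l : ℕ), i ≤ 2 → k ≤ 1 → l ≤ 3 → 10 ^ 5 * (Cm ^ i * Co ^ k * B ^ l) * c ≤ 1 := by
    intro i k l hi hk hl
    rw [← hc]
    have h1 := pow_le_pow_right₀ hC hi
    have h2 := pow_le_pow_right₀ hO hk
    have h3 := pow_le_pow_right₀ hB hl
    rw [pow_one] at h2
    gcongr
  have he2 : e ^ 2 ≤ e := by nlinarith
  have keyq : ∀ (i k l : ℕ), i ≤ 2 → k ≤ 1 → l ≤ 3 →
      10 ^ 5 * (Cm ^ i * Co ^ k * B ^ l) * q ≤ e ^ 2 := by
    intro i k l hi hk hl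
    have h1 := mul_le_mul_of_nonneg_left hq
      (show 0 ≤ 10 ^ 5 * (Cm ^ i * Co ^ k * B ^ l) by positivity)
    have h2 := mul_le_mul_of_nonneg_right (key i k l hi hk hl) (sq_nonneg e)
    linarith
  have key3 : ∀ (i k l : ℕ), i ≤ 2 → k ≤ 1 → l ≤ 3 →
      10 ^ 5 * (Cm ^ i * Co ^ k * B ^ l * q ^ 3) ≤ e ^ 2 * q ^ 2 := by
    intro i k l hi hk hl
    have := mul_le_mul_of_nonneg_right (keyq i k l hi hk hl) (sq_nonneg q)
    linarith
  have e3 := mul_le_mul_of_nonneg_right he2 (sq_nonneg q)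
  have p1 := keyq 1 0 2 (by norm_num) (by norm_num) (by norm_num)
  have p2 := keyq 0 0 1 (by norm_num) (by norm_num) (by norm_num)
  have p3 := keyq 0 0 2 (by norm_num) (by norm_num) (by norm_num)
  have p0 := keyq 0 0 0 (by norm_num) (by norm_num) (by norm_num)
  have p4 := key3 0 1 3 (by norm_num) (by norm_num) (by norm_num)
  have p5 := key3 1 0 0 (by norm_num) (by norm_num) (by norm_num)
  have p6 := key3 0 0 2 (by norm_num) (by norm_num) (by norm_num)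
  have p7 := key3 1 0 2 (by norm_num) (by norm_num) (by norm_num)
  have p8 := key3 2 0 2 (by norm_num) (by norm_num) (by norm_num)
  have p9 := mul_le_mul_of_nonneg_right (key 1 0 1 (by norm_num) (by norm_num) (by norm_num))
    (show 0 ≤ e ^ 2 * q ^ 2 by positivity)
  simp only [pow_zero, pow_one, mul_one, one_mul] at p0 p1 p2 p3 p4 p5 p6 p7 p8 p9
  refine ⟨by linarith, by linarith, by linarith, by linarith, fun v hv hv1 => ?_⟩
  have hv2 : v ≤ 2 * q := by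
    have := mul_le_mul_of_nonneg_left (show 1 + 2 * B * q ≤ 2 by linarith) hq0
    linarith
  refine ⟨hv2, ?_, ?_⟩
  · have := mul_le_mul_of_nonneg_left hv2 (sq_nonneg (3 * B))
    linarith
  have hv4 : v ^ 4 ≤ q ^ 2 := by
    have k1 : v ^ 2 ≤ (2 * q) ^ 2 := pow_le_pow_left₀ hv.le hv2 2
    have k2 : q * q ≤ 1 / 4 * q := mul_le_mul_of_nonneg_right (by linarith) hq0
    have k3 : v ^ 2 ≤ q := by linarith
    calc v ^ 4 = (v ^ 2) ^ 2 := by ring
      _ ≤ q ^ 2 := pow_le_pow_left₀ (sq_nonneg _) k3 2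
  have k1 : 2 * B ^ 2 * q ^ 2 + Cm * (3 * B) ^ 2 * v ^ 4 + c * e ^ 2 * s ≤
      2 * B ^ 2 * q ^ 2 + Cm * (3 * B) ^ 2 * q ^ 2 + c * e ^ 2 * (B * q) := by gcongr
  have k2 := (mul_le_mul_of_nonneg_left k1 hv.le).trans
    (mul_le_mul_of_nonneg_right hv2 (by positivity))
  refine k2.trans ?_
  rw [div_mul_eq_mul_div, div_div, le_div_iff₀ (by positivity)]
  have : 0 ≤ e ^ 2 * q ^ 2 := by positivity
  linarith

lemma sg_le {σ : ℝ} (hσ : |σ| = 1) (y : ℝ) : σ * y ≤ |y| := by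
  have := le_abs_self (σ * y)
  rwa [abs_mul, hσ, one_mul] at this

lemma fin4 {B Cm Co e q v σ g X R l : ℝ} (hB : 1 ≤ B) (hC : 1 ≤ Cm) (hO : 1 ≤ Co) (he : 0 < e)
    (hq : 0 ≤ q) (hv : 0 < v) (hσ : |σ| = 1) (v1 : q ≤ v) (v2 : v ≤ q * (1 + 2 * B * q))
    (v3 : v ≤ 2 * q) (k : |g - v ^ 2| ≤ Co * (3 * B) ^ 2 * v ^ 3)
    (h : e * q ^ 2 ≤ σ * (R - q ^ 2)) (hl : l ≤ 1 / 64) (hX : X ≤ l * (e * q ^ 2) / 4)
    (n2 : 10 ^ 5 * (Co * B ^ 3 * q ^ 3) ≤ e * q ^ 2) (n3 : 10 ^ 5 * (Cm * q ^ 3) ≤ e * q ^ 2)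
    (n4 : 10 ^ 5 * (B ^ 2 * q ^ 3) ≤ e * q ^ 2) :
    X + σ / 16 * g + 2 * (Cm * (1 / 256 / v) * v ^ 4) ≤ σ / 16 * R := by
  have hB0 : 0 ≤ B := by linarith
  have h0 : 0 ≤ e * q ^ 2 := by positivity
  have k0 := mul_le_mul_of_nonneg_right hl h0
  have k1 := sg_le hσ (g - v ^ 2)
  have k2 := sg_le hσ (v ^ 2 - q ^ 2)
  have k3 : v ^ 3 ≤ (2 * q) ^ 3 := pow_le_pow_left₀ hv.le v3 3
  have k4 := mul_le_mul_of_nonneg_left k3 (show 0 ≤ Cm by linarith)
  have k5 : Co * B ^ 2 * v ^ 3 ≤ Co * B ^ 3 * (2 * q) ^ 3 := by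
    have := pow_le_pow_right₀ hB (show 2 ≤ 3 by norm_num)
    gcongr
  have k6 : (v - q) * (v + q) ≤ 2 * B ^ 2 * q ^ 2 * (3 * q) := by
    have : B * q ^ 2 ≤ B ^ 2 * q ^ 2 := mul_le_mul_of_nonneg_right (by nlinarith) (sq_nonneg _)
    exact mul_le_mul (by linarith) (by linarith) (by linarith) (by positivity)
  rw [abs_of_nonneg (show 0 ≤ v ^ 2 - q ^ 2 by nlinarith)] at k2
  rw [show Cm * (1 / 256 / v) * v ^ 4 = Cm * v ^ 3 / 256 by field_simp]
  linarith

lemma fin3 {B Cm Co e q v m a σ g X R : ℝ} (hB : 1 ≤ B) (hC : 1 ≤ Cm) (hO : 1 ≤ Co) (he : 0 < e)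
    (hq : 0 ≤ q) (hv : 0 < v) (hσ : |σ| = 1) (v1 : q ≤ v) (v2 : v ≤ q * (1 + 2 * B * q))
    (v3 : v ≤ 2 * q) (m1 : |m| ≤ 3 * B * v) (m2 : |m - a| ≤ 2 * B * q ^ 2)
    (k : |g - m * v| ≤ Co * (3 * B) ^ 3 * v ^ 3) (h : e * q ^ 2 ≤ σ * (R - a * q))
    (hX : X ≤ e / (64 * Cm) * (e * q ^ 2) / 4)
    (n2 : 10 ^ 5 * (Co * B ^ 3 * q ^ 3) ≤ e * q ^ 2)
    (n4 : 10 ^ 5 * (B ^ 2 * q ^ 3) ≤ e * q ^ 2) :
    X + e / (64 * Cm) * σ * g + 2 * (Cm * ((e / (64 * Cm)) ^ 2 / v) * v ^ 3) ≤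
      e / (64 * Cm) * σ * R := by
  have hB0 : 0 ≤ B := by linarith
  have hC0 : 0 < Cm := by linarith
  have h0 : 0 ≤ e * q ^ 2 := by positivity
  have k1 := sg_le hσ (g - m * v)
  have k2 := sg_le hσ (m * (v - q))
  have k2' := sg_le hσ ((m - a) * q)
  rw [abs_mul, abs_of_nonneg (sub_nonneg.2 v1)] at k2
  rw [abs_mul, abs_of_nonneg hq] at k2'
  have k3 : v ^ 3 ≤ (2 * q) ^ 3 := pow_le_pow_left₀ hv.le v3 3
  have k4 := mul_le_mul_of_nonneg_left k3 (show 0 ≤ Co * B ^ 3 by positivity)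
  have k5 : |m| * (v - q) ≤ 3 * B * (2 * q) * (2 * B * q ^ 2) :=
    mul_le_mul (m1.trans (by gcongr)) (by linarith) (by linarith) (by positivity)
  have k6 : |m - a| * q ≤ 2 * B ^ 2 * q ^ 2 * q := by
    have : B * q ^ 2 ≤ B ^ 2 * q ^ 2 := mul_le_mul_of_nonneg_right (by nlinarith) (sq_nonneg _)
    exact mul_le_mul_of_nonneg_right (by linarith) hq
  have k7 := mul_le_mul_of_nonneg_left (pow_le_pow_left₀ hv.le v3 2) he.le
  have k8 : e * q ^ 2 / 4 + σ * g + e * v ^ 2 / 32 ≤ σ * R := by linarith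
  have k9 := mul_le_mul_of_nonneg_left k8 (show 0 ≤ e / (64 * Cm) by positivity)
  rw [show 2 * (Cm * ((e / (64 * Cm)) ^ 2 / v) * v ^ 3) = e / (64 * Cm) * (e * v ^ 2 / 32) by
    field_simp; ring]
  linarith

lemma gE_mul (a : ℝ) (f : ℝ → ℝ) (m v : ℝ) : gE (fun y => a * f y) m v = a * gE f m v := by
  unfold gE; exact integral_const_mul _ _

lemma avg_mul (a : ℝ) (f : V n) : avg (fun i => a * f i) = a * avg f := by
  simp only [avg, ← Finset.mul_sum, mul_div_assoc]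

end Ev22

open Ev22 in
theorem evRGlue : EvRGlue := by
  rintro hI ⟨Ct, hT⟩ hM ⟨Co, hO, hMo⟩ B hB
  obtain ⟨Cm, hC, hM⟩ := mb_of hM
  have hP : 0 < 10 ^ 5 * (Cm ^ 2 * Co * B ^ 3) := by positivity
  set c : ℝ := (10 ^ 5 * (Cm ^ 2 * Co * B ^ 3))⁻¹ with hcd
  have hc0 : 0 < c := inv_pos.2 hP
  have hc : 10 ^ 5 * (Cm ^ 2 * Co * B ^ 3) * c = 1 := mul_inv_cancel₀ hP.ne'
  clear_value c
  refine ⟨c, hc0, Ct + 4, fun n t e hn ht he => ?_⟩
  have hn0 : (0 : ℝ) < n := by exact_mod_cast (show 0 < n by omega)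
  have ht0 : 0 < t := lt_of_lt_of_le (by positivity) ht
  set G : V n → Prop := fun x => t ≤ B * aS x ^ 2 ∧ aS x ≤ c * e ^ 2 ∧
    |ww t x| ≤ B * ga t x ^ 2 ∧ |bS x| ≤ B * ga t x with hG
  have mG : ∀ f : V n → ℝ, Measurable f → MeasurableSet {x | G x ∧ e * aS x ^ 2 ≤ f x} := by
    intro f hf
    rw [measurableSet_setOfPred]
    refine Measurable.and (Measurable.and ?_ (Measurable.and ?_ (Measurable.and ?_ ?_))) ?_ <;>
      exact measurableSet_setOfPred.1 (measurableSet_le (by fun_prop) (by fun_prop))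
  have hs : ∀ x, G x → Real.sqrt t ≤ B * aS x := fun x hx => by
    have hq := aS_nonneg x
    refine Real.sqrt_le_iff.2 ⟨by positivity, hx.1.trans ?_⟩
    rw [mul_pow]
    exact mul_le_mul_of_nonneg_right (by nlinarith) (sq_nonneg _)
  have hl0 : 0 < e / (64 * Cm) := by have := he.1; positivity
  have hl1 : e / (64 * Cm) ≤ 1 / 64 := by
    rw [div_le_div_iff₀ (by positivity) (by norm_num)]; linarith [he.2]
  have h4 : ∀ σ : ℝ, |σ| = 1 → Px t {x | G x ∧ e * aS x ^ 2 ≤ σ * (R4 x - aS x ^ 2)} ≤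
      ex (Ct * Real.log n - n * (c * e ^ 2 * Real.sqrt t)) := by
    intro σ hσ
    refine one hI hT hC hM hB (A := 1 / 256) (j := 4)
      (f := fun y => σ / 16 * (Real.tanh y * (y - Real.tanh y))) (by omega) ht
      (mG _ (by fun_prop)) (by fun_prop) (fun y => ?_) (by norm_num) (by norm_num) (fun y => ?_)
      fun x hx => ?_
    · rw [abs_mul, abs_div, hσ, abs_of_pos (show (0 : ℝ) < 16 by norm_num)]
      linarith [r_abs y]
    · rw [mul_pow, div_pow, ← sq_abs σ, hσ]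
      linarith [r_sq y]
    have hq0 := aS_nonneg x
    obtain ⟨n1, n2, n3, n4, n5⟩ := num hB hC hO hc0 hc he hq0 hx.1.2.1 (hs x hx.1)
    refine ⟨hx.1.1, n1, hx.1.2.2.1, hx.1.2.2.2, fun m v hv v1 v2 m1 m2 => ?_⟩
    obtain ⟨n6, n7, n8⟩ := n5 v hv v2
    have k := (hMo (3 * B) (by linarith) m v hv n7 m1).2.2.2.2.2.2.2.1
    rw [gE_mul, avg_mul]
    exact fin4 hB hC hO he.1 hq0 hv hσ v1 v2 n6 k hx.2 hl1 n8 n2 n3 n4
  have h3 : ∀ σ : ℝ, |σ| = 1 → Px t {x | G x ∧ e * aS x ^ 2 ≤ σ * (R3 x - bS x * aS x)} ≤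
      ex (Ct * Real.log n - n * (c * e ^ 2 * Real.sqrt t)) := by
    intro σ hσ
    refine one hI hT hC hM hB (A := (e / (64 * Cm)) ^ 2) (j := 3)
      (f := fun y => e / (64 * Cm) * σ * (y - Real.tanh y)) (by omega) ht
      (mG _ (by fun_prop)) (by fun_prop) (fun y => ?_) (by positivity) (by norm_num) (fun y => ?_)
      fun x hx => ?_
    · rw [abs_mul, abs_mul, hσ, abs_of_pos hl0, mul_one]
      have := mul_le_mul hl1 (sub_sq y) (abs_nonneg _) (by norm_num)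
      linarith
    · rw [mul_pow, mul_pow, ← sq_abs σ, hσ, one_pow, mul_one]
      exact mul_le_mul_of_nonneg_left (sub_sq6 y) (sq_nonneg _)
    have hq0 := aS_nonneg x
    obtain ⟨n1, n2, n3, n4, n5⟩ := num hB hC hO hc0 hc he hq0 hx.1.2.1 (hs x hx.1)
    refine ⟨hx.1.1, n1, hx.1.2.2.1, hx.1.2.2.2, fun m v hv v1 v2 m1 m2 => ?_⟩
    obtain ⟨n6, n7, n8⟩ := n5 v hv v2
    have k := (hMo (3 * B) (by linarith) m v hv n7 m1).2.2.2.2.2.2.1
    rw [gE_mul, avg_mul]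
    exact fin3 hB hC hO he.1 hq0 hv hσ v1 v2 n6 m1 m2 k hx.2 n8 n2 n4
  have hcov : Px t {x : V n | t ≤ B * aS x ^ 2 ∧ aS x ≤ c * e ^ 2 ∧ |ww t x| ≤ B * ga t x ^ 2 ∧
      |bS x| ≤ B * ga t x ∧ ¬ (|R4 x - aS x ^ 2| ≤ e * aS x ^ 2 ∧
        |R3 x - bS x * aS x| ≤ e * aS x ^ 2)} ≤
      ((4 : ℕ) : ℝ≥0∞) * ex (Ct * Real.log n - n * (c * e ^ 2 * Real.sqrt t)) := by
    have a1 := h4 1 abs_one
    have a2 := h4 (-1) (by simp)
    have a3 := h3 1 abs_one
    have a4 := h3 (-1) (by simp)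
    refine le_trans (Px_cover t fun x hx => ?_) ((add_le_add
      ((Px_union t _ _).trans (add_le_add a1 a2))
      ((Px_union t _ _).trans (add_le_add a3 a4))).trans_eq (by push_cast; ring))
    obtain ⟨g1, g2, g3, g4, g5⟩ := hx
    have g : G x := ⟨g1, g2, g3, g4⟩
    rcases not_and_or.1 g5 with h | h
    · rcases lt_abs.1 (not_le.1 h) with h | h
      · exact Or.inl (Or.inl ⟨g, by linarith⟩)
      · exact Or.inl (Or.inr ⟨g, by linarith⟩)
    · rcases lt_abs.1 (not_le.1 h) with h | h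
      · exact Or.inr (Or.inl ⟨g, by linarith⟩)
      · exact Or.inr (Or.inr ⟨g, by linarith⟩)
  refine hcov.trans ((ex_sum (by omega) (by omega) _ _).trans (Conc.ex_mono ?_))
  have := Real.log_natCast_nonneg n
  push_cast
  linarith

end Crest.Agent.T157.Kb

end
end

-- ▼ part T157/KbGoodU_27
section

/-!
# Row 157, part A2, section 2 (helper27): `GoodUGlue`
-/

set_option autoImplicit false

noncomputable section

namespace Crest.Agent.T157.Kb

open MeasureTheory Matrix Set Filter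
open scoped ENNReal
open Crest.Agent.T157.E Crest.Agent.T157.Cond Crest.Agent.T157.Tap
open Crest.Agent.T157.Qe (Le R1 bv Wm Mm St Dv WS FS P3 Sg Tm zz gg uu)
open Crest.Agent.T157.Conc (ex)

open Gd27

set_option maxHeartbeats 800000 in
theorem goodUGlue : GoodUGlue := by
  intro hMe hA hKr hM hB1 hB2 hP hBall L L0 Cw Cw0
  obtain ⟨tK, tK0, CK, hK⟩ := hKr
  obtain ⟨K, K1, c1, c10, C1, h1⟩ := hB1 (2 * L + 2) (by linarith)
  obtain ⟨c2, c20, C2, h2⟩ := hB2 K K1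
  obtain ⟨c3, c30, C3, h3⟩ := hP K K1 Cw Cw0
  obtain ⟨ε, ε0, hε⟩ := exists_small [1 / 4, c3, 1 / (10 * c3)] (by simp; positivity)
  simp only [List.forall_mem_cons, List.not_mem_nil, false_imp_iff, imp_true_iff, and_true] at hε
  obtain ⟨ε1, ε2, ε3⟩ := hε
  have K0 : 0 < K := by linarith
  set e := c3 * ε ^ 9 with he
  have e0 : 0 < e := by positivity
  have e1 : e ≤ 1 / 10 := by
    have b1 : ε ^ 9 ≤ ε ^ 1 := pow_le_pow_of_le_one ε0.le (by linarith) (by norm_num)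
    have b2 := (le_div_iff₀ (by positivity)).1 ε3
    have b3 := mul_le_mul_of_nonneg_left b1 c30.le
    linarith
  obtain ⟨s, s0, hs⟩ := exists_small [c1 * e ^ 2, c2 * e, c3 ^ 2 * ε ^ 9, c2 * e ^ 2 / (2 * L + 2),
    c3 * ε ^ 18 / (2 * (2 * L + 2)), 1 / (9 * K), tK, 1] (by simp; refine ⟨?_, ?_, ?_, ?_, ?_, ?_, ?_⟩ <;> positivity)
  simp only [List.forall_mem_cons, List.not_mem_nil, false_imp_iff, imp_true_iff, and_true] at hs
  obtain ⟨s1, s2, s3, s4, s5, s6, s7, s8⟩ := hs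
  refine ⟨K, K1, ε, ε0, c3 * ε ^ 18 / 2, by positivity, s ^ 2, by positivity, fun t2 t20 => ?_⟩
  set g := c3 * ε ^ 18 * t2 / 4 with hg
  have g0 : 0 < g := by positivity
  set y := min (g / 2) 1 with hy
  have y0 : 0 < y := lt_min (by positivity) one_pos
  set κ := min (e * (t2 / K * Real.sqrt (t2 / K))) (g * y / 2) with hκ
  have κ0 : 0 < κ := lt_min (by positivity) (by positivity)
  obtain ⟨c, c0, r, r0, hb⟩ := hBall (t2 / (2 * K)) (by positivity) κ κ0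
  refine ⟨c, c0, r, r0, ?_⟩
  have hn := tendsto_natCast_atTop_atTop (R := ℝ)
  filter_upwards [eventually_ge_atTop (max (max CK C1) (max (max C2 C3) 3)),
    hn.eventually_ge_atTop (1 / t2), hn.eventually_ge_atTop (K / (ε ^ 2 * t2)),
    ev_log (CK + (C1 + C2 + C3 + 1) / 2) (t2 * Real.sqrt t2) (by positivity)] with n n1 n2 n3 n4 t ht S0 hS
  simp only [max_le_iff] at n1
  obtain ⟨⟨nK, n1⟩, ⟨n5, n6⟩, n7⟩ := n1
  have n0 : 0 < n := by omega
  have n0' : (1 : ℝ) ≤ n := by exact_mod_cast n0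
  have t0 : 0 < t := t20.trans_le ht.1
  have t1 : Real.sqrt t ≤ s := Real.sqrt_le_iff.2 ⟨s0.le, ht.2⟩
  have t3 : 1 / (n : ℝ) ≤ t := by
    rw [div_le_iff₀ t20] at n2
    rw [div_le_iff₀ (by linarith)]
    have := mul_le_mul_of_nonneg_left ht.1 (Nat.cast_nonneg (α := ℝ) n)
    linarith
  have t4 : t ≤ s := ht.2.trans (by nlinarith only [s0, s8])
  have t5 : K ≤ (n * ε) ^ 2 * t := by
    rw [div_le_iff₀ (by positivity)] at n3
    have b1 : (n : ℝ) ≤ n ^ 2 := by nlinarith only [n0']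
    calc K ≤ n * (ε ^ 2 * t2) := n3
      _ ≤ n ^ 2 * (ε ^ 2 * t) := by gcongr; exact ht.1
      _ = _ := by ring
  have st := Real.sq_sqrt t0.le
  have st0 := Real.sqrt_pos.2 t0
  have hW := hS (Real.sqrt t) st0 (by rw [st]; nlinarith only [K1, t0]) (by rw [st]; nlinarith only [K1, t0])
  have lg0 : 0 ≤ Real.log n := Real.log_nonneg n0'
  set B : Set (V n × Mx n) := {z | z.2 ∈ S0 ∧ ¬ GoodB z.2 1 c (r * Real.sqrt n) (th z.1)} with hB
  have mS : MeasurableSet {z : V n × Mx n | z.2 ∈ S0} := measurable_snd hW.meas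
  have mB : MeasurableSet B := by
    have := measurable_swap (hMe n 1 c (r * Real.sqrt n) 0 0).1
    simp only [one_smul, one_pow] at this
    exact mS.inter this
  set R := (2 * L + 2) * n * (t * Real.sqrt t) with hR
  set C : ℝ := C1 + C2 + C3 with hC
  have C1' : (0 : ℝ) ≤ C1 := Nat.cast_nonneg _
  have C2' : (0 : ℝ) ≤ C2 := Nat.cast_nonneg _
  have C3' : (0 : ℝ) ≤ C3 := Nat.cast_nonneg _
  have mC := measSet_Co K e t (measurable_id (α := V n))
  have mX := measSet_XM e (measurable_id (α := V n))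
  have a1 : PM n t {z | z.1 ∈ {x : V n | ¬ Co K e t x}} ≤ ex (C * Real.log n - R) :=
    (PM_x hM n0 t0 mC.compl).trans ((h1 n t e n1 t3 ⟨e0, by linarith⟩ (t1.trans s1)).trans
      (Conc.ex_mono (by rw [hC]; linarith [mul_nonneg (add_nonneg C2' C3') lg0])))
  have nt : 0 ≤ (n : ℝ) * t := by positivity
  have a2 : PM n t {z | z.1 ∈ {x : V n | Co K e t x ∧ ¬ XM e x}} ≤ ex (C * Real.log n - R) := by
    refine (PM_x hM n0 t0 (mC.inter mX.compl)).trans ((h2 n t e n5 t3 ⟨e0, e1⟩ (t1.trans s2)).trans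
      (Conc.ex_mono ?_))
    have b1 := mul_le_mul_of_nonneg_left ((le_div_iff₀ (by linarith)).1 (t1.trans s4)) nt
    rw [hC, hR]; linarith [mul_nonneg (add_nonneg C1' C3') lg0]
  set T := Finset.univ.filter fun S : Finset (Fin n) => (S.card : ℝ) ≤ κ * n with hT
  set d0 : V n → ℝ := fun x => aS x ^ 2 / (1 - aS x) - t2 / (2 * K) with hd0
  set BS : Finset (Fin n) → Set (V n × Mx n) := fun S => {z | z.2 ∈ S0 ∧ Co K e t z.1 ∧ XM e z.1 ∧
    ¬ Le z.2 (Mm (Dk 1 (d0 z.1) S z.1) (2 * 1 * aS z.1) (ee z.1))} with hBS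
  have hq : ∀ x : V n, Co K e t x → t2 / K ≤ aS x ^ 2 ∧ aS x ≤ 1 / 9 := fun x hx => by
    refine ⟨(div_le_iff₀ K0).2 (by linarith [hx.q1, ht.1]), ?_⟩
    have b1 := (le_div_iff₀ (by positivity)).1 s6
    have b2 : K * t ≤ K * s ^ 2 := mul_le_mul_of_nonneg_left ht.2 K0.le
    have b3 : K * s ^ 2 ≤ (K * s) ^ 2 := by
      nlinarith only [mul_nonneg (mul_nonneg K0.le (sub_nonneg.2 K1)) (sq_nonneg s)]
    have b4 : (K * s) ^ 2 ≤ (1 / 9) ^ 2 := pow_le_pow_left₀ (by positivity) (by linarith) 2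
    exact (le_abs_self _).trans (abs_le_of_sq_le_sq (by linarith [hx.q2]) (by norm_num))
  have a3 : ∀ S ∈ T, PM n t (BS S) ≤ ex (C3 * Real.log n + c3 * ε ^ 18 / 2 * n * t / 2 - c3 * ε ^ 18 * n * t) := by
    intro S hST
    have mBS : MeasurableSet (BS S) := by
      have md : Measurable fun z : V n × Mx n => d0 z.1 := by simp only [hd0]; fun_prop
      exact mS.inter ((measSet_Co K e t measurable_fst).inter ((measSet_XM e measurable_fst).inter
        (Qe.measurableSet_le measurable_snd (meas_Mm (meas_Dk S measurable_const md measurable_fst)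
          (by fun_prop) (meas_ee measurable_fst))).compl))
    rw [← Pt_eq t mBS]
    refine h3 n t ε (c3 * ε ^ 18 / 2 * n * t) S0 (BS S) (fun _ => 1) d0 (fun _ => S) n6 t3 ⟨ε0, ε2⟩ (t1.trans s3) t5
      (by positivity) mBS hS fun z hz => ⟨hz.1, hz.2.1, hz.2.2.1, ?_, hz.2.2.2⟩
    obtain ⟨q1, q2⟩ := hq _ hz.2.1
    have q0 := aS_nonneg z.1
    have q3 : t2 / (2 * K) = t2 / K / 2 := by field_simp
    have q4 : aS z.1 ^ 2 ≤ aS z.1 ^ 2 / (1 - aS z.1) := by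
      rw [le_div_iff₀ (by linarith)]; nlinarith only [mul_nonneg (sq_nonneg (aS z.1)) q0]
    have q5 : aS z.1 ^ 2 / (1 - aS z.1) ≤ 9 / 8 * aS z.1 ^ 2 := by
      rw [div_le_iff₀ (by linarith)]
      nlinarith only [mul_le_mul_of_nonneg_left q2 (sq_nonneg (aS z.1))]
    have q6 : 0 < t2 / K := by positivity
    refine ⟨le_rfl, by norm_num, ?_, ?_, (Finset.mem_filter.1 hST).2.trans ?_⟩
    · simp only [hd0]; linarith [mul_le_mul_of_nonneg_right ε1 (sq_nonneg (aS z.1))]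
    · simp only [hd0]; linarith
    · have q7 : Real.sqrt (t2 / K) ≤ aS z.1 := Real.sqrt_le_iff.2 ⟨q0, q1⟩
      have q8 : t2 / K * Real.sqrt (t2 / K) ≤ aS z.1 ^ 2 * aS z.1 := by gcongr
      refine mul_le_mul_of_nonneg_right ((min_le_left _ _).trans ?_) (Nat.cast_nonneg n)
      rw [pow_succ]; exact mul_le_mul_of_nonneg_left q8 e0.le
  have a4 : PM n t (⋃ S ∈ T, BS S) ≤ ex (C * Real.log n - R) := by
    refine (measure_biUnion_finset_le _ _).trans ((Finset.sum_le_card_nsmul _ _ _ a3).trans ?_)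
    have b1 := card_small (n := n) y0 (min_le_right _ _) κ0.le
    have b2 : (T.card : ℝ≥0∞) ≤ ex (n * (y + κ / y)) := by
      rw [← ENNReal.ofReal_natCast]; exact ENNReal.ofReal_le_ofReal b1
    rw [nsmul_eq_mul]
    refine (mul_le_mul_left b2 _).trans ?_
    rw [← Conc.ex_add]
    refine Conc.ex_mono ?_
    have b3 : κ / y ≤ g / 2 := (div_le_iff₀ y0).2 ((min_le_right _ _).trans (by linarith))
    have b4 : y ≤ g / 2 := min_le_left _ _
    have b5 := mul_le_mul_of_nonneg_left ((le_div_iff₀ (by linarith)).1 (t1.trans s5)) nt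
    have b6 : (n : ℝ) * (y + κ / y) ≤ n * g := mul_le_mul_of_nonneg_left (by linarith) (by linarith)
    have b7 : c3 * ε ^ 18 * n * t2 ≤ c3 * ε ^ 18 * n * t := mul_le_mul_of_nonneg_left ht.1 (by positivity)
    have b8 : g * n = c3 * ε ^ 18 * n * t2 / 4 := by rw [hg]; ring
    have b9 := mul_nonneg (add_nonneg C1' C2') lg0
    rw [hC, hR]; linarith
  have a5 : PM n t B ≤ ex ((C + 1) * Real.log n - R) := by
    refine (cover3 (fun z hz => ?_) a1 a2 a4).trans (ex_sum n7 n0 C R)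
    by_cases p1 : Co K e t z.1
    · by_cases p2 : XM e z.1
      · refine Or.inr (Or.inr ?_)
        by_contra p3
        obtain ⟨q1, q2⟩ := hq _ p1
        refine hz.2 (hb n z.1 z.2 n0 ?_ fun S hS' => ?_)
        · have q3 : t2 / (2 * K) = t2 / K / 2 := by field_simp
          have q4 : aS z.1 ^ 2 ≤ aS z.1 := by nlinarith only [aS_nonneg z.1, q2]
          linarith only [aS_nonneg z.1, q1, q3, q4]
        · by_contra p4
          exact p3 (mem_biUnion (Finset.mem_filter.2 ⟨Finset.mem_univ S, hS'⟩) ⟨hz.1, p1, p2, p4⟩)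
      · exact Or.inr (Or.inl ⟨p1, p2⟩)
    · exact Or.inl p1
  have a6 := hK n t B nK ⟨t3, t4.trans s7⟩ mB fun z hz => by
    obtain ⟨a, p1, p2, -⟩ := hW.sp _ hz.1
    refine col_le p1 (fun i => abs_le.2 ⟨(p2 i).1, (p2 i).2.trans ?_⟩) _
    have b1 : ε ^ 4 ≤ 1 := pow_le_one₀ ε0.le (by linarith)
    rw [st]; linarith [mul_le_mul_of_nonneg_right b1 t0.le]
  refine le_trans (measure_mono fun z hz => ?_) (((hA n t n0 t0).1 B mB).trans (a6.trans ?_))
  · obtain ⟨p1, x, p2, p3⟩ := hz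
    simp only [one_smul, one_pow] at p2 p3
    exact ⟨x, ⟨p1, p3⟩, p2⟩
  · rw [Pt_eq t mB]
    refine (mul_le_mul_right (ENNReal.rpow_le_rpow a5 (by norm_num)) _).trans ?_
    rw [Conc.ex_rpow, ← Conc.ex_add]
    refine Conc.ex_mono ?_
    have b1 : t2 * Real.sqrt t2 ≤ t * Real.sqrt t := by gcongr <;> exact ht.1
    have b2 := mul_le_mul_of_nonneg_left b1 (Nat.cast_nonneg (α := ℝ) n)
    rw [hR]; linarith

end Crest.Agent.T157.Kb

end
end

-- ▼ part T157/KbHi_91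
section

/-!
# Row 157, part A2, section 2 (helper91): the tilt lemma without a weight, and `HiGlue`
-/

set_option autoImplicit false

noncomputable section

namespace Crest.Agent.T157.Kb

open MeasureTheory Set
open scoped ENNReal
open Crest.Agent.T157.Tap
open Crest.Agent.T157.Conc (ex)

variable {n : ℕ}

namespace H91

/-- the tilt lemma with `Y = 0` -/
lemma tilt0 (hC : ChStmt) (hT : TiltStmt) : ∃ C : ℕ, ∀ (n : ℕ) (t R : ℝ) (E : Set (V n)),
    2 ≤ n → MeasurableSet E →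
    (∀ x ∈ E, ∃ m v u g : ℝ, |m| ≤ 4 ∧ v ∈ Icc (1 / (n : ℝ)) 20 ∧ u ∈ Icc (-2 : ℝ) (1 / 2) ∧
      rho t x ≤ Real.exp (∑ i, gR m v u (x i) + g) ∧ g + R ≤ 0) →
    Px t E ≤ ex (C * Real.log n - R) := by
  obtain ⟨C, hC'⟩ := hT
  refine ⟨C, fun n t R E hn hE h => hC' n t R E (fun _ _ _ _ => 0) hn hE
    (fun _ _ _ => measurable_const) fun x hx => ?_⟩
  obtain ⟨m, v, u, g, h1, h2, h3, h4, h5⟩ := h x hx
  refine ⟨m, v, u, g, h1, h2, h3, h4, fun m0 v0 u0 hc => ⟨0, ?_, by simpa using h5⟩⟩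
  have hn' : (0 : ℝ) < n := by exact_mod_cast (by omega : 0 < n)
  have hv : 0 < v0 := lt_of_lt_of_le (lt_of_lt_of_le (by positivity) h2.1) hc.2.1
  have hu : u0 < 1 := by linarith [hc.2.2.2.2.1, h3.2]
  simpa only [add_zero, Conc.ex_zero] using hC.1 m0 v0 u0 hv hu

/-- the mixed moment -/
def AA (t : ℝ) (x : V n) : ℝ := avg fun i => th x i * (x i - mu t x)

lemma AA_eq (t : ℝ) (x : V n) : AA t x = ww t x + ga t x * (1 - aS x) := by
  unfold AA ww; ring

lemma AA_sq (t : ℝ) (x : V n) : AA t x ^ 2 ≤ aS x * M2 t x := avg_mul_sq_le _ _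

lemma M2_nonneg (t : ℝ) (x : V n) : 0 ≤ M2 t x :=
  div_nonneg (Finset.sum_nonneg fun _ _ => sq_nonneg _) (Nat.cast_nonneg _)

lemma abs_mu_le (hn : 0 < n) {t : ℝ} (ht : 0 ≤ t) (ht1 : t ≤ 1) (x : V n) : |mu t x| ≤ 4 := by
  have h := abs_le.1 (abs_bS_le hn x)
  unfold mu
  exact abs_le.2 ⟨by linarith [h.1], by linarith [h.2]⟩

/-- change of the Ramer parameter -/
lemma sum_gR (hn : 0 < n) (t v u : ℝ) (hv : 0 < v) (x : V n) :
    ∑ i, gR (mu t x) v 0 (x i) = ∑ i, gR (mu t x) v u (x i) +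
      n * (-(u * AA t x / v) + u ^ 2 * aS x / (2 * v) - (1 - aS x) * Real.log (1 - u)) := by
  have hn' : (n : ℝ) ≠ 0 := by exact_mod_cast hn.ne'
  have h : ∀ i, gR (mu t x) v 0 (x i) = gR (mu t x) v u (x i) +
      (-(u / v) * (th x i * (x i - mu t x)) + (u ^ 2 / (2 * v) + Real.log (1 - u)) * th x i ^ 2 -
        Real.log (1 - u)) := fun i => by
    simp only [gR, th, sub_zero, Real.log_one]
    field_simp
    ring
  simp only [h, Finset.sum_add_distrib, Finset.sum_sub_distrib, ← Finset.mul_sum,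
    Finset.sum_const, Finset.card_univ, Fintype.card_fin, nsmul_eq_mul, AA, aS, avg]
  field_simp
  ring

lemma log_nine : Real.log 9 / 2 ≤ 5 / 4 := by
  have h : (3 : ℝ) ≤ Real.exp (5 / 4) := by
    have := Real.quadratic_le_exp_of_nonneg (show (0 : ℝ) ≤ 5 / 4 by norm_num)
    linarith
  have h2 : Real.log 3 ≤ 5 / 4 := (Real.log_le_iff_le_exp (by norm_num)).2 h
  have e : Real.log 9 = 2 * Real.log 3 := by
    rw [show (9 : ℝ) = 3 ^ 2 by norm_num, Real.log_pow]; norm_num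
  linarith

lemma hi_num {g q w A M : ℝ} (hg : 0 < g) (hq : 0 ≤ q) (hqg : q ≤ g) (hM : 0 ≤ M)
    (hw : 3 * g ≤ w) (hA : w ≤ A) (h : A ^ 2 ≤ q * M) :
    w ^ 2 / (2 * g * (g + q)) - M / (2 * g) + M / (2 * (9 * g)) ≤ -(7 / 4) := by
  have h1 : w ^ 2 ≤ q * M := (pow_le_pow_left₀ (by linarith) hA 2).trans h
  have h2 : 9 * g ≤ M := by
    have : (3 * g) ^ 2 ≤ g * M :=
      (pow_le_pow_left₀ (by linarith) hw 2).trans (h1.trans (mul_le_mul_of_nonneg_right hqg hM))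
    nlinarith
  have h3 : w ^ 2 / (2 * g * (g + q)) ≤ M / (4 * g) := by
    rw [div_le_div_iff₀ (by positivity) (by positivity)]
    have := mul_le_mul_of_nonneg_right hqg hM
    nlinarith [mul_le_mul_of_nonneg_left h1 hg.le, mul_le_mul_of_nonneg_left this hg.le]
  have h4 : 9 ≤ M / g := by rw [le_div_iff₀ hg]; exact h2
  have e : M / (4 * g) - M / (2 * g) + M / (2 * (9 * g)) = -(7 / 36) * (M / g) := by
    field_simp; ring
  linarith

end H91

open H91 in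
theorem hiGlue : HiGlue := by
  intro hI hC hT
  obtain ⟨C, h0⟩ := tilt0 hC hT
  refine ⟨C + 2, fun n t hn ht => ?_⟩
  have hn0 : 0 < n := by omega
  have hn' : (0 : ℝ) < n := by exact_mod_cast hn0
  have ht0 : 0 < t := lt_of_lt_of_le (by positivity) ht.1
  have hl : 0 ≤ Real.log n := Real.log_natCast_nonneg n
  refine (h0 n t (n / 2) _ (by omega) (measurableSet_le (by fun_prop) (by fun_prop))
    fun x hx => ?_).trans (Conc.ex_mono (by push_cast; nlinarith))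
  have hg := ga_pos ht0 x
  have hq := aS_nonneg x
  have hq1 := aS_lt_one hn0 x
  have hg2 : ga t x ≤ 2 := by unfold ga; linarith [ht.2]
  have htg : t ≤ ga t x := by unfold ga; linarith
  have hqg : aS x ≤ ga t x := by unfold ga; linarith
  refine ⟨mu t x, 9 * ga t x, 0, _, abs_mu_le hn0 ht0.le ht.2 x,
    ⟨by linarith [ht.1], by linarith⟩, ⟨by norm_num, by norm_num⟩,
    ((hI n t x hn0 ht0).2.1 (9 * ga t x) (by linarith)).le, ?_⟩
  have hA : ww t x ≤ AA t x := by rw [AA_eq]; nlinarith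
  have h1 := hi_num hg hq hqg (M2_nonneg t x) hx hA (AA_sq t x)
  have e : 9 * ga t x / ga t x = 9 := by field_simp
  rw [e]
  have h2 := log_nine
  have h3 : Wt t x - M2 t x / (2 * ga t x) + M2 t x / (2 * (9 * ga t x)) + Real.log 9 / 2 ≤
      -(1 / 2) := by unfold Wt; linarith
  nlinarith

end Crest.Agent.T157.Kb

end
end

-- ▼ part T157/KbLg_91

/-!
# Row 157, part A2, section 2 (helper91): `LgGlue` (large `q` is exponentially rare at small times)
-/

set_option autoImplicit false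

noncomputable section

namespace Crest.Agent.T157.Kb

open MeasureTheory Set
open scoped ENNReal
open Crest.Agent.T157.Tap
open Crest.Agent.T157.Conc (ex)

variable {n : ℕ}

namespace L91

open H91

/-! ### the scalar exponent -/

def Ph (S χ b u : ℝ) : ℝ := S ^ 2 / 4 - (S + χ) ^ 2 / 2 + (S + χ - u) ^ 2 / (2 * b) +
  Real.log b / 2 - χ * Real.log (1 - u)

lemma ph_neg {y χ : ℝ} (h0 : 0 ≤ y) (h1 : y ≤ 1) (hχ : χ ≤ 1) :
    Ph (-(2 * y)) χ 1 (-y) ≤ -(y ^ 4 / 8) := by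
  have a1 := Real.le_log_one_add_of_nonneg h0
  have a2 : Real.log (1 + y) ≤ y := by
    have := Real.log_le_sub_one_of_pos (show 0 < 1 + y by linarith); linarith
  have a3 : y - y ^ 2 / 2 + y ^ 4 / 8 ≤ 2 * y / (y + 2) := by
    rw [le_div_iff₀ (by linarith)]
    have b1 : y ^ 4 ≤ y ^ 3 := pow_le_pow_of_le_one h0 h1 (by norm_num)
    have b2 : y ^ 5 ≤ y ^ 3 := pow_le_pow_of_le_one h0 h1 (by norm_num)
    have b3 : 0 ≤ y ^ 3 := by positivity
    nlinarith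
  have a4 := mul_le_mul_of_nonneg_right hχ (sub_nonneg.2 a2)
  simp only [Ph, Real.log_one, sub_neg_eq_add]
  nlinarith

lemma ph_pos {s χ δ : ℝ} (hδ : 0 ≤ δ) (hχ : 0 ≤ χ) (h : -Real.log (1 - (s - δ)) ≤ s) :
    Ph (2 * s) χ (1 + δ) (s - δ) ≤ -(s ^ 2 / 2) + δ / 2 + Real.log (1 + δ) / 2 := by
  have e : (2 * s + χ - (s - δ)) ^ 2 / (2 * (1 + δ)) = (2 * s + χ) ^ 2 / 2 - s * (2 * s + χ) +
      (s ^ 2 + δ) / 2 - δ * (2 * s + χ - 1 - s) ^ 2 / (2 * (1 + δ)) := by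
    field_simp; ring
  have a1 : 0 ≤ δ * (2 * s + χ - 1 - s) ^ 2 / (2 * (1 + δ)) := by positivity
  have a2 := mul_le_mul_of_nonneg_left h hχ
  unfold Ph
  rw [e]
  nlinarith

lemma ph_small {s χ : ℝ} (h0 : 0 ≤ s) (h1 : s ≤ 7 / 10) (hχ : 0 ≤ χ) :
    ∃ b u : ℝ, b ∈ Icc (1 : ℝ) 2 ∧ u ∈ Icc (-2 : ℝ) (1 / 2) ∧ Ph (2 * s) χ b u ≤ -(s ^ 4 / 8) := by
  obtain ⟨Q, hQ⟩ : ∃ Q : ℝ, Q = 1 + s + s ^ 2 / 2 := ⟨_, rfl⟩
  have q1 : 1 ≤ Q := by rw [hQ]; nlinarith
  have q2 : Q ≤ 2 := by rw [hQ]; nlinarith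
  have q0 : 0 < Q := by linarith
  obtain ⟨δ, hδ⟩ : ∃ δ : ℝ, δ = s - 1 + Q⁻¹ := ⟨_, rfl⟩
  have i1 : Q⁻¹ ≤ 1 := inv_le_one_of_one_le₀ q1
  have i2 : 1 / 2 ≤ Q⁻¹ := by rw [one_div]; exact inv_anti₀ q0 q2
  have e1 : δ = (s ^ 2 / 2 + s ^ 3 / 2) * Q⁻¹ := by
    rw [hδ]; field_simp; rw [hQ]; ring
  have e2 : s ^ 2 / 2 - δ = s ^ 4 / 4 * Q⁻¹ := by
    rw [hδ]; field_simp; rw [hQ]; ring
  have d0 : 0 ≤ δ := by rw [e1]; positivity
  have hl : -Real.log (1 - (s - δ)) ≤ s := by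
    rw [show 1 - (s - δ) = Q⁻¹ by rw [hδ]; ring, Real.log_inv, neg_neg,
      Real.log_le_iff_le_exp q0, hQ]
    exact Real.quadratic_le_exp_of_nonneg h0
  refine ⟨1 + δ, s - δ, ⟨by linarith, by linarith⟩, ⟨by linarith, by linarith⟩, ?_⟩
  have a1 := ph_pos d0 hχ hl
  have a2 := Real.log_le_sub_one_of_pos (show 0 < 1 + δ by linarith)
  have a3 := mul_le_mul_of_nonneg_left i2 (show 0 ≤ s ^ 4 / 4 by positivity)
  linarith

lemma ph_big {s χ : ℝ} (h0 : 7 / 10 ≤ s) (h1 : s ≤ 3 / 2) (hχ : 0 ≤ χ) :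
    ∃ b u : ℝ, b ∈ Icc (1 : ℝ) 2 ∧ u ∈ Icc (-2 : ℝ) (1 / 2) ∧ Ph (2 * s) χ b u ≤ -(1 / 128) := by
  obtain ⟨δ, hδ⟩ : ∃ δ : ℝ, δ = s - 1 / 2 := ⟨_, rfl⟩
  have d0 : 0 ≤ δ := by linarith
  have d1 : δ ≤ 1 := by linarith
  have hl : -Real.log (1 - (s - δ)) ≤ s := by
    rw [show 1 - (s - δ) = 2⁻¹ by rw [hδ]; ring, Real.log_inv, neg_neg]
    linarith [Real.log_two_lt_d9]
  have a2 : Real.log (1 + δ) ≤ δ - δ ^ 2 / 6 := by
    rw [Real.log_le_iff_le_exp (by linarith)]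
    refine le_trans ?_ (Real.quadratic_le_exp_of_nonneg (by nlinarith))
    have : δ ^ 3 ≤ δ ^ 2 := pow_le_pow_of_le_one d0 d1 (by norm_num)
    nlinarith [sq_nonneg δ, sq_nonneg (δ ^ 2)]
  refine ⟨1 + δ, s - δ, ⟨by linarith, by linarith⟩, ⟨by linarith, by linarith⟩, ?_⟩
  have a1 := ph_pos d0 hχ hl
  have e : s = δ + 1 / 2 := by linarith
  refine a1.trans ?_
  rw [e]
  nlinarith [sq_nonneg (δ - 3 / 7)]

lemma ph_ex {S χ e : ℝ} (he : 0 ≤ e) (he1 : e ≤ 1) (h1 : -2 ≤ S) (h2 : S ≤ 3) (hS : e ≤ |S|)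
    (hχ : 0 ≤ χ) (hχ1 : χ ≤ 1) :
    ∃ b u : ℝ, b ∈ Icc (1 : ℝ) 2 ∧ u ∈ Icc (-2 : ℝ) (1 / 2) ∧ Ph S χ b u ≤ -(e ^ 4 / 128) := by
  have h4 : e ^ 4 ≤ S ^ 4 := by
    have := pow_le_pow_left₀ he hS 4
    rwa [show |S| ^ 4 = S ^ 4 from Even.pow_abs (by decide) S] at this
  have h5 : e ^ 4 ≤ 1 := pow_le_one₀ he he1
  rcases le_total S 0 with h | h
  · refine ⟨1, -(-S / 2), ⟨le_rfl, by norm_num⟩, ⟨by linarith, by linarith⟩, ?_⟩
    have := ph_neg (y := -S / 2) (by linarith) (by linarith) hχ1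
    rw [show -(2 * (-S / 2)) = S by ring] at this
    nlinarith
  · rcases le_total (S / 2) (7 / 10) with h' | h'
    · obtain ⟨b, u, hb, hu, hp⟩ := ph_small (s := S / 2) (by linarith) h' hχ
      rw [show 2 * (S / 2) = S by ring] at hp
      exact ⟨b, u, hb, hu, by nlinarith⟩
    · obtain ⟨b, u, hb, hu, hp⟩ := ph_big (s := S / 2) h' (by linarith) hχ
      rw [show 2 * (S / 2) = S by ring] at hp
      exact ⟨b, u, hb, hu, by linarith⟩

lemma wt_num {g q t S : ℝ} (hg : 0 < g) (hq : 0 ≤ q) (ht : 0 ≤ t) (e : g = q + t) :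
    (S * g) ^ 2 / (2 * g * (g + q)) ≤ S ^ 2 / 4 + S ^ 2 / 4 * (t / g) := by
  have e1 : (S * g) ^ 2 / (2 * g * (g + q)) = S ^ 2 / 4 + S ^ 2 / 4 * (t / (g + q)) := by
    have : t = g - q := by linarith
    rw [this]; field_simp; ring
  rw [e1]
  have : t / (g + q) ≤ t / g := div_le_div_of_nonneg_left ht hg (by linarith)
  nlinarith [mul_le_mul_of_nonneg_left this (sq_nonneg S)]

lemma lg_num {g q M S b u A : ℝ} (hg : 0 < g) (hqg : q ≤ g) (hM : 0 ≤ M) (hb : 1 ≤ b)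
    (hA : A = S * g + g * (1 - q)) (h : A ^ 2 ≤ q * M) :
    S ^ 2 / 4 - M / (2 * g) + M / (2 * (g * b)) + Real.log (g * b / g) / 2 +
      (-(u * A / (g * b)) + u ^ 2 * q / (2 * (g * b)) - (1 - q) * Real.log (1 - u)) ≤
    Ph S (1 - q) b u := by
  have hb0 : 0 < b := by linarith
  have a1 : (S + (1 - q)) ^ 2 ≤ M / g := by
    rw [le_div_iff₀ hg]
    have h2 : ((S + (1 - q)) ^ 2 * g) * g ≤ M * g := by
      have := mul_le_mul_of_nonneg_right hqg hM
      rw [hA] at h; nlinarith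
    exact le_of_mul_le_mul_right h2 hg
  have a2 : q / g ≤ 1 := (div_le_one hg).2 hqg
  have a3 : b⁻¹ ≤ 1 := inv_le_one_of_one_le₀ hb
  have a4 : 0 < b⁻¹ := by positivity
  have e1 : g * b / g = b := by field_simp
  have e2 : M / (2 * g) = M / g / 2 := by field_simp
  have e3 : M / (2 * (g * b)) = M / g / 2 * b⁻¹ := by field_simp
  have e4 : u * A / (g * b) = u * (S + (1 - q)) * b⁻¹ := by rw [hA]; field_simp
  have e5 : u ^ 2 * q / (2 * (g * b)) = u ^ 2 / 2 * b⁻¹ * (q / g) := by field_simp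
  have e6 : (S + (1 - q) - u) ^ 2 / (2 * b) = (S + (1 - q) - u) ^ 2 / 2 * b⁻¹ := by field_simp
  have a5 := mul_le_mul_of_nonneg_left a2 (show 0 ≤ u ^ 2 / 2 * b⁻¹ by positivity)
  have a6 := mul_le_mul_of_nonneg_right a1 (sub_nonneg.2 a3)
  unfold Ph
  rw [e1, e2, e3, e4, e5, e6]
  nlinarith

/-- the event `|w| ≥ e γ` -/
lemma ev1 (hI : IdStmt) (hC : ChStmt) (hT : TiltStmt) : ∃ C : ℕ, ∀ (n : ℕ) (t q1 e : ℝ),
    2 ≤ n → 1 / (n : ℝ) ≤ t → t ≤ 1 → 0 < q1 → 0 ≤ e → e ≤ 1 → 576 * t ≤ q1 * e ^ 4 →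
    Px t {x : V n | q1 ≤ aS x ∧ ww t x ≤ 3 * ga t x ∧ e * ga t x ≤ |ww t x|} ≤
      ex (C * Real.log n - e ^ 4 / 256 * n) := by
  obtain ⟨C, h0⟩ := tilt0 hC hT
  refine ⟨C, fun n t q1 e hn ht ht1 hq1 he he1 hte => ?_⟩
  have hn0 : 0 < n := by omega
  have hn' : (0 : ℝ) < n := by exact_mod_cast hn0
  have ht0 : 0 < t := lt_of_lt_of_le (by positivity) ht
  have hm : MeasurableSet ({x : V n | q1 ≤ aS x} ∩ ({x : V n | ww t x ≤ 3 * ga t x} ∩
      {x : V n | e * ga t x ≤ |ww t x|})) :=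
    (measurableSet_le (by fun_prop) (by fun_prop)).inter
      ((measurableSet_le (by fun_prop) (by fun_prop)).inter
        (measurableSet_le (by fun_prop) (by fun_prop)))
  refine h0 n t _ _ hn hm fun x hx => ?_
  obtain ⟨x1, x2, x3⟩ := hx
  obtain ⟨i1, i2, -⟩ := hI n t x hn0 ht0
  have hg := ga_pos ht0 x
  have hq := aS_nonneg x
  have hq' := aS_lt_one hn0 x
  have eg : ga t x = aS x + t := rfl
  have hw := ww_ge hn0 ht0 x i1
  obtain ⟨S, hS⟩ : ∃ S, ww t x = S * ga t x := ⟨ww t x / ga t x, by field_simp⟩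
  have s1 : -2 ≤ S := le_of_mul_le_mul_right (by rw [← hS]; linarith) hg
  have s2 : S ≤ 3 := le_of_mul_le_mul_right (by rw [← hS]; linarith) hg
  have s3 : e ≤ |S| := by
    rw [hS, abs_mul, abs_of_pos hg] at x3
    exact le_of_mul_le_mul_right x3 hg
  obtain ⟨b, u, hb, hu, hp⟩ := ph_ex (χ := 1 - aS x) he he1 s1 s2 s3 (by linarith) (by linarith)
  have hv : 0 < ga t x * b := mul_pos hg (by linarith [hb.1])
  have r := i2 _ hv
  rw [sum_gR hn0 t _ u hv x, add_assoc] at r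
  refine ⟨mu t x, ga t x * b, u, _, abs_mu_le hn0 ht0.le ht1 x,
    ⟨by nlinarith [hb.1], by nlinarith [hb.2]⟩, hu, r.le, ?_⟩
  have a1 := lg_num (u := u) (S := S) hg (by linarith) (M2_nonneg t x) hb.1
    (by rw [AA_eq, hS]) (AA_sq t x)
  have a2 : Wt t x ≤ S ^ 2 / 4 + S ^ 2 / 4 * (t / ga t x) := by
    unfold Wt; rw [hS]; exact wt_num hg hq ht0.le eg
  have a3 : t / ga t x ≤ e ^ 4 / 576 := by
    rw [div_le_div_iff₀ hg (by norm_num)]
    nlinarith [mul_le_mul_of_nonneg_right (show q1 ≤ ga t x by linarith)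
      (show 0 ≤ e ^ 4 by positivity)]
  have a4 : S ^ 2 / 4 * (t / ga t x) ≤ 9 / 4 * (e ^ 4 / 576) :=
    mul_le_mul (by nlinarith) a3 (by positivity) (by norm_num)
  rw [← mul_add, mul_comm _ (n : ℝ), ← mul_add]
  exact mul_nonpos_of_nonneg_of_nonpos hn'.le (by linarith)

/-! ### the odd weight -/

lemma tanh_mid {m : ℝ} (hm : 0 ≤ m) (d : ℝ) :
    Real.tanh (m + d) + Real.tanh (m - d) ≤ 2 * Real.tanh m := by
  have c1 := Real.cosh_pos (m + d)
  have c2 := Real.cosh_pos (m - d)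
  have c3 := Real.cosh_pos m
  have s0 : 0 ≤ Real.sinh m := Real.sinh_nonneg_iff.2 hm
  have e1 : Real.cosh (m + d) * Real.cosh (m - d) = Real.cosh m ^ 2 + Real.sinh d ^ 2 := by
    rw [Real.cosh_add, Real.cosh_sub]
    have := Real.cosh_sq m
    have := Real.cosh_sq d
    linear_combination (Real.cosh m ^ 2) * Real.cosh_sq d + (Real.sinh d ^ 2) * Real.cosh_sq m
  have e2 : Real.sinh (m + d) * Real.cosh (m - d) + Real.cosh (m + d) * Real.sinh (m - d) =
      2 * Real.sinh m * Real.cosh m := by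
    rw [← Real.sinh_add, show m + d + (m - d) = 2 * m by ring, Real.sinh_two_mul]
  simp only [Real.tanh_eq_sinh_div_cosh]
  rw [div_add_div _ _ c1.ne' c2.ne', e1, e2, ← mul_div_assoc,
    div_le_div_iff₀ (by positivity) c3]
  nlinarith [mul_nonneg s0 (sq_nonneg (Real.sinh d))]

def sg (m : ℝ) : ℝ := if 0 ≤ m then 1 else -1

lemma sg_mul (m : ℝ) : sg m * m = |m| := by
  unfold sg; split_ifs with h
  · rw [abs_of_nonneg h, one_mul]
  · rw [abs_of_neg (not_le.1 h)]; ring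

lemma sg_mul_ge (m z : ℝ) : -|z| ≤ sg m * z := by
  unfold sg; split_ifs with h
  · linarith [neg_abs_le z]
  · linarith [le_abs_self z]

lemma sg_mid (m y : ℝ) :
    sg m * Real.tanh y + sg m * Real.tanh (2 * m - y) ≤ 2 * Real.tanh |m| := by
  unfold sg; split_ifs with h
  · have := tanh_mid h (y - m)
    rw [show m + (y - m) = y by ring, show m - (y - m) = 2 * m - y by ring] at this
    rw [abs_of_nonneg h]; linarith
  · have := tanh_mid (m := -m) (by linarith) (m - y)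
    rw [show -m + (m - y) = -y by ring, show -m - (m - y) = -(2 * m - y) by ring,
      Real.tanh_neg, Real.tanh_neg] at this
    rw [abs_of_neg (not_le.1 h)]; linarith

lemma exp_two {a b L l : ℝ} (h1 : a + b ≤ 2 * L) (h2 : (a - b) ^ 2 ≤ 4 * l ^ 2) :
    Real.exp a + Real.exp b ≤ 2 * Real.exp (L + l ^ 2 / 2) := by
  have e : Real.exp a + Real.exp b = 2 * (Real.exp ((a + b) / 2) * Real.cosh ((a - b) / 2)) := by
    rw [Real.cosh_eq, mul_div_assoc', mul_add, ← Real.exp_add, ← Real.exp_add]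
    ring_nf
  rw [e, Real.exp_add]
  refine mul_le_mul_of_nonneg_left (mul_le_mul (Real.exp_le_exp.2 (by linarith))
    ((Real.cosh_le_exp_half_sq _).trans (Real.exp_le_exp.2 (by nlinarith)))
    (Real.cosh_pos _).le (Real.exp_pos _).le) (by norm_num)

lemma mgf (hC : ChStmt) {m v l : ℝ} (hv : 0 < v) (hl : 0 ≤ l) :
    ∫⁻ y, ex (gR m v 0 y + l * (sg m * Real.tanh y)) ≤ ex (l * Real.tanh |m| + l ^ 2 / 2) := by
  have hs : ∀ y, gR m v 0 (2 * m - y) = gR m v 0 y := fun y => by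
    simp only [gR, sub_zero, Real.log_one, zero_mul, mul_zero]; ring
  have hr := lintegral_sub_left_eq_self (μ := volume)
    (fun y => ex (gR m v 0 y + l * (sg m * Real.tanh y))) (2 * m)
  simp only [hs] at hr
  have hp : ∀ y, ex (gR m v 0 y + l * (sg m * Real.tanh y)) +
      ex (gR m v 0 y + l * (sg m * Real.tanh (2 * m - y))) ≤
      2 * ex (l * Real.tanh |m| + l ^ 2 / 2) * ex (gR m v 0 y) := fun y => by
    have a1 := mul_le_mul_of_nonneg_left (sg_mid m y) hl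
    have a2 : (Real.tanh y - Real.tanh (2 * m - y)) ^ 2 ≤ 4 := by
      nlinarith [Real.tanh_sq_lt_one y, Real.tanh_sq_lt_one (2 * m - y),
        sq_nonneg (Real.tanh y + Real.tanh (2 * m - y))]
    have a3 : sg m ^ 2 = 1 := by unfold sg; split_ifs <;> norm_num
    have a4 := exp_two (a := l * (sg m * Real.tanh y)) (b := l * (sg m * Real.tanh (2 * m - y)))
      (L := l * Real.tanh |m|) (l := l) (by linarith) (by
        rw [show (l * (sg m * Real.tanh y) - l * (sg m * Real.tanh (2 * m - y))) ^ 2 =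
          l ^ 2 * sg m ^ 2 * (Real.tanh y - Real.tanh (2 * m - y)) ^ 2 by ring, a3]
        nlinarith [mul_le_mul_of_nonneg_left a2 (sq_nonneg l)])
    rw [Conc.ex_add, Conc.ex_add, ← mul_add, mul_comm]
    refine mul_le_mul_left ?_ _
    unfold ex
    rw [← ENNReal.ofReal_add (Real.exp_pos _).le (Real.exp_pos _).le,
      show (2 : ℝ≥0∞) = ENNReal.ofReal 2 by simp, ← ENNReal.ofReal_mul (by norm_num)]
    exact ENNReal.ofReal_le_ofReal a4
  have h2 := lintegral_mono (μ := volume) hp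
  rw [lintegral_add_left (by fun_prop), hr, lintegral_const_mul _ (by fun_prop), ← two_mul] at h2
  have h3 := h2.trans (mul_le_mul_right (hC.1 m v 0 hv (by norm_num)) _)
  rw [mul_one] at h3
  exact (ENNReal.mul_le_mul_iff_right (by norm_num) (by norm_num)).1 h3

lemma gap_mono : StrictMonoOn (fun y => y - Real.tanh y) (Ici 0) := by
  refine strictMonoOn_of_deriv_pos (convex_Ici 0) (by fun_prop) fun y hy => ?_
  rw [interior_Ici] at hy
  rw [show (fun y => y - Real.tanh y) = (fun y => y) - Real.tanh from rfl,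
    ((hasDerivAt_id' y).sub (hasDerivAt_tanh y)).deriv]
  have : 0 < Real.tanh y := by
    rw [Real.tanh_eq_sinh_div_cosh]
    exact div_pos (Real.sinh_pos_iff.2 hy) (Real.cosh_pos y)
  nlinarith

/-- the event `|w| ≤ e γ`, `q ≥ q1` -/
lemma ev2 (hI : IdStmt) (hC : ChStmt) (hT : TiltStmt) : ∃ C : ℕ, ∀ (n : ℕ) (t q1 c : ℝ),
    2 ≤ n → 1 / (n : ℝ) ≤ t → 0 < q1 → q1 ≤ 1 → 0 < c → c ≤ q1 ^ 2 / 4 → 4 * t ≤ c →
    (∀ m, q1 ^ 2 / 4 ≤ m → Real.tanh m ≤ m - c) →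
    Px t {x : V n | q1 ≤ aS x ∧ |ww t x| ≤ c / 4 * ga t x} ≤
      ex (C * Real.log n - c ^ 2 / 32 * n) := by
  obtain ⟨C, h0⟩ := hT
  refine ⟨C, fun n t q1 c hn ht hq1 hq2 hc hc1 htc hth => ?_⟩
  have hn0 : 0 < n := by omega
  have hn' : (0 : ℝ) < n := by exact_mod_cast hn0
  have ht0 : 0 < t := lt_of_lt_of_le (by positivity) ht
  have hqq : q1 ^ 2 ≤ q1 := by nlinarith
  have hm : MeasurableSet ({x : V n | q1 ≤ aS x} ∩ {x : V n | |ww t x| ≤ c / 4 * ga t x}) :=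
    (measurableSet_le (by fun_prop) (by fun_prop)).inter
      (measurableSet_le (by fun_prop) (by fun_prop))
  refine h0 n t _ _ (fun m _ _ y => c / 4 * (sg m * Real.tanh y)) hn hm
    (fun _ _ _ => by fun_prop) fun x hx => ?_
  obtain ⟨x1, x2⟩ := hx
  obtain ⟨i1, i2, -⟩ := hI n t x hn0 ht0
  have hg := ga_pos ht0 x
  have hq := aS_nonneg x
  have hq' := aS_lt_one hn0 x
  have eg : ga t x = aS x + t := rfl
  have em : mu t x = bS x + t := rfl
  refine ⟨mu t x, ga t x, 0, _, abs_mu_le hn0 ht0.le (by linarith) x,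
    ⟨by linarith, by linarith⟩, ⟨by norm_num, by norm_num⟩, (i2 _ hg).le,
    fun m0 v0 u0 hcl => ?_⟩
  obtain ⟨c1, c2, -, -, -, c3⟩ := hcl
  rw [c3 rfl]
  refine ⟨_, mgf hC (by linarith) (by linarith), ?_⟩
  have a1 : |mu t x - m0| ≤ t := by
    refine c1.trans ?_
    have b1 : 1 / (n : ℝ) * (1 / (n : ℝ)) ≤ t * t :=
      mul_le_mul ht ht (by positivity) ht0.le
    have b2 : ga t x / (n : ℝ) ^ 2 = ga t x * (1 / (n : ℝ) * (1 / (n : ℝ))) := by field_simp
    rw [b2]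
    calc _ ≤ 2 * (t * t) := mul_le_mul (by linarith) b1 (by positivity) (by norm_num)
      _ ≤ t := by nlinarith
  have a2 : q1 ^ 2 / 2 ≤ |mu t x| := by
    have b1 : mu t x * bS x ≤ |mu t x| := by
      refine (le_abs_self _).trans ?_
      rw [abs_mul]
      exact mul_le_of_le_one_right (abs_nonneg _) (abs_bS_le hn0 x)
    have b2 := R4_nonneg x
    have b3 := (abs_le.1 x2).2
    have b4 : q1 * (q1 - c / 4) ≤ ga t x * (aS x - c / 4) :=
      mul_le_mul (by linarith) (by linarith) (by linarith) hg.le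
    nlinarith
  have a3 : q1 ^ 2 / 4 ≤ |m0| := by
    have := abs_sub_abs_le_abs_sub (mu t x) m0
    linarith
  have a4 := hth _ a3
  have a5 : |m0| - 2 * t ≤ sg m0 * bS x := by
    have b1 := sg_mul_ge m0 (mu t x - m0)
    have b2 := sg_mul_ge m0 (-t)
    rw [abs_neg, abs_of_pos ht0] at b2
    have b3 : sg m0 * bS x = sg m0 * m0 + sg m0 * (mu t x - m0) + sg m0 * (-t) := by
      rw [em]; ring
    rw [b3, sg_mul]; linarith
  have a6 : Wt t x ≤ c ^ 2 / 32 := by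
    have b1 : ww t x ^ 2 ≤ (c / 4 * ga t x) ^ 2 := sq_le_sq' (abs_le.1 x2).1 (abs_le.1 x2).2
    unfold Wt
    rw [div_le_iff₀ (by positivity)]
    nlinarith [mul_nonneg (sq_nonneg c) (mul_nonneg hg.le hq)]
  have e1 : ∑ i, c / 4 * (sg m0 * Real.tanh (x i)) = n * (c / 4 * (sg m0 * bS x)) := by
    simp only [← Finset.mul_sum, bS, avg, th]; field_simp
  rw [e1, div_self hg.ne', Real.log_one, mul_comm _ (n : ℝ), ← mul_add, ← mul_add]
  refine mul_le_mul_of_nonneg_left ?_ hn'.le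
  nlinarith [mul_le_mul_of_nonneg_left a5 hc.le, mul_le_mul_of_nonneg_left a4 hc.le,
    mul_le_mul_of_nonneg_left htc hc.le]

lemma lg_one (hI : IdStmt) (hC : ChStmt) (hT : TiltStmt) (hH : HiStmt) {q1 : ℝ} (hq1 : 0 < q1)
    (hq2 : q1 ≤ 1) : ∃ κ > (0 : ℝ), ∃ t0 > (0 : ℝ), ∃ C : ℕ, ∀ (n : ℕ) (t : ℝ),
    C ≤ n → t ∈ Icc (1 / (n : ℝ)) t0 → Px t {x : V n | q1 ≤ aS x} ≤
      ex (C * Real.log n - κ * n) := by
  obtain ⟨C0, h0⟩ := hH
  obtain ⟨C1, h1⟩ := ev1 hI hC hT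
  obtain ⟨C2, h2⟩ := ev2 hI hC hT
  have hh : 0 < q1 ^ 2 / 4 := by positivity
  obtain ⟨c, hc⟩ : ∃ c, c = q1 ^ 2 / 4 - Real.tanh (q1 ^ 2 / 4) := ⟨_, rfl⟩
  have c0 : 0 < c := by
    have := gap_mono (mem_Ici.2 le_rfl) (mem_Ici.2 hh.le) hh
    simpa [hc] using this
  have c1 : c ≤ q1 ^ 2 / 4 := by
    have : 0 ≤ Real.tanh (q1 ^ 2 / 4) := by
      rw [Real.tanh_eq_sinh_div_cosh]
      exact div_nonneg (Real.sinh_nonneg_iff.2 hh.le) (Real.cosh_pos _).le
    linarith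
  have c2 : c ≤ 1 / 4 := by nlinarith
  have c3 : ∀ m, q1 ^ 2 / 4 ≤ m → Real.tanh m ≤ m - c := fun m hm => by
    have := gap_mono.monotoneOn (mem_Ici.2 hh.le) (mem_Ici.2 (hh.le.trans hm)) hm
    linarith
  have e0 : 0 < (c / 4) ^ 4 := by positivity
  have e1 : (c / 4) ^ 4 ≤ (c / 4) ^ 2 := pow_le_pow_of_le_one (by linarith) (by linarith) (by omega)
  have e2 : (c / 4) ^ 2 ≤ c / 4 := by nlinarith
  refine ⟨(c / 4) ^ 4 / 256, by positivity, q1 * (c / 4) ^ 4 / 576, by positivity,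
    C0 + C1 + C2 + 3, fun n t hn ht => ?_⟩
  have hn0 : 0 < n := by omega
  have hn' : (0 : ℝ) < n := by exact_mod_cast hn0
  have hl : 0 ≤ Real.log n := Real.log_natCast_nonneg n
  have t1 : 576 * t ≤ q1 * (c / 4) ^ 4 := by linarith [ht.2]
  have t2 : q1 * (c / 4) ^ 4 ≤ (c / 4) ^ 4 := mul_le_of_le_one_left e0.le hq2
  have t0 : 0 < t := lt_of_lt_of_le (by positivity) ht.1
  have k0 := h0 n t (by omega) ⟨ht.1, by linarith⟩
  have k1 := h1 n t q1 (c / 4) (by omega) ht.1 (by linarith) hq1 (by linarith) (by linarith) t1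
  have k2 := h2 n t q1 c (by omega) ht.1 hq1 hq2 c0 c1 (by linarith) c3
  have p0 : (0 : ℝ) ≤ C0 * Real.log n := by positivity
  have p1 : (0 : ℝ) ≤ C1 * Real.log n := by positivity
  have p2 : (0 : ℝ) ≤ C2 * Real.log n := by positivity
  obtain ⟨B, hB⟩ : ∃ B, B = ex ((C0 + C1 + C2 : ℝ) * Real.log n - (c / 4) ^ 4 / 256 * n) :=
    ⟨_, rfl⟩
  have m0 := k0.trans (show _ ≤ B from hB ▸ Conc.ex_mono (by nlinarith))
  have m1 := k1.trans (show _ ≤ B from hB ▸ Conc.ex_mono (by nlinarith))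
  have m2 := k2.trans (show _ ≤ B from hB ▸ Conc.ex_mono (by nlinarith))
  have cov : Px t {x : V n | q1 ≤ aS x} ≤ B + (B + B) := by
    refine (Px_cover t (F := {x : V n | 3 * ga t x ≤ ww t x})
      (G := {x : V n | q1 ≤ aS x ∧ ww t x ≤ 3 * ga t x}) fun x hx => ?_).trans
      (add_le_add m0 ((Px_cover t fun x hx => ?_).trans (add_le_add m1 m2)))
    · exact (le_total (3 * ga t x) (ww t x)).imp id fun h => ⟨hx, h⟩
    · exact (le_total (c / 4 * ga t x) |ww t x|).imp (fun h => ⟨hx.1, hx.2, h⟩) fun h => ⟨hx.1, h⟩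
  have := ex_sum (k := 3) (by omega) hn0 (C0 + C1 + C2 : ℝ) ((c / 4) ^ 4 / 256 * n)
  rw [← hB] at this
  refine cov.trans (le_trans (le_of_eq (by push_cast; ring)) (this.trans (Conc.ex_mono ?_)))
  push_cast
  nlinarith

end L91

theorem lgGlue : LgGlue := by
  intro hI hC hT hH q1 hq
  obtain ⟨κ, hκ, t0, ht0, C, h⟩ := L91.lg_one hI hC hT hH (lt_min hq one_pos) (min_le_right _ _)
  refine ⟨κ, hκ, t0, ht0, C, fun n t hn ht => (Px_mono t fun x hx => ?_).trans (h n t hn ht)⟩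
  exact (min_le_left q1 1).trans hx

end Crest.Agent.T157.Kb

end
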