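import Crest.Agent.T157.QeDef_24

/-!
# Row 157, part A2 (helper66): the planted form of the quenched edge (`Qe.PtGlue`)

Cameron–Martin shift by `s s' / n`, then conditioning on the column `W p`.
-/

set_option autoImplicit false

noncomputable section

namespace Crest.Agent.T157.Qe

open Matrix Finset MeasureTheory Set
open scoped ENNReal
open Crest.Agent.T157.E Crest.Agent.T157.Cond Crest.Agent.T157.Dq
open Crest.Agent.T157.Conc (ex)

namespace Pt66

variable {n : ℕ}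


/-- Cameron–Martin shift -/
lemma cm (s : V n) {G : Mx n → ℝ≥0∞} (hG : Measurable G) :
    ∫⁻ W, ex (s ⬝ᵥ W *ᵥ s / 2) * G W ∂GOE n =
      ex ((1 / Real.sqrt n) ^ 2 * Vq ((1 / 2 : ℝ) • vecMulVec s s) / 2) *
        ∫⁻ W, G (W + (1 / (n : ℝ)) • vecMulVec s s) ∂GOE n := by
  have h := Kr.goe_cm (1 / Real.sqrt n) ((1 / 2 : ℝ) • vecMulVec s s) hG
  have e1 : ∀ W : Mx n, pair ((1 / 2 : ℝ) • vecMulVec s s) W = s ⬝ᵥ W *ᵥ s / 2 := by
    intro W
    rw [smul_pair, Kr.pair_comm, pair_vecMulVec]; ring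
  have e2 : (1 / Real.sqrt n) ^ 2 • ((1 / 2 : ℝ) • vecMulVec s s +
      ((1 / 2 : ℝ) • vecMulVec s s)ᵀ) = (1 / (n : ℝ)) • vecMulVec s s := by
    rw [Matrix.transpose_smul, Matrix.transpose_vecMulVec, ← add_smul, div_pow, one_pow,
      Real.sq_sqrt (Nat.cast_nonneg n)]
    norm_num
  simp only [e1, e2] at h
  exact h

/-- the planted column -/
def col (p s ξ : V n) : V n :=
  (len p)⁻¹ • resp (1 / Real.sqrt n) 0 1 p ξ + (unitv p ⬝ᵥ s / n) • s


lemma nextR_one (p : V n) : nextR (1 : Mx n) p = R1 (unitv p) := by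
  simp [nextR, R1, dirv]

lemma isProj_R1 (p : V n) : IsProj (R1 (unitv p)) := by
  rw [← nextR_one]; exact IsProj.one.nextR p

lemma rk2_add (a b e : V n) : rk2 (a + b) e = rk2 a e + rk2 b e := by
  simp only [rk2, Matrix.add_vecMulVec, Matrix.vecMulVec_add, dotProduct_add, add_smul]
  abel

lemma vmv_split (e s : V n) :
    vecMulVec s s = rk2 ((e ⬝ᵥ s) • s) e + vecMulVec (bv e s) (bv e s) := by
  have h : bv e s = s - (e ⬝ᵥ s) • e := by
    rw [bv, R1, Matrix.sub_mulVec, Matrix.one_mulVec, vmv_mulVec]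
  rw [h, rk2, dotProduct_smul]
  ext i j
  simp only [Matrix.add_apply, Matrix.sub_apply, Matrix.smul_apply, vecMulVec_apply,
    Pi.smul_apply, Pi.sub_apply, smul_eq_mul]
  ring

lemma shift_eq (p s ξ : V n) (W : Mx n) :
    glue (nextA 0 1 p (resp (1 / Real.sqrt n) 0 1 p ξ)) (nextR 1 p) W +
      (1 / (n : ℝ)) • vecMulVec s s = Wm (unitv p) (col p s ξ) (bv (unitv p) s) W := by
  have hR := isProj_R1 p
  have hτ : R1 (unitv p) *ᵥ bv (unitv p) s = bv (unitv p) s := hR.mulVec_mulVec s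
  have h1 : R1 (unitv p) * vecMulVec (bv (unitv p) s) (bv (unitv p) s) * R1 (unitv p) =
      vecMulVec (bv (unitv p) s) (bv (unitv p) s) := by
    rw [Matrix.mul_vecMulVec, vmv_mul, hR.symm, hτ]
  have h2 : (unitv p ⬝ᵥ s / n) • s = (1 / (n : ℝ)) • ((unitv p ⬝ᵥ s) • s) := by
    rw [smul_smul]; congr 1; ring
  rw [Wm, glue, glue, nextR_one, col, rk2_add, h2, rk2_smul (1 / (n : ℝ)), Matrix.mul_add,
    Matrix.add_mul, Matrix.mul_smul, Matrix.smul_mul, h1, nextA]
  conv_lhs => rw [vmv_split (unitv p) s]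
  simp only [dirv, Matrix.one_mulVec, Matrix.zero_mulVec, sub_zero, zero_add, smul_add]
  abel



lemma goe_eq (p : V n) : GOE n = ((gv (Fin n)).prod (GOE n)).map (fun z : V n × Mx n =>
      glue (nextA 0 1 p (resp (1 / Real.sqrt n) 0 1 p z.1)) (nextR 1 p) z.2) := by
  have h := goe_step (IsProj.one (ι := Fin n)) 0 p (1 / Real.sqrt n)
  have e1 : (fun W : Mx n => glue 0 1 W) = id := by funext W; simp [glue]
  rw [e1, Measure.map_id] at h
  exact h

lemma lint_step (p : V n) {G : Mx n → ℝ≥0∞} (hG : Measurable G) :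
    ∫⁻ W, G W ∂GOE n = ∫⁻ ξ, ∫⁻ W,
      G (glue (nextA 0 1 p (resp (1 / Real.sqrt n) 0 1 p ξ)) (nextR 1 p) W) ∂GOE n ∂gv (Fin n) := by
  have hT : Measurable fun z : V n × Mx n =>
      glue (nextA 0 1 p (resp (1 / Real.sqrt n) 0 1 p z.1)) (nextR 1 p) z.2 := by fun_prop
  have h2 := lintegral_map (μ := (gv (Fin n)).prod (GOE n)) hG hT
  rw [← goe_eq p] at h2
  exact h2.trans (lintegral_prod _ (hG.comp hT).aemeasurable)

/-- conditioning on the column -/
lemma cond (p s : V n) {G : Mx n → ℝ≥0∞} (hG : Measurable G) :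
    ∫⁻ W, G (W + (1 / (n : ℝ)) • vecMulVec s s) ∂GOE n =
      ∫⁻ ξ, ∫⁻ W, G (Wm (unitv p) (col p s ξ) (bv (unitv p) s) W) ∂GOE n ∂gv (Fin n) := by
  have hG' : Measurable fun W : Mx n => G (W + (1 / (n : ℝ)) • vecMulVec s s) := by fun_prop
  rw [lint_step p hG']
  exact lintegral_congr fun ξ => lintegral_congr fun W => by rw [shift_eq]


end Pt66


end Crest.Agent.T157.Qe

end
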