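import Crest.Agent.T157.KbDef_24
import Crest.Agent.T157.QeA_24
import Crest.Agent.T157.QePt_66
import Crest.Agent.T157.KrB_53

-- ▼ part T157/KbDet_77
section

/-!
# Row 157, part A2, section 2 (helper77): conditional second moment of the Jacobian
-/

set_option autoImplicit false
set_option linter.all false

noncomputable section

namespace Crest.Agent.T157.Kb

open MeasureTheory Matrix Set Filter
open scoped ENNReal
open Crest.Agent.T157.E Crest.Agent.T157.Cond Crest.Agent.T157.Tap Crest.Agent.T157.Dq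
open Crest.Agent.T157.Qe (Le R1 bv Wm qf_add qf_smul qf_one qf_vmv)
open Crest.Agent.T157.Conc (ex)

namespace Det77

variable {n : ℕ}

/-- the determinant is affine along rank-one directions -/
lemma aff (Y : Mx n) (u v : V n) (t : ℝ) :
    (Y + t • vecMulVec u v).det = Y.det + t * ((Y + vecMulVec u v).det - Y.det) := by
  obtain ⟨A, B, h⟩ : ∃ A B : ℝ, ∀ t : ℝ, (Y + t • vecMulVec u v).det = t * A + B := by
    let M := fromBlocks Y (replicateCol Unit u) (0 : Matrix Unit (Fin n) ℝ) (1 : Matrix Unit Unit ℝ)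
    refine ⟨(M.updateRow (.inr ()) (Sum.elim (-v) 0)).det,
      (M.updateRow (.inr ()) (Sum.elim 0 1)).det, fun t => ?_⟩
    rw [← det_updateRow_smul, ← det_updateRow_add]
    have e : M.updateRow (.inr ()) (t • Sum.elim (-v) (0 : Unit → ℝ) +
        Sum.elim (0 : V n) (1 : Unit → ℝ)) =
        fromBlocks Y (replicateCol Unit u) (replicateRow Unit (-(t • v))) 1 := by
      ext (i | i) (j | j) <;> simp [M, updateRow_apply]
    rw [e, det_fromBlocks_one₂₂]
    congr 1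
    ext i j
    simp [vecMulVec_apply, Matrix.mul_apply]
    ring
  have h0 := h 0
  have h1 := h 1
  rw [zero_smul, add_zero] at h0
  rw [one_smul] at h1
  rw [h, h0, h1]; ring

lemma quad (Y : Mx n) (a e : V n) : ∃ B C : ℝ, ∀ r : ℝ,
    (Y + r • (vecMulVec a e + vecMulVec e a)).det = Y.det + B * r + C * r ^ 2 := by
  refine ⟨(Y + vecMulVec e a).det - Y.det + ((Y + vecMulVec a e).det - Y.det),
    (Y + vecMulVec a e + vecMulVec e a).det - (Y + vecMulVec a e).det -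
      ((Y + vecMulVec e a).det - Y.det), fun r => ?_⟩
  rw [smul_add, add_comm (r • _), ← add_assoc, aff, add_right_comm, aff (Y + vecMulVec a e), aff Y]
  ring

lemma scale_le {G : V n → ℝ≥0∞} (hG : Measurable G) {σ : ℝ} (h0 : σ ≠ 0) (h1 : σ ^ 2 ≤ 1)
    {K : ℝ} (hK : 1 ≤ K * |σ| ^ n) :
    ∫⁻ g, G (σ • g) ∂gv (Fin n) ≤ ENNReal.ofReal K * ∫⁻ g, G g ∂gv (Fin n) := by
  have hd : (σ • (1 : Mx n)).det = σ ^ n := by simp
  have hi : (σ • (1 : Mx n))⁻¹ = σ⁻¹ • (1 : Mx n) := by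
    refine Matrix.inv_eq_left_inv ?_
    rw [Matrix.smul_mul, Matrix.mul_smul, smul_smul, inv_mul_cancel₀ h0, Matrix.mul_one, one_smul]
  have h := Kr.lintegral_gv_affine (M := σ • (1 : Mx n)) (by rw [hd]; positivity) 0 hG
  simp only [smul_mulVec, one_mulVec, hi, hd, zero_add, sub_zero] at h
  have p : 0 < |σ| ^ n := by positivity
  have k0 : 0 ≤ K := by by_contra h; nlinarith
  rw [h, Kr.lintegral_gv hG, ← lintegral_const_mul _ (by fun_prop)]
  refine lintegral_mono fun y => ?_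
  rw [← mul_assoc, ← ENNReal.ofReal_mul k0]
  refine mul_le_mul_left (ENNReal.ofReal_le_ofReal (mul_le_mul ?_ ?_ (Kr.phi_nonneg _ _) k0)) _
  · rw [abs_inv, abs_pow, inv_le_iff_one_le_mul₀ p]; exact hK
  · unfold Kr.phi
    refine mul_le_mul_of_nonneg_left (Real.exp_le_exp.2 ?_) (by positivity)
    rw [smul_dotProduct, dotProduct_smul, smul_eq_mul, smul_eq_mul]
    have a : 1 ≤ σ⁻¹ * σ⁻¹ := by
      rw [← mul_inv, ← sq]; exact (one_le_inv₀ (by positivity)).2 h1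
    nlinarith [dot_self_nonneg y]

/-- removing the compression costs a polynomial factor -/
lemma proj (hn : 2 ≤ n) (X : Mx n) (v : V n) :
    ∫⁻ W, ENNReal.ofReal ((X - R1 (unitv v) * W * R1 (unitv v)).det ^ 2) ∂GOE n ≤
      ENNReal.ofReal (24 * n ^ 2) * ∫⁻ W, ENNReal.ofReal ((X - W).det ^ 2) ∂GOE n := by
  have n2 : (2 : ℝ) ≤ n := by exact_mod_cast hn
  have mf : Measurable fun W : Mx n => ENNReal.ofReal ((X - W).det ^ 2) :=
    (continuous_det_sq X).measurable.ennreal_ofReal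
  have h := congrArg (fun μ => ∫⁻ W, ENNReal.ofReal ((X - W).det ^ 2) ∂μ)
    (goe_step0 IsProj.one v (1 / √n))
  simp only [Matrix.one_mul, Matrix.mul_one, Measure.map_id'] at h
  have d1 : dirv 1 v = unitv v := by rw [dirv, one_mulVec]
  have d2 : nextR 1 v = R1 (unitv v) := by rw [nextR, d1, R1]
  rw [lintegral_map mf (by fun_prop), lintegral_prod_symm _ (by
    exact (mf.comp (by fun_prop)).aemeasurable), d1, d2] at h
  rw [h, ← lintegral_const_mul' _ _ ENNReal.ofReal_ne_top]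
  refine lintegral_mono fun W => ?_
  set e := unitv v
  set Y := X - R1 e * W * R1 e
  set G : V n → ℝ≥0∞ := fun ξ =>
    ENNReal.ofReal ((X - ((1 / √n : ℝ) • rk2 (noise 1 v ξ) e + R1 e * W * R1 e)).det ^ 2) with hG
  have mG : Measurable G := mf.comp (by fun_prop)
  set σ : ℝ := 1 - 1 / (2 * n) with hσ
  have i0 : 0 < 1 / (2 * (n : ℝ)) := by positivity
  have i1 : 1 / (2 * (n : ℝ)) ≤ 1 / 4 := one_div_le_one_div_of_le (by norm_num) (by linarith)
  have s0 : 0 < σ := by linarith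
  have s1 : σ ^ 2 ≤ 1 := by nlinarith
  have s2 : 1 ≤ 2 * |σ| ^ n := by
    have := one_add_mul_le_pow (a := -(1 / (2 * (n : ℝ)))) (by linarith) n
    have e : (n : ℝ) * -(1 / (2 * n)) = -(1 / 2) := by field_simp
    rw [e, ← sub_eq_add_neg, ← sub_eq_add_neg] at this
    rw [abs_of_pos s0]; linarith
  have pt : ∀ ξ, ENNReal.ofReal (Y.det ^ 2) ≤ ENNReal.ofReal (4 * n ^ 2) *
      (G (σ • ξ) + G ((-σ) • ξ) + G ((1 : ℝ) • ξ) + G ((-1 : ℝ) • ξ)) := fun ξ => by
    obtain ⟨B, C, hq⟩ := quad Y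
      (-(1 / √n : ℝ) • (noise 1 v ξ - ((e ⬝ᵥ noise 1 v ξ) / 2) • e)) e
    have g : ∀ r : ℝ, G (r • ξ) = ENNReal.ofReal ((Y.det + B * r + C * r ^ 2) ^ 2) := fun r => by
      have e1 : noise 1 v (r • ξ) = r • noise 1 v ξ := by
        simp only [noise, mulVec_smul, dotProduct_smul, smul_eq_mul, smul_add, smul_smul]
        congr 2; ring
      rw [← hq, hG]
      simp only [e1]
      congr 3
      ext i j
      simp [Y, rk2, vecMulVec_apply]
      ring
    simp only [g]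
    rw [← ENNReal.ofReal_add (sq_nonneg _) (sq_nonneg _),
      ← ENNReal.ofReal_add (by positivity) (sq_nonneg _),
      ← ENNReal.ofReal_add (by positivity) (sq_nonneg _), ← ENNReal.ofReal_mul (by positivity)]
    refine ENNReal.ofReal_le_ofReal ?_
    generalize Y.det = A
    have k1 : ∀ a b c d : ℝ, ((a + b) / 2 - (c + d) / 2) ^ 2 ≤ a ^ 2 + b ^ 2 + c ^ 2 + d ^ 2 :=
      fun a b c d => by
        nlinarith [sq_nonneg (a - b), sq_nonneg (c - d), sq_nonneg (a + c), sq_nonneg (a + d),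
          sq_nonneg (b + c), sq_nonneg (b + d)]
    have k2 := k1 (A + B * σ + C * σ ^ 2) (A + B * -σ + C * (-σ) ^ 2)
      (σ ^ 2 * (A + B * 1 + C * 1 ^ 2)) (σ ^ 2 * (A + B * -1 + C * (-1) ^ 2))
    have k3 : ∀ c : ℝ, (σ ^ 2 * c) ^ 2 ≤ c ^ 2 := fun c => by
      rw [mul_pow]
      exact mul_le_of_le_one_left (sq_nonneg _) (pow_le_one₀ (sq_nonneg _) s1)
    have k4 : 1 ≤ 2 * n * (1 - σ ^ 2) := by
      have : 2 * (n : ℝ) * (1 - σ) = 1 := by rw [hσ]; field_simp; ring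
      nlinarith
    have k5 : A ^ 2 ≤ 4 * n ^ 2 * ((1 - σ ^ 2) * A) ^ 2 := by
      have : 1 ≤ (2 * n * (1 - σ ^ 2)) ^ 2 := one_le_pow₀ k4
      nlinarith [sq_nonneg A]
    refine k5.trans (mul_le_mul_of_nonneg_left ?_ (by positivity))
    have := k3 (A + B * 1 + C * 1 ^ 2)
    have := k3 (A + B * -1 + C * (-1) ^ 2)
    nlinarith
  have m : ∀ r : ℝ, Measurable fun ξ => G (r • ξ) := fun r => mG.comp (by fun_prop)
  calc ENNReal.ofReal (Y.det ^ 2) = ∫⁻ _, ENNReal.ofReal (Y.det ^ 2) ∂gv (Fin n) := by simp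
    _ ≤ _ := lintegral_mono pt
    _ ≤ ENNReal.ofReal (4 * n ^ 2) * ((ENNReal.ofReal 2 + ENNReal.ofReal 2 + ENNReal.ofReal 1 +
        ENNReal.ofReal 1) * ∫⁻ ξ, G ξ ∂gv (Fin n)) := by
      rw [lintegral_const_mul' _ _ ENNReal.ofReal_ne_top, lintegral_add_right _ (m _),
        lintegral_add_right _ (m _), lintegral_add_right _ (m _), add_mul, add_mul, add_mul]
      gcongr
      exacts [scale_le mG s0.ne' s1 s2,
        scale_le mG (neg_ne_zero.2 s0.ne') (by rwa [neg_sq]) (by rwa [abs_neg]),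
        scale_le mG one_ne_zero (by simp) (by simp), scale_le mG (by simp) (by simp) (by simp)]
    _ = _ := by
      rw [← mul_assoc, ← ENNReal.ofReal_add (by norm_num) (by norm_num),
        ← ENNReal.ofReal_add (by norm_num) (by norm_num),
        ← ENNReal.ofReal_add (by norm_num) (by norm_num), ← ENNReal.ofReal_mul (by positivity)]
      congr 2; ring

lemma det_add_le {A : Mx n} (h : Le ((1 : ℝ) • 1) A) {t : ℝ} (ht : 0 ≤ t) (u : V n) :
    (A + t • vecMulVec u u).det ^ 2 ≤ (1 + t * (u ⬝ᵥ u)) ^ 2 * A.det ^ 2 := by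
  have hu : IsUnit A.det := isUnit_iff_ne_zero.2 (Qe.det_ne_zero one_pos h)
  have e1 : A *ᵥ A⁻¹ *ᵥ u = u := by rw [mulVec_mulVec, mul_nonsing_inv _ hu, one_mulVec]
  have e : A + vecMulVec u u = A * (1 + vecMulVec (A⁻¹ *ᵥ u) u) := by
    rw [Matrix.mul_add, Matrix.mul_one, mul_vecMulVec, e1]
  have a := h (A⁻¹ *ᵥ u)
  rw [qf_smul, qf_one, one_mul, e1, dotProduct_comm _ u] at a
  have b := dot_self_nonneg (u - A⁻¹ *ᵥ u)
  simp only [sub_dotProduct, dotProduct_sub, dotProduct_comm (A⁻¹ *ᵥ u) u] at b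
  have c := dot_self_nonneg (A⁻¹ *ᵥ u)
  have d : (u ⬝ᵥ A⁻¹ *ᵥ u) ≤ u ⬝ᵥ u := by
    have b' := dot_self_nonneg (u - (2 : ℝ) • (u - A⁻¹ *ᵥ u))
    nlinarith
  rw [aff, e, det_mul, vecMulVec_eq Unit, det_one_add_replicateCol_mul_replicateRow,
    show A.det + t * (A.det * (1 + u ⬝ᵥ A⁻¹ *ᵥ u) - A.det) = (1 + t * (u ⬝ᵥ A⁻¹ *ᵥ u)) * A.det by
      ring, mul_pow]
  have := c.trans a
  gcongr

/-- second moments of `det (A + χ - N - W)`, uniformly in `A ≥ 1 + 1/n` -/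
def PP (χ : ℝ) (N : Mx n) (K : ℝ) : Prop := 0 ≤ K ∧ ∀ A : Mx n, Aᵀ = A →
  Le ((1 + 1 / n : ℝ) • 1) A → ∫ W, (A + χ • 1 - N - W).det ^ 2 ∂GOE n ≤ K * A.det ^ 2

lemma base (hn : 2 ≤ n) (χ : ℝ) : PP χ (0 : Mx n) (Real.exp (n * χ ^ 2) * n ^ 3) := by
  refine ⟨by positivity, fun A hA h => ?_⟩
  have n2 : (2 : ℝ) ≤ n := by exact_mod_cast hn
  obtain ⟨a, ha⟩ := Qe.dg_symm hA
  have a1 := Qe.ge_dg ha h
  have p1 : (0 : ℝ) < 1 + 1 / n := by positivity
  have hd := Qe.dg_affine ha 1 χ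
  have s2 : (1 / √(n : ℝ)) ^ 2 = 1 / n := by rw [div_pow, Real.sq_sqrt (by positivity), one_pow]
  have hS : (1 / √(n : ℝ)) ^ 2 * ∑ i, ((1 * a i + χ - χ) ^ 2)⁻¹ ≤ 1 - 1 / n := by
    have b : ∑ i, ((1 * a i + χ - χ) ^ 2)⁻¹ ≤ ∑ _i : Fin n, ((1 + 1 / n : ℝ) ^ 2)⁻¹ :=
      Finset.sum_le_sum fun i _ => by
        rw [one_mul, add_sub_cancel_right]
        exact inv_anti₀ (by positivity) (pow_le_pow_left₀ p1.le (a1 i) 2)
    rw [Finset.sum_const, Finset.card_univ, Fintype.card_fin, nsmul_eq_mul] at b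
    rw [s2]
    refine (mul_le_mul_of_nonneg_left b (by positivity)).trans ?_
    rw [← sub_nonneg]
    have : 1 - 1 / (n : ℝ) - 1 / n * (n * ((1 + 1 / n : ℝ) ^ 2)⁻¹) =
        (n ^ 2 - n - 1) / (n * (n + 1) ^ 2) := by field_simp; ring
    rw [this]
    exact div_nonneg (by nlinarith) (by positivity)
  have i0 : (0 : ℝ) < 1 / n := by positivity
  have b := det_sq_le (s := 1 / √n) (by positivity) hd (χ := χ)
    (fun i => by linarith [a1 i]) (by linarith)
  rw [one_smul] at b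
  rw [sub_zero]
  refine b.trans ?_
  have e1 : ∏ i, (1 * a i + χ - χ) ^ 2 = A.det ^ 2 := by
    rw [ha.det, ← Finset.prod_pow]; simp
  have e2 : χ ^ 2 / (1 / √(n : ℝ)) ^ 2 = n * χ ^ 2 := by rw [s2]; field_simp
  rw [e1, e2, mul_right_comm]
  gcongr
  rw [← inv_pow]
  refine pow_le_pow_left₀ (inv_nonneg.2 (by linarith)) ?_ 3
  rw [inv_le_comm₀ (by linarith) (by positivity), ← one_div]
  linarith

lemma step {χ K t : ℝ} {N : Mx n} (h : PP χ N K) (ht : 0 ≤ t) (u : V n) {B : ℝ}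
    (hB : 1 + t * (u ⬝ᵥ u) ≤ B) : PP χ (N + t • vecMulVec u u) (10 * B ^ 2 * K) := by
  have k0 := h.1
  refine ⟨by positivity, fun A hA h1 => ?_⟩
  have a1 := h.2 A hA h1
  have a2 := h.2 (A + t • vecMulVec u u)
    (by rw [transpose_add, hA, transpose_smul, transpose_vecMulVec]) fun v => (h1 v).trans (by
      rw [qf_add, qf_smul, qf_vmv, dotProduct_comm u v]
      nlinarith [mul_self_nonneg (v ⬝ᵥ u)])
  have u0 := mul_nonneg ht (dot_self_nonneg u)
  have a3 : (A + t • vecMulVec u u).det ^ 2 ≤ B ^ 2 * A.det ^ 2 :=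
    (det_add_le (fun v => le_trans (by
      rw [qf_smul, qf_smul, qf_one]
      exact mul_le_mul_of_nonneg_right (le_add_of_nonneg_right (by positivity))
        (dot_self_nonneg v)) (h1 v)) ht u).trans (by gcongr)
  have a4 : ∫ W, (A + χ • 1 - (N + t • vecMulVec u u) - W).det ^ 2 ∂GOE n ≤
      ∫ W, (8 * (A + χ • 1 - N - W).det ^ 2 +
        2 * (A + t • vecMulVec u u + χ • 1 - N - W).det ^ 2) ∂GOE n := by
    refine integral_mono (integrable_det_sq _ _) (((integrable_det_sq _ _).const_mul _).add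
      ((integrable_det_sq _ _).const_mul _)) fun W => ?_
    have e1 : A + χ • 1 - (N + t • vecMulVec u u) - W =
        A + χ • 1 - N - W + (-t) • vecMulVec u u := by rw [neg_smul]; abel
    have e2 : A + t • vecMulVec u u + χ • 1 - N - W =
        A + χ • 1 - N - W + t • vecMulVec u u := by abel
    simp only [e1, e2]
    rw [aff _ u u t, aff _ u u (-t)]
    generalize (A + χ • 1 - N - W).det = a
    generalize (A + χ • 1 - N - W + vecMulVec u u).det = b
    nlinarith [sq_nonneg (3 * a + t * (b - a))]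
  rw [integral_add ((integrable_det_sq _ _).const_mul _) ((integrable_det_sq _ _).const_mul _),
    integral_const_mul, integral_const_mul] at a4
  have b1 : 1 ≤ B ^ 2 := one_le_pow₀ (by linarith)
  have b2 := mul_le_mul_of_nonneg_left a3 k0
  have b3 := mul_le_mul_of_nonneg_right b1 (mul_nonneg k0 (sq_nonneg A.det))
  nlinarith

end Det77

open Det77 in
theorem detStmt : DetStmt := by
  refine ⟨34, fun n x c τ hn hx hτ heτ => ?_⟩
  have n2 : (2 : ℝ) ≤ n := by exact_mod_cast hn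
  have n0 : 0 < n := by omega
  have he : ee x ⬝ᵥ ee x = 1 := unitv_dot hx
  set e := ee x with hee
  set p := th x with hp
  set a := c - ((e ⬝ᵥ c) / 2) • e with ha
  have c0 := dot_self_nonneg c
  have D0 : ∀ i, 0 < DD p i := fun i => by
    have := Real.abs_tanh_lt_one (x i)
    have := abs_lt.1 this
    show 0 < 1 - Real.tanh (x i) ^ 2
    nlinarith
  have D1 : ∀ i, DD p i ≤ 1 := fun i => sub_le_self _ (sq_nonneg _)
  have cb : Cb p := fun i => (Real.abs_tanh_lt_one (x i)).le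
  have pp : p ⬝ᵥ p = n * aS x := by
    simp only [aS, avg, dotProduct, sq, ← hp]; field_simp
  have q0 : 0 ≤ aS x := div_nonneg (Finset.sum_nonneg fun _ _ => sq_nonneg _) (by positivity)
  have hχ : (avg fun i => dd p i ^ 2) = 1 - aS x := by
    simp only [Cell.dd_sq cb, avg, aS, DD, Finset.sum_sub_distrib, ← hp, Finset.sum_const,
      Finset.card_univ, Fintype.card_fin, nsmul_eq_mul]
    field_simp
  have q1 : aS x ≤ 1 := by
    have : 0 ≤ avg fun i => dd p i ^ 2 :=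
      div_nonneg (Finset.sum_nonneg fun _ _ => sq_nonneg _) (by positivity)
    linarith
  have na : ∀ s : ℝ, s ^ 2 = 1 → 1 + 1 / 2 * ((a + s • e) ⬝ᵥ (a + s • e)) ≤ 2 * (1 + c ⬝ᵥ c) :=
    fun s hs => by
      simp only [ha, add_dotProduct, dotProduct_add, sub_dotProduct, dotProduct_sub,
        smul_dotProduct, dotProduct_smul, smul_eq_mul, he, dotProduct_comm c e]
      have b := dot_self_nonneg (c - (e ⬝ᵥ c) • e)
      simp only [sub_dotProduct, dotProduct_sub, smul_dotProduct, dotProduct_smul, smul_eq_mul, he,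
        dotProduct_comm c e] at b
      nlinarith [sq_nonneg (e ⬝ᵥ c - s), sq_nonneg (e ⬝ᵥ c + s)]
  have P := step (step (step (base hn (1 - aS x - 1 / n)) (t := 1 / 2) (by norm_num) _
    (na 1 (by norm_num))) (t := 1 / n) (by positivity) τ (B := 2) (by
      rw [one_div, inv_mul_eq_div]
      linarith [div_le_one_of_le₀ hτ (by positivity : (0 : ℝ) ≤ n)])) (t := 2 / n) (by positivity) p
    (B := 3) (by rw [pp]; field_simp; linarith)
  set A0 : Mx n := diagonal fun i => (DD p i)⁻¹ + 1 / n with hA0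
  have l0 : Le ((1 + 1 / n : ℝ) • 1) A0 := Qe.dg_ge (dg_diagonal _) fun i =>
    add_le_add_left ((one_le_inv₀ (D0 i)).2 (D1 i)) _
  have l1 : Le ((1 : ℝ) • 1) A0 := Qe.dg_ge (dg_diagonal _) fun i =>
    ((one_le_inv₀ (D0 i)).2 (D1 i)).trans (le_add_of_nonneg_right (by positivity))
  have b1 := P.2 (A0 + (1 / 2 : ℝ) • vecMulVec (a + (-1 : ℝ) • e) (a + (-1 : ℝ) • e))
    (by rw [transpose_add, transpose_smul, transpose_vecMulVec, hA0, diagonal_transpose])
    fun v => (l0 v).trans (by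
      rw [qf_add, qf_smul, qf_vmv, dotProduct_comm _ v]
      nlinarith [mul_self_nonneg (v ⬝ᵥ (a + (-1 : ℝ) • e))])
  have b2 := det_add_le l1 (t := 1 / 2) (by norm_num) (a + (-1 : ℝ) • e)
  generalize hX : A0 + (1 / 2 : ℝ) • vecMulVec (a + (-1 : ℝ) • e) (a + (-1 : ℝ) • e) +
    (1 - aS x - 1 / n) • (1 : Mx n) - (0 + (1 / 2 : ℝ) • vecMulVec (a + (1 : ℝ) • e)
      (a + (1 : ℝ) • e) + (1 / n : ℝ) • vecMulVec τ τ + (2 / n : ℝ) • vecMulVec p p) = X at b1
  have hR : R1 e * vecMulVec τ τ * R1 e = vecMulVec τ τ := by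
    have r : R1 e *ᵥ τ = τ := by rw [Qe.R1_mulVec, heτ, zero_smul, sub_zero]
    have := Qe.conj_vmv (R1 e) τ τ
    rwa [(Qe.proj_R1 he).symm, r] at this
  have key : ∀ W, Deg.DY (Wm e c τ W) 1 x = (X - R1 e * W * R1 e) * diagonal (DD p) := fun W => by
    have e1 : (1 : Mx n) = (diagonal fun i => (DD p i)⁻¹) * diagonal (DD p) := by
      rw [diagonal_mul_diagonal, ← diagonal_one]
      congr 1; funext i; exact (inv_mul_cancel₀ (D0 i).ne').symm
    rw [Deg.DY, ← hp]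
    conv_lhs => enter [1]; rw [e1]
    rw [← Matrix.sub_mul, B1, B0, hχ, Wm, glue, Matrix.mul_add, Matrix.add_mul, Matrix.mul_smul,
      Matrix.smul_mul, hR, ← hX]
    congr 1
    generalize R1 e * W * R1 e = Z
    ext i j
    by_cases h : i = j
    · subst h
      simp [hA0, ha, rk2, vecMulVec_apply]
      ring
    · simp [hA0, ha, rk2, vecMulVec_apply, h]
      ring
  have b3 : A0.det * (diagonal (DD p)).det ≤ 3 := by
    rw [hA0, det_diagonal, det_diagonal, ← Finset.prod_mul_distrib]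
    refine (Finset.prod_le_prod (g := fun _ => Real.exp (1 / n)) (fun i _ => ?_) fun i _ => ?_).trans ?_
    · have := D0 i; positivity
    · rw [add_mul, inv_mul_cancel₀ (D0 i).ne']
      have := mul_le_of_le_one_right (by positivity : (0 : ℝ) ≤ 1 / n) (D1 i)
      linarith [Real.add_one_le_exp (1 / (n : ℝ))]
    · rw [Finset.prod_const, Finset.card_univ, Fintype.card_fin, ← Real.exp_nat_mul,
        mul_one_div_cancel (by positivity)]
      exact Real.exp_one_lt_three.le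
  have b4 : 0 ≤ A0.det * (diagonal (DD p)).det := by
    rw [hA0, det_diagonal, det_diagonal, ← Finset.prod_mul_distrib]
    exact Finset.prod_nonneg fun i _ => by have := D0 i; positivity
  have b5 : Real.exp (n * (1 - aS x - 1 / n) ^ 2) ≤ 3 * Real.exp (n * (1 - aS x) ^ 2) := by
    have : n * (1 - aS x - 1 / n) ^ 2 = n * (1 - aS x) ^ 2 - 2 * (1 - aS x) + 1 / n := by
      field_simp; ring
    have i1 : 1 / (n : ℝ) ≤ 1 := div_le_one_of_le₀ (by linarith) (by positivity)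
    calc _ ≤ Real.exp (1 + n * (1 - aS x) ^ 2) := Real.exp_le_exp.2 (by linarith)
      _ ≤ _ := by rw [Real.exp_add]; gcongr; exact Real.exp_one_lt_three.le
  simp only [key, det_mul, mul_pow]
  simp only [ENNReal.ofReal_mul (sq_nonneg _)]
  rw [lintegral_mul_const' _ _ ENNReal.ofReal_ne_top]
  refine (mul_le_mul_left (proj hn X p) _).trans ?_
  rw [← ofReal_integral_eq_lintegral_ofReal (integrable_det_sq _ _) (.of_forall fun _ => sq_nonneg _),
    ← ENNReal.ofReal_mul (by positivity), ← ENNReal.ofReal_mul (mul_nonneg (by positivity)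
      (integral_nonneg fun _ => sq_nonneg _)), ex, ← ENNReal.ofReal_mul (by positivity)]
  refine ENNReal.ofReal_le_ofReal ?_
  rw [Real.exp_add, Real.exp_nat_mul, Real.exp_log (by positivity)]
  have b6 := na (-1) (by norm_num)
  have b7 := dot_self_nonneg (a + (-1 : ℝ) • e)
  have b8 : (A0.det * (diagonal (DD p)).det) ^ 2 ≤ 3 ^ 2 := by gcongr
  have b9 : (1 + c ⬝ᵥ c) ^ 4 ≤ (1 + c ⬝ᵥ c) ^ 34 := pow_le_pow_right₀ (by linarith) (by norm_num)
  have b10 : (2 : ℝ) ^ 29 ≤ n ^ 29 := by gcongr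
  generalize Real.exp (n * (1 - aS x) ^ 2) = E at b5 ⊢
  have E0 : 0 ≤ E := by linarith [Real.exp_pos (n * (1 - aS x - 1 / n) ^ 2)]
  calc _ ≤ 24 * n ^ 2 * (10 * 3 ^ 2 * (10 * 2 ^ 2 * (10 * (2 * (1 + c ⬝ᵥ c)) ^ 2 *
        (3 * E * n ^ 3))) * ((2 * (1 + c ⬝ᵥ c)) ^ 2 * A0.det ^ 2)) * (diagonal (DD p)).det ^ 2 := by
        gcongr
        refine b1.trans ?_
        gcongr
        refine b2.trans ?_
        gcongr
    _ = 41472000 * (A0.det * (diagonal (DD p)).det) ^ 2 * n ^ 5 * E * (1 + c ⬝ᵥ c) ^ 4 := by ring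
    _ ≤ 41472000 * 3 ^ 2 * n ^ 5 * E * (1 + c ⬝ᵥ c) ^ 34 := by gcongr
    _ ≤ n ^ 29 * n ^ 5 * E * (1 + c ⬝ᵥ c) ^ 34 := by gcongr; linarith
    _ = _ := by ring

end Crest.Agent.T157.Kb

end
end

-- ▼ part T157/KbGrid_67
section

/-!
# Row 157, part A2, section 2 (helper67): the grid lemma and the tilt lemma of `KbDef_24`
-/

set_option autoImplicit false

noncomputable section

namespace Crest.Agent.T157.Kb

open MeasureTheory Set
open scoped ENNReal
open Crest.Agent.T157.Tap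
open Crest.Agent.T157.Conc (ex ex_add ex_mono ex_ne_top measurable_ex)

namespace G67

lemma meas_tanh : Measurable Real.tanh := by
  have e : Real.tanh = fun y => Real.sinh y / Real.cosh y :=
    funext fun y => Real.tanh_eq_sinh_div_cosh y
  rw [e]
  exact Real.continuous_sinh.measurable.div Real.continuous_cosh.measurable

lemma meas_gR (m v u : ℝ) : Measurable (gR m v u) := by
  have := meas_tanh
  unfold gR
  fun_prop

/-- one site: moving to a grid point costs `2 / N` -/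
lemma gR_le {N m v u m0 v0 u0 : ℝ} (x : ℝ) (hN : 2 ≤ N) (hv : 1 / N ≤ v)
    (hm : |m - m0| ≤ 1 / N ^ 3) (hv1 : v * (1 + 1 / N) ≤ v0) (hv2 : v0 ≤ v * (1 + 2 / N))
    (hu1 : u - 1 / N ^ 3 ≤ u0) (hu2 : u0 ≤ u) (hu : u ≤ 1 / 2) :
    gR m v u x ≤ gR m0 v0 u0 x + 2 / N := by
  have hN0 : 0 < N := by linarith
  have hv0 : 0 < v := lt_of_lt_of_le (by positivity) hv
  have h1N : 0 < 1 + 1 / N := by positivity
  have hv00 : 0 < v0 := lt_of_lt_of_le (by positivity) hv1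
  set p := Real.tanh x with hp
  have hp1 : p ^ 2 < 1 := Real.tanh_sq_lt_one x
  have hpa : |p| ≤ 1 := by
    rw [← sq_le_one_iff_abs_le_one]; exact hp1.le
  have h3 : (1 - p ^ 2) * Real.log (1 - u) ≤ (1 - p ^ 2) * Real.log (1 - u0) :=
    mul_le_mul_of_nonneg_left (Real.log_le_log (by linarith) (by linarith)) (by linarith)
  have h2 : Real.log (2 * Real.pi * v0) ≤ Real.log (2 * Real.pi * v) + 2 / N := by
    have hpi := Real.pi_pos
    have e : Real.log (2 * Real.pi * v * (1 + 2 / N)) =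
        Real.log (2 * Real.pi * v) + Real.log (1 + 2 / N) :=
      Real.log_mul (by positivity) (by positivity)
    have a : Real.log (2 * Real.pi * v0) ≤ Real.log (2 * Real.pi * v * (1 + 2 / N)) := by
      refine Real.log_le_log (by positivity) ?_
      rw [mul_assoc (2 * Real.pi)]
      exact mul_le_mul_of_nonneg_left hv2 (by positivity)
    have b : Real.log (1 + 2 / N) ≤ 1 + 2 / N - 1 := Real.log_le_sub_one_of_pos (by positivity)
    linarith
  set A := x - u * p - m with hA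
  set d := (u - u0) * p + (m - m0) with hd
  have hAd : x - u0 * p - m0 = A + d := by rw [hA, hd]; ring
  have hda : |d| ≤ 2 / N ^ 3 := by
    have a : |(u - u0) * p| ≤ 1 / N ^ 3 := by
      rw [abs_mul, abs_of_nonneg (by linarith : 0 ≤ u - u0)]
      calc (u - u0) * |p| ≤ (u - u0) * 1 := mul_le_mul_of_nonneg_left hpa (by linarith)
        _ ≤ 1 / N ^ 3 := by linarith
    calc |d| ≤ |(u - u0) * p| + |m - m0| := abs_add_le _ _
      _ ≤ 1 / N ^ 3 + 1 / N ^ 3 := add_le_add a hm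
      _ = 2 / N ^ 3 := by ring
  have hd2 : d ^ 2 ≤ (2 / N ^ 3) ^ 2 := by
    rw [← sq_abs d]; exact pow_le_pow_left₀ (abs_nonneg _) hda 2
  have hsq : (A + d) ^ 2 ≤ (1 + 1 / N) * (A ^ 2 + N * d ^ 2) := by
    have : (1 + 1 / N) * (A ^ 2 + N * d ^ 2) - (A + d) ^ 2 = (A - N * d) ^ 2 / N := by
      field_simp; ring
    have h : 0 ≤ (A - N * d) ^ 2 / N := by positivity
    linarith
  have h1 : (A + d) ^ 2 / (2 * v0) ≤ A ^ 2 / (2 * v) + 1 / N := by
    have a : (A + d) ^ 2 / (2 * v0) ≤ (1 + 1 / N) * (A ^ 2 + N * d ^ 2) / (2 * (v * (1 + 1 / N))) :=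
      div_le_div₀ (by positivity) hsq (by positivity) (by linarith)
    have e : (1 + 1 / N) * (A ^ 2 + N * d ^ 2) / (2 * (v * (1 + 1 / N))) =
        A ^ 2 / (2 * v) + N * d ^ 2 / (2 * v) := by
      field_simp
    have b : N * d ^ 2 / (2 * v) ≤ N * (2 / N ^ 3) ^ 2 / (2 * (1 / N)) :=
      div_le_div₀ (by positivity) (mul_le_mul_of_nonneg_left hd2 hN0.le) (by positivity)
        (by linarith)
    have c : N * (2 / N ^ 3) ^ 2 / (2 * (1 / N)) = 2 / N ^ 3 * (1 / N) := by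
      field_simp
    have c' : 2 / N ^ 3 ≤ 1 := by
      rw [div_le_one (by positivity)]
      have : (2 : ℝ) ^ 3 ≤ N ^ 3 := pow_le_pow_left₀ (by norm_num) hN 3
      linarith
    have c'' : 2 / N ^ 3 * (1 / N) ≤ 1 * (1 / N) := mul_le_mul_of_nonneg_right c' (by positivity)
    linarith
  unfold gR
  rw [← hp, ← hA, hAd]
  have e2 : 2 / N = 2 * (1 / N) := by ring
  simp only [neg_div]
  linarith

/-- the grid -/
def grid (n : ℕ) : Finset (ℤ × ℤ × ℤ) :=
  (Finset.Icc (-(4 * (n : ℤ) ^ 3)) (4 * (n : ℤ) ^ 3) ×ˢ Finset.Icc (1 : ℤ) (40 * (n : ℤ) ^ 2) ×ˢ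
    Finset.Icc (-(4 * (n : ℤ) ^ 3)) (4 * (n : ℤ) ^ 3)).filter
    fun p => (p.2.2 : ℝ) / (n : ℝ) ^ 3 ≤ 1 / 2

lemma card_grid {n : ℕ} (hn : 2 ≤ n) : (grid n).card ≤ n ^ 20 := by
  refine (Finset.card_filter_le _ _).trans ?_
  rw [Finset.card_product, Finset.card_product, Int.card_Icc, Int.card_Icc]
  have e1 : (4 * (n : ℤ) ^ 3 + 1 - -(4 * (n : ℤ) ^ 3)).toNat = 8 * n ^ 3 + 1 := by
    have : (4 * (n : ℤ) ^ 3 + 1 - -(4 * (n : ℤ) ^ 3)) = ((8 * n ^ 3 + 1 : ℕ) : ℤ) := by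
      push_cast; ring
    rw [this, Int.toNat_natCast]
  have e2 : (40 * (n : ℤ) ^ 2 + 1 - 1).toNat = 40 * n ^ 2 := by
    have : (40 * (n : ℤ) ^ 2 + 1 - 1) = ((40 * n ^ 2 : ℕ) : ℤ) := by
      push_cast; ring
    rw [this, Int.toNat_natCast]
  rw [e1, e2]
  have h3 : 1 ≤ n ^ 3 := Nat.one_le_pow _ _ (by omega)
  have a : 8 * n ^ 3 + 1 ≤ 9 * n ^ 3 := by omega
  have b : 2 ^ 12 ≤ n ^ 12 := Nat.pow_le_pow_left hn 12
  calc (8 * n ^ 3 + 1) * (40 * n ^ 2 * (8 * n ^ 3 + 1))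
      ≤ (9 * n ^ 3) * (40 * n ^ 2 * (9 * n ^ 3)) := by gcongr
    _ = 3240 * n ^ 8 := by ring
    _ ≤ n ^ 12 * n ^ 8 := Nat.mul_le_mul_right _ (by omega)
    _ = n ^ 20 := by ring

lemma floor_mem {n : ℕ} (hn : 2 ≤ n) {m : ℝ} (hm : |m| ≤ 4) :
    ⌊m * (n : ℝ) ^ 3⌋ ∈ Finset.Icc (-(4 * (n : ℤ) ^ 3)) (4 * (n : ℤ) ^ 3) ∧
    m - 1 / (n : ℝ) ^ 3 ≤ (⌊m * (n : ℝ) ^ 3⌋ : ℝ) / (n : ℝ) ^ 3 ∧
    (⌊m * (n : ℝ) ^ 3⌋ : ℝ) / (n : ℝ) ^ 3 ≤ m := by
  have hN : (0 : ℝ) < n := by exact_mod_cast (by omega : 0 < n)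
  have h3 : (0 : ℝ) < (n : ℝ) ^ 3 := by positivity
  have h := abs_le.1 hm
  have f1 := Int.floor_le (m * (n : ℝ) ^ 3)
  have f2 := Int.lt_floor_add_one (m * (n : ℝ) ^ 3)
  refine ⟨Finset.mem_Icc.2 ⟨?_, ?_⟩, ?_, ?_⟩
  · rw [Int.le_floor]; push_cast; nlinarith
  · have : (⌊m * (n : ℝ) ^ 3⌋ : ℝ) ≤ ((4 * (n : ℤ) ^ 3 : ℤ) : ℝ) := by push_cast; nlinarith
    exact_mod_cast this
  · rw [le_div_iff₀ h3, sub_mul, div_mul_cancel₀ _ h3.ne']; linarith
  · rw [div_le_iff₀ h3]; exact f1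

lemma exists_grid {n : ℕ} (hn : 2 ≤ n) {m v u : ℝ} (hm : |m| ≤ 4) (hv : v ∈ Icc (1 / (n : ℝ)) 20)
    (hu : u ∈ Icc (-2 : ℝ) (1 / 2)) : ∃ p ∈ grid n,
    Cl n m v u (p.1 / (n : ℝ) ^ 3) (p.2.1 / (n : ℝ) ^ 2) (p.2.2 / (n : ℝ) ^ 3) ∧
    ∀ x : V n, ∑ i, gR m v u (x i) ≤
      ∑ i, gR (p.1 / (n : ℝ) ^ 3) (p.2.1 / (n : ℝ) ^ 2) (p.2.2 / (n : ℝ) ^ 3) (x i) + 2 := by
  have hN2 : (2 : ℝ) ≤ n := by exact_mod_cast hn
  have hN : (0 : ℝ) < n := by linarith
  have h2 : (0 : ℝ) < (n : ℝ) ^ 2 := by positivity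
  have hv0 : 0 < v := lt_of_lt_of_le (by positivity) hv.1
  obtain ⟨m1, m2, m3⟩ := floor_mem hn hm
  obtain ⟨u1, u2, u3⟩ := floor_mem hn (m := u) (abs_le.2 ⟨by linarith [hu.1], by linarith [hu.2]⟩)
  have c1 := Int.le_ceil (v * (1 + 1 / n) * (n : ℝ) ^ 2)
  have c2 := Int.ceil_lt_add_one (v * (1 + 1 / n) * (n : ℝ) ^ 2)
  set k := ⌈v * (1 + 1 / n) * (n : ℝ) ^ 2⌉ with hk
  have k1 : v * (1 + 1 / n) ≤ k / (n : ℝ) ^ 2 := by rw [le_div_iff₀ h2]; exact c1
  have hvn : 1 ≤ v * n := by have := hv.1; rwa [div_le_iff₀ hN] at this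
  have k2 : k / (n : ℝ) ^ 2 ≤ v * (1 + 2 / n) := by
    rw [div_le_iff₀ h2]
    have e : v * (1 + 2 / n) * (n : ℝ) ^ 2 = v * (1 + 1 / n) * (n : ℝ) ^ 2 + v * n := by
      field_simp; ring
    linarith
  have h33 : 1 / (n : ℝ) ^ 3 ≤ v / (n : ℝ) ^ 2 := by
    have e : 1 / (n : ℝ) ^ 3 = 1 / n / (n : ℝ) ^ 2 := by field_simp
    rw [e]; exact div_le_div_of_nonneg_right hv.1 h2.le
  have hmm : |m - ⌊m * (n : ℝ) ^ 3⌋ / (n : ℝ) ^ 3| ≤ 1 / (n : ℝ) ^ 3 := by
    rw [abs_of_nonneg (by linarith)]; linarith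
  refine ⟨(⌊m * (n : ℝ) ^ 3⌋, k, ⌊u * (n : ℝ) ^ 3⌋), ?_, ⟨hmm.trans h33, ?_, k2, ?_, u3, ?_⟩, ?_⟩
  · refine Finset.mem_filter.2 ⟨Finset.mem_product.2 ⟨m1, Finset.mem_product.2 ⟨?_, u1⟩⟩,
      u3.trans hu.2⟩
    refine Finset.mem_Icc.2 ⟨?_, ?_⟩
    · exact Int.one_le_ceil_iff.2 (by positivity)
    · have a : 2 / (n : ℝ) ≤ 1 := by rw [div_le_one hN]; exact hN2
      have b : v * (1 + 2 / n) ≤ 20 * 2 :=
        mul_le_mul hv.2 (by linarith) (by positivity) (by norm_num)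
      have c : (k : ℝ) ≤ 40 * (n : ℝ) ^ 2 := by
        have := k2.trans b
        rw [div_le_iff₀ h2] at this; linarith
      have : (k : ℝ) ≤ ((40 * (n : ℤ) ^ 2 : ℤ) : ℝ) := by push_cast; exact c
      exact_mod_cast this
  · refine le_trans ?_ k1
    have : 0 ≤ v * (1 / n) := by positivity
    linarith
  · exact le_trans (by linarith) u2
  · intro h; simp [h]
  · intro x
    have := Finset.sum_le_sum (s := Finset.univ) fun i _ =>
      gR_le (x i) hN2 hv.1 hmm k1 k2 u2 u3 hu.2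
    rw [Finset.sum_add_distrib, Finset.sum_const, Finset.card_univ, Fintype.card_fin, nsmul_eq_mul,
      mul_div_cancel₀ _ hN.ne'] at this
    exact this

lemma const_le {n : ℕ} (hn : 2 ≤ n) :
    ex 2 * ((n ^ 20 : ℕ) : ℝ≥0∞) ≤ ex ((23 : ℕ) * Real.log n) := by
  have hN2 : (2 : ℝ) ≤ n := by exact_mod_cast hn
  have hN : (0 : ℝ) < n := by linarith
  have e : ((n ^ 20 : ℕ) : ℝ≥0∞) = ex (20 * Real.log n) := by
    have : Real.exp (20 * Real.log n) = ((n ^ 20 : ℕ) : ℝ) := by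
      rw [mul_comm, Real.exp_mul, Real.exp_log hN]; push_cast
      exact_mod_cast Real.rpow_natCast (n : ℝ) 20
    rw [ex, this, ENNReal.ofReal_natCast]
  rw [e, ← ex_add]
  refine ex_mono ?_
  have := Real.log_le_log (by norm_num) hN2
  have := Real.log_two_gt_d9
  push_cast
  linarith

end G67

open G67 in
/-- **the grid lemma** -/
theorem gridStmt : GridStmt := by
  refine ⟨23, fun n f F b hn hF hb hf => ?_⟩
  have hN : (0 : ℝ) < n := by exact_mod_cast (by omega : 0 < n)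
  let T : ℤ × ℤ × ℤ → V n → ℝ≥0∞ := fun p x =>
    ex (∑ i, gR (p.1 / (n : ℝ) ^ 3) (p.2.1 / (n : ℝ) ^ 2) (p.2.2 / (n : ℝ) ^ 3) (x i)) *
      F (p.1 / (n : ℝ) ^ 3) (p.2.1 / (n : ℝ) ^ 2) (p.2.2 / (n : ℝ) ^ 3) x
  have hT : ∀ p, Measurable (T p) := fun p =>
    (measurable_ex.comp (Finset.measurable_sum _ fun i _ =>
      (meas_gR _ _ _).comp (measurable_pi_apply i))).mul (hF _ _ _)
  have hpt : ∀ x, f x ≤ ex 2 * ∑ p ∈ grid n, T p x := by
    intro x
    by_cases h0 : f x = 0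
    · rw [h0]; exact zero_le
    obtain ⟨m, v, u, hm, hv, hu, H⟩ := hf x h0
    obtain ⟨p, hp, hcl, hle⟩ := exists_grid hn hm hv hu
    refine (H _ _ _ hcl).trans ?_
    calc _ ≤ ex 2 * T p x := by
          simp only [T]
          rw [← mul_assoc, ← ex_add]
          exact mul_le_mul_left (ex_mono (by linarith [hle x])) _
      _ ≤ _ := mul_le_mul_right
          (Finset.single_le_sum (f := fun p => T p x) (fun _ _ => zero_le) hp) _
  calc ∫⁻ x, f x ≤ ∫⁻ x, ex 2 * ∑ p ∈ grid n, T p x := lintegral_mono hpt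
    _ = ex 2 * ∑ p ∈ grid n, ∫⁻ x, T p x := by
        rw [lintegral_const_mul _ (Finset.measurable_sum _ fun p _ => hT p),
          lintegral_finsetSum _ fun p _ => hT p]
    _ ≤ ex 2 * ((grid n).card • b) := by
        refine mul_le_mul_right (Finset.sum_le_card_nsmul _ _ _ fun p hp => ?_) _
        obtain ⟨h1, h2⟩ := Finset.mem_filter.1 hp
        have h3 := (Finset.mem_Icc.1 (Finset.mem_product.1 (Finset.mem_product.1 h1).2).1).1
        have h4 : (1 : ℝ) ≤ p.2.1 := by exact_mod_cast h3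
        exact hb _ _ _ (by positivity) h2
    _ ≤ ex 2 * (((n ^ 20 : ℕ) : ℝ≥0∞) * b) := by
        rw [nsmul_eq_mul]
        exact mul_le_mul_right (mul_le_mul_left (by exact_mod_cast card_grid hn) _) _
    _ ≤ _ := by rw [← mul_assoc]; exact mul_le_mul_left (const_le hn) _

open G67 in
/-- **the tilt lemma** from Chernoff and the grid -/
theorem tiltGlue : TiltGlue := by
  rintro ⟨-, hch⟩ ⟨C, hC⟩
  refine ⟨C, fun n t R E Y hn hE hY H => ?_⟩
  let I : ℝ → ℝ → ℝ → ℝ≥0∞ := fun m v u => ∫⁻ y, ex (gR m v u y + Y m v u y)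
  let L : ℝ → ℝ → ℝ → ℝ := fun m v u => Real.log (I m v u).toReal
  have hI0 : ∀ m v u, 0 < I m v u := fun m v u => by
    have hm : Measurable fun y => ex (gR m v u y + Y m v u y) :=
      measurable_ex.comp ((meas_gR m v u).add (hY m v u))
    refine (lintegral_pos_iff_support hm).2 ?_
    have : Function.support (fun y => ex (gR m v u y + Y m v u y)) = univ :=
      eq_univ_of_forall fun y => (ENNReal.ofReal_pos.2 (Real.exp_pos _)).ne'
    rw [this]; simp
  have hIL : ∀ m v u, I m v u ≠ ∞ → ex (L m v u) = I m v u := fun m v u h => by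
    simp only [L, ex]
    rw [Real.exp_log (ENNReal.toReal_pos (hI0 m v u).ne' h), ENNReal.ofReal_toReal h]
  have hS : ∀ m v u, Measurable fun x : V n => ex (∑ i, Y m v u (x i)) := fun m v u =>
    measurable_ex.comp (Finset.measurable_sum _ fun i _ => (hY m v u).comp (measurable_pi_apply i))
  classical
  let F : ℝ → ℝ → ℝ → V n → ℝ≥0∞ := fun m v u x =>
    if I m v u = ∞ then 0 else ex (∑ i, Y m v u (x i)) * ex (-R - n * L m v u)
  have key := hC n (E.indicator fun x => ENNReal.ofReal (rho t x)) F (ex (-R)) hn ?_ ?_ ?_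
  · rw [lintegral_indicator hE, ← ex_add] at key
    exact key
  · intro m v u
    by_cases h : I m v u = ∞
    · simp only [F, h, if_true]; exact measurable_const
    · simp only [F, h, if_false]; exact (hS m v u).mul_const _
  · intro m v u _ _
    by_cases h : I m v u = ∞
    · simp [F, h, PR]
    · have h1 := hch n m v u (L m v u) (Y m v u) (hY m v u) (hIL m v u h).ge
      simp only [F, h, if_false, PR] at h1 ⊢
      simp only [← mul_assoc]
      rw [lintegral_mul_const' _ _ (ex_ne_top _)]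
      refine (mul_le_mul_left h1 _).trans ?_
      rw [← ex_add]
      exact ex_mono (by linarith)
  · intro x hx
    have hxE : x ∈ E := by
      by_contra h
      exact hx (indicator_of_notMem h _)
    obtain ⟨m, v, u, g, hm, hv, hu, hr, H⟩ := H x hxE
    refine ⟨m, v, u, hm, hv, hu, fun m0 v0 u0 hcl => ?_⟩
    obtain ⟨Λ, h1, h2⟩ := H m0 v0 u0 hcl
    have h : I m0 v0 u0 ≠ ∞ := ne_top_of_le_ne_top (ex_ne_top _) h1
    have h3 : L m0 v0 u0 ≤ Λ := by
      have h4 : ex (L m0 v0 u0) ≤ ex Λ := (hIL _ _ _ h).le.trans h1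
      exact Real.exp_le_exp.1 ((ENNReal.ofReal_le_ofReal_iff (Real.exp_pos _).le).1 h4)
    have h5 : (n : ℝ) * L m0 v0 u0 ≤ n * Λ := mul_le_mul_of_nonneg_left h3 (Nat.cast_nonneg n)
    rw [indicator_of_mem hxE]
    simp only [F, h, if_false]
    rw [← ex_add, ← ex_add]
    exact (ENNReal.ofReal_le_ofReal hr).trans (ex_mono (by linarith))

end Crest.Agent.T157.Kb

end
end

-- ▼ part T157/KbMarg_47

/-!
# Row 157, part A2, section 2 (helper47): exact disintegration of `Pt` (`Kb.MargStmt`)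

Cameron–Martin shift by `1 1ᵀ / n`, then conditioning of the GOE matrix on the noisy observation.
-/

set_option autoImplicit false

noncomputable section

namespace Crest.Agent.T157.Kb

open MeasureTheory Matrix Set Filter
open scoped ENNReal
open Crest.Agent.T157.E Crest.Agent.T157.Cond Crest.Agent.T157.Tap
open Crest.Agent.T157.Qe (Le R1 bv Wm)
open Crest.Agent.T157.Conc (ex)

namespace M47

variable {n : ℕ}

lemma bv_eq (e u : V n) : bv e u = u - (e ⬝ᵥ u) • e := by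
  rw [bv, R1, Matrix.sub_mulVec, Matrix.one_mulVec, vmv_mulVec]

lemma th_dot (hn : 0 < n) (x : V n) : th x ⬝ᵥ th x = n * aS x := by
  have : (n : ℝ) ≠ 0 := by positivity
  rw [aS, avg, mul_div_cancel₀ _ this]
  simp only [dotProduct, sq]

lemma th_one (hn : 0 < n) (x : V n) : th x ⬝ᵥ (1 : V n) = n * bS x := by
  have : (n : ℝ) ≠ 0 := by positivity
  rw [bS, avg, mul_div_cancel₀ _ this]
  simp [dotProduct]

lemma avg_DD (hn : 0 < n) (x : V n) : avg (DD (th x)) = 1 - aS x := by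
  have : (n : ℝ) ≠ 0 := by positivity
  simp only [avg, DD, aS, Finset.sum_sub_distrib, Finset.sum_const, Finset.card_univ,
    Fintype.card_fin, nsmul_eq_mul, mul_one]
  field_simp

lemma th_y (hn : 0 < n) (t : ℝ) (x : V n) :
    th x ⬝ᵥ (x - mu t x • (1 : V n)) = n * (ww t x + ga t x * (1 - aS x)) := by
  have : (n : ℝ) ≠ 0 := by positivity
  rw [ww, sub_add_cancel, avg, mul_div_cancel₀ _ this]
  simp [dotProduct]

lemma len_sq' (hn : 0 < n) (x : V n) : len (th x) ^ 2 = n * aS x := by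
  rw [len_sq, th_dot hn]

lemma len_pos {x : V n} (hx : th x ≠ 0) : 0 < len (th x) :=
  lt_of_le_of_ne (len_nonneg _) fun h => hx (len_eq_zero.1 h.symm)

lemma aS_pos (hn : 0 < n) {x : V n} (hx : th x ≠ 0) : 0 < aS x := by
  have h1 := len_sq' hn x
  have h2 := pow_pos (len_pos hx) 2
  have h3 : (0 : ℝ) < n := by positivity
  rw [h1] at h2
  exact (mul_pos_iff_of_pos_left h3).1 h2

/-- almost every point has a nonzero `tanh` -/
lemma ae_th (hn : 0 < n) : ∀ᵐ x : V n, th x ≠ 0 := by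
  have : Nonempty (Fin n) := ⟨⟨0, hn⟩⟩
  have h : {x : V n | ¬ th x ≠ 0} ⊆ {0} := by
    intro x hx
    have h1 : th x = 0 := not_not.1 hx
    funext i
    have h2 : Real.tanh (x i) = 0 := congrFun h1 i
    rw [Real.tanh_eq_sinh_div_cosh, div_eq_zero_iff] at h2
    rcases h2 with h2 | h2
    · exact Real.sinh_eq_zero.1 h2
    · exact absurd h2 (Real.cosh_pos _).ne'
  exact measure_mono_null h (measure_singleton _)

/-- the observed vector -/
def zv (t : ℝ) (x : V n) : V n := x - mu t x • (1 : V n) + (1 - aS x) • th x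

lemma Y_shift (hn : 0 < n) (t : ℝ) (x : V n) (W : Mx n) :
    Ymap (W + (1 / (n : ℝ)) • vecMulVec (1 : V n) 1) 1 x - t • (1 : V n) =
      zv t x - (1 : ℝ) • W *ᵥ th x := by
  have : (n : ℝ) ≠ 0 := by positivity
  rw [Ymap, Matrix.add_mulVec, Matrix.smul_mulVec, vmv_mulVec, dotProduct_comm, th_one hn,
    avg_DD hn, zv, mu, smul_smul, one_div, inv_mul_cancel_left₀ this, one_mul, one_smul, add_smul]
  abel

lemma th_zv (hn : 0 < n) (t : ℝ) (x : V n) :
    th x ⬝ᵥ zv t x = n * (ww t x + (1 - aS x) * (ga t x + aS x)) := by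
  rw [zv, dotProduct_add, th_y hn, dotProduct_smul, th_dot hn, smul_eq_mul]
  ring

lemma zv_zv (hn : 0 < n) (t : ℝ) (x : V n) : zv t x ⬝ᵥ zv t x =
    (x - mu t x • (1 : V n)) ⬝ᵥ (x - mu t x • (1 : V n)) +
      2 * (1 - aS x) * (n * (ww t x + ga t x * (1 - aS x))) + (1 - aS x) ^ 2 * (n * aS x) := by
  rw [← th_y hn, ← th_dot hn, zv]
  generalize x - mu t x • (1 : V n) = y
  simp only [add_dotProduct, dotProduct_add, smul_dotProduct, dotProduct_smul, smul_eq_mul,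
    dotProduct_comm y (th x)]
  ring

lemma tau_sq (hn : 0 < n) (x : V n) : (1 * (1 / Real.sqrt n) * len (th x)) ^ 2 = aS x := by
  have h : (0 : ℝ) < n := by positivity
  rw [one_mul, mul_pow, len_sq' hn, div_pow, one_pow, Real.sq_sqrt h.le]
  field_simp

lemma ee_dot (x u : V n) : ee x ⬝ᵥ u = (len (th x))⁻¹ * (th x ⬝ᵥ u) := by
  rw [ee, unitv, smul_dotProduct, smul_eq_mul]

/-- the density -/
lemma dens (hn : 0 < n) {t : ℝ} (ht : 0 < t) {x : V n} (hx : th x ≠ 0) :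
    Real.exp (n * (1 - aS x) ^ 2 / 2) *
      Kr.phiS t (1 * (1 / Real.sqrt n) * len (th x)) (ee x) (zv t x) =
      Real.sqrt (ga t x / (ga t x + aS x)) * rho t x := by
  have h : (0 : ℝ) < n := by positivity
  have hq := aS_pos hn hx
  have hl := len_pos hx
  have e1 : t + aS x = ga t x := by rw [ga]; ring
  have e2 : t + 2 * aS x = ga t x + aS x := by rw [ga]; ring
  have hg : 0 < ga t x := by rw [← e1]; positivity
  have e3 : (ee x ⬝ᵥ zv t x) ^ 2 =
      n * (ww t x + (1 - aS x) * (ga t x + aS x)) ^ 2 / aS x := by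
    rw [ee_dot, th_zv hn, mul_pow, inv_pow, len_sq' hn]
    field_simp
  rw [Kr.phiS, tau_sq hn, e1, e2, e3, rho, Kr.phi, Kr.phi, zv_zv hn, Real.sqrt_div hg.le, Wt]
  have key : ∀ c s x₁ x₂ x₃ x₄ x₅ : ℝ, x₁ + x₂ + x₃ = x₄ + x₅ →
      Real.exp x₁ * (c * Real.exp x₂ * s * Real.exp x₃) = s * (c * Real.exp x₄ * Real.exp x₅) := by
    intro c s x₁ x₂ x₃ x₄ x₅ h1
    calc _ = c * s * Real.exp (x₁ + x₂ + x₃) := by rw [Real.exp_add, Real.exp_add]; ring
      _ = _ := by rw [h1, Real.exp_add]; ring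
  refine key _ _ _ _ _ _ _ ?_
  field_simp
  ring

/-- the posterior column -/
lemma col_eq (hn : 0 < n) {t : ℝ} (ht : 0 < t) {x : V n} (hx : th x ≠ 0) (η : V n) :
    (1 / Real.sqrt n) • Kr.postW t (1 * (1 / Real.sqrt n) * len (th x)) (ee x) (zv t x) η +
      (1 / (n : ℝ)) • ((ee x ⬝ᵥ 1) • (1 : V n)) = col t x η := by
  have h : (0 : ℝ) < n := by positivity
  have hs : 0 < Real.sqrt n := Real.sqrt_pos.2 h
  have hq := aS_pos hn hx
  have hl := len_pos hx
  have e1 : t + aS x = ga t x := by rw [ga]; ring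
  have hg : 0 < ga t x := by rw [← e1]; positivity
  have h2 : 0 < t + 2 * aS x := by positivity
  have hp : th x = len (th x) • ee x := (len_smul_unitv _).symm
  have hl2 := len_sq' hn x
  have hs2 : Real.sqrt n ^ 2 = n := Real.sq_sqrt h.le
  have d1 : ee x ⬝ᵥ (1 : V n) = (len (th x))⁻¹ * (n * bS x) := by rw [ee_dot, th_one hn]
  have dz : ee x ⬝ᵥ zv t x = (len (th x))⁻¹ * (n * (ww t x + (1 - aS x) * (t + 2 * aS x))) := by
    rw [ee_dot, th_zv hn, ga]; ring
  have dx : ee x ⬝ᵥ x = ee x ⬝ᵥ zv t x + mu t x * (ee x ⬝ᵥ 1) - (1 - aS x) * len (th x) := by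
    rw [zv, dotProduct_add, dotProduct_sub, dotProduct_smul, dotProduct_smul, ee,
      unitv_dot_self, smul_eq_mul, smul_eq_mul]
    ring
  have s1 : Real.sqrt (t / (ga t x * n)) = 1 / Real.sqrt n * (Real.sqrt t / Real.sqrt (ga t x)) := by
    rw [Real.sqrt_div ht.le, Real.sqrt_mul hg.le]; field_simp
  have s2 : Real.sqrt (2 * t / ((t + 2 * aS x) * n)) =
      1 / Real.sqrt n * (Real.sqrt 2 * Real.sqrt t / Real.sqrt (t + 2 * aS x)) := by
    rw [Real.sqrt_div (by positivity), Real.sqrt_mul h2.le, Real.sqrt_mul (by norm_num)]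
    field_simp
  have c1 : 1 / Real.sqrt n * (1 * (1 / Real.sqrt n) * len (th x) / ga t x) =
      (len (th x))⁻¹ * (aS x / ga t x) := by
    field_simp
    rw [hs2, hl2]
  have c2 : 1 / Real.sqrt n * (2 * (1 * (1 / Real.sqrt n) * len (th x)) / (t + 2 * aS x)) *
      (ee x ⬝ᵥ zv t x) + 1 / n * (ee x ⬝ᵥ 1) ^ 2 = ec t x := by
    rw [dz, d1, ec, mul_pow, inv_pow, hl2]
    field_simp
    rw [hs2]; ring
  have c3 : 1 / n * (ee x ⬝ᵥ 1) - (len (th x))⁻¹ * (aS x / ga t x) * mu t x =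
      (len (th x))⁻¹ * (t * (bS x - aS x) / ga t x) := by
    rw [d1, mu, ← e1]
    field_simp
    ring
  have hz : zv t x = x - mu t x • (1 : V n) + ((1 - aS x) * len (th x)) • ee x := by
    rw [zv, ← smul_smul, ← hp]
  rw [Kr.postW, tau_sq hn, e1, col, mb, tau, s1, s2, ← c2, Kr.blk_mulVec, Kr.blk_mulVec, bv_eq,
    bv_eq, bv_eq, dx]
  generalize ee x ⬝ᵥ zv t x = r at *
  rw [hz]
  generalize 1 * (1 / Real.sqrt n) * len (th x) / ga t x = A at *
  generalize 2 * (1 * (1 / Real.sqrt n) * len (th x)) / (t + 2 * aS x) = B at *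
  generalize Real.sqrt t / Real.sqrt (ga t x) = A' at *
  generalize Real.sqrt 2 * Real.sqrt t / Real.sqrt (t + 2 * aS x) = B' at *
  generalize ee x ⬝ᵥ (1 : V n) = d at *
  generalize aS x / ga t x = a at *
  generalize t * (bS x - aS x) / ga t x = b at *
  generalize 1 / Real.sqrt n = s at *
  generalize 1 / (n : ℝ) = m at *
  match_scalars
  · linear_combination c1
  · linear_combination c3 - mu t x * c1
  · linear_combination (-(r + mu t x * d) + (1 - aS x) * len (th x)) * c1 +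
      mu t x * d * c1 - d * c3
  · ring

lemma mat_eq (e c : V n) (s : ℝ) (W : Mx n) (he : e ⬝ᵥ e = 1) :
    s • rk2 c e + (1 - vecMulVec e e) * W * (1 - vecMulVec e e) +
      (1 / (n : ℝ)) • vecMulVec (1 : V n) 1 =
      Wm e (s • c + (1 / (n : ℝ)) • ((e ⬝ᵥ 1) • (1 : V n))) (bv e 1) W := by
  have hτ : R1 e *ᵥ bv e 1 = bv e 1 := by
    have := bv_eq e (bv e 1)
    rw [bv] at this
    rw [this, bv_eq, dotProduct_sub, dotProduct_smul, he, smul_eq_mul, mul_one, sub_self, zero_smul,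
      sub_zero]
  have hs : (R1 e)ᵀ = R1 e := by
    rw [R1, Matrix.transpose_sub, Matrix.transpose_one, Matrix.transpose_vecMulVec]
  have h1 : R1 e * vecMulVec (bv e 1) (bv e 1) * R1 e = vecMulVec (bv e 1) (bv e 1) := by
    rw [Matrix.mul_vecMulVec, vmv_mul, hs, hτ]
  rw [Wm, glue, Qe.Pt66.rk2_add, rk2_smul, rk2_smul (1 / (n : ℝ)), Matrix.mul_add, Matrix.add_mul,
    Matrix.mul_smul, Matrix.smul_mul, h1]
  conv_lhs => rw [Qe.Pt66.vmv_split e 1]
  rw [smul_add, R1]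
  abel

lemma Vq_one (hn : 0 < n) :
    (1 / Real.sqrt n) ^ 2 * Vq ((1 / 2 : ℝ) • vecMulVec (1 : V n) 1) / 2 = n / 4 := by
  have h : (0 : ℝ) < n := by positivity
  rw [Vq_eq_sum, div_pow, one_pow, Real.sq_sqrt h.le]
  simp only [Matrix.smul_apply, vecMulVec_apply, Pi.one_apply, smul_eq_mul, Finset.sum_const,
    Finset.card_univ, Fintype.card_fin, nsmul_eq_mul]
  field_simp
  ring

lemma ex_add (a b : ℝ) : ex (a + b) = ex a * ex b := by
  rw [ex, ex, ex, Real.exp_add, ENNReal.ofReal_mul (Real.exp_pos _).le]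

/-- the disintegration at a fixed `x` -/
theorem inner (hn : 0 < n) {t : ℝ} (ht : 0 < t) {x : V n} (hx : th x ≠ 0) {G : Mx n → ℝ≥0∞}
    (hG : Measurable G) : ∫⁻ W, nuW t (x, W) * cX x * G W ∂GOE n =
    ENNReal.ofReal (Real.sqrt (ga t x / (ga t x + aS x)) * rho t x) *
      ∫⁻ η, ∫⁻ W, G (Wm (ee x) (col t x η) (tau x) W) ∂GOE n ∂gv (Fin n) := by
  have hm : Measurable fun W : Mx n =>
      ENNReal.ofReal (Kr.phi t (Ymap W 1 x - t • (1 : V n))) * G W := by
    unfold Ymap; fun_prop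
  have e1 : ∀ W : Mx n, nuW t (x, W) * cX x * G W = (ex (-((n : ℝ) / 4)) * cX x) *
      (ex ((1 : V n) ⬝ᵥ W *ᵥ 1 / 2) *
        (ENNReal.ofReal (Kr.phi t (Ymap W 1 x - t • (1 : V n))) * G W)) := by
    intro W
    rw [nuW, sub_eq_add_neg ((1 : V n) ⬝ᵥ W *ᵥ 1 / 2), ex_add]
    ring
  have hm2 : Measurable fun W : Mx n => ex ((1 : V n) ⬝ᵥ W *ᵥ 1 / 2) *
      (ENNReal.ofReal (Kr.phi t (Ymap W 1 x - t • (1 : V n))) * G W) := by
    refine Measurable.mul ?_ hm
    unfold ex; fun_prop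
  have hG' : Measurable fun W : Mx n => G (W + (1 / (n : ℝ)) • vecMulVec (1 : V n) 1) := by
    fun_prop
  simp only [e1]
  rw [lintegral_const_mul _ hm2, Qe.Pt66.cm 1 hm, Vq_one hn]
  simp only [Y_shift hn]
  rw [Kr.goe_weighted ht 1 (1 / Real.sqrt n) (th x) (zv t x) hG', ← dens hn ht hx,
    ENNReal.ofReal_mul (Real.exp_pos _).le, lintegral_prod _ (by fun_prop)]
  have e2 : ex (-((n : ℝ) / 4)) * ex ((n : ℝ) / 4) = 1 := by
    rw [← ex_add, neg_add_cancel, ex, Real.exp_zero, ENNReal.ofReal_one]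
  have e3 : ∀ (η : V n) (W : Mx n), (1 / Real.sqrt n) • rk2 (Kr.postW t
      (1 * (1 / Real.sqrt n) * len (th x)) (unitv (th x)) (zv t x) η) (unitv (th x)) +
      (1 - vecMulVec (unitv (th x)) (unitv (th x))) * W *
        (1 - vecMulVec (unitv (th x)) (unitv (th x))) + (1 / (n : ℝ)) • vecMulVec (1 : V n) 1 =
      Wm (ee x) (col t x η) (tau x) W := by
    intro η W
    rw [mat_eq _ _ _ _ (unitv_dot hx), ← col_eq hn ht hx]
    rfl
  simp only [e3]
  have key : ∀ a b c p I : ℝ≥0∞, a * b = 1 → a * c * (b * (p * I)) = c * p * I := by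
    intro a b c p I h
    calc _ = a * b * (c * p * I) := by ring
      _ = _ := by rw [h, one_mul]
  exact key _ _ _ _ _ e2

end M47

/-- **task 789** -/
theorem margStmt : MargStmt := by
  intro n t F hn ht hF
  refine lintegral_congr_ae ((M47.ae_th hn).mono fun x hx => ?_)
  exact M47.inner hn ht hx (G := fun W => F (x, W)) (by fun_prop)

end Crest.Agent.T157.Kb

end
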