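import Crest.Agent.T157.O0W_44
import Crest.Agent.T157.QeA_24

/-!
# Row 157, block A2 (helper31): what the spectral event `Cw.WW` gives

Symmetry, operator bounds, `tr (z - W)⁻¹`, two-sided `tr (z - W)⁻²`, and the bridge to `Qe.WS`.
-/

set_option autoImplicit false

noncomputable section

namespace Crest.Agent.T157.O0.Wb

open Matrix Set Finset
open Crest.Agent.T157.Qe (V Mx Le zz ell gg WS dg_le dg_ge dg_trace dg_affine)
open Crest.Agent.T157.Dq (Dg)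
open Crest.Agent.T157.Cw (WW)
open Crest.Agent.T157.Od (Op2)
open Crest.Agent.T157.Oa (Az)

variable {n : ℕ}

/-! ### the function `zz` -/

theorem zz_sub {g : ℝ} (h : g ≠ 0) : zz g - 2 = (1 - g) ^ 2 / g := by
  unfold zz; field_simp; ring

theorem zz_diff {g g' : ℝ} (h : g ≠ 0) (h' : g' ≠ 0) :
    zz g - zz g' = (g' - g) * (1 - g * g') / (g * g') := by
  unfold zz; field_simp; ring

theorem sq_le_zz {g : ℝ} (h0 : 0 < g) (h1 : g ≤ 1) : (1 - g) ^ 2 ≤ zz g - 2 := by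
  rw [zz_sub h0.ne']; exact le_div_self (sq_nonneg _) h0 h1

theorem zz_le_sq {g c : ℝ} (hc : 0 < c) (h0 : c⁻¹ ≤ g) : zz g - 2 ≤ c * (1 - g) ^ 2 := by
  have hg : 0 < g := (inv_pos.2 hc).trans_le h0
  rw [zz_sub hg.ne', div_le_iff₀ hg]
  have : 1 ≤ c * g := by rwa [inv_le_iff_one_le_mul₀' hc] at h0
  nlinarith [sq_nonneg (1 - g)]

theorem zz_anti {g g' : ℝ} (h0 : 0 < g) (h : g ≤ g') (h1 : g' ≤ 1) : zz g' ≤ zz g := by
  have h' : 0 < g' := h0.trans_le h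
  have := zz_diff h0.ne' h'.ne'
  have h2 : 0 ≤ (g' - g) * (1 - g * g') / (g * g') :=
    div_nonneg (mul_nonneg (by linarith) (by nlinarith)) (by positivity)
  linarith


/-! ### diagonalised matrices -/

theorem dg_op2 {W : Mx n} {a : V n} (h : Dg W a) {c : ℝ} (hc : ∀ i, a i ^ 2 ≤ c) : Op2 W c := by
  obtain ⟨O, hO, rfl⟩ := h
  intro v
  rw [← mulVec_mulVec, ← mulVec_mulVec, Op2.orth (mul_eq_one_comm.1 hO),
    ← Op2.orth (G := Oᵀ) (by rwa [transpose_transpose]) v]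
  simp only [dotProduct, mulVec_diagonal, mul_sum]
  exact sum_le_sum fun i _ => by nlinarith [mul_le_mul_of_nonneg_right (hc i) (sq_nonneg ((Oᵀ *ᵥ v) i))]

theorem dg_Az {W : Mx n} {a : V n} (h : Dg W a) (z : ℝ) : Dg (Az z W) fun i => z - a i := by
  have := dg_affine h (-1) z
  convert this using 1
  · simp only [Az, neg_smul, one_smul]; abel
  · funext i; ring

theorem dg_mul {X Y : Mx n} {a b : V n} {O : Mx n} (hO : O * Oᵀ = 1) (hX : X = O * diagonal a * Oᵀ)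
    (hY : Y = O * diagonal b * Oᵀ) : X * Y = O * diagonal (fun i => a i * b i) * Oᵀ := by
  rw [hX, hY, ← diagonal_mul_diagonal]
  calc O * diagonal a * Oᵀ * (O * diagonal b * Oᵀ)
      = O * (diagonal a * (Oᵀ * O) * diagonal b) * Oᵀ := by simp only [Matrix.mul_assoc]
    _ = _ := by rw [mul_eq_one_comm.1 hO, Matrix.mul_one]

/-- the inverse of a diagonalised matrix -/
theorem dg_inv {X : Mx n} {a : V n} (h : Dg X a) (ha : ∀ i, a i ≠ 0) :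
    Dg X⁻¹ (fun i => (a i)⁻¹) ∧ X * X⁻¹ = 1 := by
  obtain ⟨O, hO, e⟩ := h
  have h1 : X * (O * diagonal (fun i => (a i)⁻¹) * Oᵀ) = 1 := by
    rw [dg_mul hO e rfl]
    simp only [mul_inv_cancel₀ (ha _), diagonal_one, Matrix.mul_one, hO]
  rw [Matrix.inv_eq_right_inv h1]
  exact ⟨⟨O, hO, rfl⟩, h1⟩

theorem dg_sq {X : Mx n} {a : V n} (h : Dg X a) : Dg (X * X) fun i => a i ^ 2 := by
  obtain ⟨O, hO, e⟩ := h
  exact ⟨O, hO, by simpa only [sq] using dg_mul hO e e⟩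

theorem fr_eq_trace {X : Mx n} (h : Xᵀ = X) : Ks.fr X = (X * X).trace := by
  simp only [Ks.fr, trace, diag_apply, mul_apply, sq]
  refine sum_congr rfl fun i _ => sum_congr rfl fun j _ => ?_
  rw [show X j i = X i j from congrFun (congrFun h i) j]

theorem dg_fr {X : Mx n} {a : V n} (h : Dg X a) : Ks.fr X = ∑ i, a i ^ 2 := by
  rw [fr_eq_trace h.symm, dg_trace (dg_sq h)]

/-- resolvent of a diagonalised matrix: inverse, trace, Frobenius norm -/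
theorem res {W : Mx n} {a : V n} (h : Dg W a) {z : ℝ} (hz : ∀ i, a i < z) :
    Az z W * (Az z W)⁻¹ = 1 ∧ ((Az z W)⁻¹)ᵀ = (Az z W)⁻¹ ∧
      Dg (Az z W)⁻¹ (fun i => (z - a i)⁻¹) ∧ ((Az z W)⁻¹).trace = ∑ i, (z - a i)⁻¹ ∧
      Ks.fr (Az z W)⁻¹ = ∑ i, ((z - a i) ^ 2)⁻¹ ∧
      ((Az z W)⁻¹ * (Az z W)⁻¹).trace = ∑ i, ((z - a i) ^ 2)⁻¹ := by
  obtain ⟨h1, h2⟩ := dg_inv (dg_Az h z) fun i => (sub_pos.2 (hz i)).ne'
  refine ⟨h2, h1.symm, h1, dg_trace h1, ?_, ?_⟩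
  · simp only [dg_fr h1, inv_pow]
  · simp only [dg_trace (dg_sq h1), inv_pow]

/-! ### difference quotients of the resolvent trace -/

theorem quot_up {a : V n} {z z' : ℝ} (h : z' < z) (ha : ∀ i, a i < z') :
    (z - z') * ∑ i, ((z - a i) ^ 2)⁻¹ ≤ ∑ i, (z' - a i)⁻¹ - ∑ i, (z - a i)⁻¹ := by
  rw [mul_sum, ← sum_sub_distrib]
  refine sum_le_sum fun i _ => ?_
  have h1 : 0 < z' - a i := sub_pos.2 (ha i)
  have h2 : 0 < z - a i := by linarith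
  rw [inv_sub_inv h1.ne' h2.ne', ← div_eq_mul_inv, show z - a i - (z' - a i) = z - z' by ring]
  exact div_le_div_of_nonneg_left (by linarith) (by positivity) (by nlinarith)

theorem quot_lo {a : V n} {z z' : ℝ} (h : z < z') (ha : ∀ i, a i < z) :
    ∑ i, (z - a i)⁻¹ - ∑ i, (z' - a i)⁻¹ ≤ (z' - z) * ∑ i, ((z - a i) ^ 2)⁻¹ := by
  rw [mul_sum, ← sum_sub_distrib]
  refine sum_le_sum fun i _ => ?_
  have h1 : 0 < z - a i := sub_pos.2 (ha i)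
  have h2 : 0 < z' - a i := by linarith
  rw [inv_sub_inv h1.ne' h2.ne', ← div_eq_mul_inv, show z' - a i - (z - a i) = z' - z by ring]
  exact div_le_div_of_nonneg_left (by linarith) (by positivity) (by nlinarith)

/-- **upper bound** of `tr (z - W)⁻²` from two traces -/
theorem tr2_up {a : V n} {g g' r : ℝ} (h0 : 0 < g) (h : g < g') (h1 : g' < 1)
    (ha : ∀ i, a i < zz g') (hr : ∑ i, (zz g' - a i)⁻¹ - ∑ i, (zz g - a i)⁻¹ ≤ n * (g' - g) + r) :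
    ∑ i, ((zz g - a i) ^ 2)⁻¹ ≤ g * g' / (1 - g * g') * (n + r / (g' - g)) := by
  have h' : 0 < g' := h0.trans h
  have hd : 0 < g' - g := sub_pos.2 h
  have hp : 0 < 1 - g * g' := by nlinarith
  have e := zz_diff h0.ne' h'.ne'
  have hz : 0 < zz g - zz g' := by rw [e]; positivity
  have h2 := (quot_up (by linarith) ha).trans hr
  rw [e, ← le_div_iff₀' (by positivity)] at h2
  refine h2.trans_eq ?_
  field_simp

/-- **lower bound** of `tr (z - W)⁻²` from two traces -/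
theorem tr2_lo {a : V n} {g g' r : ℝ} (h0 : 0 < g') (h : g' < g) (h1 : g < 1)
    (ha : ∀ i, a i < zz g) (hr : n * (g - g') - r ≤ ∑ i, (zz g - a i)⁻¹ - ∑ i, (zz g' - a i)⁻¹) :
    g * g' / (1 - g * g') * (n - r / (g - g')) ≤ ∑ i, ((zz g - a i) ^ 2)⁻¹ := by
  have h' : 0 < g := h0.trans h
  have hd : 0 < g - g' := sub_pos.2 h
  have hp : 0 < 1 - g * g' := by nlinarith
  have e := zz_diff h0.ne' h'.ne'
  rw [mul_comm g' g] at e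
  have hz : 0 < zz g' - zz g := by rw [e]; positivity
  have h2 := hr.trans (quot_lo (by linarith) ha)
  rw [e, ← div_le_iff₀' (by positivity)] at h2
  refine le_of_eq_of_le ?_ h2
  field_simp

/-! ### the spectral data -/

/-- the error of the resolvent trace -/
def er1 (n : ℕ) (t e κ s : ℝ) : ℝ :=
  min (e * n * √(max s t)) (min ((n : ℝ) ^ κ * √(n / s)) (e * √n / s ^ (3 / 4 : ℝ)))

/-- the eigenvalue list of a matrix in `WW` -/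
structure Sd (t e κ : ℝ) (a : V n) : Prop where
  lo : ∀ i, -3 ≤ a i
  hi : ∀ i, a i ≤ 2 + e * t
  tr : ∀ g ∈ Ico (1 / 64 : ℝ) 1, 2 * e * t ≤ zz g - 2 →
    |∑ i, (zz g - a i)⁻¹ - n * g| ≤ er1 n t e κ (zz g - 2)
  ld : ∀ g ∈ Ico (1 / 64 : ℝ) 1, 2 * e * t ≤ zz g - 2 →
    |∑ i, Real.log (zz g - a i) - n * ell g| ≤
      min (e * n * max (zz g - 2) t ^ (3 / 2 : ℝ)) ((n : ℝ) ^ κ * √(n * t))

variable {t e κ : ℝ} {W : Mx n} {a : V n}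

theorem ww_iff : WW t e κ W ↔ ∃ a, Dg W a ∧ Sd t e κ a :=
  ⟨fun ⟨a, h1, h2, h3⟩ => ⟨a, h1, fun i => (h2 i).1, fun i => (h2 i).2,
    fun g hg h => (h3 g hg h).1, fun g hg h => (h3 g hg h).2⟩,
   fun ⟨a, h1, h⟩ => ⟨a, h1, fun i => ⟨h.lo i, h.hi i⟩, fun g hg h' => ⟨h.tr g hg h', h.ld g hg h'⟩⟩⟩


theorem ww_le (h : WW t e κ W) : Le W ((2 + e * t) • (1 : Mx n)) := by
  obtain ⟨a, h1, h2⟩ := ww_iff.1 h; exact dg_le h1 h2.hi

theorem ww_ge (h : WW t e κ W) : Le ((-3 : ℝ) • (1 : Mx n)) W := by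
  obtain ⟨a, h1, h2⟩ := ww_iff.1 h; exact dg_ge h1 h2.lo

theorem ww_op2 (h : WW t e κ W) (h1 : e * t ≤ 1) : Op2 W 9 := by
  obtain ⟨a, h2, h3⟩ := ww_iff.1 h
  exact dg_op2 h2 fun i => by nlinarith [h3.lo i, h3.hi i]

/-- `‖z - W‖ ≤ 6` for `z ∈ [2, 3]` -/
theorem ww_op2_Az (h : WW t e κ W) (h1 : e * t ≤ 1) {z : ℝ} (hz : z ∈ Icc (2 : ℝ) 3) :
    Op2 (Az z W) 36 := by
  obtain ⟨a, h2, h3⟩ := ww_iff.1 h
  exact dg_op2 (dg_Az h2 z) fun i => by nlinarith [h3.lo i, h3.hi i, hz.1, hz.2]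

/-- form bounds `z - 2 - e t ≤ z - W ≤ z + 3` -/
theorem ww_form (h : WW t e κ W) (z : ℝ) (v : V n) :
    (z - 2 - e * t) * (v ⬝ᵥ v) ≤ v ⬝ᵥ Az z W *ᵥ v ∧ v ⬝ᵥ Az z W *ᵥ v ≤ (z + 3) * (v ⬝ᵥ v) := by
  have h1 := ww_le h v
  have h2 := ww_ge h v
  simp only [Az, sub_mulVec, dotProduct_sub, smul_mulVec, one_mulVec, dotProduct_smul,
    smul_eq_mul] at *
  constructor <;> linarith

theorem Sd.lt (h : Sd t e κ a) (h0 : 0 < e * t) {z : ℝ} (hz : 2 * e * t ≤ z - 2) (i : Fin n) :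
    a i < z := by linarith [h.hi i]

/-- half of the gap survives -/
theorem Sd.gap (h : Sd t e κ a) {z : ℝ} (hz : 2 * e * t ≤ z - 2) (i : Fin n) :
    (z - 2) / 2 ≤ z - a i := by linarith [h.hi i]

theorem er1_le {s c η : ℝ} (e0 : 0 ≤ e) (hc : 0 ≤ c) (h0 : 0 ≤ η) (h1 : e ^ 2 * s ≤ c ^ 2 * η ^ 2)
    (h2 : e ^ 2 * t ≤ c ^ 2 * η ^ 2) : er1 n t e κ s ≤ c * n * η := by
  refine (min_le_left _ _).trans ?_
  have h3 : e * √(max s t) ≤ c * η := by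
    rw [← Real.sqrt_sq e0, ← Real.sqrt_mul (sq_nonneg _), ← Real.sqrt_sq (mul_nonneg hc h0)]
    refine Real.sqrt_le_sqrt ?_
    rw [mul_max_of_nonneg _ _ (sq_nonneg e), mul_pow]
    exact max_le h1 h2
  nlinarith [mul_le_mul_of_nonneg_left h3 (Nat.cast_nonneg (α := ℝ) n)]

/-- **two-sided** `tr (z - W)⁻²` at `z = zz g`, any neighbours `g₁ < g < g₂` -/
theorem Sd.tr2 (h : Sd t e κ a) (h0 : 0 < e * t) {g₁ g g₂ : ℝ} (h1 : 1 / 64 ≤ g₁) (h2 : g₁ < g)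
    (h3 : g < g₂) (h4 : g₂ < 1) (h5 : 2 * e * t ≤ zz g₂ - 2) :
    g * g₁ / (1 - g * g₁) * (n - (er1 n t e κ (zz g - 2) + er1 n t e κ (zz g₁ - 2)) / (g - g₁)) ≤
      ∑ i, ((zz g - a i) ^ 2)⁻¹ ∧ ∑ i, ((zz g - a i) ^ 2)⁻¹ ≤ g * g₂ / (1 - g * g₂) *
        (n + (er1 n t e κ (zz g - 2) + er1 n t e κ (zz g₂ - 2)) / (g₂ - g)) := by
  have p1 : 0 < g₁ := by linarith
  have a1 := zz_anti (p1.trans h2) h3.le h4.le
  have a2 := zz_anti p1 h2.le (by linarith)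
  have b1 := abs_le.1 (h.tr g₁ ⟨h1, by linarith⟩ (by linarith))
  have b := abs_le.1 (h.tr g ⟨by linarith, by linarith⟩ (by linarith))
  have b2 := abs_le.1 (h.tr g₂ ⟨by linarith, h4⟩ h5)
  exact ⟨tr2_lo p1 h2 (by linarith) (h.lt h0 (by linarith)) (by linarith [b.1, b1.2]),
    tr2_up (p1.trans h2) h3 h4 (h.lt h0 h5) (by linarith [b.1, b2.2])⟩

/-- **crude upper bound** `tr (zz g - W)⁻² ≤ 22 n / (1 - g)` -/
theorem Sd.tr2_le (h : Sd t e κ a) (e0 : 0 < e) (e1 : e ≤ 1) (t0 : 0 < t) {g : ℝ}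
    (hg : g ∈ Ico (1 / 64 : ℝ) 1) (h8 : 8 * e * t ≤ (1 - g) ^ 2) :
    ∑ i, ((zz g - a i) ^ 2)⁻¹ ≤ 22 * n / (1 - g) := by
  obtain ⟨g1, g2⟩ := hg
  have h0 : 0 < e * t := by positivity
  have hη : 0 < 1 - g := by linarith
  have p0 : 0 < g := by linarith
  set g' := (1 + g) / 2 with hg'
  have q0 : g < g' := by linarith
  have q1 : g' < 1 := by linarith
  have a1 := sq_le_zz (p0.trans q0) q1.le
  have a2 := sq_le_zz p0 g2.le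
  have a3 : (1 - g') ^ 2 = (1 - g) ^ 2 / 4 := by rw [hg']; ring
  have c1 : 2 * e * t ≤ zz g' - 2 := by linarith
  have b := abs_le.1 (h.tr g ⟨g1, g2⟩ (by nlinarith [sq_nonneg (1 - g)]))
  have b2 := abs_le.1 (h.tr g' ⟨by linarith, q1⟩ c1)
  have e2 : e ^ 2 ≤ 1 := pow_le_one₀ e0.le e1
  have et : e ^ 2 * t ≤ e * t := by nlinarith
  have z1 := zz_le_sq (c := 64) (g := g) (by norm_num) (by linarith)
  have z2 := zz_le_sq (c := 2) (g := g') (by norm_num) (by linarith)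
  have s1 : er1 n t e κ (zz g - 2) ≤ 8 * n * (1 - g) :=
    er1_le e0.le (by norm_num) hη.le (by nlinarith [sq_nonneg (1 - g)]) (by nlinarith [sq_nonneg (1 - g)])
  have s2 : er1 n t e κ (zz g' - 2) ≤ 1 * n * (1 - g) :=
    er1_le e0.le (by norm_num) hη.le (by nlinarith [sq_nonneg (1 - g)]) (by nlinarith [sq_nonneg (1 - g)])
  have u := tr2_up (a := a) (r := 9 * n * (1 - g)) p0 q0 q1 (h.lt h0 c1) (by linarith [b.1, b2.2])
  have d1 : g' - g = (1 - g) / 2 := by rw [hg']; ring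
  have d2 : (n : ℝ) + 9 * n * (1 - g) / (g' - g) = 19 * n := by rw [d1]; field_simp; ring
  have d3 : g * g' / (1 - g * g') ≤ 1 / (1 - g) :=
    div_le_div₀ zero_le_one (by nlinarith) hη (by nlinarith)
  rw [d2] at u
  refine u.trans ((mul_le_mul_of_nonneg_right d3 (by positivity)).trans ?_)
  rw [one_div_mul_eq_div]
  exact div_le_div_of_nonneg_right (by linarith [Nat.cast_nonneg (α := ℝ) n]) hη.le

/-- the same for the matrix: inverse, `fr`, trace -/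
theorem ww_res (h : WW t e κ W) (e0 : 0 < e) (e1 : e ≤ 1) (t0 : 0 < t) {g : ℝ}
    (hg : g ∈ Ico (1 / 64 : ℝ) 1) (h8 : 8 * e * t ≤ (1 - g) ^ 2) :
    Az (zz g) W * (Az (zz g) W)⁻¹ = 1 ∧ ((Az (zz g) W)⁻¹)ᵀ = (Az (zz g) W)⁻¹ ∧
      Ks.fr (Az (zz g) W)⁻¹ ≤ 22 * n / (1 - g) ∧
      |((Az (zz g) W)⁻¹).trace - n * g| ≤ er1 n t e κ (zz g - 2) ∧
      Op2 (Az (zz g) W)⁻¹ ((2 / (zz g - 2)) ^ 2) := by
  obtain ⟨a, h1, h2⟩ := ww_iff.1 h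
  have h0 : 0 < e * t := by positivity
  have a2 := sq_le_zz (by linarith [hg.1]) hg.2.le
  have c1 : 2 * e * t ≤ zz g - 2 := by linarith
  obtain ⟨r1, r2, r3, r4, r5, -⟩ := res h1 (h2.lt h0 c1)
  refine ⟨r1, r2, r5 ▸ h2.tr2_le e0 e1 t0 hg h8, r4 ▸ h2.tr g hg c1, dg_op2 r3 fun i => ?_⟩
  have p : 0 < zz g - 2 := by linarith
  refine pow_le_pow_left₀ (inv_pos.2 (sub_pos.2 (h2.lt h0 c1 i))).le ?_ 2
  rw [← inv_div]
  exact inv_anti₀ (by positivity) (h2.gap c1 i)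

/-! ### the bridge to `Qe.WS` -/

/-- **`WW` is a rigid event** -/
theorem ws (e0 : 0 < e) (e1 : e ≤ 1) (t0 : 0 < t) {ε q E : ℝ}
    (h8 : 8 * e * t ≤ ε ^ 4 * q ^ 2) (q0 : 0 < q) (h2 : ε ^ 2 * q ≤ 1 / 2)
    (hE : (n : ℝ) ^ κ * √(n * t) ≤ E) : WS ε q E 22 {W : Mx n | WW t e κ W} := by
  obtain ⟨m, i, -⟩ := wStmt n κ e t e0 t0
  refine ⟨m, i, fun W hW => ?_⟩
  obtain ⟨a, h1, h⟩ := ww_iff.1 hW
  have h0 : 0 < e * t := by positivity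
  have r0 : 0 < ε ^ 2 * q := by
    rcases (mul_nonneg (sq_nonneg ε) q0.le).eq_or_lt with h3 | h3
    · exfalso
      have : ε ^ 4 * q ^ 2 = (ε ^ 2 * q) ^ 2 := by ring
      rw [this, ← h3] at h8
      linarith
    · exact h3
  have e4 : (1 - gg ε q) ^ 2 = ε ^ 4 * q ^ 2 := by unfold gg; ring
  have e5 : 1 - gg ε q = ε ^ 2 * q := by unfold gg; ring
  refine ⟨a, h1, fun i => ⟨by linarith [h.lo i], by linarith [h.hi i]⟩, fun g hg => ?_, ?_⟩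
  · have g1 : g < 1 := by linarith [hg.2]
    have a1 := sq_le_zz (by linarith [hg.1]) g1.le
    have a2 : (1 - gg ε q) ^ 2 ≤ (1 - g) ^ 2 :=
      pow_le_pow_left₀ (by linarith) (by linarith [hg.2]) 2
    have := abs_le.1 ((h.ld g ⟨hg.1, g1⟩ (by linarith)).trans (min_le_right _ _))
    linarith [this.1]
  · rw [← e5]
    exact h.tr2_le e0 e1 t0 ⟨by linarith, by linarith⟩ (by linarith)

/-- the shape used by the start -/
theorem wsBr : ∃ Cw ≥ (0 : ℝ), ∀ (n : ℕ) (κ e t ε q E : ℝ), 0 < e → e ≤ 1 → 0 < t → 0 < ε → 0 < q →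
    ε ^ 2 * q ≤ 1 / 4 → 8 * e * t ≤ ε ^ 4 * q ^ 2 → (n : ℝ) ^ κ * √(n * t) ≤ E →
    WS ε q E Cw {W : Mx n | WW t e κ W} :=
  ⟨22, by norm_num, fun _ _ _ _ _ _ _ e0 e1 t0 _ q0 h2 h8 hE => ws e0 e1 t0 h8 q0 (by linarith) hE⟩

/-- the form used by section 2: all `q` with `q² ≍ s`; the event has its own scale `t ≤ s` -/
theorem ws_all (e0 : 0 < e) (e1 : e ≤ 1) (t0 : 0 < t) {s K ε E : ℝ} (ts : t ≤ s)
    (h8 : 8 * K * e ≤ ε ^ 4) (h2 : 4 * ε ^ 4 * K * s ≤ 1)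
    (hE : (n : ℝ) ^ κ * √(n * s) ≤ E) : ∀ q > (0 : ℝ), s ≤ K * q ^ 2 → q ^ 2 ≤ K * s →
      WS ε q E 22 {W : Mx n | WW t e κ W} := fun q q0 h3 h4 => by
  have e4 : 0 ≤ ε ^ 4 := by positivity
  refine ws e0 e1 t0 ?_ q0 ?_ (le_trans ?_ hE)
  · calc 8 * e * t ≤ 8 * e * (K * q ^ 2) := mul_le_mul_of_nonneg_left (ts.trans h3) (by positivity)
      _ = 8 * K * e * q ^ 2 := by ring
      _ ≤ _ := mul_le_mul_of_nonneg_right h8 (sq_nonneg q)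
  · refine (abs_le_of_sq_le_sq' ?_ (by norm_num)).2
    nlinarith [mul_le_mul_of_nonneg_left h4 e4]
  · gcongr

/-- `tr (zz g - W)⁻¹ ≤ n` -/
theorem ww_tr_le (h : WW t e κ W) (e0 : 0 < e) (e1 : e ≤ 1 / 2) (t0 : 0 < t) {g : ℝ}
    (hg : g ∈ Ico (1 / 2 : ℝ) 1) (h8 : 8 * e * t ≤ (1 - g) ^ 2) :
    (zz g • (1 : Mx n) - W)⁻¹.trace ≤ n := by
  obtain ⟨-, -, -, h1, -⟩ := ww_res h e0 (by linarith) t0 ⟨by linarith [hg.1], hg.2⟩ h8
  have z1 := zz_le_sq (c := 2) (g := g) (by norm_num) (by linarith [hg.1])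
  have z0 := sq_le_zz (g := g) (by linarith [hg.1]) hg.2.le
  have e2 : e ^ 2 ≤ 1 / 4 := by nlinarith
  have h0 : 0 < e * t := by positivity
  have s1 : er1 n t e κ (zz g - 2) ≤ 1 * n * (1 - g) :=
    er1_le e0.le (by norm_num) (by linarith [hg.2]) (by nlinarith [sq_nonneg (1 - g)])
      (by nlinarith [sq_nonneg (1 - g)])
  linarith [(abs_le.1 h1).2]

/-- the form used by `Kb.HaStmt` -/
theorem ws_all' (e0 : 0 < e) (e1 : e ≤ 1 / 2) (t0 : 0 < t) {s K ε E : ℝ} (ts : t ≤ s)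
    (h8 : 8 * K * e ≤ ε ^ 4) (h2 : 4 * ε ^ 4 * K * s ≤ 1) (ε0 : 0 < ε)
    (hE : (n : ℝ) ^ κ * √(n * s) ≤ E) : ∀ q > (0 : ℝ), s ≤ K * q ^ 2 → q ^ 2 ≤ K * s →
      WS ε q E 22 {W : Mx n | WW t e κ W} ∧ ∀ W ∈ {W : Mx n | WW t e κ W},
        (zz (gg ε q) • (1 : Mx n) - W)⁻¹.trace ≤ (1 + ε ^ 3) * n := fun q q0 h3 h4 => by
  refine ⟨ws_all e0 (by linarith) t0 ts h8 h2 hE q q0 h3 h4, fun W hW => ?_⟩
  have e4 : 0 ≤ ε ^ 4 := by positivity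
  have r0 : 0 < ε ^ 2 * q := by positivity
  have r1 : ε ^ 2 * q ≤ 1 / 2 := by
    refine (abs_le_of_sq_le_sq' ?_ (by norm_num)).2
    nlinarith [mul_le_mul_of_nonneg_left h4 e4]
  have h5 : 8 * e * t ≤ (1 - gg ε q) ^ 2 :=
    calc 8 * e * t ≤ 8 * e * (K * q ^ 2) := mul_le_mul_of_nonneg_left (ts.trans h3) (by positivity)
      _ = 8 * K * e * q ^ 2 := by ring
      _ ≤ ε ^ 4 * q ^ 2 := mul_le_mul_of_nonneg_right h8 (sq_nonneg q)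
      _ = _ := by unfold gg; ring
  refine (ww_tr_le hW e0 e1 t0 ⟨by unfold gg; linarith, by unfold gg; linarith⟩ h5).trans ?_
  nlinarith [mul_nonneg (pow_pos ε0 3).le (Nat.cast_nonneg (α := ℝ) n)]

/-! ### in the words of `Pm` -/

section Pm

variable {p : Pm}

theorem t2_pos (h : p.Ok) : 0 < p.t2 :=
  Real.rpow_pos_of_pos (div_pos h.ef (by linarith [h.L])) _

theorem pow_A_le (h : p.Ok) (e0 : 0 < e) (e1 : e ≤ 1) : e ^ p.A ≤ e :=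
  pow_le_of_le_one e0.le e1 (by have := h.A; omega)


theorem Wt_et (h : p.Ok) (e0 : 0 < e) (t0 : 0 < t) : 0 < e ^ p.A * min t p.t2 ∧
    e ^ p.A * min t p.t2 ≤ e ^ p.A * t :=
  ⟨mul_pos (pow_pos e0 _) (lt_min t0 (t2_pos h)),
    mul_le_mul_of_nonneg_left (min_le_left _ _) (pow_pos e0 _).le⟩

theorem Wt_op2 (h : p.Ok) (e0 : 0 < e) (e1 : e ≤ 1) (t0 : 0 < t) (t1 : t ≤ 1) {W : Mx p.n}
    (hW : W ∈ p.Wt e t) : Op2 W 9 ∧ ∀ z ∈ Icc (2 : ℝ) 3, Op2 (Az z W) 36 := by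
  have h1 : e ^ p.A * min t p.t2 ≤ 1 :=
    (Wt_et h e0 t0).2.trans (mul_le_one₀ (pow_le_one₀ e0.le e1) t0.le t1)
  exact ⟨ww_op2 hW h1, fun z hz => ww_op2_Az hW h1 hz⟩


theorem Wt_ws' (h : p.Ok) (e0 : 0 < e) (e1 : e ≤ 1 / 2) (t0 : 0 < t) {K ε E : ℝ}
    (h8 : 8 * K * e ^ p.A ≤ ε ^ 4) (h2 : 4 * ε ^ 4 * K * t ≤ 1) (ε0 : 0 < ε)
    (hE : (p.n : ℝ) ^ p.k3 * √(p.n * t) ≤ E) : ∀ q > (0 : ℝ), t ≤ K * q ^ 2 → q ^ 2 ≤ K * t →
      WS ε q E 22 (p.Wt e t) ∧ ∀ W ∈ p.Wt e t,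
        (zz (gg ε q) • (1 : Mx p.n) - W)⁻¹.trace ≤ (1 + ε ^ 3) * p.n :=
  ws_all' (pow_pos e0 _) ((pow_A_le h e0 (by linarith)).trans e1) (lt_min t0 (t2_pos h))
    (min_le_left _ _) h8 h2 ε0 hE

theorem Wt_res (h : p.Ok) (e0 : 0 < e) (e1 : e ≤ 1) (t0 : 0 < t) {W : Mx p.n} (hW : W ∈ p.Wt e t)
    {g : ℝ} (hg : g ∈ Ico (1 / 64 : ℝ) 1) (h8 : 8 * e ^ p.A * t ≤ (1 - g) ^ 2) :
    Az (zz g) W * (Az (zz g) W)⁻¹ = 1 ∧ ((Az (zz g) W)⁻¹)ᵀ = (Az (zz g) W)⁻¹ ∧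
      Ks.fr (Az (zz g) W)⁻¹ ≤ 22 * p.n / (1 - g) ∧
      |((Az (zz g) W)⁻¹).trace - p.n * g| ≤ er1 p.n (min t p.t2) (e ^ p.A) p.k3 (zz g - 2) ∧
      Op2 (Az (zz g) W)⁻¹ ((2 / (zz g - 2)) ^ 2) :=
  ww_res hW (pow_pos e0 _) (pow_le_one₀ e0.le e1) (lt_min t0 (t2_pos h)) hg
    (by linarith [(Wt_et h e0 t0).2])

end Pm

end Crest.Agent.T157.O0.Wb

end
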