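import Crest.Agent.T157.QeDef_24

/-!
# Row 157, part A2 (helper78): `Qe.coreGlue : CoreGlue`

The conditional form of (3q) from the upper bound, the lower bound, the tilt bound and the
three by three criterion (Markov's inequality for the quartic integral).
-/

set_option autoImplicit false

noncomputable section

namespace Crest.Agent.T157.Qe

open Matrix Finset MeasureTheory Set
open scoped ENNReal
open Crest.Agent.T157.E Crest.Agent.T157.Cond Crest.Agent.T157.Dq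
open Crest.Agent.T157.Conc (ex ex_add ex_mono ex_ne_top ex_zero measurable_ex)

namespace Core78

variable {n : ℕ}

lemma r1_e {e : V n} (he : e ⬝ᵥ e = 1) : R1 e *ᵥ e = 0 := by
  rw [R1, Matrix.sub_mulVec, Matrix.one_mulVec, vmv_mulVec, he, one_smul, sub_self]

lemma proj1 {e : V n} (he : e ⬝ᵥ e = 1) : IsProj (R1 e) := by
  refine ⟨by rw [R1, Matrix.transpose_sub, Matrix.transpose_one, Matrix.transpose_vecMulVec], ?_⟩
  conv_lhs => enter [2]; rw [R1]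
  rw [Matrix.mul_sub, Matrix.mul_one, Matrix.mul_vecMulVec, r1_e he]
  simp

lemma tr_next (R : Mx n) (v : V n) : R.trace - 1 ≤ (nextR R v).trace := by
  rw [nextR, Matrix.trace_sub, Matrix.trace_vecMulVec]
  have := unitv_dot_le (R *ᵥ v)
  unfold dirv
  linarith

lemma tr1 {e : V n} (he : e ⬝ᵥ e = 1) : (R1 e).trace = n - 1 := by
  rw [R1, Matrix.trace_sub, Matrix.trace_vecMulVec, he, Matrix.trace_one, Fintype.card_fin]

section P
variable {e : V n} (he : e ⬝ᵥ e = 1) (c τ : V n)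
include he

lemma proj2 : IsProj (P2 e c) := (proj1 he).nextR c
lemma proj3 : IsProj (P3 e c τ) := (proj2 he c).nextR τ

lemma tr3 : (n : ℝ) - 3 ≤ (P3 e c τ).trace := by
  have h1 := tr1 he
  have h2 := tr_next (R1 e) c
  have h3 := tr_next (P2 e c) τ
  unfold P3
  unfold P2 at h3 ⊢
  linarith

lemma p3_e : P3 e c τ *ᵥ e = 0 :=
  nextR_mulVec_of (proj2 he c) τ (nextR_mulVec_of (proj1 he) c (r1_e he))
lemma p3_c : P3 e c τ *ᵥ c = 0 :=
  nextR_mulVec_of (proj2 he c) τ (nextR_v (proj1 he) c)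
lemma p3_t : P3 e c τ *ᵥ τ = 0 := nextR_v (proj2 he c) τ

lemma p3_r1 : P3 e c τ * R1 e = P3 e c τ := by
  rw [R1, Matrix.mul_sub, Matrix.mul_one, Matrix.mul_vecMulVec, p3_e he]
  simp

lemma r1_p3 : R1 e * P3 e c τ = P3 e c τ := by
  have := congrArg Matrix.transpose (p3_r1 he c τ)
  rwa [Matrix.transpose_mul, (proj1 he).symm, (proj3 he c τ).symm] at this

end P

lemma vmv_zl {P : Mx n} {u : V n} (h : P *ᵥ u = 0) (v : V n) : P * vecMulVec u v = 0 := by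
  rw [Matrix.mul_vecMulVec, h]; simp

lemma vmv_zr {P : Mx n} (hP : Pᵀ = P) {u : V n} (h : P *ᵥ u = 0) (v : V n) :
    vecMulVec v u * P = 0 := by
  rw [vmv_mul, hP, h]; simp

lemma p_wm {e : V n} (he : e ⬝ᵥ e = 1) (c τ : V n) (W : Mx n) :
    P3 e c τ * Wm e c τ W * P3 e c τ = P3 e c τ * W * P3 e c τ := by
  have hs := (proj3 he c τ).symm
  have h1 : P3 e c τ * rk2 c e * P3 e c τ = 0 := by
    rw [rk2, Matrix.mul_sub, Matrix.mul_add, Matrix.mul_smul, vmv_zl (p3_c he c τ),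
      vmv_zl (p3_e he c τ), vmv_zl (p3_e he c τ)]
    simp
  have h2 : P3 e c τ * (R1 e * (W + (1 / (n : ℝ)) • vecMulVec τ τ) * R1 e) * P3 e c τ =
      P3 e c τ * (W + (1 / (n : ℝ)) • vecMulVec τ τ) * P3 e c τ := by
    calc _ = (P3 e c τ * R1 e) * (W + (1 / (n : ℝ)) • vecMulVec τ τ) * (R1 e * P3 e c τ) := by
          simp only [Matrix.mul_assoc]
      _ = _ := by rw [p3_r1 he, r1_p3 he]
  rw [Wm, glue, Matrix.mul_add, Matrix.add_mul, h1, h2, zero_add, Matrix.mul_add, Matrix.mul_smul,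
    vmv_zl (p3_t he c τ), smul_zero, add_zero]

lemma wm_e {e : V n} (he : e ⬝ᵥ e = 1) (c τ : V n) (W : Mx n) : Wm e c τ W *ᵥ e = c := by
  rw [Wm, glue, Matrix.add_mulVec, ← Matrix.mulVec_mulVec, r1_e he, Matrix.mulVec_zero, add_zero,
    rk2, Matrix.sub_mulVec, Matrix.add_mulVec, Matrix.smul_mulVec, vmv_mulVec, vmv_mulVec,
    vmv_mulVec, he, one_smul, one_smul, dotProduct_comm c e]
  abel

lemma meas_wm (e c τ : V n) : Measurable (Wm e c τ) := by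
  unfold Wm; fun_prop

lemma measSet_le (B : Mx n) : MeasurableSet {A : Mx n | Le A B} := by
  refine IsClosed.measurableSet ?_
  have : {A : Mx n | Le A B} = ⋂ u : V n, {A : Mx n | u ⬝ᵥ A *ᵥ u ≤ u ⬝ᵥ B *ᵥ u} := by
    ext A; simp [Le]
  rw [this]
  refine isClosed_iInter fun u => isClosed_le ?_ continuous_const
  fun_prop

lemma qf_vmv (a u : V n) : u ⬝ᵥ vecMulVec a a *ᵥ u = (a ⬝ᵥ u) ^ 2 := by
  rw [vmv_mulVec, dotProduct_smul, smul_eq_mul, dotProduct_comm u a, sq]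

lemma qf_one (z : ℝ) (u : V n) : u ⬝ᵥ (z • (1 : Mx n)) *ᵥ u = z * (u ⬝ᵥ u) := by
  rw [Matrix.smul_mulVec, Matrix.one_mulVec, dotProduct_smul, smul_eq_mul]

lemma qf_diag (D u : V n) : u ⬝ᵥ diagonal D *ᵥ u = ∑ i, D i * u i ^ 2 := by
  simp only [dotProduct, Matrix.mulVec_diagonal]
  exact Finset.sum_congr rfl fun i _ => by ring

lemma dot_sq (u : V n) : u ⬝ᵥ u = ∑ i, u i ^ 2 := by
  simp only [dotProduct, sq]

lemma unit_cs {e : V n} (he : e ⬝ᵥ e = 1) (u : V n) : (e ⬝ᵥ u) ^ 2 ≤ u ⬝ᵥ u := by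
  have h := dot_self_nonneg (u - (e ⬝ᵥ u) • e)
  simp only [sub_dotProduct, dotProduct_sub, smul_dotProduct, dotProduct_smul, smul_eq_mul, he,
    dotProduct_comm u e] at h
  nlinarith

/-- adding the rank-one term known from the column `W e = c` -/
lemma le_sg {X : Mx n} (hX : Xᵀ = X) {e c τ : V n} (he : e ⬝ᵥ e = 1) (hτ : e ⬝ᵥ τ = 0)
    (hc : X *ᵥ e = c) {z k : ℝ} (hz : 0 < z - e ⬝ᵥ c)
    (h : Le (X + k • vecMulVec τ τ) (z • (1 : Mx n))) :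
    Le (X + (Sg z e c + k • vecMulVec τ τ)) (z • (1 : Mx n)) := by
  intro u
  set s := z - e ⬝ᵥ c with hs
  set a := z * (e ⬝ᵥ u) - c ⬝ᵥ u with ha
  have h1 := h (u - (a / s) • e)
  have e1 : u ⬝ᵥ X *ᵥ e = c ⬝ᵥ u := by rw [hc, dotProduct_comm]
  have e2 : e ⬝ᵥ X *ᵥ u = c ⬝ᵥ u := by rw [dot_symm hX, hc]
  have e3 : e ⬝ᵥ X *ᵥ e = e ⬝ᵥ c := by rw [hc]
  have e4 : τ ⬝ᵥ (u - (a / s) • e) = τ ⬝ᵥ u := by
    rw [dotProduct_sub, dotProduct_smul, dotProduct_comm τ e, hτ, smul_zero, sub_zero]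
  rw [Matrix.add_mulVec, dotProduct_add, Matrix.smul_mulVec, dotProduct_smul, qf_vmv, e4,
    qf_one] at h1
  simp only [Matrix.mulVec_sub, Matrix.mulVec_smul, sub_dotProduct, dotProduct_sub,
    smul_dotProduct, dotProduct_smul, smul_eq_mul, e1, e2, e3, he, dotProduct_comm u e] at h1
  have e5 : (z • e - c) ⬝ᵥ u = a := by
    rw [sub_dotProduct, smul_dotProduct, smul_eq_mul]
  rw [Matrix.add_mulVec, Matrix.add_mulVec, dotProduct_add, dotProduct_add, Sg,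
    Matrix.smul_mulVec, Matrix.smul_mulVec, dotProduct_smul, dotProduct_smul, qf_vmv, qf_vmv, e5,
    qf_one, ← hs, smul_eq_mul, smul_eq_mul]
  have e6 : e ⬝ᵥ c = z - s := by rw [hs]; ring
  have e7 : c ⬝ᵥ u = z * (e ⬝ᵥ u) - a := by rw [ha]; ring
  rw [e6, e7] at h1
  have e8 : a / s * s = a := div_mul_cancel₀ a hz.ne'
  have e9 : s⁻¹ * a ^ 2 = a / s * a := by rw [div_eq_mul_inv]; ring
  rw [e9]
  set t := a / s
  have e10 : t * (t * s) = t * a := by rw [e8]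
  nlinarith

/-! ### invariance -/

lemma conj_vmv (O : Mx n) (u v : V n) :
    O * vecMulVec u v * Oᵀ = vecMulVec (O *ᵥ u) (O *ᵥ v) := by
  rw [Matrix.mul_vecMulVec, vmv_mul, Matrix.transpose_transpose]

lemma le_conj {O A : Mx n} (hO : O * Oᵀ = 1) {z : ℝ} (h : Le A (z • (1 : Mx n))) :
    Le (O * A * Oᵀ) (z • (1 : Mx n)) := by
  intro u
  have h1 := h (Oᵀ *ᵥ u)
  rw [qf_one] at h1 ⊢
  have e1 : Oᵀ *ᵥ u ⬝ᵥ Oᵀ *ᵥ u = u ⬝ᵥ u := by
    conv_lhs => enter [1]; rw [Matrix.mulVec_transpose]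
    rw [← Matrix.dotProduct_mulVec, Matrix.mulVec_mulVec, hO, Matrix.one_mulVec]
  have e2 : u ⬝ᵥ (O * A * Oᵀ) *ᵥ u = Oᵀ *ᵥ u ⬝ᵥ A *ᵥ (Oᵀ *ᵥ u) := by
    rw [← Matrix.mulVec_mulVec, ← Matrix.mulVec_mulVec, Matrix.dotProduct_mulVec,
      ← Matrix.mulVec_transpose]
  rw [e2, ← e1]; exact h1

lemma wm_conj {O : Mx n} (hO : O * Oᵀ = 1) {e c τ : V n} (h1 : O *ᵥ e = e) (h2 : O *ᵥ c = c)
    (h3 : O *ᵥ τ = τ) (W : Mx n) : Wm e c τ (O * W * Oᵀ) = O * Wm e c τ W * Oᵀ := by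
  have hO' : Oᵀ * O = 1 := mul_eq_one_comm.1 hO
  have a1 : O * rk2 c e * Oᵀ = rk2 c e := by
    simp only [rk2, Matrix.mul_sub, Matrix.sub_mul, Matrix.mul_add, Matrix.add_mul,
      Matrix.mul_smul, Matrix.smul_mul, conj_vmv, h1, h2]
  have a2 : O * R1 e * Oᵀ = R1 e := by
    rw [R1, Matrix.mul_sub, Matrix.sub_mul, Matrix.mul_one, hO, conj_vmv, h1]
  have a3 : O * (W + (1 / (n : ℝ)) • vecMulVec τ τ) * Oᵀ =
      O * W * Oᵀ + (1 / (n : ℝ)) • vecMulVec τ τ := by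
    rw [Matrix.mul_add, Matrix.add_mul, Matrix.mul_smul, Matrix.smul_mul, conj_vmv, h3]
  rw [Wm, Wm, glue, glue, Matrix.mul_add O, Matrix.add_mul, a1, ← a3]
  congr 1
  calc R1 e * (O * (W + (1 / (n : ℝ)) • vecMulVec τ τ) * Oᵀ) * R1 e
      = (O * R1 e * Oᵀ) * (O * (W + (1 / (n : ℝ)) • vecMulVec τ τ) * Oᵀ) * (O * R1 e * Oᵀ) := by
        rw [a2]
    _ = O * (R1 e * (Oᵀ * O) * (W + (1 / (n : ℝ)) • vecMulVec τ τ) * (Oᵀ * O) * R1 e) * Oᵀ := by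
        simp only [Matrix.mul_assoc]
    _ = _ := by rw [hO', Matrix.mul_one, Matrix.mul_one]

/-- the invariant event -/
def Ev (z k : ℝ) (e c τ : V n) (S : Set (Mx n)) : Set (Mx n) :=
  {W | Wm e c τ W ∈ S ∧ Le (Wm e c τ W + k • vecMulVec τ τ) (z • (1 : Mx n))}

lemma meas_Ev (z k : ℝ) (e c τ : V n) {S : Set (Mx n)} (hS : MeasurableSet S) :
    MeasurableSet (Ev z k e c τ S) :=
  (meas_wm e c τ hS).inter
    (((meas_wm e c τ).t157_add measurable_const) (measSet_le (z • (1 : Mx n))))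

lemma ev_conj {z k : ℝ} {e c τ : V n} {S : Set (Mx n)}
    (hS : ∀ O W : Mx n, O * Oᵀ = 1 → W ∈ S → O * W * Oᵀ ∈ S) {O : Mx n} (hO : O * Oᵀ = 1)
    (h1 : O *ᵥ e = e) (h2 : O *ᵥ c = c) (h3 : O *ᵥ τ = τ) {W : Mx n}
    (hW : W ∈ Ev z k e c τ S) : O * W * Oᵀ ∈ Ev z k e c τ S := by
  refine ⟨?_, ?_⟩
  · rw [wm_conj hO h1 h2 h3]; exact hS _ _ hO hW.1
  · have := le_conj hO hW.2
    rwa [Matrix.mul_add, Matrix.add_mul, Matrix.mul_smul, Matrix.smul_mul, conj_vmv, h3,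
      ← wm_conj hO h1 h2 h3] at this

lemma inv_Ev {z k : ℝ} {e : V n} (he : e ⬝ᵥ e = 1) (c τ : V n) {S : Set (Mx n)}
    (hm : MeasurableSet S) (hS : ∀ O W : Mx n, O * Oᵀ = 1 → W ∈ S → O * W * Oᵀ ∈ S) :
    Inv (P3 e c τ) ((GOE n).restrict (Ev z k e c τ S)) (Wm e c τ) := by
  intro O hO hP ξ
  have hO' : Oᵀ * O = 1 := mul_eq_one_comm.1 hO
  have fx : ∀ x : V n, P3 e c τ *ᵥ x = 0 → O *ᵥ x = x := fun x hx => by
    have : (1 - P3 e c τ) *ᵥ x = x := by rw [Matrix.sub_mulVec, Matrix.one_mulVec, hx, sub_zero]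
    conv_lhs => rw [← this]
    rw [Matrix.mulVec_mulVec, hP, this]
  have fx' : ∀ x : V n, O *ᵥ x = x → Oᵀ *ᵥ x = x := fun x hx => by
    conv_lhs => rw [← hx]
    rw [Matrix.mulVec_mulVec, hO', Matrix.one_mulVec]
  have h1 := fx _ (p3_e he c τ)
  have h2 := fx _ (p3_c he c τ)
  have h3 := fx _ (p3_t he c τ)
  have hE := meas_Ev z k e c τ hm
  have hw := meas_wm e c τ
  rw [← lintegral_indicator hE, ← lintegral_indicator hE]
  have hf : Measurable ((Ev z k e c τ S).indicator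
      fun W => ex ((O *ᵥ ξ) ⬝ᵥ Wm e c τ W *ᵥ (O *ᵥ ξ) / 2)) :=
    Measurable.indicator (by fun_prop) hE
  conv_lhs => rw [GOE, ← goe_conj (1 / Real.sqrt n) O hO]
  rw [lintegral_map hf (by fun_prop)]
  refine lintegral_congr fun W => ?_
  by_cases hW : W ∈ Ev z k e c τ S
  · rw [indicator_of_mem hW, indicator_of_mem (ev_conj hS hO h1 h2 h3 hW), wm_conj hO h1 h2 h3]
    congr 2
    rw [← Matrix.mulVec_mulVec, ← Matrix.mulVec_mulVec, Matrix.mulVec_mulVec ξ, hO',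
      Matrix.one_mulVec, Matrix.dotProduct_mulVec, ← Matrix.mulVec_transpose,
      Matrix.mulVec_mulVec ξ, hO', Matrix.one_mulVec]
  · rw [indicator_of_notMem hW, indicator_of_notMem]
    intro h
    have := ev_conj hS (O := Oᵀ) (by rw [Matrix.transpose_transpose]; exact hO') (fx' _ h1)
      (fx' _ h2) (fx' _ h3) h
    rw [Matrix.transpose_transpose] at this
    apply hW
    convert this using 1
    calc W = (Oᵀ * O) * W * (Oᵀ * O) := by rw [hO', Matrix.one_mul, Matrix.mul_one]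
      _ = _ := by simp only [Matrix.mul_assoc]

lemma zz_gap {ε q : ℝ} (h0 : 0 < ε ^ 2 * q) (h1 : ε ^ 2 * q < 1) :
    2 + ε ^ 4 * q ^ 2 / 2 < zz (gg ε q) := by
  unfold zz gg
  set x := ε ^ 2 * q with hx
  have e : ε ^ 4 * q ^ 2 = x ^ 2 := by rw [hx]; ring
  rw [e]
  have h2 : 0 < 1 - x := by linarith
  have h3 : 1 + x + x ^ 2 / 2 < 1 / (1 - x) := by
    rw [lt_div_iff₀ h2]; nlinarith [mul_pos h0 h0, mul_pos (mul_pos h0 h0) h0]
  linarith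

lemma markov {Ω : Type*} [MeasurableSpace Ω] {ν : Measure Ω} {f : Ω → ℝ≥0∞}
    (hf : Measurable f) {a b : ℝ} (h : ∫⁻ x, f x ∂ν ≤ ex b) :
    ν {x | ex a ≤ f x} ≤ ex (b - a) := by
  have h1 := (mul_meas_ge_le_lintegral₀ (μ := ν) hf.aemeasurable (ex a)).trans h
  have h2 : ex b = ex a * ex (b - a) := by rw [← ex_add]; congr 1; ring
  rw [h2] at h1
  have h3 : ex a ≠ 0 := by
    unfold ex; exact (ENNReal.ofReal_pos.2 (Real.exp_pos a)).ne'
  exact (ENNReal.mul_le_mul_iff_right h3 (ex_ne_top a)).1 h1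

lemma three {x L : ℝ} (hL : Real.log 8 ≤ L) : ex x + ex x + ex x ≤ ex (x + L) := by
  unfold ex
  have h := Real.exp_pos x
  rw [← ENNReal.ofReal_add h.le h.le, ← ENNReal.ofReal_add (by positivity) h.le, Real.exp_add]
  refine ENNReal.ofReal_le_ofReal ?_
  have h2 : (8 : ℝ) ≤ Real.exp L := by
    have := Real.exp_le_exp.2 hL
    rwa [Real.exp_log (by norm_num)] at this
  nlinarith

lemma nums {ε q N : ℝ} (he0 : 0 < ε) (he1 : ε ≤ 1 / 100) (hq0 : 0 < q) (hq1 : q ≤ ε ^ 3 / 10 ^ 6)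
    (hN : 0 ≤ N) : q ≤ 1 / 10 ^ 12 ∧ ε ^ 2 * q < 1 ∧ ε ^ 4 * q ^ 2 ≤ 1 ∧
      ε ^ 2 * q ^ 2 * N / 256 ≤ N ∧ ε ^ 9 * q ^ 2 * N / 64 ≤ ε ^ 2 * q ^ 2 * N / 6400 ∧
      200 * q ^ 3 * N ≤ ε ^ 2 * q ^ 2 * N / 6400 := by
  have e2 : ε ^ 2 ≤ 1 / 10000 := by nlinarith
  have e3 : ε ^ 3 ≤ ε ^ 2 / 100 := by nlinarith [sq_nonneg ε]
  have e2p : 0 < ε ^ 2 := by positivity
  have hqs : q ≤ ε ^ 2 / 10 ^ 8 := by linarith
  have hq3 : q ≤ 1 / 10 ^ 12 := by linarith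
  have hx0 : 0 < ε ^ 2 * q := by positivity
  have hx1 : ε ^ 2 * q < 1 := by nlinarith
  have hw : 0 ≤ q ^ 2 * N := by positivity
  have e9 : ε ^ 9 ≤ ε ^ 2 / 100 := by
    have : ε ^ 9 = ε ^ 3 * ε ^ 6 := by ring
    have h6 : ε ^ 6 ≤ 1 := pow_le_one₀ he0.le (by linarith)
    have h3 : 0 < ε ^ 3 := by positivity
    nlinarith
  refine ⟨hq3, hx1, ?_, ?_, ?_, ?_⟩
  · have : ε ^ 4 * q ^ 2 = (ε ^ 2 * q) ^ 2 := by ring
    rw [this]; nlinarith
  · have h1 : q ^ 2 ≤ 1 := pow_le_one₀ hq0.le (by linarith)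
    have h2 : ε ^ 2 * q ^ 2 ≤ 1 := by nlinarith
    nlinarith
  · have := mul_le_mul_of_nonneg_right e9 hw
    nlinarith
  · have := mul_le_mul_of_nonneg_right hqs hw
    have h5 : 0 ≤ ε ^ 2 * (q ^ 2 * N) := by positivity
    nlinarith

end Core78

open Core78


end Crest.Agent.T157.Qe

end
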