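import Crest.Agent.T157.KbM_24
import Crest.Agent.T157.KbDef_24
import Crest.Agent.T157.KbTay_31
import Crest.Agent.T157.PlC_37
import Crest.Agent.T157.SLA_23
import Crest.Agent.T157.QeDef_24
import Crest.Agent.T157.QeA_24
import Crest.Agent.T157.QeCore_78
import Crest.Agent.T157.QeNumU_43
import Crest.Agent.T157.QeQs_98
import Crest.Agent.T157.QeTi_61
import Crest.Agent.T157.KbXdA_75
import Crest.Agent.T157.KbArea_98
import Crest.Agent.T157.KbB1_12_Mg
import Crest.Agent.T157.KbB2_56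
import Crest.Agent.T157.KbLg_91_Mg
import Crest.Agent.T157.KbMarg_47_Mg
import Crest.Agent.T157.KbPos_10_Mg
import Crest.Agent.T157.O0Wb_31
import Crest.Agent.T157.O0W_44
import Crest.Agent.T157.O0S_5

-- ▼ part T157/KbKr_58
section

/-!
# Row 157, part A2, section 2 (helper58): second moment of the Jacobian and `KR ≤ poly Pt^{1/2}`
-/

set_option autoImplicit false

noncomputable section

namespace Crest.Agent.T157.Kb

open MeasureTheory Matrix Set Filter
open scoped ENNReal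
open Crest.Agent.T157.E Crest.Agent.T157.Cond Crest.Agent.T157.Tap
open Crest.Agent.T157.Qe (Le R1 bv Wm Mm)
open Crest.Agent.T157.Conc (ex ex_add ex_mono ex_rpow)

namespace Kr58

variable {n : ℕ}

lemma meas_DY {Ω : Type*} [MeasurableSpace Ω] {x : Ω → V n} {W : Ω → Mx n} (hx : Measurable x)
    (hW : Measurable W) (b : ℝ) : Measurable fun ω => Deg.DY (W ω) b (x ω) := by
  have h0 := meas_th hx
  have h1 : Measurable fun ω => DD (th (x ω)) := by unfold DD; fun_prop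
  have h2 : Measurable fun ω => dd (th (x ω)) := by unfold dd; fun_prop
  have h4 : Measurable fun ω => avg fun i => dd (th (x ω)) i ^ 2 := meas_avg (by fun_prop)
  have h3 : Measurable fun ω => B1 (W ω) b (th (x ω)) := by
    refine measurable_mat_iff.2 fun i j => ?_
    have := hW.t157_entry i j
    simp only [B1, B0, Matrix.add_apply, Matrix.sub_apply, Matrix.smul_apply, vecMulVec_apply,
      smul_eq_mul]
    fun_prop
  have h5 := meas_diag h1
  unfold Deg.DY; fun_prop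

lemma meas_det : Measurable fun z : V n × Mx n => (Deg.DY z.2 1 z.1).det :=
  Deg.measurable_det fun i j => (meas_DY measurable_fst measurable_snd 1).t157_entry i j

/-- the normalised integrand -/
def G (z : V n × Mx n) : ℝ≥0∞ := 1 + ENNReal.ofReal ((Deg.DY z.2 1 z.1).det ^ 2 /
  Real.exp (n * (1 - aS z.1) ^ 2 / 2) ^ 2)

lemma meas_G : Measurable (G (n := n)) := by
  have := meas_det (n := n)
  unfold G; fun_prop

lemma ae_th (hn : 0 < n) : ∀ᵐ x : V n, th x ≠ 0 := by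
  have : Nonempty (Fin n) := ⟨⟨0, hn⟩⟩
  have h : ∀ᵐ x : V n, x ∉ ({0} : Set (V n)) := compl_mem_ae_iff.2 (measure_singleton _)
  filter_upwards [h] with x hx h0
  refine hx (funext fun i => ?_)
  have h1 : Real.tanh (x i) = 0 := congrFun h0 i
  rw [Real.tanh_eq_sinh_div_cosh, div_eq_zero_iff] at h1
  exact h1.elim Real.sinh_eq_zero.1 fun h => absurd h (Real.cosh_pos _).ne'

lemma one_add_le {C : ℕ} (hn : 17 ≤ n) :
    1 + ex (C * Real.log n) * ENNReal.ofReal (17 ^ C) ≤ ex ((2 * C + 1 : ℕ) * Real.log n) := by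
  have h17 : (17 : ℝ) ≤ n := by exact_mod_cast hn
  have e : ∀ k : ℕ, ex (k * Real.log n) = ENNReal.ofReal (n ^ k) := fun k => by
    rw [ex, Real.exp_nat_mul, Real.exp_log (by linarith)]
  rw [e, e, ← ENNReal.ofReal_mul (by positivity), ← ENNReal.ofReal_one,
    ← ENNReal.ofReal_add zero_le_one (by positivity)]
  refine ENNReal.ofReal_le_ofReal ?_
  have h1 : (17 : ℝ) ^ C ≤ n ^ C := pow_le_pow_left₀ (by norm_num) h17 C
  have h2 : (1 : ℝ) ≤ n ^ C := one_le_pow₀ (by linarith)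
  rw [pow_succ, two_mul, pow_add]
  nlinarith [mul_le_mul_of_nonneg_left h1 (zero_le_one.trans h2), one_le_mul_of_one_le_of_one_le h2 h2]

lemma er (hM : MargStmt) (hD : DetStmt) (hA : AllStmt) : ErStmt := by
  obtain ⟨C, hD⟩ := hD
  obtain ⟨t0, ht0, C', hA⟩ := hA
  refine ⟨t0, ht0, 2 * C + 1 + C' + 17, fun n t B hn ht hB hb => ?_⟩
  have n0 : 0 < n := by omega
  have n1 : (1 : ℝ) ≤ n := by exact_mod_cast n0
  have t0' : 0 < t := lt_of_lt_of_le (by positivity) ht.1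
  change Pt t (B.indicator G) ≤ _
  rw [hM n t _ n0 t0' (meas_G.indicator hB)]
  have key : ∀ x : V n, th x ≠ 0 → ∀ η,
      ∫⁻ W, B.indicator G (x, Wm (ee x) (col t x η) (tau x) W) ∂GOE n ≤
        ex ((2 * C + 1 : ℕ) * Real.log n) := fun x hx η => by
    have he : ee x ⬝ᵥ ee x = 1 := unitv_dot hx
    by_cases hc : col t x η ⬝ᵥ col t x η ≤ 16
    · have h1 : tau x ⬝ᵥ tau x ≤ n := by
        have := (Qe.proj_R1 he).dot_le (1 : V n)
        simpa [tau, bv] using this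
      have h2 : ee x ⬝ᵥ tau x = 0 := by
        simp only [tau, bv, Qe.R1_mulVec, dotProduct_sub, dotProduct_smul, he, smul_eq_mul, mul_one,
          sub_self]
      have h3 := hD n x (col t x η) (tau x) (by omega) hx h1 h2
      refine (lintegral_mono fun W => indicator_le_self _ _ _).trans ?_
      have e : ∀ W, G (x, W) = 1 + ex (-(n * (1 - aS x) ^ 2)) *
          ENNReal.ofReal ((Deg.DY W 1 x).det ^ 2) := fun W => by
        rw [G, ex, ← ENNReal.ofReal_mul (Real.exp_pos _).le, ← Real.exp_nat_mul, Real.exp_neg]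
        congr 2
        rw [div_eq_inv_mul]; congr 3; push_cast; ring
      simp only [e]
      rw [lintegral_add_left measurable_const, lintegral_const_mul' _ _ (Conc.ex_ne_top _),
        lintegral_const, measure_univ, mul_one]
      refine le_trans (add_le_add le_rfl ((mul_le_mul_right h3 _).trans ?_)) (one_add_le (by omega))
      rw [← mul_assoc, ← ex_add, neg_add_cancel_comm_assoc]
      refine mul_le_mul_right (ENNReal.ofReal_le_ofReal (pow_le_pow_left₀ ?_ (by linarith) C)) _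
      linarith [dot_self_nonneg (col t x η)]
    · refine le_of_eq_of_le (lintegral_congr (g := fun _ => 0) fun W => ?_) (by simp)
      refine indicator_of_notMem (fun hW => hc ?_) _
      have := hb _ hW
      simpa only [Wm, Qe.glue_e he] using this
  calc _ ≤ ∫⁻ x, ENNReal.ofReal (rho t x) * ex ((2 * C + 1 : ℕ) * Real.log n) := by
        refine lintegral_mono_ae ?_
        filter_upwards [ae_th n0] with x hx
        refine mul_le_mul' (ENNReal.ofReal_le_ofReal ?_) ?_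
        · have h0 : 0 ≤ rho t x := mul_nonneg (Kr.phi_nonneg _ _) (Real.exp_pos _).le
          have h1 := aS_nonneg x
          have h2 : 0 < ga t x := by unfold ga; linarith
          refine mul_le_of_le_one_left h0 (Real.sqrt_le_one.2 ?_)
          rw [div_le_one (by linarith)]; linarith
        · exact (lintegral_mono (key x hx)).trans (by simp)
    _ ≤ ex (C' * Real.log n) * ex ((2 * C + 1 : ℕ) * Real.log n) := by
        rw [lintegral_mul_const' _ _ (Conc.ex_ne_top _)]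
        have := hA n t (by omega) ht
        rw [Px, Measure.restrict_univ] at this
        exact mul_le_mul_left this _
    _ ≤ _ := by
        rw [← ex_add]
        refine ex_mono ?_
        have := Real.log_nonneg n1
        push_cast; nlinarith

lemma kr (h : ErStmt) : KrStmt := by
  obtain ⟨t0, ht0, C, h⟩ := h
  refine ⟨t0, ht0, C + 1, fun n t B hn ht hB hb => ?_⟩
  have n1 : (1 : ℝ) ≤ n := by exact_mod_cast (by omega : 1 ≤ n)
  have hE : Pt t (B.indicator G) ≤ _ := h n t B (by omega) ht hB hb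
  have md := meas_det (n := n)
  have m1 : Measurable fun z : V n × Mx n => nuW t z * cX z.1 * B.indicator 1 z :=
    ((meas_nuW measurable_id).mul (meas_cX measurable_fst)).mul (measurable_one.indicator hB)
  have m2 : Measurable fun z : V n × Mx n => nuW t z * cX z.1 * B.indicator G z :=
    ((meas_nuW measurable_id).mul (meas_cX measurable_fst)).mul (meas_G.indicator hB)
  have m3 : Measurable fun z : V n × Mx n =>
      nuW t z * ENNReal.ofReal |(Deg.DY z.2 1 z.1).det| * B.indicator 1 z :=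
    ((meas_nuW measurable_id).mul (by fun_prop)).mul (measurable_one.indicator hB)
  have e1 : Pt t (B.indicator 1) = _ := (lintegral_prod _ m1.aemeasurable).symm
  have e2 : Pt t (B.indicator G) = _ := (lintegral_prod _ m2.aemeasurable).symm
  have e3 : KR t (B.indicator 1) = _ := (lintegral_prod _ m3.aemeasurable).symm
  have H := ENNReal.lintegral_mul_norm_pow_le (μ := (volume : Measure (V n)).prod (GOE n))
    m1.aemeasurable m2.aemeasurable (p := 1 / 2) (q := 1 / 2) (by norm_num) (by norm_num)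
    (by norm_num)
  rw [← e1, ← e2] at H
  rw [e3, mul_comm]
  refine le_trans (lintegral_mono fun z => ?_) (H.trans (mul_le_mul_right ?_ _))
  · by_cases hz : z ∈ B
    · simp only [indicator_of_mem hz, Pi.one_apply, mul_one]
      rw [← ENNReal.mul_rpow_of_nonneg _ _ (by norm_num), one_div,
        ENNReal.le_rpow_inv_iff (by norm_num), ENNReal.rpow_two]
      have hc : ENNReal.ofReal |(Deg.DY z.2 1 z.1).det| ^ 2 ≤ cX z.1 * cX z.1 * G z := by
        refine le_trans (le_of_eq ?_) (mul_le_mul_right le_add_self _)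
        rw [cX, ex, ← ENNReal.ofReal_mul (Real.exp_pos _).le, ← ENNReal.ofReal_mul (by positivity),
          ← ENNReal.ofReal_pow (abs_nonneg _), sq_abs]
        congr 1; field_simp
      calc _ = nuW t z ^ 2 * ENNReal.ofReal |(Deg.DY z.2 1 z.1).det| ^ 2 := mul_pow _ _ _
        _ ≤ nuW t z ^ 2 * (cX z.1 * cX z.1 * G z) := mul_le_mul_right hc _
        _ = _ := by ring
    · simp [indicator_of_notMem hz]
  · refine (ENNReal.rpow_le_rpow hE (by norm_num)).trans ?_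
    rw [ex_rpow]
    refine ex_mono ?_
    have := Real.log_nonneg n1
    have := mul_nonneg (Nat.cast_nonneg (α := ℝ) C) this
    push_cast; nlinarith

end Kr58

/-- **task 791** -/
theorem krGlue : KrGlue := fun hM hD hA => ⟨Kr58.er hM hD hA, Kr58.kr (Kr58.er hM hD hA)⟩

end Crest.Agent.T157.Kb
end
end

-- ▼ part T157/KbMgf_71
section

/-!
# Row 157, part A2, section 2 (helper71): `Kb.MgfStmt`
-/

set_option autoImplicit false

noncomputable section

namespace Crest.Agent.T157.Kb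

open MeasureTheory ProbabilityTheory Set Real
open scoped ENNReal NNReal
open Crest.Agent.T157.Tap
open Crest.Agent.T157.Conc (ex ex_add ex_mono measurable_ex lintegral_ex)

namespace Mgf71

lemma hd_tanh (x : ℝ) : HasDerivAt tanh (1 - tanh x ^ 2) x := by
  have hc := (cosh_pos x).ne'
  have h := (hasDerivAt_sinh x).div (hasDerivAt_cosh x) hc
  have e : tanh = sinh / cosh := funext fun y => tanh_eq_sinh_div_cosh y
  have e2 : 1 - tanh x ^ 2 = (cosh x * cosh x - sinh x * sinh x) / cosh x ^ 2 := by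
    rw [tanh_eq_sinh_div_cosh]; field_simp
  rw [e2, e]
  exact h

lemma mvt {f f' : ℝ → ℝ} (h : ∀ y, HasDerivAt f (f' y) y) (h0 : f 0 = 0) (x c : ℝ)
    (hc : ∀ y, |y| ≤ |x| → |f' y| ≤ c) : |f x| ≤ c * |x| := by
  have := (convex_Icc (-|x|) |x|).norm_image_sub_le_of_norm_hasDerivWithin_le (f := f) (f' := f')
    (C := c) (x := 0) (y := x) (fun y _ => (h y).hasDerivWithinAt)
    (fun y hy => hc y (abs_le.2 hy)) ⟨by simp, abs_nonneg x⟩ ⟨neg_abs_le x, le_abs_self x⟩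
  simpa [h0] using this

lemma tanh_sq_le_one (x : ℝ) : tanh x ^ 2 ≤ 1 := by
  rw [← sq_abs]; exact pow_le_one₀ (abs_nonneg _) (abs_tanh_lt_one x).le

lemma abs_tanh_le (x : ℝ) : |tanh x| ≤ |x| := by
  simpa using mvt hd_tanh tanh_zero x 1 fun y _ => by
    rw [abs_le]; constructor <;> nlinarith [tanh_sq_le_one y, sq_nonneg (tanh y)]

lemma hd_r (y : ℝ) : HasDerivAt (fun x => x - tanh x) (tanh y ^ 2) y := by
  exact ((hasDerivAt_id' y).sub (hd_tanh y)).congr_deriv (by ring)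

lemma abs_r_le (x : ℝ) : |x - tanh x| ≤ |x| := by
  simpa using mvt hd_r (by simp) x 1 fun y _ => by
    rw [abs_of_nonneg (sq_nonneg _)]; exact tanh_sq_le_one y

lemma abs_r_le' (x : ℝ) : |x - tanh x| ≤ x ^ 2 * |x| :=
  mvt hd_r (by simp) x _ fun y hy => by
    rw [abs_of_nonneg (sq_nonneg _), ← sq_abs (tanh y), ← sq_abs x]
    exact pow_le_pow_left₀ (abs_nonneg _) ((abs_tanh_le y).trans hy) 2

lemma exp_le (y : ℝ) : exp y ≤ 1 + y + y ^ 2 * exp |y| := by
  have h1 : exp y - 1 ≤ y * exp y := by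
    have := add_one_le_exp (-y)
    have h2 : exp (-y) * exp y = 1 := by rw [← exp_add]; simp
    nlinarith [exp_pos y]
  rcases le_total 0 y with h | h
  · rw [abs_of_nonneg h]; nlinarith [mul_le_mul_of_nonneg_left h1 h]
  · have h3 := add_one_le_exp y
    have h4 : 1 ≤ exp |y| := one_le_exp (abs_nonneg y)
    nlinarith [mul_le_mul_of_nonneg_left h4 (sq_nonneg y),
      mul_le_mul_of_nonneg_left (show 1 - exp y ≤ -y by linarith) (neg_nonneg.2 h)]

lemma abs_log_le {u : ℝ} (hu : |u| ≤ 1 / 2) : |log (1 - u)| ≤ 2 * |u| := by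
  obtain ⟨h1, h2⟩ := abs_le.1 hu
  have h0 : 0 < 1 - u := by linarith
  have a1 := log_le_sub_one_of_pos h0
  have a2 := one_sub_inv_le_log_of_pos h0
  have a3 : (1 - u)⁻¹ ≤ 1 + 2 * |u| := by
    rw [inv_le_iff_one_le_mul₀ h0]
    rcases le_total 0 u with h | h
    · rw [abs_of_nonneg h]; nlinarith
    · rw [abs_of_nonpos h]; nlinarith
  rw [abs_le]
  constructor <;> linarith [neg_abs_le u, abs_nonneg u]

lemma pow_le_exp {v : ℝ} (hv : 0 < v) (x : ℝ) {j : ℕ} (hj : j ≤ 8) :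
    (x ^ 2 + v) ^ j * exp (x ^ 2 / (16 * v)) ≤ 128 ^ 8 * v ^ j * exp (x ^ 2 / (8 * v)) := by
  have hy : 0 ≤ x ^ 2 / v := by positivity
  have h1 : 1 + x ^ 2 / v ≤ 128 * exp (x ^ 2 / v / 128) := by
    have := add_one_le_exp (x ^ 2 / v / 128); linarith
  have h2 : (1 + x ^ 2 / v) ^ j ≤ 128 ^ 8 * exp (x ^ 2 / (16 * v)) := by
    refine (pow_le_pow_right₀ (by linarith) hj).trans ((pow_le_pow_left₀ (by linarith) h1 8).trans_eq ?_)
    rw [mul_pow, ← exp_nat_mul]; congr 2; push_cast; field_simp; ring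
  have h3 : x ^ 2 + v = v * (1 + x ^ 2 / v) := by field_simp; ring
  have h4 : exp (x ^ 2 / (8 * v)) = exp (x ^ 2 / (16 * v)) * exp (x ^ 2 / (16 * v)) := by
    rw [← exp_add]; congr 1; field_simp; ring
  rw [h3, mul_pow, h4]
  have := mul_le_mul_of_nonneg_left h2 (show 0 ≤ v ^ j * exp (x ^ 2 / (16 * v)) by positivity)
  linarith

/-- change of variables -/
lemma chg (m : ℝ) {v : ℝ} (hv : 0 < v) {F : ℝ → ℝ≥0∞} (hF : Measurable F) :
    ∫⁻ x, ex (-(x - m) ^ 2 / (2 * v) - log (2 * π * v) / 2) * F x =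
      ∫⁻ z, F (m + √v * z) ∂gaussianReal 0 1 := by
  have hmap : (gaussianReal 0 1).map (fun z => m + √v * z) = gaussianReal m v.toNNReal := by
    have e : (fun z => m + √v * z) = (fun y => m + y) ∘ fun z => √v * z := rfl
    rw [e, ← Measure.map_map (by fun_prop) (by fun_prop), gaussianReal_map_const_mul,
      gaussianReal_map_const_add]
    congr 1
    · simp
    · ext; simp [hv.le]
  have hv' : v.toNNReal ≠ 0 := by simpa using hv
  rw [← lintegral_map hF (by fun_prop), hmap, gaussianReal_of_var_ne_zero _ hv',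
    lintegral_withDensity_eq_lintegral_mul _ (measurable_gaussianPDF _ _) hF]
  refine lintegral_congr fun x => ?_
  simp only [Pi.mul_apply, gaussianPDF, gaussianPDFReal, ex, Real.coe_toNNReal _ hv.le]
  congr 2
  have hp : 0 < 2 * π * v := by positivity
  rw [exp_sub, ← log_sqrt hp.le, exp_log (by positivity), div_eq_inv_mul]

/-- the dominating function -/
lemma dom {m v v' : ℝ} (hv : 0 < v) (h0 : 0 ≤ v') (h1 : v' ≤ 4 / 3 * v) (h2 : m ^ 2 ≤ 4 / 3 * v)
    {f : ℝ → ℝ} (hf : Measurable f) {c : ℝ} (hc : 0 ≤ c)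
    (h : ∀ x, |f x| ≤ c * exp (x ^ 2 / (8 * v))) :
    Integrable (fun z => f (m + √v' * z)) (gaussianReal 0 1) ∧ gE f m v' ≤ 6 * c := by
  obtain ⟨i1, i2⟩ := Dq.integral_exp_sq (a := 1 / 2) (by norm_num)
  have hb : ∀ z, |f (m + √v' * z)| ≤ c * 3 * exp (1 / 2 * z ^ 2 / 2) := by
    intro z
    refine (h _).trans ?_
    rw [mul_assoc]
    refine mul_le_mul_of_nonneg_left ?_ hc
    have e1 : (m + √v' * z) ^ 2 / (8 * v) ≤ 1 + 1 / 2 * z ^ 2 / 2 := by
      rw [div_le_iff₀ (by positivity)]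
      have e2 : (√v' * z) ^ 2 = v' * z ^ 2 := by rw [mul_pow, sq_sqrt h0]
      nlinarith [sq_nonneg (m - √v' * z / 2), mul_le_mul_of_nonneg_right h1 (sq_nonneg z)]
    refine (exp_le_exp.2 e1).trans ?_
    rw [exp_add]
    exact mul_le_mul_of_nonneg_right (exp_one_lt_d9.le.trans (by norm_num)) (exp_pos _).le
  have hi : Integrable (fun z => f (m + √v' * z)) (gaussianReal 0 1) :=
    (i1.const_mul (c * 3)).mono' (hf.comp (by fun_prop)).aestronglyMeasurable (ae_of_all _ hb)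
  refine ⟨hi, (integral_mono hi (i1.const_mul (c * 3)) fun z => (le_abs_self _).trans (hb z)).trans ?_⟩
  rw [integral_const_mul, i2]
  have : (√(1 - 1 / 2))⁻¹ ≤ 2 := by
    rw [inv_le_comm₀ (by positivity) (by norm_num)]
    exact le_sqrt_of_sq_le (by norm_num)
  nlinarith

/-- the logarithm of the density ratio -/
def S (m v u x : ℝ) : ℝ := -(u * (x - tanh x) * (2 * ((1 - u) * x - m) + u * (x - tanh x))) / (2 * v) -
  tanh x ^ 2 * log (1 - u)

lemma gR_eq (m : ℝ) {v u : ℝ} (hv : 0 < v) (hu : u < 1) (x : ℝ) : gR m v u x =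
    -(x - m / (1 - u)) ^ 2 / (2 * (v / (1 - u) ^ 2)) - log (2 * π * (v / (1 - u) ^ 2)) / 2 +
      S m v u x := by
  have h0 : 0 < 1 - u := by linarith
  have e : log (2 * π * (v / (1 - u) ^ 2)) = log (2 * π * v) - 2 * log (1 - u) := by
    rw [← mul_div_assoc, log_div (by positivity) (by positivity), log_pow]; norm_num
  rw [e, gR, S]
  field_simp
  ring

lemma S_le {m v u : ℝ} (hv : 0 < v) (hm : m ^ 2 ≤ v) (hu : |u| ≤ 1 / 2) (x : ℝ)
    {ρ : ℝ} (hρ : |x - tanh x| ≤ ρ * |x|) (hρ0 : 0 ≤ ρ) :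
    |S m v u x| ≤ |u| * (3 * ρ * (x ^ 2 + v) + 2 * v * x ^ 2) / v := by
  have a1 : |2 * ((1 - u) * x - m) + u * (x - tanh x)| ≤ 4 * |x| + 2 * |m| := by
    have b1 : |(1 - u) * x| ≤ 3 / 2 * |x| := by
      rw [abs_mul]
      exact mul_le_mul_of_nonneg_right ((abs_sub _ _).trans (by rw [abs_one]; linarith)) (abs_nonneg x)
    have b2 : |u * (x - tanh x)| ≤ 1 / 2 * |x| := by
      rw [abs_mul]; exact mul_le_mul hu (abs_r_le x) (abs_nonneg _) (by norm_num)
    refine (abs_add_le _ _).trans ?_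
    rw [abs_mul, abs_two]
    linarith [abs_sub ((1 - u) * x) m, abs_nonneg x]
  have a2 : |tanh x ^ 2 * log (1 - u)| ≤ x ^ 2 * (2 * |u|) := by
    rw [abs_mul, abs_of_nonneg (sq_nonneg _), ← sq_abs (tanh x), ← sq_abs x]
    exact mul_le_mul (pow_le_pow_left₀ (abs_nonneg _) (abs_tanh_le x) 2) (abs_log_le hu)
      (abs_nonneg _) (sq_nonneg _)
  have a3 : |x| * (4 * |x| + 2 * |m|) ≤ 6 * (x ^ 2 + v) := by
    nlinarith [sq_abs x, sq_abs m, sq_nonneg (|x| - |m|), sq_nonneg x]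
  have a4 : |u * (x - tanh x) * (2 * ((1 - u) * x - m) + u * (x - tanh x))| ≤
      |u| * (ρ * (6 * (x ^ 2 + v))) := by
    rw [abs_mul, abs_mul, mul_assoc]
    refine mul_le_mul_of_nonneg_left ?_ (abs_nonneg u)
    refine (mul_le_mul hρ a1 (abs_nonneg _) (by positivity)).trans ?_
    rw [mul_assoc]
    exact mul_le_mul_of_nonneg_left a3 hρ0
  refine (abs_sub _ _).trans ?_
  rw [abs_div, abs_neg, abs_of_pos (show 0 < 2 * v by positivity)]
  have a5 := div_le_div_of_nonneg_right a4 (show 0 ≤ 2 * v by positivity)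
  refine (add_le_add a5 a2).trans_eq ?_
  field_simp
  ring

end Mgf71

open Mgf71 in
theorem mgfStmt (h : ChStmt) : MgfStmt := by
  refine ⟨128 ^ 8 * 1000, by norm_num, fun K hK m v u Y hv hC hm hu hY hb => ?_⟩
  have hK2 : K ≤ K ^ 2 := by nlinarith
  have hKv : K ^ 2 * v ≤ 1 / 1000 := by nlinarith [mul_nonneg (sq_nonneg K) hv.le]
  have hKv' : K * v ≤ 1 / 1000 := (mul_le_mul_of_nonneg_right hK2 hv.le).trans hKv
  have hv1 : v ≤ 1 / 1000 := le_trans (le_mul_of_one_le_left hv.le hK) hKv'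
  have hu1 : |u| ≤ 1 / 1000 := hu.trans hKv'
  obtain ⟨u1, u2⟩ := abs_le.1 hu1
  have sq_le : ∀ a : ℝ, |a| ≤ K * v → a ^ 2 ≤ K ^ 2 * v * v := fun a ha => by
    rw [← sq_abs]
    exact (pow_le_pow_left₀ (abs_nonneg a) ha 2).trans_eq (by ring)
  have hm2 : m ^ 2 ≤ v := (sq_le m hm).trans (by nlinarith)
  have h0 : 0 < 1 - u := by linarith
  have h34 : 3 / 4 ≤ (1 - u) ^ 2 := by nlinarith
  set m' := m / (1 - u) with hm'
  set v' := v / (1 - u) ^ 2 with hv'
  have v0 : 0 < v' := by positivity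
  have v1 : v' ≤ 4 / 3 * v := by rw [hv', div_le_iff₀ (by positivity)]; nlinarith
  have m1 : m' ^ 2 ≤ 4 / 3 * v := by rw [hm', div_pow, div_le_iff₀ (by positivity)]; nlinarith
  have D := fun f hf c hc H => dom (m := m') (f := f) (c := c) hv v0.le v1 m1 hf hc H
  have P : ∀ (f : ℝ → ℝ) (B : ℝ) (j : ℕ), Measurable f → 0 ≤ B → j ≤ 8 →
      (∀ x, f x ^ 2 ≤ B * (x ^ 2 + v) ^ j) →
      Integrable (fun z => f (m' + √v' * z) ^ 2 * exp ((m' + √v' * z) ^ 2 / (16 * v)))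
        (gaussianReal 0 1) ∧
      gE (fun x => f x ^ 2 * exp (x ^ 2 / (16 * v))) m' v' ≤ 6 * (B * (128 ^ 8 * v ^ j)) := by
    intro f B j hf hB hj H
    refine D (fun x => f x ^ 2 * exp (x ^ 2 / (16 * v))) (by fun_prop) _ (by positivity) fun x => ?_
    rw [abs_of_nonneg (by positivity)]
    refine (mul_le_mul_of_nonneg_right (H x) (exp_pos _).le).trans ?_
    rw [mul_assoc, mul_assoc B]
    exact mul_le_mul_of_nonneg_left (pow_le_exp hv x hj) hB
  refine ⟨?_, fun B j hB hj H => (P Y B j hY hB hj H).2.trans ?_⟩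
  swap
  · have : 0 ≤ B * v ^ j := by positivity
    nlinarith
  have hS : Measurable (S m v u) := by
    have : Measurable tanh := (fun x => (hd_tanh x).continuousAt :
      ∀ x, ContinuousAt tanh x) |> continuous_iff_continuousAt.2 |>.measurable
    unfold S; fun_prop
  have s1 : ∀ x, |S m v u x| ≤ (x ^ 2 + v) / (64 * v) := by
    intro x
    refine (S_le hv hm2 (by linarith) x (ρ := 1) (by simpa using abs_r_le x)
      zero_le_one).trans ?_
    rw [div_le_div_iff₀ hv (by positivity)]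
    have b1 : 3 * 1 * (x ^ 2 + v) + 2 * v * x ^ 2 ≤ 4 * (x ^ 2 + v) := by
      nlinarith [mul_le_mul_of_nonneg_right hv1 (sq_nonneg x), sq_nonneg x]
    have b2 := mul_le_mul hu1 b1 (by positivity) (by norm_num)
    nlinarith [mul_le_mul_of_nonneg_right b2 hv.le, mul_nonneg (add_nonneg (sq_nonneg x) hv.le) hv.le]
  have s2 : ∀ x, S m v u x ^ 2 ≤ 25 * K ^ 2 * (x ^ 2 + v) ^ 4 := by
    intro x
    have b0 := S_le hv hm2 (u := u) (by linarith) x (abs_r_le' x) (sq_nonneg x)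
    have b1 : 3 * x ^ 2 * (x ^ 2 + v) + 2 * v * x ^ 2 ≤ 5 * (x ^ 2 + v) ^ 2 := by
      nlinarith [mul_nonneg hv.le (sq_nonneg x), sq_nonneg v, sq_nonneg (x ^ 2)]
    have b2 : |S m v u x| ≤ 5 * K * (x ^ 2 + v) ^ 2 := by
      refine b0.trans ?_
      rw [div_le_iff₀ hv]
      exact (mul_le_mul hu b1 (by positivity) (by positivity)).trans_eq (by ring)
    rw [← sq_abs]
    exact (pow_le_pow_left₀ (abs_nonneg _) b2 2).trans_eq (by ring)
  -- domination by `exp (x²/(8v))`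
  have d0 : ∀ x a : ℝ, a ≤ (x ^ 2 + v) / (32 * v) → exp a ≤ 4 / 3 * exp (x ^ 2 / (16 * v)) := by
    intro x a ha
    have b1 : a ≤ 1 / 32 + x ^ 2 / (16 * v) := by
      refine ha.trans ?_
      have : (x ^ 2 + v) / (32 * v) = 1 / 32 + x ^ 2 / (16 * v) / 2 := by field_simp; ring
      have b2 : 0 ≤ x ^ 2 / (16 * v) := by positivity
      linarith
    refine (exp_le_exp.2 b1).trans ?_
    rw [exp_add]
    refine mul_le_mul_of_nonneg_right ?_ (exp_pos _).le
    have := exp_bound_div_one_sub_of_interval (x := 1 / 32) (by norm_num) (by norm_num)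
    linarith
  have d1 : ∀ x : ℝ, 4 / 3 * exp (x ^ 2 / (16 * v)) ≤ 4 / 3 * exp (x ^ 2 / (8 * v)) := fun x =>
    mul_le_mul_of_nonneg_left (exp_le_exp.2 (div_le_div_of_nonneg_left (sq_nonneg x)
      (by positivity) (by linarith))) (by norm_num)
  have half : ∀ x : ℝ, (x ^ 2 + v) / (64 * v) + (x ^ 2 + v) / (64 * v) = (x ^ 2 + v) / (32 * v) :=
    fun x => by field_simp; ring
  have hpos : ∀ x : ℝ, 0 ≤ (x ^ 2 + v) / (64 * v) := fun x => by positivity
  have iabs : ∀ f : ℝ → ℝ, Measurable f → (∀ x, |f x| ≤ (x ^ 2 + v) / (32 * v)) →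
      Integrable (fun z => f (m' + √v' * z)) (gaussianReal 0 1) ∧
      Integrable (fun z => exp (f (m' + √v' * z))) (gaussianReal 0 1) := fun f hf H =>
    ⟨(D f hf (4 / 3) (by norm_num) fun x => by
        linarith [add_one_le_exp |f x|, d0 x _ (H x), d1 x]).1,
      (D (fun x => exp (f x)) (by fun_prop) (4 / 3) (by norm_num) fun x => by
        rw [abs_of_pos (exp_pos _)]
        linarith [d0 x _ ((le_abs_self _).trans (H x)), d1 x]).1⟩
  have hT : ∀ x, |S m v u x + Y x| ≤ (x ^ 2 + v) / (32 * v) := fun x =>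
    (abs_add_le _ _).trans (by linarith [s1 x, hb x, half x])
  obtain ⟨iS, iS'⟩ := iabs _ hS fun x => by linarith [s1 x, half x, hpos x]
  obtain ⟨iY, -⟩ := iabs _ hY fun x => by linarith [hb x, half x, hpos x]
  obtain ⟨-, iT⟩ := iabs (fun x => S m v u x + Y x) (hS.add hY) hT
  obtain ⟨jS, kS⟩ := P _ (25 * K ^ 2) 4 hS (by positivity) (by norm_num) s2
  obtain ⟨jY, -⟩ := P Y (1 / (64 * v) ^ 2) 2 hY (by positivity) (by norm_num) fun x => by
    rw [← sq_abs]
    exact (pow_le_pow_left₀ (abs_nonneg _) (hb x) 2).trans_eq (by rw [div_pow]; ring)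
  -- the mean of `S`
  have eS : ∫ z, S m v u (m' + √v' * z) ∂gaussianReal 0 1 ≤ 0 := by
    have c1 := h.1 m v u hv (by linarith)
    simp only [gR_eq m hv (show u < 1 by linarith), ex_add] at c1
    rw [chg m' v0 (F := fun x => ex (S m v u x)) (by fun_prop), lintegral_ex iS',
      ENNReal.ofReal_le_one] at c1
    have c2 := integral_mono (iS.add (integrable_const 1)) iS' fun z => add_one_le_exp _
    simp only [Pi.add_apply] at c2
    rw [integral_add iS (integrable_const 1)] at c2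
    simp only [integral_const, probReal_univ, smul_eq_mul, one_mul] at c2
    linarith
  simp only [gR_eq m hv (show u < 1 by linarith), add_assoc _ (S m v u _), ex_add _ (S m v u _ + _)]
  rw [chg m' v0 (F := fun x => ex (S m v u x + Y x)) (by fun_prop), lintegral_ex iT]
  refine ENNReal.ofReal_le_ofReal ?_
  have c3 := integral_mono iT ((((integrable_const 1).add iS).add iY).add
    ((jY.const_mul 2).add (jS.const_mul 4))) fun z => by
      simp only [Pi.add_apply]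
      set x := m' + √v' * z
      have b1 := exp_le (S m v u x + Y x)
      have b2 := d0 x _ (hT x)
      have b3 : (S m v u x + Y x) ^ 2 ≤ 3 / 2 * Y x ^ 2 + 3 * S m v u x ^ 2 := by
        nlinarith [sq_nonneg (Y x - 2 * S m v u x)]
      have b4 := mul_le_mul b3 b2 (exp_pos _).le (by positivity)
      linarith
  simp only [Pi.add_apply] at c3
  rw [integral_add (by exact ((integrable_const 1).add iS).add iY)
    (by exact (jY.const_mul 2).add (jS.const_mul 4)),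
    integral_add (by exact (integrable_const 1).add iS) iY, integral_add (integrable_const 1) iS,
    integral_add (jY.const_mul 2) (jS.const_mul 4), integral_const_mul, integral_const_mul] at c3
  simp only [integral_const, probReal_univ, smul_eq_mul, one_mul] at c3
  refine c3.trans (le_trans ?_ (add_one_le_exp _))
  simp only [gE] at kS ⊢
  have : 0 ≤ K ^ 2 * v ^ 4 := by positivity
  nlinarith

end Crest.Agent.T157.Kb
end
end

-- ▼ part T157/KbMom_31
section

/-!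
# Row 157, part A2, section 2 (helper31): Gaussian means, `Kb.MomStmt`
-/

set_option autoImplicit false

noncomputable section

namespace Crest.Agent.T157.Kb

open MeasureTheory ProbabilityTheory Set Real
open Crest.Agent.T157.Tap (gE)

namespace Mom31

variable {m v : ℝ}

theorem int_z (k : ℕ) : Integrable (fun t : ℝ => t ^ k) (gaussianReal 0 1) := by
  have h : MemLp id (k : ENNReal) (gaussianReal 0 1) :=
    memLp_id_gaussianReal' _ (ENNReal.natCast_ne_top k)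
  refine h.integrable_norm_pow'.mono' (by fun_prop) (ae_of_all _ fun t => ?_)
  simp [norm_pow]

theorem int_zx (m s : ℝ) (k j : ℕ) :
    Integrable (fun z : ℝ => z ^ j * (m + s * z) ^ k) (gaussianReal 0 1) := by
  induction k generalizing j with
  | zero => simpa using int_z j
  | succ k ih =>
    refine (((ih j).const_mul m).add ((ih (j + 1)).const_mul s)).congr (ae_of_all _ fun z => ?_)
    simp only [Pi.add_apply]; ring

theorem int_x (m s : ℝ) (k : ℕ) : Integrable (fun z : ℝ => (m + s * z) ^ k) (gaussianReal 0 1) := by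
  simpa using int_zx m s k 0

/-- the moments of `m + √v Z` -/
def mo (m v : ℝ) (k : ℕ) : ℝ := gE (fun x => x ^ k) m v

theorem mo_zero : mo m v 0 = 1 := by simp [mo, gE]

theorem stein (k : ℕ) : ∫ z, z * (m + √v * z) ^ (k + 1) ∂gaussianReal 0 1 = (k + 1) * √v * mo m v k := by
  rw [SL.stein1 (f' := fun z => (k + 1) * √v * (m + √v * z) ^ k) (fun z =>
    ((((hasDerivAt_id' z).const_mul √v).const_add m).fun_pow (k + 1)).congr_deriv (by simp; ring))
    (int_x _ _ _) ((int_x _ _ _).const_mul _) (by simpa using int_zx m (√v) (k + 1) 1),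
    integral_const_mul]
  rfl

theorem mo_one : mo m v 1 = m := by
  simp only [mo, gE, pow_one]
  rw [integral_add (integrable_const _) ((by simpa using int_z 1 : Integrable (fun z : ℝ => z) _).const_mul _),
    integral_const_mul]
  simp

theorem mo_rec (hv : 0 ≤ v) (k : ℕ) : mo m v (k + 2) = m * mo m v (k + 1) + (k + 1) * v * mo m v k := by
  have e : ∀ z : ℝ, (m + √v * z) ^ (k + 2) =
      m * (m + √v * z) ^ (k + 1) + √v * (z * (m + √v * z) ^ (k + 1)) := fun z => by ring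
  have h : mo m v (k + 2) = m * mo m v (k + 1) + √v * ((k + 1) * √v * mo m v k) := by
    rw [← stein, mo, gE]
    simp only [e]
    rw [integral_add ((int_x _ _ _).const_mul _)
      ((by simpa using int_zx m (√v) (k + 1) 1 : Integrable (fun z : ℝ => z * _) _).const_mul _),
      integral_const_mul, integral_const_mul]
    rfl
  rw [h]
  linear_combination (k + 1) * mo m v k * mul_self_sqrt hv

theorem mo_all (hv : 0 ≤ v) : mo m v 2 = m ^ 2 + v ∧ mo m v 3 = m ^ 3 + 3 * m * v ∧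
    mo m v 4 = m ^ 4 + 6 * m ^ 2 * v + 3 * v ^ 2 ∧ mo m v 5 = m ^ 5 + 10 * m ^ 3 * v + 15 * m * v ^ 2 ∧
    mo m v 6 = m ^ 6 + 15 * m ^ 4 * v + 45 * m ^ 2 * v ^ 2 + 15 * v ^ 3 ∧
    mo m v 8 = m ^ 8 + 28 * m ^ 6 * v + 210 * m ^ 4 * v ^ 2 + 420 * m ^ 2 * v ^ 3 + 105 * v ^ 4 := by
  have h2 : mo m v 2 = m ^ 2 + v := by rw [mo_rec hv 0, mo_one, mo_zero]; push_cast; ring
  have h3 : mo m v 3 = m ^ 3 + 3 * m * v := by rw [mo_rec hv 1, h2, mo_one]; push_cast; ring
  have h4 : mo m v 4 = m ^ 4 + 6 * m ^ 2 * v + 3 * v ^ 2 := by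
    rw [mo_rec hv 2, h3, h2]; push_cast; ring
  have h5 : mo m v 5 = m ^ 5 + 10 * m ^ 3 * v + 15 * m * v ^ 2 := by
    rw [mo_rec hv 3, h4, h3]; push_cast; ring
  have h6 : mo m v 6 = m ^ 6 + 15 * m ^ 4 * v + 45 * m ^ 2 * v ^ 2 + 15 * v ^ 3 := by
    rw [mo_rec hv 4, h5, h4]; push_cast; ring
  refine ⟨h2, h3, h4, h5, h6, ?_⟩
  rw [mo_rec hv 6, mo_rec hv 5, h6, h5]; push_cast; ring

/-- polynomials -/
theorem gE_poly (a b c : ℝ) (i j k : ℕ) : Integrable (fun z : ℝ =>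
      a * (m + √v * z) ^ i + b * (m + √v * z) ^ j + c * (m + √v * z) ^ k) (gaussianReal 0 1) ∧
    gE (fun x => a * x ^ i + b * x ^ j + c * x ^ k) m v = a * mo m v i + b * mo m v j + c * mo m v k := by
  have i1 := (int_x m (√v) i).const_mul a
  have i2 := (int_x m (√v) j).const_mul b
  have i3 := (int_x m (√v) k).const_mul c
  have i12 : Integrable (fun z : ℝ => a * (m + √v * z) ^ i + b * (m + √v * z) ^ j) (gaussianReal 0 1) :=
    i1.add i2
  refine ⟨i12.add i3, ?_⟩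
  rw [gE, integral_add i12 i3, integral_add i1 i2, integral_const_mul, integral_const_mul,
    integral_const_mul]
  rfl

/-- approximation by a polynomial -/
theorem gE_approx {f : ℝ → ℝ} (hf : Measurable f) (a b : ℝ) (i j : ℕ) (c d : ℝ)
    (h : ∀ x, |f x - (a * x ^ i + b * x ^ j)| ≤ c * x ^ 6 + d * x ^ 8) :
    |gE f m v - (a * mo m v i + b * mo m v j)| ≤ c * mo m v 6 + d * mo m v 8 := by
  obtain ⟨i1, e1⟩ := gE_poly (m := m) (v := v) a b 0 i j 0
  obtain ⟨i2, e2⟩ := gE_poly (m := m) (v := v) c d 0 6 8 0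
  simp only [zero_mul, add_zero] at i1 e1 i2 e2
  have i3 : Integrable (fun z : ℝ => f (m + √v * z) - (a * (m + √v * z) ^ i + b * (m + √v * z) ^ j))
      (gaussianReal 0 1) :=
    i2.mono' (Measurable.aestronglyMeasurable (by fun_prop)) (ae_of_all _ fun z => h _)
  have i4 : Integrable (fun z : ℝ => f (m + √v * z)) (gaussianReal 0 1) :=
    (i3.add i1).congr (ae_of_all _ fun z => by simp)
  rw [← e1, ← e2, gE, gE, gE, ← integral_sub i4 i1]
  exact norm_integral_le_of_norm_le (f := fun z : ℝ =>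
    f (m + √v * z) - (a * (m + √v * z) ^ i + b * (m + √v * z) ^ j)) i2 (ae_of_all _ fun z => h _)

theorem tail (hv : 0 < v) (hm : m ^ 2 ≤ v) (l : ℝ) :
    gE (fun x => if l * v ≤ 16 * x ^ 2 then exp (x ^ 2 / (4 * v)) else 0) m v ≤
      exp 3 * (√(1 - 7 / 8))⁻¹ * exp (-l / 128) := by
  obtain ⟨i1, e1⟩ := Pl.integral_exp_sq (a := 7 / 8) (by norm_num)
  rw [← e1, mul_right_comm, ← integral_const_mul]
  refine integral_mono_of_nonneg (ae_of_all _ fun z => ?_) (i1.const_mul _) (ae_of_all _ fun z => ?_)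
  · dsimp only; split_ifs <;> positivity
  · dsimp only
    split_ifs with h
    · rw [← exp_add, ← exp_add, exp_le_exp, div_le_iff₀ (by positivity)]
      have e : (√v * z) ^ 2 = v * z ^ 2 := by rw [mul_pow, sq_sqrt hv.le]
      nlinarith [sq_nonneg (6 * m - √v * z)]
    · positivity

end Mom31

open Mom31 Tay

/-- **task 797** -/
theorem momStmt : MomStmt := by
  refine ⟨max 3000 (exp 3 * (√(1 - 7 / 8))⁻¹), le_max_of_le_left (by norm_num), ?_⟩
  intro K hK m v hv hKv hm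
  set C := max 3000 (exp 3 * (√(1 - 7 / 8))⁻¹) with hC
  have C0 : 3000 ≤ C := le_max_left _ _
  obtain ⟨h2, h3, h4, h5, h6, h8⟩ := mo_all (m := m) hv.le
  have K2 : 1 ≤ K ^ 2 := one_le_pow₀ hK
  have v1 : v ≤ 1 := (le_mul_of_one_le_left hv.le K2).trans hKv
  have m2 : m ^ 2 ≤ K ^ 2 * v ^ 2 := by
    rw [← sq_abs, ← mul_pow]; exact pow_le_pow_left₀ (abs_nonneg _) hm 2
  have mv : m ^ 2 ≤ v := m2.trans (by linarith [mul_le_mul_of_nonneg_right hKv hv.le])
  have m0 := sq_nonneg m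
  have v2 : 0 < v ^ 2 := by positivity
  have v3 : 0 < v ^ 3 := by positivity
  have v4 : 0 < v ^ 4 := by positivity
  have p4' : 0 ≤ m ^ 4 := by positivity
  have p6' : 0 ≤ m ^ 6 := by positivity
  have p2v : 0 ≤ m ^ 2 * v := by positivity
  have p4v : 0 ≤ m ^ 4 * v := by positivity
  have p2vv : 0 ≤ m ^ 2 * v ^ 2 := by positivity
  have m4 : m ^ 4 ≤ m ^ 2 * v := by linarith [mul_le_mul_of_nonneg_left mv m0]
  have m4' : m ^ 4 ≤ K ^ 4 * v ^ 4 := by linarith [pow_le_pow_left₀ m0 m2 2]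
  have d2 : m ^ 4 ≤ v ^ 2 := by linarith [pow_le_pow_left₀ m0 mv 2]
  have d3 : m ^ 6 ≤ v ^ 3 := by linarith [pow_le_pow_left₀ m0 mv 3]
  have m6 : m ^ 6 ≤ m ^ 2 * v ^ 2 := by linarith [mul_le_mul_of_nonneg_left d2 m0]
  have v43 : v ^ 4 ≤ v ^ 3 := pow_le_pow_of_le_one hv.le v1 (by norm_num)
  have a1 : m ^ 2 * v ≤ K ^ 2 * v ^ 3 := by linarith [mul_le_mul_of_nonneg_right m2 hv.le]
  have a2 : m ^ 2 * v ^ 2 ≤ K ^ 2 * v ^ 4 := by linarith [mul_le_mul_of_nonneg_right m2 v2.le]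
  have a3 : m ^ 2 * v ^ 2 ≤ v ^ 3 := by linarith [mul_le_mul_of_nonneg_right mv v2.le]
  have a4 : m ^ 4 * v ≤ m ^ 2 * v ^ 2 := by linarith [mul_le_mul_of_nonneg_right m4 hv.le]
  have a5 : m ^ 2 * v ≤ v ^ 2 := by linarith [mul_le_mul_of_nonneg_right mv hv.le]
  have M6 : mo m v 6 ≤ 76 * v ^ 3 := by rw [h6]; linarith
  have M8 : mo m v 8 ≤ 764 * v ^ 4 := by
    rw [h8]
    linarith [pow_le_pow_left₀ m0 mv 4, mul_le_mul_of_nonneg_right d3 hv.le,
      mul_le_mul_of_nonneg_right d2 v2.le, mul_le_mul_of_nonneg_right mv v3.le]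
  have K0 : 0 < K := by linarith
  have K3 : K ≤ K ^ 3 := by linarith [mul_le_mul_of_nonneg_left K2 K0.le]
  have K24 : K ^ 2 ≤ K ^ 4 := pow_le_pow_right₀ hK (by norm_num)
  have c3 : |m ^ 3| ≤ K ^ 3 * v ^ 3 := by
    rw [abs_pow, ← mul_pow]; exact pow_le_pow_left₀ (abs_nonneg _) hm 3
  have c5 : |mo m v 5| ≤ 26 * (K ^ 3 * v ^ 3) := by
    have e : mo m v 5 = m * (m ^ 4 + 10 * (m ^ 2 * v) + 15 * v ^ 2) := by rw [h5]; ring
    have b : m ^ 4 + 10 * (m ^ 2 * v) + 15 * v ^ 2 ≤ 26 * v ^ 2 := by linarith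
    rw [e, abs_mul, abs_of_nonneg (a := _ + 15 * v ^ 2) (by positivity)]
    refine (mul_le_mul hm b (by positivity) (by positivity)).trans ?_
    linarith [mul_le_mul_of_nonneg_right K3 v3.le]
  have mt : Measurable tanh := (continuous_iff_continuousAt.2 fun x => (hasDerivAt_tanh x).continuousAt).measurable
  have q2 := abs_le.1 (gE_approx (m := m) (v := v) (f := fun x => tanh x ^ 2) (by fun_prop) 1 (-2 / 3) 2 4 1 0
    fun x => (le_of_eq (by congr 1; ring)).trans ((p2 x).trans_eq (by ring)))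
  have q3 := abs_le.1 (gE_approx (m := m) (v := v) (f := fun x => tanh x ^ 3) (by fun_prop) 1 (-1) 3 5
    (1 / 2) (1 / 2) fun x => (le_of_eq (by congr 1; ring)).trans ((p3 x).trans
      ((abs7 x).trans_eq (by ring))))
  have q4 := abs_le.1 (gE_approx (m := m) (v := v) (f := fun x => tanh x ^ 4) (by fun_prop) 1 (-4 / 3) 4 6 0 3
    fun x => (le_of_eq (by congr 1; ring)).trans ((p4 x).trans_eq (by ring)))
  have q6 := abs_le.1 (gE_approx (m := m) (v := v) (f := fun x => tanh x ^ 6) (by fun_prop) 1 0 6 0 0 2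
    fun x => (le_of_eq (by congr 1; ring)).trans ((p6 x).trans_eq (by ring)))
  have q7 := abs_le.1 (gE_approx (m := m) (v := v) (f := fun x => x - tanh x) (by fun_prop) (1 / 3) (-2 / 15)
    3 5 (1 / 14) (1 / 14) fun x => (le_of_eq (by congr 1; ring)).trans ((t7 x).trans
      (by linarith [abs7 x])))
  have q8 := abs_le.1 (gE_approx (m := m) (v := v) (f := fun x => tanh x * (x - tanh x)) (by fun_prop) (1 / 3) 0
    4 0 1 0 fun x => (le_of_eq (by congr 1; ring)).trans ((pr x).trans_eq (by ring)))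
  have kv3 : v ^ 3 ≤ K ^ 3 * v ^ 3 := le_mul_of_one_le_left v3.le (one_le_pow₀ hK)
  have kv2 : v ^ 3 ≤ K ^ 2 * v ^ 3 := le_mul_of_one_le_left v3.le K2
  have kv4 : v ^ 4 ≤ K ^ 2 * v ^ 4 := le_mul_of_one_le_left v4.le K2
  have kv4' : K ^ 2 * v ^ 4 ≤ K ^ 4 * v ^ 4 := mul_le_mul_of_nonneg_right K24 v4.le
  have fin : ∀ {x y : ℝ}, 0 ≤ y → |x| ≤ 3000 * y → |x| ≤ C * y := fun hy h =>
    h.trans (mul_le_mul_of_nonneg_right C0 hy)
  have c3' := abs_le.1 c3
  have c5' := abs_le.1 c5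
  rw [h3] at q3 q7
  rw [h2] at q2
  rw [h4] at q2 q4 q8
  have r7 : |gE (fun x => x - tanh x) m v - m * v| ≤ 100 * (K ^ 3 * v ^ 3) := by
    rw [abs_le]; constructor <;> linarith
  refine ⟨?_, ?_, ?_, ?_, ?_, ?_, ?_, ?_, fun l => (tail hv mv l).trans ?_⟩
  · have e : gE (fun x => x - tanh x) m v = m - gE tanh m v := by
      have i1 : Integrable (fun z : ℝ => tanh (m + √v * z)) (gaussianReal 0 1) :=
        (integrable_const (1 : ℝ)).mono' (Measurable.aestronglyMeasurable (by fun_prop))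
          (ae_of_all _ fun z => (abs_tanh_lt_one _).le)
      have := mo_one (m := m) (v := v)
      simp only [mo, gE, pow_one] at this
      rw [gE, gE, integral_sub (by simpa using int_x m (√v) 1) i1, this]
    have b1 : K ^ 3 * v ^ 3 ≤ K * v ^ 2 := by
      linarith [mul_le_mul_of_nonneg_left hKv (show 0 ≤ K * v ^ 2 by positivity)]
    have b2 : |m * v| ≤ K * v ^ 2 := by
      rw [abs_mul, abs_of_pos hv]; linarith [mul_le_mul_of_nonneg_right hm hv.le]
    have b3 := abs_le.1 b2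
    have b4 := abs_le.1 r7
    rw [e] at b4
    rw [mul_assoc C]
    refine fin (by positivity) (abs_le.2 ⟨?_, ?_⟩) <;> linarith
  · rw [mul_assoc C]
    refine fin (by positivity) (abs_le.2 ⟨?_, ?_⟩) <;> linarith
  · rw [mul_assoc C]
    refine fin (by positivity) (abs_le.2 ⟨?_, ?_⟩) <;> linarith
  · rw [mul_assoc C]
    refine fin (by positivity) (abs_le.2 ⟨?_, ?_⟩) <;> linarith
  · rw [mul_assoc C]
    refine fin (by positivity) (abs_le.2 ⟨?_, ?_⟩) <;> linarith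
  · refine le_trans (integral_mono_of_nonneg (ae_of_all _ fun z => ?_) (int_x m (√v) 8)
      (ae_of_all _ fun z => min_le_left _ _)) (M8.trans ?_)
    · exact le_min (by positivity) (by positivity)
    · exact mul_le_mul_of_nonneg_right (by linarith) v4.le
  · rw [mul_assoc C]
    exact fin (by positivity) (r7.trans (by linarith))
  · rw [mul_assoc C]
    refine fin (by positivity) (abs_le.2 ⟨?_, ?_⟩) <;> linarith
  · exact mul_le_mul_of_nonneg_right (le_max_right _ _) (exp_pos _).le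

end Crest.Agent.T157.Kb

end
end

-- ▼ part T157/KbNet_34
section

/-!
# Row 157, part A2, section 2 (helper34): `Kb.netGlue`
-/

set_option autoImplicit false

noncomputable section

namespace Crest.Agent.T157.Kb

open MeasureTheory Matrix Set
open scoped ENNReal
open Crest.Agent.T157.E Crest.Agent.T157.Cond Crest.Agent.T157.Tap
open Crest.Agent.T157.Conc (ex)

namespace Net34

variable {n : ℕ} {t : ℝ} {x : V n}

lemma hh_neg {u : ℝ} (h0 : u ≤ 0) (h2 : -2 ≤ u) : |u| ^ 3 / 9 ≤ hh u := by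
  have h := Real.le_log_one_add_of_nonneg (neg_nonneg.2 h0)
  rw [abs_of_nonpos h0, hh, sub_eq_add_neg]
  refine le_trans ?_ (add_le_add_left (add_le_add_left h _) _)
  have p : 0 < -u + 2 := by linarith
  have e : 2 * -u / (-u + 2) + u + u ^ 2 / 2 = (-u) ^ 3 / (2 * (-u + 2)) := by field_simp; ring
  rw [e]
  exact div_le_div_of_nonneg_left (pow_nonneg (neg_nonneg.2 h0) 3) (by positivity) (by linarith)

lemma hh_pos {u : ℝ} (h0 : 0 ≤ u) (h1 : u ≤ 1 / 10) : -(2 / 5 * u ^ 3) ≤ hh u := by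
  have h := neg_le_of_abs_le (Real.abs_log_sub_add_sum_range_le (x := u)
    (by rw [abs_of_nonneg h0]; linarith) 4)
  rw [abs_of_nonneg h0] at h
  simp only [Finset.sum_range_succ, Finset.sum_range_zero] at h
  norm_num at h
  have h3 : 0 ≤ u ^ 3 := by positivity
  have h4 : u ^ 4 ≤ u ^ 3 / 10 := by rw [pow_succ]; nlinarith
  have h5 : u ^ 5 / (1 - u) ≤ u ^ 3 / 50 := by
    rw [div_le_iff₀ (by linarith), show u ^ 5 = u ^ 3 * u ^ 2 by ring]
    nlinarith [mul_le_mul_of_nonneg_left (show u ^ 2 ≤ (1 - u) / 50 by nlinarith) h3]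
  rw [hh]
  linarith

/-- the exponent of the Ramer tilt when `R4` is not large -/
lemma core (t0 : 0 < t) (t1 : t ≤ 1)
    (h : ww t x = R4 x + ga t x * aS x - t - mu t x * bS x) (hu : -2 ≤ uR t x)
    (hq : aS x ≤ 1 / 11) (h4 : R4 x ≤ 11 / 10 * aS x ^ 2) :
    uR t x ≤ 1 / 2 ∧
      aS x * uR t x ^ 2 / 20 ≤ aS x * uR t x ^ 2 / 2 + (1 - aS x) * hh (uR t x) := by
  have q0 := aS_nonneg x
  have h1 : uR t x ≤ 21 / 20 * aS x := by
    rw [uR, div_le_iff₀ (by have := ga_pos t0 x; positivity), h, ga, mu]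
    nlinarith [sq_nonneg (bS x + t / 2), mul_nonneg q0 t0.le]
  refine ⟨by linarith, ?_⟩
  have h2 := mul_nonneg q0 (sq_nonneg (uR t x))
  rcases le_total (uR t x) 0 with h0 | h0
  · have := (show 0 ≤ |uR t x| ^ 3 / 9 by positivity).trans (hh_neg h0 hu)
    linarith [mul_nonneg (show 0 ≤ 1 - aS x by linarith) this]
  · have h3 := mul_le_mul_of_nonneg_left (hh_pos h0 (by linarith)) (show 0 ≤ 1 - aS x by linarith)
    have h5 : uR t x ^ 3 ≤ 21 / 20 * aS x * uR t x ^ 2 := by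
      rw [pow_succ']; exact mul_le_mul_of_nonneg_right h1 (sq_nonneg _)
    linarith [mul_nonneg q0 (pow_nonneg h0 3)]

lemma co_size {K e : ℝ} (hK : 1 ≤ K) (t0 : 0 < t) (hc : Real.sqrt t ≤ 1 / (12 * K ^ 2))
    (he : e ≤ 1 / 10) (h : Co K e t x) : t ≤ 1 ∧ aS x ≤ 1 / 11 ∧ R4 x ≤ 11 / 10 * aS x ^ 2 ∧
      |mu t x + dR t x| ≤ 3 * K * ga t x ∧ 3 * K * ga t x ≤ 1 / 2 := by
  have q0 := aS_nonneg x
  set c := 1 / (12 * K ^ 2) with hcd
  have c0 : 0 < c := by positivity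
  have c1 : K * (K * c) = 1 / 12 := by rw [hcd]; field_simp
  have c2 : K * c ≤ 1 / 12 := c1 ▸ le_mul_of_one_le_left (by positivity) hK
  have c3 : c ≤ K * c := le_mul_of_one_le_left c0.le hK
  have t2 : t ≤ c ^ 2 := (Real.sqrt_le_left c0.le).1 hc
  have t3 : t ≤ K * c := by nlinarith
  have q1 : aS x ≤ K * c := by
    refine le_of_abs_le (abs_le_of_sq_le_sq ?_ (by positivity))
    calc _ ≤ K * c ^ 2 := h.q2.trans (by gcongr)
      _ ≤ _ := by rw [mul_pow]; gcongr; exact le_self_pow₀ hK two_ne_zero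
  refine ⟨by linarith, by linarith, ?_, ?_, ?_⟩
  · linarith [le_of_abs_le h.r4, mul_le_mul_of_nonneg_right he (sq_nonneg (aS x))]
  · have h1 : aS x ^ 2 ≤ aS x := by nlinarith
    have h2 := mul_le_mul_of_nonneg_left h1 (zero_le_one.trans hK)
    have h3 : t ≤ K * t := le_mul_of_one_le_left t0.le hK
    have h4 := abs_add_le (bS x) t
    rw [abs_of_pos t0] at h4
    rw [mu, ga]
    linarith [abs_add_le (bS x + t) (dR t x), h.a1, h.d1,
      mul_nonneg (zero_le_one.trans hK) q0]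
  · rw [ga]
    linarith [mul_le_mul_of_nonneg_left (add_le_add q1 t3) (zero_le_one.trans hK)]

lemma rho_le (hI : IdStmt) (hn : 0 < n) (t0 : 0 < t) (t1 : t ≤ 1) (hq : aS x ≤ 1 / 11)
    (h4 : R4 x ≤ 11 / 10 * aS x ^ 2) : uR t x ∈ Icc (-2 : ℝ) (1 / 2) ∧
    rho t x ≤ Real.exp (∑ i, gR (mu t x + dR t x) (ga t x) (uR t x) (x i) -
      n * (aS x * uR t x ^ 2 / 20 + dR t x ^ 2 / (2 * ga t x))) := by
  obtain ⟨i1, -, i3⟩ := hI n t x hn t0
  have hu := uR_ge hn t0 x i1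
  obtain ⟨h1, h2⟩ := core t0 t1 i1 hu hq h4
  refine ⟨⟨hu, h1⟩, (i3 (by linarith) (dR t x)).trans_le (Real.exp_le_exp.2 (sub_le_sub_left
    (mul_le_mul_of_nonneg_left (add_le_add h2 (le_of_eq (by ring))) (Nat.cast_nonneg n)) _))⟩

/-- the tilt lemma without a test function -/
lemma tilt0 (hC : ChStmt) (hT : TiltStmt) : ∃ C : ℕ, ∀ (n : ℕ) (t R : ℝ) (E : Set (V n)), 2 ≤ n →
    t ∈ Icc (1 / (n : ℝ)) 1 → MeasurableSet E →
    (∀ x ∈ E, ∃ m : ℝ, |m| ≤ 4 ∧ uR t x ∈ Icc (-2 : ℝ) (1 / 2) ∧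
      rho t x ≤ Real.exp (∑ i, gR m (ga t x) (uR t x) (x i) - R)) →
    Px t E ≤ ex (C * Real.log n - R) := by
  obtain ⟨C, hT⟩ := hT
  refine ⟨C, fun n t R E hn ht hE h => hT n t R E (fun _ _ _ _ => 0) hn hE
    (fun _ _ _ => measurable_const) fun x hx => ?_⟩
  obtain ⟨m, h1, h2, h3⟩ := h x hx
  have t0 : 0 < t := lt_of_lt_of_le (by positivity) ht.1
  have := aS_nonneg x
  have := aS_lt_one (by omega : 0 < n) x
  refine ⟨m, ga t x, uR t x, -R, h1, ⟨by rw [ga]; linarith [ht.1], by rw [ga]; linarith [ht.2]⟩, h2,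
    h3, fun m0 v0 u0 hc => ⟨0, ?_, by simp⟩⟩
  simp only [add_zero, Conc.ex_zero]
  exact hC.1 m0 v0 u0 ((ga_pos t0 x).trans_le hc.2.1) (by linarith [hc.2.2.2.2.1, h2.2])

lemma evB (hI : IdStmt) (hC : ChStmt) (hT : TiltStmt) : EvB := by
  obtain ⟨C, hT⟩ := tilt0 hC hT
  refine ⟨C, fun n t R hn ht => ?_⟩
  have n0 : 0 < n := by omega
  have t0 : 0 < t := lt_of_lt_of_le (by positivity) ht.1
  refine ⟨hT n t R _ hn ht ?_ fun x hx => ?_, hT n t R _ hn ht ?_ fun x hx => ?_⟩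
  · simp only [ofPred_and]
    refine MeasurableSet.inter ?_ (MeasurableSet.inter ?_ ?_) <;>
      exact measurableSet_le (by fun_prop) (by fun_prop)
  · obtain ⟨h1, h2, h3⟩ := hx
    obtain ⟨i1, -, i3⟩ := hI n t x n0 t0
    have hu := uR_ge n0 t0 x i1
    have u0 : uR t x ≤ 0 := div_nonpos_of_nonpos_of_nonneg h2
      (add_nonneg (ga_pos t0 x).le (aS_nonneg x))
    refine ⟨mu t x, ?_, ⟨hu, by linarith⟩, ?_⟩
    · have := abs_add_le (bS x) t
      rw [abs_of_pos t0] at this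
      rw [mu]
      linarith [abs_bS_le n0 x, ht.2]
    · rw [i3 (by linarith) 0, add_zero, zero_mul, zero_div, add_zero]
      refine Real.exp_le_exp.2 (sub_le_sub_left (h3.trans (mul_le_mul_of_nonneg_left
        (add_le_add le_rfl ?_) (Nat.cast_nonneg n))) _)
      have := mul_le_mul (show 1 / 2 ≤ 1 - aS x by linarith) (hh_neg u0 hu) (by positivity)
        (by linarith)
      linarith
  · simp only [ofPred_and]
    refine MeasurableSet.inter ?_ (MeasurableSet.inter ?_ (MeasurableSet.inter ?_ ?_)) <;>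
      exact measurableSet_le (by fun_prop) (by fun_prop)
  · obtain ⟨h1, h2, h3, h4⟩ := hx
    obtain ⟨r1, r2⟩ := rho_le hI n0 t0 ht.2 h1 h2
    exact ⟨_, h3, r1, r2.trans (Real.exp_le_exp.2 (sub_le_sub_left h4 _))⟩

lemma net (hI : IdStmt) : NetStmt := fun K hK => ⟨1 / (12 * K ^ 2), by positivity,
  fun n t e x hn t0 hc he h => by
    obtain ⟨a1, a2, a3, a4, a5⟩ := co_size hK t0 hc he h
    exact ⟨a4, a5, (rho_le hI hn t0 a1 a2 a3).2⟩⟩

lemma all (hE : EvB) (hB : B1Stmt) : AllStmt := by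
  obtain ⟨C, hE⟩ := hE
  obtain ⟨K, hK, c, c0, C', hB⟩ := hB 1 one_pos
  set s := min (c * (1 / 10) ^ 2) (1 / (12 * K ^ 2)) with hs
  have s0 : 0 < s := by positivity
  refine ⟨min (s ^ 2) 1, by positivity, C + C' + 2, fun n t hn ht => ?_⟩
  have n0 : 0 < n := by omega
  have t0 : 0 < t := lt_of_lt_of_le (by positivity) ht.1
  have t1 : Real.sqrt t ≤ s := (Real.sqrt_le_left s0.le).2 (ht.2.trans (min_le_left _ _))
  have l0 : 0 ≤ Real.log n := Real.log_natCast_nonneg n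
  have h1 := hB n t (1 / 10) (by omega) ht.1 ⟨by norm_num, by norm_num⟩ (t1.trans (min_le_left _ _))
  have h2 := (hE n t 0 (by omega) ⟨ht.1, ht.2.trans (min_le_right _ _)⟩).2
  refine (Px_cover t fun x _ => ?_).trans ((add_le_add h1 h2).trans ?_)
  · by_cases h : Co K (1 / 10) t x
    · obtain ⟨-, a2, a3, a4, a5⟩ := co_size hK t0 (t1.trans (min_le_right _ _)) le_rfl h
      have := aS_nonneg x
      have := ga_pos t0 x
      exact .inr ⟨a2, a3, by linarith, by positivity⟩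
    · exact .inl h
  · have h3 := ex_sum (k := 2) (show 2 ≤ n by omega) n0 (C + C') 0
    have p1 : 0 ≤ (C : ℝ) * Real.log n := by positivity
    have p2 : 0 ≤ (C' : ℝ) * Real.log n := by positivity
    have p3 : 0 ≤ 1 * n * (t * Real.sqrt t) := by positivity
    rw [Nat.cast_ofNat, two_mul] at h3
    refine (add_le_add (Conc.ex_mono ?_) (Conc.ex_mono ?_)).trans (h3.trans (Conc.ex_mono ?_))
    · linarith
    · linarith
    · push_cast; linarith

end Net34

theorem netGlue : NetGlue := fun hI hC hT =>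
  ⟨Net34.net hI, Net34.evB hI hC hT, Net34.all (Net34.evB hI hC hT)⟩

end Crest.Agent.T157.Kb

end
end

-- ▼ part T157/QeUpA_91
section

/-!
# Row 157, part A2 (helper91): scalar estimates for `Qe.UpGlue`
-/

set_option autoImplicit false

noncomputable section

namespace Crest.Agent.T157.Qe.Up91

open Finset Set

/-- the exponent of the spherical integral, with the crude value off `[1/64, 10]` -/
def Jt (g0 u : ℝ) : ℝ := if u ∈ Icc (1 / 64 : ℝ) 10 then Jb g0 u else zz g0 * u / 2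

lemma log_cubic {u : ℝ} (h0 : 0 < u) (h1 : u ≤ 1) :
    Real.log u ≤ -(1 - u) - (1 - u) ^ 2 / 2 - (1 - u) ^ 3 / 3 := by
  have hd : ∀ x : ℝ, x < 1 → HasDerivAt (fun x => -x - x ^ 2 / 2 - x ^ 3 / 3 - Real.log (1 - x))
      (x ^ 3 / (1 - x)) x := fun x hx => by
    have h := ((((hasDerivAt_id' x).neg.sub ((hasDerivAt_pow 2 x).div_const 2)).sub
      ((hasDerivAt_pow 3 x).div_const 3))).sub
      (((hasDerivAt_id' x).const_sub 1).log (by linarith))
    refine h.congr_deriv ?_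
    have : 1 - x ≠ 0 := by linarith
    field_simp
    norm_num
    ring
  have hm : MonotoneOn (fun x => -x - x ^ 2 / 2 - x ^ 3 / 3 - Real.log (1 - x)) (Ico 0 1) := by
    refine monotoneOn_of_deriv_nonneg (convex_Ico 0 1)
      (fun x hx => (hd x hx.2).continuousAt.continuousWithinAt)
      (fun x hx => (hd x (interior_subset hx).2).differentiableAt.differentiableWithinAt)
      fun x hx => ?_
    have hx0 := interior_subset hx
    rw [(hd x hx0.2).deriv]
    exact div_nonneg (pow_nonneg hx0.1 3) (by linarith [hx0.2])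
  have := hm (a := 0) (b := 1 - u) ⟨le_rfl, one_pos⟩ ⟨by linarith, by linarith⟩ (by linarith)
  simp only [sub_sub_cancel] at this
  norm_num at this
  linarith

/-- `Br u + 1/4` -/
def Bq (g0 u : ℝ) : ℝ := Jb g0 u - u + 3 / 4 + Real.log u / 2

lemma Bq_lo {g0 u : ℝ} (h0 : 0 < u) (h1 : u ≤ g0) (hg : g0 ≤ 1) : Bq g0 u ≤ -(1 - u) ^ 3 / 6 := by
  have h := log_cubic h0 (h1.trans hg)
  have e : Bq g0 u = u ^ 2 / 4 - u + 3 / 4 + Real.log u / 2 := by
    simp only [Bq, Jb, min_eq_left h1, zz, ell]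
    field_simp
    ring
  rw [e]; nlinarith

lemma Bq_hi {g0 u : ℝ} (h0 : 0 < g0) (h1 : g0 ≤ u) : Bq g0 u ≤ (zz g0 - 2) * u / 2 := by
  have h := Real.log_le_sub_one_of_pos h0
  simp only [Bq, Jb, min_eq_right h1, ell]
  nlinarith [sq_nonneg (g0 - 1)]

variable {n : ℕ} {ε q : ℝ}

lemma _root_.Crest.Agent.T157.Qe.Par.q_le (h : Par n ε q) : q ≤ ε / 10 ^ 10 := by
  have h1 := h.q1
  have h2 := h.e0
  have h3 := h.e1
  have : ε ^ 3 ≤ ε / 10 ^ 4 := by nlinarith [mul_pos h2 h2, mul_le_mul h3 h3 h2.le (by norm_num)]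
  linarith

lemma _root_.Crest.Agent.T157.Qe.Par.gg_mem (h : Par n ε q) : gg ε q ∈ Icc (1 / 2 : ℝ) 1 := by
  have h1 := h.q_le
  have h2 := h.e0
  have h3 := h.e1
  have h4 := h.q0
  have h5 : ε ^ 2 ≤ 1 := by nlinarith
  have h6 : ε ^ 2 * q ≤ q := by nlinarith
  have h7 : 0 ≤ ε ^ 2 * q := by positivity
  simp only [gg]
  constructor <;> linarith

lemma _root_.Crest.Agent.T157.Qe.Par.eta (h : Par n ε q) :
    0 ≤ zz (gg ε q) - 2 ∧ zz (gg ε q) - 2 ≤ ε ^ 2 * q ^ 2 / 5000 := by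
  obtain ⟨h1, h2⟩ := h.gg_mem
  have h3 := h.e0
  have h4 := h.e1
  have h5 := h.q0
  have g0 : 0 < gg ε q := by linarith
  have e : zz (gg ε q) - 2 = (ε ^ 2 * q) ^ 2 / gg ε q := by
    have : ε ^ 2 * q = 1 - gg ε q := by simp [gg]
    rw [this, zz]; field_simp; ring
  rw [e]
  refine ⟨by positivity, ?_⟩
  rw [div_le_iff₀ g0]
  have h6 : ε ^ 2 ≤ 1 / 10000 := by nlinarith
  have h7 : 0 ≤ ε ^ 2 * q ^ 2 := by positivity
  nlinarith [mul_le_mul_of_nonneg_left h6 h7, mul_le_mul_of_nonneg_left h1 h7]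

/-- the cells -/
def aa (ε q : ℝ) (j : ℕ) : ℝ := uu ε - j * (ε * q / 2048)

lemma cell (h : Par n ε q) {u : ℝ} (h0 : 1 / 64 ≤ u) (h1 : u ≤ uu ε) :
    ∃ j : ℕ, j ≤ 4096 * n ∧ u ≤ aa ε q j ∧ aa ε q j ≤ u + ε * q / 2048 := by
  have hρ : 0 < ε * q / 2048 := by have := h.e0; have := h.q0; positivity
  have hy : 0 ≤ (uu ε - u) / (ε * q / 2048) := div_nonneg (by linarith) hρ.le
  have f1 := Nat.floor_le hy
  have f2 := Nat.lt_floor_add_one ((uu ε - u) / (ε * q / 2048))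
  rw [le_div_iff₀ hρ] at f1
  rw [div_lt_iff₀ hρ] at f2
  refine ⟨⌊(uu ε - u) / (ε * q / 2048)⌋₊, ?_, by simp only [aa]; linarith,
    by simp only [aa]; linarith⟩
  refine Nat.floor_le_of_le ?_
  rw [div_le_iff₀ hρ]
  have := h.nq
  have := h.e1
  push_cast
  simp only [uu]
  nlinarith

/-- the gain of one cell -/
def Ps (ε q u v a : ℝ) : ℝ := -(u + v - uu ε) ^ 2 / 4 - ε * q ^ 2 / 4 * v + u / (2 * a) - u +
  Jt (gg ε q) u + Real.log a / 2 + 1 / 4

lemma mesh {u a ρ : ℝ} (h0 : 1 / 64 ≤ u) (h1 : u ≤ a) (h2 : a ≤ u + ρ) :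
    u / a - 1 - Real.log u + Real.log a ≤ (64 * ρ) ^ 2 := by
  have u0 : 0 < u := by linarith
  have a0 : 0 < a := by linarith
  have h := Real.log_le_sub_one_of_pos (div_pos a0 u0)
  rw [Real.log_div a0.ne' u0.ne'] at h
  have e : u / a - 1 + (a / u - 1) = (a - u) ^ 2 / (a * u) := by field_simp; ring
  have h3 : (a - u) ^ 2 / (a * u) ≤ (64 * ρ) ^ 2 := by
    rw [div_le_iff₀ (mul_pos a0 u0)]
    have h4 : (a - u) ^ 2 ≤ ρ ^ 2 := by nlinarith
    have h5 : 1 ≤ 64 ^ 2 * (a * u) := by nlinarith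
    nlinarith [mul_le_mul_of_nonneg_left h5 (sq_nonneg ρ)]
  linarith

lemma ovr {u a : ℝ} (h0 : 1 ≤ a) (h1 : a ≤ u) :
    u / a - 1 - Real.log u + Real.log a ≤ (u - a) ^ 2 / 2 := by
  have a0 : 0 < a := by linarith
  have u0 : 0 < u := by linarith
  set t := u / a - 1 with ht
  have t0 : 0 ≤ t := by rw [ht, sub_nonneg, le_div_iff₀ a0]; linarith
  have h := Real.le_log_one_add_of_nonneg t0
  rw [show 1 + t = u / a by rw [ht]; ring, Real.log_div u0.ne' a0.ne'] at h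
  have h2 : t - t ^ 2 / 2 ≤ 2 * t / (t + 2) := by
    rw [le_div_iff₀ (by linarith)]; nlinarith [pow_nonneg t0 3]
  have h3 : t ≤ u - a := by
    rw [ht, sub_le_iff_le_add, div_le_iff₀ a0]; nlinarith
  nlinarith

set_option maxHeartbeats 1600000 in
/-- **every point has a good cell** -/
theorem exists_cell (h : Par n ε q) {u v : ℝ} (hu : 0 ≤ u) (hv : 0 ≤ v) (γ : ℝ → ℝ)
    (γ1 : ∀ a, 1 / 64 ≤ a → a ≤ 1 → γ a ≤ 2 * (1 - a) * q ^ 2)
    (γ2 : ∀ a, 1 ≤ a → a ≤ uu ε → γ a ≤ -((a - 1) * (ε * q ^ 2) / 4)) :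
    ∃ j : ℕ, j ≤ 4096 * n ∧ 1 / 64 ≤ aa ε q j ∧
      Ps ε q u v (aa ε q j) + γ (aa ε q j) ≤ -(ε ^ 2 * q ^ 2 / 256) := by
  have e0 := h.e0
  have e1 := h.e1
  have q0 := h.q0
  have q1 := h.q_le
  obtain ⟨g1, g2⟩ := h.gg_mem
  obtain ⟨η0, η1⟩ := h.eta
  have hu0 : uu ε = 1 + ε / 16 := rfl
  have m0 : 0 ≤ ε * q ^ 2 / 4 * v := by positivity
  have eq1 : ε * q ≤ 1 / 10 ^ 10 := by nlinarith
  have eq0 : 0 < ε * q := mul_pos e0 q0
  have x1 : ε ^ 2 * q ^ 2 ≤ ε ^ 2 / 10 ^ 10 := by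
    have : q ^ 2 ≤ 1 / 10 ^ 10 := by nlinarith
    nlinarith [mul_le_mul_of_nonneg_left this (sq_nonneg ε)]
  have x0 : 0 < ε ^ 2 * q ^ 2 := by positivity
  have ee : ε ^ 2 ≤ 1 / 10 ^ 4 := by nlinarith
  have ale : ∀ j : ℕ, aa ε q j ≤ uu ε := fun j => by
    have : 0 ≤ (j : ℝ) * (ε * q / 2048) := by positivity
    simp only [aa]; linarith
  have a00 : aa ε q 0 = uu ε := by simp [aa]
  rcases lt_or_ge u (1 / 64) with c1 | c1
  · obtain ⟨j, j1, j2, j3⟩ := cell h (u := 1 / 64) le_rfl (by linarith)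
    refine ⟨j, j1, j2, ?_⟩
    set a := aa ε q j
    have a1 : a ≤ 1 / 32 := by linarith
    have l1 : Real.log a ≤ -3 := by
      have := Real.log_le_log (by linarith) a1
      rw [show (1 / 32 : ℝ) = (2 ^ 5)⁻¹ by norm_num, Real.log_inv, Real.log_pow] at this
      have := Real.log_two_gt_d9
      push_cast at *
      linarith
    have l2 : u / (2 * a) ≤ 1 / 2 := by rw [div_le_iff₀ (by linarith)]; linarith
    have l3 := γ1 a j2 (by linarith)
    have l4 : 2 * (1 - a) * q ^ 2 ≤ 1 / 10 := by nlinarith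
    have l5 : (zz (gg ε q) - 2) * u ≤ 1 / 10 := by nlinarith
    simp only [Ps, Jt, if_neg (fun hh : u ∈ Icc (1 / 64 : ℝ) 10 => absurd hh.1 (not_le.2 c1))]
    nlinarith [sq_nonneg (u + v - uu ε)]
  rcases lt_or_ge 10 u with c2 | c2
  · refine ⟨0, Nat.zero_le _, by rw [a00]; linarith, ?_⟩
    rw [a00]
    have l1 := Real.log_le_sub_one_of_pos (show 0 < uu ε by linarith)
    have l2 : u / (2 * uu ε) ≤ u / 2 := by gcongr; linarith
    have l3 := γ2 (uu ε) (by linarith) le_rfl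
    have l4 : 0 ≤ (uu ε - 1) * (ε * q ^ 2) / 4 := by
      rw [hu0, add_sub_cancel_left]; positivity
    have l5 : (zz (gg ε q) - 2) * u ≤ u / 10 := by nlinarith
    have l6 : (u - 2) ^ 2 ≤ (u + v - uu ε) ^ 2 := by nlinarith
    simp only [Ps, Jt, if_neg (fun hh : u ∈ Icc (1 / 64 : ℝ) 10 => absurd hh.2 (not_le.2 c2))]
    nlinarith
  have eP : ∀ a, Ps ε q u v a = -(u + v - uu ε) ^ 2 / 4 - ε * q ^ 2 / 4 * v + Bq (gg ε q) u +
      (u / a - 1 - Real.log u + Real.log a) / 2 := fun a => by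
    simp only [Ps, Jt, if_pos (show u ∈ Icc (1 / 64 : ℝ) 10 from ⟨c1, c2⟩), Bq]
    rw [show u / (2 * a) = u / a / 2 by rw [div_div, mul_comm]]
    ring
  rcases le_total (uu ε) u with c3 | c3
  · refine ⟨0, Nat.zero_le _, by rw [a00]; linarith, ?_⟩
    rw [a00, eP]
    have l1 := ovr (a := uu ε) (by linarith) c3
    have l2 := Bq_hi (g0 := gg ε q) (u := u) (by linarith) (by linarith)
    have l3 := γ2 (uu ε) (by linarith) le_rfl
    have l4 : (uu ε - 1) * (ε * q ^ 2) / 4 = ε ^ 2 * q ^ 2 / 64 := by rw [hu0]; ring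
    have l5 : (zz (gg ε q) - 2) * u ≤ ε ^ 2 * q ^ 2 / 500 := by nlinarith
    have l6 : (u - uu ε) ^ 2 ≤ (u + v - uu ε) ^ 2 := by nlinarith
    linarith
  obtain ⟨j, j1, j2, j3⟩ := cell h c1 c3
  refine ⟨j, j1, c1.trans j2, ?_⟩
  have a2 := ale j
  set a := aa ε q j
  have l1 := mesh c1 j2 j3
  have l2 : (64 * (ε * q / 2048)) ^ 2 = ε ^ 2 * q ^ 2 / 1024 := by ring
  have q3 : q ^ 3 ≤ ε ^ 2 * q ^ 2 / 10 ^ 6 := by
    have h1 := h.q1
    have : q ≤ ε ^ 2 / 10 ^ 6 := by nlinarith [pow_pos e0 2]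
    nlinarith [mul_le_mul_of_nonneg_left this (sq_nonneg q)]
  have l5 : (zz (gg ε q) - 2) * u ≤ ε ^ 2 * q ^ 2 / 2500 := by nlinarith
  have key : Bq (gg ε q) u + γ a ≤ ε ^ 2 * q ^ 2 / 1000 - max (u - 1) 0 * (ε * q ^ 2) / 4 := by
    rcases le_total 1 u with c4 | c4
    · have b1 := Bq_hi (g0 := gg ε q) (u := u) (by linarith) (by linarith)
      have b2 := γ2 a (by linarith) a2
      have b3 : (u - 1) * (ε * q ^ 2) ≤ (a - 1) * (ε * q ^ 2) := by gcongr
      rw [max_eq_left (by linarith)]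
      linarith
    · have b2 : γ a ≤ 2 * (1 - u) * q ^ 2 := by
        rcases le_total a 1 with c5 | c5
        · exact (γ1 a (c1.trans j2) c5).trans (by gcongr)
        · have b3 : 0 ≤ (a - 1) * (ε * q ^ 2) / 4 := by
            have : 0 ≤ a - 1 := by linarith
            positivity
          have b4 : 0 ≤ 2 * (1 - u) * q ^ 2 := by
            have : 0 ≤ 1 - u := by linarith
            positivity
          linarith [γ2 a c5 a2]
      rw [max_eq_right (by linarith)]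
      rcases le_total u (gg ε q) with c6 | c6
      · have b1 := Bq_lo (by linarith) c6 g2
        have b3 : 2 * (1 - u) * q ^ 2 - (1 - u) ^ 3 / 6 ≤ 3 * q ^ 3 := by
          have h0 : 0 ≤ 1 - u := by linarith
          nlinarith [mul_nonneg (sq_nonneg (1 - u - 2 * q)) (show 0 ≤ 1 - u + 4 * q by linarith),
            pow_pos q0 3]
        linarith
      · have b1 := Bq_hi (g0 := gg ε q) (u := u) (by linarith) c6
        have b3 : 1 - u ≤ q := by
          have : ε ^ 2 * q ≤ q := by nlinarith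
          simp only [gg] at c6; linarith
        have b4 : 2 * (1 - u) * q ^ 2 ≤ 2 * q ^ 3 := by nlinarith [sq_nonneg q]
        linarith
  rw [eP]
  have m1 : u - 1 ≤ max (u - 1) 0 := le_max_left _ _
  have m2 : 0 ≤ max (u - 1) 0 := le_max_right _ _
  have m3 : 0 ≤ max (u - 1) 0 * (ε * q ^ 2) := by positivity
  rcases le_total (ε / 32) (uu ε - u - v) with c7 | c7
  · have : (ε / 32) ^ 2 ≤ (u + v - uu ε) ^ 2 := by nlinarith
    nlinarith
  · have b1 : ε / 32 ≤ v + max (u - 1) 0 := by linarith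
    have b2 : ε / 32 * (ε * q ^ 2) ≤ (v + max (u - 1) 0) * (ε * q ^ 2) := by gcongr
    nlinarith [sq_nonneg (u + v - uu ε)]

/-- comparison of the log-determinants -/
lemma GG_sub {D : V n} (hD : Dv ε q D) (h : Par n ε q) {a : ℝ} (a0 : 0 < a) (a1 : a ≤ uu ε) :
    (∀ i, 0 < 1 + a * D i) ∧
    GG D 1 - GG D a ≤ (1 - a) / 2 * ∑ i, (D i - a / (1 + a * D i) * D i ^ 2) := by
  have e0 := h.e0
  have e1 := h.e1
  have q0 := h.q0
  have q1 := h.q_le
  have hu0 : uu ε = 1 + ε / 16 := rfl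
  have p : ∀ b, 0 < b → b ≤ 2 → ∀ i, 0 < 1 + b * D i := fun b b0 b1 i => by
    have := hD.lo i
    nlinarith
  have pa := p a a0 (by linarith)
  refine ⟨pa, ?_⟩
  simp only [GG]
  rw [← sub_div, ← sum_sub_distrib, mul_sum, sum_div]
  refine sum_le_sum fun i _ => ?_
  have p1 := p 1 one_pos (by norm_num) i
  have p2 := pa i
  have l := Real.log_le_sub_one_of_pos (div_pos p1 p2)
  rw [Real.log_div p1.ne' p2.ne'] at l
  have e : (1 + 1 * D i) / (1 + a * D i) - 1 = (1 - a) * (D i - a / (1 + a * D i) * D i ^ 2) := by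
    have := p2.ne'
    rw [div_sub_one this, div_mul_eq_mul_div, sub_div' this, ← mul_div_assoc]
    congr 1; ring
  linarith

lemma GG_lo {D : V n} (hD : Dv ε q D) (h : Par n ε q) {a : ℝ} (a0 : 0 < a) (a1 : a ≤ 1) :
    GG D 1 - GG D a ≤ n * (2 * (1 - a) * q ^ 2) := by
  have e0 := h.e0
  obtain ⟨p, h1⟩ := GG_sub hD h a0 (by simp only [uu]; linarith)
  have h2 : ∑ i, (D i - a / (1 + a * D i) * D i ^ 2) ≤ ∑ i, D i := sum_le_sum fun i _ => by
    have := p i
    have : 0 ≤ a / (1 + a * D i) * D i ^ 2 := by positivity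
    linarith
  have h3 := mul_le_mul_of_nonneg_left (h2.trans hD.m1) (show 0 ≤ (1 - a) / 2 by linarith)
  linarith

lemma GG_hi {D : V n} (hD : Dv ε q D) (h : Par n ε q) {a : ℝ} (a0 : 1 ≤ a) (a1 : a ≤ uu ε) :
    GG D 1 - GG D a ≤ n * -((a - 1) * (ε * q ^ 2) / 4) := by
  have e0 := h.e0
  have e1 := h.e1
  have q0 := h.q0
  have q1 := h.q_le
  have hu0 : uu ε = 1 + ε / 16 := rfl
  obtain ⟨p, h1⟩ := GG_sub hD h (by linarith) a1
  have h2 : ∑ i, (D i - (1 + ε / 8) * D i ^ 2) ≤ ∑ i, (D i - a / (1 + a * D i) * D i ^ 2) :=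
    sum_le_sum fun i _ => by
      have h3 : a / (1 + a * D i) ≤ 1 + ε / 8 := by
        rw [div_le_iff₀ (p i)]
        have h4 := hD.lo i
        have h5 : -(6 * q) ≤ a * D i := by nlinarith
        nlinarith
      nlinarith [mul_le_mul_of_nonneg_right h3 (sq_nonneg (D i))]
  rw [sum_sub_distrib, ← mul_sum] at h2
  have h3 := hD.gap
  have h4 := mul_le_mul_of_nonneg_left hD.m2 (show 0 ≤ ε / 8 by linarith)
  have h5 : ε * q ^ 2 * n / 2 ≤ ∑ i, (D i - a / (1 + a * D i) * D i ^ 2) := by linarith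
  have h6 := mul_le_mul_of_nonneg_left h5 (show 0 ≤ (a - 1) / 2 by linarith)
  linarith

end Crest.Agent.T157.Qe.Up91

end
end

-- ▼ part T157/QeUp_91
section

/-!
# Row 157, part A2 (helper91): `Qe.UpGlue`, the upper bound of the quartic integral
-/

set_option autoImplicit false

noncomputable section

namespace Crest.Agent.T157.Qe.Up91

open Matrix Finset MeasureTheory Set
open scoped ENNReal
open Crest.Agent.T157.E Crest.Agent.T157.Cond Crest.Agent.T157.Dq
open Crest.Agent.T157.Conc (ex ex_add ex_mono ex_zero)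

variable {n : ℕ} {ε q : ℝ}

/-- the matrix of a cell -/
def NN (ε q a : ℝ) (P S B : Mx n) : Mx n :=
  B + S + a⁻¹ • P - (zz (gg ε q) - 2 + ε * q ^ 2 / 2) • (1 - P)

lemma gi_NN (h : Par n ε q) {P S B : Mx n} {D : V n} (hP : IsProj P)
    (ht : (n : ℝ) - 3 ≤ P.trace) (hS : Sᵀ = S) (h0 : S * P = 0) (hD : Dv ε q D) (hB : Bᵀ = B)
    (hBD : P * B * P = P * diagonal D * P)
    (hL : Le ((ε * q ^ 2) • (1 - P)) (B + S + (uu ε)⁻¹ • P)) {a : ℝ} (a0 : 1 / 64 ≤ a)
    (a1 : a ≤ uu ε) :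
    Gi (NN ε q a P S B) ≤ ex (10 * Real.log n + (n * Real.log a / 2 - GG D a)) := by
  have e0 := h.e0
  have e1 := h.e1
  have q0 := h.q0
  have q1 := h.q_le
  obtain ⟨η0, η1⟩ := h.eta
  have hu0 : uu ε = 1 + ε / 16 := rfl
  have n8 : (8 : ℝ) ≤ n := by exact_mod_cast h.n8
  have ap : 0 < a := by linarith
  have i1 : a⁻¹ ≤ 64 := by rw [inv_le_comm₀ ap (by norm_num)]; linarith
  have i2 : (uu ε)⁻¹ ≤ a⁻¹ := inv_anti₀ ap a1
  have i3 : 3 / 4 ≤ (uu ε)⁻¹ := by rw [le_inv_comm₀ (by norm_num) (by linarith)]; linarith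
  set b : V n := fun i => D i + a⁻¹ with hb
  have b1 : ∀ i, 1 / 2 ≤ b i := fun i => by have := hD.lo i; simp only [hb]; linarith
  have b2 : ∀ i, b i ≤ 67 := fun i => by have := hD.hi i; simp only [hb]; linarith
  have hd := dg_diagonal b
  have hN : (NN ε q a P S B)ᵀ = NN ε q a P S B := by
    simp only [NN, transpose_sub, transpose_add, transpose_smul, hB, hS, hP.symm, transpose_one]
  have hPNP : P * NN ε q a P S B * P = P * diagonal b * P := by
    have e1 : diagonal b = diagonal D + a⁻¹ • (1 : Mx n) := by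
      ext i j; by_cases hij : i = j <;> simp [hb, hij, one_apply]
    have e2 : P * S * P = 0 := by rw [Matrix.mul_assoc, h0, Matrix.mul_zero]
    have e3 : P * (1 - P) = 0 := by rw [Matrix.mul_sub, hP.idem, Matrix.mul_one, sub_self]
    rw [e1, NN]
    simp only [Matrix.mul_sub P (B + S + a⁻¹ • P), Matrix.mul_add, Matrix.add_mul,
      Matrix.mul_smul, Matrix.smul_mul, e3, smul_zero, sub_zero, e2, hBD, add_zero,
      Matrix.mul_one, hP.idem]
  have k0 : 0 < ε * q ^ 2 / 4 := by positivity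
  have s1 := gi_shear hN hP (d := 1 / 2) (κ := ε * q ^ 2 / 4) (by norm_num)
    (fun x => by
      have := dg_ge hd b1 (P *ᵥ x)
      rw [qf_smul, qf_one] at this
      rw [hPNP, qf_proj hP, qf_smul, ← hP.dot_self]
      exact this)
    (fun x => by
      have l1 := hL x
      have l2 : 0 ≤ x ⬝ᵥ P *ᵥ x := by rw [← hP.dot_self]; exact dot_self_nonneg _
      have l3 : 0 ≤ x ⬝ᵥ (1 - P) *ᵥ x := by rw [qf_compl hP]; exact dot_self_nonneg _
      have l4 := mul_le_mul_of_nonneg_right i2 l2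
      have l5 : zz (gg ε q) - 2 ≤ ε * q ^ 2 / 4 := by nlinarith
      have l6 := mul_le_mul_of_nonneg_right l5 l3
      simp only [NN, qf_add, qf_smul, qf_sub (B + S + a⁻¹ • P)] at l1 ⊢
      linarith)
  have eq1 : ε * q ≤ 1 := by nlinarith
  have k1 : ε * q ^ 2 / 4 ≤ n * 67 := by nlinarith
  have s2 := gi_scale hP ht (diagonal b) k0 k1
  have s3 := gi_comp (N := diagonal b) (P := P) (by have := h.n8; omega) (diagonal_transpose b) hP
    (d := 67) (K := n * 67) (fun x => by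
      have := dg_ge hd (c := 0) (fun i => by linarith [b1 i]) x
      simpa using this) (dg_le hd b2) le_rfl
  rw [hPNP] at s1
  rw [gi_dg hd fun i => by linarith [b1 i]] at s3
  refine s1.trans (s2.trans ((mul_le_mul_right s3 _).trans ?_))
  rw [← ex_add, ← ex_add]
  refine ex_mono ?_
  have p := (GG_sub hD h ap a1).1
  have l1 : ∑ i, Real.log (b i) = 2 * GG D a - n * Real.log a := by
    have : ∀ i, Real.log (b i) = Real.log (1 + a * D i) - Real.log a := fun i => by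
      rw [← Real.log_div (p i).ne' ap.ne']
      congr 1; simp only [hb]; field_simp; ring
    simp only [this, sum_sub_distrib, sum_const, card_univ, Fintype.card_fin, nsmul_eq_mul, GG]
    ring
  have l2 : n * 67 / (ε * q ^ 2 / 4) ≤ (n : ℝ) ^ 6 := by
    rw [div_le_iff₀ k0]
    have m1 := h.nq
    have m2 : 1 ≤ n * q := by nlinarith
    have m3 : 1 ≤ (n : ℝ) ^ 2 * (ε * q ^ 2) := by nlinarith
    have m4 : (512 : ℝ) ≤ (n : ℝ) ^ 3 := by
      have := pow_le_pow_left₀ (by norm_num) n8 3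
      linarith
    have m5 : 512 * (n : ℝ) ≤ (n : ℝ) ^ 4 := by nlinarith
    calc (n : ℝ) * 67 ≤ (n : ℝ) ^ 4 * 1 / 4 := by linarith
      _ ≤ (n : ℝ) ^ 4 * ((n : ℝ) ^ 2 * (ε * q ^ 2)) / 4 := by gcongr
      _ = _ := by ring
  have l3 := Real.log_le_log (by positivity) l2
  rw [Real.log_pow] at l3
  have l4 : 1 / 2 ≤ Real.log n := by
    have := Real.one_sub_inv_le_log_of_pos (show (0 : ℝ) < n by linarith)
    have : (n : ℝ)⁻¹ ≤ 1 / 2 := by rw [inv_le_comm₀ (by linarith) (by norm_num)]; linarith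
    linarith
  push_cast at l3
  linarith

/-- (QS) with the crude bound off `[1/64, 10]` -/
lemma inner {C : ℕ} {E : ℝ} {P S : Mx n} {ν : Measure (Mx n)} {Φ : Mx n → Mx n} {g0 : ℝ}
    (hn : 8 ≤ n) (hE : 0 ≤ E) (hQ : QD P S ν Φ g0 E) (x : V n)
    (hs : (P *ᵥ x) ⬝ᵥ (P *ᵥ x) / n ∈ Icc (1 / 64 : ℝ) 10 →
      ∫⁻ W, ex (x ⬝ᵥ Φ W *ᵥ x / 2) ∂ν ≤ ν univ * ex (C * Real.log n +
        (x - P *ᵥ x) ⬝ᵥ (zz g0 • (1 : Mx n) - S) *ᵥ (x - P *ᵥ x) / 2 +
        n * Jb g0 ((P *ᵥ x) ⬝ᵥ (P *ᵥ x) / n) + E / 2)) :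
    ∫⁻ W, ex (x ⬝ᵥ Φ W *ᵥ x / 2) ∂ν ≤ ν univ * ex (C * Real.log n + E / 2 +
      (zz g0 * ((x - P *ᵥ x) ⬝ᵥ (x - P *ᵥ x)) - x ⬝ᵥ S *ᵥ x) / 2 +
      n * Jt g0 ((P *ᵥ x) ⬝ᵥ (P *ᵥ x) / n)) := by
  have n8 : (8 : ℝ) ≤ n := by exact_mod_cast hn
  by_cases hu : (P *ᵥ x) ⬝ᵥ (P *ᵥ x) / n ∈ Icc (1 / 64 : ℝ) 10
  · refine (hs hu).trans (mul_le_mul_right (ex_mono (le_of_eq ?_)) _)
    have e1 : S *ᵥ (P *ᵥ x) = 0 := by rw [mulVec_mulVec, hQ.zero, zero_mulVec]
    have e2 : (x - P *ᵥ x) ⬝ᵥ S *ᵥ (x - P *ᵥ x) = x ⬝ᵥ S *ᵥ x := by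
      rw [mulVec_sub, e1, sub_zero, sub_dotProduct, qf_comm hQ.symm (P *ᵥ x), e1,
        dotProduct_zero, sub_zero]
    rw [qf_sub, qf_smul, qf_one, e2, Jt, if_pos hu]
    ring
  · have l0 : 0 ≤ Real.log n := Real.log_nonneg (by linarith)
    have l1 : 0 ≤ (C : ℝ) * Real.log n := by positivity
    rw [mul_comm, ← lintegral_const]
    refine lintegral_mono_ae (hQ.ae.mono fun W hW => ex_mono ?_)
    have l2 := hW.2 x
    rw [qf_add, qf_smul, qf_one, dot_split hQ.proj x] at l2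
    have e : (n : ℝ) * (zz g0 * ((P *ᵥ x) ⬝ᵥ (P *ᵥ x) / n) / 2) =
        zz g0 * ((P *ᵥ x) ⬝ᵥ (P *ᵥ x)) / 2 := by
      have : (n : ℝ) ≠ 0 := by linarith
      field_simp
    rw [Jt, if_neg hu, e]
    linarith

end Crest.Agent.T157.Qe.Up91

namespace Crest.Agent.T157.Qe

open Matrix Finset MeasureTheory Set Up91
open scoped ENNReal
open Crest.Agent.T157.E Crest.Agent.T157.Cond Crest.Agent.T157.Dq
open Crest.Agent.T157.Conc (ex ex_add ex_mono ex_zero)

/-- **the upper bound** -/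
theorem upGlue : UpGlue := by
  rintro ⟨C, hC⟩
  refine ⟨C + 16, fun n ε q E P S B ν Φ D h hE hQ hD hB hBD hL => ?_⟩
  have := hQ.fin
  have hΦ := hQ.meas
  have n8 : (8 : ℝ) ≤ n := by exact_mod_cast h.n8
  have n0 : (n : ℝ) ≠ 0 := by linarith
  set K : ℝ := C * Real.log n + E / 2 + n * (uu ε ^ 2 / 4 - 1 / 4) - GG D 1 -
    ε ^ 2 * q ^ 2 * n / 256 with hK
  set A : Finset ℕ := (range (4096 * n + 1)).filter fun j => 1 / 64 ≤ aa ε q j with hA
  have ale : ∀ j : ℕ, aa ε q j ≤ uu ε := fun j => by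
    have := h.e0
    have := h.q0
    have : 0 ≤ (j : ℝ) * (ε * q / 2048) := by positivity
    simp only [aa]; linarith
  have pt : ∀ x : V n, ∫⁻ W, ex ((x ⬝ᵥ x - x ⬝ᵥ (B + (2 - uu ε) • (1 : Mx n) - Φ W) *ᵥ x) / 2 -
      (1 / Real.sqrt n) ^ 2 * (x ⬝ᵥ x) ^ 2 / 4) ∂ν ≤
      ∑ j ∈ A, ν univ * ex (K - (n * Real.log (aa ε q j) / 2 - GG D (aa ε q j))) *
        ex ((x ⬝ᵥ x - x ⬝ᵥ NN ε q (aa ε q j) P S B *ᵥ x) / 2) := fun x => by
    have e : ∀ W, ex ((x ⬝ᵥ x - x ⬝ᵥ (B + (2 - uu ε) • (1 : Mx n) - Φ W) *ᵥ x) / 2 -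
        (1 / Real.sqrt n) ^ 2 * (x ⬝ᵥ x) ^ 2 / 4) =
        ex ((x ⬝ᵥ x - x ⬝ᵥ B *ᵥ x - (2 - uu ε) * (x ⬝ᵥ x)) / 2 - (x ⬝ᵥ x) ^ 2 / (4 * n)) *
          ex (x ⬝ᵥ Φ W *ᵥ x / 2) := fun W => by
      rw [← ex_add, qf_sub, qf_add, qf_smul, qf_one, div_pow, Real.sq_sqrt (by linarith)]
      congr 1; field_simp; ring
    simp only [e]
    rw [lintegral_const_mul _ (by fun_prop)]
    have i1 := Up91.inner h.n8 hE hQ x (hC n P S ν Φ _ E x h.n8 hQ h.gg_mem)
    set w := (P *ᵥ x) ⬝ᵥ (P *ᵥ x) with hw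
    set v := (x - P *ᵥ x) ⬝ᵥ (x - P *ᵥ x) with hv
    obtain ⟨j, j1, j2, j3⟩ := exists_cell h (u := w / n) (v := v / n)
      (div_nonneg (dot_self_nonneg _) (by linarith)) (div_nonneg (dot_self_nonneg _) (by linarith))
      (fun a => (GG D 1 - GG D a) / n)
      (fun a a0 a1 => by
        rw [div_le_iff₀' (by linarith)]; exact GG_lo hD h (by linarith) a1)
      (fun a a0 a1 => by rw [div_le_iff₀' (by linarith)]; exact GG_hi hD h a0 a1)
    refine (mul_le_mul_right i1 _).trans (le_trans ?_ (single_le_sum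
      (f := fun j => ν univ * ex (K - (n * Real.log (aa ε q j) / 2 - GG D (aa ε q j))) *
        ex ((x ⬝ᵥ x - x ⬝ᵥ NN ε q (aa ε q j) P S B *ᵥ x) / 2)) (fun _ _ => zero_le)
      (show j ∈ A from mem_filter.2 ⟨mem_range.2 (by omega), j2⟩)))
    rw [mul_left_comm, mul_assoc, ← ex_add, ← ex_add]
    refine mul_le_mul_right (ex_mono ?_) _
    set a := aa ε q j
    have a0 : a ≠ 0 := by linarith
    have e1 : x ⬝ᵥ x = w + v := dot_split hQ.proj x
    have e2 : x ⬝ᵥ NN ε q a P S B *ᵥ x = x ⬝ᵥ B *ᵥ x + x ⬝ᵥ S *ᵥ x + a⁻¹ * w -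
        (zz (gg ε q) - 2 + ε * q ^ 2 / 2) * v := by
      rw [NN, qf_sub, qf_add, qf_add, qf_smul, qf_smul, qf_compl hQ.proj, hw, hQ.proj.dot_self]
    have j4 := mul_le_mul_of_nonneg_left j3 (show (0 : ℝ) ≤ n by linarith)
    have e3 : n * (Ps ε q (w / n) (v / n) a + (GG D 1 - GG D a) / n) =
        -((w + v) ^ 2 / (4 * n)) + uu ε * (w + v) / 2 - n * (uu ε ^ 2 / 4) - ε * q ^ 2 / 4 * v +
          a⁻¹ * w / 2 - w + n * Jt (gg ε q) (w / n) + n * Real.log a / 2 + n / 4 +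
          (GG D 1 - GG D a) := by
      simp only [Ps]; field_simp; ring
    rw [e3] at j4
    rw [e2, e1, hK]
    linarith
  unfold II
  rw [lintegral_lintegral_swap (by fun_prop)]
  refine (lintegral_mono pt).trans ?_
  rw [lintegral_finsetSum _ fun j _ => by fun_prop]
  have cb : ∀ j ∈ A, ∫⁻ x, ν univ * ex (K - (n * Real.log (aa ε q j) / 2 - GG D (aa ε q j))) *
      ex ((x ⬝ᵥ x - x ⬝ᵥ NN ε q (aa ε q j) P S B *ᵥ x) / 2) ∂gv (Fin n) ≤
      ν univ * ex (K + 10 * Real.log n) := fun j hj => by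
    rw [lintegral_const_mul _ (by fun_prop), mul_assoc]
    refine mul_le_mul_right ((mul_le_mul_right (gi_NN h hQ.proj hQ.tr hQ.symm hQ.zero hD hB hBD hL
      (mem_filter.1 hj).2 (ale j)) _).trans ?_) _
    rw [← ex_add]
    exact ex_mono (le_of_eq (by ring))
  refine (sum_le_card_nsmul _ _ _ cb).trans ?_
  have c1 : (A.card : ℝ) ≤ (n : ℝ) ^ 6 := by
    have c2 : A.card ≤ 4096 * n + 1 := (card_filter_le _ _).trans (card_range _).le
    have c3 : (A.card : ℝ) ≤ 4096 * n + 1 := by exact_mod_cast c2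
    have c4 : (8 : ℝ) ^ 5 ≤ (n : ℝ) ^ 5 := pow_le_pow_left₀ (by norm_num) n8 5
    nlinarith
  have c2 : (A.card : ℝ≥0∞) ≤ ex (6 * Real.log n) := by
    rw [ex, show 6 * Real.log n = Real.log ((n : ℝ) ^ 6) by rw [Real.log_pow]; norm_num,
      Real.exp_log (by positivity), ← ENNReal.ofReal_natCast]
    exact ENNReal.ofReal_le_ofReal c1
  rw [nsmul_eq_mul]
  refine (mul_le_mul_left c2 _).trans ?_
  rw [mul_left_comm, ← ex_add]
  refine mul_le_mul_right (ex_mono (le_of_eq ?_)) _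
  rw [hK]; push_cast; ring

end Crest.Agent.T157.Qe

end
end

-- ▼ part T157/QeLo_54
section

/-!
# Row 157, part A2 (helper54): `Qe.loStmt : LoStmt`
-/

set_option autoImplicit false

noncomputable section

namespace Crest.Agent.T157.Qe

open Matrix Finset MeasureTheory Set
open scoped ENNReal
open Crest.Agent.T157.E Crest.Agent.T157.Cond Crest.Agent.T157.Dq
open Crest.Agent.T157.Conc (ex ex_add ex_mono ex_zero)

namespace Lo54

variable {n : ℕ}

/-! ### the scalar estimate -/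

lemma one_log {q d : ℝ} (q0 : 0 < q) (q1 : q ≤ 1 / 100) (hd : -(3 * q) ≤ d) :
    Real.log (1 + 4 * q + d) ≤ Real.log (1 + 1 * d) + (4 * q * (1 - d + 2 * d ^ 2) -
      8 * q ^ 2 * (1 - 2 * d) + 43 * q ^ 3) := by
  have h1 : 97 / 100 ≤ 1 + d := by linarith
  have h0 : 0 < 1 + d := by linarith
  set t := (1 + d)⁻¹ with ht
  have t0 : 0 < t := inv_pos.2 h0
  have t1 : t * (1 + d) = 1 := inv_mul_cancel₀ h0.ne'
  have t2 : t ≤ 100 / 97 := by nlinarith
  have e : 1 + 4 * q + d = (1 + 1 * d) * (1 + 4 * q * t) := by linear_combination (-4 * q) * t1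
  rw [e, Real.log_mul (by linarith) (by positivity)]
  have h := log_one_add_le (u := 4 * q * t) (by positivity)
  have a1 : t ≤ 1 - d + 2 * d ^ 2 := by
    have : t = 1 - d + d ^ 2 * t := by linear_combination (1 - d) * t1
    nlinarith [sq_nonneg d]
  have a2 : 1 - 2 * d ≤ t ^ 2 := by
    have e2 : t ^ 2 * (1 + d) ^ 2 = 1 := by rw [← mul_pow, t1, one_pow]
    have : (1 - 2 * d) * (1 + d) ^ 2 ≤ 1 := by nlinarith [sq_nonneg d, mul_nonneg (sq_nonneg d) h0.le]
    by_contra hc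
    have := mul_lt_mul_of_pos_right (not_le.1 hc) (pow_pos h0 2)
    linarith
  have a3 : t ^ 3 ≤ 2 := (pow_le_pow_left₀ t0.le t2 3).trans (by norm_num)
  have b1 := mul_le_mul_of_nonneg_left a1 (show 0 ≤ 4 * q by positivity)
  have b2 := mul_le_mul_of_nonneg_left a2 (show 0 ≤ 8 * q ^ 2 by positivity)
  have b3 := mul_le_mul_of_nonneg_left a3 (show 0 ≤ 64 / 3 * q ^ 3 by positivity)
  have : 0 < q ^ 3 := by positivity
  nlinarith

lemma sum_log {ε q : ℝ} {D : V n} (e0 : 0 < ε) (q0 : 0 < q) (q1 : q ≤ 1 / 100) (h : Dv ε q D) :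
    ∑ i, Real.log (1 + 4 * q + D i) ≤ 2 * GG D 1 + (4 * q - 8 * q ^ 2 + 80 * q ^ 3) * n := by
  have h1 := sum_le_sum fun i (_ : i ∈ Finset.univ) => one_log q0 q1 (h.lo i)
  have e : ∀ i, 4 * q * (1 - D i + 2 * D i ^ 2) - 8 * q ^ 2 * (1 - 2 * D i) + 43 * q ^ 3 =
      (4 * q - 8 * q ^ 2 + 43 * q ^ 3) + ((16 * q ^ 2 - 4 * q) * D i + 8 * q * D i ^ 2) :=
    fun i => by ring
  simp only [e, sum_add_distrib, ← mul_sum, sum_const, card_univ, Fintype.card_fin,
    nsmul_eq_mul] at h1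
  have g1 := h.gap
  have g2 := h.m2
  have g3 : 0 ≤ ∑ i, D i ^ 2 := sum_nonneg fun i _ => sq_nonneg _
  have g4 : 0 ≤ ε * q ^ 2 * n := by positivity
  have g5 : (16 * q ^ 2 - 4 * q) * ∑ i, D i ≤ 0 :=
    mul_nonpos_of_nonpos_of_nonneg (by nlinarith) (by linarith)
  have g6 := mul_le_mul_of_nonneg_left g2 (show 0 ≤ 8 * q by positivity)
  have g7 : 0 ≤ q ^ 3 * n := by positivity
  simp only [GG]
  nlinarith

/-! ### entries of the GOE -/

lemma tail_entry (hn : 0 < n) (i j : Fin n) (c : ℝ) (hc : c ^ 2 = 1) :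
    GOE n {W | 2 < c * W i j} ≤ ex (-n) := by
  have n0 : (0 : ℝ) < n := by exact_mod_cast hn
  have h := Kr.goe_cm (1 / Real.sqrt n) (single i j (c * n) : Mx n) (F := fun _ => 1)
    measurable_const
  simp only [mul_one, lintegral_const, measure_univ] at h
  have e1 : ∀ W : Mx n, pair (single i j (c * n) : Mx n) W = n * (c * W i j) := fun W => by
    simp only [pair, single_apply, ite_and, ite_mul, zero_mul]
    rw [Finset.sum_eq_single i (fun a _ ha => by simp [Ne.symm ha]) (by simp),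
      Finset.sum_eq_single j (fun a _ ha => by simp [Ne.symm ha]) (by simp)]
    simp only [if_true]; ring
  have e2 : Vq (single i j (c * n) : Mx n) ≤ 2 * (n : ℝ) ^ 2 := by
    rw [Vq_eq_sum]
    have a : ∀ k l, ((single i j (c * n) : Mx n) k l + (single i j (c * n) : Mx n) l k) ^ 2 ≤
        2 * (single i j (c * n) : Mx n) k l ^ 2 + 2 * (single i j (c * n) : Mx n) l k ^ 2 :=
      fun k l => by nlinarith [sq_nonneg ((single i j (c * n) : Mx n) k l -
        (single i j (c * n) : Mx n) l k)]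
    have b : ∑ k, ∑ l, (single i j (c * n) : Mx n) k l ^ 2 = (n : ℝ) ^ 2 := by
      rw [Finset.sum_eq_single i (fun a _ ha => by simp [Ne.symm ha]) (by simp),
        Finset.sum_eq_single j (fun a _ ha => by simp [Ne.symm ha]) (by simp)]
      simp only [single_apply_same, mul_pow, hc, one_mul]
    have b' : ∑ k, ∑ l, (single i j (c * n) : Mx n) l k ^ 2 = (n : ℝ) ^ 2 := by
      rw [sum_comm]; exact b
    have := sum_le_sum fun k (_ : k ∈ Finset.univ) => sum_le_sum fun l (_ : l ∈ Finset.univ) => a k l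
    simp only [sum_add_distrib, ← mul_sum, b, b'] at this
    linarith
  simp only [e1] at h
  have hm := mul_meas_ge_le_lintegral₀ (μ := GOE n)
    (f := fun W : Mx n => ENNReal.ofReal (Real.exp (n * (c * W i j))))
    (Measurable.aemeasurable (by fun_prop)) (ex (2 * n))
  rw [h] at hm
  have h3 : ENNReal.ofReal (Real.exp ((1 / √(n : ℝ)) ^ 2 * Vq (single i j (c * n) : Mx n) / 2)) ≤
      ex (2 * n) * ex (-n) := by
    rw [← ex_add]
    refine ex_mono ?_
    rw [div_pow, Real.sq_sqrt n0.le, one_pow, div_le_iff₀ two_pos, div_mul_eq_mul_div,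
      div_le_iff₀ n0]
    nlinarith
  have h4 := (ENNReal.mul_le_mul_iff_right (a := ex (2 * n))
    (ENNReal.ofReal_pos.2 (Real.exp_pos _)).ne' ENNReal.ofReal_ne_top).1 (hm.trans h3)
  refine (measure_mono fun W hW => ?_).trans h4
  have hW' : 2 < c * W i j := hW
  exact ex_mono (by nlinarith)

/-- symmetric with bounded entries -/
def Ent (W : Mx n) : Prop := Wᵀ = W ∧ ∀ i j, |W i j| ≤ 2

lemma prob_ent (hn : 0 < n) : GOE n {W | ¬ Ent W} ≤ (2 * n ^ 2 : ℕ) * ex (-n) := by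
  have hs : {W : Mx n | ¬ Ent W} ⊆ {W | ¬ Wᵀ = W} ∪
      ⋃ p : Fin n × Fin n × Bool, {W | 2 < (if p.2.2 then 1 else -1 : ℝ) * W p.1 p.2.1} := by
    intro W hW
    by_contra hc
    simp only [Set.mem_union, Set.mem_iUnion, not_or, not_exists, Set.mem_ofPred_eq, not_not,
      not_lt] at hc
    refine hW ⟨hc.1, fun i j => abs_le.2 ⟨?_, ?_⟩⟩
    · have := hc.2 (i, j, false); simp at this; linarith
    · have := hc.2 (i, j, true); simpa using this
  refine (measure_mono hs).trans ((measure_union_le _ _).trans ?_)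
  rw [show GOE n {W | ¬ Wᵀ = W} = 0 from ae_iff.1 (goe_ae_symm _), zero_add]
  refine (measure_iUnion_fintype_le _ _).trans ((sum_le_sum fun p _ =>
    tail_entry hn p.1 p.2.1 _ (by split_ifs <;> norm_num)).trans (le_of_eq ?_))
  rw [sum_const, card_univ, nsmul_eq_mul]
  simp only [Fintype.card_prod, Fintype.card_fin, Fintype.card_bool]
  congr 2; ring

lemma ent_form {W : Mx n} (h : Ent W) (u v : V n) {t : ℝ} (ht : 0 < t) :
    2 * |u ⬝ᵥ W *ᵥ v| ≤ 2 * n * (t * (u ⬝ᵥ u) + (v ⬝ᵥ v) / t) := by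
  have h1 : |u ⬝ᵥ W *ᵥ v| ≤ ∑ i, ∑ j, (t * (u i * u i) + v j * v j / t) := by
    simp only [dotProduct, mulVec, mul_sum]
    refine (abs_sum_le_sum_abs _ _).trans (sum_le_sum fun i _ =>
      (abs_sum_le_sum_abs _ _).trans (sum_le_sum fun j _ => ?_))
    rw [abs_mul, abs_mul]
    have a := h.2 i j
    have b : 2 * (|u i| * |v j|) ≤ t * (u i * u i) + v j * v j / t := by
      rw [← abs_mul_abs_self (u i), ← abs_mul_abs_self (v j)]
      have : 0 ≤ (t * |u i| - |v j|) ^ 2 / t := by positivity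
      have e : (t * |u i| - |v j|) ^ 2 / t =
          t * (|u i| * |u i|) + |v j| * |v j| / t - 2 * (|u i| * |v j|) := by field_simp; ring
      linarith
    have : 0 ≤ |u i| * |v j| := by positivity
    nlinarith
  simp only [sum_add_distrib, sum_const, card_univ, Fintype.card_fin, nsmul_eq_mul, ← mul_sum,
    ← sum_div] at h1
  simp only [dotProduct] at h1 ⊢
  nlinarith

/-! ### log-determinants -/

lemma ex_le {a b : ℝ} (h : ex a ≤ ex b) : a ≤ b :=
  Real.exp_le_exp.1 ((ENNReal.ofReal_le_ofReal_iff (Real.exp_pos _).le).1 h)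

lemma ld_mono {A B : Mx n} {a b : V n} (hA : Dg A a) (hB : Dg B b) (ha : ∀ i, 0 < a i)
    (h : Le A B) : (∀ i, 0 < b i) ∧ ∑ i, Real.log (a i) ≤ ∑ i, Real.log (b i) := by
  have hb : ∀ i, 0 < b i := fun i => by
    obtain ⟨k, -, hk⟩ := Finset.exists_min_image Finset.univ a ⟨i, Finset.mem_univ i⟩
    exact (ha k).trans_le (ge_dg hB ((dg_ge hA fun l => hk l (Finset.mem_univ l)).trans h) i)
  have := gi_mono h
  rw [gi_dg hA ha, gi_dg hB hb] at this
  exact ⟨hb, by linarith [ex_le this]⟩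

/-- the comparison matrix -/
def MK (P : Mx n) (q : ℝ) (D : V n) : Mx n :=
  P * diagonal (fun i => 1 + 4 * q + D i) * P + ((n : ℝ) ^ 5) • (1 - P)

lemma qf_diag (d u : V n) : u ⬝ᵥ diagonal d *ᵥ u = ∑ i, d i * u i ^ 2 :=
  sum_congr rfl fun i _ => by rw [mulVec_diagonal]; ring

lemma dot_sq (u : V n) : u ⬝ᵥ u = ∑ i, u i ^ 2 := sum_congr rfl fun i _ => by ring

lemma MK_symm {P : Mx n} (hP : IsProj P) (q : ℝ) (D : V n) : (MK P q D)ᵀ = MK P q D := by
  simp only [MK, transpose_add, transpose_mul, transpose_smul, transpose_sub, transpose_one,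
    hP.symm, diagonal_transpose, Matrix.mul_assoc]

lemma MK_spec {P : Mx n} (hP : IsProj P) (ht : (n : ℝ) - 3 ≤ P.trace) (hn : 8 ≤ n) {q : ℝ}
    (q0 : 0 < q) (q1 : q ≤ 1) {D m : V n} (hD : ∀ i, -(3 * q) ≤ D i) (hm : Dg (MK P q D) m) :
    (∀ i, 1 + q ≤ m i) ∧
      ∑ i, Real.log (m i) ≤ ∑ i, Real.log (1 + 4 * q + D i) + 15 * Real.log n := by
  have n8 : (8 : ℝ) ≤ n := by exact_mod_cast hn
  have hK : (2 : ℝ) ≤ (n : ℝ) ^ 5 := le_trans (by norm_num) (pow_le_pow_left₀ (by norm_num) n8 5)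
  set N : Mx n := diagonal fun i => 1 + 4 * q + D i with hN
  have hN1 : Le ((1 + q) • (1 : Mx n)) N := dg_ge (dg_diagonal _) fun i => by linarith [hD i]
  have h1 : ∀ i, 1 + q ≤ m i := ge_dg hm fun u => by
    have a := hN1 (P *ᵥ u)
    have b : 0 ≤ (u - P *ᵥ u) ⬝ᵥ (u - P *ᵥ u) := by rw [dot_sq]; positivity
    rw [qf_smul, qf_one] at a
    rw [MK, qf_add, qf_proj hP, qf_smul, qf_smul, qf_one, qf_compl hP, dot_split hP u]
    nlinarith
  refine ⟨h1, ?_⟩
  have h2 := gi_shear (N := N) (diagonal_transpose _) hP (d := 1 + q) (κ := 1) (by linarith)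
    (fun u => by
      have a := hN1 (P *ᵥ u)
      rw [qf_smul, qf_one, hP.dot_self] at a
      rw [qf_smul, qf_proj hP]; exact a)
    (fun u => by
      have a := hN1 u
      have b : 0 ≤ (P *ᵥ u) ⬝ᵥ (P *ᵥ u) := by rw [dot_sq]; positivity
      have c : 0 ≤ u ⬝ᵥ u := by rw [dot_sq]; positivity
      rw [qf_smul, qf_one] at a
      rw [qf_smul, qf_compl hP]
      nlinarith [dot_split hP u])
  have h3 := h2.trans (gi_scale hP ht N one_pos (K := (n : ℝ) ^ 5) (by linarith))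
  change _ ≤ _ * Gi (MK P q D) at h3
  rw [gi_dg (dg_diagonal _) fun i => by linarith [hD i], gi_dg hm fun i => by linarith [h1 i],
    ← ex_add, div_one, Real.log_pow] at h3
  have := ex_le h3
  push_cast at this
  linarith

/-- comparison of the forms -/
lemma cmp {P B W W' : Mx n} (hP : IsProj P) (hn : 8 ≤ n) {q r σ : ℝ} (q1 : q ≤ 1 / 4) {D : V n}
    (hBD : P * B * P = P * diagonal D * P) (hW' : Ent W') (hWW : P * W * P = P * W' * P)
    (hX : (B + (2 : ℝ) • (1 : Mx n) - W)ᵀ = B + (2 : ℝ) • (1 : Mx n) - W)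
    (h1 : Le ((-10 : ℝ) • (1 : Mx n)) (B + (2 : ℝ) • (1 : Mx n) - W))
    (h2 : Le (B + (2 : ℝ) • (1 : Mx n) - W) ((10 : ℝ) • (1 : Mx n))) (hσ : r + 2 / n ≤ σ) :
    Le (B + (2 : ℝ) • (1 : Mx n) - W + r • (1 : Mx n))
      (MK P q D + (1 - 4 * q) • (1 : Mx n) - W' + σ • (1 : Mx n)) := by
  intro u
  have n8 : (8 : ℝ) ≤ n := by exact_mod_cast hn
  have n0 : (0 : ℝ) < n := by linarith
  set X := B + (2 : ℝ) • (1 : Mx n) - W with hXd
  set w := P *ᵥ u with hw
  set v := u - P *ᵥ u with hv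
  have huv : u = w + v := by simp [hw, hv]
  have w0 : 0 ≤ w ⬝ᵥ w := by rw [dot_sq]; positivity
  have v0 : 0 ≤ v ⬝ᵥ v := by rw [dot_sq]; positivity
  have s0 : u ⬝ᵥ u = w ⬝ᵥ w + v ⬝ᵥ v := dot_split hP u
  have a1 : u ⬝ᵥ X *ᵥ u = w ⬝ᵥ X *ᵥ w + 2 * (w ⬝ᵥ X *ᵥ v) + v ⬝ᵥ X *ᵥ v := by
    conv_lhs => rw [huv]
    exact qf_add_add hX w v
  have a2 : u ⬝ᵥ W' *ᵥ u = w ⬝ᵥ W' *ᵥ w + 2 * (w ⬝ᵥ W' *ᵥ v) + v ⬝ᵥ W' *ᵥ v := by
    conv_lhs => rw [huv]
    exact qf_add_add hW'.1 w v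
  have a3 : w ⬝ᵥ X *ᵥ w = w ⬝ᵥ diagonal D *ᵥ w + 2 * (w ⬝ᵥ w) - w ⬝ᵥ W' *ᵥ w := by
    rw [hXd, qf_sub, qf_add, qf_smul, qf_one, hw, ← qf_proj hP B, ← qf_proj hP W, hBD, hWW,
      qf_proj hP, qf_proj hP]
  have a4 : u ⬝ᵥ MK P q D *ᵥ u =
      (1 + 4 * q) * (w ⬝ᵥ w) + w ⬝ᵥ diagonal D *ᵥ w + (n : ℝ) ^ 5 * (v ⬝ᵥ v) := by
    rw [MK, qf_add, qf_proj hP, qf_smul, qf_compl hP, ← hw, ← hv, qf_diag, qf_diag, dot_sq w,
      mul_sum, ← sum_add_distrib]
    congr 1
    exact sum_congr rfl fun i _ => by ring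
  have b1 := cross hX h1 h2 (t := 1 / (10 * n)) (by positivity) w v
  have b2 := ent_form hW' w v (t := 1 / (2 * n ^ 2)) (by positivity)
  have b3 := ent_form hW' v v one_pos
  have b4 := h2 v
  rw [qf_smul, qf_one] at b4
  have c1 : 10 * (1 / (10 * (n : ℝ)) * (w ⬝ᵥ w) + v ⬝ᵥ v / (1 / (10 * n))) =
      1 / n * (w ⬝ᵥ w) + 100 * n * (v ⬝ᵥ v) := by field_simp; ring
  have c2 : 2 * (n : ℝ) * (1 / (2 * n ^ 2) * (w ⬝ᵥ w) + v ⬝ᵥ v / (1 / (2 * n ^ 2))) =
      1 / n * (w ⬝ᵥ w) + 4 * n ^ 3 * (v ⬝ᵥ v) := by field_simp; ring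
  rw [c1] at b1
  rw [c2] at b2
  rw [div_one, one_mul] at b3
  have d1 := le_abs_self (w ⬝ᵥ W' *ᵥ v)
  have d2 := le_abs_self (v ⬝ᵥ W' *ᵥ v)
  have hK : 4 * (n : ℝ) ^ 3 + 102 * n + 10 ≤ (n : ℝ) ^ 5 := by
    have e1 : (64 : ℝ) ≤ (n : ℝ) ^ 2 := by nlinarith
    have e2 : 64 * (n : ℝ) ≤ (n : ℝ) ^ 3 := by nlinarith
    have e3 : 64 * (n : ℝ) ^ 3 ≤ (n : ℝ) ^ 5 := by nlinarith [pow_pos n0 3]
    linarith
  have d3 := mul_le_mul_of_nonneg_right hK v0
  have d4 := mul_le_mul_of_nonneg_right hσ (add_nonneg w0 v0)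
  have d5 : 0 ≤ 2 / (n : ℝ) * (v ⬝ᵥ v) := by positivity
  have d6 : 0 ≤ (1 - 4 * q) * (v ⬝ᵥ v) := mul_nonneg (by linarith) v0
  have d7 : 2 / (n : ℝ) * (w ⬝ᵥ w) = 2 * (1 / n * (w ⬝ᵥ w)) := by ring
  rw [qf_add, qf_add, qf_sub (MK P q D + _), qf_add, qf_smul, qf_smul, qf_smul, qf_one, a1, a2,
    a3, a4, s0]
  nlinarith

lemma sq_aux {d w r u l : ℝ} (d0 : 0 < d) (d1 : d ≤ 1 / 10) (r0 : 0 ≤ r) (w1 : w ≤ 1)
    (h : w + 3 * d ≤ u) (hl : l = -(u + r)) :
    (w + r + 3 * d) ^ 2 ≤ l ^ 2 - u ^ 2 + w ^ 2 + 8 * d := by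
  have a : 0 ≤ r * (u - w - 3 * d) := mul_nonneg r0 (by linarith)
  rw [hl]
  nlinarith

end Lo54

set_option maxHeartbeats 800000 in
open Lo54 in
/-- **lower bound of the quartic integral** -/
theorem loStmt : LoStmt := by
  refine ⟨17, fun n ε q y P B D hp y0 y1 hP ht hD hB hBD hB1 hB2 => ?_⟩
  obtain ⟨hn, e0, e1, q0, q1, nq⟩ := hp
  have n8 : (8 : ℝ) ≤ n := by exact_mod_cast hn
  have n0 : (0 : ℝ) < n := by linarith
  have : Nonempty (Fin n) := ⟨⟨0, by omega⟩⟩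
  have q2 : q ≤ 1 / 100 := by
    have : ε ^ 3 ≤ 1 := pow_le_one₀ e0.le (by linarith)
    linarith
  have nq' : 1 / (n : ℝ) ≤ q / 100 := by
    rw [div_le_iff₀ n0]; nlinarith [mul_pos n0 q0]
  have l1 : 1 ≤ Real.log n := by
    rw [Real.le_log_iff_exp_le n0]; linarith [Real.exp_one_lt_d9]
  set s : ℝ := 1 / √(n : ℝ) with hs
  have sq0 : 0 < √(n : ℝ) := Real.sqrt_pos.2 n0
  have s0 : 0 < s := by positivity
  have s2 : s ^ 2 = 1 / n := by rw [hs, div_pow, Real.sq_sqrt n0.le, one_pow]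
  obtain ⟨m0, hm0⟩ := dg_symm (MK_symm hP q D)
  obtain ⟨m1, m2⟩ := MK_spec hP ht hn q0 (by linarith) hD.lo hm0
  set w : ℝ := 1 - 4 * q with hw
  set M : Mx n := MK P q D + w • (1 : Mx n) with hM
  have hm : Dg M fun i => m0 i + w := by simpa using dg_affine hm0 1 w
  have hS : Sk 2 s (fun i => m0 i + w) w ≤ 1 - q := by
    have a : ∀ i, ((m0 i + w - w) ^ 2)⁻¹ ≤ 1 - q := fun i => by
      have b := m1 i
      rw [add_sub_cancel_right, inv_le_iff_one_le_mul₀ (pow_pos (by linarith) 2)]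
      have c : (1 + q) ^ 2 ≤ m0 i ^ 2 := pow_le_pow_left₀ (by linarith) b 2
      nlinarith [mul_le_mul_of_nonneg_left c (show 0 ≤ 1 - q by linarith), mul_pos q0 q0]
    have b := sum_le_sum fun i (_ : i ∈ Finset.univ) => a i
    rw [sum_const, card_univ, Fintype.card_fin, nsmul_eq_mul] at b
    rw [Sk, s2, one_div, inv_mul_le_iff₀ n0]; exact b
  refine ⟨{W' | Ent W' ∧ ∀ j ∈ range (8 * n), GoodD s M (fun i => m0 i + w) (-(j / n)) w y W'},
    ?_, ?_⟩
  · have hs : {W' : Mx n | Ent W' ∧ ∀ j ∈ range (8 * n),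
        GoodD s M (fun i => m0 i + w) (-(j / n)) w y W'}ᶜ ⊆ {W | ¬ Ent W} ∪
        ⋃ j ∈ range (8 * n), {W | ¬ GoodD s M (fun i => m0 i + w) (-(j / n)) w y W} := by
      intro W hW
      by_contra hc
      simp only [Set.mem_union, Set.mem_iUnion, not_or, not_exists, Set.mem_ofPred_eq,
        not_not] at hc
      exact hW hc
    have b1 := prob_ent (n := n) (by omega)
    have b2 : GOE n (⋃ j ∈ range (8 * n),
        {W | ¬ GoodD s M (fun i => m0 i + w) (-(j / n)) w y W}) ≤ (8 * n : ℕ) * ex (-y) := by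
      refine (measure_biUnion_finset_le _ _).trans ((sum_le_sum (g := fun _ => ex (-y))
        fun j _ => ?_).trans (le_of_eq ?_))
      · exact ENNReal.le_ofReal_iff_toReal_le (measure_ne_top _ _) (Real.exp_pos _).le |>.2
          (prob_goodD s0.ne' hm (fun i => by linarith [m1 i]) (by linarith) _ y)
      · rw [sum_const, card_range, nsmul_eq_mul]
    refine (measure_mono hs).trans ((measure_union_le _ _).trans ((add_le_add
      (b1.trans (mul_le_mul_right (ex_mono (by linarith : -(n : ℝ) ≤ -y)) _)) b2).trans ?_))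
    rw [← add_mul, ← Nat.cast_add, sub_eq_add_neg, ex_add]
    refine mul_le_mul_left ?_ _
    rw [ex, ← ENNReal.ofReal_natCast, Real.exp_nat_mul, Real.exp_log n0]
    refine ENNReal.ofReal_le_ofReal ?_
    have : (n : ℝ) ^ 3 ≤ (n : ℝ) ^ 17 := pow_le_pow_right₀ (by linarith) (by norm_num)
    push_cast
    nlinarith
  · rintro W' ⟨hE, hG⟩ W hWW ⟨b, hb, hb'⟩ hnot
    have u1 : 1 ≤ uu ε := by unfold uu; linarith
    have u2 : uu ε ≤ 2 := by unfold uu; linarith
    set u0 := uu ε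
    have hX : (B + (2 : ℝ) • (1 : Mx n) - W)ᵀ = B + (2 : ℝ) • (1 : Mx n) - W := by
      rw [transpose_sub, transpose_add, transpose_smul, transpose_one, hB, hb.symm]
    have w1 := dg_le hb fun i => (hb' i).2
    have w2 := dg_ge hb fun i => (hb' i).1
    have x1 : Le ((-3 : ℝ) • (1 : Mx n)) (B + (2 : ℝ) • (1 : Mx n) - W) := fun u => by
      have a := hB1 u
      have c := w1 u
      simp only [qf_sub, qf_add, qf_smul, qf_one] at a c ⊢
      linarith
    have x2 : Le (B + (2 : ℝ) • (1 : Mx n) - W) ((10 : ℝ) • (1 : Mx n)) := fun u => by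
      have a := hB2 u
      have c := w2 u
      simp only [qf_sub, qf_add, qf_smul, qf_one] at a c ⊢
      linarith
    obtain ⟨x, hx⟩ := dg_symm hX
    have hA : Dg (B + (2 - u0) • (1 : Mx n) - W) fun i => x i - u0 := by
      convert hx.sub u0 using 1
      rw [sub_smul]; abel
    have x3 := ge_dg hx x1
    obtain ⟨i0, hi0⟩ : ∃ i, x i < 0 := by
      by_contra hc
      refine hnot fun u => ?_
      have := dg_ge hx (c := 0) (fun i => not_lt.1 fun h => hc ⟨i, h⟩) u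
      simp only [qf_sub, qf_add, qf_smul, qf_one] at this ⊢
      linarith
    obtain ⟨l, h1, h2, -, h4⟩ := II_lower hA s0 (α := 5) (Λ := 8) (by norm_num)
      (fun i => by linarith [x3 i]) (by
        rw [Fintype.card_fin, Real.sqrt_mul (by norm_num), hs, div_mul_eq_mul_div, one_mul,
          add_div, mul_div_assoc, div_self sq0.ne']
        have a : 1 / √(n : ℝ) ≤ 1 := by
          rw [div_le_one sq0]; exact Real.one_le_sqrt.2 (by linarith)
        have c : √2 ≤ 2 := Real.sqrt_le_iff.2 ⟨by norm_num, by norm_num⟩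
        linarith)
    refine le_trans ?_ h4
    set r := -u0 - l with hr
    have r0 : 0 < r := by linarith [h1 i0]
    have r1 : r ≤ 7 := by linarith
    set j := ⌈r * n⌉₊ + 2 with hj
    have j1 : r + 2 / n ≤ (j : ℝ) / n := by
      rw [le_div_iff₀ n0, add_mul, div_mul_cancel₀ _ n0.ne', hj]
      push_cast; linarith [Nat.le_ceil (r * n)]
    have j2 : (j : ℝ) / n ≤ r + 3 * (1 / n) := by
      rw [div_le_iff₀ n0, add_mul, mul_assoc, div_mul_cancel₀ _ n0.ne', hj]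
      push_cast; linarith [Nat.ceil_lt_add_one (mul_pos r0 n0).le]
    have j3 : j < 8 * n := by
      have : ⌈r * n⌉₊ ≤ 7 * n := Nat.ceil_le.2 (by push_cast; nlinarith)
      omega
    have hc := cmp (q := q) hP hn (by linarith) hBD hE hWW hX
      (fun u => le_trans (by
        simp only [qf_smul, qf_one]
        have : 0 ≤ u ⬝ᵥ u := by rw [dot_sq]; positivity
        linarith) (x1 u)) x2 j1
    obtain ⟨a', ha'⟩ := dg_symm (W := M - W') (by
      rw [hM, transpose_sub, transpose_add, transpose_smul, transpose_one, MK_symm hP, hE.1])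
    have k1 : Dg (B + (2 : ℝ) • (1 : Mx n) - W + r • (1 : Mx n)) fun i => x i - u0 - l := by
      have := dg_affine hx 1 r
      simp only [one_smul, one_mul] at this
      convert this using 2; rw [hr]; ring
    have k2 : Dg (M - W' + ((j : ℝ) / n) • (1 : Mx n)) fun i => a' i - -((j : ℝ) / n) := by
      have := dg_affine ha' 1 ((j : ℝ) / n)
      simp only [one_smul, one_mul] at this
      convert this using 2; ring
    have hpos : ∀ i, 0 < x i - u0 - l := fun i => sub_pos.2 (h1 i)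
    obtain ⟨k3, k4⟩ := ld_mono k1 k2 hpos hc
    have k5 := (hG j (mem_range.2 j3)).up (fun i => by linarith [m1 i]) (by linarith) ha'
      fun i => sub_pos.1 (k3 i)
    have k6 : -Real.log n ≤ Real.log (1 - Sk 2 s (fun i => m0 i + w) w) := by
      rw [← Real.log_inv]
      exact Real.log_le_log (by positivity) (by rw [← one_div]; linarith)
    have k7 := sum_log e0 q0 q2 hD
    simp only [psi, add_sub_cancel_right, s2] at k5
    have k8 : (w - -((j : ℝ) / n)) ^ 2 / (2 * (1 / n)) ≤ n * (w + r + 3 * (1 / n)) ^ 2 / 2 := by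
      have a : (w - -((j : ℝ) / n)) ^ 2 ≤ (w + r + 3 * (1 / n)) ^ 2 :=
        pow_le_pow_left₀ (by have : 0 ≤ (j : ℝ) / n := by positivity
                             linarith) (by linarith) 2
      rw [show (w - -((j : ℝ) / n)) ^ 2 / (2 * (1 / n)) = n * (w - -((j : ℝ) / n)) ^ 2 / 2 by
        field_simp]
      gcongr
    have k9 : (w + r + 3 * (1 / n)) ^ 2 ≤ l ^ 2 - u0 ^ 2 + w ^ 2 + 8 * (1 / n) :=
      sq_aux (by positivity) (by linarith) r0.le (by linarith) (by linarith) (by rw [hr]; ring)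
    have k10 : (n : ℝ) * (w + r + 3 * (1 / n)) ^ 2 ≤ n * (l ^ 2 - u0 ^ 2 + w ^ 2) + 8 := by
      have := mul_le_mul_of_nonneg_left k9 n0.le
      rwa [mul_add, mul_left_comm, mul_one_div_cancel n0.ne', mul_one] at this
    have p1 : 0 < ∏ i, (√(x i - u0 - l))⁻¹ :=
      prod_pos fun i _ => inv_pos.2 (Real.sqrt_pos.2 (hpos i))
    have k11 : -(6 * Real.log n) ≤ Real.log (s / (256 * n * 8)) := by
      rw [show -(6 * Real.log n) = Real.log (((n : ℝ) ^ 6)⁻¹) by
        rw [Real.log_inv, Real.log_pow]; norm_num]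
      refine Real.log_le_log (by positivity) ?_
      rw [hs, div_div, one_div]
      refine inv_anti₀ (by positivity) ?_
      have a : √(n : ℝ) ≤ n := Real.sqrt_le_iff.2 ⟨n0.le, by nlinarith⟩
      have c : (2048 : ℝ) ≤ (n : ℝ) ^ 4 :=
        le_trans (by norm_num) (pow_le_pow_left₀ (by norm_num) n8 4)
      calc √(n : ℝ) * (256 * n * 8) = 2048 * (√(n : ℝ) * n) := by ring
        _ ≤ (n : ℝ) ^ 4 * (n * n) := by gcongr
        _ = (n : ℝ) ^ 6 := by ring
    refine ENNReal.ofReal_le_ofReal ?_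
    rw [Fintype.card_fin, ← Real.le_log_iff_exp_le (by positivity),
      Real.log_mul (by positivity) p1.ne', Real.log_mul (by positivity) (by positivity),
      Real.log_exp, log_prod_sqrt hpos, s2,
      show l ^ 2 / (4 * (1 / (n : ℝ))) = n * l ^ 2 / 4 by field_simp]
    have k12 : 0 ≤ q ^ 3 * n := by positivity
    have k13 : (n : ℝ) * (l ^ 2 - u0 ^ 2 + w ^ 2) =
        n * l ^ 2 - n * u0 ^ 2 + n - 8 * (q * n) + 16 * (q ^ 2 * n) := by rw [hw]; ring
    have k14 : (4 * q - 8 * q ^ 2 + 80 * q ^ 3) * n =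
        4 * (q * n) - 8 * (q ^ 2 * n) + 80 * (q ^ 3 * n) := by ring
    have k15 : (n : ℝ) * (u0 ^ 2 / 4 - 1 / 4) = n * u0 ^ 2 / 4 - n / 4 := by ring
    have k16 : 200 * q ^ 3 * n = 200 * (q ^ 3 * n) := by ring
    rw [k13] at k10
    rw [k14] at k7
    rw [k15, k16, Nat.cast_ofNat]
    clear_value r j w s
    linarith only [k4, k5, k6, k7, k8, k10, k11, k12, m2, l1]

end Crest.Agent.T157.Qe

end
end

-- ▼ part T157/KbU_24
section

/-!
# Row 157, part A2 (helper24): `Kb.coreU`, the conditional form of (3q) uniformly in `ε`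

The proof is helper78's `Qe.coreGlue` with the uniform criterion `Qe.numU` of helper43.
-/

set_option autoImplicit false

noncomputable section

namespace Crest.Agent.T157.Qe

open Matrix Finset MeasureTheory Set
open scoped ENNReal
open Crest.Agent.T157.E Crest.Agent.T157.Cond Crest.Agent.T157.Dq
open Crest.Agent.T157.Conc (ex ex_add ex_mono ex_ne_top ex_zero measurable_ex)
open Core78

set_option maxHeartbeats 800000 in
theorem coreU24 : Kb.CoreU := by
  obtain ⟨Cu, hU⟩ := upGlue qsStmt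
  obtain ⟨Cl, hL⟩ := loStmt
  obtain ⟨Ct, hT⟩ := tiGlue qsStmt
  intro C hC Cw hCw
  obtain ⟨k0, hk0', hN⟩ := numU C hC
  refine ⟨min k0 (min (1 / 100) (1 / (1100 * (1 + Cw)))),
    lt_min hk0' (lt_min (by norm_num) (by positivity)), Cu + Cl + Ct + 1, ?_⟩
  intro n ε q E β D e c τ S hn hε hq hnq hE hS hD hst0
  have he0 : 0 < ε := hε.1
  have hq0' : 0 < q := hq.1
  have m1 := min_le_left k0 (min (1 / 100) (1 / (1100 * (1 + Cw))))
  have m2 := (min_le_right k0 _).trans (min_le_left (1 / 100 : ℝ) (1 / (1100 * (1 + Cw))))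
  have m3 := (min_le_right k0 _).trans (min_le_right (1 / 100 : ℝ) (1 / (1100 * (1 + Cw))))
  have he1 : ε ≤ 1 / 100 := hε.2.trans m2
  have e9 : 0 < ε ^ 9 := by positivity
  have e6 : ε ^ 9 ≤ ε ^ 3 / 10 ^ 6 := by
    have h6 : ε ^ 6 ≤ (1 / 100) ^ 6 := pow_le_pow_left₀ he0.le he1 6
    have := mul_le_mul_of_nonneg_left h6 (by positivity : 0 ≤ ε ^ 3)
    have h3 : 0 ≤ ε ^ 3 := by positivity
    rw [show ε ^ 9 = ε ^ 3 * ε ^ 6 by ring]
    linarith
  have hq1 : q ≤ ε ^ 3 / 10 ^ 6 := by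
    have := mul_le_mul_of_nonneg_right m2 e9.le
    linarith [hq.2]
  have hq2 : 1100 * (1 + Cw) * q ≤ ε ^ 3 := by
    have h1 := hq.2.trans (mul_le_mul_of_nonneg_right m3 e9.le)
    rw [div_mul_eq_mul_div, one_mul, le_div_iff₀ (by positivity)] at h1
    have h3 : 0 ≤ ε ^ 3 := by positivity
    linarith
  have hP : Par n ε q := ⟨hn, he0, he1, hq0', hq1, hnq⟩
  have hst : St C (k0 * ε ^ 9) q D β e c τ :=
    hst0.mono43 (by linarith) hq0'.le (mul_le_mul_of_nonneg_right m1 e9.le)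
  obtain ⟨hF, hle⟩ := hN n ε q β D e c τ (by omega) ⟨he0, hε.2.trans m1⟩
    ⟨hq0', hq.2.trans (mul_le_mul_of_nonneg_right m1 e9.le)⟩ hD.lo hst
  have he := hst.unit
  have hn8 : (8 : ℝ) ≤ n := by exact_mod_cast hn
  have hlog : Real.log 8 ≤ Real.log n := Real.log_le_log (by norm_num) hn8
  have hlog0 : 0 ≤ Real.log n := Real.log_nonneg (by linarith)
  obtain ⟨hq3, hx1, h4, hy1, f1, f2⟩ := nums he0 he1 hq0' hq1 (Nat.cast_nonneg (α := ℝ) n)
  have hgap := zz_gap (ε := ε) (q := q) (by positivity) hx1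
  set z := zz (gg ε q) with hz
  set k := q ^ 2 / ε / (τ ⬝ᵥ τ) with hk
  have hk0 : 0 ≤ k := div_nonneg (by positivity) (dot_self_nonneg τ)
  set P := P3 e c τ with hPd
  set B : Mx n := diagonal D - β • vecMulVec e e with hB
  have hPp : IsProj P := proj3 he c τ
  have hBs : Bᵀ = B := by
    rw [hB, Matrix.transpose_sub, Matrix.transpose_smul, Matrix.transpose_vecMulVec,
      Matrix.diagonal_transpose]
  have hPB : P * B * P = P * diagonal D * P := by
    rw [hB, Matrix.mul_sub, Matrix.mul_smul, vmv_zl (p3_e he c τ), smul_zero, sub_zero]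
  have hEm := meas_Ev z k e c τ hS.meas
  have hQ : QD P (Sg z e c + Tm ε q τ) ((GOE n).restrict (Ev z k e c τ S)) (Wm e c τ)
      (gg ε q) E := by
    refine ⟨hPp, tr3 he c τ, inferInstance, meas_wm e c τ, inv_Ev he c τ hS.meas hS.inv, ?_, ?_,
      ?_, ?_⟩
    · simp only [Sg, Tm, Matrix.transpose_add, Matrix.transpose_smul, Matrix.transpose_vecMulVec]
    · have : P *ᵥ (z • e - c) = 0 := by
        rw [Matrix.mulVec_sub, Matrix.mulVec_smul, p3_e he, p3_c he, smul_zero, sub_zero]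
      rw [Sg, Tm, Matrix.add_mul, Matrix.smul_mul, Matrix.smul_mul, vmv_zr hPp.symm this,
        vmv_zr hPp.symm (p3_t he c τ), smul_zero, smul_zero, add_zero]
    · intro u
      rw [Matrix.zero_mulVec, dotProduct_zero, Sg, Tm, Matrix.add_mulVec, dotProduct_add,
        Matrix.smul_mulVec, Matrix.smul_mulVec, dotProduct_smul, dotProduct_smul, Core78.qf_vmv, Core78.qf_vmv,
        smul_eq_mul, smul_eq_mul]
      exact add_nonneg (mul_nonneg (inv_nonneg.2 hF.pos.le) (sq_nonneg _))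
        (mul_nonneg hk0 (sq_nonneg _))
    · refine (ae_restrict_mem hEm).mono fun W hW => ?_
      obtain ⟨a, ha, ha1, ha2, -⟩ := hS.sp _ hW.1
      exact ⟨⟨a, ha, fun i => ⟨(ha1 i).1, (ha1 i).2.trans_lt hgap⟩, ha2⟩,
        le_sg ha.symm he hst.orth (wm_e he c τ W) hF.pos hW.2⟩
  have hup := hU n ε q E P _ B _ _ D hP hE hQ hD hBs hPB hle
  set y := ε ^ 2 * q ^ 2 * n / 256 with hy
  have hy0 : 0 ≤ y := by positivity
  have hB1 : Le ((-2 : ℝ) • (1 : Mx n)) B := by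
    intro u
    rw [Core78.qf_one, hB, Matrix.sub_mulVec, dotProduct_sub, Matrix.smul_mulVec, dotProduct_smul,
      Core78.qf_vmv, qf_diag, smul_eq_mul]
    have h1 : ∑ i, -1 * u i ^ 2 ≤ ∑ i, D i * u i ^ 2 := Finset.sum_le_sum fun i _ =>
      mul_le_mul_of_nonneg_right (by linarith [hD.lo i]) (sq_nonneg _)
    rw [← Finset.mul_sum, ← dot_sq] at h1
    have h2 := unit_cs he u
    have h3 := mul_le_mul_of_nonneg_right hst.b1 (sq_nonneg (e ⬝ᵥ u))
    linarith
  have hB2 : Le B ((4 : ℝ) • (1 : Mx n)) := by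
    intro u
    rw [Core78.qf_one, hB, Matrix.sub_mulVec, dotProduct_sub, Matrix.smul_mulVec, dotProduct_smul,
      Core78.qf_vmv, qf_diag, smul_eq_mul]
    have h1 : ∑ i, D i * u i ^ 2 ≤ ∑ i, 3 * u i ^ 2 := Finset.sum_le_sum fun i _ =>
      mul_le_mul_of_nonneg_right (hD.hi i) (sq_nonneg _)
    rw [← Finset.mul_sum, ← dot_sq] at h1
    have h2 := mul_nonneg hst.b0 (sq_nonneg (e ⬝ᵥ u))
    have h3 := dot_self_nonneg u
    linarith
  obtain ⟨G, hG, hlo⟩ := hL n ε q y P B D hP hy0 hy1 hPp (tr3 he c τ) hD hBs hPB hB1 hB2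
  have hti := hT n ε q E Cw e c τ S hP hCw hq2 hS hF
  set lb := n * (uu ε ^ 2 / 4 - 1 / 4) - GG D 1 - 200 * q ^ 3 * n - y / 4 - Cl * Real.log n
    with hlb
  have hI : Measurable fun W => II (1 / Real.sqrt n) (B + (2 - uu ε) • (1 : Mx n) - Wm e c τ W) :=
    (measurable_II _ _).comp (meas_wm e c τ)
  have hν : (GOE n).restrict (Ev z k e c τ S) univ ≤ 1 := by
    rw [Measure.restrict_apply_univ]; exact prob_le_one
  have hmk := markov (a := lb) hI (hup.trans (mul_le_of_le_one_left' hν))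
  rw [Measure.restrict_apply' hEm] at hmk
  have hsub : {W | Wm e c τ W ∈ S ∧ ¬ Le (Wm e c τ W) (Mm D β e)} ⊆
      ({W | Wm e c τ W ∈ S ∧ ¬ Le (Wm e c τ W + Tm ε q τ) (z • (1 : Mx n))} ∪ Gᶜ) ∪
      ({W | ex lb ≤ II (1 / Real.sqrt n) (B + (2 - uu ε) • (1 : Mx n) - Wm e c τ W)} ∩
        Ev z k e c τ S) := by
    rintro W ⟨h1, h2⟩
    by_cases h3 : Le (Wm e c τ W + Tm ε q τ) (z • (1 : Mx n))
    · by_cases h4' : W ∈ G
      · right
        obtain ⟨a, ha, ha1, -⟩ := hS.sp _ h1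
        exact ⟨hlo W h4' _ (p_wm he c τ W)
          ⟨a, ha, fun i => ⟨(ha1 i).1, by linarith [(ha1 i).2]⟩⟩ h2, h1, h3⟩
      · exact Or.inl (Or.inr h4')
    · exact Or.inl (Or.inl ⟨h1, h3⟩)
  have c1 : 0 ≤ (Cu : ℝ) * Real.log n := by positivity
  have c2 : 0 ≤ (Cl : ℝ) * Real.log n := by positivity
  have c3 : 0 ≤ (Ct : ℝ) * Real.log n := by positivity
  set x := (Cu + Cl + Ct : ℝ) * Real.log n + E / 2 - ε ^ 9 * q ^ 2 * n / 64 with hx
  have g1 := hti.trans (ex_mono (v := x) (by rw [hx]; linarith))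
  have g2 := hG.trans (ex_mono (v := x) (by rw [hx, hy]; linarith))
  have g3 := hmk.trans (ex_mono (v := x) (by rw [hx, hlb, hy]; linarith))
  refine (measure_mono hsub).trans ((measure_union_le _ _).trans ?_)
  refine (add_le_add ((measure_union_le _ _).trans (add_le_add g1 g2)) g3).trans ?_
  refine (three hlog).trans (ex_mono ?_)
  rw [hx]; push_cast; linarith


end Crest.Agent.T157.Qe

namespace Crest.Agent.T157.Kb


theorem coreU : CoreU := Qe.coreU24

end Crest.Agent.T157.Kb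

end
end

-- ▼ part T157/KbXdB_75
section

/-!
# Row 157, part A2 (helper75): the normalised statistics for `Kb.XdStmt`
-/

set_option autoImplicit false

noncomputable section

namespace Crest.Agent.T157.Kb.Xd75

open Matrix Filter Real
open Crest.Agent.T157.Tap

/-- the data of `XdStmt` -/
structure In (K : ℝ) where
  n : ℕ
  t : ℝ
  e : ℝ
  ε : ℝ
  k : ℝ
  d0 : ℝ
  S : Finset (Fin n)
  x : V n
  hn : 0 < n
  ht : 0 < t
  he : 0 < e
  e1 : e ≤ 1 / 2
  ε0 : 0 ≤ ε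
  qe : aS x ≤ e
  co : Co K e t x
  xm : XM e x
  ad : Ad e ε k d0 S x

variable {K : ℝ}

namespace In
variable (i : In K)

abbrev q : ℝ := aS i.x
abbrev p : V i.n := th i.x
abbrev f : V i.n := phS i.S i.x
abbrev r : V i.n := fun j => i.x j - th i.x j
abbrev D : V i.n := Dk i.k i.d0 i.S i.x
def al : ℝ := bS i.x / i.q
def de : ℝ := i.d0 / i.q ^ 2
def nu : ℝ := 1 / (1 - i.q)
def mu : ℝ := i.de - i.k * i.nu
def ka : ℝ := i.q * i.mu - i.k
def rh : ℝ := R4 i.x / i.q ^ 2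
def gm : ℝ := i.q / ga i.t i.x
def la : ℝ := i.t / i.q ^ 2 * (i.al - 1)
def b : ℝ := (avg (fun j => i.f j * i.p j) - 3 * bS i.x * i.q) / i.q ^ 2

lemma q0 : 0 < i.q := (aS_nonneg _).lt_of_ne' fun h => by
  have := i.co.q1
  rw [show aS i.x = 0 from h] at this
  linarith [i.ht]

lemma qn : i.q ≠ 0 := i.q0.ne'
lemma q1 : 1 - i.q ≠ 0 := ne_of_gt (by linarith [i.qe, i.e1])
lemma q3 : 0 < i.q ^ 3 := pow_pos i.q0 3

lemma avgN : avg (NS i.S i.x) ≤ 2 * (i.e * i.q ^ 3) := by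
  have a := i.xm.e8
  have b : avg (fun j => if j ∈ i.S then (1 : ℝ) else 0) ≤ i.e * i.q ^ 3 := by
    rw [avg, div_le_iff₀ (by exact_mod_cast i.hn)]
    simpa using i.ad.card
  unfold NS Mx8
  rw [avg_add]; linarith

lemma eq3 : i.e * i.q ^ 3 ≤ i.q ^ 3 / 2 := by nlinarith [i.q3, i.e1]
lemma q3e : i.q ^ 3 ≤ i.e * i.q ^ 2 := by nlinarith [sq_nonneg i.q, i.qe]

lemma avgB : avg (fun j => 8 * i.p j ^ 6 + 8 * NS i.S i.x j) ≤ 136 * i.q ^ 3 := by
  rw [avg_add, avg_mul, avg_mul]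
  linarith [i.avgN, i.eq3, (abs_le.1 i.xm.p6).2, i.q3]

lemma avgC : avg (fun j => 8 * NS i.S i.x j) ≤ 16 * (i.e * i.q ^ 3) := by
  rw [avg_mul]; linarith [i.avgN]

lemma b_sq : i.b ^ 2 ≤ 1000 * i.q := by
  have a := avg_near fun j => (pw i.S i.x j).a8
  have c := avg_cs (fun j => i.p j ^ 2) fun j => |i.p j| ^ 3
  simp only [← pow_mul, Even.pow_abs (by decide : Even (3 * 2))] at c
  have d := avg_nn (f := fun j => i.p j ^ 2 * |i.p j| ^ 3) fun j => by positivity
  have p4 : avg (fun j => i.p j ^ 4) ≤ 3 * i.q ^ 2 := by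
    linarith [(abs_le.1 i.xm.p4).2, i.eq3, i.q3]
  have p6 : avg (fun j => i.p j ^ 6) ≤ 16 * i.q ^ 3 := by
    linarith [(abs_le.1 i.xm.p6).2, i.eq3, i.q3]
  have c' := c.trans (mul_le_mul p4 p6 (avg_nn fun j => Even.pow_nonneg (by decide) _) (by positivity))
  rw [avg_add, avg_mul] at a
  have a' : |avg (fun j => i.f j * i.p j) - avg fun j => i.p j ^ 3| ≤
      2 * avg (fun j => i.p j ^ 2 * |i.p j| ^ 3) + 8 * i.q ^ 3 := by
    linarith [i.avgC, i.eq3, show avg (fun j => tanh (i.x j) ^ 2 * |tanh (i.x j)| ^ 3) =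
      avg (fun j => i.p j ^ 2 * |i.p j| ^ 3) from rfl, show avg (fun j => phS i.S i.x j *
        tanh (i.x j)) = avg (fun j => i.f j * i.p j) from rfl,
      show |avg (fun j => phS i.S i.x j * tanh (i.x j)) - avg fun j => tanh (i.x j) ^ 3| =
        |avg (fun j => i.f j * i.p j) - avg fun j => i.p j ^ 3| from rfl]
  have a2 := pow_le_pow_left₀ (abs_nonneg _) a' 2
  rw [sq_abs] at a2
  have x3 := i.xm.p3
  have q6 : i.q ^ 6 ≤ i.q ^ 5 := pow_le_pow_of_le_one i.q0.le (by linarith [i.qe, i.e1]) (by norm_num)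
  have q5 := pow_pos i.q0 5
  rw [b, div_pow, div_le_iff₀ (pow_pos (pow_pos i.q0 2) 2)]
  nlinarith [sq_nonneg (avg (fun j => i.p j ^ 2 * |i.p j| ^ 3) - 4 * i.q ^ 3),
    sq_nonneg ((avg (fun j => i.f j * i.p j) - avg fun j => i.p j ^ 3) -
      (avg (fun j => i.p j ^ 3) - 3 * bS i.x * i.q))]

lemma c0 : i.d0 - i.k * (i.q / (1 - i.q)) = i.q * i.ka := by
  have := i.qn
  have := i.q1
  rw [ka, mu, de, nu]; field_simp; ring

lemma avgD (w : V i.n) : avg (fun j => i.D j * w j) =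
    i.k * avg (fun j => i.f j * w j) + i.q * i.ka * avg w := by
  rw [← avg_mul, ← avg_mul, ← avg_add, ← c0]
  congr 1; funext j; simp only [Dk]; ring

lemma avgD2 (w : V i.n) : avg (fun j => i.D j ^ 2 * w j) = i.k ^ 2 * avg (fun j => i.f j ^ 2 * w j) +
    2 * i.k * (i.q * i.ka) * avg (fun j => i.f j * w j) + (i.q * i.ka) ^ 2 * avg w := by
  rw [← avg_mul, ← avg_mul, ← avg_mul, ← avg_add, ← avg_add, ← c0]
  congr 1; funext j; simp only [Dk]; ring

end In

/-- the relation `f = g + O(e)` on the data -/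
abbrev AP (f g : In K → ℝ) : Prop := Ap In.e f g

lemma cst (a : ℝ) : AP (K := K) (fun _ => a) fun _ => a := Ap.const (fun i => i.he.le) a

lemma bdd {F w : In K → ℝ} (C : ℝ) (hw : ∀ i, 0 < w i) (h : ∀ i, |F i| ≤ C * w i) :
    AP (fun i => F i / w i) fun i => F i / w i :=
  Ap.bd (C := C) (fun i => by rw [abs_div, abs_of_pos (hw i), div_le_iff₀ (hw i)]; exact h i)
    fun i => i.he.le

lemma sml {F w : In K → ℝ} (a C : ℝ) (hw : ∀ i, 0 < w i)
    (h : ∀ i, |F i - a * w i| ≤ C * (i.e * w i)) : AP (fun i => F i / w i) fun _ => a :=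
  Ap.sm (C := C) a (fun i => by
    rw [div_sub' (hw i).ne', abs_div, abs_of_pos (hw i), div_le_iff₀ (hw i), mul_comm (w i),
      mul_assoc]
    exact h i) fun i => ⟨i.he.le, by linarith [i.e1]⟩

lemma q2 (i : In K) : 0 < i.q ^ 2 := pow_pos i.q0 2

lemma aq : AP (K := K) In.q fun _ => 0 := Ap.sm (C := 1) 0
  (fun i => by rw [sub_zero, abs_of_pos i.q0, one_mul]; exact i.qe)
  fun i => ⟨i.he.le, by linarith [i.e1]⟩

lemma ak : AP (K := K) In.k In.k := Ap.bd (C := 2)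
  (fun i => abs_le.2 ⟨by linarith [i.ad.k1], by linarith [i.ad.k2]⟩) fun i => i.he.le

lemma aal : AP (K := K) In.al In.al := bdd K In.q0 fun i => i.co.a1

lemma d0_nn (i : In K) : 0 ≤ i.d0 := le_trans (mul_nonneg (by nlinarith [i.ad.k1, i.ε0])
  (sq_nonneg _)) i.ad.d1

lemma ade : AP (K := K) In.de In.de := bdd (9 / 8) q2 fun i => by
  rw [abs_of_nonneg (d0_nn i)]; exact i.ad.d2

lemma as1 : AP (K := K) (fun i => i.t / i.q ^ 2) fun i => i.t / i.q ^ 2 := bdd K q2 fun i => by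
  rw [abs_of_pos i.ht]; exact i.co.q1

lemma as2 : AP (K := K) (fun i => i.q ^ 2 / i.t) fun i => i.q ^ 2 / i.t := bdd K In.ht fun i => by
  rw [abs_of_pos (q2 i)]; exact i.co.q2

lemma aup : AP (K := K) (fun i => uR i.t i.x / i.q) fun i => uR i.t i.x / i.q :=
  bdd K In.q0 fun i => i.co.u1

lemma anu : AP (K := K) In.nu fun _ => 1 :=
  sml 1 2 (fun i => by linarith [i.qe, i.e1]) fun i => by
    rw [one_mul, sub_sub_cancel, abs_of_pos i.q0]; nlinarith [i.qe, i.e1, i.he]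

lemma agm : AP (K := K) In.gm fun _ => 1 :=
  sml 1 K (fun i => add_pos i.q0 i.ht) fun i => by
    have h : 0 ≤ K := by nlinarith [i.co.q1, i.ht, q2 i]
    rw [one_mul, ga, sub_add_cancel_left, abs_neg, abs_of_pos i.ht]
    exact i.co.q1.trans (mul_le_mul_of_nonneg_left (by nlinarith [i.qe, i.q0, i.ht, i.he]) h)

lemma arh : AP (K := K) In.rh fun _ => 1 := sml 1 1 q2 fun i => by simpa using i.co.r4

lemma ar3 : AP (K := K) (fun i => (R3 i.x - bS i.x * i.q) / i.q ^ 2) fun _ => 0 :=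
  sml 0 1 q2 fun i => by simpa using i.co.r3

lemma amu : AP (K := K) In.mu fun i => i.de - i.k * 1 := ade.sub (ak.mul anu)

lemma aka : AP (K := K) In.ka fun i => -i.k :=
  ((aq.mul amu).sub ak).congr (fun _ => rfl) fun _ => by ring

lemma ala : AP (K := K) In.la In.la := as1.mul (aal.sub (cst 1))

lemma ab : AP (K := K) In.b In.b := Ap.bd (C := 1000) (fun i => by
  have := i.b_sq
  rw [abs_le]; constructor <;> nlinarith [i.qe, i.e1]) fun i => i.he.le

lemma ab2 : AP (K := K) (fun i => i.b ^ 2 / i.q) fun i => i.b ^ 2 / i.q :=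
  bdd 1000 In.q0 fun i => by rw [abs_of_nonneg (sq_nonneg _)]; exact i.b_sq

lemma A1 : AP (K := K) (fun i => (avg i.f - i.q) / i.q ^ 2) fun _ => 3 := sml 3 145 q2 fun i => by
  have a := abs_le.1 ((avg_near fun j => (pw i.S i.x j).a1).trans i.avgB)
  rw [avg_add] at a
  have b := abs_le.1 i.xm.p4
  have c : avg (fun j => tanh (i.x j) ^ 2) = i.q := rfl
  have d : avg (fun j => tanh (i.x j) ^ 4) = avg fun j => th i.x j ^ 4 := rfl
  rw [abs_le]; constructor <;> linarith [a.1, a.2, b.1, b.2, i.eq3, i.q3e, i.q3]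

lemma A2 : AP (K := K) (fun i => avg (fun j => i.f j ^ 2) / i.q ^ 2) fun _ => 3 :=
  sml 3 145 q2 fun i => by
  have a := abs_le.1 ((avg_near fun j => (pw i.S i.x j).a2).trans i.avgB)
  have b := abs_le.1 i.xm.p4
  have d : avg (fun j => tanh (i.x j) ^ 4) = avg fun j => th i.x j ^ 4 := rfl
  rw [abs_le]; constructor <;> linarith [a.1, a.2, b.1, b.2, i.eq3, i.q3e, i.q3]

lemma A3 : AP (K := K) (fun i => (avg (fun j => i.f j * i.p j ^ 2) - 3 * i.q ^ 2) / i.q ^ 3)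
    fun _ => 7 := sml 7 18 In.q3 fun i => by
  have a : |avg (fun j => i.f j * i.p j ^ 2) - avg fun j => i.p j ^ 4 + i.p j ^ 6| ≤ _ :=
    (avg_near fun j => (pw i.S i.x j).a3).trans i.avgC
  rw [avg_add, abs_le] at a
  have b := abs_le.1 i.xm.p4
  have c := abs_le.1 i.xm.p6
  rw [abs_le]; constructor <;> linarith [a.1, a.2, b.1, b.2, c.1, c.2]

lemma A4 : AP (K := K) (fun i => avg (fun j => i.f j ^ 2 * i.p j ^ 2) / i.q ^ 3) fun _ => 15 :=
  sml 15 17 In.q3 fun i => by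
  have a : |avg (fun j => i.f j ^ 2 * i.p j ^ 2) - avg fun j => i.p j ^ 6| ≤ _ :=
    (avg_near fun j => (pw i.S i.x j).a4).trans i.avgC
  rw [abs_le] at a
  have c := abs_le.1 i.xm.p6
  rw [abs_le]; constructor <;> linarith [a.1, a.2, c.1, c.2]

lemma A5 : AP (K := K) (fun i => avg (fun j => i.f j * (i.p j * i.r j)) / i.q ^ 3) fun _ => 5 :=
  sml 5 17 In.q3 fun i => by
  have a : |avg (fun j => i.f j * (i.p j * i.r j)) - avg fun j => 1 / 3 * i.p j ^ 6| ≤ _ :=
    (avg_near fun j => (pw i.S i.x j).a5).trans i.avgC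
  rw [avg_mul, abs_le] at a
  have c := abs_le.1 i.xm.p6
  rw [abs_le]; constructor <;> linarith [a.1, a.2, c.1, c.2, mul_pos i.he i.q3]

lemma A6 : AP (K := K) (fun i => avg (fun j => i.r j ^ 2) / i.q ^ 3)
    fun i => avg (fun j => i.r j ^ 2) / i.q ^ 3 := bdd 136 In.q3 fun i => by
  rw [abs_of_nonneg (avg_nn fun j => sq_nonneg _)]
  exact (avg_mono fun j => (pw i.S i.x j).a6).trans i.avgB

lemma A7 : AP (K := K) (fun i => avg (fun j => i.f j ^ 2 * i.r j ^ 2) / i.q ^ 3) fun _ => 0 :=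
  sml 0 16 In.q3 fun i => by
  rw [zero_mul, sub_zero, abs_of_nonneg (avg_nn fun j => by positivity)]
  exact (avg_mono fun j => (pw i.S i.x j).a7).trans i.avgC

lemma A9 : AP (K := K) (fun i => avg (fun j => i.f j * i.r j ^ 2) / i.q ^ 3)
    fun i => avg (fun j => i.f j * i.r j ^ 2) / i.q ^ 3 := bdd 136 In.q3 fun i => by
  rw [abs_of_nonneg (avg_nn fun j => mul_nonneg (pw i.S i.x j).f0 (sq_nonneg _))]
  exact (avg_mono fun j => (mul_le_of_le_one_left (sq_nonneg _) (pw i.S i.x j).f1).trans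
    (pw i.S i.x j).a6).trans i.avgB

/-! ### moments of the diagonal -/

lemma T0 : AP (K := K) (fun i => avg i.D / i.q ^ 2) fun i => 2 * i.k + i.de :=
  ((ak.mul A1).add amu).congr (fun i => by
    have := i.qn
    have h := i.avgD fun _ => 1
    simp only [mul_one, avg_const i.hn] at h
    rw [show avg i.D = _ from h, In.ka]; field_simp; ring) fun i => by ring

lemma T1 : AP (K := K) (fun i => avg (fun j => i.D j ^ 2) / i.q ^ 2) fun i => 2 * i.k ^ 2 :=
  (((ak.sq.mul A2).add ((((cst 2).mul ak).mul aka).mul ((cst 1).add (aq.mul A1)))).add aka.sq).congr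
    (fun i => by
      have := i.qn
      have h := i.avgD2 fun _ => 1
      simp only [mul_one, avg_const i.hn] at h
      rw [h]; field_simp; ring) fun i => by ring

/-- second-order part of `avg D p²` -/
def U2 (i : In K) : ℝ := (avg (fun j => i.D j * i.p j ^ 2) - 2 * i.k * i.q ^ 2) / i.q ^ 3

lemma T2 : AP (K := K) U2 fun i => 6 * i.k + i.de :=
  ((ak.mul A3).add amu).congr (fun i => by
    have := i.qn
    rw [U2, i.avgD, In.ka, show avg (fun j => i.p j ^ 2) = i.q from rfl]; field_simp; ring)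
    fun i => by ring

lemma T3 : AP (K := K) (fun i => avg (fun j => i.D j ^ 2 * i.p j ^ 2) / i.q ^ 3)
    fun i => 10 * i.k ^ 2 :=
  (((ak.sq.mul A4).add ((((cst 2).mul ak).mul aka).mul ((cst 3).add (aq.mul A3)))).add aka.sq).congr
    (fun i => by
      have := i.qn
      rw [i.avgD2, show avg (fun j => i.p j ^ 2) = i.q from rfl]; field_simp; ring) fun i => by ring

lemma T4 : AP (K := K) (fun i => avg (fun j => i.D j * (i.p j * i.r j)) / i.q ^ 3)
    fun i => 4 * i.k :=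
  ((ak.mul A5).add (aka.mul arh)).congr (fun i => by
    have := i.qn
    rw [i.avgD, In.rh, show avg (fun j => i.p j * i.r j) = R4 i.x from rfl]; field_simp)
    fun i => by ring

lemma T5 : AP (K := K) (fun i => avg (fun j => i.D j ^ 2 * i.r j ^ 2) / i.q ^ 3) fun _ => 0 :=
  (((ak.sq.mul A7).add ((((cst 2).mul ak).mul (aq.mul aka)).mul A9)).add
    ((aq.mul aka).sq.mul A6)).congr (fun i => by rw [i.avgD2]; ring) fun i => by ring

/-- normalised `avg D p τ` -/
def HH (i : In K) : ℝ :=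
  (avg (fun j => i.D j * i.p j) - i.al * avg fun j => i.D j * i.p j ^ 2) / i.q ^ 2

lemma HH_eq (i : In K) : HH i = i.k * i.b + i.q * (i.al * (i.mu - U2 i)) := by
  have := i.qn
  rw [HH, U2, i.avgD i.p, In.b, In.ka, In.al, show avg i.p = bS i.x from rfl]; field_simp; ring

lemma T6 : AP (K := K) HH fun i => i.k * i.b :=
  ((ak.mul ab).add (aq.mul (aal.mul (amu.sub T2)))).congr HH_eq fun i => by ring

lemma T7 : ∃ g, AP (K := K) (fun i => HH i ^ 2 / i.q) g :=
  ⟨_, (((ak.sq.mul ab2).add (((cst 2).mul (ak.mul ab)).mul (aal.mul (amu.sub T2)))).add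
    (aq.mul (aal.mul (amu.sub T2)).sq)).congr (fun i => by
      have := i.qn
      rw [HH_eq]; field_simp; ring) fun _ => rfl⟩

end Crest.Agent.T157.Kb.Xd75

end
end

-- ▼ part T157/KbXd_75
section

/-!
# Row 157, part A2 (helper75): `Kb.xdStmt : XdStmt`
-/

set_option autoImplicit false

noncomputable section

namespace Crest.Agent.T157.Kb

open Matrix Filter Real
open Crest.Agent.T157.Tap Crest.Agent.T157.Cond
open Crest.Agent.T157.Qe (bv R1 Dv)

namespace Xd75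

variable {K : ℝ} {n : ℕ}

lemma dD (hn : 0 < n) (D u v : V n) :
    u ⬝ᵥ diagonal D *ᵥ v = n * avg fun j => D j * (u j * v j) := by
  rw [dot_eq hn]; congr 2; funext j; rw [mulVec_diagonal]; ring

lemma dDD (hn : 0 < n) (D u : V n) :
    (diagonal D *ᵥ u) ⬝ᵥ (diagonal D *ᵥ u) = n * avg fun j => D j ^ 2 * u j ^ 2 := by
  rw [dot_eq hn]; congr 2; funext j; rw [mulVec_diagonal]; ring

lemma bv_eq (e c : V n) : bv e c = c - (e ⬝ᵥ c) • e := by
  rw [bv, R1, sub_mulVec, one_mulVec, vecMulVec_mulVec, op_smul_eq_smul]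

lemma avg3 (a b c : ℝ) (f g h : V n) :
    avg (fun j => a * f j + b * g j + c * h j) = a * avg f + b * avg g + c * avg h := by
  rw [avg_add, avg_add, avg_mul, avg_mul, avg_mul]

namespace In
variable (i : In K)

def sg : ℝ := (len i.p)⁻¹
def ta : V i.n := fun j => 1 - i.al * i.p j
def m : V i.n := fun j => i.r j - i.q * i.rh * i.p j + i.q ^ 2 * i.la * i.ta j
def B0 : ℝ := 1 - i.q * i.al ^ 2
def E2 : ℝ := 2 * i.k + i.q * U2 i
def t3 : ℝ := avg (fun j => i.D j ^ 2 * i.p j ^ 2) / i.q ^ 3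
def B1 : ℝ := 2 * (avg (fun j => i.D j ^ 2) / i.q ^ 2) + 2 * (i.q * i.al ^ 2) * i.t3
def B2 : ℝ := avg i.D / i.q ^ 2 - 2 * i.al * HH i - i.al ^ 2 * i.E2
def B3 : ℝ := 3 * i.gm ^ 2 * (avg (fun j => i.r j ^ 2) / i.q ^ 3 + i.rh ^ 2 + i.q * i.la ^ 2 * i.B0)
def B4 : ℝ := 3 * i.gm ^ 2 * (avg (fun j => i.D j ^ 2 * i.r j ^ 2) / i.q ^ 3 +
  (i.q * i.rh) ^ 2 * i.t3 + i.q * (i.q * i.la) ^ 2 * i.B1)
def B5 : ℝ := i.gm * ((R3 i.x - bS i.x * i.q) / i.q ^ 2 - i.al * (i.rh - 1) + i.la * i.B0)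
def B6 : ℝ := i.t3 - i.E2 ^ 2
def B7 : ℝ := i.gm * (avg (fun j => i.D j * (i.p j * i.r j)) / i.q ^ 3 - i.rh * i.E2 +
  i.q * (i.la * HH i))
def B8 : ℝ := i.q * (uR i.t i.x / i.q) - (i.rh - 1) * (i.q ^ 2 / i.t) - i.q * (1 - i.al)

lemma n0 : (0 : ℝ) < i.n := by exact_mod_cast i.hn
lemma pp : avg (fun j => i.p j ^ 2) = i.q := rfl
lemma p1 : avg i.p = i.q * i.al := by rw [al, mul_div_cancel₀ _ i.qn]; rfl
lemma pr : avg (fun j => i.p j * i.r j) = i.q ^ 2 * i.rh := by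
  rw [rh, mul_div_cancel₀ _ (q2 i).ne']; rfl

lemma sg2 : i.sg * i.sg * i.n = 1 / i.q := by
  have := i.qn
  have := i.n0
  rw [sg, ← mul_inv, ← sq, len_sq, dot_eq i.hn]
  simp only [← sq, pp]
  field_simp

lemma ee_eq : ee i.x = i.sg • i.p := rfl

lemma bv_ee (v : V i.n) : bv (ee i.x) v = v - (avg (fun j => i.p j * v j) / i.q) • i.p := by
  rw [bv_eq, ee_eq, smul_dotProduct, smul_smul, dot_eq i.hn, smul_eq_mul]
  congr 2
  linear_combination (avg fun j => i.p j * v j) * i.sg2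

lemma tau_eq : tau i.x = i.ta := by
  rw [tau, bv_ee]
  simp only [Pi.one_apply, mul_one]
  rfl

lemma mb_eq : mb i.t i.x = (i.sg * i.gm) • i.m := by
  have h : avg (fun j => i.p j * i.x j) = i.q ^ 2 * i.rh + i.q := by
    rw [← pr, ← pp, ← avg_add]; congr 1; funext j; ring
  have := i.qn
  have : ga i.t i.x ≠ 0 := (add_pos i.q0 i.ht).ne'
  rw [mb, bv_ee, tau_eq, h, mul_smul]
  congr 1
  funext j
  simp only [Pi.add_apply, Pi.smul_apply, Pi.sub_apply, smul_eq_mul, m, gm, la, al]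
  field_simp
  ring

lemma ta2 : avg (fun j => i.ta j ^ 2) = i.B0 := by
  have := avg3 1 (-2 * i.al) (i.al ^ 2) (fun _ => 1) i.p fun j => i.p j ^ 2
  rw [avg_const i.hn, p1, pp] at this
  rw [B0]
  refine Eq.trans (congrArg avg (funext fun j => ?_)) (this.trans (by ring))
  rw [ta]; ring

lemma Dp2 : avg (fun j => i.D j * i.p j ^ 2) = i.q ^ 2 * i.E2 := by
  have := i.qn
  rw [E2, U2]; field_simp; ring

lemma Dpt : avg (fun j => i.D j * (i.p j * i.ta j)) = i.q ^ 2 * HH i := by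
  rw [HH, mul_div_cancel₀ _ (q2 i).ne', ← avg_mul, ← avg_sub]
  congr 1; funext j; rw [ta]; ring

lemma Dt2 : avg (fun j => i.D j ^ 2 * i.ta j ^ 2) ≤ i.q ^ 2 * i.B1 := by
  have := i.qn
  refine (avg_mono (g := fun j => 2 * i.D j ^ 2 + 2 * i.al ^ 2 * (i.D j ^ 2 * i.p j ^ 2))
    fun j => ?_).trans_eq ?_
  · rw [ta]; nlinarith [mul_nonneg (sq_nonneg (i.D j)) (sq_nonneg (1 + i.al * i.p j))]
  · rw [avg_add, avg_mul, avg_mul, B1, t3]; field_simp

lemma m2 (w : V i.n) : avg (fun j => w j ^ 2 * i.m j ^ 2) ≤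
    3 * avg (fun j => w j ^ 2 * i.r j ^ 2) +
      3 * (i.q * i.rh) ^ 2 * avg (fun j => w j ^ 2 * i.p j ^ 2) +
      3 * (i.q ^ 2 * i.la) ^ 2 * avg fun j => w j ^ 2 * i.ta j ^ 2 := by
  rw [← avg3]
  refine avg_mono fun j => ?_
  rw [m]
  generalize i.q * i.rh = a
  generalize i.q ^ 2 * i.la = b
  nlinarith [mul_nonneg (sq_nonneg (w j)) (sq_nonneg (i.r j + a * i.p j)),
    mul_nonneg (sq_nonneg (w j)) (sq_nonneg (i.r j - b * i.ta j)),
    mul_nonneg (sq_nonneg (w j)) (sq_nonneg (a * i.p j + b * i.ta j))]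

lemma d1 : tau i.x ⬝ᵥ tau i.x = i.B0 * i.n := by
  rw [tau_eq, dot_eq i.hn, mul_comm, ← ta2]; simp only [sq]

lemma d2 : 2 - ec i.t i.x - i.t / i.q = i.B8 * (i.t / i.q) := by
  have h : ww i.t i.x = R4 i.x + (i.q + i.t) * i.q - i.t - (bS i.x + i.t) * bS i.x := by
    have := avg3 1 1 (-(bS i.x + i.t)) (fun j => i.p j * i.r j) (fun j => i.p j ^ 2) i.p
    rw [ww, ga, show avg (fun j => th i.x j * (i.x j - Kb.mu i.t i.x)) = _ from
      Eq.trans (congrArg avg (funext fun j => by rw [Kb.mu]; ring)) this]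
    change 1 * R4 i.x + 1 * i.q + _ * bS i.x - _ = _
    ring
  have := i.qn
  have := i.ht.ne'
  have : i.t + 2 * i.q ≠ 0 := by linarith [i.q0, i.ht]
  rw [ec, B8, uR, ga, h, rh, al, show aS i.x + i.t + aS i.x = i.t + 2 * i.q by ring]
  field_simp
  ring

lemma d3 : mb i.t i.x ⬝ᵥ mb i.t i.x ≤ i.B3 * i.q ^ 2 := by
  have := i.qn
  have h := mul_le_mul_of_nonneg_left (i.m2 fun _ => 1) (div_nonneg (sq_nonneg i.gm) i.q0.le)
  simp only [one_pow, one_mul, pp, ta2] at h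
  rw [mb_eq, smul_dotProduct, dotProduct_smul, dot_eq i.hn, smul_eq_mul, smul_eq_mul]
  simp only [← sq]
  refine (le_of_eq ?_).trans (h.trans_eq (by rw [B3]; field_simp))
  linear_combination i.gm ^ 2 * (avg fun j => i.m j ^ 2) * i.sg2

lemma d4 : (diagonal i.D *ᵥ mb i.t i.x) ⬝ᵥ (diagonal i.D *ᵥ mb i.t i.x) ≤ i.B4 * i.q ^ 2 := by
  have := i.qn
  have h := mul_le_mul_of_nonneg_left ((i.m2 i.D).trans (add_le_add_right
    (mul_le_mul_of_nonneg_left i.Dt2 (by positivity)) _)) (div_nonneg (sq_nonneg i.gm) i.q0.le)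
  rw [mb_eq, mulVec_smul, smul_dotProduct, dotProduct_smul, dDD i.hn, smul_eq_mul, smul_eq_mul]
  refine (le_of_eq ?_).trans (h.trans_eq (by rw [B4, t3]; field_simp))
  linear_combination i.gm ^ 2 * (avg fun j => i.D j ^ 2 * i.m j ^ 2) * i.sg2

lemma d8 : ee i.x ⬝ᵥ diagonal i.D *ᵥ ee i.x = i.E2 * i.q := by
  have := i.qn
  rw [ee_eq, mulVec_smul, smul_dotProduct, dotProduct_smul, dD i.hn, smul_eq_mul, smul_eq_mul]
  simp only [← sq]
  rw [Dp2, ← mul_assoc, ← mul_assoc, sg2]; field_simp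

lemma d7 : ee i.x ⬝ᵥ diagonal i.D *ᵥ mb i.t i.x = i.B7 * i.q ^ 2 := by
  have := i.qn
  have h := avg3 1 (-(i.q * i.rh)) (i.q ^ 2 * i.la) (fun j => i.D j * (i.p j * i.r j))
    (fun j => i.D j * i.p j ^ 2) fun j => i.D j * (i.p j * i.ta j)
  rw [ee_eq, mb_eq, mulVec_smul, smul_dotProduct, dotProduct_smul, dD i.hn, smul_eq_mul, smul_eq_mul,
    show avg (fun j => i.D j * (i.p j * i.m j)) = _ from
      Eq.trans (congrArg avg (funext fun j => by rw [m]; ring)) h, Dp2, Dpt,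
    show ∀ y, i.sg * (i.sg * i.gm * (i.n * y)) = i.sg * i.sg * i.n * (i.gm * y) from
      fun y => by ring, sg2, B7]
  field_simp
  ring

lemma d6 : bv (ee i.x) (diagonal i.D *ᵥ ee i.x) ⬝ᵥ bv (ee i.x) (diagonal i.D *ᵥ ee i.x) =
    i.B6 * i.q ^ 2 := by
  have := i.qn
  have e1 : ee i.x ⬝ᵥ ee i.x = 1 := by
    rw [ee_eq, smul_dotProduct, dotProduct_smul, dot_eq i.hn, smul_eq_mul, smul_eq_mul]
    simp only [← sq]
    rw [pp, ← mul_assoc, ← mul_assoc, sg2]; field_simp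
  have e2 : (diagonal i.D *ᵥ ee i.x) ⬝ᵥ (diagonal i.D *ᵥ ee i.x) = i.t3 * i.q ^ 2 := by
    rw [ee_eq, mulVec_smul, smul_dotProduct, dotProduct_smul, dDD i.hn, smul_eq_mul, smul_eq_mul,
      ← mul_assoc, ← mul_assoc, sg2, t3]
    field_simp
  rw [bv_eq, sub_dotProduct, dotProduct_sub, dotProduct_sub, smul_dotProduct, smul_dotProduct,
    dotProduct_smul, dotProduct_smul, dotProduct_comm (diagonal i.D *ᵥ ee i.x) (ee i.x), e1, e2, d8,
    B6]
  simp only [smul_eq_mul]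
  ring

lemma u1 : (diagonal i.D *ᵥ tau i.x) ⬝ᵥ (diagonal i.D *ᵥ tau i.x) ≤ i.B1 * i.q ^ 2 * i.n := by
  rw [tau_eq, dDD i.hn]
  linarith [mul_le_mul_of_nonneg_left i.Dt2 i.n0.le]

lemma u2 : tau i.x ⬝ᵥ diagonal i.D *ᵥ tau i.x = i.B2 * (i.q ^ 2 * i.n) := by
  have := i.qn
  have h := avg3 1 (-(2 * i.al)) (-i.al ^ 2) i.D (fun j => i.D j * (i.p j * i.ta j))
    fun j => i.D j * i.p j ^ 2
  rw [tau_eq, dD i.hn, show avg (fun j => i.D j * (i.ta j * i.ta j)) = _ from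
    Eq.trans (congrArg avg (funext fun j => by rw [ta]; ring)) h, Dp2, Dpt, B2]
  field_simp
  ring

lemma u3 : (ee i.x ⬝ᵥ diagonal i.D *ᵥ tau i.x) ^ 2 = HH i ^ 2 / i.q * (i.q ^ 4 * i.n) := by
  rw [ee_eq, tau_eq, smul_dotProduct, dD i.hn, Dpt, smul_eq_mul]
  linear_combination i.n * i.q ^ 4 * HH i ^ 2 * i.sg2

lemma u5 : (mb i.t i.x ⬝ᵥ tau i.x) ^ 2 = i.B5 ^ 2 * (i.q ^ 3 * i.n) := by
  have := i.qn
  have h := avg3 1 (-(i.q * i.rh)) (i.q ^ 2 * i.la) (fun j => i.r j * i.ta j)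
    (fun j => i.p j * i.ta j) fun j => i.ta j ^ 2
  have a : avg (fun j => i.r j * i.ta j) = R3 i.x - i.al * (i.q ^ 2 * i.rh) := by
    rw [← pr, ← avg_mul, show R3 i.x = avg i.r from rfl, ← avg_sub]
    congr 1; funext j; rw [ta]; ring
  have b : avg (fun j => i.p j * i.ta j) = 0 := by
    have : avg (fun j => i.p j * i.ta j) = avg i.p - i.al * i.q := by
      rw [← pp, ← avg_mul, ← avg_sub]
      congr 1; funext j; rw [ta]; ring
    rw [this, p1]; ring
  have c : i.gm * avg (fun j => i.m j * i.ta j) = i.q ^ 2 * i.B5 := by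
    rw [show avg (fun j => i.m j * i.ta j) = _ from
      Eq.trans (congrArg avg (funext fun j => by rw [m]; ring)) h, a, b, ta2, B5,
      show bS i.x = i.q * i.al from i.p1]
    field_simp
    ring
  rw [mb_eq, tau_eq, smul_dotProduct, dot_eq i.hn, smul_eq_mul,
    show ∀ y, (i.sg * i.gm * (i.n * y)) ^ 2 = i.sg * i.sg * i.n * (i.n * (i.gm * y) ^ 2) from
      fun y => by ring, sg2, c]
  field_simp

end In

lemma aB0 : AP (K := K) In.B0 fun _ => 1 :=
  ((cst 1).sub (aq.mul aal.sq)).congr (fun _ => rfl) fun _ => by ring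
lemma aE2 : AP (K := K) In.E2 fun i => 2 * i.k :=
  (((cst 2).mul ak).add (aq.mul T2)).congr (fun _ => rfl) fun _ => by ring
lemma aB1 : AP (K := K) In.B1 fun i => 4 * i.k ^ 2 :=
  (((cst 2).mul T1).add (((cst 2).mul (aq.mul aal.sq)).mul T3)).congr (fun _ => rfl)
    fun _ => by ring
lemma aB2 : ∃ g, AP (K := K) In.B2 g :=
  ⟨_, (T0.sub (((cst 2).mul aal).mul T6)).sub (aal.sq.mul aE2)⟩
lemma aB3 : ∃ g, AP (K := K) In.B3 g :=
  ⟨_, ((cst 3).mul agm.sq).mul ((A6.add arh.sq).add ((aq.mul ala.sq).mul aB0))⟩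
lemma aB4 : AP (K := K) In.B4 fun _ => 0 :=
  (((cst 3).mul agm.sq).mul ((T5.add ((aq.mul arh).sq.mul T3)).add
    ((aq.mul (aq.mul ala).sq).mul aB1))).congr (fun _ => rfl) fun _ => by ring
lemma aB5 : ∃ g, AP (K := K) (fun i => i.B5 ^ 2) g :=
  ⟨_, (agm.mul ((ar3.sub (aal.mul (arh.sub (cst 1)))).add (ala.mul aB0))).sq⟩
lemma aB6 : AP (K := K) In.B6 fun i => 6 * i.k ^ 2 :=
  (T3.sub aE2.sq).congr (fun _ => rfl) fun _ => by ring
lemma aB7 : AP (K := K) In.B7 fun i => 2 * i.k :=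
  (agm.mul ((T4.sub (arh.mul aE2)).add (aq.mul (ala.mul T6)))).congr (fun _ => rfl)
    fun _ => by ring
lemma aB8 : AP (K := K) In.B8 fun _ => 0 :=
  (((aq.mul aup).sub ((arh.sub (cst 1)).mul as2)).sub (aq.mul ((cst 1).sub aal))).congr
    (fun _ => rfl) fun _ => by ring

end Xd75

open Xd75 in
/-- **the statistics of the mean column** -/
theorem xdStmt : XdStmt := fun K hK => by
  have h0 : ∀ i : In K, 0 ≤ i.e := fun i => i.he.le
  obtain ⟨_, g2⟩ := aB2 (K := K)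
  obtain ⟨_, g3⟩ := aB3 (K := K)
  obtain ⟨_, g5⟩ := aB5 (K := K)
  obtain ⟨_, g7⟩ := T7 (K := K)
  have key : ∀ᶠ C : ℝ in atTop, (4 ≤ C ∧ K ≤ C) ∧ ∀ i : In K, C * i.e ≤ i.ε → i.ε ≤ 1 / 4 →
      Dv i.ε i.q i.D ∧ MD C (C * i.e) i.t i.D (2 * i.k * i.q) i.x := by
    filter_upwards [eventually_ge_atTop 4, eventually_ge_atTop K, T0.ev h0, T1.ev h0,
      (T0.sub T1).ev h0, aB0.ev h0, aB8.ev h0, g3.ev h0, aB4.ev h0,
      ((T2.add ((cst 2).mul aB7)).sub aB6).ev h0, aB6.ev h0, aB7.ev h0, aE2.ev h0, aB1.ev h0,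
      g2.ev h0, g7.ev h0, (g3.mul aB1).ev h0, g5.ev h0]
      with C c4 cK t0 t1 t01 b0 b8 b3 b4 b5 b6 b7 e2 b1 b2 b9 b31 b55
    refine ⟨⟨c4, cK⟩, fun i hε ε4 => ?_⟩
    have q0 := i.q0
    have qq := q2 i
    have n0 := i.n0
    have k1 := i.ad.k1
    have k2 := i.ad.k2
    have qe : i.q ≤ 1 / 16 := by nlinarith [i.qe, i.he]
    have de1 : 2 * i.k * (i.k - 1) + 2 * i.ε ≤ i.de := (le_div_iff₀ qq).2 i.ad.d1
    have de2 : i.de ≤ 9 / 8 := (div_le_iff₀ qq).2 i.ad.d2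
    have s0 : ∑ j, i.D j = avg i.D / i.q ^ 2 * (i.q ^ 2 * i.n) := by
      rw [sum_eq i.hn]; field_simp
    have s1 : ∑ j, i.D j ^ 2 = avg (fun j => i.D j ^ 2) / i.q ^ 2 * (i.q ^ 2 * i.n) := by
      rw [sum_eq i.hn]; field_simp
    have qn := mul_pos qq n0
    have v : i.q / (1 - i.q) ≤ 2 * i.q := by rw [div_le_iff₀ (by linarith)]; nlinarith
    have v0 : 0 ≤ i.q / (1 - i.q) := div_nonneg q0.le (by linarith)
    have le : ∀ {a b w : ℝ}, 0 ≤ w → |a| ≤ b → a * w ≤ b * w := fun hw h =>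
      mul_le_mul_of_nonneg_right ((le_abs_self _).trans h) hw
    have ab : ∀ {a b w : ℝ}, 0 ≤ w → |a| ≤ b → |a * w| ≤ b * w := fun hw h => by
      rw [abs_mul, abs_of_nonneg hw]; exact mul_le_mul_of_nonneg_right h hw
    refine ⟨⟨fun j => ?_, fun j => ?_, ?_, ?_, ?_⟩, q0, ?_, ?_, by positivity, by nlinarith, ?_, ?_,
      i.d3.trans (le qq.le (b3 i).1), i.d4.trans (le qq.le (by simpa using (b4 i).2)), ?_,
      i.d6.trans_le (le qq.le (b6 i).1), by rw [i.d7]; exact ab qq.le (b7 i).1,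
      by rw [i.d8]; exact ab q0.le (e2 i).1,
      i.u1.trans (mul_le_mul_of_nonneg_right (le qq.le (b1 i).1) n0.le), ?_,
      by rw [i.u3, mul_assoc]; exact le (by positivity) (b9 i).1, ?_,
      by rw [i.u5, mul_assoc]; exact le (by positivity) (b55 i).1⟩
    · have := (pw i.S i.x j).f0
      have := d0_nn i
      simp only [Dk]; nlinarith
    · have := (pw i.S i.x j).f1
      have := i.ad.d2
      simp only [Dk]; nlinarith
    · rw [s0, mul_assoc]
      exact mul_le_mul_of_nonneg_right (by linarith [(abs_le.1 (t0 i).2).2]) qn.le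
    · rw [s1, mul_assoc]
      exact mul_le_mul_of_nonneg_right (by nlinarith [(abs_le.1 (t1 i).2).2]) qn.le
    · rw [s0, s1, ← sub_mul, mul_assoc]
      exact mul_le_mul_of_nonneg_right (by linarith [(abs_le.1 (t01 i).2).1]) qn.le
    · exact i.co.q1.trans (mul_le_mul_of_nonneg_right cK qq.le)
    · exact i.co.q2.trans (mul_le_mul_of_nonneg_right cK i.ht.le)
    · rw [i.d1]
      exact mul_le_mul_of_nonneg_right (by linarith [(abs_le.1 (b0 i).2).1]) n0.le
    · rw [i.d2]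
      exact ab (div_pos i.ht q0).le (by simpa using (b8 i).2)
    · rw [i.d8, i.d7, i.d6, In.E2]
      have : 3 ≤ U2 i + 2 * i.B7 - i.B6 := by nlinarith [(abs_le.1 (b5 i).2).1, i.ε0]
      nlinarith [mul_le_mul_of_nonneg_right this qq.le]
    · rw [i.u2, mul_assoc, ← neg_mul]
      exact mul_le_mul_of_nonneg_right (abs_le.1 (b2 i).1).1 qn.le
    · have a := Finset.sum_mul_sq_le_sq_mul_sq Finset.univ (mb i.t i.x) (diagonal i.D *ᵥ tau i.x)
      simp only [sq (mb _ _ _), sq ((_ *ᵥ _) _)] at a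
      have b := mul_le_mul i.d3 i.u1 (dot_self_nonneg _) ((dot_self_nonneg _).trans i.d3)
      refine a.trans (b.trans ?_)
      have := le (by positivity : 0 ≤ i.q ^ 4 * i.n) (b31 i).1
      linarith
  obtain ⟨C, ⟨c4, cK⟩, h⟩ := key.exists
  refine ⟨C, by linarith, 1 / C, by positivity, fun n t e ε k d0 S x hn ht he h1 h2 h3 co xm ad => ?_⟩
  have ε4 : ε ≤ 1 / 4 := h3.trans (one_div_le_one_div_of_le (by norm_num) c4)
  have a : t ≤ (1 / C * e) ^ 2 := by
    rw [← Real.sq_sqrt ht.le]; exact pow_le_pow_left₀ (Real.sqrt_nonneg _) h1 2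
  have b : K * (1 / C * e) ^ 2 ≤ e ^ 2 := by
    rw [mul_pow, ← mul_assoc]
    refine mul_le_of_le_one_left (sq_nonneg _) ?_
    rw [one_div, inv_pow, ← div_eq_mul_inv, div_le_one (by positivity)]
    nlinarith
  exact h ⟨n, t, e, ε, k, d0, S, x, hn, ht, he, by nlinarith, by nlinarith,
    abs_le_of_sq_le_sq' ((co.q2.trans (mul_le_mul_of_nonneg_left a (by linarith))).trans b) he.le
      |>.2, co, xm, ad⟩ h2 ε4

end Crest.Agent.T157.Kb

end
end

-- ▼ part T157/KbAll_5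

/-!
# Row 157, block A2 (helper5): the statements of section 2 and the start, without hypotheses
-/

set_option autoImplicit false

namespace Crest.Agent.T157

namespace Kb.All

theorem tilt : TiltStmt := tiltGlue chStmt gridStmt
theorem mgf : MgfStmt := mgfStmt chStmt
theorem hi : HiStmt := hiGlue idStmt chStmt tilt
theorem lg : LgStmt := lgGlue idStmt chStmt tilt hi
theorem net : NetStmt := (netGlue idStmt chStmt tilt).1
theorem evB : EvB := (netGlue idStmt chStmt tilt).2.1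
theorem evA : EvA := evAGlue idStmt tilt c4Stmt
theorem evR : EvR := evRGlue idStmt tilt mgf momStmt
theorem b1 : B1Stmt := b1Glue idStmt hi lg evA evB evR
theorem b1G {L C5 : ℝ} (L0 : 0 < L) (C1 : 10 ≤ C5) (C2 : 2000 * L ≤ C5 ^ 3) :
    ∃ K ≥ (1 : ℝ), ∃ c > (0 : ℝ), ∃ C : ℕ, ∀ (n : ℕ) (t e : ℝ), C ≤ n → 1 / (n : ℝ) ≤ t →
      e ∈ Set.Ioc (0 : ℝ) 1 → Real.sqrt t ≤ c * e ^ 2 →
      Px t {x : Tap.V n | ¬ (Co K e t x ∧ Tap.aS x ^ 2 ≤ C5 ^ 2 * t)} ≤
        Conc.ex (C * Real.log n - L * n * (t * Real.sqrt t)) :=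
  b1gen idStmt hi lg evA evB evR L0 C1 C2
theorem b1s : B1sStmt := b1sGlue idStmt evB
theorem b2 : B2Stmt := b2Glue tilt mgf momStmt net
theorem b3 : B3Stmt := b3Glue tilt mgf momStmt net
theorem cntS : CntS := cntSGlue tilt mgf momStmt net
theorem cnt : CntStmt := cntGlue tilt mgf momStmt net
theorem all : AllStmt := (netGlue idStmt chStmt tilt).2.2 b1
theorem er : ErStmt := (krGlue margStmt detStmt all).1
theorem kr : KrStmt := (krGlue margStmt detStmt all).2
theorem pos : PosStmt := posGlue margStmt all xdStmt gnStmt coreU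
theorem goodU : GoodU := goodUGlue TapFrz.measStmt areaStmt kr margStmt b1 b2 pos ballStmt

end Kb.All

/-- **the start** -/
theorem O0.startStmt : O0.Start := O0.S5.start Kb.All.goodU O0.wStmt O0.Wb.wsBr

end Crest.Agent.T157
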