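import Crest.Agent.T157.OcE_9

/-!
# Row 157, part A2 (helper59): coset calculus on `SO(m)`

Left invariance of the Haar law, a measurable rank-two rotation `rho a b` with `rho a b a = b`,
the coset disintegration (given `U' σ`, `U` is Haar on its coset), the rank-two coupling of the Haar
law with tilted laws, and first and second moments on cosets.
-/

set_option autoImplicit false

noncomputable section

namespace Crest.Agent.T157.Orb

open MeasureTheory Matrix Set Filter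
open Crest.Agent.Lib.OrthPoinc Crest.Agent.T157.Oc
open scoped ENNReal

variable {m : ℕ}

/-- transpose -/
def tp (U : Mat m) : Mat m := fun a b => U b a

/-- `U' σ` -/
def xi (σ : Fin m → ℝ) (U : Mat m) : Fin m → ℝ := (Matrix.of U)ᵀ *ᵥ σ

lemma of_tp (U : Mat m) : Matrix.of (tp U) = (Matrix.of U)ᵀ := rfl

lemma of_mm (U V : Mat m) : Matrix.of (mm U V) = Matrix.of U * Matrix.of V := rfl

lemma mem_SO {U : Mat m} : U ∈ SO m ↔
    Matrix.of U * (Matrix.of U)ᵀ = 1 ∧ (Matrix.of U).det = 1 := by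
  unfold SO
  rw [Set.mem_ofPred_eq, Matrix.mem_specialOrthogonalGroup_iff, Matrix.mem_orthogonalGroup_iff]

lemma mul_tp {U : Mat m} (h : U ∈ SO m) : Matrix.of U * (Matrix.of U)ᵀ = 1 := (mem_SO.1 h).1

lemma tp_mul {U : Mat m} (h : U ∈ SO m) : (Matrix.of U)ᵀ * Matrix.of U = 1 :=
  mul_eq_one_comm.1 (mul_tp h)

lemma tp_mem {U : Mat m} (h : U ∈ SO m) : tp U ∈ SO m :=
  mem_SO.2 ⟨by rw [of_tp, transpose_transpose, tp_mul h], by
    rw [of_tp, det_transpose, (mem_SO.1 h).2]⟩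

lemma mm_assoc (U V W : Mat m) : mm (mm U V) W = mm U (mm V W) :=
  Matrix.of.injective (by simp only [of_mm, Matrix.mul_assoc])

lemma tp_mm (U V : Mat m) : tp (mm U V) = mm (tp V) (tp U) :=
  Matrix.of.injective (by simp only [of_mm, of_tp, transpose_mul])

lemma xi_mm (σ : Fin m → ℝ) (U V : Mat m) : xi σ (mm U V) = xi (xi σ U) V := by
  simp only [xi, of_mm, transpose_mul, mulVec_mulVec]

lemma dot_xi (σ : Fin m → ℝ) {U : Mat m} (h : U ∈ SO m) : xi σ U ⬝ᵥ xi σ U = σ ⬝ᵥ σ := by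
  rw [xi, dotProduct_mulVec, vecMul_transpose, mulVec_mulVec, mul_tp h, one_mulVec]

lemma mulVec_xi (σ : Fin m → ℝ) {U : Mat m} (h : U ∈ SO m) : Matrix.of U *ᵥ xi σ U = σ := by
  rw [xi, mulVec_mulVec, mul_tp h, one_mulVec]

lemma xi_eq_of {U : Mat m} (h : U ∈ SO m) {a b : Fin m → ℝ} (e : Matrix.of U *ᵥ a = b) :
    xi b U = a := by
  rw [xi, ← e, mulVec_mulVec, tp_mul h, one_mulVec]

@[fun_prop] lemma _root_.Measurable.t157o_tp {α : Type*} [MeasurableSpace α] {U : α → Mat m}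
    (h : Measurable U) : Measurable fun x => tp (U x) := by
  unfold tp; fun_prop

@[fun_prop] lemma _root_.Measurable.t157o_mm {α : Type*} [MeasurableSpace α] {U V : α → Mat m}
    (h : Measurable U) (h' : Measurable V) : Measurable fun x => mm (U x) (V x) := by
  refine measurable_pi_lambda _ fun a => measurable_pi_lambda _ fun b => ?_
  simp only [mm_apply]
  fun_prop

@[fun_prop] lemma _root_.Measurable.t157o_xi {α : Type*} [MeasurableSpace α] {σ : α → Fin m → ℝ}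
    {U : α → Mat m} (h : Measurable σ) (h' : Measurable U) :
    Measurable fun x => xi (σ x) (U x) := by
  refine measurable_pi_lambda _ fun a => ?_
  simp only [xi, mulVec, dotProduct, transpose_apply, of_apply]
  fun_prop

variable {μ : Measure (Mat m)} [IsProbabilityMeasure μ]

omit [IsProbabilityMeasure μ] in
lemma ae_SO (hμ : SOInv μ) : ∀ᵐ U ∂μ, U ∈ SO m := hμ.mem

lemma lint_const (hμ : SOInv μ) {F : Mat m → ℝ≥0∞} {c : ℝ≥0∞} (h : ∀ U ∈ SO m, F U = c) :
    ∫⁻ U, F U ∂μ = c := by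
  rw [lintegral_congr_ae (g := fun _ => c) ((ae_SO hμ).mono h), lintegral_const, measure_univ,
    mul_one]

omit [IsProbabilityMeasure μ] in
lemma lint_right (hμ : SOInv μ) {V : Mat m} (hV : V ∈ SO m) {F : Mat m → ℝ≥0∞}
    (hF : Measurable F) : ∫⁻ U, F (mm U V) ∂μ = ∫⁻ U, F U ∂μ :=
  (hμ.mp hV).lintegral_comp hF

/-- transpose invariance -/
theorem lint_tp (hμ : SOInv μ) {F : Mat m → ℝ≥0∞} (hF : Measurable F) :
    ∫⁻ U, F (tp U) ∂μ = ∫⁻ U, F U ∂μ := by
  have h1 : ∫⁻ V, ∫⁻ U, F (mm U (tp V)) ∂μ ∂μ = ∫⁻ U, F U ∂μ := by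
    rw [lintegral_congr_ae (g := fun _ => ∫⁻ U, F U ∂μ), lintegral_const, measure_univ, mul_one]
    filter_upwards [hμ.mem] with V hV using lint_right hμ (tp_mem hV) hF
  have h2 : ∫⁻ U, ∫⁻ V, F (mm U (tp V)) ∂μ ∂μ = ∫⁻ V, F (tp V) ∂μ := by
    rw [lintegral_congr_ae (g := fun _ => ∫⁻ V, F (tp V) ∂μ), lintegral_const, measure_univ,
      mul_one]
    filter_upwards [hμ.mem] with U hU
    rw [← lint_right hμ (tp_mem hU) (F := fun V => F (tp V)) (by fun_prop)]
    simp only [tp_mm]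
    rfl
  rw [← h1, ← h2]
  exact lintegral_lintegral_swap (Measurable.aemeasurable (by fun_prop))

/-- left invariance -/
theorem lint_left (hμ : SOInv μ) {V : Mat m} (hV : V ∈ SO m) {F : Mat m → ℝ≥0∞}
    (hF : Measurable F) : ∫⁻ U, F (mm V U) ∂μ = ∫⁻ U, F U ∂μ := by
  rw [← lint_tp hμ (F := fun U => F (mm V U)) (by fun_prop), ← lint_tp hμ hF,
    ← lint_right hμ (tp_mem hV) (F := fun U => F (tp U)) (by fun_prop)]
  simp only [tp_mm]
  rfl

theorem mp_left (hμ : SOInv μ) {V : Mat m} (hV : V ∈ SO m) : MeasurePreserving (mm V) μ μ := by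
  have hm : Measurable (mm V) := by fun_prop
  refine ⟨hm, Measure.ext fun S hS => ?_⟩
  rw [Measure.map_apply hm hS, ← lintegral_indicator_one hS, ← lintegral_indicator_one (hm hS),
    ← lint_left hμ hV (measurable_one.indicator hS)]
  rfl


/-! ### reflections and the rank-two rotation -/

section hs
variable {ι : Type*} [Fintype ι] [DecidableEq ι]

/-- reflection in the hyperplane orthogonal to `d` (the identity if `d = 0`) -/
def hs (d : ι → ℝ) : Matrix ι ι ℝ := 1 - (2 / (d ⬝ᵥ d)) • vecMulVec d d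

omit [DecidableEq ι] in
lemma vv_mulVec {κ : Type*} (a : κ → ℝ) (b x : ι → ℝ) : vecMulVec a b *ᵥ x = (b ⬝ᵥ x) • a := by
  ext i
  simp only [mulVec, dotProduct, vecMulVec_apply, Pi.smul_apply, smul_eq_mul, Finset.sum_mul]
  exact Finset.sum_congr rfl fun j _ => by ring

lemma hs_symm (d : ι → ℝ) : (hs d)ᵀ = hs d := by
  simp only [hs, transpose_sub, transpose_one, transpose_smul, transpose_vecMulVec]

lemma hs_mulVec (d x : ι → ℝ) : hs d *ᵥ x = x - (2 / (d ⬝ᵥ d) * (d ⬝ᵥ x)) • d := by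
  rw [hs, sub_mulVec, one_mulVec, smul_mulVec, vv_mulVec, smul_smul]

lemma hs_mul_self (d : ι → ℝ) : hs d * hs d = 1 := by
  refine Matrix.ext_of_mulVec_single fun i => ?_
  rw [← mulVec_mulVec, one_mulVec]
  generalize (Pi.single i 1 : ι → ℝ) = x
  rw [hs_mulVec, hs_mulVec, dotProduct_sub, dotProduct_smul, smul_eq_mul, sub_sub, ← add_smul]
  by_cases h : d ⬝ᵥ d = 0
  · simp [h]
  · have : 2 / (d ⬝ᵥ d) * (d ⬝ᵥ x) +
        2 / (d ⬝ᵥ d) * (d ⬝ᵥ x - 2 / (d ⬝ᵥ d) * (d ⬝ᵥ x) * (d ⬝ᵥ d)) = 0 := by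
      field_simp; ring
    rw [this, zero_smul, sub_zero]

lemma hs_swap {a w : ι → ℝ} (h : a ⬝ᵥ a = w ⬝ᵥ w) : hs (a - w) *ᵥ a = w := by
  rw [hs_mulVec]
  by_cases h0 : (a - w) ⬝ᵥ (a - w) = 0
  · have : a - w = 0 := dotProduct_self_eq_zero.1 h0
    rw [this, smul_zero, sub_zero]
    exact sub_eq_zero.1 this
  · have e : (a - w) ⬝ᵥ (a - w) = 2 * ((a - w) ⬝ᵥ a) := by
      simp only [sub_dotProduct, dotProduct_sub, dotProduct_comm w a]
      linarith
    have h1 : (a - w) ⬝ᵥ a ≠ 0 := fun h1 => h0 (by rw [e, h1, mul_zero])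
    have : 2 / ((a - w) ⬝ᵥ (a - w)) * ((a - w) ⬝ᵥ a) = 1 := by
      rw [e]; field_simp
    rw [this, one_smul, sub_sub_cancel]

lemma hs_fix {d x : ι → ℝ} (h : d ⬝ᵥ x = 0) : hs d *ᵥ x = x := by
  rw [hs_mulVec, h, mul_zero, zero_smul, sub_zero]

lemma hs_self {d : ι → ℝ} : hs d *ᵥ d = -d := by
  rw [hs_mulVec]
  by_cases h : d ⬝ᵥ d = 0
  · rw [dotProduct_self_eq_zero.1 h]; simp
  · rw [div_mul_cancel₀ _ h, two_smul]; abel

lemma det_hs {d : ι → ℝ} (h : d ≠ 0) : (hs d).det = -1 := by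
  have h0 : d ⬝ᵥ d ≠ 0 := fun h0 => h (dotProduct_self_eq_zero.1 h0)
  have e : hs d = 1 + replicateCol Unit (-(2 / (d ⬝ᵥ d)) • d) * replicateRow Unit d := by
    rw [hs, ← vecMulVec_eq, smul_vecMulVec, neg_smul, sub_eq_add_neg]
  rw [e, det_one_add_replicateCol_mul_replicateRow, dotProduct_smul, smul_eq_mul, neg_mul,
    div_mul_cancel₀ _ h0]
  norm_num

omit [DecidableEq ι] in
lemma rank_add_le' (A B : Matrix ι ι ℝ) : (A + B).rank ≤ A.rank + B.rank := by
  unfold Matrix.rank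
  rw [Matrix.mulVecLin_add]
  refine le_trans (Submodule.finrank_mono (LinearMap.range_add_le _ _)) ?_
  exact Submodule.finrank_add_le_finrank_add_finrank _ _

lemma rank_hs_hs (d e : ι → ℝ) : (hs d * hs e - 1).rank ≤ 2 := by
  have h : hs d * hs e - 1 = vecMulVec (-(2 / (d ⬝ᵥ d)) • d) d +
      vecMulVec (hs d *ᵥ (-(2 / (e ⬝ᵥ e)) • e)) e := by
    rw [← mul_vecMulVec, hs.eq_1 e, Matrix.mul_sub, Matrix.mul_one, smul_vecMulVec, smul_vecMulVec,
      neg_smul, neg_smul, Matrix.mul_neg]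
    nth_rewrite 1 [hs.eq_1 d]
    abel
  rw [h]
  exact (rank_add_le' _ _).trans (add_le_add (rank_vecMulVec_le _ _) (rank_vecMulVec_le _ _))

/-- conjugation by a rank-two perturbation of the identity is a rank-four perturbation -/
lemma rank_conj {R : Matrix ι ι ℝ} (h : (R - 1).rank ≤ 2) (W : Matrix ι ι ℝ) :
    (R * W * Rᵀ - W).rank ≤ 4 := by
  have e : R * W * Rᵀ - W = (R - 1) * (W * Rᵀ) + W * (R - 1)ᵀ := by
    simp only [Matrix.sub_mul, Matrix.mul_sub, transpose_sub, transpose_one, Matrix.one_mul,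
      Matrix.mul_one, Matrix.mul_assoc]
    abel
  rw [e]
  refine (rank_add_le' _ _).trans ?_
  have h1 := (rank_mul_le_left (R - 1) (W * Rᵀ)).trans h
  have h2 := (rank_mul_le_right W (R - 1)ᵀ).trans ((rank_transpose _).le.trans h)
  omega

end hs

/-- a non-zero vector orthogonal to `a` -/
def perp (i j : Fin m) (a : Fin m → ℝ) : Fin m → ℝ :=
  if a i = 0 then Pi.single i 1 else a j • Pi.single i 1 - a i • Pi.single j 1

lemma perp_dot (i j : Fin m) (a : Fin m → ℝ) : perp i j a ⬝ᵥ a = 0 := by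
  unfold perp
  split_ifs with h
  · simp [h]
  · simp [mul_comm]

lemma perp_ne {i j : Fin m} (hij : i ≠ j) (a : Fin m → ℝ) : perp i j a ≠ 0 := by
  unfold perp
  split_ifs with h
  · intro h0; simpa using congrFun h0 i
  · intro h0
    have := congrFun h0 j
    simp [hij.symm, h] at this

/-- a rotation of rank two taking `a` to `b` -/
def rho (i j : Fin m) (a b : Fin m → ℝ) : Mat m :=
  if a = b then fun k l => (1 : Matrix (Fin m) (Fin m) ℝ) k l
  else fun k l => (hs (a - b) * hs (perp i j a)) k l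

/-- rotations of rank at most two -/
def R2 (R : Mat m) : Prop := R ∈ SO m ∧ (Matrix.of R - 1).rank ≤ 2

lemma hs_hs_mem {d e : Fin m → ℝ} (hd : d ≠ 0) (he : e ≠ 0) :
    (fun k l => (hs d * hs e) k l : Mat m) ∈ SO m := by
  refine mem_SO.2 ⟨?_, ?_⟩
  · change hs d * hs e * (hs d * hs e)ᵀ = 1
    rw [transpose_mul, hs_symm, hs_symm, Matrix.mul_assoc, ← Matrix.mul_assoc (hs e), hs_mul_self,
      Matrix.one_mul, hs_mul_self]
  · change (hs d * hs e).det = 1
    rw [det_mul, det_hs hd, det_hs he]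
    norm_num

lemma rho_R2 {i j : Fin m} (hij : i ≠ j) (a b : Fin m → ℝ) : R2 (rho i j a b) := by
  unfold rho
  split_ifs with h
  · refine ⟨mem_SO.2 ⟨?_, ?_⟩, ?_⟩
    · change (1 : Matrix (Fin m) (Fin m) ℝ) * 1ᵀ = 1
      simp
    · exact det_one
    · change ((1 : Matrix (Fin m) (Fin m) ℝ) - 1).rank ≤ 2
      simp
  · exact ⟨hs_hs_mem (sub_ne_zero.2 h) (perp_ne hij a), rank_hs_hs _ _⟩

lemma rho_mulVec (i j : Fin m) {a b : Fin m → ℝ} (h : a ⬝ᵥ a = b ⬝ᵥ b) :
    Matrix.of (rho i j a b) *ᵥ a = b := by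
  unfold rho
  split_ifs with hab
  · exact (one_mulVec a).trans hab
  · change (hs (a - b) * hs (perp i j a)) *ᵥ a = b
    rw [← mulVec_mulVec, hs_fix (perp_dot i j a), hs_swap h]

lemma R2.tp {R : Mat m} (h : R2 R) : R2 (tp R) :=
  ⟨tp_mem h.1, by
    rw [of_tp, ← transpose_one, ← transpose_sub, rank_transpose]
    exact h.2⟩

@[fun_prop] lemma _root_.Measurable.t157o_rho {α : Type*} [MeasurableSpace α] (i j : Fin m)
    {a b : α → Fin m → ℝ} (ha : Measurable a) (hb : Measurable b) :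
    Measurable fun x => rho i j (a x) (b x) := by
  have hp : Measurable fun x => perp i j (a x) := by
    unfold perp
    exact Measurable.ite (measurableSet_eq_fun (by fun_prop) measurable_const) measurable_const
      (by fun_prop)
  unfold rho
  refine Measurable.ite (measurableSet_eq_fun ha hb) measurable_const ?_
  refine measurable_pi_lambda _ fun k => measurable_pi_lambda _ fun l => ?_
  simp only [hs, Matrix.mul_apply, Matrix.sub_apply, Matrix.smul_apply, vecMulVec_apply,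
    smul_eq_mul, dotProduct, Pi.sub_apply]
  fun_prop

/-! ### the coset disintegration -/

/-- **given `U' σ`, `U` is Haar on its coset**: any measurable choice `r a b ∈ SO(m)` with
`r a b a = b` realises the conditional law as `V r(a, V' σ)`. -/
theorem coset_gen (hμ : SOInv μ) (σ : Fin m → ℝ) {r : (Fin m → ℝ) → (Fin m → ℝ) → Mat m}
    (hr : Measurable fun z : (Fin m → ℝ) × (Fin m → ℝ) => r z.1 z.2) (hso : ∀ a b, r a b ∈ SO m)
    (hab : ∀ a b, a ⬝ᵥ a = b ⬝ᵥ b → Matrix.of (r a b) *ᵥ a = b)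
    {G : (Fin m → ℝ) → Mat m → ℝ≥0∞} (hG : Measurable fun z : (Fin m → ℝ) × Mat m => G z.1 z.2) :
    ∫⁻ U, G (xi σ U) U ∂μ = ∫⁻ U, ∫⁻ V, G (xi σ U) (mm V (r (xi σ U) (xi σ V))) ∂μ ∂μ := by
  have hr' : ∀ {α : Type} [MeasurableSpace α] {a b : α → Fin m → ℝ}, Measurable a → Measurable b →
      Measurable fun x => r (a x) (b x) := fun ha hb => hr.comp (ha.prodMk hb)
  have hG' : ∀ {α : Type} [MeasurableSpace α] {a : α → Fin m → ℝ} {U : α → Mat m}, Measurable a →
      Measurable U → Measurable fun x => G (a x) (U x) := fun ha hb => hG.comp (ha.prodMk hb)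
  -- a right-invariant random element of the stabiliser of `σ`
  let k : Mat m → Mat m := fun X => mm (r (xi σ X) σ) (tp X)
  have hkm : Measurable k := (hr' (by fun_prop) measurable_const).t157o_mm (by fun_prop)
  have hk : ∀ X ∈ SO m, k X ∈ SO m ∧ xi σ (k X) = σ := fun X hX => by
    have h1 : k X ∈ SO m := mm_mem (hso _ _) (tp_mem hX)
    refine ⟨h1, xi_eq_of h1 ?_⟩
    rw [of_mm, ← mulVec_mulVec]
    exact hab _ _ (dot_xi σ hX)
  let Gb : (Fin m → ℝ) → Mat m → ℝ≥0∞ := fun a U => ∫⁻ X, G a (mm (k X) U) ∂μ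
  have hGb : ∀ a, ∀ U1 ∈ SO m, ∀ U2 ∈ SO m, xi σ U1 = xi σ U2 → Gb a U1 = Gb a U2 := by
    intro a U1 h1 U2 h2 e
    have hk0 : mm U2 (tp U1) ∈ SO m := mm_mem h2 (tp_mem h1)
    have hx : xi σ (mm U2 (tp U1)) = σ := by
      rw [xi_mm, ← e]
      exact mulVec_xi σ h1
    have := lint_left hμ hk0 (F := fun X => G a (mm (k X) U2))
      (hG' measurable_const (hkm.t157o_mm measurable_const))
    refine Eq.trans (lintegral_congr fun X => ?_) this
    congr 1
    refine Matrix.of.injective ?_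
    simp only [k, of_mm, xi_mm σ (mm U2 (tp U1)), hx, of_tp, transpose_mul, transpose_transpose,
      Matrix.mul_assoc, tp_mul h2, Matrix.mul_one]
  have key : ∀ {H : Mat m → Mat m} {A : Mat m → Fin m → ℝ}, Measurable H → Measurable A →
      (∀ X ∈ SO m, xi σ X = σ → ∀ U, H (mm X U) = mm X (H U) ∧ A (mm X U) = A U) →
      ∫⁻ U, G (A U) (H U) ∂μ = ∫⁻ U, Gb (A U) (H U) ∂μ := by
    intro H A hH hA h
    rw [lintegral_lintegral_swap (f := fun U X => G (A U) (mm (k X) (H U)))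
      (hG' (hA.comp measurable_fst) ((hkm.comp measurable_snd).t157o_mm
        (hH.comp measurable_fst))).aemeasurable]
    refine (lint_const hμ fun X hX => ?_).symm
    rw [← lint_left hμ (hk X hX).1 (hG' hA hH)]
    refine lintegral_congr fun U => ?_
    rw [(h _ (hk X hX).1 (hk X hX).2 U).1, (h _ (hk X hX).1 (hk X hX).2 U).2]
  rw [key (H := fun U => U) (A := xi σ) measurable_id (by fun_prop)
    fun X _ hx U => ⟨rfl, by rw [xi_mm, hx]⟩]
  refine lintegral_congr_ae ?_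
  filter_upwards [ae_SO hμ] with U hU
  rw [key (H := fun V => mm V (r (xi σ U) (xi σ V))) (A := fun _ => xi σ U)
    (measurable_id.t157o_mm (hr' measurable_const (by fun_prop))) measurable_const
    fun X _ hx V => ⟨by simp only [xi_mm, hx, mm_assoc], rfl⟩]
  refine (lint_const hμ fun V hV => ?_).symm
  refine hGb _ _ (mm_mem hV (hso _ _)) _ hU ?_
  rw [xi_mm]
  exact xi_eq_of (hso _ _) (hab _ _ ((dot_xi σ hU).trans (dot_xi σ hV).symm))

/-- the coset disintegration with the rank-two rotations -/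
theorem coset_lintegral (hμ : SOInv μ) {i j : Fin m} (hij : i ≠ j) (σ : Fin m → ℝ)
    {G : (Fin m → ℝ) → Mat m → ℝ≥0∞} (hG : Measurable fun z : (Fin m → ℝ) × Mat m => G z.1 z.2) :
    ∫⁻ U, G (xi σ U) U ∂μ =
      ∫⁻ U, ∫⁻ V, G (xi σ U) (mm V (rho i j (xi σ U) (xi σ V))) ∂μ ∂μ :=
  coset_gen hμ σ (by fun_prop) (fun a b => (rho_R2 hij a b).1) (fun _ _ h => rho_mulVec i j h) hG

/-- **rank-two coupling, tilted law below Haar**: the weights depend on `U` only through
`U' σ s`; `F'` dominates `F` on the rank-two hull. -/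
theorem tilt_le (hμ : SOInv μ) (hm : 2 ≤ m) {S : Type*} [Fintype S] (σ : S → Fin m → ℝ)
    {φ : S → (Fin m → ℝ) → ℝ≥0∞} (hφ : ∀ s, Measurable (φ s)) {F F' : Mat m → ℝ≥0∞}
    (hF : Measurable F) (hF' : Measurable F')
    (h : ∀ V ∈ SO m, ∀ R, R2 R → F (mm V R) ≤ F' V) :
    ∫⁻ U, (∑ s, φ s (xi (σ s) U)) * F U ∂μ ≤
      (∫⁻ U, ∑ s, φ s (xi (σ s) U) ∂μ) * ∫⁻ V, F' V ∂μ := by
  have hij : (⟨0, by omega⟩ : Fin m) ≠ ⟨1, by omega⟩ := by simp
  have hm1 : ∀ s, Measurable fun U : Mat m => φ s (xi (σ s) U) := fun s =>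
    (hφ s).comp (by fun_prop)
  simp only [Finset.sum_mul]
  rw [lintegral_finsetSum _ (f := fun s U => φ s (xi (σ s) U) * F U) fun s _ => (hm1 s).mul hF,
    lintegral_finsetSum _ fun s _ => hm1 s,
    Finset.sum_mul]
  refine Finset.sum_le_sum fun s _ => ?_
  rw [coset_lintegral hμ hij (σ s) (G := fun a U => φ s a * F U)
    (((hφ s).comp measurable_fst).mul (hF.comp measurable_snd)), ← lintegral_mul_const _ (hm1 s)]
  refine lintegral_mono fun U => ?_
  rw [← lintegral_const_mul _ hF']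
  refine lintegral_mono_ae ?_
  filter_upwards [ae_SO hμ] with V hV
  exact mul_le_mul_right (h V hV _ (rho_R2 hij _ _)) _

/-- **rank-two coupling, Haar below the tilted law** -/
theorem le_tilt (hμ : SOInv μ) (hm : 2 ≤ m) {S : Type*} [Fintype S] (σ : S → Fin m → ℝ)
    {φ : S → (Fin m → ℝ) → ℝ≥0∞} (hφ : ∀ s, Measurable (φ s)) {F F' : Mat m → ℝ≥0∞}
    (hF : Measurable F) (hF' : Measurable F')
    (h : ∀ V ∈ SO m, ∀ R, R2 R → F (mm V R) ≤ F' V) :
    (∫⁻ U, ∑ s, φ s (xi (σ s) U) ∂μ) * ∫⁻ V, F V ∂μ ≤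
      ∫⁻ U, (∑ s, φ s (xi (σ s) U)) * F' U ∂μ := by
  have hij : (⟨0, by omega⟩ : Fin m) ≠ ⟨1, by omega⟩ := by simp
  have hm1 : ∀ s, Measurable fun U : Mat m => φ s (xi (σ s) U) := fun s =>
    (hφ s).comp (by fun_prop)
  simp only [Finset.sum_mul]
  rw [lintegral_finsetSum _ (f := fun s U => φ s (xi (σ s) U) * F' U) fun s _ => (hm1 s).mul hF',
    lintegral_finsetSum _ fun s _ => hm1 s,
    Finset.sum_mul]
  refine Finset.sum_le_sum fun s _ => ?_
  rw [coset_lintegral hμ hij (σ s) (G := fun a U => φ s a * F' U)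
    (((hφ s).comp measurable_fst).mul (hF'.comp measurable_snd)), ← lintegral_mul_const _ (hm1 s)]
  refine lintegral_mono fun U => ?_
  rw [← lintegral_const_mul _ hF]
  refine lintegral_mono_ae ?_
  filter_upwards [ae_SO hμ] with V hV
  have hR := rho_R2 hij (xi (σ s) U) (xi (σ s) V)
  have h1 := h _ (mm_mem hV hR.1) _ hR.tp
  have e : mm (mm V (rho _ _ (xi (σ s) U) (xi (σ s) V))) (tp (rho _ _ (xi (σ s) U) (xi (σ s) V))) =
      V := Matrix.of.injective (by
    rw [of_mm, of_mm, of_tp, Matrix.mul_assoc, mul_tp hR.1, Matrix.mul_one])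
  rw [e] at h1
  exact mul_le_mul_right h1 _

/-! ### the big space -/

section emb
variable {ι : Type*} [Fintype ι] [DecidableEq ι] {E : Matrix ι (Fin m) ℝ}

/-- `g' s` in terms of `U' (E' s)` -/
lemma emb_tp_mulVec (U : Mat m) (s : ι → ℝ) :
    (emb E U)ᵀ *ᵥ s = s - E *ᵥ (Eᵀ *ᵥ s) + E *ᵥ xi (Eᵀ *ᵥ s) U := by
  simp only [emb, xi, transpose_add, transpose_one, transpose_mul, transpose_transpose,
    transpose_sub, add_mulVec, one_mulVec, ← mulVec_mulVec, sub_mulVec, mulVec_sub]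
  abel

lemma emb_mulVec' (U : Mat m) (w : ι → ℝ) :
    emb E U *ᵥ w = w - E *ᵥ (Eᵀ *ᵥ w) + E *ᵥ (Matrix.of U *ᵥ (Eᵀ *ᵥ w)) := by
  simp only [emb, add_mulVec, one_mulVec, ← mulVec_mulVec, sub_mulVec, mulVec_sub]
  abel

lemma rank_emb {R : Mat m} (h : R2 R) : (emb E R - 1).rank ≤ 2 := by
  rw [emb, add_sub_cancel_left]
  exact (rank_mul_le_left _ _).trans ((rank_mul_le_right _ _).trans h.2)

/-- along the coupling the conjugated matrix moves by rank at most four -/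
theorem rank_emb_conj (hE : Eᵀ * E = 1) (V : Mat m) {R : Mat m} (h : R2 R) (W : Matrix ι ι ℝ) :
    (emb E (mm V R) * W * (emb E (mm V R))ᵀ - emb E V * W * (emb E V)ᵀ).rank ≤ 4 := by
  have e : emb E (mm V R) * W * (emb E (mm V R))ᵀ - emb E V * W * (emb E V)ᵀ =
      emb E V * (emb E R * W * (emb E R)ᵀ - W) * (emb E V)ᵀ := by
    simp only [emb_mul hE, transpose_mul, Matrix.mul_sub, Matrix.sub_mul, Matrix.mul_assoc]
  rw [e]
  exact (rank_mul_le_left _ _).trans ((rank_mul_le_right _ _).trans (rank_conj (rank_emb h) W))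

end emb

end Crest.Agent.T157.Orb
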