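import Crest.Agent.T157.SpAll_87
import Crest.Agent.T157.OdE_9
import Crest.Agent.T157.Orb_59
import Crest.Agent.T157.St0B_5
import Crest.Agent.T157.SpDef_87
import Crest.Agent.T157.CritDef_97
import Crest.Agent.T157.SpTrf_85
import Crest.Agent.T157.SpWinA_34
import Crest.Agent.T157.StSph_38
import Crest.Agent.R164.HaarCpl
import Crest.Agent.T157.StAll_87

-- ▼ part T157/SpLev_44
section

/-!
# Row 157 (helper44): the posterior covariance of the spherical model at entropy levels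
-/

set_option autoImplicit false

noncomputable section

namespace Crest.Agent.T157.Sp

open MeasureTheory ProbabilityTheory Matrix Filter Topology Finset Real
open Crest.Agent.T157.E Crest.Agent.T157.St Crest.Agent.T157.St.Sph38 Crest.Agent.T157.Ed

/-- sharp bound, failure `exp (-c e³ r^{3/2})` -/
def LevAt (n : ℕ) (μ : Measure (Fin n → ℝ)) (B K c : ℝ) : Prop := ∀ r e : ℝ, K ≤ r → r ≤ sx n ^ 2 →
  r ^ (-(1 / 4) : ℝ) ≤ e → e ≤ 1 / 4 → OffY r μ (B * exp (-(c * e ^ 3 * (r * √r))))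
    fun y => Mom (pst r μ y) ((1 + B * e) / r)
/-- crude bound, failure `exp (-M r^{3/2})` -/
def CruAt (n : ℕ) (μ : Measure (Fin n → ℝ)) (B K A M : ℝ) : Prop := ∀ r : ℝ, K ≤ r → r ≤ sx n ^ 2 →
  OffY r μ (B * exp (-(M * (r * √r)))) fun y => Mom (pst r μ y) (A / r)

namespace Lev44

open SW89

/-- cube root -/
def cr (k : ℕ) : ℝ := (k : ℝ) ^ (1 / 3 : ℝ)

lemma cr_nn (k : ℕ) : 0 ≤ cr k := rpow_nonneg (Nat.cast_nonneg k) _
lemma cr_cube (k : ℕ) : cr k ^ 3 = k := by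
  rw [cr, ← rpow_natCast, ← rpow_mul (Nat.cast_nonneg k)]; norm_num
lemma cr_sq (k : ℕ) : ((k : ℝ) + 1) ^ (2 / 3 : ℝ) = cr (k + 1) ^ 2 := by
  rw [cr, ← rpow_natCast, ← rpow_mul (Nat.cast_nonneg _)]; norm_num
lemma le_cr {k : ℕ} {x : ℝ} (h : x ^ 3 ≤ k) : x ≤ cr k :=
  le_of_pow_le_pow_left₀ three_ne_zero (cr_nn k) (by rwa [cr_cube])
lemma cr_le {k : ℕ} {x : ℝ} (hx : 0 ≤ x) (h : (k : ℝ) ≤ x ^ 3) : cr k ≤ x :=
  le_of_pow_le_pow_left₀ three_ne_zero hx (by rwa [cr_cube])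
lemma one_le_cr (k : ℕ) : 1 ≤ cr (k + 1) := le_cr (by push_cast; linarith [k.cast_nonneg (α := ℝ)])

lemma step (k : ℕ) : cr k ≤ cr (k + 1) ∧ 1 ≤ 3 * cr (k + 1) ^ 2 * (cr (k + 1) - cr k) := by
  have h1 : cr k ≤ cr (k + 1) := le_cr (by rw [cr_cube]; push_cast; linarith)
  have h2 : cr (k + 1) ^ 3 - cr k ^ 3 = 1 := by rw [cr_cube, cr_cube]; push_cast; ring
  have h3 := cr_nn k
  refine ⟨h1, ?_⟩
  generalize cr (k + 1) = a at *
  generalize cr k = b at *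
  nlinarith [mul_nonneg (sq_nonneg (a - b)) (by linarith : 0 ≤ 2 * a + b)]

lemma sum_lo (m : ℕ) : ∑ k ∈ range m, 1 / cr (k + 1) ^ 2 ≤ 3 * cr m := by
  induction m with
  | zero => simpa using cr_nn 0
  | succ m ih =>
    have h := (step m).2
    have h1 := one_le_cr m
    have : 1 / cr (m + 1) ^ 2 ≤ 3 * (cr (m + 1) - cr m) := by
      rw [div_le_iff₀ (by positivity)]; linarith
    rw [sum_range_succ]; linarith

lemma sum_hi {m : ℕ} (hm : 1 ≤ m) (j : ℕ) :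
    ∑ k ∈ Ico m (m + j), 1 / cr (k + 1) ^ 4 ≤ 3 / cr m - 3 / cr (m + j) := by
  induction j with
  | zero => simp
  | succ j ih =>
    obtain ⟨h0, h⟩ := step (m + j)
    have h2 : 1 ≤ cr (m + j) := le_cr (by rw [one_pow]; exact_mod_cast hm.trans (Nat.le_add_right _ _))
    rw [← add_assoc, sum_Ico_succ_top (Nat.le_add_right _ _)]
    generalize cr (m + j + 1) = a at *
    generalize cr (m + j) = b at *
    have a0 : 0 < a := by linarith
    have : 1 / a ^ 4 ≤ 3 / b - 3 / a := by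
      rw [div_sub_div _ _ (by positivity) a0.ne', div_le_div_iff₀ (by positivity) (by positivity)]
      have h3 : b * a ≤ a ^ 2 := by nlinarith
      nlinarith [mul_le_mul_of_nonneg_left h (sq_nonneg a)]
    linarith

lemma fin_lo (n m : ℕ) {f : ℕ → ℝ} (hf : ∀ k, 0 ≤ f k) :
    ∑ k : Fin n, (if (k : ℕ) < m then f k else 0) ≤ ∑ k ∈ range m, f k := by
  rw [Fin.sum_univ_eq_sum_range (fun k => if k < m then f k else 0) n, ← sum_filter]
  exact sum_le_sum_of_subset_of_nonneg (fun k hk => mem_range.2 (mem_filter.1 hk).2)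
    fun k _ _ => hf k

lemma fin_hi (n m : ℕ) {f : ℕ → ℝ} (hf : ∀ k, 0 ≤ f k) :
    ∑ k : Fin n, (if m ≤ (k : ℕ) then f k else 0) ≤ ∑ k ∈ Ico m (m + n), f k := by
  rw [Fin.sum_univ_eq_sum_range (fun k => if m ≤ k then f k else 0) n, ← sum_filter]
  exact sum_le_sum_of_subset_of_nonneg (fun k hk => mem_Ico.2 ⟨(mem_filter.1 hk).2, by
    have := mem_range.1 (mem_filter.1 hk).1; omega⟩) fun k _ _ => hf k

lemma fin_mid {n m : ℕ} (h : 2 * m ≤ n) (a : ℝ) :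
    ∑ k : Fin n, (if m ≤ (k : ℕ) ∧ (k : ℕ) < 2 * m then a else 0) = m * a := by
  rw [Fin.sum_univ_eq_sum_range (fun k => if m ≤ k ∧ k < 2 * m then a else 0) n, ← sum_filter,
    sum_const, nsmul_eq_mul]
  have : (range n).filter (fun k => m ≤ k ∧ k < 2 * m) = Ico m (2 * m) := by
    ext k; simp only [mem_filter, mem_range, mem_Ico]; omega
  rw [this, Nat.card_Ico]
  congr 2; omega

lemma ceil_cr {x : ℝ} (hx : 1 ≤ x) : ∃ m : ℕ, x ^ 3 ≤ m ∧ (m : ℝ) ≤ (2 * x) ^ 3 := by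
  have h1 : 1 ≤ x ^ 3 := one_le_pow₀ hx
  refine ⟨⌈x ^ 3⌉₊, Nat.le_ceil _, ?_⟩
  have := Nat.ceil_lt_add_one (by positivity : 0 ≤ x ^ 3)
  linarith

variable {n : ℕ} {η : ℕ → ℝ}

lemma off_of {μ : Measure (Fin n → ℝ)} {i j : Fin n} {w v t r B g V : ℝ} (d : Fin n → ℝ)
    (hμ : IsProbabilityMeasure μ) (hc : ∀ k, 0 < cw n η w k) (hd0 : ∀ k, 0 ≤ d k)
    (hd : ∀ k, d k ≤ cw n η v k ^ 2) (hB : 0 ≤ B) (hr : 0 ≤ r) (hg : 0 ≤ g) (hV : 0 < V)
    (hD : DomC μ (cw n η w) i j B)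
    (h1 : t - ∑ k, cw n η v k + g ≤ ∑ k ∈ (univ.erase i).erase j, d k * (r ^ 2 * cw n η w k + r))
    (h2 : ∑ k, (d k * (r ^ 2 * cw n η w k + r)) ^ 2 ≤ V) :
    OffY r μ (B * exp (-(g ^ 2 / (4 * V)))) fun y =>
      t < qm (fun k => y k / (v + η k)) (fun k : Fin n => 1 / (v + η k)) := by
  have hl : 0 ≤ g / (2 * V) := by positivity
  refine ⟨{y | ∑ k, d k * y k ^ 2 ≤ t - ∑ k, cw n η v k},
    measurableSet_le (by fun_prop) measurable_const, ?_, fun y hy => ?_⟩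
  · refine (lowStmt _ μ _ d i j B r _ _ hμ hc hd0 hB hr hl hD).trans
      (ENNReal.ofReal_le_ofReal (mul_le_mul_of_nonneg_left (exp_le_exp.2 ?_) hB))
    have h3 := mul_le_mul_of_nonneg_left h1 hl
    have h4 := mul_le_mul_of_nonneg_left h2 (sq_nonneg (g / (2 * V)))
    have h5 : -(g / (2 * V) * g) + (g / (2 * V)) ^ 2 * V = -(g ^ 2 / (4 * V)) := by
      field_simp; ring
    linarith
  · have hy' : t - ∑ k, cw n η v k < ∑ k, d k * y k ^ 2 := not_le.1 hy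
    have e0 : ∑ k, d k * y k ^ 2 ≤ ∑ k, cw n η v k ^ 2 * y k ^ 2 :=
      sum_le_sum fun k _ => mul_le_mul_of_nonneg_right (hd k) (sq_nonneg _)
    have e1 : qm (fun k => y k / (v + η k)) (fun k : Fin n => 1 / (v + η k)) =
        ∑ k, cw n η v k ^ 2 * y k ^ 2 + ∑ k, cw n η v k := by
      rw [qm, ← sum_add_distrib]
      refine sum_congr rfl fun k _ => ?_
      simp only [cw]
      ring
    linarith

lemma mom_of : ∃ C₂ : ℝ, 1 ≤ C₂ ∧ ∀ (n : ℕ) (η : ℕ → ℝ) (L t c v₀ r r' e X B : ℝ) (y : Fin n → ℝ),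
    1 ≤ n → 0 < t → 0 < c → (∀ k : Fin n, -L ≤ η k) →
    (∀ v, v₀ ≤ v → c * min (v * √v) n * (1 / (v - L)) ^ 2 ≤ ∑ k, cw n η v k ^ 2) →
    v₀ ≤ r → 4 ≤ v₀ → 0 < e → e ≤ 1 / 4 → 0 < r' → (1 - 2 * e) * r' ≤ v₀ - L → X ≤ 2 * v₀ → X ≤ n →
    C₂ ^ 2 / c ≤ X → 1 ≤ X * e ^ 4 → 10 * (C₂ ^ 2 / c + 1) + 4 ≤ B →
    t < qm (fun k => y k / (v₀ + η k)) (fun k : Fin n => 1 / (v₀ + η k)) →
    Mom (pst r (nuD n η t) y) ((1 + B * e) / r') := by
  obtain ⟨C₂, hC₂, hH⟩ := All.hardStmt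
  refine ⟨C₂, hC₂, fun n η L t c v₀ r r' e X B y hn ht hc hlo hG hr h4 he he4 hr' hz hX hXn hXc hXe
    hB hy => ?_⟩
  have : Nonempty (Fin n) := ⟨⟨0, hn⟩⟩
  have h0 : 0 < (1 - 2 * e) * r' := mul_pos (by linarith) hr'
  obtain ⟨v, hv, hq⟩ := saddle hlo (by linarith) hr ht le_rfl hy
  have hsv : 2 ≤ √v := le_sqrt_of_sq_le (by linarith)
  have hm : X ≤ min (v * √v) n := le_min (by nlinarith) hXn
  obtain ⟨a1, a2, a3, a4, a5⟩ := num (z := v - L) hC₂ hc he he4 hr' (by linarith) (hG v hv)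
    (hXc.trans hm) (hXe.trans (mul_le_mul_of_nonneg_right hm (by positivity))) le_rfl hB
  have hz : 0 < v - L := one_div_pos.1 a1
  have b1 : ∀ k : Fin n, 0 < v + η k := fun k => by have := hlo k; linarith
  have b2 : ∀ k : Fin n, 1 / (v + η k) ≤ 1 / (v - L) := fun k =>
    one_div_le_one_div_of_le hz (by have := hlo k; linarith)
  rw [pst_nuD η ht.le r v]
  exact mom_mono (momStmt _ _ _ _ _ _ (isProbabilityMeasure_tilted (integrable_sphR _ (by fun_prop)))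
    (fun k => one_div_pos.2 (b1 k)) b2 a3 a4
    (hH _ (fun k : Fin n => v + η k) y _ t a1 ht b1 b2 a2 (by rw [hq]; ring))).1 (by positivity) a5

lemma lo' {t L w C : ℝ} (h : Gd n η t L w C) (k : Fin n) : cr (k + 1) ^ 2 / 256 - L ≤ η k := by
  rw [← cr_sq]; exact h.lo k k.2

lemma lo {t L w C : ℝ} (h : Gd n η t L w C) (k : Fin n) : -L ≤ η k := by
  have := lo' h k
  have : 0 ≤ cr (k + 1) ^ 2 / 256 := by positivity
  linarith

/-- the sharp gap -/
lemma gap_sharp {t L w C r e u g : ℝ} (h : Gd n η t L w C) (hL : 0 ≤ L) (hw : 2 * L + 1 ≤ w)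
    (hr : 4 * L + 2 * w + 200 ≤ r) (he0 : 0 ≤ e) (he : e ≤ 1 / 2) (hg : 122880 ≤ g)
    (s : Finset (Fin n))
    (h1 : u + 3 * g / 4 ≤ ∑ k ∈ s, cw n η ((1 - e) * r) k ^ 2 * (r ^ 2 * cw n η w k + r)) :
    ∃ d : Fin n → ℝ, (∀ k, 0 ≤ d k) ∧ (∀ k, d k ≤ cw n η ((1 - e) * r) k ^ 2) ∧
      u + g / 2 ≤ ∑ k ∈ s, d k * (r ^ 2 * cw n η w k + r) ∧
      ∑ k, (d k * (r ^ 2 * cw n η w k + r)) ^ 2 ≤ 5120 ^ 2 * (3 / (g / 122880)) := by
  have x1 : 1 ≤ g / 122880 := by linarith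
  obtain ⟨m, m1, m2⟩ := ceil_cr x1
  have m0 : 1 ≤ m := by exact_mod_cast (one_le_pow₀ x1).trans m1
  have y1 := le_cr m1
  have y2 := cr_le (by positivity) m2
  have ha : ∀ k : Fin n, 0 ≤ cw n η ((1 - e) * r) k ^ 2 * (r ^ 2 * cw n η w k + r) ∧
      cw n η ((1 - e) * r) k ^ 2 * (r ^ 2 * cw n η w k + r) ≤ 5120 * (1 / cr (k + 1) ^ 2) :=
    fun k => by
      obtain ⟨b1, b2, -⟩ := Gap15.mode hL hw (lo h k) hr he0 he
      have b3 := one_le_cr k
      have b4 : 1 / (w + η k) ≤ 1 / (cr (k + 1) ^ 2 / 256) :=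
        one_div_le_one_div_of_le (by positivity) (by have := lo' h k; linarith)
      have b5 : 1 / (cr (k + 1) ^ 2 / 256) = 256 * (1 / cr (k + 1) ^ 2) := by field_simp
      exact ⟨b1, b2.trans (by linarith)⟩
  refine ⟨fun k => if m ≤ (k : ℕ) then cw n η ((1 - e) * r) k ^ 2 else 0, fun k => ?_, fun k => ?_,
    ?_, ?_⟩
  · dsimp only; split_ifs <;> positivity
  · dsimp only; split_ifs; exacts [le_rfl, sq_nonneg _]
  · have f1 := fin_lo n m (f := fun k => 5120 * (1 / cr (k + 1) ^ 2)) fun k => by positivity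
    rw [← mul_sum] at f1
    have f2 := sum_lo m
    have f3 : ∑ k ∈ s, (if (k : ℕ) < m then 5120 * (1 / cr (k + 1) ^ 2) else 0) ≤
        ∑ k : Fin n, (if (k : ℕ) < m then 5120 * (1 / cr (k + 1) ^ 2) else 0) :=
      sum_le_sum_of_subset_of_nonneg (subset_univ _) fun k _ _ => by split_ifs <;> positivity
    have f4 : ∑ k ∈ s, cw n η ((1 - e) * r) k ^ 2 * (r ^ 2 * cw n η w k + r) ≤
        ∑ k ∈ s, (if m ≤ (k : ℕ) then cw n η ((1 - e) * r) k ^ 2 else 0) *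
          (r ^ 2 * cw n η w k + r) +
        ∑ k ∈ s, (if (k : ℕ) < m then 5120 * (1 / cr (k + 1) ^ 2) else 0) := by
      rw [← sum_add_distrib]
      refine sum_le_sum fun k _ => ?_
      by_cases hk : m ≤ (k : ℕ)
      · rw [if_pos hk, if_neg (not_lt.2 hk), add_zero]
      · rw [if_neg hk, if_pos (not_le.1 hk), zero_mul, zero_add]; exact (ha k).2
    linarith
  · beta_reduce
    have f1 := fin_hi n m (f := fun k => 5120 ^ 2 * (1 / cr (k + 1) ^ 4)) fun k => by positivity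
    rw [← mul_sum] at f1
    have f2 := sum_hi m0 n
    have f3 : 0 ≤ 3 / cr (m + n) := div_nonneg (by norm_num) (cr_nn _)
    have f4 : 3 / cr m ≤ 3 / (g / 122880) := by gcongr
    refine le_trans (sum_le_sum fun k _ => ?_) (f1.trans (by gcongr; linarith))
    split_ifs
    · refine (pow_le_pow_left₀ (ha k).1 (ha k).2 2).trans_eq ?_
      have := one_le_cr k
      field_simp
    · simp

/-- the crude gap -/
lemma gap_crude {t L w C s x v : ℝ} (h : Gd n η t L w C) (ht : t ^ 3 = n) (hL : 0 ≤ L) (hw : L ≤ w)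
    (hs : 2 ≤ s) (hx : 1 ≤ x) (hLv : L ≤ v) (hv : v ≤ s ^ 2) (hst : 6 * (x * s) ≤ t) {i j : Fin n}
    (hi : (i : ℕ) = 0) (hj : (j : ℕ) = 1) :
    ∃ d : Fin n → ℝ, (∀ k, 0 ≤ d k) ∧ (∀ k, d k ≤ cw n η v k ^ 2) ∧
      s / (542 ^ 2 * x) ≤ ∑ k ∈ (univ.erase i).erase j, d k * ((s ^ 2) ^ 2 * cw n η w k + s ^ 2) ∧
      ∑ k, (d k * ((s ^ 2) ^ 2 * cw n η w k + s ^ 2)) ^ 2 ≤
        8 * (256 ^ 2 * 257) ^ 2 / (x ^ 5 * s) := by
  set ρ := x * s with hρ
  have ρ1 : s ≤ ρ := le_mul_of_one_le_left (by linarith) hx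
  have ρ0 : 0 < ρ := by linarith
  have ρ2 : s ^ 2 ≤ ρ ^ 2 := pow_le_pow_left₀ (by linarith) ρ1 2
  obtain ⟨m, m1, m2⟩ := ceil_cr (x := ρ) (by linarith)
  have ρ3 : (2 : ℝ) ^ 3 ≤ ρ ^ 3 := pow_le_pow_left₀ (by norm_num) (by linarith) 3
  have m0 : 2 ≤ m := by exact_mod_cast (show (2 : ℝ) ≤ m by linarith)
  have mn : 16 * m ≤ n := by
    have : (6 * ρ) ^ 3 ≤ t ^ 3 := pow_le_pow_left₀ (by positivity) hst 3
    exact_mod_cast (show 16 * (m : ℝ) ≤ n by nlinarith)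
  have ha : ∀ k : Fin n, m ≤ (k : ℕ) ∧ (k : ℕ) < 2 * m →
      s ^ 2 / (542 * ρ ^ 2) ^ 2 ≤ cw n η v k ^ 2 * ((s ^ 2) ^ 2 * cw n η w k + s ^ 2) ∧
      cw n η v k ^ 2 * ((s ^ 2) ^ 2 * cw n η w k + s ^ 2) ≤ (256 / ρ ^ 2) ^ 2 * (257 * s ^ 2) :=
    fun k hk => by
      have k1 : (m : ℝ) ≤ (k : ℕ) := by exact_mod_cast hk.1
      have k2 : ((k : ℕ) : ℝ) + 1 ≤ 2 * m := by exact_mod_cast hk.2
      have c1 : ρ ≤ cr (k + 1) := le_cr (by push_cast; linarith)
      have c2 : cr (k + 1) ≤ 3 * ρ := cr_le (by positivity) (by push_cast; nlinarith)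
      have c3 := pow_le_pow_left₀ ρ0.le c1 2
      have c4 := pow_le_pow_left₀ (cr_nn _) c2 2
      have c5 := lo' h k
      have c6 := h.hi k (by omega)
      rw [cr_sq] at c6
      have p0 : 0 < ρ ^ 2 / 256 := by positivity
      have d1 : cw n η v k ≤ 256 / ρ ^ 2 :=
        (one_div_le_one_div_of_le p0 (by linarith)).trans_eq (by field_simp)
      have d2 : cw n η w k ≤ 256 / ρ ^ 2 :=
        (one_div_le_one_div_of_le p0 (by linarith)).trans_eq (by field_simp)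
      have d3 : 1 / (542 * ρ ^ 2) ≤ cw n η v k :=
        one_div_le_one_div_of_le (by linarith) (by linarith)
      have d4 : 0 ≤ cw n η w k := one_div_nonneg.2 (by linarith)
      have d5 : 0 ≤ cw n η v k := le_trans (by positivity) d3
      have d6 : (s ^ 2) ^ 2 * cw n η w k ≤ 256 * s ^ 2 := by
        calc _ ≤ (s ^ 2 * ρ ^ 2) * (256 / ρ ^ 2) := by rw [sq (s ^ 2)]; gcongr
          _ = _ := by field_simp
      constructor
      · calc _ = (1 / (542 * ρ ^ 2)) ^ 2 * (0 + s ^ 2) := by field_simp; ring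
          _ ≤ _ := by gcongr; positivity
      · gcongr; linarith
  refine ⟨fun k => if m ≤ (k : ℕ) ∧ (k : ℕ) < 2 * m then cw n η v k ^ 2 else 0, fun k => ?_,
    fun k => ?_, ?_, ?_⟩
  · dsimp only; split_ifs <;> positivity
  · dsimp only; split_ifs; exacts [le_rfl, sq_nonneg _]
  · beta_reduce
    rw [sum_erase _ (by rw [if_neg (by omega), zero_mul]),
      sum_erase _ (by rw [if_neg (by omega), zero_mul])]
    calc _ = ρ ^ 3 * (s ^ 2 / (542 * ρ ^ 2) ^ 2) := by rw [hρ]; field_simp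
      _ ≤ m * (s ^ 2 / (542 * ρ ^ 2) ^ 2) := by gcongr
      _ = _ := (fin_mid (n := n) (by omega) _).symm
      _ ≤ _ := sum_le_sum fun k _ => by
        split_ifs with hk
        exacts [(ha k hk).1, by rw [zero_mul]]
  · beta_reduce
    calc _ ≤ ∑ k : Fin n, (if m ≤ (k : ℕ) ∧ (k : ℕ) < 2 * m then
          ((256 / ρ ^ 2) ^ 2 * (257 * s ^ 2)) ^ 2 else 0) := sum_le_sum fun k _ => by
          split_ifs with hk
          · exact pow_le_pow_left₀ (le_trans (by positivity) (ha k hk).1) (ha k hk).2 2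
          · simp
      _ = _ := fin_mid (by omega) _
      _ ≤ (2 * ρ) ^ 3 * ((256 / ρ ^ 2) ^ 2 * (257 * s ^ 2)) ^ 2 := by gcongr
      _ = _ := by rw [hρ]; field_simp; norm_num

end Lev44

open Lev44 SW89

set_option maxHeartbeats 800000 in
/-- **the spherical model at entropy levels** -/
theorem sLev (L C : ℝ) (hL : 0 ≤ L) : ∃ w₂ : ℝ, ∀ w, w₂ ≤ w → ∃ B : ℝ, 0 < B ∧
    (∃ K c : ℝ, 1 ≤ K ∧ 0 < c ∧ ∀ᶠ n in atTop, ∀ η, Gd n η (sx n ^ 2) L w C →
      LevAt n (nuD n η (sx n ^ 2)) B K c) ∧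
    ∀ M : ℝ, ∃ K A : ℝ, 1 ≤ K ∧ 0 < A ∧ ∀ᶠ n in atTop, ∀ η, Gd n η (sx n ^ 2) L w C →
      CruAt n (nuD n η (sx n ^ 2)) B K A M := by
  obtain ⟨C₂, hC₂, hM⟩ := mom_of
  obtain ⟨w₂, hw₂, hD⟩ := domStmt L C hL
  refine ⟨w₂, fun w hw => ?_⟩
  obtain ⟨B₀, hB₀, hD⟩ := hD w hw
  have hw' := hw₂.trans hw
  obtain ⟨c, D, K, hc, hD0, hK, hG⟩ := gapStmt L C w hL hw'
  have p2 : 0 < C₂ ^ 2 / c := by positivity
  obtain ⟨B, hB⟩ : ∃ B, B = B₀ + 10 * (C₂ ^ 2 / c + 1) + 4 := ⟨_, rfl⟩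
  have hP : ∀ (n : ℕ) (η : ℕ → ℝ), 2 ≤ n → IsProbabilityMeasure (nuD n η (sx n ^ 2)) :=
    fun n η hn => by
      have : Nonempty (Fin n) := ⟨⟨0, by omega⟩⟩
      exact isProbabilityMeasure_tilted (integrable_sphR _ (by fun_prop))
  refine ⟨B, by linarith, ?_, fun M => ?_⟩
  · obtain ⟨Q, hQ⟩ : ∃ Q, Q = ((4 * D + 122880) / c) ^ 2 + (4 * L + 2 * w + 200) + K +
      C₂ ^ 2 / c := ⟨_, rfl⟩
    have p3 : 0 ≤ ((4 * D + 122880) / c) ^ 2 := sq_nonneg _
    have Q1 : 200 ≤ Q := by linarith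
    refine ⟨Q ^ 2, c ^ 3 / (48 * 5120 ^ 2 * 122880), one_le_pow₀ (by linarith), by positivity, ?_⟩
    filter_upwards [hD, hG, eventually_ge_atTop 2] with n hD hG hn η hη r e hr hrt he he4
    have ht0 : 0 < sx n ^ 2 := pow_pos (sx_pos (by omega)) 2
    have hr0 : 0 < r := lt_of_lt_of_le (by positivity) hr
    have hsQ : Q ≤ √r := le_sqrt_of_sq_le hr
    have hrr : √r ^ 2 = r := sq_sqrt hr0.le
    have h0 : 0 < r ^ (-(1 / 4) : ℝ) := rpow_pos_of_pos hr0 _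
    have he0 : 0 < e := h0.trans_le he
    have h1 : 1 ≤ e ^ 2 * √r := by
      have : (r ^ (-(1 / 4) : ℝ)) ^ 2 * √r = 1 := by
        rw [sqrt_eq_rpow, ← rpow_natCast, ← rpow_mul hr0.le, ← rpow_add hr0]; norm_num
      rw [← this]; gcongr
    obtain ⟨hG1, hG2⟩ := hG η hη
    have hG1 := (hG1 ⟨0, by omega⟩ ⟨1, by omega⟩ r e (by nlinarith) he0.le (by linarith)).1
    have htn : sx n ^ 2 ≤ n := by
      rw [← sx_cube n]; exact le_self_pow₀ (one_le_pow₀ (one_le_sx (by omega))) three_ne_zero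
    generalize √r = s at *
    have s0 : 0 < s := by linarith
    have sr : s ≤ r := by nlinarith
    rw [min_eq_left (sr.trans hrt)] at hG1
    have h2 : (4 * D + 122880) / c ≤ e * s :=
      le_of_pow_le_pow_left₀ two_ne_zero (by positivity) (by nlinarith)
    rw [div_le_iff₀ hc] at h2
    have h3 : 1 ≤ e * s := by nlinarith
    have h4 : s ≤ e * r := by nlinarith
    have h5 : e * r ≤ 1 / 4 * r := mul_le_mul_of_nonneg_right he4 hr0.le
    obtain ⟨d, d0, d1, d2, d3⟩ := gap_sharp (g := c * e * s)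
      (u := sx n ^ 2 - ∑ k, cw n η ((1 - e) * r) k) hη hL hw' (by linarith) he0.le (by linarith)
      (by linarith) _ (le_trans (by linarith) hG1)
    have := off_of d (hP n η hn) (fun k => one_div_pos.2 (by have := lo hη k; linarith)) d0 d1
      hB₀.le hr0.le (by positivity) (by positivity)
      (hD η _ ht0 hη ⟨0, by omega⟩ ⟨1, by omega⟩ rfl rfl).1 d2 d3
    refine Win34.OffY.mono this (mul_le_mul (by linarith) (le_of_eq ?_) (exp_pos _).le
      (by linarith)) fun y hy => hM n η L _ c _ r r e r B y (by omega) ht0 hc (lo hη)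
        (fun v hv => hG2 v (by linarith)) (by linarith) (by linarith) he0 he4 hr0 (by linarith)
        (by linarith) (hrt.trans htn) (by linarith) ?_ (by linarith) hy
    · rw [← hrr]; congr 1; field_simp; norm_num
    · rw [← hrr]; nlinarith
  · obtain ⟨x, hx⟩ : ∃ x, x = max 1 (M * (16 * 542 ^ 4 * (8 * (256 ^ 2 * 257) ^ 2))) := ⟨_, rfl⟩
    have x1 : 1 ≤ x := hx ▸ le_max_left _ _
    have x2 : M * (16 * 542 ^ 4 * (8 * (256 ^ 2 * 257) ^ 2)) ≤ x ^ 3 :=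
      (hx ▸ le_max_right _ _ : _ ≤ x).trans (le_self_pow₀ x1 three_ne_zero)
    obtain ⟨q, hq⟩ : ∃ q, q = 1 / (2 * 542 ^ 2 * x * (|C| + 1)) := ⟨_, rfl⟩
    have C0 := abs_nonneg C
    have q0 : 0 < q := by rw [hq]; positivity
    have q1 : q ≤ 1 := by rw [hq, div_le_one (by positivity)]; nlinarith [mul_nonneg C0 (zero_le_one.trans x1)]
    have q2 : |C| * q ≤ 1 / (2 * 542 ^ 2 * x) := by
      rw [hq, mul_one_div, div_le_div_iff₀ (by positivity) (by positivity)]; nlinarith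
    obtain ⟨Q, hQ⟩ : ∃ Q, Q = w + 2 * L + K + 256 + C₂ ^ 2 / c := ⟨_, rfl⟩
    have Q1 : 256 ≤ Q := by linarith
    have q3 : q ^ 2 ≤ 1 := pow_le_one₀ q0.le q1
    have Q2 : Q ≤ Q / q ^ 2 := le_div_self (by linarith) (by positivity) q3
    have B0 : 0 < B := by linarith
    refine ⟨Q / q ^ 2, (1 + B * (1 / 4)) / q ^ 2, by linarith, by positivity, ?_⟩
    filter_upwards [hD, hG, eventually_ge_atTop 2, tendsto_sx.eventually_ge_atTop (6 * x),
      tendsto_natCast_atTop_atTop.eventually_ge_atTop Q] with n hD hG hn hsx hnQ η hη r hr hrt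
    have sx0 := sx_pos (n := n) (by omega)
    have ht0 : 0 < sx n ^ 2 := pow_pos sx0 2
    have hr0 : 0 < r := by linarith
    have hrr : √r ^ 2 = r := sq_sqrt hr0.le
    have hs2 : 2 ≤ √r := le_sqrt_of_sq_le (by linarith)
    have hss : √r ≤ sx n := sqrt_le_iff.2 ⟨sx0.le, hrt⟩
    have hv : Q ≤ q ^ 2 * r := by rwa [div_le_iff₀' (by positivity)] at hr
    have hv2 : q ^ 2 * r ≤ r := mul_le_of_le_one_left hr0.le q3
    have hdn := hη.dn (q ^ 2 * r) (by linarith)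
    rw [Sr, ← Fin.sum_univ_eq_sum_range (fun k : ℕ => 1 / (q ^ 2 * r + η k)) n,
      sqrt_mul (sq_nonneg q), sqrt_sq q0.le] at hdn
    obtain ⟨-, hG2⟩ := hG η hη
    generalize √r = s at *
    subst hrr
    have s0 : 0 < s := by linarith
    obtain ⟨d, d0, d1, d2, d3⟩ := gap_crude (v := q ^ 2 * s ^ 2) (i := ⟨0, by omega⟩)
      (j := ⟨1, by omega⟩) hη (sx_cube n) hL (by linarith) hs2 x1 (by linarith) hv2
      (by nlinarith [mul_le_mul hsx hss s0.le sx0.le]) rfl rfl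
    have u1 : C * (q * s) ≤ s / (2 * 542 ^ 2 * x) := by
      calc _ ≤ |C| * q * s := by rw [mul_assoc]; gcongr; exact le_abs_self C
        _ ≤ 1 / (2 * 542 ^ 2 * x) * s := by gcongr
        _ = _ := by ring
    have u2 : s / (542 ^ 2 * x) = s / (2 * 542 ^ 2 * x) + s / (2 * 542 ^ 2 * x) := by
      field_simp; norm_num
    have := off_of (t := sx n ^ 2) (g := s / (2 * 542 ^ 2 * x)) d (hP n η hn)
      (fun k => one_div_pos.2 (by have := lo hη k; linarith)) d0 d1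
      hB₀.le hr0.le (by positivity) (by positivity)
      (hD η _ ht0 hη ⟨0, by omega⟩ ⟨1, by omega⟩ rfl rfl).1
      (le_trans (by simp only [cw]; linarith) d2) d3
    refine Win34.OffY.mono this (mul_le_mul (by linarith) (exp_le_exp.2 (neg_le_neg ?_))
      (exp_pos _).le (by linarith)) fun y hy => ?_
    · calc _ ≤ x ^ 3 / (16 * 542 ^ 4 * (8 * (256 ^ 2 * 257) ^ 2)) * (s ^ 2 * s) := by
            gcongr; rwa [le_div_iff₀ (by positivity)]
        _ = _ := by field_simp; norm_num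
    · have := hM n η L _ c _ (s ^ 2) (q ^ 2 * s ^ 2) (1 / 4) Q B y (by omega) ht0 hc (lo hη)
        (fun v hv => hG2 v (by linarith)) hv2 (by linarith) (by norm_num) le_rfl (by positivity)
        (by linarith) (by linarith) hnQ (by linarith) (by linarith) (by linarith) hy
      rwa [div_div]

/-- the same for the spherical law of a GOE matrix -/
theorem sLevW (ε : ℝ) (hε : 0 < ε) : ∃ B K c : ℝ, 0 < B ∧ 1 ≤ K ∧ 0 < c ∧ ∀ M : ℝ, ∃ K' A : ℝ,
    1 ≤ K' ∧ 0 < A ∧ ∀ᶠ n in atTop, GOE n {W | ¬ (W.IsHermitian ∧ LevAt n (nuW n W) B K c ∧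
      CruAt n (nuW n W) B K' A M)} ≤ ENNReal.ofReal ε := by
  obtain ⟨C0, -, hG⟩ := St.All.goodStmt
  obtain ⟨L, w₁, hL0, hG⟩ := hG ε hε
  obtain ⟨w₂, hS⟩ := sLev L C0 hL0
  obtain ⟨B, hB, ⟨K, c, hK, hc, h1⟩, h2⟩ := hS (max w₁ w₂) (le_max_right _ _)
  refine ⟨B, K, c, hB, hK, hc, fun M => ?_⟩
  obtain ⟨K', A, hK', hA, h2⟩ := h2 M
  refine ⟨K', A, hK', hA, ?_⟩
  filter_upwards [hG _ (le_max_left w₁ w₂), h1, h2, eventually_ge_atTop 1] with n g h1 h2 hn
  refine le_trans (measure_mono fun W hW => ?_) g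
  rintro ⟨hH, hGd⟩
  obtain ⟨-, hcd, -, hO, -⟩ := St.All.lnkStmt n hn
  obtain ⟨O, hO, -, hnu⟩ := hO W hH
  have := (hcd (Lam n W) (sx n ^ 2) (pow_pos (sx_pos hn) 2)).1.prob
  refine hW ⟨hH, fun r e a b c d => ?_, fun r a b => ?_⟩
  · rw [hnu]; exact Win34.OffY.map hO (h1 _ hGd r e a b c d)
  · rw [hnu]; exact Win34.OffY.map hO (h2 _ hGd r a b)

end Crest.Agent.T157.Sp

end
end

-- ▼ part T157/OeDef_87
section

/-!
# Row 157, A2 section 7 (helper87): the edge transfer sphere → cube at exponential levels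

`Lc`, `Ls` are the partition functions of the cube and of the sphere with a field; `Ls` is the mean of
`Lc` over the orbit `(W, y) ↦ (U W Uᵀ, U y)` of `SO(n)`.  On the event `EG` (from the joint planted
theorem at a time `t`) `log (Lc / Ls)` is semi-convex with a small gradient (`OrbL`), hence small off
an exponentially small event for both laws (`ShpL`, `CmpN`); posterior covariance bounds at earlier
times pass from the sphere to the cube (`TrfL`, `EdgeT`).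
-/

set_option autoImplicit false

noncomputable section

namespace Crest.Agent.T157.Oe

open MeasureTheory ProbabilityTheory Matrix Filter Topology Set Real
open scoped ENNReal
open Crest.Agent.Lib.OrthPoinc (Mat SOInv)
open Crest.Agent.T157.E Crest.Agent.T157.St Crest.Agent.T157.Sp
open Crest.Agent.T157.Ed (sx tau)
open Crest.Agent.T157.Tap (Mx V GOE)
open Crest.Agent.T157.Oc (SO)
open Crest.Agent.T157.Od (T2H tm)
open Crest.Agent.T157.Ks (fr)
open Crest.Agent.T157.Ks.St0 (JP)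
open Crest.Agent.T157.Top (Whp)

variable {n : ℕ}

/-- the output laws at time `K` are comparable off a set which is small for both of them -/
def Cmp {ι : Type*} [Fintype ι] (K : ℝ) (μ ν : Measure (ι → ℝ)) (k p : ℝ) : Prop :=
  ∃ B : Set (ι → ℝ), MeasurableSet B ∧ lawY K μ B ≤ ENNReal.ofReal p ∧
    lawY K ν B ≤ ENNReal.ofReal p ∧ ∃ c : ℝ, 0 < c ∧
      ∀ y ∉ B, c * Mf K μ y ≤ k * Mf K ν y ∧ Mf K ν y ≤ k * (c * Mf K μ y)

/-- partition function of the cube with a field -/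
def Lc (W : Mx n) (y : V n) : ℝ := Zw (ising W y) / 2 ^ n
/-- partition function of the sphere with a field -/
def Ls (W : Mx n) (y : V n) : ℝ :=
  ∫ x, exp (Hh n W x + (sx n ^ 2 • y) ⬝ᵥ x) ∂sphR (Fin n) (sx n)
/-- the joint rotation of the matrix and of the field -/
def act (U : Mat n) (z : Mx n × V n) : Mx n × V n :=
  (Matrix.of U * z.1 * (Matrix.of U)ᵀ, Matrix.of U *ᵥ z.2)
/-- the log-density of the cube model on the orbit of `z` -/
def uo (z : Mx n × V n) (U : Mat n) : ℝ := log (Lc (act U z).1 (act U z).2) - log (Ls z.1 z.2)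

/-- what is used of the good event: (g1), (g3), (g5) in crude sizes, `A₀ = 2 - W` -/
structure EG (W : Mx n) (y : V n) (s c : ℝ) : Prop where
  sy : Wᵀ = W
  lo : ∀ v : V n, -(3 * (v ⬝ᵥ v)) ≤ v ⬝ᵥ W *ᵥ v
  cov : ∀ v : V n, v ⬝ᵥ covM (ising W y) *ᵥ v + (mag (ising W y) ⬝ᵥ v) ^ 2 ≤ s * (v ⬝ᵥ v)
  com : fr (((2 : ℝ) • (1 : Mx n) - W) * covM (ising W y) - 1) ≤ c ^ 2
  fld : ((((2 : ℝ) • (1 : Mx n) - W) *ᵥ mag (ising W y) - y) ⬝ᵥ
      (((2 : ℝ) • (1 : Mx n) - W) *ᵥ mag (ising W y) - y)) *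
    (mag (ising W y) ⬝ᵥ mag (ising W y)) ≤ c ^ 2

/-- the exponentially small terms of `ShpL` -/
def tl (k : ℕ) (r w : ℝ) : ℝ := 6 * exp (w - ((k : ℝ) - 2) * r ^ 2 / 16) + 20 * exp (4 - 2 * w)

/-- the Haar law exists -/
def HaarL : Prop := ∀ n : ℕ, 0 < n → ∃ μ : Measure (Mat n), IsProbabilityMeasure μ ∧ SOInv μ

/-- semi-convexity on the orbit (Jensen at `U`), normalisation by the sphere -/
def OrbL : Prop := ∀ (n : ℕ) (μ : Measure (Mat n)) [IsProbabilityMeasure μ], SOInv μ → 2 ≤ n →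
  ∀ (z : Mx n × V n) (S : Set (Mat n)) (s c : ℝ), 0 ≤ s → 0 ≤ c →
    (∀ U ∈ SO n, U ∈ S → EG (act U z).1 (act U z).2 s c) → T2H μ (uo z) S (4 * c) (5 / 2 * s)

/-- sharp form of (T2): `|u| ≤ 2 δ` off a small set, for both laws -/
def ShpL : Prop := ∀ (k : ℕ) (μ : Measure (Mat k)) [IsProbabilityMeasure μ] (u : Mat k → ℝ)
  (S : Set (Mat k)) (c b r δ w : ℝ), T2H μ u S c b → MeasurableSet S → 2 < k →
    b ≤ ((k : ℝ) - 2) / 128 → 0 ≤ r → 0 < δ → δ ≤ 1 → r * c / 2 + b * r ^ 2 ≤ δ →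
    1 + 48 * c ^ 2 / ((k : ℝ) - 2) ≤ w →
    tm μ u {U | 2 * δ < |u U|} ≤ (5 * tm μ u Sᶜ + tl k r w) / δ ∧
      μ.real {U | 2 * δ < |u U|} ≤ (5 * tm μ u Sᶜ + tl k r w) / δ

/-- transfer of covariance bounds between comparable channels -/
def TrfL : Prop := ∀ (ι : Type) [Fintype ι] (μ ν : Measure (ι → ℝ)) (R s K k q a p : ℝ),
  IsProbabilityMeasure μ → IsProbabilityMeasure ν → (∀ᵐ x ∂μ, x ⬝ᵥ x ≤ R) → (∀ᵐ x ∂ν, x ⬝ᵥ x ≤ R) →
    0 < s → 0 < K → 1 ≤ k → k ≤ 2 → 0 < q → q ≤ 1 / 4 → 0 ≤ a → 0 ≤ p →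
    Cmp (s + K) μ ν k (q ^ 4) → OffY s ν p (fun y => CovB (pst s ν y) a) →
    OffY s μ (5 * p + 7 * q ^ 2) fun y =>
      CovB (pst s μ y) (k ^ 4 * (1 + q) * (a + 1 / K) - 1 / K + (12 * R + 29 / K) * q)

/-- invariant measurable sets of matrices -/
def Inv (I : Set (Mx n)) : Prop :=
  MeasurableSet I ∧ ∀ W ∈ I, ∀ O : Mx n, O * Oᵀ = 1 → O * W * Oᵀ ∈ I

/-- comparison at time `t`, fixed `n` -/
def CmpN : Prop := ∀ (n : ℕ) (I : Set (Mx n)) (t s c r δ w θ l p : ℝ), 2 < n → Inv I → 0 ≤ t →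
  0 ≤ s → 0 ≤ c → 0 ≤ r → 0 < δ → δ ≤ 1 → 5 / 2 * s ≤ ((n : ℝ) - 2) / 128 →
  r * (4 * c) / 2 + 5 / 2 * s * r ^ 2 ≤ δ → 1 + 48 * (4 * c) ^ 2 / ((n : ℝ) - 2) ≤ w → 0 ≤ θ →
  0 < l → 0 < p → JP t n {z | z.1 ∈ I ∧ ¬ EG z.1 z.2 s c} ≤ ENNReal.ofReal θ →
    GOE n {W | W ∈ I ∧ l * exp (n / 4) ≤ Zc n W ∧ l * exp (n / 4) ≤ Zs n W ∧
      ¬ Cmp (tau n * t) (muW n W) (nuW n W) (exp (2 * δ)) p} ≤
      ENNReal.ofReal (2 * ((5 * θ + tl n r w) / δ) / (l * p))

/-- the input from the joint planted theorem at the time `t n`, level `n ^ h` -/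
def EIn (I : ∀ n, Set (Mx n)) (t : ℕ → ℝ) (η h : ℝ) : Prop := ∀ᶠ n : ℕ in atTop,
  JP (t n) n {z | z.1 ∈ I n ∧ ¬ EG z.1 z.2 ((n : ℝ) ^ (9 / 10 : ℝ)) ((n : ℝ) ^ ((1 - η) / 2))} ≤
    ENNReal.ofReal (exp (-(n : ℝ) ^ h))

/-- covariance bounds of the sphere at hatted times `r ≤ τ t / 2` hold on the cube -/
def Pass (n : ℕ) (W : Mx n) (t γ θ : ℝ) : Prop := ∀ r e p : ℝ, 1 ≤ r → 2 * r ≤ tau n * t → 0 ≤ e →
  0 ≤ p → OffY r (nuW n W) p (fun y => CovB (pst r (nuW n W) y) ((1 + e) / r)) →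
    Crit.CovAt (ising W 0) (r / tau n) ((1 + e) * (1 + γ) / (r / tau n)) (5 * p + θ)

/-- **the edge transfer** -/
def EdgeT : Prop := ∀ (I : ∀ n, Set (Mx n)) (t : ℕ → ℝ) (η h : ℝ), (∀ n, Inv (I n)) →
  Whp GOE (fun n W => W ∈ I n) → 0 < h → h < η → η ≤ 1 / 10 → (∀ n, t n ∈ Icc (0 : ℝ) 1) →
  EIn I t η h → Whp GOE fun n W =>
    Pass n W (t n) ((n : ℝ) ^ (-((η - h) / 4))) (exp (-((n : ℝ) ^ h / 10)))

def CmpGlue : Prop := HaarL → OrbL → ShpL → CmpN
def EdgeGlue : Prop := CmpN → TrfL → EdgeT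

end Crest.Agent.T157.Oe

end
end

-- ▼ part T157/OeCmp_87
section

/-!
# Row 157, A2 section 7 (helper87): `Oe.cmpGlue`
-/

set_option autoImplicit false
set_option linter.unusedSectionVars false

noncomputable section

namespace Crest.Agent.T157.Oe

open MeasureTheory ProbabilityTheory Matrix Filter Topology Set Real
open scoped ENNReal
open Crest.Agent.Lib.OrthPoinc (Mat SOInv)
open Crest.Agent.T157.E Crest.Agent.T157.St Crest.Agent.T157.Sp
open Crest.Agent.T157.Ed (sx tau sx_pos tau_eq sx_pow_six)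
open Crest.Agent.T157.Tap (Mx V GOE)
open Crest.Agent.T157.Oc (SO)
open Crest.Agent.T157.Od (T2H tm)
open Crest.Agent.T157.Ks.St0 (JP)
open Crest.Agent.T157.St.A87 Crest.Agent.T157.Sp.Trf85 Crest.Agent.T157.St.Lnk10

namespace Cmp87

section abs
variable {ι : Type*} [Fintype ι] [DecidableEq ι] {μ : Measure (ι → ℝ)} {K : ℝ}

instance (T : ℝ) : IsProbabilityMeasure (gK ι T) :=
  Measure.isProbabilityMeasure_map (Measurable.aemeasurable (by fun_prop))

lemma lawY_lint (hμ : Cp μ) (hK : 0 ≤ K) {A : Set (ι → ℝ)} (hA : MeasurableSet A) :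
    lawY K μ A = ∫⁻ y, A.indicator (fun y => ENNReal.ofReal (Mf K μ y)) y ∂gK ι K := by
  rw [lawY_eq hμ hK hA, PY, IK, ofReal_integral_eq_lintegral_ofReal
    (intK ((mg_Mf hμ hK).mul (mg_ind hA)) K) (.of_forall fun z => mul_nonneg (Mf_pos hμ hK _).le
      (indicator_nonneg (fun _ _ => zero_le_one) _)), gK,
    lintegral_map ((measurable_Mf hμ).ennreal_ofReal.indicator hA) (by fun_prop)]
  refine lintegral_congr fun z => ?_
  by_cases h : √K • z ∈ A <;> simp [h]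

lemma gK_scale {s : ℝ} (hs : 0 ≤ s) (t : ℝ) : (gK ι t).map (fun y => s • y) = gK ι (s ^ 2 * t) := by
  rw [gK, gK, Measure.map_map (by fun_prop) (by fun_prop)]
  congr 1
  funext z
  rw [Function.comp_apply, smul_smul, sqrt_mul (sq_nonneg _), sqrt_sq hs]

lemma gK_rot {O : Matrix ι ι ℝ} (hO : Oᵀ * O = 1) (t : ℝ) :
    (gK ι t).map (fun y => O *ᵥ y) = gK ι t := by
  unfold gK
  conv_rhs => rw [← Sph38.map_gv_orth hO]
  rw [Measure.map_map (by fun_prop) (by fun_prop), Measure.map_map (by fun_prop) (by fun_prop)]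
  congr 1
  funext z
  simp only [Function.comp_apply, mulVec_smul]

end abs

variable {n : ℕ} {t : ℝ}

/-- the null law of the pair (matrix, field) -/
abbrev NN (n : ℕ) (t : ℝ) : Measure (Mx n × V n) := (GOE n).prod (gK (Fin n) t)
/-- normalising constant -/
def ka (n : ℕ) (t : ℝ) : ℝ := exp (-(n * t / 2)) / exp (n / 4)
/-- back to unhatted fields -/
abbrev un (n : ℕ) (y : V n) : V n := (sx n ^ 2)⁻¹ • y

lemma ka_pos : 0 < ka n t := div_pos (exp_pos _) (exp_pos _)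

lemma tau_sq (n : ℕ) : tau n = (sx n ^ 2) ^ 2 := by rw [tau_eq]; ring

lemma model (hn : 1 ≤ n) (ht : 0 ≤ t) {μ : Measure (V n)} (hμ : Cp μ) {Z : ℝ} (hZ : 0 < Z)
    {L : V n → ℝ} (h : ∀ y, Mf (tau n * t) μ (sx n ^ 2 • y) = L y * exp (-(n * t / 2)) / Z)
    {A : Set (V n)} (hA : MeasurableSet A) :
    ENNReal.ofReal (Z / exp (n / 4)) * lawY (tau n * t) μ (un n ⁻¹' A) =
      ∫⁻ y, A.indicator (fun y => ENNReal.ofReal (ka n t * L y)) y ∂gK (Fin n) t := by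
  have hs := pow_pos (sx_pos hn) 2
  have mA : MeasurableSet (un n ⁻¹' A) := hA.preimage (by fun_prop)
  rw [lawY_lint hμ (mul_nonneg (Ed.tau_pos hn).le ht) mA]
  conv_lhs => arg 2; arg 1; rw [tau_sq, ← gK_scale hs.le]
  rw [lintegral_map ((measurable_Mf hμ).ennreal_ofReal.indicator mA) (by fun_prop),
    ← lintegral_const_mul' _ _ ENNReal.ofReal_ne_top]
  refine lintegral_congr fun y => ?_
  have e : sx n ^ 2 • y ∈ un n ⁻¹' A ↔ y ∈ A := by
    rw [mem_preimage, un, smul_smul, inv_mul_cancel₀ hs.ne', one_smul]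
  by_cases hy : y ∈ A
  · rw [indicator_of_mem (e.2 hy), indicator_of_mem hy, h, ← ENNReal.ofReal_mul (by positivity), ka]
    congr 1
    field_simp
  · rw [indicator_of_notMem (mt e.1 hy), indicator_of_notMem hy, mul_zero]

lemma Mf_c (hn : 1 ≤ n) (W : Mx n) (y : V n) :
    Mf (tau n * t) (muW n W) (sx n ^ 2 • y) = Lc W y * exp (-(n * t / 2)) / Zc n W := by
  have hs := (sx_pos hn).ne'
  have hZ : 0 < ∑ x, ising W 0 x := Finset.sum_pos (fun x _ => ising_pos W x) Finset.univ_nonempty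
  rw [Mf, integral_muW, mean, Lc, Zc, Zw, Zw, div_mul_eq_mul_div, div_div_div_cancel_right₀
    (by positivity), Finset.sum_mul, Finset.sum_div]
  refine Finset.sum_congr rfl fun x _ => ?_
  have e : sv x ⬝ᵥ sv x = sx n ^ 6 := by
    rw [sx_pow_six]; simp [dotProduct, sv, ← sq, spin_sq]
  rw [prob, div_mul_eq_mul_div, ising, ising, ew, ← exp_add, ← exp_add]
  congr 2
  simp only [hat, smul_dotProduct, dotProduct_smul, smul_eq_mul, e, zero_dotProduct, tau_eq]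
  rw [← sx_pow_six n]
  field_simp
  ring

lemma Mf_s (hn : 1 ≤ n) (W : Mx n) (y : V n) :
    Mf (tau n * t) (nuW n W) (sx n ^ 2 • y) = Ls W y * exp (-(n * t / 2)) / Zs n W := by
  have : Nonempty (Fin n) := ⟨⟨0, hn⟩⟩
  rw [Mf, nuW, integral_tilted, Ls, ← integral_mul_const, ← integral_div]
  refine integral_congr_ae ((Sph38.sphR_ae (sx n)).mono fun x hx => ?_)
  simp only [smul_eq_mul, ew, Zs, hx]
  rw [div_mul_eq_mul_div, ← exp_add, ← exp_add, tau_eq, ← sx_pow_six n]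
  congr 2
  ring

lemma cp_sph (hn : 1 ≤ n) (r : ℝ) : Cp (sphR (Fin n) r) :=
  haveI : Nonempty (Fin n) := ⟨⟨0, hn⟩⟩
  ⟨inferInstance, r ^ 2, (Sph38.sphR_ae r).mono fun _ h => h.le⟩

lemma cp_nu (hn : 1 ≤ n) (W : Mx n) : Cp (nuW n W) := cp_tilted (cp_sph hn _) (continuous_Hh' W)

lemma cp_mu (W : Mx n) : Cp (muW n W) := cp_dm (ising_pos W) _

lemma Zc_pos (W : Mx n) : 0 < Zc n W :=
  div_pos (Finset.sum_pos (fun y _ => ising_pos W y) Finset.univ_nonempty) (by positivity)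

lemma Zs_pos (hn : 1 ≤ n) (W : Mx n) : 0 < Zs n W :=
  integral_exp_pos_cp (cp_sph hn _) (continuous_Hh' W)

lemma Lc_pos (W : Mx n) (y : V n) : 0 < Lc W y := div_pos (Pl.wt_ising W y).pos (by positivity)

lemma Ls_pos (hn : 1 ≤ n) (W : Mx n) (y : V n) : 0 < Ls W y :=
  integral_exp_pos_cp (cp_sph hn _) ((continuous_Hh' W).add (by fun_prop))

lemma meas_Lc : Measurable fun z : Mx n × V n => Lc z.1 z.2 :=
  (Finset.measurable_fun_sum _ fun x _ => Pl.measurable_ising measurable_fst measurable_snd x).div_const _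

lemma meas_Ls (hn : 1 ≤ n) : Measurable fun z : Mx n × V n => Ls z.1 z.2 := by
  have := (cp_sph hn (sx n)).prob
  refine (StronglyMeasurable.integral_prod_right (Measurable.stronglyMeasurable ?_)).measurable
  unfold Function.uncurry Hh
  fun_prop

lemma lawY_muW (hn : 1 ≤ n) (W : Mx n) (r : ℝ) {A : Set (V n)} (hA : MeasurableSet A) :
    SL.law sv (ising W 0) r ((fun y => sx n ^ 2 • y) ⁻¹' A) = lawY (tau n * r) (muW n W) A := by
  have hs := pow_pos (sx_pos hn) 2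
  have hm : Measurable fun y : Fin n → ℝ => sx n ^ 2 • y := by fun_prop
  rw [muW, Win34.lawY_dm, SL.law, SL.law, Measure.coe_finsetSum, Measure.coe_finsetSum,
    Finset.sum_apply, Finset.sum_apply]
  refine Finset.sum_congr rfl fun x _ => ?_
  rw [Measure.smul_apply, Measure.smul_apply, ← Measure.map_apply hm hA,
    Measure.map_map hm (by fun_prop)]
  congr 3
  funext z
  rw [Function.comp_apply, hat, tau_sq, sqrt_mul (sq_nonneg _), sqrt_sq hs.le, smul_add, smul_smul,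
    smul_smul, smul_smul]
  congr 2
  field_simp

/-- density of the planted law -/
def Dc (t : ℝ) (z : Mx n × V n) : ℝ≥0∞ := ENNReal.ofReal (ka n t * Lc z.1 z.2)
/-- density of the planted spherical law -/
def Ds (t : ℝ) (z : Mx n × V n) : ℝ≥0∞ := ENNReal.ofReal (ka n t * Ls z.1 z.2)

lemma meas_Dc : Measurable (Dc (n := n) t) := (meas_Lc.const_mul _).ennreal_ofReal
lemma meas_Ds (hn : 1 ≤ n) : Measurable (Ds (n := n) t) := ((meas_Ls hn).const_mul _).ennreal_ofReal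

lemma sec_c (hn : 1 ≤ n) (ht : 0 ≤ t) {A : Set (Mx n × V n)} (hA : MeasurableSet A) (W : Mx n) :
    ENNReal.ofReal (Zc n W / exp (n / 4)) * lawY (tau n * t) (muW n W) (un n ⁻¹' {y | (W, y) ∈ A}) =
      ∫⁻ y, A.indicator (Dc t) (W, y) ∂gK (Fin n) t :=
  model hn ht (cp_mu W) (Zc_pos W) (Mf_c hn W) (measurable_prodMk_left hA)

lemma sec_s (hn : 1 ≤ n) (ht : 0 ≤ t) {A : Set (Mx n × V n)} (hA : MeasurableSet A) (W : Mx n) :
    ENNReal.ofReal (Zs n W / exp (n / 4)) * lawY (tau n * t) (nuW n W) (un n ⁻¹' {y | (W, y) ∈ A}) =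
      ∫⁻ y, A.indicator (Ds t) (W, y) ∂gK (Fin n) t :=
  model hn ht (cp_nu hn W) (Zs_pos hn W) (Mf_s hn W) (measurable_prodMk_left hA)

lemma LRW_eq (W : Mx n) : Pl.LRW n 1 W = Zc n W / exp (n / 4) := by
  rw [Pl.LRW, Zc, one_smul, one_pow, one_mul, div_div]

lemma JP_lint (hn : 1 ≤ n) (ht : 0 ≤ t) {A : Set (Mx n × V n)} (hA : MeasurableSet A) :
    JP t n A = ∫⁻ z, A.indicator (Dc t) z ∂NN n t := by
  have hs := pow_pos (sx_pos hn) 2
  rw [Ks.St0.JP_apply hA, Ks.St0.PW, lintegral_withDensity_eq_lintegral_mul _ Ks.St0.meas_LR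
    (Ks.St0.meas_law hA), lintegral_prod _ (meas_Dc.indicator hA).aemeasurable]
  refine lintegral_congr fun W => ?_
  rw [← sec_c hn ht hA, Pi.mul_apply, LRW_eq, ← lawY_muW hn W t
    (A := un n ⁻¹' {y | (W, y) ∈ A}) ((measurable_prodMk_left hA).preimage (by fun_prop))]
  congr 2
  ext y
  simp only [mem_preimage, un, smul_smul, inv_mul_cancel₀ hs.ne', one_smul]

lemma meas_act : Measurable fun z : (Mx n × V n) × Mat n => act z.2 z.1 := by
  have h : Measurable fun p : (Mx n × V n) × Mat n => (Matrix.of p.2 : Mx n) :=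
    Cond.measurable_mat_iff.2 fun i j => by simp only [Matrix.of_apply]; fun_prop
  exact ((h.t157_mul measurable_fst.fst).t157_mul h.t157_transpose).prodMk
    (h.t157_mulVec measurable_fst.snd)

lemma meas_sec (z : Mx n × V n) {X : Set (Mx n × V n)} (hX : MeasurableSet X) :
    MeasurableSet {U | act U z ∈ X} :=
  measurable_prodMk_left (x := z) (meas_act hX)

lemma map_act {U : Mat n} (hU : U ∈ SO n) : (NN n t).map (act U) = NN n t := by
  have h1 : MeasurePreserving (fun W : Mx n => Matrix.of U * W * (Matrix.of U)ᵀ) (GOE n) (GOE n) :=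
    ⟨by fun_prop, Cond.goe_conj _ _ (Orb.mul_tp hU)⟩
  have h2 : MeasurePreserving (fun y : V n => Matrix.of U *ᵥ y) (gK (Fin n) t) (gK (Fin n) t) :=
    ⟨by fun_prop, gK_rot (Orb.tp_mul hU) t⟩
  exact (h1.prod h2).map_eq

lemma Ls_act {U : Mat n} (hU : U ∈ SO n) (z : Mx n × V n) :
    Ls (act U z).1 (act U z).2 = Ls z.1 z.2 := by
  have hO := Orb.tp_mul hU
  rw [Ls, ← Sph38.map_orth_sphR (sx n) hO, integral_map (measurable_mulVec _).aemeasurable
    (Continuous.aestronglyMeasurable (by unfold Hh; fun_prop))]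
  simp only [act, Hh_conj z.1 hO, Ls, ← mulVec_smul]
  refine integral_congr_ae (.of_forall fun x => ?_)
  simp only
  rw [dotProduct_mulVec, vecMul_mulVec, hO, vecMul_one]

variable {μ : Measure (Mat n)} [IsProbabilityMeasure μ]

lemma orb_c (hn : 1 ≤ n) {z : Mx n × V n} {S : Set (Mat n)} {c b : ℝ} (h : T2H μ (uo z) S c b)
    {X : Set (Mx n × V n)} (hX : MeasurableSet X) :
    ∫⁻ U, X.indicator (Dc t) (act U z) ∂μ =
      ENNReal.ofReal (ka n t * Ls z.1 z.2 * tm μ (uo z) {U | act U z ∈ X}) := by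
  have mX := meas_sec z hX
  have p := mul_pos (ka_pos (n := n) (t := t)) (Ls_pos hn z.1 z.2)
  rw [tm, ← integral_const_mul, ofReal_integral_eq_lintegral_ofReal
    (h.int.integrableOn.const_mul _) (.of_forall fun U => (mul_pos p (exp_pos _)).le),
    ← lintegral_indicator mX]
  refine lintegral_congr fun U => ?_
  by_cases hU : act U z ∈ X
  · rw [indicator_of_mem hU, indicator_of_mem (show U ∈ {U | act U z ∈ X} from hU), Dc, uo, exp_sub,
      exp_log (Lc_pos _ _), exp_log (Ls_pos hn _ _)]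
    congr 1
    have := (Ls_pos hn z.1 z.2).ne'
    field_simp
  · rw [indicator_of_notMem hU, indicator_of_notMem (show U ∉ {U | act U z ∈ X} from hU)]

lemma orb_s (hμ : SOInv μ) (hn : 1 ≤ n) (z : Mx n × V n) {X : Set (Mx n × V n)}
    (hX : MeasurableSet X) : ∫⁻ U, X.indicator (Ds t) (act U z) ∂μ =
      ENNReal.ofReal (ka n t * Ls z.1 z.2 * μ.real {U | act U z ∈ X}) := by
  have mX := meas_sec z hX
  have p := mul_pos (ka_pos (n := n) (t := t)) (Ls_pos hn z.1 z.2)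
  rw [ENNReal.ofReal_mul p.le, ofReal_measureReal, ← lintegral_indicator_const mX]
  refine lintegral_congr_ae ((Orb.ae_SO hμ).mono fun U hU => ?_)
  by_cases h : act U z ∈ X
  · simp only [indicator_of_mem h, indicator_of_mem (show U ∈ {U | act U z ∈ X} from h), Ds, Ls_act hU]
  · simp only [indicator_of_notMem h, indicator_of_notMem (show U ∉ {U | act U z ∈ X} from h)]

lemma markov {F : Mx n × V n → ℝ≥0∞} (hF : Measurable F) {a ε : ℝ} (hε : 0 < ε)
    (h : ∫⁻ z, F z ∂NN n t ≤ ENNReal.ofReal a) :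
    GOE n {W | ENNReal.ofReal ε ≤ ∫⁻ y, F (W, y) ∂gK (Fin n) t} ≤ ENNReal.ofReal (a / ε) := by
  refine (meas_ge_le_lintegral_div hF.lintegral_prod_right'.aemeasurable
    (ENNReal.ofReal_pos.2 hε).ne' ENNReal.ofReal_ne_top).trans ?_
  rw [← lintegral_prod _ hF.aemeasurable, ENNReal.ofReal_div_of_pos hε]
  exact ENNReal.div_le_div_right h _

end Cmp87

open Cmp87 in
theorem cmpGlue : CmpGlue := by
  intro hH hO hS n I t s c r δ w θ l p hn hI ht s0 c0 r0 δ0 δ1 hb hρ hw θ0 l0 p0 hJ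
  have n1 : 1 ≤ n := by omega
  obtain ⟨μ, _, hμ⟩ := hH n (by omega)
  set A := toMeasurable (JP t n) {z : Mx n × V n | z.1 ∈ I ∧ ¬ EG z.1 z.2 s c} with hA
  have mA : MeasurableSet A := measurableSet_toMeasurable _ _
  have jA : JP t n A ≤ ENNReal.ofReal θ := (measure_toMeasurable _).trans_le hJ
  set B : Set (Mx n × V n) := {z | 2 * δ < |log (Lc z.1 z.2) - log (Ls z.1 z.2)|} with hB
  have mB : MeasurableSet B :=
    measurableSet_lt measurable_const (meas_Lc.log.sub (meas_Ls n1).log).abs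
  set X : Set (Mx n × V n) := Prod.fst ⁻¹' I ∩ B with hX
  have mX : MeasurableSet X := (hI.1.preimage measurable_fst).inter mB
  have tl0 : 0 ≤ tl n r w := by unfold tl; positivity
  have T0 : ∀ z, T2H μ (uo z) ∅ (4 * c) (5 / 2 * s) := fun z =>
    hO n μ hμ hn.le z ∅ s c s0 c0 fun _ _ h => h.elim
  set a := (5 * θ + tl n r w) / δ with ha
  have key : ∀ z : Mx n × V n, max (tm μ (uo z) {U | act U z ∈ X}) (μ.real {U | act U z ∈ X}) ≤
      (5 * tm μ (uo z) {U | act U z ∈ A} + tl n r w) / δ := fun z => by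
    have mS := meas_sec z mA
    by_cases hz : z.1 ∈ I
    · have h1 := hO n μ hμ hn.le z {U | act U z ∈ A}ᶜ s c s0 c0 fun U hU h => by_contra fun h' =>
        h (subset_toMeasurable _ _ ⟨hI.2 _ hz _ (Orb.mul_tp hU), h'⟩)
      have h2 := hS n μ _ _ _ _ r δ w h1 mS.compl hn hb r0 δ0 δ1 hρ hw
      rw [compl_compl] at h2
      have e : {U | act U z ∈ X} ≤ᵐ[μ] {U | 2 * δ < |uo z U|} := (Orb.ae_SO hμ).mono fun U hU h => by
        have h3 : 2 * δ < |log (Lc (act U z).1 (act U z).2) - log (Ls (act U z).1 (act U z).2)| := h.2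
        rwa [Ls_act hU] at h3
      exact max_le ((setIntegral_mono_set h1.int.integrableOn
        (.of_forall fun _ => (exp_pos _).le) e).trans h2.1)
        ((ENNReal.toReal_mono (measure_ne_top _ _) (measure_mono_ae e)).trans h2.2)
    · have e : μ {U | act U z ∈ X} = 0 := by
        refine measure_mono_null (t := {U | ¬ U ∈ SO n}) (fun U h hU => hz ?_)
          (ae_iff.1 (Orb.ae_SO hμ))
        have h3 := hI.2 _ h.1 (Matrix.of U)ᵀ (by rw [transpose_transpose]; exact Orb.tp_mul hU)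
        rwa [act, transpose_transpose, ← Matrix.mul_assoc, ← Matrix.mul_assoc, Orb.tp_mul hU,
          Matrix.one_mul, Matrix.mul_assoc, Orb.tp_mul hU, Matrix.mul_one] at h3
      have h0 : 0 ≤ tm μ (uo z) {U | act U z ∈ A} := integral_nonneg fun _ => (exp_pos _).le
      rw [tm, Measure.restrict_eq_zero.2 e, integral_zero_measure, Measure.real, e]
      simp only [ENNReal.toReal_zero, max_self]
      positivity
  have fub : ∀ {F : Mx n × V n → ℝ≥0∞}, Measurable F →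
      ∫⁻ z, F z ∂NN n t = ∫⁻ z, ∫⁻ U, F (act U z) ∂μ ∂NN n t := fun hF =>
    Oc.orbit_lintegral hμ _ meas_act (fun _ hU => map_act hU) hF
  have tot : ∀ g : Mx n × V n → ℝ, (∀ z, g z ≤ (5 * tm μ (uo z) {U | act U z ∈ A} + tl n r w) / δ) →
      ∫⁻ z, ENNReal.ofReal (ka n t * Ls z.1 z.2 * g z) ∂NN n t ≤ ENNReal.ofReal a := fun g hg => by
    have mg : ∀ {Y : Set (Mx n × V n)}, MeasurableSet Y →
        Measurable fun z => ∫⁻ U, Y.indicator (Dc t) (act U z) ∂μ := fun hY =>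
      ((meas_Dc.indicator hY).comp meas_act).lintegral_prod_right'
    calc _ ≤ ∫⁻ z, (ENNReal.ofReal (5 / δ) * ∫⁻ U, A.indicator (Dc t) (act U z) ∂μ +
          ENNReal.ofReal (tl n r w / δ) * ∫⁻ U, (univ : Set _).indicator (Dc t) (act U z) ∂μ)
          ∂NN n t := lintegral_mono fun z => by
          have p := mul_pos (ka_pos (n := n) (t := t)) (Ls_pos n1 z.1 z.2)
          have h0 : 0 ≤ tm μ (uo z) {U | act U z ∈ A} := integral_nonneg fun _ => (exp_pos _).le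
          have h1 : tm μ (uo z) {U | act U z ∈ univ} = 1 := by
            simp only [tm, mem_univ, ofPred_true, Measure.restrict_univ, (T0 z).one]
          simp only
          rw [orb_c n1 (T0 z) mA, orb_c n1 (T0 z) .univ, h1, ← ENNReal.ofReal_mul (by positivity),
            ← ENNReal.ofReal_mul (by positivity), ← ENNReal.ofReal_add (by positivity) (by positivity)]
          exact ENNReal.ofReal_le_ofReal
            ((mul_le_mul_of_nonneg_left (hg z) p.le).trans_eq (by ring))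
      _ = ENNReal.ofReal (5 / δ) * JP t n A + ENNReal.ofReal (tl n r w / δ) * JP t n univ := by
          rw [lintegral_add_left ((mg mA).const_mul _), lintegral_const_mul _ (mg mA),
            lintegral_const_mul _ (mg .univ), JP_lint n1 ht mA, JP_lint n1 ht .univ,
            fub (meas_Dc.indicator mA), fub (meas_Dc.indicator .univ)]
      _ ≤ ENNReal.ofReal (5 / δ) * ENNReal.ofReal θ + ENNReal.ofReal (tl n r w / δ) := by
          rw [measure_univ, mul_one]; gcongr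
      _ = _ := by
          rw [← ENNReal.ofReal_mul (by positivity),
            ← ENNReal.ofReal_add (by positivity) (by positivity), ha]
          congr 1; ring
  have j1 : ∫⁻ z, X.indicator (Dc t) z ∂NN n t ≤ ENNReal.ofReal a := by
    rw [fub (meas_Dc.indicator mX)]
    simp only [fun z => orb_c (t := t) n1 (T0 z) mX]
    exact tot _ fun z => (le_max_left _ _).trans (key z)
  have j2 : ∫⁻ z, X.indicator (Ds t) z ∂NN n t ≤ ENNReal.ofReal a := by
    rw [fub ((meas_Ds n1).indicator mX)]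
    simp only [fun z => orb_s (t := t) hμ n1 z mX]
    exact tot _ fun z => (le_max_right _ _).trans (key z)
  have a0 : 0 ≤ a / (l * p) := by positivity
  refine le_trans (measure_mono (t := _ ∪ _) fun W hW => ?_) ((measure_union_le _ _).trans
    ((add_le_add (markov (meas_Dc.indicator mX) (mul_pos l0 p0) j1)
      (markov ((meas_Ds n1).indicator mX) (mul_pos l0 p0) j2)).trans_eq (by
        rw [← ENNReal.ofReal_add a0 a0]; congr 1; ring)))
  obtain ⟨w1, w2, w3, w4⟩ := hW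
  by_contra hc
  rw [mem_union, not_or, mem_ofPred_eq, mem_ofPred_eq, ← sec_c n1 ht mX, ← sec_s n1 ht mX] at hc
  have hs := pow_pos (sx_pos n1) 2
  have f : ∀ {Z : ℝ} {x : ℝ≥0∞}, l * exp (n / 4) ≤ Z →
      ¬ ENNReal.ofReal (l * p) ≤ ENNReal.ofReal (Z / exp (n / 4)) * x → x ≤ ENNReal.ofReal p :=
    fun h1 h2 => le_of_not_ge fun h3 => h2 (by
      rw [ENNReal.ofReal_mul l0.le]
      exact mul_le_mul' (ENNReal.ofReal_le_ofReal ((le_div_iff₀ (exp_pos _)).2 h1)) h3)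
  refine w4 ⟨un n ⁻¹' {y | (W, y) ∈ X}, (measurable_prodMk_left mX).preimage (by fun_prop),
    f w2 hc.1, f w3 hc.2, Zc n W / Zs n W, div_pos (Zc_pos W) (Zs_pos n1 W), fun y hy => ?_⟩
  have h1 : |log (Lc W (un n y)) - log (Ls W (un n y))| ≤ 2 * δ := not_lt.1 fun h => hy ⟨w1, h⟩
  have e : y = sx n ^ 2 • un n y := by rw [un, smul_smul, mul_inv_cancel₀ hs.ne', one_smul]
  rw [e, Mf_c n1, Mf_s n1]
  have u1 := Lc_pos W (un n y)
  have u2 := Ls_pos n1 W (un n y)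
  have v1 : Lc W (un n y) ≤ exp (2 * δ) * Ls W (un n y) := by
    rw [← exp_log u1, ← exp_log u2, ← exp_add, exp_le_exp]; linarith [(abs_le.1 h1).2]
  have v2 : Ls W (un n y) ≤ exp (2 * δ) * Lc W (un n y) := by
    rw [← exp_log u1, ← exp_log u2, ← exp_add, exp_le_exp]; linarith [(abs_le.1 h1).1]
  have z1 := (Zc_pos W).ne'
  have z2 : 0 ≤ exp (-(n * t / 2)) / Zs n W := (div_pos (exp_pos _) (Zs_pos n1 W)).le
  have e2 : Zc n W / Zs n W * (Lc W (un n y) * exp (-(n * t / 2)) / Zc n W) =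
      Lc W (un n y) * (exp (-(n * t / 2)) / Zs n W) := by field_simp
  rw [e2, mul_div_assoc (Ls _ _), ← mul_assoc, ← mul_assoc]
  exact ⟨mul_le_mul_of_nonneg_right v1 z2, mul_le_mul_of_nonneg_right v2 z2⟩

end Crest.Agent.T157.Oe

end
end

-- ▼ part T157/OeTrf_87
section

/-!
# Row 157, A2 section 7 (helper87): `Oe.trfL`
-/

set_option autoImplicit false
set_option linter.unusedSectionVars false

noncomputable section

namespace Crest.Agent.T157.Oe

open MeasureTheory ProbabilityTheory Matrix Filter Topology Set Real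
open scoped ENNReal
open Crest.Agent.T157.E Crest.Agent.T157.St Crest.Agent.T157.Sp

namespace Trf87

open Crest.Agent.T157.St.A87 Crest.Agent.T157.Sp.Trf85 Crest.Agent.T157.Rec
open Crest.Agent.T157.SL (MG)

variable {ι : Type*} [Fintype ι] [DecidableEq ι] {μ ν : Measure (ι → ℝ)} {K s : ℝ}

/-- indicator -/
abbrev ind (B : Set (ι → ℝ)) : (ι → ℝ) → ℝ := B.indicator fun _ => (1 : ℝ)

lemma dot_sq {R : ℝ} {x : ι → ℝ} (h : x ⬝ᵥ x ≤ R) (v : ι → ℝ) : (v ⬝ᵥ x) ^ 2 ≤ R * (v ⬝ᵥ v) := by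
  have h1 : (v ⬝ᵥ x) ^ 2 ≤ (v ⬝ᵥ v) * (x ⬝ᵥ x) := by
    simpa only [dotProduct, sq] using Finset.sum_mul_sq_le_sq_mul_sq Finset.univ v x
  have h2 : 0 ≤ v ⬝ᵥ v := Finset.sum_nonneg fun i _ => mul_self_nonneg _
  nlinarith

/-- the transfer at one output -/
lemma covB_lev (hμ : Cp μ) (hν : Cp ν) (hK : 0 < K) {R k q a : ℝ} (h1 : ∀ᵐ x ∂μ, x ⬝ᵥ x ≤ R)
    (h2 : ∀ᵐ x ∂ν, x ⬝ᵥ x ≤ R) (hk : 0 ≤ k) (hq : 0 < q) {B : Set (ι → ℝ)}
    (hB : MeasurableSet B) (hP : PY K μ B ≤ q ^ 2) (hc : ∀ y ∉ B, Mf K μ y ≤ k * Mf K ν y)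
    (hM : CovB ν a) : CovB μ (k * (a + 1 / K) - 1 / K + (12 * R + 29 / K) * q) := by
  have := hμ.prob
  have := hν.prob
  intro v
  have hb := Bs.of_mg hμ (mg_dot v)
  have hb' := Bs.of_mg hν (mg_dot v)
  obtain ⟨C, -, hC⟩ := hb.bd
  refine ⟨MemLp.of_bound hb.meas.aestronglyMeasurable C hC, ?_⟩
  by_cases hv : v = 0
  · subst hv
    have : (fun x : ι → ℝ => (0 : ι → ℝ) ⬝ᵥ x) = 0 := by funext x; simp
    rw [this, variance_zero]; simp
  have h0 : 0 < v ⬝ᵥ v := Eig.dot_self_pos hv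
  have R0 : 0 ≤ R := by
    obtain ⟨x, hx⟩ := h1.exists
    exact (Finset.sum_nonneg fun i _ => mul_self_nonneg _).trans hx
  set m : ι → ℝ := fun i => ∫ x, x i ∂ν with hm
  have em : v ⬝ᵥ m = ∫ x, v ⬝ᵥ x ∂ν := by
    simp only [dotProduct, hm]
    rw [integral_finsetSum _ fun i _ => ((Bs.coord hν i).int hν).const_mul _]
    simp only [integral_const_mul]
  have m2 : ∫ x, (v ⬝ᵥ (x - m)) ^ 2 ∂ν ≤ a * (v ⬝ᵥ v) := by
    refine le_of_eq_of_le ?_ (hM v).2
    rw [variance_eq_integral hb'.meas.aemeasurable]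
    simp only [dotProduct_sub, em]
  have m1 : (v ⬝ᵥ m) ^ 2 ≤ R * (v ⬝ᵥ v) := by
    have e : |v ⬝ᵥ m| ≤ √(R * (v ⬝ᵥ v)) := by
      rw [em]
      simpa using norm_integral_le_of_norm_le_const (μ := ν) (f := fun x => v ⬝ᵥ x)
        (C := √(R * (v ⬝ᵥ v))) (h2.mono fun x hx => abs_le_sqrt (dot_sq hx v))
    rw [← sq_abs, ← sq_sqrt (mul_nonneg R0 h0.le)]
    exact pow_le_pow_left₀ (abs_nonneg _) e 2
  have m4 : ∫ x, (v ⬝ᵥ (x - m)) ^ 4 ∂μ ≤ 16 * (R * (v ⬝ᵥ v)) ^ 2 := by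
    have e : ∀ᵐ x ∂μ, (v ⬝ᵥ (x - m)) ^ 4 ≤ 16 * (R * (v ⬝ᵥ v)) ^ 2 := h1.mono fun x hx => by
      have b1 := dot_sq hx v
      have b2 : (v ⬝ᵥ (x - m)) ^ 2 ≤ 4 * (R * (v ⬝ᵥ v)) := by
        rw [dotProduct_sub]; nlinarith [sq_nonneg (v ⬝ᵥ x + v ⬝ᵥ m)]
      calc _ = ((v ⬝ᵥ (x - m)) ^ 2) ^ 2 := by ring
        _ ≤ (4 * (R * (v ⬝ᵥ v))) ^ 2 := pow_le_pow_left₀ (sq_nonneg _) b2 2
        _ = _ := by ring
    simpa using integral_mono_ae ((Bs.of_mg hμ (mg_pow4 (mg_u v m))).int hμ) (integrable_const _) e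
  have h3 : Var[fun x => v ⬝ᵥ x; μ] ≤ ∫ x, (v ⬝ᵥ (x - m)) ^ 2 ∂μ := by
    rw [← variance_sub_const hb.meas.aestronglyMeasurable (v ⬝ᵥ m)]
    refine (variance_le_expectation_sq
      (hb.meas.sub_const _).aestronglyMeasurable).trans (le_of_eq ?_)
    simp only [Pi.pow_apply, dotProduct_sub]
  refine h3.trans ?_
  set T : ℝ := (12 * K ^ 2 * R + 29 * K) * (v ⬝ᵥ v) with hT
  have hT0 : 0 < T := by positivity
  have g2 := mg_sq (mg_f K v m)
  have g4 := mg_pow4 (mg_f K v m)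
  have i1 := ((mg_Mf hν hK.le).mul g2).const_mul k
  have i2 := ((mg_Mf hμ hK.le).mul (mg_ind hB)).const_mul (T / (2 * q))
  have i3 := ((mg_Mf hμ hK.le).mul g4).const_mul (q / (2 * T))
  have h4 : IK K (fun y => Mf K μ y * (v ⬝ᵥ y - K * (v ⬝ᵥ m)) ^ 2) ≤
      IK K (fun y => (k * (Mf K ν y * (v ⬝ᵥ y - K * (v ⬝ᵥ m)) ^ 2) +
        T / (2 * q) * (Mf K μ y * ind B y)) +
        q / (2 * T) * (Mf K μ y * (v ⬝ᵥ y - K * (v ⬝ᵥ m)) ^ 4)) := by
    refine IK_mono ((mg_Mf hμ hK.le).mul g2) ((i1.add i2).add i3) fun y => ?_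
    have p := Mf_pos hν hK.le y
    have p' := Mf_pos hμ hK.le y
    set f := v ⬝ᵥ y - K * (v ⬝ᵥ m)
    by_cases hy : y ∈ B
    · rw [ind, indicator_of_mem hy]
      have e : T / (2 * q) * (Mf K μ y * 1) + q / (2 * T) * (Mf K μ y * f ^ 4) - Mf K μ y * f ^ 2 =
          Mf K μ y * (T - q * f ^ 2) ^ 2 / (2 * T * q) := by field_simp; ring
      have b1 : 0 ≤ Mf K μ y * (T - q * f ^ 2) ^ 2 / (2 * T * q) := by positivity
      have b2 : 0 ≤ k * (Mf K ν y * f ^ 2) := by positivity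
      linarith
    · rw [ind, indicator_of_notMem hy]
      have b1 := mul_le_mul_of_nonneg_right (hc y hy) (sq_nonneg f)
      have b2 : 0 ≤ q / (2 * T) * (Mf K μ y * f ^ 4) := by positivity
      linarith
  rw [IK_add (i1.add i2) i3, IK_add i1 i2, IK_const_mul, IK_const_mul, IK_const_mul, out2 hμ hK.le,
    out2 hν hK.le] at h4
  have h5 : IK K (fun y => Mf K μ y * (v ⬝ᵥ y - K * (v ⬝ᵥ m)) ^ 4) ≤ T ^ 2 := by
    refine (out4 hμ hK.le v m).trans ?_
    have b1 := mul_le_mul_of_nonneg_left m4 (show 0 ≤ 8 * K ^ 4 by positivity)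
    have b2 : 0 ≤ K ^ 3 * R * (v ⬝ᵥ v) ^ 2 := by positivity
    have b3 : 0 ≤ K ^ 4 * R ^ 2 * (v ⬝ᵥ v) ^ 2 := by positivity
    have b4 : 0 ≤ K ^ 2 * (v ⬝ᵥ v) ^ 2 := by positivity
    have e : T ^ 2 = 144 * (K ^ 4 * R ^ 2 * (v ⬝ᵥ v) ^ 2) + 696 * (K ^ 3 * R * (v ⬝ᵥ v) ^ 2) +
        841 * (K ^ 2 * (v ⬝ᵥ v) ^ 2) := by rw [hT]; ring
    rw [e]; linarith
  have h6 : T / (2 * q) * PY K μ B ≤ T * q / 2 :=
    (mul_le_mul_of_nonneg_left hP (by positivity)).trans (le_of_eq (by field_simp))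
  have h7 : q / (2 * T) * IK K (fun y => Mf K μ y * (v ⬝ᵥ y - K * (v ⬝ᵥ m)) ^ 4) ≤ T * q / 2 :=
    (mul_le_mul_of_nonneg_left h5 (by positivity)).trans (le_of_eq (by field_simp))
  have h8 := mul_le_mul_of_nonneg_left (mul_le_mul_of_nonneg_left m2 (sq_nonneg K)) hk
  refine le_of_mul_le_mul_left ?_ (pow_pos hK 2)
  have e : K ^ 2 * ((k * (a + 1 / K) - 1 / K + (12 * R + 29 / K) * q) * (v ⬝ᵥ v)) =
      k * (K ^ 2 * (a * (v ⬝ᵥ v))) + k * (K * (v ⬝ᵥ v)) - K * (v ⬝ᵥ v) + T * q := by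
    rw [hT]; field_simp
  rw [e]
  unfold PY at h6
  linarith

/-- the mass of `B` seen from time `s` -/
def bk (s K : ℝ) (μ : Measure (ι → ℝ)) (B : Set (ι → ℝ)) (y : ι → ℝ) : ℝ :=
  IK K fun y' => Mf (s + K) μ (y + y') * ind B (y + y')

variable {B : Set (ι → ℝ)}

lemma mg_bk (hμ : Cp μ) (h : 0 ≤ s + K) (hB : MeasurableSet B) : MG (bk s K μ B) :=
  mg_IK ((mg_Mf hμ h).mul (mg_ind hB)) K

lemma IK_bk (hμ : Cp μ) (hs : 0 ≤ s) (hK : 0 ≤ K) (hB : MeasurableSet B) :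
    IK s (bk s K μ B) = PY (s + K) μ B :=
  IK_IK hs hK ((mg_Mf hμ (add_nonneg hs hK)).mul (mg_ind hB))

lemma bk_nonneg (hμ : Cp μ) (h : 0 ≤ s + K) (y : ι → ℝ) : 0 ≤ bk s K μ B y :=
  IK_nonneg fun _ => mul_nonneg (Mf_pos hμ h _).le (indicator_nonneg (fun _ _ => zero_le_one) _)

lemma mart (hμ : Cp μ) (hs : 0 ≤ s) (hK : 0 ≤ K) (y : ι → ℝ) :
    IK K (fun y' => Mf (s + K) μ (y + y')) = Mf s μ y := by
  simpa only [← Mf_eq] using IK_Un_add hμ hs hK (.const 1) y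

lemma Mf_le (hμ : Cp μ) (hν : Cp ν) (hs : 0 ≤ s) (hK : 0 ≤ K) (hB : MeasurableSet B) {k : ℝ}
    (hk : 0 ≤ k) (h : ∀ y ∉ B, Mf (s + K) μ y ≤ k * Mf (s + K) ν y) (y : ι → ℝ) :
    Mf s μ y ≤ k * Mf s ν y + bk s K μ B y := by
  have h0 := add_nonneg hs hK
  have g1 := (mg_shift (mg_Mf hν h0) y).const_mul k
  have g2 := mg_shift ((mg_Mf hμ h0).mul (mg_ind hB)) y
  rw [← mart hμ hs hK, ← mart hν hs hK, ← IK_const_mul, bk, ← IK_add g1 g2]
  refine IK_mono (mg_shift (mg_Mf hμ h0) y) (g1.add g2) fun y' => ?_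
  by_cases hy : y + y' ∈ B
  · simp only [ind, indicator_of_mem hy]
    linarith [mul_nonneg hk (Mf_pos hν h0 (y + y')).le]
  · simp only [ind, indicator_of_notMem hy]
    linarith [h _ hy]

lemma markov (hμ : Cp μ) (hs : 0 ≤ s) (hK : 0 ≤ K) (hB : MeasurableSet B) {q : ℝ} (hq : 0 < q)
    (h : PY (s + K) μ B ≤ q ^ 4) : MeasurableSet {y | q ^ 2 * Mf s μ y < bk s K μ B y} ∧
      PY s μ {y | q ^ 2 * Mf s μ y < bk s K μ B y} ≤ q ^ 2 := by
  have h0 := add_nonneg hs hK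
  have hm : MeasurableSet {y | q ^ 2 * Mf s μ y < bk s K μ B y} :=
    measurableSet_lt ((measurable_Mf hμ).const_mul _) (mg_bk hμ h0 hB).meas
  refine ⟨hm, le_of_mul_le_mul_left ?_ (pow_pos hq 2)⟩
  rw [PY, ← IK_const_mul]
  refine le_trans (IK_mono (((mg_Mf hμ hs).mul (mg_ind hm)).const_mul _) (mg_bk hμ h0 hB) fun y => ?_)
    ((IK_bk hμ hs hK hB).trans_le (h.trans_eq (by ring)))
  by_cases hy : y ∈ {y | q ^ 2 * Mf s μ y < bk s K μ B y}
  · rw [indicator_of_mem hy, mul_one]; exact le_of_lt hy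
  · rw [indicator_of_notMem hy, mul_zero, mul_zero]; exact bk_nonneg hμ h0 y

/-- total masses off `B` -/
lemma norm_le (hμ : Cp μ) (hν : Cp ν) (hK : 0 ≤ K) (hB : MeasurableSet B) {c k p : ℝ} (hc : 0 ≤ c)
    (hk : 0 ≤ k) (hp : PY K μ B ≤ p) (h : ∀ y ∉ B, c * Mf K μ y ≤ k * Mf K ν y) : c * (1 - p) ≤ k := by
  have g1 := (mg_Mf hν hK).const_mul k
  have g2 := ((mg_Mf hμ hK).mul (mg_ind hB)).const_mul c
  have h1 : IK K (fun y => c * Mf K μ y) ≤ IK K fun y => k * Mf K ν y + c * (Mf K μ y * ind B y) := by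
    refine IK_mono ((mg_Mf hμ hK).const_mul c) (g1.add g2) fun y => ?_
    by_cases hy : y ∈ B
    · rw [ind, indicator_of_mem hy]
      linarith [mul_nonneg hk (Mf_pos hν hK y).le]
    · rw [ind, indicator_of_notMem hy]
      linarith [h _ hy]
  rw [IK_add g1 g2, IK_const_mul, IK_const_mul, IK_const_mul, IK_Mf hμ hK, IK_Mf hν hK] at h1
  have h2 := mul_le_mul_of_nonneg_left hp hc
  unfold PY at h2
  linarith

end Trf87

open Trf87 Crest.Agent.T157.St.A87 Crest.Agent.T157.Sp.Trf85 Crest.Agent.T157.Rec in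
theorem trfL : TrfL := by
  intro ι _ μ ν R s K k q a p pμ pν rμ rν hs hK k1 k2 q0 q1 ha hp ⟨B, hB, b1, b2, c, c0, hc⟩
    ⟨A, hA, a1, a2⟩
  classical
  have hμ : Cp μ := ⟨pμ, R, rμ⟩
  have hν : Cp ν := ⟨pν, R, rν⟩
  have h0 := add_nonneg hs.le hK.le
  have k0 : 0 < k := by linarith
  rw [lawY_eq hμ h0 hB, ENNReal.ofReal_le_ofReal_iff (by positivity)] at b1
  rw [lawY_eq hν h0 hB, ENNReal.ofReal_le_ofReal_iff (by positivity)] at b2
  rw [lawY_eq hν hs.le hA, ENNReal.ofReal_le_ofReal_iff hp] at a1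
  have q2 : q ^ 2 ≤ q / 4 := by nlinarith
  have q4 : q ^ 4 ≤ q ^ 2 / 16 := by nlinarith [sq_nonneg q]
  have n1 := norm_le hμ hν h0 hB c0.le k0.le b1 fun y hy => (hc y hy).1
  have n2 := norm_le hν hμ h0 hB zero_le_one (mul_pos k0 c0).le b2 fun y hy => by
    rw [one_mul, mul_assoc]; exact (hc y hy).2
  have d0 : 0 < 1 - q ^ 4 := by linarith
  set k' := k ^ 2 / (1 - q ^ 4) with hk'
  have k3 : 0 < k' := by positivity
  have k4 : k' ≤ 5 := by rw [hk', div_le_iff₀ d0]; nlinarith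
  have e1 : k ≤ k' * c := by
    rw [hk', div_mul_eq_mul_div, le_div_iff₀ d0]; nlinarith
  have e2 : k * c ≤ k' := by
    rw [hk', le_div_iff₀ d0]; nlinarith
  have c1 : ∀ y ∉ B, Mf (s + K) μ y ≤ k' * Mf (s + K) ν y := fun y hy => by
    refine le_of_mul_le_mul_left ((hc y hy).1.trans ?_) c0
    nlinarith [mul_le_mul_of_nonneg_right e1 (Mf_pos hν h0 y).le]
  have c2 : ∀ y ∉ B, Mf (s + K) ν y ≤ k' * Mf (s + K) μ y := fun y hy => by
    refine (hc y hy).2.trans ?_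
    rw [← mul_assoc]
    exact mul_le_mul_of_nonneg_right e2 (Mf_pos hμ h0 y).le
  obtain ⟨m1, p1⟩ := markov hμ hs.le hK.le hB q0 b1
  obtain ⟨m2, p2⟩ := markov hν hs.le hK.le hB q0 b2
  set A1 := {y | q ^ 2 * Mf s μ y < bk s K μ B y}
  set A2 := {y | q ^ 2 * Mf s ν y < bk s K ν B y}
  have mU := (hA.union m2).union m1
  refine ⟨(A ∪ A2) ∪ A1, mU, ?_, fun y hy => ?_⟩
  · rw [lawY_eq hμ hs.le mU]
    refine ENNReal.ofReal_le_ofReal ?_
    have g1 := ((mg_Mf hν hs.le).mul (mg_ind hA)).const_mul k'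
    have g2 := ((mg_Mf hν hs.le).mul (mg_ind m2)).const_mul k'
    have g3 := mg_bk (K := K) hμ h0 hB
    have g4 := (mg_Mf hμ hs.le).mul (mg_ind m1)
    have h1 : PY s μ ((A ∪ A2) ∪ A1) ≤ IK s fun y => ((k' * (Mf s ν y * ind A y) +
        k' * (Mf s ν y * ind A2 y)) + bk s K μ B y) + Mf s μ y * ind A1 y := by
      refine IK_mono ((mg_Mf hμ hs.le).mul (mg_ind mU)) (((g1.add g2).add g3).add g4) fun y => ?_
      have t1 := Mf_pos hμ hs.le y
      have t2 := (mul_pos k3 (Mf_pos hν hs.le y)).le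
      have t3 := Mf_le hμ hν hs.le hK.le hB k3.le c1 y
      have t4 := bk_nonneg (B := B) hμ h0 y
      by_cases y1 : y ∈ A <;> by_cases y2 : y ∈ A2 <;> by_cases y3 : y ∈ A1 <;>
        simp only [ind, indicator, mem_union, y1, y2, y3, if_true, if_false, or_true, true_or, or_false,
          mul_one, mul_zero] <;> linarith
    rw [IK_add ((g1.add g2).add g3) g4, IK_add (g1.add g2) g3, IK_add g1 g2, IK_const_mul,
      IK_const_mul, IK_bk hμ hs.le hK.le hB] at h1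
    have t1 := mul_le_mul k4 a1 (IK_nonneg fun y => mul_nonneg (Mf_pos hν hs.le y).le
      (indicator_nonneg (fun _ _ => zero_le_one) _)) (by norm_num)
    have t2 := mul_le_mul k4 p2 (IK_nonneg fun y => mul_nonneg (Mf_pos hν hs.le y).le
      (indicator_nonneg (fun _ _ => zero_le_one) _)) (by norm_num)
    unfold PY at p1 t1 t2
    linarith [sq_nonneg q]
  · have y1 : bk s K μ B y ≤ q ^ 2 * Mf s μ y := not_lt.1 fun h => hy (Or.inr h)
    have y2 : bk s K ν B y ≤ q ^ 2 * Mf s ν y := not_lt.1 fun h => hy (Or.inl (Or.inr h))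
    have t1 := Mf_pos hμ hs.le y
    have t2 := Mf_pos hν hs.le y
    have t3 := Mf_le hν hμ hs.le hK.le hB k3.le c2 y
    have mB : MeasurableSet ((fun y' => y + y') ⁻¹' B) := hB.preimage (by fun_prop)
    refine covB_lev (cp_pst hμ hs.le y) (cp_pst hν hs.le y) hK
      ((tilted_absolutelyContinuous _ _).ae_le rμ) ((tilted_absolutelyContinuous _ _).ae_le rν)
      (by positivity) q0 mB ?_ (fun y' hy' => ?_) (a2 y fun h => hy (Or.inl (Or.inl h)))
    · refine le_of_mul_le_mul_right (le_of_eq_of_le ?_ y1) t1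
      rw [PY, ← IK_mul_const]
      refine IK_congr fun y' => ?_
      rw [Mf_pst]
      change _ * ind B (y + y') * _ = _
      field_simp
    · rw [Mf_pst, Mf_pst, ← mul_div_assoc, div_le_div_iff₀ t1 t2]
      have u1 := Mf_pos hν h0 (y + y')
      have u2 : k' * k' ≤ k ^ 4 * (1 + q) * (1 - q ^ 2) := by
        rw [hk', div_mul_div_comm, div_le_iff₀ (mul_pos d0 d0)]
        have : 1 ≤ (1 + q) * (1 - q ^ 2) * ((1 - q ^ 4) * (1 - q ^ 4)) := by
          have w1 : 1 + q / 2 ≤ (1 + q) * (1 - q ^ 2) := by nlinarith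
          have w2 : 1 - q / 8 ≤ (1 - q ^ 4) * (1 - q ^ 4) := by nlinarith [sq_nonneg (q ^ 4)]
          have w3 := mul_le_mul w1 w2 (by linarith) (by linarith)
          nlinarith
        nlinarith [pow_pos k0 4]
      have u3 : k' * Mf s ν y ≤ k ^ 4 * (1 + q) * Mf s μ y := by
        have d2 : 0 < 1 - q ^ 2 := by linarith
        refine le_of_mul_le_mul_left ?_ d2
        have w1 := mul_le_mul_of_nonneg_left (show (1 - q ^ 2) * Mf s ν y ≤ k' * Mf s μ y by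
          linarith) k3.le
        have w2 := mul_le_mul_of_nonneg_right u2 t1.le
        linarith
      have w1 := mul_le_mul_of_nonneg_right (c1 _ hy') t2.le
      have w2 := mul_le_mul_of_nonneg_right u3 u1.le
      linarith

end Crest.Agent.T157.Oe

end
end

-- ▼ part T157/OeShp_26
section

/-!
# Row 157, A2 section 7 (helper26): `ShpL`, `HaarL`
-/

set_option autoImplicit false

noncomputable section

namespace Crest.Agent.T157.Oe

open MeasureTheory Matrix Filter Topology Set Real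
open Crest.Agent.Lib.OrthPoinc
open Crest.Agent.T157.Oc
open Crest.Agent.T157.Od (T2H tm)

theorem haarL : HaarL := fun n hn => by
  obtain ⟨ν, hp, hν⟩ := Crest.Agent.R164.Haar.exists_haar n
  exact ⟨ν.map toSO, Measure.isProbabilityMeasure_map measurable_toSO.aemeasurable,
    (⟨hν.mem, hν.inv⟩ : OInv ν).toSOInv hn⟩

namespace Shp26

theorem exp_neg_le {δ : ℝ} (h0 : 0 < δ) (h1 : δ ≤ 1) : exp (-δ) ≤ 1 - δ / 2 := by
  rw [exp_neg, inv_le_iff_one_le_mul₀ (exp_pos _)]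
  nlinarith [add_one_le_exp δ]

variable {k : ℕ} {μ : Measure (Mat k)} [IsProbabilityMeasure μ] {u : Mat k → ℝ} {S : Set (Mat k)}
  {c b r δ w : ℝ}

theorem tm_nonneg (T : Set (Mat k)) : 0 ≤ tm μ u T := integral_nonneg fun _ => (exp_pos _).le

theorem tm_univ (h : T2H μ u S c b) : tm μ u univ = 1 := by rw [tm, Measure.restrict_univ, h.one]

theorem sep (h : T2H μ u S c b) (hk : 2 < k) (r0 : 0 ≤ r) (hr : r * c / 2 + b * r ^ 2 ≤ δ)
    {A B : Set (Mat k)} (hA : A ⊆ S) (hAB : ∀ U ∈ A, ∀ V ∈ B, u V < u U - δ) :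
    μ.real A * μ.real B ≤ exp (-(((k : ℝ) - 2) * r ^ 2 / 16)) := by
  have b1 := two_set h.inv hk (S := A ∩ SO k) (T := B ∩ SO k) r0
    fun U hU V hV => le_of_not_ge fun hr' => by
      have := h.cv U hU.2 (hA hU.1) V hV.2 r r0 hr'
      linarith [hAB U hU.1 V hV.1]
  have b2 : μ.real A ≤ μ.real (A ∩ SO k) := real_mono_SO h.inv fun U hU hU' => ⟨hU', hU⟩
  have b3 : μ.real B ≤ μ.real (B ∩ SO k) := real_mono_SO h.inv fun U hU hU' => ⟨hU', hU⟩
  exact (mul_le_mul b2 b3 measureReal_nonneg measureReal_nonneg).trans b1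

theorem up (h : T2H μ u S c b) (hk : 2 < k) (r0 : 0 ≤ r) (hr : r * c / 2 + b * r ^ 2 ≤ δ)
    (d0 : 0 < δ) (d1 : δ ≤ 1) :
    δ * μ.real (S ∩ {U | 2 * δ < u U}) ≤ 2 * exp (-(((k : ℝ) - 2) * r ^ 2 / 16)) := by
  have h1 := h.le_tm univ δ
  have h2 : tm μ u (univ ∩ {U | δ ≤ u U}) ≤ 1 := (h.tm_mono (subset_univ _)).trans_eq (tm_univ h)
  have h3 : μ.real univ ≤ μ.real ({U | u U < δ} ∪ (univ ∩ {U | δ ≤ u U})) :=
    measureReal_mono fun U _ => (lt_or_ge (u U) δ).imp id fun h => ⟨trivial, h⟩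
  have h4 := measureReal_union_le (μ := μ) {U | u U < δ} (univ ∩ {U | δ ≤ u U})
  rw [probReal_univ] at h3
  have h5 : μ.real (univ ∩ {U | δ ≤ u U}) ≤ exp (-δ) := by
    rw [exp_neg, ← one_div, le_div_iff₀ (exp_pos _)]; linarith
  have h6 : δ / 2 ≤ μ.real {U | u U < δ} := by linarith [exp_neg_le d0 d1]
  have h7 := sep h hk r0 hr (A := S ∩ {U | 2 * δ < u U}) (B := {U | u U < δ}) inter_subset_left
    fun U hU V hV => by
      have a1 : 2 * δ < u U := hU.2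
      have a2 : u V < δ := hV
      linarith
  nlinarith [mul_le_mul_of_nonneg_left h6 (measureReal_nonneg (μ := μ) (s := S ∩ {U | 2 * δ < u U}))]

theorem low (h : T2H μ u S c b) (hk : 2 < k) (hb : b ≤ ((k : ℝ) - 2) / 128) (r0 : 0 ≤ r)
    (hr : r * c / 2 + b * r ^ 2 ≤ δ) (d0 : 0 < δ) (d1 : δ ≤ 1)
    (hw : 1 + 48 * c ^ 2 / ((k : ℝ) - 2) ≤ w) :
    δ * μ.real {U | u U < -(2 * δ)} ≤ 4 * (exp w * exp (-(((k : ℝ) - 2) * r ^ 2 / 16))) +
      4 * (tm μ u Sᶜ + 4 * exp (4 - 2 * w)) := by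
  have p1 : 0 ≤ exp w * exp (-(((k : ℝ) - 2) * r ^ 2 / 16)) := by positivity
  have p2 := tm_nonneg (μ := μ) (u := u) Sᶜ
  have p3 := exp_pos (4 - 2 * w)
  by_cases hc : tm μ u Sᶜ + 4 * exp (4 - 2 * w) ≤ δ / 4
  · have h0 : tm μ u univ ≤ tm μ u (Sᶜ ∪ ((S ∩ {U | u U < -δ}) ∪
        (((S ∩ {U | -δ ≤ u U}) ∩ {U | u U < w}) ∪ (S ∩ {U | w ≤ u U})))) := h.tm_mono fun U _ => by
      by_cases hU : U ∈ S
      · exact Or.inr ((lt_or_ge (u U) (-δ)).imp (fun h => ⟨hU, h⟩) fun h =>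
          (lt_or_ge (u U) w).imp (fun h' => ⟨⟨hU, h⟩, h'⟩) fun h' => ⟨hU, h'⟩)
      · exact Or.inl hU
    have h1 := h.tm_union Sᶜ ((S ∩ {U | u U < -δ}) ∪
      (((S ∩ {U | -δ ≤ u U}) ∩ {U | u U < w}) ∪ (S ∩ {U | w ≤ u U})))
    have h2 := h.tm_union (S ∩ {U | u U < -δ})
      (((S ∩ {U | -δ ≤ u U}) ∩ {U | u U < w}) ∪ (S ∩ {U | w ≤ u U}))
    have h3 := h.tm_union ((S ∩ {U | -δ ≤ u U}) ∩ {U | u U < w}) (S ∩ {U | w ≤ u U})
    have h4 := (h.tm_le S (-δ)).trans (mul_le_of_le_one_right (exp_pos _).le measureReal_le_one)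
    have h6 := (h.tm_le (S ∩ {U | -δ ≤ u U}) w).trans (mul_le_mul_of_nonneg_left
      (measureReal_mono inter_subset_left) (exp_pos _).le)
    have h9 : δ / 4 ≤ exp w * μ.real (S ∩ {U | -δ ≤ u U}) := by
      linarith [h.tail hk hb hw, tm_univ h, exp_neg_le d0 d1]
    have b1 := sep h hk r0 hr (A := S ∩ {U | -δ ≤ u U}) (B := {U | u U < -(2 * δ)}) inter_subset_left
      fun U hU V hV => by
        have a1 : -δ ≤ u U := hU.2
        have a2 : u V < -(2 * δ) := hV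
        linarith
    have b4 := mul_le_mul_of_nonneg_left b1 (exp_pos w).le
    have b5 := mul_le_mul_of_nonneg_right h9 (measureReal_nonneg (μ := μ) (s := {U | u U < -(2 * δ)}))
    nlinarith
  · have : μ.real {U | u U < -(2 * δ)} ≤ 1 := measureReal_le_one
    nlinarith [not_le.1 hc]

end Shp26

open Shp26 in
theorem shpL : ShpL := by
  intro k μ _ u S c b r δ w h _ hk hb r0 d0 d1 hr hw
  have hk' : (0 : ℝ) < (k : ℝ) - 2 := by
    have : (2 : ℝ) < k := by exact_mod_cast hk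
    linarith
  have w0 : 0 ≤ w := by
    have : 0 ≤ 48 * c ^ 2 / ((k : ℝ) - 2) := by positivity
    linarith
  have hU := up h hk r0 hr d0 d1
  have hL := low h hk hb r0 hr d0 d1 hw
  have hT := h.tail hk hb hw
  have e1 : tl k r w = 6 * (exp w * exp (-(((k : ℝ) - 2) * r ^ 2 / 16))) + 20 * exp (4 - 2 * w) := by
    rw [tl, ← exp_add, sub_eq_add_neg]
  have p0 := exp_pos (-(((k : ℝ) - 2) * r ^ 2 / 16))
  have p1 := one_le_exp w0
  have p2 := tm_nonneg (μ := μ) (u := u) Sᶜ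
  have p3 := exp_pos (4 - 2 * w)
  have sp : ∀ U, 2 * δ < |u U| → 2 * δ < u U ∨ u U < -(2 * δ) := fun U hU => by
    rcases lt_abs.1 hU with a | a
    · exact Or.inl a
    · exact Or.inr (by linarith)
  rw [le_div_iff₀ d0, le_div_iff₀ d0, e1]
  constructor
  · have h0 : tm μ u {U | 2 * δ < |u U|} ≤ tm μ u (Sᶜ ∪ ((univ ∩ {U | u U < -(2 * δ)}) ∪
        (((S ∩ {U | 2 * δ < u U}) ∩ {U | u U < w}) ∪ (S ∩ {U | w ≤ u U})))) :=
      h.tm_mono fun U hx => by
        by_cases hS : U ∈ S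
        · refine Or.inr ((sp U hx).symm.imp (fun a => ⟨trivial, a⟩) fun a => ?_)
          exact (lt_or_ge (u U) w).imp (fun h' => ⟨⟨hS, a⟩, h'⟩) fun h' => ⟨hS, h'⟩
        · exact Or.inl hS
    have h1 := h.tm_union Sᶜ ((univ ∩ {U | u U < -(2 * δ)}) ∪
      (((S ∩ {U | 2 * δ < u U}) ∩ {U | u U < w}) ∪ (S ∩ {U | w ≤ u U})))
    have h2 := h.tm_union (univ ∩ {U | u U < -(2 * δ)})
      (((S ∩ {U | 2 * δ < u U}) ∩ {U | u U < w}) ∪ (S ∩ {U | w ≤ u U}))
    have h3 := h.tm_union ((S ∩ {U | 2 * δ < u U}) ∩ {U | u U < w}) (S ∩ {U | w ≤ u U})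
    have h4 := (h.tm_le univ (-(2 * δ))).trans (mul_le_of_le_one_left measureReal_nonneg
      (exp_le_one_iff.2 (by linarith)))
    rw [univ_inter] at h4
    rw [univ_inter] at h0 h1 h2
    have h6 := (h.tm_le (S ∩ {U | 2 * δ < u U}) w).trans (mul_le_mul_of_nonneg_left
      (measureReal_mono inter_subset_left) (exp_pos _).le)
    have h7 := mul_le_mul_of_nonneg_left hU (exp_pos w).le
    have h8 : tm μ u {U | 2 * δ < |u U|} ≤ tm μ u Sᶜ + (μ.real {U | u U < -(2 * δ)} +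
        (exp w * μ.real (S ∩ {U | 2 * δ < u U}) + 4 * exp (4 - 2 * w))) := by linarith
    nlinarith [mul_le_mul_of_nonneg_right h8 d0.le]
  · have h0 : μ.real {U | 2 * δ < |u U|} ≤ μ.real ((Sᶜ ∩ {U | 0 ≤ u U}) ∪ ({U | u U < -(2 * δ)} ∪
        (S ∩ {U | 2 * δ < u U}))) := measureReal_mono fun U hx => by
      rcases sp U hx with a | a
      · by_cases hS : U ∈ S
        · exact Or.inr (Or.inr ⟨hS, a⟩)
        · exact Or.inl ⟨hS, show 0 ≤ u U by linarith⟩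
      · exact Or.inr (Or.inl a)
    have h1 := measureReal_union_le (μ := μ) (Sᶜ ∩ {U | 0 ≤ u U}) ({U | u U < -(2 * δ)} ∪
      (S ∩ {U | 2 * δ < u U}))
    have h2 := measureReal_union_le (μ := μ) {U | u U < -(2 * δ)} (S ∩ {U | 2 * δ < u U})
    have h3 := (h.le_tm Sᶜ 0).trans (h.tm_mono inter_subset_left)
    rw [exp_zero, one_mul] at h3
    have h8 : μ.real {U | 2 * δ < |u U|} ≤ tm μ u Sᶜ + (μ.real {U | u U < -(2 * δ)} +
        μ.real (S ∩ {U | 2 * δ < u U})) := by linarith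
    nlinarith [mul_le_mul_of_nonneg_right h8 d0.le, mul_le_mul_of_nonneg_right p1 p0.le]

end Crest.Agent.T157.Oe

end
end

-- ▼ part T157/OeOrb_64
section

/-!
# Row 157, A2 section 7 (helper64): semi-convexity of `log (Lc / Ls)` on the orbit
-/

set_option autoImplicit false

noncomputable section

namespace Crest.Agent.T157.Oe

open MeasureTheory ProbabilityTheory Matrix Filter Topology Set Real
open scoped ENNReal
open Crest.Agent.Lib.OrthPoinc (Mat SOInv)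
open Crest.Agent.T157.E Crest.Agent.T157.St Crest.Agent.T157.SL
open Crest.Agent.T157.Ed (sx tau)
open Crest.Agent.T157.Tap (Mx V)
open Crest.Agent.T157.Oc (SO mm fd integrable_of)
open Crest.Agent.T157.Od
open Crest.Agent.T157.Ks (fr fr_nonneg fr_transpose)
open Crest.Agent.T157.Orb

namespace Orb64

variable {n : ℕ} {μ : Measure (Mat n)} [IsProbabilityMeasure μ]

lemma cont_xi (x : V n) : Continuous fun U : Mat n => xi x U := continuous_pi fun i => by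
  simp only [xi, mulVec, dotProduct, transpose_apply, of_apply]
  fun_prop

/-- the orbit of a point is uniform on the sphere -/
lemma lint_sph (hμ : SOInv μ) (hn : 2 ≤ n) {ρ : ℝ} {x : V n} (hx : x ⬝ᵥ x = ρ ^ 2)
    {G : V n → ℝ≥0∞} (hG : Measurable G) :
    ∫⁻ U, G (xi x U) ∂μ = ∫⁻ y, G y ∂sphR (Fin n) ρ := by
  have : Nonempty (Fin n) := ⟨⟨0, by omega⟩⟩
  have hij : (⟨0, by omega⟩ : Fin n) ≠ ⟨1, by omega⟩ := by simp
  have h1 : ∀ᵐ y ∂sphR (Fin n) ρ, ∫⁻ U, G (xi x U) ∂μ = ∫⁻ U, G (xi y U) ∂μ := by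
    filter_upwards [Sph38.sphR_ae (ι := Fin n) ρ] with y hy
    have hR := (rho_R2 hij y x).1
    rw [← xi_eq_of hR (rho_mulVec _ _ (hy.trans hx.symm)),
      ← lint_left hμ hR (F := fun U => G (xi x U)) (hG.comp (cont_xi x).measurable)]
    simp only [xi_mm]
  calc _ = ∫⁻ _, (∫⁻ U, G (xi x U) ∂μ) ∂sphR (Fin n) ρ := by simp
    _ = ∫⁻ y, (∫⁻ U, G (xi y U) ∂μ) ∂sphR (Fin n) ρ := lintegral_congr_ae h1
    _ = ∫⁻ U, (∫⁻ y, G (xi y U) ∂sphR (Fin n) ρ) ∂μ :=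
        lintegral_lintegral_swap (hG.comp (by fun_prop)).aemeasurable
    _ = _ := lint_const hμ fun U hU => by
        conv_rhs => rw [← Sph38.map_orth_sphR ρ (O := (Matrix.of U)ᵀ) (by
          rw [transpose_transpose]; exact mul_tp hU)]
        rw [lintegral_map hG (by fun_prop)]
        rfl

lemma int_sph (hμ : SOInv μ) (hn : 2 ≤ n) {ρ : ℝ} {x : V n} (hx : x ⬝ᵥ x = ρ ^ 2)
    {F : V n → ℝ} (hF : Continuous F) (h0 : ∀ y, 0 ≤ F y) :
    ∫ U, F (xi x U) ∂μ = ∫ y, F y ∂sphR (Fin n) ρ := by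
  rw [integral_eq_lintegral_of_nonneg_ae (ae_of_all _ fun U => h0 _)
      (hF.comp (cont_xi x)).aestronglyMeasurable,
    integral_eq_lintegral_of_nonneg_ae (ae_of_all _ h0) hF.aestronglyMeasurable,
    lint_sph hμ hn hx (G := fun y => ENNReal.ofReal (F y)) hF.measurable.ennreal_ofReal]

lemma sx_pow (n k : ℕ) : sx n ^ k = (n : ℝ) ^ ((k : ℝ) / 6) := by
  rw [sx, ← rpow_natCast, ← rpow_mul (Nat.cast_nonneg n)]; congr 1; ring

lemma dot_conj (g W : Mx n) (x : V n) : x ⬝ᵥ (gᵀ * W * g) *ᵥ x = (g *ᵥ x) ⬝ᵥ W *ᵥ (g *ᵥ x) := by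
  rw [← mulVec_mulVec, ← mulVec_mulVec, dot_tp]

lemma ising_conj (g W : Mx n) (y : V n) (σ : Cube n) : ising (gᵀ * W * g) (gᵀ *ᵥ y) σ =
    exp (1 / 2 * ((g *ᵥ sv σ) ⬝ᵥ W *ᵥ (g *ᵥ sv σ)) + y ⬝ᵥ (g *ᵥ sv σ)) := by
  rw [ising, dot_conj, dotProduct_comm (gᵀ *ᵥ y), dot_tp, dotProduct_comm _ y]

/-- the integrand of `Ls` -/
def Fs (W : Mx n) (y x : V n) : ℝ := exp (Hh n W x + (sx n ^ 2 • y) ⬝ᵥ x)

lemma cont_Fs (W : Mx n) (y : V n) : Continuous (Fs W y) := by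
  unfold Fs Hh
  fun_prop

lemma ising_act (hn : 0 < n) (z : Mx n × V n) (U : Mat n) (σ : Cube n) :
    ising (act U z).1 (act U z).2 σ = Fs z.1 z.2 (xi (hat n σ) U) := by
  have s0 : 0 < sx n := rpow_pos_of_pos (by exact_mod_cast hn) _
  have e : tau n = sx n ^ 4 := by rw [sx_pow, tau]; norm_num
  have := ising_conj (Matrix.of U)ᵀ z.1 z.2 σ
  rw [transpose_transpose] at this
  rw [act, this, Fs, Hh, xi, hat, e]
  simp only [mulVec_smul, smul_dotProduct, dotProduct_smul, smul_eq_mul]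
  congr 1
  field_simp

lemma hat_dot (hn : 0 < n) (σ : Cube n) : hat n σ ⬝ᵥ hat n σ = sx n ^ 2 := by
  have s0 : 0 < sx n := rpow_pos_of_pos (by exact_mod_cast hn) _
  have e : (n : ℝ) = sx n ^ 6 := by rw [sx_pow]; norm_num
  rw [hat, Sph38.dot_smul, sv_dot_self]
  conv_lhs => rw [e]
  field_simp

lemma wt (W : Mx n) (y : V n) : Wt (ising W y) := .of_pos fun _ => exp_pos _

lemma Lc_pos (W : Mx n) (y : V n) : 0 < Lc W y := div_pos (wt W y).pos (by positivity)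

lemma Lc_act (hn : 0 < n) (z : Mx n × V n) (U : Mat n) : Lc (act U z).1 (act U z).2 =
    (∑ σ, Fs z.1 z.2 (xi (hat n σ) U)) / 2 ^ n := by
  simp only [Lc, Zw, ising_act hn]

lemma int_Lc (hμ : SOInv μ) (hn : 2 ≤ n) (z : Mx n × V n) :
    ∫ U, Lc (act U z).1 (act U z).2 ∂μ = Ls z.1 z.2 := by
  have n0 : 0 < n := by omega
  simp only [Lc_act n0]
  rw [integral_div, integral_finsetSum (f := fun σ U => Fs z.1 z.2 (xi (hat n σ) U)) _ fun σ _ =>
    integrable_of hμ ((cont_Fs _ _).comp (cont_xi _)).continuousOn]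
  simp only [int_sph hμ hn (hat_dot n0 _) (cont_Fs _ _) fun _ => (exp_pos _).le]
  rw [Finset.sum_const, Finset.card_univ, nsmul_eq_mul, mul_div_right_comm]
  simp [Ls, Fs]

/-- Jensen's inequality at `(W, y)` -/
lemma jensen {W g : Mx n} {y : V n} {s c r : ℝ} (h : EG W y s c) (s0 : 0 ≤ s) (c0 : 0 ≤ c)
    (r0 : 0 ≤ r) (hg : gᵀ * g = 1) (hr : fr (g - 1) ≤ r ^ 2) :
    log (Lc W y) - (r * (4 * c) / 2 + 5 / 2 * s * r ^ 2) ≤ log (Lc (gᵀ * W * g) (gᵀ *ᵥ y)) := by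
  have hw := wt W y
  set A := (2 : ℝ) • (1 : Mx n) - W with hA
  set m := mag (ising W y) with hm
  obtain ⟨E, rfl⟩ : ∃ E, g = 1 + E := ⟨g - 1, by abel⟩
  rw [add_sub_cancel_left] at hr
  set D : Cube n → ℝ := fun σ => 1 / 2 * (((1 + E) *ᵥ sv σ) ⬝ᵥ W *ᵥ ((1 + E) *ᵥ sv σ)) +
    y ⬝ᵥ ((1 + E) *ᵥ sv σ) - (1 / 2 * (sv σ ⬝ᵥ W *ᵥ sv σ) + y ⬝ᵥ sv σ) with hD
  have h2 : mean (ising W y) D ≤ log (mean (ising W y) fun σ => exp (D σ)) :=
    Ent.mean_le_log_mean_exp hw.isP _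
  have e2 : (mean (ising W y) fun σ => exp (D σ)) =
      Lc ((1 + E)ᵀ * W * (1 + E)) ((1 + E)ᵀ *ᵥ y) / Lc W y := by
    rw [mean_eq_div, Lc, Lc, div_div_div_cancel_right₀ (by positivity)]
    congr 1
    exact Finset.sum_congr rfl fun σ _ => by rw [ising_conj, ising, ← exp_add, add_sub_cancel]
  rw [e2, log_div (Lc_pos _ _).ne' (Lc_pos _ _).ne'] at h2
  have h1 : ∀ σ, (Eᵀ *ᵥ y) ⬝ᵥ sv σ - hq A E 0 sv σ -
      5 / 2 * (Eᵀᵀ *ᵥ (sv σ - 0) ⬝ᵥ Eᵀᵀ *ᵥ (sv σ - 0)) ≤ D σ := fun σ => by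
    have b0 := Sph38.dot_orth hg (sv σ) (sv σ)
    have b1 := h.lo (E *ᵥ sv σ)
    have b2 : sv σ ⬝ᵥ W *ᵥ (E *ᵥ sv σ) = (W *ᵥ sv σ) ⬝ᵥ E *ᵥ sv σ := by
      rw [dotProduct_mulVec, ← mulVec_transpose, h.sy]
    have b3 : (Eᵀ *ᵥ y) ⬝ᵥ sv σ = y ⬝ᵥ E *ᵥ sv σ := by
      rw [dotProduct_comm, dot_tp, dotProduct_comm]
    simp only [hD, hq, hA, transpose_transpose, sub_zero, b3, add_mulVec, one_mulVec, mulVec_add,
      add_dotProduct, dotProduct_add, sub_mulVec, smul_mulVec, sub_dotProduct, smul_dotProduct,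
      smul_eq_mul, b2, dotProduct_comm (E *ᵥ sv σ) (sv σ),
      dotProduct_comm (E *ᵥ sv σ) (W *ᵥ sv σ)] at b0 ⊢
    linarith
  have h3 := hw.mean_mono h1
  have hs : ∀ v, v ⬝ᵥ sm2 (ising W y) sv 0 *ᵥ v ≤ s * (v ⬝ᵥ v) := fun v => by
    refine le_of_eq_of_le ?_ (h.cov v)
    rw [sm2, add_mulVec, dotProduct_add, vv_mulVec, sub_zero, dotProduct_smul, smul_eq_mul, sq,
      dotProduct_comm v (meanV _ _)]
    rfl
  have h4 := mean_tp_sq hw hs Eᵀ
  rw [fr_transpose] at h4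
  have h5 : ipF E (A * sm2 (ising W y) sv 0) =
      ipF E (A * covM (ising W y) - 1 : Mx n) + ∑ i, E i i + (A *ᵥ m) ⬝ᵥ E *ᵥ m := by
    have : ipF E (1 : Mx n) = ∑ i, E i i := by simp [ipF, one_apply]
    rw [sm2, Matrix.mul_add, ipF_madd, ipF_msub, this, sub_add_cancel, mul_vecMulVec, dot_eq_ipF,
      sub_zero]
    rfl
  have h6 : ∑ i, E i i ≤ 0 := Finset.sum_nonpos fun i _ => by
    have b0 := congrFun (congrFun hg i) i
    rw [mul_apply, one_apply_eq] at b0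
    have b1 := Finset.single_le_sum (f := fun j => (1 + E)ᵀ i j * (1 + E) j i)
      (fun j _ => mul_self_nonneg _) (Finset.mem_univ i)
    rw [b0] at b1
    simp only [transpose_apply, Matrix.add_apply, one_apply_eq] at b1
    nlinarith
  have h7 : ipF E (A * covM (ising W y) - 1 : Mx n) ≤ r * c :=
    (abs_le_of_sq_le_sq' ((ipF_sq_le _ _).trans ((mul_le_mul hr h.com fr_nonneg
      (by positivity)).trans_eq (by ring))) (by positivity)).2
  have h8 : (A *ᵥ m - y) ⬝ᵥ E *ᵥ m ≤ r * c := by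
    refine (abs_le_of_sq_le_sq' ?_ (by positivity)).2
    rw [dot_eq_ipF]
    refine (ipF_sq_le E (Matrix.of fun j l => (A *ᵥ m - y) j * m l)).trans ?_
    have : fr (Matrix.of fun j l => (A *ᵥ m - y) j * m l) =
        ((A *ᵥ m - y) ⬝ᵥ (A *ᵥ m - y)) * (m ⬝ᵥ m) := by
      simp only [fr, of_apply, dotProduct, Finset.sum_mul_sum]
      exact Finset.sum_congr rfl fun _ _ => Finset.sum_congr rfl fun _ _ => by ring
    rw [this, mul_pow]
    exact mul_le_mul hr h.fld (mul_nonneg (dot_self_nonneg _) (dot_self_nonneg _)) (by positivity)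
  have h9 : mean (ising W y) (fun σ => (Eᵀ *ᵥ y) ⬝ᵥ sv σ) = y ⬝ᵥ E *ᵥ m := by
    rw [← meanV_dot, dotProduct_comm, dot_tp, dotProduct_comm]; rfl
  rw [mean_sub, mean_sub, mean_const_mul, h9] at h3
  have h10 : mean (ising W y) (fun σ => hq A E 0 sv σ) = _ := (mean_hq hw).trans h5
  rw [sub_dotProduct] at h8
  nlinarith [mul_le_mul_of_nonneg_left hr s0]

end Orb64

open Orb64 in
theorem orbL : OrbL := by
  intro n μ _ hμ hn z S s c s0 c0 h
  have n0 : 0 < n := by omega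
  have ct : Continuous fun U : Mat n => Lc (act U z).1 (act U z).2 := by
    simp only [Lc_act n0]
    exact (continuous_finsetSum _ fun σ _ => (cont_Fs _ _).comp (cont_xi _)).div_const _
  have hL : 0 < Ls z.1 z.2 := by
    have : Nonempty (Fin n) := ⟨⟨0, n0⟩⟩
    exact integral_exp_pos (Sph38.integrable_sphR _ (cont_Fs z.1 z.2))
  refine ⟨hμ, ((ct.log fun _ => (Lc_pos _ _).ne').sub continuous_const).continuousOn, ?_,
    fun U hU hS V hV r r0 hr => ?_⟩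
  · simp only [uo, exp_sub, exp_log (Lc_pos _ _), exp_log hL]
    rw [integral_div, int_Lc hμ hn, div_self hL.ne']
  · have a1 : (Matrix.of U * (Matrix.of V)ᵀ)ᵀ * Matrix.of U = Matrix.of V := by
      rw [transpose_mul, transpose_transpose, Matrix.mul_assoc, tp_mul hU, Matrix.mul_one]
    have a2 : (Matrix.of U)ᵀ * (Matrix.of U * (Matrix.of V)ᵀ) = (Matrix.of V)ᵀ := by
      rw [← Matrix.mul_assoc, tp_mul hU, Matrix.one_mul]
    have h1 := jensen (g := Matrix.of U * (Matrix.of V)ᵀ) (h U hU hS) s0 c0 r0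
      (by rw [← Matrix.mul_assoc, a1, mul_tp hV]) (by
        rw [← mul_tp hV, ← Matrix.sub_mul,
          fr_orth_right (by rw [transpose_transpose]; exact tp_mul hV)]
        exact hr)
    have e1 : (Matrix.of U * (Matrix.of V)ᵀ)ᵀ * (act U z).1 * (Matrix.of U * (Matrix.of V)ᵀ) =
        (act V z).1 := by
      calc _ = ((Matrix.of U * (Matrix.of V)ᵀ)ᵀ * Matrix.of U) * z.1 *
            ((Matrix.of U)ᵀ * (Matrix.of U * (Matrix.of V)ᵀ)) := by
            simp only [act, Matrix.mul_assoc]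
        _ = _ := by rw [a1, a2]; rfl
    have e2 : (Matrix.of U * (Matrix.of V)ᵀ)ᵀ *ᵥ (act U z).2 = (act V z).2 := by
      simp only [act]
      rw [mulVec_mulVec, a1]
    rw [e1, e2] at h1
    simp only [uo]
    linarith

end Crest.Agent.T157.Oe

end
end

-- ▼ part T157/OeEd_87

/-!
# Row 157, A2 section 7 (helper87): `Oe.edgeGlue`, `Oe.edgeT`
-/

set_option autoImplicit false
set_option linter.unusedSectionVars false

noncomputable section

namespace Crest.Agent.T157.Oe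

open MeasureTheory ProbabilityTheory Matrix Filter Topology Set Real
open scoped ENNReal
open Crest.Agent.T157.E Crest.Agent.T157.St Crest.Agent.T157.Sp
open Crest.Agent.T157.Ed (sx tau sx_pos tau_pos tau_eq sx_pow_six one_le_sx)
open Crest.Agent.T157.Tap (Mx V GOE)
open Crest.Agent.T157.Top (Whp)
open Crest.Agent.T157.St.Lnk10 Crest.Agent.T157.Oe.Cmp87

namespace Ed87

variable {n : ℕ}

/-- from hatted units to `CovAt` -/
theorem covAt_of (hn : 1 ≤ n) (W : Mx n) {r κ p : ℝ} (hr : 0 < r) (hp : 0 ≤ p)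
    (h : OffY (tau n * r) (muW n W) p fun y => CovB (pst (tau n * r) (muW n W) y) (κ / (tau n * r))) :
    Crit.CovAt (ising W 0) r (κ / r) p := by
  have ht := tau_pos hn
  have hts := tau_sq n
  obtain ⟨A, hA, h2, h3⟩ := h
  refine ENNReal.toReal_le_of_le_ofReal hp (le_trans ?_ h2)
  refine le_trans (measure_mono fun y hy => ?_) (lawY_muW hn W r hA).le
  by_contra hy'
  refine hy fun v => ?_
  have h4 := (h3 _ hy' v).2
  have e : post (hat n) (ising W 0) (tau n * r) (sx n ^ 2 • y) = post sv (ising W 0) r y := by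
    funext x
    simp only [post, hat, smul_dotProduct, dotProduct_smul, smul_eq_mul, hts]
    have := (sx_pos hn).ne'
    congr 2; field_simp
  rw [muW, Win34.var_pst (ising_pos W), e] at h4
  have e2 : var (post sv (ising W 0) r y) (fun x => v ⬝ᵥ hat n x) =
      (tau n)⁻¹ * (v ⬝ᵥ covM (tilt (ising W 0) y) *ᵥ v) := by
    rw [covM, SL.covMat_quad]
    simp only [var, cov, mean, prob_post_sv, hat, dotProduct_smul, smul_eq_mul, hts,
      mul_left_comm _ (sx n ^ 2)⁻¹, ← Finset.mul_sum, ← mul_sub]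
    rw [Finset.mul_sum]
    exact Finset.sum_congr rfl fun x _ => by ring
  rw [e2, inv_mul_le_iff₀ ht] at h4
  refine h4.trans (le_of_eq ?_)
  field_simp

theorem ev_pow {a : ℝ} (ha : 0 < a) (C : ℝ) : ∀ᶠ n : ℕ in atTop, C ≤ (n : ℝ) ^ a :=
  ((tendsto_rpow_atTop ha).comp tendsto_natCast_atTop_atTop).eventually_ge_atTop C

theorem td_exp {h b : ℝ} (h0 : 0 < h) (hb : 0 < b) :
    Tendsto (fun n : ℕ => (n : ℝ) ^ 3 * exp (-(b * (n : ℝ) ^ h))) atTop (𝓝 0) := by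
  refine (((tendsto_rpow_mul_exp_neg_mul_atTop_nhds_zero (3 / h) b hb).comp
    (tendsto_rpow_atTop h0)).comp tendsto_natCast_atTop_atTop).congr fun n => ?_
  simp only [Function.comp_apply, neg_mul]
  rw [← rpow_mul (Nat.cast_nonneg n), mul_div_cancel₀ _ h0.ne']
  norm_cast

/-- the transfer at a fixed `n` -/
theorem pass (hT : TrfL) (hn : 1 ≤ n) (W : Mx n) {t δ q g θ : ℝ} (t1 : t ≤ 1) (δ0 : 0 ≤ δ)
    (δ1 : δ ≤ 1 / 8) (q0 : 0 < q) (q1 : q ≤ 1 / 4) (hg : 32 * δ + 47 * (n ^ 2 * q) ≤ g)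
    (hθ : 7 * q ^ 2 ≤ θ) (h : Cmp (tau n * t) (muW n W) (nuW n W) (exp (2 * δ)) (q ^ 4)) :
    Pass n W t g θ := by
  intro r e p r1 r2 e0 p0 hs
  have : Nonempty (Fin n) := ⟨⟨0, hn⟩⟩
  have ht := tau_pos hn
  have s1 := one_le_sx hn
  have N1 : (1 : ℝ) ≤ n := by exact_mod_cast hn
  have r0 : 0 < r := by linarith
  have hK : r ≤ tau n * t - r := by linarith
  have K0 := r0.trans_le hK
  have a1 : ∀ᵐ x ∂muW n W, x ⬝ᵥ x ≤ (n : ℝ) := ae_dm _ _ fun x => by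
    rw [St.All.hat_dot_hat, sv_dot_self]
    exact mul_le_of_le_one_left (by linarith) (inv_le_one_of_one_le₀ (Ed.one_le_tau hn))
  have a2 : ∀ᵐ x ∂nuW n W, x ⬝ᵥ x ≤ (n : ℝ) := (tilted_absolutelyContinuous _ _).ae_le
    ((Sph38.sphR_ae (sx n)).mono fun x hx => by
      rw [hx, ← sx_pow_six]; exact pow_le_pow_right₀ s1 (by norm_num))
  have x1 : ∀ x : ℝ, 0 ≤ x → x ≤ 1 → exp x ≤ 1 + 2 * x := fun x h0 h1 => by
    have := abs_le.1 (abs_exp_sub_one_le (x := x) (by rwa [abs_of_nonneg h0]))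
    rw [abs_of_nonneg h0] at this
    linarith [this.2]
  have k1 : 1 ≤ exp (2 * δ) := one_le_exp (by linarith)
  have k2 : exp (2 * δ) ≤ 2 := (x1 _ (by linarith) (by linarith)).trans (by linarith)
  have k4 : exp (2 * δ) ^ 4 ≤ 1 + 16 * δ := by
    rw [← exp_nat_mul]
    exact (x1 _ (by positivity) (by push_cast; linarith)).trans_eq (by push_cast; ring)
  have h1 := hT _ _ _ n r (tau n * t - r) _ q ((1 + e) / r) p (cp_mu W).prob (cp_nu hn W).prob a1 a2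
    r0 K0 k1 k2 q0 q1 (by positivity) p0 (by rwa [add_sub_cancel]) hs
  have e1 : tau n * (r / tau n) = r := mul_div_cancel₀ _ ht.ne'
  refine covAt_of hn W (div_pos r0 ht) (by nlinarith [sq_nonneg q]) ?_
  rw [e1]
  refine Win34.OffY.mono h1 (by linarith) fun y hy => Win34.CovB.mono hy ?_
  set K := tau n * t - r
  set a := (1 + e) / r with ha
  have b0 : 1 / r ≤ a := div_le_div_of_nonneg_right (by linarith) r0.le
  have b1 : 1 / K ≤ a := (one_div_le_one_div_of_le r0 hK).trans b0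
  have b2 : 0 < 1 / K := by positivity
  have b3 : r ≤ n := by
    have c1 : tau n ≤ n := by
      rw [tau_eq, ← sx_pow_six]; exact pow_le_pow_right₀ s1 (by norm_num)
    linarith [mul_le_of_le_one_right ht.le t1]
  have b4 : 1 ≤ n * a := by
    refine le_trans ?_ (mul_le_mul_of_nonneg_left b0 (by linarith))
    rwa [mul_one_div, le_div_iff₀ r0, one_mul]
  have b5 : 29 / K ≤ 29 * n :=
    (div_le_self (by norm_num) (r1.trans hK)).trans (by linarith)
  have b6 : exp (2 * δ) ^ 4 * (1 + q) ≤ 1 + (16 * δ + 3 * q) :=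
    (mul_le_mul_of_nonneg_right k4 (by linarith)).trans (by nlinarith)
  have b7 := mul_le_mul_of_nonneg_right b6 (show 0 ≤ a + 1 / K by linarith)
  have b8 := mul_le_mul_of_nonneg_left (show a + 1 / K ≤ 2 * a by linarith)
    (show 0 ≤ 16 * δ + 3 * q by linarith)
  have b9 : (12 * n + 29 / K) * q ≤ 41 * (n ^ 2 * q) * a :=
    calc _ ≤ 41 * n * q * 1 := by
          rw [mul_one]; exact mul_le_mul_of_nonneg_right (by linarith) q0.le
      _ ≤ 41 * n * q * (n * a) := mul_le_mul_of_nonneg_left b4 (by positivity)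
      _ = _ := by ring
  have c1 : q * a ≤ n ^ 2 * q * a := mul_le_mul_of_nonneg_right
    (le_mul_of_one_le_left q0.le (one_le_pow₀ N1)) (by linarith)
  have c2 := mul_le_mul_of_nonneg_right hg (show 0 ≤ a by linarith)
  have c3 : (1 + e) * (1 + g) / r = a + g * a := by rw [ha]; ring
  rw [c3]
  linarith

end Ed87

open Ed87 in
theorem edgeGlue : EdgeGlue := by
  intro hC hT I t η h hI hW h0 hη η1 ht hE
  have γ0 : 0 < η - h := sub_pos.2 hη
  have w1 : Whp GOE fun n W => exp (-(1 / 8 * (n : ℝ) ^ h)) ≤ Pl.LRW n 1 W :=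
    Top.whp_of_real_le (Pl.tendsto_LRW_lt_rpow zero_le_one le_rfl (a := 1 / 8) (by norm_num) h0)
      (.of_forall fun n => by simp only [not_le]; rfl)
  have w2 := St.All.closeStmt.1 1 one_pos
  have w3 : Whp GOE fun n W => ¬ (W ∈ I n ∧ exp (-((n : ℝ) ^ h / 4)) * exp (n / 4) ≤ Zc n W ∧
      exp (-((n : ℝ) ^ h / 4)) * exp (n / 4) ≤ Zs n W ∧ ¬ Cmp (tau n * t n) (muW n W) (nuW n W)
        (exp (2 * (n : ℝ) ^ (-((η - h) / 3)))) (exp (-((n : ℝ) ^ h / 4)))) := by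
    refine Top.whp_of_real_le (a := fun n => 62 * ((n : ℝ) ^ 3 * exp (-(1 / 2 * (n : ℝ) ^ h))))
      (by simpa using (td_exp h0 one_half_pos).const_mul 62) ?_
    filter_upwards [hE, eventually_ge_atTop 4, ev_pow h0 1537, ev_pow (a := 1 / 10) (by norm_num) 640,
      ev_pow (a := (η - h) / 6) (by positivity) 176] with n e1 e2 e3 e4 e5
    have N4 : (4 : ℝ) ≤ n := by exact_mod_cast e2
    have N0 : (0 : ℝ) < n := by linarith
    have N2 : (0 : ℝ) < n - 2 := by linarith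
    set H := (n : ℝ) ^ h with hH
    set δ := (n : ℝ) ^ (-((η - h) / 3)) with hδ
    have δ0 : 0 < δ := rpow_pos_of_pos N0 _
    have δ1 : δ ≤ 1 := rpow_le_one_of_one_le_of_nonpos (by linarith) (by linarith)
    have r2 : √(32 * H / (n - 2)) ^ 2 = 32 * H / (n - 2) := sq_sqrt (by positivity)
    have r3 : 32 * H / (n - 2) ≤ 64 * (n : ℝ) ^ (h - 1) := by
      rw [rpow_sub_one N0.ne', div_le_iff₀ N2, ← mul_div_assoc, div_mul_eq_mul_div, le_div_iff₀ N0]
      nlinarith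
    have r4 : √(32 * H / (n - 2)) ≤ 8 * (n : ℝ) ^ ((h - 1) / 2) := by
      refine sqrt_le_iff.2 ⟨by positivity, r3.trans_eq ?_⟩
      rw [mul_pow, ← rpow_mul_natCast N0.le]; norm_num
    have c2 : ((n : ℝ) ^ ((1 - η) / 2)) ^ 2 ≤ n := by
      rw [← rpow_mul_natCast N0.le]
      exact (rpow_le_rpow_of_exponent_le (by linarith) (by push_cast; linarith)).trans_eq (rpow_one _)
    have b1 : 5 / 2 * (n : ℝ) ^ (9 / 10 : ℝ) ≤ (n - 2) / 128 := by
      have u1 := mul_le_mul_of_nonneg_right e4 (rpow_pos_of_pos N0 (9 / 10)).le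
      rw [← rpow_add N0, show (1 / 10 + 9 / 10 : ℝ) = 1 by norm_num, rpow_one] at u1
      linarith
    have b2 : √(32 * H / (n - 2)) * (4 * (n : ℝ) ^ ((1 - η) / 2)) / 2 +
        5 / 2 * (n : ℝ) ^ (9 / 10 : ℝ) * √(32 * H / (n - 2)) ^ 2 ≤ δ := by
      have u1 := mul_le_mul_of_nonneg_right r4 (rpow_pos_of_pos N0 ((1 - η) / 2)).le
      rw [mul_assoc, ← rpow_add N0, show (h - 1) / 2 + (1 - η) / 2 = -((η - h) / 2) by ring] at u1
      have u2 := mul_le_mul_of_nonneg_left r3 (rpow_pos_of_pos N0 (9 / 10)).le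
      rw [mul_left_comm, ← rpow_add N0] at u2
      have u3 : (n : ℝ) ^ (9 / 10 + (h - 1)) ≤ (n : ℝ) ^ (-((η - h) / 2)) :=
        rpow_le_rpow_of_exponent_le (by linarith) (by linarith)
      have u4 := mul_le_mul_of_nonneg_right e5 (rpow_pos_of_pos N0 (-((η - h) / 2))).le
      rw [← rpow_add N0, show (η - h) / 6 + -((η - h) / 2) = -((η - h) / 3) by ring] at u4
      rw [r2]
      linarith
    have b3 : 1 + 48 * (4 * (n : ℝ) ^ ((1 - η) / 2)) ^ 2 / (n - 2) ≤ H := by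
      have : 48 * (4 * (n : ℝ) ^ ((1 - η) / 2)) ^ 2 / (n - 2) ≤ 1536 := by
        rw [div_le_iff₀ N2, mul_pow]; linarith
      linarith
    have h1 := hC n (I n) (t n) _ _ _ δ H _ (exp (-(H / 4))) (exp (-(H / 4))) (by omega) (hI n) (ht n).1
      (rpow_pos_of_pos N0 _).le (rpow_pos_of_pos N0 _).le (sqrt_nonneg _) δ0 δ1 b1 b2 b3
      (exp_pos _).le (exp_pos _) (exp_pos _) e1
    simp only [not_not]
    refine ENNReal.toReal_le_of_le_ofReal (by positivity) (h1.trans (ENNReal.ofReal_le_ofReal ?_))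
    have u1 : tl n √(32 * H / (n - 2)) H ≤ 26 * exp (-H) := by
      rw [tl, r2, show H - (n - 2) * (32 * H / (n - 2)) / 16 = -H by field_simp; ring]
      linarith [exp_le_exp.2 (show 4 - 2 * H ≤ -H by linarith)]
    have u2 : δ⁻¹ ≤ (n : ℝ) ^ 3 := by
      rw [hδ, rpow_neg N0.le, inv_inv, ← rpow_natCast]
      exact rpow_le_rpow_of_exponent_le (by linarith) (by push_cast; linarith)
    have u3 : exp (-H) = exp (-(1 / 2 * H)) * (exp (-(H / 4)) * exp (-(H / 4))) := by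
      rw [← exp_add, ← exp_add]; congr 1; ring
    rw [div_le_iff₀ (by positivity), div_eq_mul_inv]
    calc _ ≤ 2 * (31 * exp (-H) * (n : ℝ) ^ 3) := by
          gcongr 2 * (?_ * ?_)
          linarith
      _ = _ := by rw [u3]; ring
  refine (((hW.and w1).and w2).and w3).mono ?_
  filter_upwards [eventually_ge_atTop 1, ev_pow h0 240, ev_pow (a := (η - h) / 12) (by positivity) 64,
    (td_exp h0 (b := 1 / 16) (by norm_num)).eventually (gt_mem_nhds (show (0 : ℝ) < 1 / 94 by norm_num))]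
    with n n1 e1 e2 e3 W ⟨⟨⟨v1, v2⟩, v3⟩, v4⟩
  have N1 : (1 : ℝ) ≤ n := by exact_mod_cast n1
  have N0 : (0 : ℝ) < n := by linarith
  set H := (n : ℝ) ^ h with hH
  rw [LRW_eq, le_div_iff₀ (exp_pos _)] at v2
  have z1 : Zc n W ≤ 2 * Zs n W := by
    rw [← div_le_iff₀ (Zs_pos n1 W)]; linarith [(abs_le.1 v3).2]
  have z2 : 2 * exp (-(H / 4)) ≤ exp (-(1 / 8 * H)) := by
    rw [show -(1 / 8 * H) = H / 8 + -(H / 4) by ring, exp_add]
    exact mul_le_mul_of_nonneg_right (by linarith [add_one_le_exp (H / 8)]) (exp_pos _).le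
  have z3 := mul_le_mul_of_nonneg_right z2 (exp_pos (n / 4)).le
  have z4 := mul_pos (exp_pos (-(H / 4))) (exp_pos (n / 4))
  have h1 := not_not.1 fun h => v4 ⟨v1, by linarith, by linarith, h⟩
  have g1 : (n : ℝ) ^ (-((η - h) / 4)) ≤ 1 := rpow_le_one_of_one_le_of_nonpos N1 (by linarith)
  have g2 := mul_le_mul_of_nonneg_right e2 (rpow_pos_of_pos N0 (-((η - h) / 3))).le
  rw [← rpow_add N0, show (η - h) / 12 + -((η - h) / 3) = -((η - h) / 4) by ring] at g2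
  have g3 : (n : ℝ)⁻¹ ≤ (n : ℝ) ^ (-((η - h) / 4)) := by
    rw [← rpow_neg_one]; exact rpow_le_rpow_of_exponent_le N1 (by linarith)
  have g4 : 94 * ((n : ℝ) ^ 2 * exp (-(1 / 16 * H))) ≤ (n : ℝ)⁻¹ := by
    rw [← one_div, le_div_iff₀ N0]; linarith
  refine pass hT n1 W (q := exp (-(1 / 16 * H))) (δ := (n : ℝ) ^ (-((η - h) / 3))) (ht n).2
    (rpow_pos_of_pos N0 _).le (by linarith)
    (exp_pos _) ?_ (by linarith) ?_ (by rwa [← exp_nat_mul, show ((4 : ℕ) : ℝ) * -(1 / 16 * H) =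
      -(H / 4) by push_cast; ring])
  · rw [exp_neg, inv_le_comm₀ (exp_pos _) (by norm_num)]
    linarith [add_one_le_exp (1 / 16 * H)]
  · rw [← exp_nat_mul, show -(H / 10) = H / 40 + ((2 : ℕ) : ℝ) * -(1 / 16 * H) by push_cast; ring,
      exp_add]
    exact mul_le_mul_of_nonneg_right (by linarith [add_one_le_exp (H / 40)]) (exp_pos _).le

theorem cmpN : CmpN := cmpGlue haarL orbL shpL

/-- **the edge transfer** -/
theorem edgeT : EdgeT := edgeGlue cmpN trfL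

end Crest.Agent.T157.Oe

end
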