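import Crest.Agent.T157.CqDef_72
import Crest.Agent.T157.SwDef_14
import Crest.Agent.T157.LlRes_91
import Crest.Agent.T157.SwDerA_91
import Crest.Agent.T157.EdBase_88
import Crest.Agent.T157.LlAll_91
import Crest.Agent.T157.NrmS_84

-- ▼ part T157/SwD_82
section

/-!
# Row 157, coin SWAP: the complex killed chain on a disc (helper82)

`kapC` is `Cq.kap` for complex matrices and complex killing rates.  `core` is the abstract
`L²` telescoping bound.
-/

set_option autoImplicit false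

noncomputable section

namespace Crest.Agent.T157.SwD

open Matrix Finset Function
open Crest.ProbabilityR.SpinGlassDynamics Crest.Agent.T157.E
open Crest.Agent.T157.St Crest.Agent.T157.Ed Crest.Agent.T157.Cq
open Crest.Agent.T157.Soft (unif)

variable {n : ℕ}

/-- complex conditional mean -/
def siteC (w f : Cube n → ℂ) (i : Fin n) (x : Cube n) : ℂ :=
  (w (update x i true) * f (update x i true) + w (update x i false) * f (update x i false)) /
    (w (update x i true) + w (update x i false))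
/-- complex heat-bath step -/
def PhC (w f : Cube n → ℂ) (x : Cube n) : ℂ := (n : ℂ)⁻¹ * ∑ l, siteC w f l x
/-- complex killed step -/
def stC (w m u : Cube n → ℂ) (x : Cube n) : ℂ := m x * PhC w u x
/-- real killed step -/
def st (w m u : Cube n → ℝ) (x : Cube n) : ℝ := m x * Ph w u x
/-- conditional variance at a site -/
def varl (w u : Cube n → ℝ) (l : Fin n) (x : Cube n) : ℝ :=
  siteM w (fun y => u y ^ 2) l x - siteM w u l x ^ 2
/-- accumulated variance of the site `l` -/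
def Sw (w m : Cube n → ℝ) (l : Fin n) : ℕ → Cube n → ℝ
  | 0 => 0
  | k + 1 => fun x => m x * (Ph w (Sw w m l k) x + varl w ((st w m)^[k] 1) l x / n)

/-! ### one site -/

lemma site_d {a b : ℝ} (ha : 0 < a) (hb : 0 < b) {z z' : ℂ} (h : ‖z - z'‖ ≤ 9 / 25) :
    (a : ℂ) * Complex.exp z + b * Complex.exp z' ≠ 0 ∧ ∃ d : ℂ,
      ‖d‖ ≤ 4 * (a / (a + b)) * (b / (a + b)) * ‖z - z'‖ ∧ ∀ f g : ℂ,
      ((a : ℂ) * Complex.exp z * f + b * Complex.exp z' * g) /
        (a * Complex.exp z + b * Complex.exp z') =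
        ((a / (a + b) : ℝ) : ℂ) * f + ((b / (a + b) : ℝ) : ℂ) * g + d * (f - g) := by
  set p : ℝ := a / (a + b) with hp
  set q : ℝ := b / (a + b) with hq
  have hab : 0 < a + b := by positivity
  have hp0 : 0 < p := by positivity
  have hq0 : 0 < q := by positivity
  have hpq : p + q = 1 := by rw [hp, hq]; field_simp
  set e : ℂ := Complex.exp (z - z') with he
  have he1 : ‖e - 1‖ ≤ 2 * ‖z - z'‖ := Complex.norm_exp_sub_one_le (by linarith)
  have hz : Complex.exp z = e * Complex.exp z' := by rw [he, ← Complex.exp_add]; ring_nf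
  have hqc : (q : ℂ) = 1 - p := by rw [← Complex.ofReal_one, ← hpq]; push_cast; ring
  have hden : (1 / 2 : ℝ) ≤ ‖(p : ℂ) * e + q‖ := by
    have h1 : (p : ℂ) * e + q = 1 + p * (e - 1) := by rw [hqc]; ring
    have h2 : ‖(p : ℂ) * (e - 1)‖ ≤ 1 / 2 := by
      rw [norm_mul, Complex.norm_real, Real.norm_of_nonneg hp0.le]
      have : p ≤ 1 := by linarith
      have f1 : ‖e - 1 - (z - z')‖ ≤ ‖z - z'‖ ^ 2 :=
        Complex.norm_exp_sub_one_sub_id_le (by linarith)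
      have f2 := norm_add_le (e - 1 - (z - z')) (z - z')
      rw [sub_add_cancel] at f2
      have f3 : ‖z - z'‖ ^ 2 ≤ (9 / 25) ^ 2 := pow_le_pow_left₀ (norm_nonneg _) h 2
      calc p * ‖e - 1‖ ≤ 1 * (1 / 2) :=
            mul_le_mul this (by linarith) (norm_nonneg _) zero_le_one
        _ = 1 / 2 := by norm_num
    have h3 := norm_sub_norm_le (1 : ℂ) (-((p : ℂ) * (e - 1)))
    rw [norm_neg, norm_one, sub_neg_eq_add] at h3
    rw [h1]; linarith
  have hd0 : (p : ℂ) * e + q ≠ 0 := fun h0 => by rw [h0, norm_zero] at hden; norm_num at hden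
  have habc : ((a : ℂ) + b) ≠ 0 := by exact_mod_cast hab.ne'
  have hpa : (a : ℂ) = p * (a + b) := by rw [hp]; push_cast; field_simp
  have hqb : (b : ℂ) = q * (a + b) := by rw [hq]; push_cast; field_simp
  have hE := Complex.exp_ne_zero z'
  have hsum : (a : ℂ) * Complex.exp z + b * Complex.exp z' =
      ((a + b) * Complex.exp z') * (p * e + q) := by
    rw [hz]; linear_combination (e * Complex.exp z') * hpa + Complex.exp z' * hqb
  refine ⟨by rw [hsum]; exact mul_ne_zero (mul_ne_zero habc hE) hd0,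
    p * q * (e - 1) / (p * e + q), ?_, fun f g => ?_⟩
  · rw [norm_div, div_le_iff₀ (by linarith), norm_mul, norm_mul, Complex.norm_real,
      Complex.norm_real, Real.norm_of_nonneg hp0.le, Real.norm_of_nonneg hq0.le]
    have h1 : p * q * ‖e - 1‖ ≤ p * q * (2 * ‖z - z'‖) :=
      mul_le_mul_of_nonneg_left he1 (by positivity)
    have h2 : 4 * p * q * ‖z - z'‖ * (1 / 2) ≤ 4 * p * q * ‖z - z'‖ * ‖(p : ℂ) * e + q‖ :=
      mul_le_mul_of_nonneg_left hden (by positivity)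
    linarith
  · have hnum : (a : ℂ) * Complex.exp z * f + b * Complex.exp z' * g =
        ((a + b) * Complex.exp z') * (p * e * f + q * g) := by
      rw [hz]; linear_combination (e * Complex.exp z' * f) * hpa + (Complex.exp z' * g) * hqb
    rw [hsum, hnum, mul_div_mul_left _ _ (mul_ne_zero habc hE), div_eq_iff hd0]
    have : (p : ℂ) * q * (e - 1) / (p * e + q) * (f - g) * (p * e + q) =
        p * q * (e - 1) * (f - g) := by field_simp
    rw [add_mul, this, hqc]; ring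

lemma site_cs {p q A : ℝ} (hp : 0 < p) (hq : 0 < q) (hpq : p + q = 1) {d : ℂ}
    (hd : ‖d‖ ≤ 4 * p * q * A) (f g : ℂ) :
    ‖(p : ℂ) * f + q * g + d * (f - g)‖ ^ 2 ≤ (1 + 4 * A ^ 2) * (p * ‖f‖ ^ 2 + q * ‖g‖ ^ 2) := by
  have h1 : (p : ℂ) * f + q * g + d * (f - g) = (p + d) * f + (q - d) * g := by ring
  have h2 : ‖(p + d) * f + (q - d) * g‖ ≤ ‖(p : ℂ) + d‖ * ‖f‖ + ‖(q : ℂ) - d‖ * ‖g‖ := by
    refine (norm_add_le _ _).trans ?_
    rw [norm_mul, norm_mul]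
  have e1 : ‖(p : ℂ) + d‖ ^ 2 = p ^ 2 + 2 * p * d.re + ‖d‖ ^ 2 := by
    rw [Complex.sq_norm, Complex.sq_norm, Complex.normSq_apply, Complex.normSq_apply]
    simp; ring
  have e2 : ‖(q : ℂ) - d‖ ^ 2 = q ^ 2 - 2 * q * d.re + ‖d‖ ^ 2 := by
    rw [Complex.sq_norm, Complex.sq_norm, Complex.normSq_apply, Complex.normSq_apply]
    simp; ring
  have hd2 : ‖d‖ ^ 2 ≤ (4 * p * q * A) ^ 2 := pow_le_pow_left₀ (norm_nonneg _) hd 2
  have hpq4 : p * q ≤ 1 / 4 := by nlinarith [sq_nonneg (p - q)]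
  set X := ‖(p : ℂ) + d‖
  set Y := ‖(q : ℂ) - d‖
  have h3 : X ^ 2 / p + Y ^ 2 / q ≤ 1 + 4 * A ^ 2 := by
    have h4 : X ^ 2 / p + Y ^ 2 / q = 1 + ‖d‖ ^ 2 / (p * q) := by
      rw [e1, e2]; field_simp
      have : q = 1 - p := by linarith
      subst this; ring
    have h5 : ‖d‖ ^ 2 / (p * q) ≤ 4 * A ^ 2 := by
      rw [div_le_iff₀ (by positivity)]
      have : (4 * p * q * A) ^ 2 = 16 * (p * q) * (A ^ 2 * (p * q)) := by ring
      have h6 : 0 ≤ A ^ 2 * (p * q) := by positivity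
      nlinarith
    linarith
  have h6 : (X * ‖f‖ + Y * ‖g‖) ^ 2 ≤ (X ^ 2 / p + Y ^ 2 / q) * (p * ‖f‖ ^ 2 + q * ‖g‖ ^ 2) := by
    have : (X ^ 2 / p + Y ^ 2 / q) * (p * ‖f‖ ^ 2 + q * ‖g‖ ^ 2) - (X * ‖f‖ + Y * ‖g‖) ^ 2 =
        (X * q * ‖g‖ - Y * p * ‖f‖) ^ 2 / (p * q) := by field_simp; ring
    have h7 : 0 ≤ (X * q * ‖g‖ - Y * p * ‖f‖) ^ 2 / (p * q) := by positivity
    linarith
  rw [h1]
  calc _ ≤ (X * ‖f‖ + Y * ‖g‖) ^ 2 := pow_le_pow_left₀ (norm_nonneg _) h2 2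
    _ ≤ _ := h6
    _ ≤ _ := mul_le_mul_of_nonneg_right h3 (by positivity)

/-! ### the real chain -/

section real
variable {w : Cube n → ℝ}

/-- probability of `+` -/
def pp (w : Cube n → ℝ) (l : Fin n) (x : Cube n) : ℝ :=
  w (update x l true) / (w (update x l true) + w (update x l false))
/-- probability of `-` -/
def qq (w : Cube n → ℝ) (l : Fin n) (x : Cube n) : ℝ :=
  w (update x l false) / (w (update x l true) + w (update x l false))

lemma pp_pos (hw : ∀ x, 0 < w x) (l : Fin n) (x : Cube n) : 0 < pp w l x :=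
  div_pos (hw _) (add_pos (hw _) (hw _))
lemma qq_pos (hw : ∀ x, 0 < w x) (l : Fin n) (x : Cube n) : 0 < qq w l x :=
  div_pos (hw _) (add_pos (hw _) (hw _))
lemma pp_add (hw : ∀ x, 0 < w x) (l : Fin n) (x : Cube n) : pp w l x + qq w l x = 1 := by
  unfold pp qq; rw [← add_div]; exact div_self (add_pos (hw _) (hw _)).ne'
lemma siteM_eq (f : Cube n → ℝ) (l : Fin n) (x : Cube n) :
    siteM w f l x = pp w l x * f (update x l true) + qq w l x * f (update x l false) := by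
  unfold siteM pp qq; ring

lemma varl_eq (hw : ∀ x, 0 < w x) (u : Cube n → ℝ) (l : Fin n) (x : Cube n) :
    varl w u l x = pp w l x * qq w l x * (u (update x l true) - u (update x l false)) ^ 2 := by
  unfold varl
  rw [siteM_eq, siteM_eq]
  have : qq w l x = 1 - pp w l x := by linarith [pp_add hw l x]
  rw [this]; ring

lemma varl_nonneg (hw : ∀ x, 0 < w x) (u : Cube n → ℝ) (l : Fin n) (x : Cube n) :
    0 ≤ varl w u l x := by
  rw [varl_eq hw]
  have := pp_pos hw l x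
  have := qq_pos hw l x
  positivity

lemma Ph_mono (hw : ∀ x, 0 < w x) {f g : Cube n → ℝ} (h : ∀ x, f x ≤ g x) (x : Cube n) :
    Ph w f x ≤ Ph w g x := by
  unfold Ph
  refine mul_le_mul_of_nonneg_left (sum_le_sum fun l _ => ?_) (by positivity)
  rw [siteM_eq, siteM_eq]
  exact add_le_add (mul_le_mul_of_nonneg_left (h _) (pp_pos hw l x).le)
    (mul_le_mul_of_nonneg_left (h _) (qq_pos hw l x).le)

lemma Ph_add (f g : Cube n → ℝ) (x : Cube n) :
    Ph w (fun y => f y + g y) x = Ph w f x + Ph w g x := by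
  unfold Ph
  rw [← mul_add, ← sum_add_distrib]
  congr 1
  exact sum_congr rfl fun l _ => by rw [siteM_eq, siteM_eq, siteM_eq]; ring

lemma Ph_mul (c : ℝ) (f : Cube n → ℝ) (x : Cube n) :
    Ph w (fun y => c * f y) x = c * Ph w f x := by
  unfold Ph
  rw [mul_left_comm, mul_sum univ _ c]
  congr 1
  exact sum_congr rfl fun l _ => by rw [siteM_eq, siteM_eq]; ring

lemma Ph_sub (f g : Cube n → ℝ) (x : Cube n) :
    Ph w (fun y => f y - g y) x = Ph w f x - Ph w g x := by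
  unfold Ph
  rw [← mul_sub, ← sum_sub_distrib]
  congr 1
  exact sum_congr rfl fun l _ => by rw [siteM_eq, siteM_eq, siteM_eq]; ring

lemma Ph_sum {ι : Type*} (S : Finset ι) (f : ι → Cube n → ℝ) (x : Cube n) :
    Ph w (fun y => ∑ i ∈ S, f i y) x = ∑ i ∈ S, Ph w (f i) x := by
  unfold Ph
  rw [← mul_sum, sum_comm]
  congr 1
  refine sum_congr rfl fun l _ => ?_
  rw [siteM_eq, mul_sum, mul_sum, ← sum_add_distrib]
  exact sum_congr rfl fun i _ => by rw [siteM_eq]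

lemma Ph_const (hn : 0 < n) (hw : ∀ x, 0 < w x) (c : ℝ) (x : Cube n) :
    Ph w (fun _ => c) x = c := by
  unfold Ph
  have : ∀ l, siteM w (fun _ => c) l x = c := fun l => by
    rw [siteM_eq, ← add_mul, pp_add hw, one_mul]
  have hn' : (n : ℝ) ≠ 0 := by positivity
  simp only [this, sum_const, card_univ, Fintype.card_fin, nsmul_eq_mul]
  field_simp

lemma sum_varl (hn : 0 < n) (u : Cube n → ℝ) (x : Cube n) :
    ∑ l, varl w u l x / n ≤ Ph w (fun y => u y ^ 2) x - Ph w u x ^ 2 := by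
  have hn' : (0 : ℝ) < n := by positivity
  unfold varl Ph
  have h := sq_sum_le_card_mul_sum_sq (s := univ) (f := fun l => siteM w u l x)
  simp only [card_univ, Fintype.card_fin] at h
  rw [← sum_div, sum_sub_distrib]
  have h2 : ((n : ℝ)⁻¹ * ∑ l, siteM w u l x) ^ 2 ≤ (∑ l, siteM w u l x ^ 2) / n := by
    rw [mul_pow, le_div_iff₀ hn']
    calc (n : ℝ)⁻¹ ^ 2 * (∑ l, siteM w u l x) ^ 2 * n
        ≤ (n : ℝ)⁻¹ ^ 2 * (n * ∑ l, siteM w u l x ^ 2) * n := by gcongr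
      _ = _ := by field_simp
  rw [sub_div, div_eq_inv_mul (∑ l, siteM w (fun y => u y ^ 2) l x)]
  linarith

variable {m : Cube n → ℝ}

lemma it_mem (hn : 0 < n) (hw : ∀ x, 0 < w x) (hm : ∀ x, 0 ≤ m x ∧ m x ≤ 1) (k : ℕ) (x : Cube n) :
    0 ≤ (st w m)^[k] 1 x ∧ (st w m)^[k] 1 x ≤ 1 := by
  induction k generalizing x with
  | zero => simp
  | succ k ih =>
    rw [iterate_succ_apply']
    have h0 : 0 ≤ Ph w ((st w m)^[k] 1) x := by
      have := Ph_mono hw (f := fun _ => 0) (g := (st w m)^[k] 1) (fun y => (ih y).1) x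
      rwa [Ph_const hn hw] at this
    have h1 : Ph w ((st w m)^[k] 1) x ≤ 1 := by
      have := Ph_mono hw (g := fun _ => 1) (f := (st w m)^[k] 1) (fun y => (ih y).2) x
      rwa [Ph_const hn hw] at this
    exact ⟨mul_nonneg (hm x).1 h0, mul_le_one₀ (hm x).2 h0 h1⟩

lemma Sw_nonneg (hn : 0 < n) (hw : ∀ x, 0 < w x) (hm : ∀ x, 0 ≤ m x ∧ m x ≤ 1) (l : Fin n) (k : ℕ)
    (x : Cube n) : 0 ≤ Sw w m l k x := by
  induction k generalizing x with
  | zero => simp [Sw]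
  | succ k ih =>
    have h0 := Ph_mono hw (f := fun _ => 0) (g := Sw w m l k) ih x
    rw [Ph_const hn hw] at h0
    exact mul_nonneg (hm x).1 (add_nonneg h0 (div_nonneg (varl_nonneg hw _ _ _) (by positivity)))

/-- the variance step -/
lemma var_step (hn : 0 < n) (hw : ∀ x, 0 < w x) (hm : ∀ x, 0 ≤ m x ∧ m x ≤ 1) (u : Cube n → ℝ)
    (x : Cube n) : m x * (Ph w (fun y => u y - u y ^ 2) x + ∑ l, varl w u l x / n) ≤
      st w m u x - st w m u x ^ 2 := by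
  have h1 := sum_varl (w := w) hn u x
  rw [Ph_sub]
  unfold st
  have h2 : m x * (Ph w u x - Ph w (fun y => u y ^ 2) x + ∑ l, varl w u l x / n) ≤
      m x * (Ph w u x - Ph w u x ^ 2) := mul_le_mul_of_nonneg_left (by linarith) (hm x).1
  have h3 : 0 ≤ m x * (1 - m x) * Ph w u x ^ 2 :=
    mul_nonneg (mul_nonneg (hm x).1 (by linarith [(hm x).2])) (sq_nonneg _)
  nlinarith

lemma sum_Sw (hn : 0 < n) (hw : ∀ x, 0 < w x) (hm : ∀ x, 0 ≤ m x ∧ m x ≤ 1) (k : ℕ) (x : Cube n) :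
    ∑ l, Sw w m l k x ≤ (st w m)^[k] 1 x - (st w m)^[k] 1 x ^ 2 := by
  induction k generalizing x with
  | zero => simp [Sw]
  | succ k ih =>
    rw [iterate_succ_apply']
    refine le_trans ?_ (var_step hn hw hm _ x)
    simp only [Sw]
    rw [← mul_sum, sum_add_distrib, ← Ph_sum]
    exact mul_le_mul_of_nonneg_left (add_le_add (Ph_mono hw ih x) le_rfl) (hm x).1

end real

/-! ### the complex chain -/

lemma PhC_add (w f g : Cube n → ℂ) (x : Cube n) :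
    PhC w (fun y => f y + g y) x = PhC w f x + PhC w g x := by
  unfold PhC siteC
  rw [← mul_add, ← sum_add_distrib]
  congr 1
  exact sum_congr rfl fun l _ => by ring

section cplx
variable {w : Cube n → ℝ} {φ : Cube n → ℂ}

/-- the local perturbation -/
def aa (φ : Cube n → ℂ) (l : Fin n) (x : Cube n) : ℝ :=
  ‖φ (update x l true) - φ (update x l false)‖

lemma siteC_d (hw : ∀ x, 0 < w x) {l : Fin n} {x : Cube n} (h : aa φ l x ≤ 9 / 25) : ∃ d : ℂ,
    ‖d‖ ≤ 4 * pp w l x * qq w l x * aa φ l x ∧ ∀ f : Cube n → ℂ,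
      siteC (fun y => w y * Complex.exp (φ y)) f l x =
        pp w l x * f (update x l true) + qq w l x * f (update x l false) +
          d * (f (update x l true) - f (update x l false)) := by
  obtain ⟨-, d, hd, h'⟩ := site_d (hw (update x l true)) (hw (update x l false)) h
  exact ⟨d, hd, fun f => h' _ _⟩

lemma PhC_sq (hn : 0 < n) (hw : ∀ x, 0 < w x) {x : Cube n} (h : ∀ l, aa φ l x ≤ 9 / 25) {R : ℝ}
    (hR : ∑ l, aa φ l x ^ 2 ≤ R) (f : Cube n → ℂ) :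
    ‖PhC (fun y => w y * Complex.exp (φ y)) f x‖ ^ 2 ≤
      (1 + 4 * R / n) * Ph w (fun y => ‖f y‖ ^ 2) x := by
  have hn' : (0 : ℝ) < n := by positivity
  have h1 : ∀ l ∈ (univ : Finset (Fin n)), ‖siteC (fun y => w y * Complex.exp (φ y)) f l x‖ ^ 2 ≤
      (1 + 4 * aa φ l x ^ 2) * siteM w (fun y => ‖f y‖ ^ 2) l x := fun l _ => by
    obtain ⟨d, hd, h'⟩ := siteC_d hw (h l)
    rw [h', siteM_eq]
    exact site_cs (pp_pos hw l x) (qq_pos hw l x) (pp_add hw l x) hd _ _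
  have hE : ∀ l ∈ (univ : Finset (Fin n)), 0 ≤ siteM w (fun y => ‖f y‖ ^ 2) l x := fun l _ => by
    rw [siteM_eq]
    have := pp_pos hw l x
    have := qq_pos hw l x
    positivity
  have h2 := sum_sq_le_sum_mul_sum_of_sq_le_mul univ
    (f := fun l => 1 + 4 * aa φ l x ^ 2) (fun l _ => by positivity) hE h1
  have h3 : ∑ l : Fin n, (1 + 4 * aa φ l x ^ 2) ≤ n + 4 * R := by
    rw [sum_add_distrib, ← mul_sum]; simp; linarith
  have h4 : ‖PhC (fun y => w y * Complex.exp (φ y)) f x‖ ≤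
      (n : ℝ)⁻¹ * ∑ l, ‖siteC (fun y => w y * Complex.exp (φ y)) f l x‖ := by
    unfold PhC
    rw [norm_mul, norm_inv, Complex.norm_natCast]
    exact mul_le_mul_of_nonneg_left (norm_sum_le _ _) (by positivity)
  have h5 : 0 ≤ ∑ l, siteM w (fun y => ‖f y‖ ^ 2) l x := sum_nonneg hE
  calc _ ≤ ((n : ℝ)⁻¹ * ∑ l, ‖siteC (fun y => w y * Complex.exp (φ y)) f l x‖) ^ 2 :=
        pow_le_pow_left₀ (norm_nonneg _) h4 2
    _ ≤ (n : ℝ)⁻¹ ^ 2 * ((n + 4 * R) * ∑ l, siteM w (fun y => ‖f y‖ ^ 2) l x) := by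
        rw [mul_pow]
        exact mul_le_mul_of_nonneg_left (h2.trans (mul_le_mul_of_nonneg_right h3 h5))
          (by positivity)
    _ = _ := by unfold Ph; field_simp

lemma PhC_diff (hn : 0 < n) (hw : ∀ x, 0 < w x) {x : Cube n} (h : ∀ l, aa φ l x ≤ 9 / 25)
    {S : Finset (Fin n)} {α ρ : ℝ} {b : Fin n → ℝ} (hα : 0 ≤ α)
    (ha : ∀ l, aa φ l x ≤ (if l ∈ S then α else 0) + b l) (hb : ∑ l, b l ^ 2 ≤ ρ)
    (u : Cube n → ℝ) :
    ‖PhC (fun y => w y * Complex.exp (φ y)) (fun y => u y) x - (Ph w u x : ℝ)‖ ^ 2 ≤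
      8 / n * (α ^ 2 * #S * ∑ l ∈ S, varl w u l x / n + ρ * ∑ l, varl w u l x / n) := by
  have hn' : (0 : ℝ) < n := by positivity
  set v : Fin n → ℝ := fun l =>
    4 * pp w l x * qq w l x * |u (update x l true) - u (update x l false)| with hv
  have hv0 : ∀ l, 0 ≤ v l := fun l => by
    have := pp_pos hw l x
    have := qq_pos hw l x
    simp only [hv]; positivity
  have hv2 : ∀ l, v l ^ 2 ≤ 4 * varl w u l x := fun l => by
    have h1 := pp_pos hw l x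
    have h2 := qq_pos hw l x
    have h3 := pp_add hw l x
    have h4 : pp w l x * qq w l x ≤ 1 / 4 := by nlinarith [sq_nonneg (pp w l x - qq w l x)]
    have h5 := varl_nonneg hw u l x
    have h6 : v l ^ 2 = 16 * (pp w l x * qq w l x) * varl w u l x := by
      rw [varl_eq hw]; simp only [hv, mul_pow, sq_abs]; ring
    rw [h6]; nlinarith
  have h1 : ∀ l, ‖siteC (fun y => w y * Complex.exp (φ y)) (fun y => u y) l x -
      (siteM w u l x : ℝ)‖ ≤ (if l ∈ S then α * v l else 0) + b l * v l := fun l => by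
    obtain ⟨d, hd, h'⟩ := siteC_d hw (h l)
    rw [h', siteM_eq]
    push_cast
    rw [add_sub_cancel_left, norm_mul, ← Complex.ofReal_sub, Complex.norm_real, Real.norm_eq_abs]
    calc _ ≤ 4 * pp w l x * qq w l x * aa φ l x * |u (update x l true) - u (update x l false)| :=
          mul_le_mul_of_nonneg_right hd (abs_nonneg _)
      _ = aa φ l x * v l := by simp only [hv]; ring
      _ ≤ ((if l ∈ S then α else 0) + b l) * v l := mul_le_mul_of_nonneg_right (ha l) (hv0 l)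
      _ = _ := by split_ifs <;> ring
  have h2 : ‖PhC (fun y => w y * Complex.exp (φ y)) (fun y => u y) x - (Ph w u x : ℝ)‖ ≤
      (n : ℝ)⁻¹ * (α * ∑ l ∈ S, v l + ∑ l, b l * v l) := by
    unfold PhC Ph
    push_cast
    rw [← mul_sub, ← sum_sub_distrib, norm_mul, norm_inv, Complex.norm_natCast]
    refine mul_le_mul_of_nonneg_left ((norm_sum_le _ _).trans ?_) (by positivity)
    refine (sum_le_sum fun l _ => h1 l).trans (le_of_eq ?_)
    rw [sum_add_distrib, sum_ite_mem, univ_inter, mul_sum]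
  have h3 : (∑ l ∈ S, v l) ^ 2 ≤ #S * (4 * ∑ l ∈ S, varl w u l x) := by
    refine sq_sum_le_card_mul_sum_sq.trans (mul_le_mul_of_nonneg_left ?_ (by positivity))
    rw [mul_sum]; exact sum_le_sum fun l _ => hv2 l
  have h4 : (∑ l, b l * v l) ^ 2 ≤ ρ * (4 * ∑ l, varl w u l x) := by
    refine (sum_mul_sq_le_sq_mul_sq _ _ _).trans (mul_le_mul hb ?_
      (sum_nonneg fun l _ => sq_nonneg _) ((sum_nonneg fun l _ => sq_nonneg _).trans hb))
    rw [mul_sum]; exact sum_le_sum fun l _ => hv2 l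
  have h5 : (α * ∑ l ∈ S, v l + ∑ l, b l * v l) ^ 2 ≤
      2 * (α ^ 2 * (#S * (4 * ∑ l ∈ S, varl w u l x))) + 2 * (ρ * (4 * ∑ l, varl w u l x)) := by
    have h6 : (α * ∑ l ∈ S, v l) ^ 2 ≤ α ^ 2 * (#S * (4 * ∑ l ∈ S, varl w u l x)) := by
      rw [mul_pow]; exact mul_le_mul_of_nonneg_left h3 (sq_nonneg _)
    nlinarith [sq_nonneg (α * ∑ l ∈ S, v l - ∑ l, b l * v l)]
  calc _ ≤ ((n : ℝ)⁻¹ * (α * ∑ l ∈ S, v l + ∑ l, b l * v l)) ^ 2 :=
        pow_le_pow_left₀ (norm_nonneg _) h2 2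
    _ ≤ (n : ℝ)⁻¹ ^ 2 * (2 * (α ^ 2 * (#S * (4 * ∑ l ∈ S, varl w u l x))) +
          2 * (ρ * (4 * ∑ l, varl w u l x))) := by
        rw [mul_pow]; exact mul_le_mul_of_nonneg_left h5 (by positivity)
    _ = _ := by rw [← sum_div, ← sum_div]; field_simp; ring

end cplx

lemma norm_add_sq_le (a b : ℂ) {M : ℝ} (hM : 0 < M) :
    ‖a + b‖ ^ 2 ≤ (1 + M⁻¹) * ‖a‖ ^ 2 + (1 + M) * ‖b‖ ^ 2 := by
  have h1 : ‖a + b‖ ^ 2 ≤ (‖a‖ + ‖b‖) ^ 2 := pow_le_pow_left₀ (norm_nonneg _) (norm_add_le _ _) 2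
  have h2 : (1 + M⁻¹) * ‖a‖ ^ 2 + (1 + M) * ‖b‖ ^ 2 - (‖a‖ + ‖b‖) ^ 2 =
      (‖a‖ - M * ‖b‖) ^ 2 / M := by field_simp; ring
  have h3 : 0 ≤ (‖a‖ - M * ‖b‖) ^ 2 / M := by positivity
  linarith

/-- **the abstract telescoping bound** -/
theorem core (hn : 0 < n) {w m : Cube n → ℝ} (hw : ∀ x, 0 < w x) (hm : ∀ x, 0 ≤ m x ∧ m x ≤ 1)
    {φ m' : Cube n → ℂ} {S : Finset (Fin n)} {α ρ κ β₁ β₂ M : ℝ} {b : Fin n → Cube n → ℝ}
    (hα : 0 ≤ α) (hκ : 1 ≤ κ) (hβ₁ : 0 ≤ β₁) (hβ₂ : 0 ≤ β₂) (hM : 0 < M) (hρ : 0 ≤ ρ)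
    (h4 : ∀ l x, aa φ l x ≤ 9 / 25)
    (ha : ∀ l x, aa φ l x ≤ (if l ∈ S then α else 0) + b l x) (hb : ∀ x, ∑ l, b l x ^ 2 ≤ ρ)
    (hm1 : ∀ x, ‖m' x‖ ^ 2 ≤ κ * m x) (hm2 : ∀ x, ‖m' x - m x‖ ^ 2 ≤ β₁ * (1 - m x) + β₂)
    (k : ℕ) (x : Cube n) :
    ‖(stC (fun y => w y * Complex.exp (φ y)) m')^[k] 1 x - ((st w m)^[k] 1 x : ℝ)‖ ^ 2 ≤
      ((1 + M⁻¹) * κ * (1 + 8 * (α ^ 2 * #S + ρ) / n)) ^ k * ((1 + M) *
        (16 * κ / n * (α ^ 2 * #S * ∑ l ∈ S, Sw w m l k x +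
          ρ * ((st w m)^[k] 1 x - (st w m)^[k] 1 x ^ 2)) +
          2 * (β₁ * (1 - (st w m)^[k] 1 x) + β₂ * k))) := by
  have hn' : (0 : ℝ) < n := by positivity
  set lam := (1 + M⁻¹) * κ * (1 + 8 * (α ^ 2 * #S + ρ) / n) with hlam
  have hl1 : 1 ≤ lam := by
    have e1 : 1 ≤ 1 + M⁻¹ := by have := inv_pos.2 hM; linarith
    have e2 : 1 ≤ 1 + 8 * (α ^ 2 * #S + ρ) / n := by
      have : 0 ≤ 8 * (α ^ 2 * #S + ρ) / n := by positivity
      linarith
    exact one_le_mul_of_one_le_of_one_le (one_le_mul_of_one_le_of_one_le e1 hκ) e2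
  have hR : ∀ x, ∑ l, aa φ l x ^ 2 ≤ 2 * (α ^ 2 * #S + ρ) := fun x => by
    have e1 : ∀ l, aa φ l x ^ 2 ≤ 2 * (if l ∈ S then α ^ 2 else 0) + 2 * b l x ^ 2 := fun l => by
      have e0 : 0 ≤ aa φ l x := norm_nonneg _
      have e2 := pow_le_pow_left₀ e0 (ha l x) 2
      split_ifs at e2 ⊢
      · nlinarith [sq_nonneg (α - b l x)]
      · nlinarith [sq_nonneg (b l x)]
    refine (sum_le_sum fun l _ => e1 l).trans ?_
    rw [sum_add_distrib, ← mul_sum, ← mul_sum, sum_ite_mem, univ_inter, sum_const, nsmul_eq_mul]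
    linarith [hb x]
  induction k generalizing x with
  | zero => simp [Sw]
  | succ k ih =>
    set u := (st w m)^[k] 1 with hu
    set U := (stC (fun y => w y * Complex.exp (φ y)) m')^[k] 1 with hU
    have hu01 := it_mem hn hw hm k
    rw [← hu] at hu01
    rw [iterate_succ_apply', iterate_succ_apply', ← hu, ← hU]
    set P' := PhC (fun y => (w y : ℂ) * Complex.exp (φ y)) with hP'
    have hsplit : stC (fun y => w y * Complex.exp (φ y)) m' U x - (st w m u x : ℝ) =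
        m' x * P' (fun y => U y - u y) x +
          (m' x * (P' (fun y => u y) x - (Ph w u x : ℝ)) + (m' x - m x) * (Ph w u x : ℝ)) := by
      have : P' U x = P' (fun y => U y - u y) x + P' (fun y => u y) x := by
        rw [hP', ← PhC_add]; simp
      unfold stC st
      rw [← hP', this]; push_cast; ring
    have hP0 : 0 ≤ Ph w u x := by
      have := Ph_mono hw (f := fun _ => 0) (g := u) (fun y => (hu01 y).1) x
      rwa [Ph_const hn hw] at this
    have hP1 : Ph w u x ≤ 1 := by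
      have := Ph_mono hw (g := fun _ => 1) (f := u) (fun y => (hu01 y).2) x
      rwa [Ph_const hn hw] at this
    -- first term
    set Bd : Cube n → ℝ := fun y => (1 + M) *
        (16 * κ / n * (α ^ 2 * #S * ∑ l ∈ S, Sw w m l k y + ρ * (u y - u y ^ 2)) +
          2 * (β₁ * (1 - u y) + β₂ * k)) with hBd
    have t1 : ‖m' x * P' (fun y => U y - u y) x‖ ^ 2 ≤
        κ * m x * ((1 + 8 * (α ^ 2 * #S + ρ) / n) * (lam ^ k * Ph w Bd x)) := by
      rw [norm_mul, mul_pow]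
      refine mul_le_mul (hm1 x) ?_ (sq_nonneg _) (mul_nonneg (by linarith) (hm x).1)
      have e1 := PhC_sq hn hw (fun l => h4 l x) (hR x) (fun y => U y - u y)
      have e2 : (1 + 4 * (2 * (α ^ 2 * #S + ρ)) / n) = 1 + 8 * (α ^ 2 * #S + ρ) / n := by ring
      rw [e2] at e1
      refine e1.trans (mul_le_mul_of_nonneg_left ?_ (by positivity))
      rw [← Ph_mul]
      exact Ph_mono hw (fun y => ih y) x
    set V1 := ∑ l ∈ S, varl w u l x / n with hV1
    set V2 := ∑ l, varl w u l x / n with hV2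
    have hV10 : 0 ≤ V1 := sum_nonneg fun l _ => div_nonneg (varl_nonneg hw _ _ _) hn'.le
    have hV20 : 0 ≤ V2 := sum_nonneg fun l _ => div_nonneg (varl_nonneg hw _ _ _) hn'.le
    have t2 : ‖m' x * (P' (fun y => u y) x - (Ph w u x : ℝ))‖ ^ 2 ≤
        κ * m x * (8 / n * (α ^ 2 * #S * V1 + ρ * V2)) := by
      rw [norm_mul, mul_pow]
      exact mul_le_mul (hm1 x) (PhC_diff hn hw (fun l => h4 l x) hα (fun l => ha l x) (hb x) u)
        (sq_nonneg _) (mul_nonneg (by linarith) (hm x).1)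
    have t3 : ‖(m' x - m x) * (Ph w u x : ℝ)‖ ^ 2 ≤ β₁ * (1 - m x) + β₂ := by
      rw [norm_mul, mul_pow, Complex.norm_real, Real.norm_of_nonneg hP0]
      have e1 : Ph w u x ^ 2 ≤ 1 := pow_le_one₀ hP0 hP1
      calc _ ≤ ‖m' x - m x‖ ^ 2 * 1 := mul_le_mul_of_nonneg_left e1 (sq_nonneg _)
        _ ≤ _ := by rw [mul_one]; exact hm2 x
    set G := (1 + M) * (2 * (κ * m x * (8 / n * (α ^ 2 * #S * V1 + ρ * V2))) +
      2 * (β₁ * (1 - m x) + β₂)) with hG
    have hG0 : 0 ≤ G := by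
      have := (hm x).1
      have : 0 ≤ 1 - m x := by linarith [(hm x).2]
      have : 0 ≤ κ := by linarith
      positivity
    have t4 : ‖stC (fun y => w y * Complex.exp (φ y)) m' U x - (st w m u x : ℝ)‖ ^ 2 ≤
        lam ^ (k + 1) * (m x * Ph w Bd x) + G := by
      rw [hsplit]
      refine (norm_add_sq_le _ _ hM).trans (add_le_add ?_ ?_)
      · refine (mul_le_mul_of_nonneg_left t1 (by positivity)).trans (le_of_eq ?_)
        rw [pow_succ, hlam]; ring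
      · refine mul_le_mul_of_nonneg_left ?_ (by positivity)
        have := norm_add_sq_le (m' x * (P' (fun y => u y) x - (Ph w u x : ℝ)))
          ((m' x - m x) * (Ph w u x : ℝ)) one_pos
        rw [inv_one] at this
        linarith
    have t5 : m x * Ph w Bd x + G ≤ (1 + M) *
        (16 * κ / n * (α ^ 2 * #S * ∑ l ∈ S, Sw w m l (k + 1) x +
          ρ * (st w m u x - st w m u x ^ 2)) +
          2 * (β₁ * (1 - st w m u x) + β₂ * (k + 1 : ℕ))) := by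
      have e1 : Ph w Bd x = (1 + M) *
          (16 * κ / n * (α ^ 2 * #S * ∑ l ∈ S, Ph w (Sw w m l k) x +
            ρ * Ph w (fun y => u y - u y ^ 2) x) + 2 * (β₁ * (1 - Ph w u x) + β₂ * k)) := by
        rw [hBd, Ph_mul, Ph_add, Ph_mul, Ph_add, Ph_mul, Ph_mul, Ph_mul, Ph_add, Ph_mul, Ph_sum,
          Ph_const hn hw, Ph_sub (fun _ => 1) u, Ph_const hn hw]
      have e2 : ∑ l ∈ S, Sw w m l (k + 1) x = m x * (∑ l ∈ S, Ph w (Sw w m l k) x + V1) := by
        simp only [Sw]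
        rw [← mul_sum, sum_add_distrib]
      have e3 := var_step hn hw hm u x
      rw [← hV2] at e3
      have e4 : ρ * (m x * (Ph w (fun y => u y - u y ^ 2) x + V2)) ≤
          ρ * (st w m u x - st w m u x ^ 2) := mul_le_mul_of_nonneg_left e3 hρ
      have e5 : β₂ * (m x * k) ≤ β₂ * k :=
        mul_le_mul_of_nonneg_left (mul_le_of_le_one_left (by positivity) (hm x).2) hβ₂
      have e6 : m x * Ph w Bd x + G = (1 + M) *
          (16 * κ / n * (α ^ 2 * #S * (m x * (∑ l ∈ S, Ph w (Sw w m l k) x + V1)) +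
            ρ * (m x * (Ph w (fun y => u y - u y ^ 2) x + V2))) +
            2 * (β₁ * (1 - st w m u x) + (β₂ * (m x * k) + β₂))) := by
        rw [e1, hG]; unfold st; ring
      rw [e6, e2]
      have hk0 : 0 ≤ 16 * κ / n := by
        have : 0 ≤ κ := by linarith
        positivity
      push_cast
      refine mul_le_mul_of_nonneg_left (add_le_add (mul_le_mul_of_nonneg_left (by linarith) hk0)
        (by linarith)) (by positivity)
    have hl2 : 1 ≤ lam ^ (k + 1) := one_le_pow₀ hl1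
    calc _ ≤ lam ^ (k + 1) * (m x * Ph w Bd x) + G := t4
      _ ≤ lam ^ (k + 1) * (m x * Ph w Bd x + G) := by
          rw [mul_add]; exact add_le_add le_rfl (le_mul_of_one_le_left hG0 hl2)
      _ ≤ _ := mul_le_mul_of_nonneg_left t5 (by positivity)

end Crest.Agent.T157.SwD
end
private theorem rz_dd0de0ad04 : type_of% @_root_.Crest.Agent.T157.SwD.Sw.eq_def := @_root_.Crest.Agent.T157.SwD.Sw.eq_def -- L37
private theorem rz_211ebd6d44 : type_of% @_root_.Crest.Agent.T157.SwD.Sw.eq_1 := @_root_.Crest.Agent.T157.SwD.Sw.eq_1 -- L37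
end

-- ▼ part T157/SwE_82
section

/-!
# Row 157, coin SWAP: the disc lemma (helper82)

`kapC`, `kapC_ofReal`, `kapC_diff`, `kap_contDiffAt`, `wt`, `den_ne`, `disc`.
-/

set_option autoImplicit false

noncomputable section

namespace Crest.Agent.T157.SwD

open Matrix Finset Function
open Crest.ProbabilityR.SpinGlassDynamics Crest.Agent.T157.E
open Crest.Agent.T157.St Crest.Agent.T157.Cq
open Crest.Agent.T157.Ed hiding kap
open Crest.Agent.T157.Soft (unif)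

variable {n : ℕ}

/-- complex spin vector -/
def svC (x : Cube n) : Fin n → ℂ := fun i => (sv x i : ℂ)
/-- complex hatted spin vector -/
def hatC (n : ℕ) (x : Cube n) : Fin n → ℂ := fun i => (hat n x i : ℂ)
/-- complex Ising weight -/
def isC (W : Matrix (Fin n) (Fin n) ℂ) (x : Cube n) : ℂ :=
  Complex.exp (1 / 2 * (svC x ⬝ᵥ W *ᵥ svC x))
/-- complex survival function -/
def kilC (w V : Cube n → ℂ) (m : ℕ) : Cube n → ℂ :=
  (stC w fun x => Complex.exp (-(V x / ((n * tau n : ℝ) : ℂ))))^[m] 1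
/-- complex uniform mean -/
def umC (f : Cube n → ℂ) : ℂ := ∑ x, (unif n x : ℂ) * f x
/-- complex killing probability -/
def kapC (W : Matrix (Fin n) (Fin n) ℂ) (ε : ℝ) (V : Cube n → ℂ) : ℂ :=
  1 - umC (kilC (isC W) V (Mst n ε))
/-- the weights of the sites -/
def wt (W : Mat n) (ε : ℝ) (V : Cube n → ℝ) (l : Fin n) : ℝ :=
  um (Sw (ising W 0) (fun x => Real.exp (-(V x / (n * tau n)))) l (Mst n ε))
/-- the symmetric elementary matrix -/
def Eij (i j : Fin n) : Matrix (Fin n) (Fin n) ℂ := single i j 1 + single j i 1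

lemma kil_eq (w V : Cube n → ℝ) (k : ℕ) :
    kil w V k = (st w fun x => Real.exp (-(V x / (n * tau n))))^[k] 1 := rfl

lemma ising_pos' (W : Mat n) (x : Cube n) : 0 < ising W 0 x := Real.exp_pos _

lemma isC_add (W : Mat n) (E : Matrix (Fin n) (Fin n) ℂ) :
    isC (W.map (↑) + E) = fun x => (ising W 0 x : ℂ) *
      Complex.exp (1 / 2 * (svC x ⬝ᵥ E *ᵥ svC x)) := by
  funext x
  unfold isC ising
  rw [add_mulVec, dotProduct_add, mul_add, Complex.exp_add, Complex.ofReal_exp]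
  congr 2
  simp [svC, dotProduct, mulVec]

lemma PhC_ofReal (w u : Cube n → ℝ) (x : Cube n) :
    PhC (fun y => w y) (fun y => u y) x = (Ph w u x : ℝ) := by
  unfold PhC Ph siteC siteM
  push_cast
  rfl

lemma it_ofReal (w m : Cube n → ℝ) (k : ℕ) :
    (stC (fun y => w y) fun y => m y)^[k] 1 = fun x => (((st w m)^[k] 1 x : ℝ) : ℂ) := by
  induction k with
  | zero => funext x; simp
  | succ k ih =>
    funext x
    rw [iterate_succ_apply', iterate_succ_apply', ih]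
    unfold stC st
    rw [PhC_ofReal]; push_cast; rfl

/-- `kapC` extends `kap` -/
theorem kapC_ofReal (W : Mat n) (ε : ℝ) (V : Cube n → ℝ) :
    kapC (W.map (↑)) ε (fun x => V x) = (kap W ε V : ℝ) := by
  have h1 : isC (W.map (↑)) = fun x => (ising W 0 x : ℂ) := by
    have := isC_add W 0
    simpa using this
  have h2 : (fun x => Complex.exp (-((V x : ℂ) / ((n * tau n : ℝ) : ℂ)))) =
      fun x => ((Real.exp (-(V x / (n * tau n))) : ℝ) : ℂ) := by
    funext x; push_cast; rfl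
  unfold kapC Cq.kap kilC umC um
  rw [h1, h2, it_ofReal, kil_eq]
  push_cast
  rfl

/-- holomorphy -/
theorem kapC_diff {X : Type*} [NormedAddCommGroup X] [NormedSpace ℂ X] {s : Set X} {z : X}
    {W : X → Matrix (Fin n) (Fin n) ℂ} {V : X → Cube n → ℂ} (ε : ℝ)
    (hW : ∀ a b, DifferentiableWithinAt ℂ (fun z => W z a b) s z)
    (hV : ∀ x, DifferentiableWithinAt ℂ (fun z => V z x) s z)
    (hd : ∀ l x, isC (W z) (update x l true) + isC (W z) (update x l false) ≠ 0) :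
    DifferentiableWithinAt ℂ (fun z => kapC (W z) ε (V z)) s z := by
  have h1 : ∀ x, DifferentiableWithinAt ℂ (fun z => isC (W z) x) s z := fun x => by
    unfold isC
    simp only [dotProduct, mulVec]
    refine DifferentiableWithinAt.cexp (DifferentiableWithinAt.const_mul ?_ _)
    refine DifferentiableWithinAt.fun_sum fun a _ => DifferentiableWithinAt.const_mul ?_ _
    exact DifferentiableWithinAt.fun_sum fun b _ => (hW a b).mul_const _
  have h2 : ∀ k x, DifferentiableWithinAt ℂ (fun z => kilC (isC (W z)) (V z) k x) s z := by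
    intro k
    induction k with
    | zero => intro x; simp only [kilC, iterate_zero, id_eq, Pi.one_apply]; fun_prop
    | succ k ih =>
      intro x
      simp only [kilC, iterate_succ_apply'] at ih ⊢
      unfold stC PhC siteC
      refine DifferentiableWithinAt.mul
        (by simp only [div_eq_mul_inv]; exact ((hV x).mul_const _).neg.cexp)
        (DifferentiableWithinAt.const_mul (DifferentiableWithinAt.fun_sum fun l _ => ?_) _)
      simp only [div_eq_mul_inv]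
      exact (((h1 _).mul (ih _)).add ((h1 _).mul (ih _))).mul
        (DifferentiableWithinAt.inv (h := fun z => isC (W z) (update x l true) +
          isC (W z) (update x l false)) ((h1 _).add (h1 _)) (hd l x))
  unfold kapC umC
  exact (DifferentiableWithinAt.fun_sum fun x _ => (h2 _ x).const_mul _).const_sub _


/-! ### weights -/

lemma unif_nonneg (x : Cube n) : 0 ≤ unif n x := (Soft.isP_unif (n := n)).1 x
lemma unif_sum : ∑ x, unif n x = 1 := (Soft.isP_unif (n := n)).2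

lemma um_mono {f g : Cube n → ℝ} (h : ∀ x, f x ≤ g x) : um f ≤ um g :=
  sum_le_sum fun x _ => mul_le_mul_of_nonneg_left (h x) (unif_nonneg x)

lemma N_one (hn : 1 ≤ n) : 1 ≤ tau n ∧ (1 : ℝ) ≤ n * tau n := by
  have h1 : (1 : ℝ) ≤ n := by exact_mod_cast hn
  have h2 : 1 ≤ tau n := Real.one_le_rpow h1 (by norm_num)
  exact ⟨h2, one_le_mul_of_one_le_of_one_le h1 h2⟩

lemma m_mem (hn : 1 ≤ n) {V : Cube n → ℝ} (hV : ∀ x, 0 ≤ V x) (x : Cube n) :
    0 ≤ Real.exp (-(V x / (n * tau n))) ∧ Real.exp (-(V x / (n * tau n))) ≤ 1 :=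
  ⟨(Real.exp_pos _).le, Real.exp_le_one_iff.2 (neg_nonpos.2 (div_nonneg (hV x)
    (by linarith [(N_one hn).2])))⟩

theorem wt_nonneg (hn : 1 ≤ n) (W : Mat n) (ε : ℝ) {V : Cube n → ℝ} (hV : ∀ x, 0 ≤ V x)
    (l : Fin n) : 0 ≤ wt W ε V l :=
  sum_nonneg fun x _ => mul_nonneg (unif_nonneg x)
    (Sw_nonneg hn (ising_pos' W) (m_mem hn hV) l _ x)

theorem wt_sum (hn : 1 ≤ n) (W : Mat n) (ε : ℝ) {V : Cube n → ℝ} (hV : ∀ x, 0 ≤ V x) :
    ∑ l, wt W ε V l ≤ 1 := by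
  unfold wt um
  rw [sum_comm]
  refine le_trans (sum_le_sum fun x _ => ?_) (unif_sum (n := n)).le
  rw [← mul_sum]
  refine mul_le_of_le_one_right (unif_nonneg x) ?_
  have h1 := sum_Sw hn (ising_pos' W) (m_mem hn hV) (Mst n ε) x
  have h2 := it_mem hn (ising_pos' W) (m_mem hn hV) (Mst n ε) x
  nlinarith [sq_nonneg ((st (ising W 0) fun x => Real.exp (-(V x / (n * tau n))))^[Mst n ε] 1 x)]

lemma umC_sq (f : Cube n → ℂ) : ‖umC f‖ ^ 2 ≤ um fun x => ‖f x‖ ^ 2 := by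
  have h1 : ‖umC f‖ ≤ ∑ x, unif n x * ‖f x‖ := by
    refine (norm_sum_le _ _).trans (le_of_eq (sum_congr rfl fun x _ => ?_))
    rw [norm_mul, Complex.norm_real, Real.norm_of_nonneg (unif_nonneg x)]
  have h2 := sum_sq_le_sum_mul_sum_of_sq_le_mul univ (r := fun x => unif n x * ‖f x‖)
    (f := unif n) (g := fun x => unif n x * ‖f x‖ ^ 2) (fun x _ => unif_nonneg x)
    (fun x _ => mul_nonneg (unif_nonneg x) (sq_nonneg _)) (fun x _ => le_of_eq (by ring))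
  rw [unif_sum, one_mul] at h2
  exact (pow_le_pow_left₀ (norm_nonneg _) h1 2).trans h2

/-! ### local fields -/

lemma quad_diffC (E : Matrix (Fin n) (Fin n) ℂ) (l : Fin n) (x : Cube n) :
    1 / 2 * (svC (update x l true) ⬝ᵥ E *ᵥ svC (update x l true)) -
      1 / 2 * (svC (update x l false) ⬝ᵥ E *ᵥ svC (update x l false)) =
      ∑ b, (E l b + E b l) * update (svC x) l 0 b := by
  have h1 : svC (update x l true) = update (svC x) l 0 + Pi.single l 1 := by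
    funext a
    by_cases h : a = l
    · subst h; simp [svC, sv, spin]
    · simp [svC, sv, h]
  have h2 : svC (update x l false) = update (svC x) l 0 - Pi.single l 1 := by
    funext a
    by_cases h : a = l
    · subst h; simp [svC, sv, spin]
    · simp [svC, sv, h]
  rw [h1, h2]
  set s := update (svC x) l 0
  simp only [mulVec_add, mulVec_sub, add_dotProduct, sub_dotProduct, dotProduct_add,
    dotProduct_sub]
  have e1 : Pi.single l (1 : ℂ) ⬝ᵥ E *ᵥ s = ∑ b, E l b * s b := by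
    rw [single_dotProduct, one_mul]; rfl
  have e2 : s ⬝ᵥ E *ᵥ Pi.single l (1 : ℂ) = ∑ b, E b l * s b := by
    rw [mulVec_single_one]; exact sum_congr rfl fun b _ => by simp [mul_comm]
  rw [e1, e2]
  simp only [add_mul, sum_add_distrib]
  ring

lemma norm_s0 (l b : Fin n) (x : Cube n) : ‖update (svC x) l 0 b‖ ≤ 1 := by
  by_cases h : b = l
  · subst h; simp
  · rw [update_of_ne h]
    unfold svC sv spin
    split_ifs <;> simp

/-- the part of the local field due to `Δ` -/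
def bb (Δ : Matrix (Fin n) (Fin n) ℂ) (l : Fin n) : ℝ := ∑ b, (‖Δ l b‖ + ‖Δ b l‖)

lemma bb_sum {Δ : Matrix (Fin n) (Fin n) ℂ} {F : ℝ} (hF : ∑ a, ∑ b, ‖Δ a b‖ ^ 2 ≤ F) :
    ∑ l, bb Δ l ^ 2 ≤ 4 * (n * F) := by
  have h1 : ∀ l, bb Δ l ^ 2 ≤ n * ∑ b, (2 * ‖Δ l b‖ ^ 2 + 2 * ‖Δ b l‖ ^ 2) := fun l => by
    have := sq_sum_le_card_mul_sum_sq (s := univ) (f := fun b => ‖Δ l b‖ + ‖Δ b l‖)
    simp only [card_univ, Fintype.card_fin] at this
    refine this.trans (mul_le_mul_of_nonneg_left (sum_le_sum fun b _ => ?_) (by positivity))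
    nlinarith [sq_nonneg (‖Δ l b‖ - ‖Δ b l‖)]
  refine (sum_le_sum fun l _ => h1 l).trans ?_
  rw [← mul_sum]
  simp only [sum_add_distrib, ← mul_sum]
  rw [sum_comm (f := fun l b => ‖Δ b l‖ ^ 2)]
  have : (0 : ℝ) ≤ n := by positivity
  nlinarith

lemma aa_le (i j : Fin n) (u : ℂ) (Δ : Matrix (Fin n) (Fin n) ℂ) (l : Fin n) (x : Cube n) :
    aa (fun x => 1 / 2 * (svC x ⬝ᵥ (u • Eij i j + Δ) *ᵥ svC x)) l x ≤
      (if l ∈ ({i, j} : Finset (Fin n)) then 2 * ‖u‖ else 0) + bb Δ l := by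
  unfold aa
  rw [quad_diffC]
  set s := update (svC x) l 0 with hs
  have hs1 : ∀ b, ‖s b‖ ≤ 1 := fun b => norm_s0 l b x
  have hs0 : s l = 0 := by simp [hs]
  have h3 : ∀ (a c : Fin n), ∑ b, single a c (1 : ℂ) l b * s b = if a = l then s c else 0 :=
    fun a c => by
      by_cases h : a = l <;> simp [single, h]
  have h4 : ∀ (a c : Fin n), ∑ b, single a c (1 : ℂ) b l * s b = if c = l then s a else 0 :=
    fun a c => by
      by_cases h : c = l <;> simp [single, h]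
  have h1 : ∑ b, ((u • Eij i j + Δ) l b + (u • Eij i j + Δ) b l) * s b =
      2 * u * ((if i = l then s j else 0) + if j = l then s i else 0) +
        ∑ b, (Δ l b + Δ b l) * s b := by
    have : ∀ b, ((u • Eij i j + Δ) l b + (u • Eij i j + Δ) b l) * s b =
        u * (single i j (1 : ℂ) l b * s b) + u * (single j i (1 : ℂ) l b * s b) +
        u * (single i j (1 : ℂ) b l * s b) + u * (single j i (1 : ℂ) b l * s b) +
        (Δ l b + Δ b l) * s b := fun b => by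
      simp only [Eij, Matrix.add_apply, Matrix.smul_apply, smul_eq_mul]; ring
    simp only [this, sum_add_distrib, ← mul_sum, h3, h4]
    ring
  rw [h1]
  refine (norm_add_le _ _).trans (add_le_add ?_ ?_)
  · have h5 : ‖(if i = l then s j else 0) + if j = l then s i else 0‖ ≤
        if l ∈ ({i, j} : Finset (Fin n)) then 1 else 0 := by
      by_cases hi : i = l <;> by_cases hj : j = l
      · simp [hi, hj, hs0]
      · simpa [hi, hj] using hs1 j
      · simpa [hi, hj] using hs1 i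
      · simp [hi, hj, eq_comm]
    rw [norm_mul, norm_mul, Complex.norm_two]
    refine (mul_le_mul_of_nonneg_left h5 (by positivity)).trans (le_of_eq ?_)
    split_ifs <;> simp
  · refine (norm_sum_le _ _).trans (sum_le_sum fun b _ => ?_)
    rw [norm_mul]
    exact (mul_le_of_le_one_right (norm_nonneg _) (hs1 b)).trans (norm_add_le _ _)

lemma aa_small (i j : Fin n) {u : ℂ} {Δ : Matrix (Fin n) (Fin n) ℂ} {F : ℝ}
    (hF : ∑ a, ∑ b, ‖Δ a b‖ ^ 2 ≤ F) (h : ‖u‖ ^ 2 + n * F ≤ 1 / 64) (l : Fin n) (x : Cube n) :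
    aa (fun x => 1 / 2 * (svC x ⬝ᵥ (u • Eij i j + Δ) *ᵥ svC x)) l x ≤ 9 / 25 := by
  have e1 : bb Δ l ^ 2 ≤ ∑ l, bb Δ l ^ 2 :=
    single_le_sum (f := fun l => bb Δ l ^ 2) (fun l _ => sq_nonneg _) (mem_univ l)
  have e2 := bb_sum hF
  have h2 : 2 * ‖u‖ + bb Δ l ≤ 9 / 25 := by
    refine abs_le_of_sq_le_sq' ?_ (by norm_num) |>.2
    nlinarith [sq_nonneg (2 * ‖u‖ - bb Δ l)]
  refine (aa_le i j u Δ l x).trans ?_
  have := norm_nonneg u
  split_ifs <;> linarith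

/-- the denominators do not vanish on the disc -/
theorem den_ne (W : Mat n) (i j : Fin n) {u : ℂ} {Δ : Matrix (Fin n) (Fin n) ℂ} {F : ℝ}
    (hF : ∑ a, ∑ b, ‖Δ a b‖ ^ 2 ≤ F) (h : ‖u‖ ^ 2 + n * F ≤ 1 / 64) (l : Fin n) (x : Cube n) :
    isC (W.map (↑) + (u • Eij i j + Δ)) (update x l true) +
      isC (W.map (↑) + (u • Eij i j + Δ)) (update x l false) ≠ 0 := by
  rw [isC_add]
  exact (site_d (ising_pos' W _) (ising_pos' W _) (aa_small i j hF h l x)).1

/-! ### the killing rate -/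

lemma kill_bd {t y d : ℝ} {δ : ℂ} (ht : 0 ≤ t) (hδ : ‖δ‖ ^ 2 ≤ d) :
    ‖Complex.exp (-(t * (y + δ) ^ 2))‖ ^ 2 ≤ Real.exp (2 * (t * d)) * Real.exp (-(t * y ^ 2)) ∧
    ‖Complex.exp (-(t * (y + δ) ^ 2)) - Real.exp (-(t * y ^ 2))‖ ^ 2 ≤
      8 * (t * d) * Real.exp (6 * (t * d)) * (1 - Real.exp (-(t * y ^ 2))) +
        2 * (t * d) ^ 2 * Real.exp (6 * (t * d)) := by
  have hd0 : 0 ≤ d := (sq_nonneg _).trans hδ
  have hn2 : δ.re ^ 2 + δ.im ^ 2 ≤ d := by
    rw [Complex.sq_norm, Complex.normSq_apply] at hδ; nlinarith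
  constructor
  · rw [Complex.norm_exp, ← Real.exp_add, ← Real.exp_nat_mul]
    refine Real.exp_le_exp.2 ?_
    have e1 : (-((t : ℂ) * (y + δ) ^ 2)).re = -(t * ((y + δ.re) ^ 2 - δ.im ^ 2)) := by
      simp [pow_two]
    rw [e1]
    have e2 : y ^ 2 - 2 * d ≤ 2 * ((y + δ.re) ^ 2 - δ.im ^ 2) := by
      nlinarith [sq_nonneg (y + 2 * δ.re)]
    have e3 := mul_le_mul_of_nonneg_left e2 ht
    push_cast
    linarith
  · set z : ℂ := -(t * (2 * y * δ + δ ^ 2)) with hz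
    set m := Real.exp (-(t * y ^ 2)) with hm
    have hm0 : 0 < m := Real.exp_pos _
    have e1 : Complex.exp (-(t * (y + δ) ^ 2)) - m = m * (Complex.exp z - 1) := by
      rw [hm, Complex.ofReal_exp, mul_sub, ← Complex.exp_add, mul_one]
      congr 2
      rw [hz]; push_cast; ring
    have e2 : ‖Complex.exp z - 1‖ ≤ ‖z‖ * Real.exp ‖z‖ := by
      simpa using Complex.norm_exp_sub_sum_le_norm_mul_exp z 1
    have e3 : ‖z‖ ≤ t * (2 * |y| * ‖δ‖ + ‖δ‖ ^ 2) := by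
      rw [hz, norm_neg, norm_mul, Complex.norm_real, Real.norm_of_nonneg ht]
      refine mul_le_mul_of_nonneg_left ((norm_add_le _ _).trans (le_of_eq ?_)) ht
      simp
    have hy : |y| ^ 2 = y ^ 2 := sq_abs y
    have e4 : ‖z‖ ≤ t * y ^ 2 / 2 + 3 * (t * d) := by
      refine e3.trans ?_
      have : 2 * |y| * ‖δ‖ + ‖δ‖ ^ 2 ≤ y ^ 2 / 2 + 3 * d := by
        nlinarith [sq_nonneg (|y| - 2 * ‖δ‖)]
      nlinarith
    have e5 : ‖z‖ ^ 2 ≤ 8 * (t * d) * (t * y ^ 2) + 2 * (t * d) ^ 2 := by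
      refine (pow_le_pow_left₀ (norm_nonneg _) e3 2).trans ?_
      have f1 : (2 * |y| * ‖δ‖ + ‖δ‖ ^ 2) ^ 2 ≤ 8 * (d * y ^ 2) + 2 * d ^ 2 := by
        have g1 : ‖δ‖ ^ 2 * y ^ 2 ≤ d * y ^ 2 := mul_le_mul_of_nonneg_right hδ (sq_nonneg _)
        have g2 : (‖δ‖ ^ 2) ^ 2 ≤ d ^ 2 := pow_le_pow_left₀ (sq_nonneg _) hδ 2
        have g3 : (2 * |y| * ‖δ‖) ^ 2 = 4 * (‖δ‖ ^ 2 * y ^ 2) := by rw [← hy]; ring
        nlinarith [sq_nonneg (2 * |y| * ‖δ‖ - ‖δ‖ ^ 2)]
      rw [mul_pow]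
      refine (mul_le_mul_of_nonneg_left f1 (sq_nonneg _)).trans (le_of_eq (by ring))
    have e6 : m * Real.exp ‖z‖ ^ 2 ≤ Real.exp (6 * (t * d)) := by
      rw [hm, ← Real.exp_nat_mul, ← Real.exp_add]
      refine Real.exp_le_exp.2 ?_
      push_cast; linarith
    have e7 : t * y ^ 2 * m ≤ 1 - m := by
      have f1 := Real.add_one_le_exp (t * y ^ 2)
      have f2 : Real.exp (t * y ^ 2) * m = 1 := by rw [hm, ← Real.exp_add]; simp
      nlinarith
    have e8 : m ≤ 1 := Real.exp_le_one_iff.2 (neg_nonpos.2 (by positivity))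
    have hE := Real.exp_pos (6 * (t * d))
    have htd : 0 ≤ t * d := by positivity
    rw [e1, norm_mul, Complex.norm_real, Real.norm_of_nonneg hm0.le]
    calc (m * ‖Complex.exp z - 1‖) ^ 2 ≤ (m * (‖z‖ * Real.exp ‖z‖)) ^ 2 := by gcongr
      _ = (‖z‖ ^ 2 * m) * (m * Real.exp ‖z‖ ^ 2) := by ring
      _ ≤ ((8 * (t * d) * (t * y ^ 2) + 2 * (t * d) ^ 2) * m) * Real.exp (6 * (t * d)) := by
          gcongr
      _ = (8 * (t * d) * (t * y ^ 2 * m) + 2 * (t * d) ^ 2 * m) * Real.exp (6 * (t * d)) := by ring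
      _ ≤ (8 * (t * d) * (1 - m) + 2 * (t * d) ^ 2 * 1) * Real.exp (6 * (t * d)) := by gcongr
      _ = _ := by ring

set_option maxHeartbeats 1000000 in
/-- **disc lemma**, abstract killing rate `s (y + δ)²` -/
theorem disc0 (hn : 1 ≤ n) {ε s F d : ℝ} (hε : ε ≤ 1) (hs : 0 ≤ s) (W : Mat n) (i j : Fin n)
    {u : ℂ} {Δ : Matrix (Fin n) (Fin n) ℂ} (hF : ∑ a, ∑ b, ‖Δ a b‖ ^ 2 ≤ F)
    (h1 : tau n * (‖u‖ ^ 2 + n * F) ≤ 1 / 64) (y : Cube n → ℝ) {δ : Cube n → ℂ}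
    (hδ : ∀ x, ‖δ x‖ ^ 2 ≤ d) (h2 : s * d ≤ 1) :
    ‖kapC (W.map (↑) + (u • Eij i j + Δ)) ε (fun x => s * (y x + δ x) ^ 2) -
        (kap W ε (fun x => s * y x ^ 2) : ℝ)‖ ^ 2 ≤
      1536 * Real.exp 13 * (tau n * (‖u‖ ^ 2 * (wt W ε (fun x => s * y x ^ 2) i +
        wt W ε (fun x => s * y x ^ 2) j) + n * F) + s * d) := by
  obtain ⟨hτ, hN⟩ := N_one hn
  set N : ℝ := n * tau n with hNd
  have hn' : (0 : ℝ) < n := by exact_mod_cast hn
  have hN0 : 0 < N := by linarith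
  have hF0 : 0 ≤ F := (sum_nonneg fun a _ => sum_nonneg fun b _ => sq_nonneg _).trans hF
  have hd0 : 0 ≤ d := (sq_nonneg _).trans (hδ fun _ => true)
  have hnF : 0 ≤ n * F := by positivity
  have h1' : ‖u‖ ^ 2 + n * F ≤ 1 / 64 :=
    (le_mul_of_one_le_left (by positivity) hτ).trans h1
  have hV : ∀ x, 0 ≤ s * y x ^ 2 := fun x => by positivity
  set k := Mst n ε with hk
  have hkN : (k : ℝ) ≤ 2 * N := by
    rcases le_or_gt 0 (2 * ε * N) with h | h
    · exact (Nat.floor_le h).trans (by nlinarith)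
    · rw [hk, Mst, Nat.floor_of_nonpos h.le]; simp; linarith
  set θ := s / N * d with hθ
  have hθ0 : 0 ≤ θ := by positivity
  have hθN : θ * N = s * d := by rw [hθ]; field_simp
  have hθ1 : θ ≤ 1 := by nlinarith
  set m : Cube n → ℝ := fun x => Real.exp (-(s * y x ^ 2 / N)) with hm
  have hmm := m_mem hn hV
  have hkb := fun x => kill_bd (t := s / N) (y := y x) (by positivity) (hδ x)
  have em : ∀ x, -(s / N * y x ^ 2) = -(s * y x ^ 2 / N) := fun x => by ring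
  have em' : ∀ x, -(((s / N : ℝ) : ℂ) * (y x + δ x) ^ 2) =
      -((s : ℂ) * (y x + δ x) ^ 2 / ((N : ℝ) : ℂ)) := fun x => by push_cast; ring
  simp only [em, em'] at hkb
  have hκ : 1 ≤ Real.exp (2 * θ) := Real.one_le_exp (by positivity)
  have hc := core hn (ising_pos' W) hmm (S := {i, j}) (α := 2 * ‖u‖) (ρ := 4 * (n * F))
    (M := 2 * N) (b := fun l _ => bb Δ l) (by positivity) hκ
    (β₁ := 8 * θ * Real.exp (6 * θ)) (β₂ := 2 * θ ^ 2 * Real.exp (6 * θ)) (by positivity)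
    (by positivity) (by positivity) (by positivity) (aa_small i j hF h1') (aa_le i j u Δ)
    (fun _ => bb_sum hF) (fun x => (hkb x).1) (fun x => (hkb x).2) k
  have hS : (#({i, j} : Finset (Fin n)) : ℝ) ≤ 2 := by exact_mod_cast card_le_two
  have hS0 : (0 : ℝ) ≤ #({i, j} : Finset (Fin n)) := by positivity
  set A := (2 * ‖u‖) ^ 2 * (#({i, j} : Finset (Fin n)) : ℝ) with hA
  have hA0 : 0 ≤ A := by positivity
  have hA1 : A ≤ 8 * ‖u‖ ^ 2 := by rw [hA]; nlinarith [sq_nonneg ‖u‖]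
  have hlam : ((1 + (2 * N)⁻¹) * Real.exp (2 * θ) * (1 + 8 * (A + 4 * (n * F)) / n)) ^ k ≤
      Real.exp 7 := by
    have e1 : (1 + (2 * N)⁻¹) * Real.exp (2 * θ) * (1 + 8 * (A + 4 * (n * F)) / n) ≤
        Real.exp ((2 * N)⁻¹ + 2 * θ + 8 * (A + 4 * (n * F)) / n) := by
      rw [Real.exp_add, Real.exp_add]
      gcongr
      · linarith [Real.add_one_le_exp (2 * N)⁻¹]
      · linarith [Real.add_one_le_exp (8 * (A + 4 * (n * F)) / n)]
    refine (pow_le_pow_left₀ (by positivity) e1 k).trans ?_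
    rw [← Real.exp_nat_mul]
    refine Real.exp_le_exp.2 ((mul_le_mul_of_nonneg_right hkN (by positivity)).trans ?_)
    have e2 : 2 * N * ((2 * N)⁻¹ + 2 * θ + 8 * (A + 4 * (n * F)) / n) =
        1 + 4 * (θ * N) + 16 * (tau n * (A + 4 * (n * F))) := by
      rw [hNd]; field_simp; ring
    have e3 : tau n * (A + 4 * (n * F)) ≤ tau n * (8 * (‖u‖ ^ 2 + n * F)) :=
      mul_le_mul_of_nonneg_left (by linarith) (by linarith)
    rw [e2, hθN]; linarith
  have hE2 : Real.exp (2 * θ) ≤ Real.exp 6 := Real.exp_le_exp.2 (by linarith)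
  have hE6 : Real.exp (6 * θ) ≤ Real.exp 6 := Real.exp_le_exp.2 (by linarith)
  have hE := Real.exp_pos 6
  have hpt : ∀ x, ‖kilC (isC (W.map (↑) + (u • Eij i j + Δ))) (fun x => s * (y x + δ x) ^ 2) k x -
      (kil (ising W 0) (fun x => s * y x ^ 2) k x : ℝ)‖ ^ 2 ≤
      1536 * Real.exp 13 * (tau n * (‖u‖ ^ 2 * (Sw (ising W 0) m i k x +
        Sw (ising W 0) m j k x) + n * F) + s * d) := fun x => by
    rw [isC_add]
    refine (hc x).trans ?_
    have hu := it_mem hn (ising_pos' W) hmm k x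
    set U := (st (ising W 0) fun x => Real.exp (-(s * y x ^ 2 / N)))^[k] 1 x
    have hi := Sw_nonneg hn (ising_pos' W) hmm i k x
    have hj := Sw_nonneg hn (ising_pos' W) hmm j k x
    have e1 : ∑ l ∈ ({i, j} : Finset (Fin n)), Sw (ising W 0) m l k x ≤
        Sw (ising W 0) m i k x + Sw (ising W 0) m j k x := by
      by_cases hij : i = j
      · subst hij; simp only [insert_eq_of_mem, mem_singleton, sum_singleton]; linarith
      · rw [sum_pair hij]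
    have e0 : 0 ≤ ∑ l ∈ ({i, j} : Finset (Fin n)), Sw (ising W 0) m l k x :=
      sum_nonneg fun l _ => Sw_nonneg hn (ising_pos' W) hmm l k x
    set T := Sw (ising W 0) m i k x + Sw (ising W 0) m j k x
    have hT : 0 ≤ T := add_nonneg hi hj
    have e2 : A * ∑ l ∈ ({i, j} : Finset (Fin n)), Sw (ising W 0) m l k x +
        4 * (n * F) * (U - U ^ 2) ≤ 32 * (‖u‖ ^ 2 * T + n * F) := by
      have f1 := mul_le_mul hA1 e1 e0 (by positivity)
      have f2 : 4 * (n * F) * (U - U ^ 2) ≤ 4 * (n * F) * 1 :=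
        mul_le_mul_of_nonneg_left (by nlinarith [sq_nonneg U]) (by positivity)
      have f3 : 0 ≤ ‖u‖ ^ 2 * T := by positivity
      linarith
    have e3 : 8 * θ * Real.exp (6 * θ) * (1 - U) + 2 * θ ^ 2 * Real.exp (6 * θ) * k ≤
        12 * θ * Real.exp 6 := by
      have f1 : 8 * θ * Real.exp (6 * θ) * (1 - U) ≤ 8 * θ * Real.exp 6 * 1 := by
        gcongr
        · linarith [hu.2]
        · linarith [hu.1]
      have f2 : 2 * θ ^ 2 * Real.exp (6 * θ) * k ≤ 2 * θ ^ 2 * Real.exp 6 * (2 * N) := by gcongr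
      have f3 : 2 * θ ^ 2 * Real.exp 6 * (2 * N) = 4 * θ * Real.exp 6 * (θ * N) := by ring
      have f4 : 4 * θ * Real.exp 6 * (θ * N) ≤ 4 * θ * Real.exp 6 * 1 :=
        mul_le_mul_of_nonneg_left (by linarith) (by positivity)
      linarith
    have e4 : 16 * Real.exp (2 * θ) / n * (A * ∑ l ∈ ({i, j} : Finset (Fin n)),
        Sw (ising W 0) m l k x + 4 * (n * F) * (U - U ^ 2)) ≤
        16 * Real.exp 6 / n * (32 * (‖u‖ ^ 2 * T + n * F)) := by
      refine (mul_le_mul_of_nonneg_left e2 (by positivity)).trans ?_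
      gcongr
    have e5 : (1 + 2 * N) * (16 * Real.exp (2 * θ) / n * (A * ∑ l ∈ ({i, j} : Finset (Fin n)),
        Sw (ising W 0) m l k x + 4 * (n * F) * (U - U ^ 2)) +
        2 * (8 * θ * Real.exp (6 * θ) * (1 - U) + 2 * θ ^ 2 * Real.exp (6 * θ) * k)) ≤
        (3 * N) * (16 * Real.exp 6 / n * (32 * (‖u‖ ^ 2 * T + n * F)) +
          2 * (12 * θ * Real.exp 6)) := by
      refine (mul_le_mul_of_nonneg_left (add_le_add e4 (mul_le_mul_of_nonneg_left e3 zero_le_two))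
        (by positivity)).trans (mul_le_mul_of_nonneg_right (by linarith) (by positivity))
    have e6 : (3 * N) * (16 * Real.exp 6 / n * (32 * (‖u‖ ^ 2 * T + n * F)) +
        2 * (12 * θ * Real.exp 6)) =
        Real.exp 6 * (1536 * (tau n * (‖u‖ ^ 2 * T + n * F)) + 72 * (θ * N)) := by
      rw [hNd]; field_simp; ring
    have e7 : Real.exp 13 = Real.exp 7 * Real.exp 6 := by rw [← Real.exp_add]; norm_num
    have hsd : 0 ≤ s * d := by positivity
    refine (mul_le_mul hlam (e5.trans e6.le) ?_ (Real.exp_pos 7).le).trans ?_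
    · have : 0 ≤ U - U ^ 2 := by nlinarith [hu.1, hu.2]
      have : 0 ≤ 1 - U := by linarith [hu.2]
      positivity
    · rw [hθN, e7]
      have : 0 ≤ Real.exp 7 * Real.exp 6 * (s * d) := by positivity
      nlinarith
  have hdiff : kapC (W.map (↑) + (u • Eij i j + Δ)) ε (fun x => s * (y x + δ x) ^ 2) -
      (kap W ε (fun x => s * y x ^ 2) : ℝ) =
      -umC (fun x => kilC (isC (W.map (↑) + (u • Eij i j + Δ))) (fun x => s * (y x + δ x) ^ 2) k x -
        (kil (ising W 0) (fun x => s * y x ^ 2) k x : ℝ)) := by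
    unfold kapC Cq.kap umC um
    push_cast
    simp only [mul_sub, sum_sub_distrib]
    ring
  rw [hdiff, norm_neg]
  refine (umC_sq _).trans ((um_mono hpt).trans (le_of_eq ?_))
  unfold wt um
  rw [← hk, ← sum_add_distrib]
  simp only [← mul_add]
  have : ∀ x, unif n x * (1536 * Real.exp 13 * (tau n * (‖u‖ ^ 2 * (Sw (ising W 0) m i k x +
      Sw (ising W 0) m j k x) + n * F) + s * d)) =
      1536 * Real.exp 13 * (tau n * ‖u‖ ^ 2) * (unif n x * (Sw (ising W 0) m i k x +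
      Sw (ising W 0) m j k x)) + 1536 * Real.exp 13 * (tau n * (n * F) + s * d) * unif n x :=
    fun x => by ring
  simp only [this, sum_add_distrib, ← mul_sum, unif_sum]
  ring

lemma hat_sq (hn : 1 ≤ n) (x : Cube n) : ∑ a, hat n x a ^ 2 = sx n ^ 2 := by
  have hn' : (0 : ℝ) < n := by exact_mod_cast hn
  have h1 : ∀ a, hat n x a ^ 2 = ((sx n ^ 2)⁻¹) ^ 2 := fun a => by
    simp only [hat, Pi.smul_apply, smul_eq_mul, mul_pow, sv, spin]
    split_ifs <;> simp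
  have h2 : sx n ^ 6 = n := by
    unfold sx
    rw [← Real.rpow_natCast, ← Real.rpow_mul hn'.le]; norm_num
  have h3 : 0 < sx n := Real.rpow_pos_of_pos hn' _
  simp only [h1, sum_const, card_univ, Fintype.card_fin, nsmul_eq_mul]
  rw [← h2]; field_simp

/-- **disc lemma** -/
theorem disc (hn : 1 ≤ n) {ε s F G : ℝ} (hε : ε ≤ 1) (hs : 0 ≤ s) (W : Mat n) (c : Fin n → ℝ)
    (i j : Fin n) {u : ℂ} {Δ : Matrix (Fin n) (Fin n) ℂ} {γ : Fin n → ℂ}
    (hF : ∑ a, ∑ b, ‖Δ a b‖ ^ 2 ≤ F) (hG : ∑ a, ‖γ a‖ ^ 2 ≤ G)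
    (h1 : tau n * (‖u‖ ^ 2 + n * F) ≤ 1 / 64) (h2 : s * (G * sx n ^ 2) ≤ 1) :
    ‖kapC (W.map (↑) + (u • Eij i j + Δ)) ε
          (fun x => s * (((fun a => (c a : ℂ)) + γ) ⬝ᵥ hatC n x) ^ 2) -
        (kap W ε (fun x => s * sl c x) : ℝ)‖ ^ 2 ≤
      1536 * Real.exp 13 * (tau n * (‖u‖ ^ 2 * (wt W ε (fun x => s * sl c x) i +
        wt W ε (fun x => s * sl c x) j) + n * F) + s * (G * sx n ^ 2)) := by
  have e1 : ∀ x, ((fun a => (c a : ℂ)) + γ) ⬝ᵥ hatC n x =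
      ((c ⬝ᵥ hat n x : ℝ) : ℂ) + γ ⬝ᵥ hatC n x := fun x => by
    rw [add_dotProduct]; simp [dotProduct, hatC]
  simp only [e1]
  refine disc0 hn hε hs W i j hF h1 (fun x => c ⬝ᵥ hat n x) (δ := fun x => γ ⬝ᵥ hatC n x)
    (fun x => ?_) h2
  have e2 : ‖γ ⬝ᵥ hatC n x‖ ≤ ∑ a, ‖γ a‖ * |hat n x a| := by
    refine (norm_sum_le _ _).trans (le_of_eq (sum_congr rfl fun a _ => ?_))
    rw [norm_mul, hatC, Complex.norm_real, Real.norm_eq_abs]
  refine (pow_le_pow_left₀ (norm_nonneg _) e2 2).trans ((sum_mul_sq_le_sq_mul_sq _ _ _).trans ?_)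
  simp only [sq_abs]
  rw [hat_sq hn]
  exact mul_le_mul_of_nonneg_right hG (sq_nonneg _)

end Crest.Agent.T157.SwD
end
end

-- ▼ part T157/SwF_82
section

/-!
# Row 157, coin SWAP: `Sw14.DStmt` (helper82)
-/

set_option autoImplicit false

noncomputable section

namespace Crest.Agent.T157.Sw14

open Matrix Finset Function
open Crest.Agent.T157.E Crest.Agent.T157.St Crest.Agent.T157.Cq Crest.Agent.T157.SwD
open Crest.Agent.T157.Ed hiding kap

theorem dStmt : DStmt := by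
  refine ⟨1536 * Real.exp 13, by positivity, fun n ε s W e hn _ hε hs _ => ?_⟩
  have hV : ∀ x, 0 ≤ s * sl e x := fun x => mul_nonneg hs (sq_nonneg _)
  refine ⟨SwD.wt W ε fun x => s * sl e x, wt_nonneg hn W ε hV, wt_sum hn W ε hV,
    fun i j U Δ γ ρ f g hΔ hγ hU h1 h2 => ?_⟩
  have hτ := (N_one hn).1
  have hsq : ∀ z ∈ U, ‖z‖ ^ 2 ≤ ρ ^ 2 := fun z hz => pow_le_pow_left₀ (norm_nonneg _) (hU z hz).1 2
  have h1' : ∀ z ∈ U, tau n * (‖z‖ ^ 2 + n * f ^ 2) ≤ 1 / 64 := fun z hz =>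
    (mul_le_mul_of_nonneg_left (add_le_add (hsq z hz) le_rfl) (by linarith)).trans h1
  obtain ⟨WW, hWW⟩ : ∃ WW : ℂ → Matrix (Fin n) (Fin n) ℂ,
    ∀ z, WW z = W.map (↑) + (z • Eij i j + Δ z) := ⟨_, fun _ => rfl⟩
  obtain ⟨VV, hVV⟩ : ∃ VV : ℂ → Cube n → ℂ,
    ∀ z, VV z = fun x => s * (((fun a => (e a : ℂ)) + γ z) ⬝ᵥ hatC n x) ^ 2 := ⟨_, fun _ => rfl⟩
  refine ⟨fun z => kapC (WW z) ε (VV z), fun z hz => ?_, fun t D e' _ hD he => ?_, fun z hz => ?_⟩
  · refine kapC_diff ε (fun a b => ?_) (fun x => ?_) fun l x => ?_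
    · simp only [hWW, Matrix.add_apply, Matrix.smul_apply, smul_eq_mul]
      exact ((differentiableWithinAt_id.mul_const _).add (hΔ a b z hz)).const_add _
    · simp only [hVV, dotProduct, Pi.add_apply]
      refine DifferentiableWithinAt.const_mul (DifferentiableWithinAt.pow ?_ 2) _
      exact DifferentiableWithinAt.fun_sum fun a _ => ((hγ a z hz).const_add _).mul_const _
    · rw [hWW]
      exact den_ne W i j (hU z hz).2.2.1
        ((le_mul_of_one_le_left (by positivity) hτ).trans (h1' z hz)) l x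
  · have e1 : W.map (↑) + ((t : ℂ) • Eij i j + Δ t) =
        (W + t • Ll.Dl i j + D).map ((↑) : ℝ → ℂ) := by
      ext a b
      simp only [Matrix.add_apply, Matrix.smul_apply, smul_eq_mul, map_apply, hD, Eij, Ll.Dl,
        single, of_apply]
      push_cast
      split_ifs <;> simp [add_assoc]
    have e2 : (fun x => (s : ℂ) * (((fun a => (e a : ℂ)) + γ t) ⬝ᵥ hatC n x) ^ 2) =
        fun x => ((s * sl (e + e') x : ℝ) : ℂ) := by
      funext x
      simp [sl, dotProduct, hatC, he]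
    show kapC (WW t) ε (VV t) = _
    rw [hWW, hVV, e1, e2, kapC_ofReal]
  · show ‖kapC (WW z) ε (VV z) - _‖ ^ 2 ≤ _
    rw [hWW, hVV]
    refine (disc hn hε hs W e i j (hU z hz).2.2.1 (hU z hz).2.2.2 (h1' z hz)
      (by rw [← mul_assoc]; exact h2)).trans ?_
    have := wt_nonneg hn W ε hV i
    have := wt_nonneg hn W ε hV j
    have := hsq z hz
    rw [← mul_assoc s]
    gcongr

end Crest.Agent.T157.Sw14
end
end

-- ▼ part T157/SwRes_79
section

/-!
# Row 157, part C, SWAP (Y): rank two perturbation of the resolvent on a complex disc (helper79)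
-/

set_option autoImplicit false

noncomputable section

namespace Crest.Agent.T157.Sw14.Res79

open Matrix Finset Metric
open Crest.Agent.T157.Eig Crest.Agent.T157.Ed Crest.Agent.T157.Cq
open Crest.Agent.T157.Ll (Dl Res cm cv)

variable {n : ℕ}

lemma nsq_add (a b : ℂ) : ‖a + b‖ ^ 2 ≤ 2 * ‖a‖ ^ 2 + 2 * ‖b‖ ^ 2 := by
  have := pow_le_pow_left₀ (norm_nonneg _) (norm_add_le a b) 2
  nlinarith [sq_nonneg (‖a‖ - ‖b‖)]

/-- the solution of the perturbed resolvent equation -/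
structure Core (G : Fin n → Fin n → ℂ) (u : Fin n → ℂ) (i j : Fin n) (Λ S : ℝ)
    (U : ℂ → Fin n → ℂ) : Prop where
  diff : ∀ k, DifferentiableOn ℂ (fun z => U z k) (ball 0 (4 * Λ)⁻¹)
  eqn : ∀ z ∈ ball (0 : ℂ) (4 * Λ)⁻¹, ∀ k, U z k = u k - z * (G k i * U z j + G k j * U z i)
  ent : ∀ z ∈ ball (0 : ℂ) (4 * Λ)⁻¹, ‖U z i‖ ^ 2 ≤ 4 * Λ ^ 2 * S ^ 2 ∧ ‖U z j‖ ^ 2 ≤ 4 * Λ ^ 2 * S ^ 2
  nrm : ∀ z ∈ ball (0 : ℂ) (4 * Λ)⁻¹, ∑ k, ‖U z k‖ ^ 2 ≤ 2 * (n * (Λ ^ 2 * S ^ 2)) + 2 * Λ ^ 2 * S ^ 4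
  lip : ∀ z ∈ ball (0 : ℂ) (4 * Λ)⁻¹, ∑ k, ‖U z k - U 0 k‖ ^ 2 ≤ 16 * Λ ^ 4 * S ^ 4 * ‖z‖ ^ 2

lemma exists_core {G : Fin n → Fin n → ℂ} {u : Fin n → ℂ} (i j : Fin n) {Λ S : ℝ} (hΛ : 0 < Λ)
    (hS : 0 ≤ S) (hG : ∀ a b, ‖G a b‖ ≤ Λ) (hc : ∀ a, ∑ k, ‖G k a‖ ^ 2 ≤ Λ ^ 2 * S ^ 2)
    (hu : ∀ a, ‖u a‖ ^ 2 ≤ Λ ^ 2 * S ^ 2) : ∃ U, Core G u i j Λ S U := by
  have zb : ∀ z ∈ ball (0 : ℂ) (4 * Λ)⁻¹, ‖z‖ * Λ ≤ 1 / 4 := fun z hz =>
    (mul_le_mul_of_nonneg_right (mem_ball_zero_iff.1 hz).le hΛ.le).trans_eq (by field_simp)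
  have zg : ∀ z ∈ ball (0 : ℂ) (4 * Λ)⁻¹, ∀ a b, ‖z * G a b‖ ≤ 1 / 4 := fun z hz a b => by
    rw [norm_mul]
    exact (mul_le_mul_of_nonneg_left (hG a b) (norm_nonneg _)).trans (zb z hz)
  set d : ℂ → ℂ := fun z => (1 + z * G i j) * (1 + z * G j i) - z * G i i * (z * G j j) with hd
  have d0 : ∀ z ∈ ball (0 : ℂ) (4 * Λ)⁻¹, d z ≠ 0 := fun z hz h => by
    have e : (1 : ℂ) = z * G i i * (z * G j j) - z * G i j * (z * G j i) - z * G i j - z * G j i := by
      linear_combination h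
    have a1 := norm_sub_le (z * G i i * (z * G j j) - z * G i j * (z * G j i) - z * G i j) (z * G j i)
    have a2 := norm_sub_le (z * G i i * (z * G j j) - z * G i j * (z * G j i)) (z * G i j)
    have a3 := norm_sub_le (z * G i i * (z * G j j)) (z * G i j * (z * G j i))
    have a4 := mul_le_mul (zg z hz i i) (zg z hz j j) (norm_nonneg _) (by norm_num)
    have a5 := mul_le_mul (zg z hz i j) (zg z hz j i) (norm_nonneg _) (by norm_num)
    rw [← norm_mul] at a4 a5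
    rw [← e, norm_one] at a1
    linarith [zg z hz i j, zg z hz j i]
  set p : ℂ → ℂ := fun z => ((1 + z * G j i) * u i - z * G i i * u j) / d z with hp
  set q : ℂ → ℂ := fun z => ((1 + z * G i j) * u j - z * G j j * u i) / d z with hq
  have dp : DifferentiableOn ℂ p (ball 0 (4 * Λ)⁻¹) :=
    DifferentiableOn.div (by fun_prop) (by rw [hd]; fun_prop) d0
  have dq : DifferentiableOn ℂ q (ball 0 (4 * Λ)⁻¹) :=
    DifferentiableOn.div (by fun_prop) (by rw [hd]; fun_prop) d0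
  have ei : ∀ z ∈ ball (0 : ℂ) (4 * Λ)⁻¹, u i - z * (G i i * q z + G i j * p z) = p z := fun z hz => by
    have := d0 z hz
    simp only [hp, hq]
    field_simp
    simp only [hd]
    ring
  have ej : ∀ z ∈ ball (0 : ℂ) (4 * Λ)⁻¹, u j - z * (G j i * q z + G j j * p z) = q z := fun z hz => by
    have := d0 z hz
    simp only [hp, hq]
    field_simp
    simp only [hd]
    ring
  have ub : ∀ a, ‖u a‖ ≤ Λ * S := fun a =>
    (abs_le_of_sq_le_sq' ((hu a).trans_eq (mul_pow _ _ _).symm) (by positivity)).2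
  have key : ∀ z ∈ ball (0 : ℂ) (4 * Λ)⁻¹, ∀ a b c, ‖u a - z * (G a b * q z + G a c * p z)‖ ≤
      Λ * S + (‖q z‖ + ‖p z‖) / 4 := fun z hz a b c => by
    refine (norm_sub_le _ _).trans (add_le_add (ub a) ?_)
    rw [mul_add, ← mul_assoc, ← mul_assoc]
    refine (norm_add_le _ _).trans ?_
    rw [norm_mul _ (q z), norm_mul _ (p z)]
    have a1 := mul_le_mul_of_nonneg_right (zg z hz a b) (norm_nonneg (q z))
    have a2 := mul_le_mul_of_nonneg_right (zg z hz a c) (norm_nonneg (p z))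
    linarith
  have pq : ∀ z ∈ ball (0 : ℂ) (4 * Λ)⁻¹,
      ‖p z‖ ^ 2 ≤ 4 * Λ ^ 2 * S ^ 2 ∧ ‖q z‖ ^ 2 ≤ 4 * Λ ^ 2 * S ^ 2 := fun z hz => by
    have a1 := key z hz i i j
    have a2 := key z hz j i j
    rw [ei z hz] at a1
    rw [ej z hz] at a2
    exact ⟨(pow_le_pow_left₀ (norm_nonneg _) (show ‖p z‖ ≤ 2 * (Λ * S) by linarith) 2).trans_eq
      (by ring), (pow_le_pow_left₀ (norm_nonneg _) (show ‖q z‖ ≤ 2 * (Λ * S) by linarith) 2).trans_eq
      (by ring)⟩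
  have lp : ∀ z ∈ ball (0 : ℂ) (4 * Λ)⁻¹, ∑ k, ‖z * (G k i * q z + G k j * p z)‖ ^ 2 ≤
      16 * Λ ^ 4 * S ^ 4 * ‖z‖ ^ 2 := fun z hz => by
    calc _ ≤ ∑ k, ‖z‖ ^ 2 * (2 * (‖G k i‖ ^ 2 * (4 * Λ ^ 2 * S ^ 2)) +
          2 * (‖G k j‖ ^ 2 * (4 * Λ ^ 2 * S ^ 2))) := sum_le_sum fun k _ => by
          rw [norm_mul, mul_pow]
          refine mul_le_mul_of_nonneg_left ((nsq_add _ _).trans ?_) (sq_nonneg _)
          rw [norm_mul, norm_mul, mul_pow, mul_pow]
          gcongr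
          exacts [(pq z hz).2, (pq z hz).1]
      _ = ‖z‖ ^ 2 * (2 * ((∑ k, ‖G k i‖ ^ 2) * (4 * Λ ^ 2 * S ^ 2)) +
          2 * ((∑ k, ‖G k j‖ ^ 2) * (4 * Λ ^ 2 * S ^ 2))) := by
          simp only [← mul_sum, sum_add_distrib, ← sum_mul]
      _ ≤ ‖z‖ ^ 2 * (2 * (Λ ^ 2 * S ^ 2 * (4 * Λ ^ 2 * S ^ 2)) +
          2 * (Λ ^ 2 * S ^ 2 * (4 * Λ ^ 2 * S ^ 2))) := by gcongr <;> exact hc _
      _ = _ := by ring
  refine ⟨fun z k => u k - z * (G k i * q z + G k j * p z), fun k => ?_, fun z hz k => ?_,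
    fun z hz => ?_, fun z hz => ?_, fun z hz => ?_⟩
  · exact (differentiableOn_const _).sub (differentiableOn_id.mul
      ((dq.const_mul _).add (dp.const_mul _)))
  · rw [ei z hz, ej z hz]
  · rw [ei z hz, ej z hz]; exact pq z hz
  · have a1 : ∑ k, ‖u k‖ ^ 2 ≤ n * (Λ ^ 2 * S ^ 2) := by
      simpa using sum_le_card_nsmul univ _ _ fun k _ => hu k
    have a2 : ∑ k, ‖u k - z * (G k i * q z + G k j * p z)‖ ^ 2 ≤
        2 * ∑ k, ‖u k‖ ^ 2 + 2 * ∑ k, ‖z * (G k i * q z + G k j * p z)‖ ^ 2 := by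
      rw [mul_sum, mul_sum, ← sum_add_distrib]
      refine sum_le_sum fun k _ => ?_
      simpa only [← sub_eq_add_neg, norm_neg] using
        nsq_add (u k) (-(z * (G k i * q z + G k j * p z)))
    have a3 := pow_le_pow_left₀ (by positivity) (zb z hz) 2
    have a4 := mul_le_mul_of_nonneg_left a3 (show 0 ≤ 16 * Λ ^ 2 * S ^ 4 by positivity)
    nlinarith [lp z hz]
  · simpa only [zero_mul, sub_zero, sub_sub_cancel_left, norm_neg] using lp z hz

lemma cm_Dl (i j : Fin n) (V : Fin n → ℂ) :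
    cm (Dl i j) *ᵥ V = Pi.single i (V j) + Pi.single j (V i) := by
  funext k
  have := Ll.dot_Dl i j (Pi.single k 1) V
  rw [single_one_dotProduct] at this
  rw [this]
  simp only [Pi.add_apply, Pi.single_apply, eq_comm (a := k)]
  split_ifs <;> simp

/-- uniqueness on the real line -/
lemma solve {W : Mat n} (hW : W.IsHermitian) {ζ : ℂ} (hz : ζ.im ≠ 0) (ξ : Fin n → ℂ) (i j : Fin n)
    (t : ℝ) {V : Fin n → ℂ}
    (h : ∀ k, V k = (Res W ζ *ᵥ ξ) k - t * (Res W ζ k i * V j + Res W ζ k j * V i)) :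
    V = Res (W + t • Dl i j) ζ *ᵥ ξ := by
  have e1 : V = Res W ζ *ᵥ (ξ - (t : ℂ) • cm (Dl i j) *ᵥ V) := by
    funext k
    rw [h k, mulVec_sub, mulVec_smul, cm_Dl, mulVec_add, mulVec_single, mulVec_single]
    simp [mul_comm, mul_add]
  have e2 : (cm W - ζ • (1 : Matrix (Fin n) (Fin n) ℂ)) *ᵥ V = ξ - (t : ℂ) • cm (Dl i j) *ᵥ V := by
    conv_lhs => rw [e1]
    rw [mulVec_mulVec, Ll.mul_Res hW hz, one_mulVec]
  have e3 : cm (W + t • Dl i j) - ζ • (1 : Matrix (Fin n) (Fin n) ℂ) =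
      (cm W - ζ • (1 : Matrix (Fin n) (Fin n) ℂ)) + (t : ℂ) • cm (Dl i j) := by
    ext k l; simp; ring
  have e4 := congrArg (fun M => M *ᵥ V) (Ll.Res_mul (Ll.herm_pert hW t i j) hz)
  simp only [one_mulVec] at e4
  rw [← mulVec_mulVec, e3, add_mulVec, e2, smul_mulVec, sub_add_cancel] at e4
  exact e4.symm

lemma sx_pow (n k : ℕ) : sx n ^ k = (n : ℝ) ^ ((k : ℝ) / 6) := by
  rw [sx, ← Real.rpow_natCast, ← Real.rpow_mul (Nat.cast_nonneg n)]; congr 1; ring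

lemma n_eq (n : ℕ) : (n : ℝ) = sx n ^ 6 := by rw [sx_pow]; norm_num

lemma zL_im (n : ℕ) (L : ℝ) : (zL n L).im = L / tau n := by
  simp only [zL, Complex.add_im, Complex.mul_im, Complex.ofReal_re, Complex.ofReal_im, Complex.I_im,
    Complex.I_re, Complex.im_ofNat]
  ring

lemma zL_re (n : ℕ) (L : ℝ) : (zL n L).re = 2 := by
  simp only [zL, Complex.add_re, Complex.mul_re, Complex.ofReal_re, Complex.ofReal_im, Complex.I_im,
    Complex.I_re, Complex.re_ofNat]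
  ring

lemma fl_im {W : Mat n} (hW : W.IsHermitian) {L : ℝ} (hL : 0 < L) (hτ : 0 < tau n) (ξ : Fin n → ℝ)
    (k : Fin n) : (fl n L W *ᵥ ξ) k = L / tau n * ((Res W (zL n L) *ᵥ cv ξ) k).im := by
  have hz : (zL n L).im ≠ 0 := by rw [zL_im]; positivity
  have e : ∀ a b, fl n L W a b = L / tau n * (Res W (zL n L) a b).im := fun a b => by
    have h := resolvent_eq (K := ℂ) hW (z := zL n L) fun k _ => lam_ne_of_im hz W k
    rw [show Res W (zL n L) = _ from h, fl, fnK_apply, fnK_apply, Complex.im_sum, mul_sum]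
    refine sum_congr rfl fun m _ => ?_
    simp only [RCLike.ofReal_real_eq_id, id, Complex.coe_algebraMap, Complex.mul_im,
      Complex.ofReal_re, Complex.ofReal_im, mul_zero, zero_add, Complex.inv_im, Complex.normSq_apply,
      Complex.sub_re, Complex.sub_im, zL_re, zL_im, zero_sub, neg_neg]
    have : (tau n * (2 - lam W m)) ^ 2 + L ^ 2 ≠ 0 := by positivity
    have : (lam W m - 2) * (lam W m - 2) + -(L / tau n) * -(L / tau n) =
        ((tau n * (2 - lam W m)) ^ 2 + L ^ 2) / tau n ^ 2 := by field_simp; ring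
    rw [this]
    field_simp
  simp only [mulVec, dotProduct, e, Complex.im_sum, mul_sum, Complex.mul_im, Complex.ofReal_re,
    Complex.ofReal_im, mul_zero, zero_add, mul_assoc]

lemma hm_re {W : Mat n} (hW : W.IsHermitian) {L : ℝ} (hL : 0 < L) (hτ : 0 < tau n) (ξ : Fin n → ℝ)
    (k : Fin n) : (Hm n W *ᵥ fl n L W *ᵥ ξ) k =
      -(L * (L / tau n)) * ((Res W (zL n L) *ᵥ cv ξ) k).re := by
  have hz : (zL n L).im ≠ 0 := by rw [zL_im]; positivity
  set v := Res W (zL n L) *ᵥ cv ξ with hv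
  have e1 : (cm W - zL n L • (1 : Matrix (Fin n) (Fin n) ℂ)) *ᵥ v = cv ξ := by
    rw [hv, mulVec_mulVec, Ll.mul_Res hW hz, one_mulVec]
  have e2 := congrArg Complex.im (congrFun e1 k)
  rw [sub_mulVec, smul_mulVec, one_mulVec] at e2
  simp only [Pi.sub_apply, Pi.smul_apply, smul_eq_mul, mulVec, dotProduct, map_apply, Complex.sub_im,
    Complex.im_sum, Complex.mul_im, Complex.ofReal_re, Complex.ofReal_im, zero_mul, add_zero, zL_re,
    zL_im] at e2
  have e3 : fl n L W *ᵥ ξ = (L / tau n) • fun k => (v k).im := funext (fl_im hW hL hτ ξ)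
  rw [e3, mulVec_smul, Hm, smul_mulVec, sub_mulVec, smul_mulVec, one_mulVec]
  simp only [Pi.sub_apply, Pi.smul_apply, smul_eq_mul, mulVec, dotProduct]
  rw [show ∑ x, W k x * (v x).im = 2 * (v k).im + L / tau n * (v k).re by linarith]
  field_simp
  ring

lemma comb_sq {α β : ℂ} {c : ℝ} (ha : ‖α‖ ≤ c / 2) (hb : ‖β‖ ≤ c / 2) (x y : ℂ) :
    ‖α * x + β * y‖ ^ 2 ≤ c ^ 2 / 2 * (‖x‖ ^ 2 + ‖y‖ ^ 2) := by
  refine (nsq_add _ _).trans ?_
  rw [norm_mul, norm_mul, mul_pow, mul_pow]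
  have a1 := mul_le_mul_of_nonneg_right (pow_le_pow_left₀ (norm_nonneg _) ha 2) (sq_nonneg ‖x‖)
  have a2 := mul_le_mul_of_nonneg_right (pow_le_pow_left₀ (norm_nonneg _) hb 2) (sq_nonneg ‖y‖)
  linarith

lemma comb {G G' : Fin n → Fin n → ℂ} {u u' : Fin n → ℂ} {i j : Fin n} {Λ L : ℝ}
    {U V : ℂ → Fin n → ℂ} (hn : 1 ≤ n) (hL : 1 ≤ L) (hΛ : 1 ≤ Λ) (h : Core G u i j Λ (sx n) U)
    (h' : Core G' u' i j Λ (sx n) V) {α β : ℂ} (ha : ‖α‖ ≤ L ^ 2 / sx n ^ 4 / 2)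
    (hb : ‖β‖ ≤ L ^ 2 / sx n ^ 4 / 2) {f : ℝ → Fin n → ℝ}
    (hf : ∀ t : ℝ, |t| < (4 * Λ)⁻¹ → ∀ k, α * U t k + β * V t k = f t k) :
    AnV i j (4 * Λ)⁻¹ (8 * L ^ 2 * Λ ^ 2) f fun z k => α * U z k + β * V z k := by
  have s1 := one_le_sx hn
  have s0 : 0 < sx n := by linarith
  have hN : 4 * L ^ 4 * Λ ^ 2 ≤ (8 * L ^ 2 * Λ ^ 2) ^ 2 := by
    have : Λ ^ 2 ≤ Λ ^ 4 := pow_le_pow_right₀ hΛ (by norm_num)
    nlinarith [mul_le_mul_of_nonneg_left this (show 0 ≤ L ^ 4 by positivity),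
      show 0 ≤ L ^ 4 * Λ ^ 4 by positivity]
  have en : ∀ x y : ℂ, ‖x‖ ^ 2 ≤ 4 * Λ ^ 2 * sx n ^ 2 → ‖y‖ ^ 2 ≤ 4 * Λ ^ 2 * sx n ^ 2 →
      n * ‖α * x + β * y‖ ^ 2 ≤ (8 * L ^ 2 * Λ ^ 2) ^ 2 := fun x y hx hy => by
    refine le_trans ?_ hN
    calc _ ≤ sx n ^ 6 * ((L ^ 2 / sx n ^ 4) ^ 2 / 2 *
          (4 * Λ ^ 2 * sx n ^ 2 + 4 * Λ ^ 2 * sx n ^ 2)) := by
          rw [← n_eq]
          exact mul_le_mul_of_nonneg_left ((comb_sq ha hb x y).trans (by gcongr)) (Nat.cast_nonneg n)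
      _ = _ := by field_simp; ring
  refine ⟨fun k => ((h.diff k).const_mul _).add ((h'.diff k).const_mul _), hf,
    fun z hz => ⟨en _ _ (h.ent z hz).1 (h'.ent z hz).1, en _ _ (h.ent z hz).2 (h'.ent z hz).2⟩,
    fun z hz => le_trans ?_ hN, fun z hz => ?_⟩
  · refine (sum_le_sum fun k _ => comb_sq ha hb _ _).trans ?_
    rw [← mul_sum, sum_add_distrib]
    have a1 : sx n ^ 4 ≤ sx n ^ 8 := pow_le_pow_right₀ s1 (by norm_num)
    have a2 : 2 * (n * (Λ ^ 2 * sx n ^ 2)) + 2 * Λ ^ 2 * sx n ^ 4 ≤ 4 * Λ ^ 2 * sx n ^ 8 := by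
      have := mul_le_mul_of_nonneg_left a1 (sq_nonneg Λ)
      have e : (n : ℝ) * (Λ ^ 2 * sx n ^ 2) = Λ ^ 2 * sx n ^ 8 := by
        have := n_eq n
        linear_combination (Λ ^ 2 * sx n ^ 2) * this
      rw [e]; linarith
    calc _ ≤ (L ^ 2 / sx n ^ 4) ^ 2 / 2 * (4 * Λ ^ 2 * sx n ^ 8 + 4 * Λ ^ 2 * sx n ^ 8) := by
          gcongr
          exacts [(h.nrm z hz).trans a2, (h'.nrm z hz).trans a2]
      _ = _ := by field_simp; ring
  · have e : ∀ k, α * U z k + β * V z k - (α * U 0 k + β * V 0 k) =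
        α * (U z k - U 0 k) + β * (V z k - V 0 k) := fun k => by ring
    simp only [e]
    calc _ ≤ sx n ^ 4 * ((L ^ 2 / sx n ^ 4) ^ 2 / 2 * (16 * Λ ^ 4 * sx n ^ 4 * ‖z‖ ^ 2 +
          16 * Λ ^ 4 * sx n ^ 4 * ‖z‖ ^ 2)) := by
          refine mul_le_mul_of_nonneg_left ((sum_le_sum fun k _ => comb_sq ha hb _ _).trans ?_)
            (by positivity)
          rw [← mul_sum, sum_add_distrib]
          gcongr
          exacts [h.lip z hz, h'.lip z hz]
      _ = 16 * (L ^ 4 * Λ ^ 4 * ‖z‖ ^ 2) := by field_simp; ring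
      _ ≤ 64 * (L ^ 4 * Λ ^ 4 * ‖z‖ ^ 2) := by gcongr; norm_num
      _ = _ := by ring

end Crest.Agent.T157.Sw14.Res79

namespace Crest.Agent.T157.Sw14

open Matrix Finset Metric Res79
open Crest.Agent.T157.Eig Crest.Agent.T157.Ed Crest.Agent.T157.Cq
open Crest.Agent.T157.Ll (Dl Res cm cv)

theorem resStmt : ResStmt := fun n L Λ W ξ i j hn hL hΛ hW hG => by
  have s1 := one_le_sx hn
  have s0 : 0 < sx n := by linarith
  have L0 : 0 < L := by linarith
  have hτ : 0 < tau n := by rw [tau_eq]; positivity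
  have hz : (zL n L).im ≠ 0 := by rw [zL_im]; positivity
  obtain ⟨U, hU⟩ := exists_core i j (by linarith) s0.le hG.1 hG.2.1 hG.2.2
  obtain ⟨V, hV⟩ := exists_core (G := fun a b => starRingEnd ℂ (Res W (zL n L) a b))
    (u := fun a => starRingEnd ℂ ((Res W (zL n L) *ᵥ cv ξ) a)) i j (Λ := Λ) (by linarith) s0.le
    (by simpa using hG.1) (by simpa using hG.2.1) (by simpa using hG.2.2)
  have mb : ∀ t : ℝ, |t| < (4 * Λ)⁻¹ → (t : ℂ) ∈ ball (0 : ℂ) (4 * Λ)⁻¹ := fun t ht => by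
    rwa [mem_ball_zero_iff, Complex.norm_real]
  have eU : ∀ t : ℝ, |t| < (4 * Λ)⁻¹ → U t = Res (W + t • Dl i j) (zL n L) *ᵥ cv ξ := fun t ht =>
    solve hW hz _ i j t (hU.eqn _ (mb t ht))
  have eV : ∀ t : ℝ, |t| < (4 * Λ)⁻¹ → ∀ k,
      V t k = starRingEnd ℂ ((Res (W + t • Dl i j) (zL n L) *ᵥ cv ξ) k) := fun t ht k => by
    rw [← solve hW hz (cv ξ) i j t (V := fun k => starRingEnd ℂ (V t k)) fun k => by
      rw [hV.eqn _ (mb t ht) k]; simp, Complex.conj_conj]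
  have n1 : ‖((L / tau n / 2 : ℝ) : ℂ) * Complex.I‖ ≤ L ^ 2 / sx n ^ 4 / 2 := by
    rw [norm_mul, Complex.norm_I, mul_one, Complex.norm_real, Real.norm_of_nonneg (by positivity),
      tau_eq]
    gcongr
    nlinarith
  have n2 : ‖((-(L * (L / tau n)) / 2 : ℝ) : ℂ)‖ ≤ L ^ 2 / sx n ^ 4 / 2 := by
    rw [Complex.norm_real, neg_div, norm_neg, Real.norm_of_nonneg (by positivity), tau_eq]
    exact le_of_eq (by ring)
  refine ⟨_, _, comb hn hL hΛ hU hV ((norm_neg _).trans_le n1) n1 fun t ht k => ?_,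
    comb hn hL hΛ hU hV n2 n2 fun t ht k => ?_⟩
  · rw [eU t ht, eV t ht, fl_im (Ll.herm_pert hW t i j) L0 hτ]
    generalize (Res (W + t • Dl i j) (zL n L) *ᵥ cv ξ) k = w
    generalize L / tau n = c
    apply Complex.ext <;> simp <;> ring
  · rw [eU t ht, eV t ht, hm_re (Ll.herm_pert hW t i j) L0 hτ]
    generalize (Res (W + t • Dl i j) (zL n L) *ᵥ cv ξ) k = w
    generalize L * (L / tau n) = c
    apply Complex.ext <;> simp <;> ring

end Crest.Agent.T157.Sw14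

end
end

-- ▼ part T157/SwDer_91
section

/-!
# Row 157, SWAP for coins (helper91): `Sw14.DerGlue`
-/

set_option autoImplicit false

noncomputable section

namespace Crest.Agent.T157.Sw14.Der91

open Matrix Filter Topology Finset Real Function Metric
open Crest.ProbabilityR.SpinGlassDynamics Crest.Agent.T157.E Crest.Agent.T157.Eig
open Crest.Agent.T157.St Crest.Agent.T157.Ed Crest.Agent.T157.Cq
open Crest.Agent.T157.Ll (Dl Res)

variable {n : ℕ}

lemma W4_sh (hn : 1 ≤ n) (y : I4 n → ℝ) (p : Pair n) (u : ℝ) :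
    W4 (sh y p u) = W4 y + u • Dl p.1.1 p.1.2 := by
  have s0 : √(n : ℝ) ≠ 0 := (Real.sqrt_pos.2 (by exact_mod_cast hn)).ne'
  obtain ⟨⟨i, j⟩, hij⟩ := p
  have hij' : i < j := hij
  ext a b
  simp only [W4, Wy, Wmat, Jmat, sh, Dl, Matrix.add_apply, Matrix.smul_apply, smul_eq_mul,
    single_apply, update_apply, Sum.inl.injEq, reduceCtorEq, if_false, Subtype.mk.injEq,
    Prod.mk.injEq]
  rcases lt_trichotomy a b with h | h | h
  · rw [dif_pos h, dif_pos h, if_neg (show ¬(j = a ∧ i = b) by rintro ⟨rfl, rfl⟩; omega)]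
    by_cases e : a = i ∧ b = j
    · obtain ⟨rfl, rfl⟩ := e
      simp only [and_self, if_true]; field_simp; ring
    · rw [if_neg e, if_neg fun e' => e ⟨e'.1.symm, e'.2.symm⟩]; ring
  · subst h
    rw [dif_neg (lt_irrefl a), dif_neg (lt_irrefl a), dif_neg (lt_irrefl a), dif_neg (lt_irrefl a),
      if_neg (show ¬(j = a ∧ i = a) by rintro ⟨rfl, rfl⟩; omega),
      if_neg (show ¬(i = a ∧ j = a) by rintro ⟨rfl, rfl⟩; omega)]
    ring
  · rw [dif_neg h.not_gt, dif_neg h.not_gt, dif_pos h, dif_pos h,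
      if_neg (show ¬(i = a ∧ j = b) by rintro ⟨rfl, rfl⟩; omega)]
    by_cases e : b = i ∧ a = j
    · obtain ⟨rfl, rfl⟩ := e
      simp only [and_self, if_true]; field_simp; ring
    · rw [if_neg e, if_neg fun e' => e ⟨e'.2.symm, e'.1.symm⟩]; ring

lemma x1_sh (y : I4 n → ℝ) (p : Pair n) (u : ℝ) : x1 (sh y p u) = x1 y := by
  ext k; simp [x1, sh]

lemma x2_sh (y : I4 n → ℝ) (p : Pair n) (u : ℝ) : x2 (sh y p u) = x2 y := by
  ext k; simp [x2, sh]

lemma sh_zero (y : I4 n → ℝ) (p : Pair n) : sh y p 0 = y := by simp [sh]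

lemma dot_update {ι : Type*} [Fintype ι] [DecidableEq ι] (y : ι → ℝ) (k : ι) (t : ℝ) :
    update y k t ⬝ᵥ update y k t = ∑ a ∈ univ.erase k, y a * y a + t ^ 2 := by
  rw [dotProduct, ← sum_erase_add _ _ (mem_univ k), update_self, sq]
  congr 1
  exact sum_congr rfl fun a ha => by rw [update_of_ne (ne_of_mem_erase ha)]

lemma Cm_eq (hn : 1 ≤ n) (c : Par) (y : I4 n → ℝ) (i j : Fin n) :
    Cm c y i j = -(tau n)⁻¹ * (bv c y i * (Hm n (W4 y) *ᵥ av c y) j -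
      av c y i * (Hm n (W4 y) *ᵥ bv c y) j - (Hm n (W4 y) *ᵥ bv c y) i * av c y j +
      (Hm n (W4 y) *ᵥ av c y) i * bv c y j) := by
  have t0 : tau n ≠ 0 := by rw [tau_eq]; exact (pow_pos (sx_pos hn) 4).ne'
  have hs : (W4 y)ᵀ = W4 y := by
    have := Wy_herm (n := n) fun k => y (.inl k)
    rwa [IsHermitian, conjTranspose_eq_transpose_of_trivial] at this
  have e : ∀ v : Fin n → ℝ, v ᵥ* W4 y = W4 y *ᵥ v := fun v => by
    rw [← mulVec_transpose, hs]
  simp only [Cm, Og, Matrix.sub_mul, Matrix.mul_sub, vecMulVec_mul, mul_vecMulVec, e,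
    Matrix.sub_apply, vecMulVec_apply, Hm, smul_mulVec, sub_mulVec, one_mulVec, Pi.smul_apply,
    Pi.sub_apply, smul_eq_mul]
  field_simp; ring

lemma AnV.mono {i j : Fin n} {r N N' : ℝ} {f f' : ℝ → Fin n → ℝ} {F : ℂ → Fin n → ℂ}
    (h : AnV i j r N f F) (h0 : 0 ≤ N) (hN : N ≤ N') (e : ∀ u, f u = f' u) :
    AnV i j r N' f' F := by
  have h2 : N ^ 2 ≤ N' ^ 2 := pow_le_pow_left₀ h0 hN 2
  exact ⟨h.diff, fun t ht k => e t ▸ h.real t ht k,
    fun z hz => ⟨(h.ent z hz).1.trans h2, (h.ent z hz).2.trans h2⟩,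
    fun z hz => (h.nrm z hz).trans h2, fun z hz => (h.lip z hz).trans (by gcongr)⟩

lemma exists_kap {ω : (Fin 4 → ℝ) → ℝ} (hω : Adm ω) : ∃ κ δ : ℝ, 0 < κ ∧ 0 < δ ∧
    ∀ q ∈ tsupport ω, ∀ q' : Fin 4 → ℝ, |q 0 - q' 0| ≤ δ → |q 1 - q' 1| ≤ δ → |q 2 - q' 2| ≤ δ →
      Nr κ q' := by
  have hc : IsCompact (tsupport ω) := hω.2.1
  obtain ⟨m, m0, hm⟩ := hc.exists_forall_le' (f := fun q => min (q 0) (q 0 * q 1 - q 2 ^ 2))
    (by fun_prop) (a := 0) fun q hq => lt_min (hω.2.2 hq).1 (sub_pos.2 (hω.2.2 hq).2.1)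
  obtain ⟨R, R0, hR⟩ := hc.isBounded.exists_pos_norm_le
  refine ⟨min (m / 2) (R + 1)⁻¹, min 1 (m / (8 * R + 4)), by positivity, by positivity,
    fun q hq q' h0 h1 h2 => ?_⟩
  set δ := min 1 (m / (8 * R + 4))
  have d1 : δ ≤ 1 := min_le_left _ _
  have d2 : δ * (8 * R + 4) ≤ m := (le_div_iff₀ (by positivity)).1 (min_le_right _ _)
  have d0 : 0 ≤ δ := (abs_nonneg _).trans h0
  have r : ∀ k, |q k| ≤ R := fun k => (norm_le_pi_norm q k).trans (hR q hq)
  have a1 := (le_min_iff.1 (hm q hq)).1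
  have a2 := (le_min_iff.1 (hm q hq)).2
  have k1 : min (m / 2) (R + 1)⁻¹ ≤ m / 2 := min_le_left _ _
  have k2 : R + 1 ≤ (min (m / 2) (R + 1)⁻¹)⁻¹ := by
    rw [le_inv_comm₀ (by positivity) (by positivity)]; exact min_le_right _ _
  have b1 : |q' 1| ≤ R + 1 := by
    have := abs_sub_abs_le_abs_sub (q' 1) (q 1)
    rw [abs_sub_comm] at this; linarith [r 1]
  have b2 : |q 2 + q' 2| ≤ 2 * R + 1 := by
    have := abs_sub_abs_le_abs_sub (q' 2) (q 2)
    rw [abs_sub_comm] at this; linarith [r 2, abs_add_le (q 2) (q' 2)]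
  have c1 : |(q 0 - q' 0) * q' 1| ≤ δ * (R + 1) := by rw [abs_mul]; gcongr
  have c2 : |q 0 * (q 1 - q' 1)| ≤ R * δ := by rw [abs_mul]; gcongr; exact r 0
  have c3 : |(q 2 - q' 2) * (q 2 + q' 2)| ≤ δ * (2 * R + 1) := by rw [abs_mul]; gcongr
  have dR : 0 ≤ δ * R := by positivity
  refine ⟨?_, ?_, ?_, ?_⟩
  · linarith [(abs_le.1 h0).2]
  · linarith [(abs_le.1 c1).2, (abs_le.1 c2).2, (abs_le.1 c3).1]
  · linarith [(abs_le.1 h0).1, (abs_le.1 (r 0)).2]
  · linarith [(abs_le.1 b1).2]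

/-- the four continued vectors -/
lemma four (hr : ResStmt) (hn : 1 ≤ n) {c : Par} (hc : c.Ok) {Λ : ℝ} (hΛ : 1 ≤ Λ)
    {y : I4 n → ℝ} (hy : Good c Λ y) (p : Pair n) : ∃ A A' B B' : ℂ → Fin n → ℂ,
    AnV p.1.1 p.1.2 (4 * Λ)⁻¹ (8 * (c.l + c.l') ^ 2 * Λ ^ 2) (fun u => av c (sh y p u)) A ∧
    AnV p.1.1 p.1.2 (4 * Λ)⁻¹ (8 * (c.l + c.l') ^ 2 * Λ ^ 2)
      (fun u => Hm n (W4 (sh y p u)) *ᵥ av c (sh y p u)) A' ∧
    AnV p.1.1 p.1.2 (4 * Λ)⁻¹ (8 * (c.l + c.l') ^ 2 * Λ ^ 2) (fun u => bv c (sh y p u)) B ∧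
    AnV p.1.1 p.1.2 (4 * Λ)⁻¹ (8 * (c.l + c.l') ^ 2 * Λ ^ 2)
      (fun u => Hm n (W4 (sh y p u)) *ᵥ bv c (sh y p u)) B' := by
  obtain ⟨-, -, -, l1, l2⟩ := hc
  obtain ⟨A, A', a1, a2⟩ := hr n c.l' Λ (W4 y) (x1 y) p.1.1 p.1.2 hn l2 hΛ (Wy_herm _) hy.1
  obtain ⟨B, B', b1, b2⟩ := hr n c.l Λ (W4 y) (x2 y) p.1.1 p.1.2 hn l1 hΛ (Wy_herm _) hy.2
  have m1 : 8 * c.l' ^ 2 * Λ ^ 2 ≤ 8 * (c.l + c.l') ^ 2 * Λ ^ 2 := by gcongr; linarith
  have m2 : 8 * c.l ^ 2 * Λ ^ 2 ≤ 8 * (c.l + c.l') ^ 2 * Λ ^ 2 := by gcongr; linarith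
  exact ⟨A, A', B, B',
    AnV.mono a1 (by positivity) m1 fun u => by simp only [av, W4_sh hn, x1_sh],
    AnV.mono a2 (by positivity) m1 fun u => by simp only [av, W4_sh hn, x1_sh],
    AnV.mono b1 (by positivity) m2 fun u => by simp only [bv, W4_sh hn, x2_sh],
    AnV.mono b2 (by positivity) m2 fun u => by simp only [bv, W4_sh hn, x2_sh]⟩

section pieces
variable {c : Par} {y : I4 n → ℝ} {p : Pair n} {r N t : ℝ} {A A' B B' : ℂ → Fin n → ℂ}

lemma dot_cx {i j : Fin n} {f g : ℝ → Fin n → ℝ} (a : AnV i j r N f A) (b : AnV i j r N g B) :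
    DifferentiableOn ℂ (fun z => ∑ k, A z k * B z k) (ball 0 r) ∧
    (∀ z ∈ ball (0 : ℂ) r, ‖∑ k, A z k * B z k‖ ≤ N ^ 2) ∧
    ∀ u : ℝ, |u| < r → ∑ k, A u k * B u k = (f u ⬝ᵥ g u : ℝ) :=
  ⟨DifferentiableOn.fun_sum fun k _ => (a.diff k).mul (b.diff k),
    fun z hz => norm_dot (a.nrm z hz) (b.nrm z hz), fun u hu => by
      simp only [a.real u hu, b.real u hu, dotProduct]; push_cast; rfl⟩

/-- the vector field -/
lemma bd_X (hn : 1 ≤ n) (hr : 0 < r) (a : AnV p.1.1 p.1.2 r N (fun u => av c (sh y p u)) A)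
    (a' : AnV p.1.1 p.1.2 r N (fun u => Hm n (W4 (sh y p u)) *ᵥ av c (sh y p u)) A')
    (b : AnV p.1.1 p.1.2 r N (fun u => bv c (sh y p u)) B)
    (b' : AnV p.1.1 p.1.2 r N (fun u => Hm n (W4 (sh y p u)) *ᵥ bv c (sh y p u)) B')
    (ht : |t - y (ip p)| ≤ √n * r / 2) :
    Bd (fun x => Xf c (update y (ip p) x) (ip p)) t (4 * N ^ 2 / (√n * tau n)) (8 / (√n * r)) := by
  have n0 : (0 : ℝ) < n := by exact_mod_cast hn
  have s0 : 0 < √(n : ℝ) := Real.sqrt_pos.2 n0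
  have t0 : 0 < tau n := by rw [tau_eq]; exact pow_pos (sx_pos hn) 4
  refine bd_aff (F := fun z => ((√n * -(tau n)⁻¹ : ℝ) : ℂ) * (B z p.1.1 * A' z p.1.2 -
    A z p.1.1 * B' z p.1.2 - B' z p.1.1 * A z p.1.2 + A' z p.1.1 * B z p.1.2)) hr s0
    ((((((b.diff _).mul (a'.diff _)).sub ((a.diff _).mul (b'.diff _))).sub
      ((b'.diff _).mul (a.diff _))).add ((a'.diff _).mul (b.diff _))).const_mul _)
    (fun z hz => ?_) ht fun u hu => ?_
  · have e1 := norm_ent n0 (b.ent z hz).1 (a'.ent z hz).2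
    have e2 := norm_ent n0 (a.ent z hz).1 (b'.ent z hz).2
    have e3 := norm_ent n0 (b'.ent z hz).1 (a.ent z hz).2
    have e4 := norm_ent n0 (a'.ent z hz).1 (b.ent z hz).2
    have e5 : ‖B z p.1.1 * A' z p.1.2 - A z p.1.1 * B' z p.1.2 - B' z p.1.1 * A z p.1.2 +
        A' z p.1.1 * B z p.1.2‖ ≤ 4 * (N ^ 2 / n) :=
      (norm_add_le_of_le (norm_sub_le_of_le (norm_sub_le_of_le e1 e2) e3) e4).trans_eq (by ring)
    rw [norm_mul, Complex.norm_real, Real.norm_eq_abs, mul_neg, abs_neg, abs_of_pos (by positivity)]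
    refine (mul_le_mul_of_nonneg_left e5 (by positivity)).trans_eq ?_
    field_simp
    rw [Real.sq_sqrt n0.le, mul_comm]
  · change _ = ((√n * Cm c (sh y p u) p.1.1 p.1.2 : ℝ) : ℂ)
    rw [Cm_eq hn]
    simp only [a.real u hu, a'.real u hu, b.real u hu, b'.real u hu]
    push_cast; ring

/-- the invariants -/
lemma bd_q (hn : 1 ≤ n) (hr : 0 < r) (hr1 : r ≤ 1) (hN : 5 ≤ N ^ 2)
    (a : AnV p.1.1 p.1.2 r N (fun u => av c (sh y p u)) A)
    (b : AnV p.1.1 p.1.2 r N (fun u => bv c (sh y p u)) B)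
    (ht : |t - y (ip p)| ≤ √n * r / 2) (h3 : q4 c (update y (ip p) t) 3 ≤ 2) (k : Fin 4) :
    Bd (fun x => q4 c (update y (ip p) x) k) t (N ^ 2) (8 / (√n * r)) := by
  have n1 : (1 : ℝ) ≤ n := by exact_mod_cast hn
  have s0 : 0 < √(n : ℝ) := Real.sqrt_pos.2 (by linarith)
  fin_cases k
  · obtain ⟨d1, d2, d3⟩ := dot_cx a a
    exact bd_aff hr s0 d1 d2 ht d3
  · obtain ⟨d1, d2, d3⟩ := dot_cx b b
    exact bd_aff hr s0 d1 d2 ht d3
  · obtain ⟨d1, d2, d3⟩ := dot_cx a b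
    exact bd_aff hr s0 d1 d2 ht d3
  · set c0 : ℝ := ∑ a ∈ univ.erase (ip p), y a * y a with hc0
    have c00 : 0 ≤ c0 := sum_nonneg fun _ _ => mul_self_nonneg _
    have e : ∀ x, q4 c (update y (ip p) x) 3 = (c0 + x ^ 2) / (n : ℝ) ^ 3 := fun x => by
      rw [← dot_update]; rfl
    have n3 : (n : ℝ) ≤ (n : ℝ) ^ 3 := le_self_pow₀ n1 (by norm_num)
    rw [e, div_le_iff₀ (by positivity)] at h3
    have h := bd_of_cx (t := t) (A := N ^ 2) (ρ := √n * r / 2)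
      (F := fun z => ((c0 : ℂ) + z ^ 2) / (n : ℂ) ^ 3) (by positivity) (by fun_prop) fun z hz => by
        have z1 : ‖z - t‖ < √n * r / 2 := mem_ball_iff_norm.1 hz
        have z2 : ‖z‖ ≤ |t| + √n / 2 := by
          have := norm_le_norm_add_norm_sub' z t
          rw [Complex.norm_real, Real.norm_eq_abs] at this
          nlinarith
        have z3 : ‖z‖ ^ 2 ≤ 2 * t ^ 2 + n := by
          have z4 := pow_le_pow_left₀ (norm_nonneg _) z2 2
          nlinarith [Real.sq_sqrt (show (0 : ℝ) ≤ n by linarith), sq_abs t,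
            sq_nonneg (|t| - √n / 2)]
        have z5 := norm_add_le (c0 : ℂ) (z ^ 2)
        rw [Complex.norm_real, Real.norm_eq_abs, abs_of_nonneg c00, norm_pow] at z5
        rw [norm_div, norm_pow, Complex.norm_natCast, div_le_iff₀ (by positivity)]
        nlinarith [mul_le_mul_of_nonneg_right hN (show (0 : ℝ) ≤ (n : ℝ) ^ 3 by positivity)]
    rw [show 4 / (√n * r / 2) = 8 / (√n * r) by field_simp; norm_num] at h
    refine h.congr (Eventually.of_forall fun x => ?_)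
    change q4 c (update y (ip p) x) 3 = _
    rw [e, ← Complex.ofReal_re ((c0 + x ^ 2) / (n : ℝ) ^ 3)]
    push_cast; rfl

end pieces

lemma three_le : (3 : WithTop ℕ∞) ≤ ((⊤ : ℕ∞) : WithTop ℕ∞) :=
  WithTop.coe_le_coe.2 (le_top : (3 : ℕ∞) ≤ ⊤)

/-- the final count -/
lemma count {f : ℝ → ℝ} {t s x τ a M K w Z : ℝ} (x1 : 1 ≤ x) (hs : s = x ^ 3) (τ1 : 1 ≤ τ)
    (a0 : 0 ≤ a) (M1 : 1 ≤ M) (K1 : 1 ≤ K) (w1 : s⁻¹ ≤ w) (w3 : w ≤ 3)
    (hZ : a * M ^ 3 * (1 + 3 * K) ≤ Z)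
    (h : ∀ m : ℕ, m ≤ 3 → |iteratedDeriv m f t| ≤
      a / (s * τ) * (M / s) ^ m + a / (s * τ) * (K * w) * (M / x) ^ m) :
    |f t| ≤ Z ∧ |deriv f t| ≤ Z ∧ |iteratedDeriv 3 f t| ≤ Z * (s ^ 2 * τ)⁻¹ * w := by
  have s1 : 1 ≤ s := hs ▸ one_le_pow₀ x1
  have s2 : 0 < s⁻¹ := by positivity
  have w0 : 0 ≤ w := by linarith
  have M3 : M ≤ M ^ 3 := le_self_pow₀ M1 (by norm_num)
  have b1 : a / (s * τ) ≤ a := div_le_self a0 (one_le_mul_of_one_le_of_one_le s1 τ1)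
  have low : ∀ m : ℕ, m ≤ 1 → |iteratedDeriv m f t| ≤ Z := fun m hm => by
    have p : ∀ u : ℝ, 1 ≤ u → (M / u) ^ m ≤ M ^ 3 := fun u hu =>
      (pow_le_pow_left₀ (by positivity) (div_le_self (by linarith) hu) m).trans
        (pow_le_pow_right₀ M1 (by omega))
    refine (h m (by omega)).trans (le_trans ?_ hZ)
    calc _ ≤ a * M ^ 3 + a * (K * 3) * M ^ 3 := by
          gcongr
          · exact p s s1
          · exact p x x1
      _ = _ := by ring
  refine ⟨by simpa using low 0 (by norm_num), by simpa using low 1 le_rfl, (h 3 le_rfl).trans ?_⟩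
  have e1 : (M / x) ^ 3 = M ^ 3 * s⁻¹ := by rw [hs]; field_simp
  have e2 : (M / s) ^ 3 ≤ M ^ 3 * s⁻¹ * w := by
    have i1 : s⁻¹ ≤ 1 := inv_le_one_of_one_le₀ s1
    have i2 : s⁻¹ * s⁻¹ ≤ w := by nlinarith
    calc _ = M ^ 3 * s⁻¹ * (s⁻¹ * s⁻¹) := by field_simp
      _ ≤ _ := by gcongr
  rw [e1]
  calc _ ≤ a / (s * τ) * (M ^ 3 * s⁻¹ * w) + a / (s * τ) * (3 * K * w) * (M ^ 3 * s⁻¹) := by
        gcongr; linarith
    _ = a * M ^ 3 * (1 + 3 * K) * (s ^ 2 * τ)⁻¹ * w := by field_simp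
    _ ≤ _ := by gcongr

end Crest.Agent.T157.Sw14.Der91

namespace Crest.Agent.T157.Sw14

open Matrix Filter Topology Finset Real Function Metric Der91
open Crest.ProbabilityR.SpinGlassDynamics Crest.Agent.T157.E Crest.Agent.T157.Eig
open Crest.Agent.T157.St Crest.Agent.T157.Ed Crest.Agent.T157.Cq

set_option maxHeartbeats 1600000 in
/-- **derivatives in one coupling** -/
theorem derGlue : DerGlue := by
  intro hkap hsm hres hK c hc ω hω
  obtain ⟨κ, δ, κ0, δ0, hκ⟩ := exists_kap hω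
  have hω3 : ContDiff ℝ 3 ω := hω.1.of_le three_le
  obtain ⟨Cω, Cω1, hCω⟩ := exists_bd hω3 hω.2.1
  obtain ⟨CK, kK, CK1, hCK⟩ := hK c hc κ κ0
  set L := c.l + c.l' with hL
  have L1 : 1 ≤ L := by linarith [hc.2.2.2.1, hc.2.2.2.2]
  have L4 : 1 ≤ L ^ 4 := one_le_pow₀ L1
  set M0 := 8192 * L ^ 4 + 16 * CK with hM0
  set Z0 := 1536 * Cω * L ^ 4 * M0 ^ 3 * (1 + 3 * CK) with hZ0
  have Z00 : 0 ≤ Z0 := by positivity
  have d1 : 0 ≤ 512 * L ^ 4 / δ := by positivity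
  refine ⟨Z0 + 8 + 2 * CK + 512 * L ^ 4 / δ, 3 * kK + 19, by linarith,
    fun n y Λ φ hn hΛ hy => ?_⟩
  set C := Z0 + 8 + 2 * CK + 512 * L ^ 4 / δ with hC
  obtain ⟨w, w0, w1, hw⟩ : ∃ w : Fin n → ℝ, (∀ i, 0 ≤ w i) ∧ ∑ i, w i ^ 2 ≤ 1 ∧
      (Nr κ (q4 c y) → ∀ p : Pair n, ∃ K : ℂ → ℂ,
        DifferentiableOn ℂ K (ball 0 (CK * Λ ^ kK * sx n ^ 2)⁻¹) ∧
        (∀ t : ℝ, |t| < (CK * Λ ^ kK * sx n ^ 2)⁻¹ → K t = Kp c φ (sh y p t)) ∧
        ∀ z ∈ ball (0 : ℂ) (CK * Λ ^ kK * sx n ^ 2)⁻¹,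
          ‖K z - K 0‖ ≤ CK * (w p.1.1 + w p.1.2 + (√n)⁻¹)) := by
    by_cases h : Nr κ (q4 c y)
    · obtain ⟨w, w0, w1, hw⟩ := hCK n y Λ φ hn hΛ hy h
      exact ⟨w, w0, w1, fun _ => hw⟩
    · exact ⟨0, fun _ => le_rfl, by simp, fun h' => absurd h' h⟩
  refine ⟨w, w0, w1, fun p t ht => ?_⟩
  have n1 : (1 : ℝ) ≤ n := by exact_mod_cast hn
  have x1 := one_le_sx hn
  have hs := sqrt_eq n
  have s1 : 1 ≤ √(n : ℝ) := hs ▸ one_le_pow₀ x1
  have xs : sx n ≤ √(n : ℝ) := hs ▸ le_self_pow₀ x1 (by norm_num)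
  have τ1 : 1 ≤ tau n := tau_eq n ▸ one_le_pow₀ x1
  have wle : ∀ i, w i ≤ 1 := fun i => by
    have := (single_le_sum (f := fun i => w i ^ 2) (fun _ _ => sq_nonneg _) (mem_univ i)).trans w1
    nlinarith [w0 i]
  have si : (√(n : ℝ))⁻¹ ≤ 1 := inv_le_one_of_one_le₀ s1
  have pw : ∀ j, j ≤ 3 * kK + 19 → Λ ^ j ≤ Λ ^ (3 * kK + 19) := fun j hj =>
    pow_le_pow_right₀ hΛ hj
  set N := 8 * L ^ 2 * Λ ^ 2 with hN
  have N2 : N ^ 2 = 64 * L ^ 4 * Λ ^ 4 := by rw [hN]; ring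
  have Λ4 : 1 ≤ Λ ^ 4 := one_le_pow₀ hΛ
  have N64 : 64 ≤ N ^ 2 := by
    have := one_le_mul_of_one_le_of_one_le L4 Λ4
    rw [N2]; linarith
  have ΛK : 1 ≤ Λ ^ kK := one_le_pow₀ hΛ
  set M := 128 * N ^ 2 * Λ + 16 * CK * Λ ^ kK with hM
  have p1 : 0 ≤ 64 * N ^ 2 * Λ := by positivity
  have p2 : 0 ≤ 8 * CK * Λ ^ kK := by positivity
  have M1 : 1 ≤ M := by
    have := mul_le_mul N64 hΛ zero_le_one (sq_nonneg N)
    linarith
  rw [show (n : ℝ) * tau n = √n ^ 2 * tau n by rw [Real.sq_sqrt (by linarith)]]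
  refine count (a := 24 * Cω * N ^ 2) (M := M) (K := CK) x1 hs τ1 (by positivity) M1 CK1
    (by linarith [w0 p.1.1, w0 p.1.2]) (by linarith [wle p.1.1, wle p.1.2]) ?_ fun m hm => ?_
  · have m1 : M ≤ M0 * Λ ^ (kK + 5) := by
      have p1 : Λ ^ 5 ≤ Λ ^ (kK + 5) := pow_le_pow_right₀ hΛ (by omega)
      have p2 : Λ ^ kK ≤ Λ ^ (kK + 5) := pow_le_pow_right₀ hΛ (by omega)
      calc M = 8192 * L ^ 4 * Λ ^ 5 + 16 * CK * Λ ^ kK := by rw [hM, N2]; ring
        _ ≤ 8192 * L ^ 4 * Λ ^ (kK + 5) + 16 * CK * Λ ^ (kK + 5) := by gcongr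
        _ = _ := by rw [hM0]; ring
    calc _ ≤ 24 * Cω * N ^ 2 * (M0 * Λ ^ (kK + 5)) ^ 3 * (1 + 3 * CK) := by gcongr
      _ = Z0 * Λ ^ (3 * kK + 19) := by rw [N2, hZ0]; ring
      _ ≤ _ := by gcongr; linarith
  have hq : ContDiff ℝ 3 fun x => q4 c (update y (ip p) x) :=
    ((hsm n c hn hc).2.1.of_le three_le).comp (contDiff_update 3 y (ip p))
  by_cases hin : q4 c (update y (ip p) t) ∈ tsupport ω
  swap
  · have e : hp c ω φ y p =ᶠ[𝓝 t] fun _ => 0 := by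
      filter_upwards [hq.continuous.continuousAt.eventually
        (notMem_tsupport_iff_eventuallyEq.1 hin)] with x hx
      simp only [hp, Hf]
      rw [hx, Pi.zero_apply, zero_mul, mul_zero]
    rw [e.iteratedDeriv_eq, iteratedDeriv_const, ite_self, abs_zero]
    have := w0 p.1.1
    have := w0 p.1.2
    positivity
  obtain ⟨A, A', B, B', a, a', b, b'⟩ := four hres hn hc hΛ hy p
  rw [← hL, ← hN] at a a' b b'
  clear hCK hK hsm hres hZ0 hM0
  clear_value Z0 M0 N L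
  have r0 : 0 < (4 * Λ)⁻¹ := by positivity
  have tb : ∀ {u : ℝ} (j : ℕ), 0 < u → u ≤ C → j ≤ 3 * kK + 19 →
      |t - y (ip p)| ≤ sx n / (u * Λ ^ j) := fun j u0 hu hj => by
    refine ht.trans ?_
    gcongr
  have t1 : |t - y (ip p)| ≤ √n * (4 * Λ)⁻¹ / 2 := by
    refine (tb 1 (by norm_num : (0 : ℝ) < 8) (by linarith) (by omega)).trans ?_
    calc _ ≤ √n / (8 * Λ ^ 1) := by gcongr
      _ = _ := by field_simp; ring
  have t2 : |t - y (ip p)| ≤ √n * (CK * Λ ^ kK * sx n ^ 2)⁻¹ / 2 := by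
    refine (tb kK (by linarith : 0 < 2 * CK) (by linarith) (by omega)).trans_eq ?_
    rw [hs]; field_simp
  set u := (t - y (ip p)) / √n with hu
  have ut : sh y p u = update y (ip p) t := by
    rw [sh, hu]; congr 1; field_simp; ring
  have ua : |u| = |t - y (ip p)| / √n := by rw [hu, abs_div, abs_of_pos (a := √n) (by linarith)]
  have u1 : |u| < (4 * Λ)⁻¹ := by
    rw [ua, div_lt_iff₀ (by linarith)]
    have := mul_pos (show 0 < √(n : ℝ) by linarith) r0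
    linarith
  have u2 : 2 * N ^ 2 / (4 * Λ)⁻¹ * |u| ≤ δ := by
    have h1 := tb 5 (by positivity : 0 < 512 * L ^ 4 / δ) (by linarith) (by omega)
    have h2 : |u| ≤ 1 / (512 * L ^ 4 / δ * Λ ^ 5) := by
      rw [ua, div_le_iff₀ (by linarith)]
      refine h1.trans ?_
      rw [div_mul_eq_mul_div 1, one_mul]; gcongr
    calc _ ≤ 2 * N ^ 2 / (4 * Λ)⁻¹ * (1 / (512 * L ^ 4 / δ * Λ ^ 5)) := by gcongr
      _ = δ := by rw [N2]; field_simp; norm_num
  have z0 : |(0 : ℝ)| < (4 * Λ)⁻¹ := by rwa [abs_zero]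
  have nr : Nr κ (q4 c y) := by
    obtain ⟨e1, e2, e3⟩ := dot_cx a a
    obtain ⟨f1, f2, f3⟩ := dot_cx b b
    obtain ⟨g1, g2, g3⟩ := dot_cx a b
    have i1 := (near e1 e2 u1 (e3 u u1) (e3 0 z0)).trans u2
    have i2 := (near f1 f2 u1 (f3 u u1) (f3 0 z0)).trans u2
    have i3 := (near g1 g2 u1 (g3 u u1) (g3 0 z0)).trans u2
    simp only [ut, sh_zero] at i1 i2 i3
    exact hκ _ hin _ i1 i2 i3
  obtain ⟨K, K1, K2, K3⟩ := hw nr p
  have rK : 0 < (CK * Λ ^ kK * sx n ^ 2)⁻¹ := by positivity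
  have K0 : K 0 = Kp c φ y := by
    have := K2 0 (by rwa [abs_zero])
    rwa [sh_zero] at this
  have bK := bd_aff (F := fun z => K z - K 0) rK (by linarith : 0 < √(n : ℝ)) (K1.sub_const _) K3 t2
    (f := fun x => Kp c φ (update y (ip p) x) - Kp c φ y) fun v hv => by
      rw [K2 v hv, K0]; push_cast; rfl
  have k1 : |Kp c φ y| ≤ 1 := by
    have hV : ∀ (e : Fin n → ℝ) x, 0 ≤ c.s * sl e x := fun e x =>
      mul_nonneg hc.2.2.1 (sq_nonneg _)
    have := fun W e => (hkap n W c.ε hn hc.1).1 _ _ (hV e) (hV 0)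
    exact abs_le.2 ⟨le_trans (by norm_num) (this _ _).1, (this _ _).2.1⟩
  have D0 : 0 ≤ 8 / (√n * (4 * Λ)⁻¹) := by positivity
  have bX := bd_X hn r0 a a' b b' t1
  have bq := bd_comp hω3 hq hCω (by linarith : 1 ≤ N ^ 2) D0 (bd_q hn r0
    (inv_le_one_of_one_le₀ (by linarith)) (by linarith) a b t1 (hω.2.2 hin).2.2)
  have bY := (bX.mono le_rfl D0 (le_mul_of_one_le_left D0 (by linarith : 1 ≤ N ^ 2))).mul bq
  have e1 : 2 * (N ^ 2 * (8 / (√n * (4 * Λ)⁻¹))) = 64 * N ^ 2 * Λ / √n := by field_simp; ring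
  have e2 : 8 / (√n * (CK * Λ ^ kK * sx n ^ 2)⁻¹) = 8 * CK * Λ ^ kK / sx n := by
    rw [hs]; field_simp
  have e3 : 4 * N ^ 2 / (√n * tau n) * (6 * Cω) = 24 * Cω * N ^ 2 / (√n * tau n) := by ring
  rw [e1, e3] at bY
  rw [e2] at bK
  have T1 := (bY.mono (D' := M / 2 / √n) le_rfl (by positivity) (by gcongr; linarith)).mul
    (bd_const k1 (by positivity))
  have T2 := (bY.mono (D' := M / 2 / sx n) le_rfl (by positivity) (by gcongr; linarith)).mul
    (bK.mono le_rfl (by positivity) (by gcongr; linarith))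
  have T3 := bd_add T1 T2 hm
  rw [mul_one, show 2 * (M / 2 / √n) = M / √n by ring,
    show 2 * (M / 2 / sx n) = M / sx n by ring] at T3
  convert T3 using 3
  ext x
  simp only [hp, Hf]; ring

end Crest.Agent.T157.Sw14

end
end

-- ▼ part T157/SwPr_49
section

/-!
# Row 157, part C: SWAP for coins, the good event has very high probability (helper49)
-/

set_option autoImplicit false

noncomputable section

namespace Crest.Agent.T157.Sw14

open MeasureTheory ProbabilityTheory Matrix Filter Topology Finset Real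
open Crest.ProbabilityR.SpinGlassDynamics Crest.Agent.T157.E Crest.Agent.T157.Eig
open Crest.Agent.T157.Ed
open Crest.Agent.T157.Ll (Res gb ee msc Psi qq al Dom resApi mscApi InS)

namespace Pr49

variable {n : ℕ}

lemma real_pre {α β : Type*} [MeasurableSpace α] [MeasurableSpace β] {μ : Measure α}
    {ν : Measure β} [IsFiniteMeasure ν] {f : α → β} (hf : MeasurePreserving f μ ν) (s : Set β) :
    μ.real (f ⁻¹' s) ≤ ν.real s :=
  ENNReal.toReal_mono (measure_ne_top _ _)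
    (hf.map_eq ▸ Measure.le_map_apply hf.measurable.aemeasurable s)

/-- the law of the matrix coordinates -/
abbrev PW (n : ℕ) : Measure (Ix n → ℝ) := Measure.pi fun k => entryLaw (isC (.inl k : I4 n))

lemma mpW (n : ℕ) : MeasurePreserving (fun y : I4 n → ℝ =>
    ((fun p => y (.inl (.inl p)), fun k => y (.inl (.inr k))) : (Pair n → ℝ) × (Fin n → ℝ)))
    (P4 n) ((couplingLaw true n).prod (gv (Fin n))) := by
  rw [couplingLaw_eq]
  exact (measurePreserving_sumPiEquivProdPi fun k : Ix n => entryLaw (isC (.inl k : I4 n))).comp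
    (measurePreserving_fst.comp
      (measurePreserving_sumPiEquivProdPi fun k : I4 n => entryLaw (isC k)))

lemma mp1 (n : ℕ) : MeasurePreserving (fun y : I4 n → ℝ => ((fun k => y (.inl k)), x1 y))
    (P4 n) ((PW n).prod (gv (Fin n))) :=
  ((MeasurePreserving.id (PW n)).prod (measurePreserving_fst.comp
    (measurePreserving_sumPiEquivProdPi fun k : Fin n ⊕ Fin n =>
      entryLaw (isC (.inr k : I4 n))))).comp
    (measurePreserving_sumPiEquivProdPi fun k : I4 n => entryLaw (isC k))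

lemma mp2 (n : ℕ) : MeasurePreserving (fun y : I4 n → ℝ => ((fun k => y (.inl k)), x2 y))
    (P4 n) ((PW n).prod (gv (Fin n))) :=
  ((MeasurePreserving.id (PW n)).prod (measurePreserving_snd.comp
    (measurePreserving_sumPiEquivProdPi fun k : Fin n ⊕ Fin n =>
      entryLaw (isC (.inr k : I4 n))))).comp
    (measurePreserving_sumPiEquivProdPi fun k : I4 n => entryLaw (isC k))

lemma coin_null (n : ℕ) : (P4 n).real {y | ¬ ∀ p, |y (ip p)| = 1} = 0 := by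
  have h : ∀ᵐ y ∂P4 n, ∀ p, |y (ip p)| = 1 := by
    refine ae_all_iff.2 fun p => ?_
    refine (measurePreserving_eval (fun k : I4 n => entryLaw (isC k)) (ip p)).quasiMeasurePreserving.ae
      (p := fun x => |x| = 1) ?_
    show ∀ᵐ x ∂coin, |x| = 1
    rw [ae_add_measure_iff]
    constructor <;> refine Measure.ae_smul_measure ?_ _ <;> rw [ae_dirac_eq] <;> simp
  rw [measureReal_def, ae_iff.1 h, ENNReal.toReal_zero]

lemma tail_re (a : Fin n → ℝ) {V t : ℝ} (hV : 0 < V) (ht : 0 ≤ t) (ha : ∑ k, a k ^ 2 ≤ V) :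
    (gv (Fin n)).real {ξ | t ≤ ∑ k, a k * ξ k} ≤ exp (-t ^ 2 / (2 * V)) :=
  (Nrm.subG_dot (fun _ : Fin n => gaussianReal 0 1) (fun _ => Nrm.subG_gauss) a
    (c := NNReal.mk V hV.le) ha).measure_ge_le ht

lemma tail_c (g : Fin n → ℂ) {V T : ℝ} (hV : 0 < V) (hT : 0 ≤ T) (hg : ∑ k, ‖g k‖ ^ 2 ≤ V) :
    (gv (Fin n)).real {ξ | T < ‖∑ k, g k * (ξ k : ℂ)‖ ^ 2} ≤ 4 * exp (-(T / (4 * V))) := by
  set t := √(T / 2) with ht
  have t0 : 0 ≤ t := sqrt_nonneg _
  have t2 : t ^ 2 = T / 2 := sq_sqrt (by positivity)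
  have hn : ∀ k, ‖g k‖ ^ 2 = (g k).re ^ 2 + (g k).im ^ 2 := fun k => by
    rw [Complex.sq_norm, Complex.normSq_apply]; ring
  have r1 : ∑ k, (g k).re ^ 2 ≤ V :=
    (sum_le_sum fun k _ => by rw [hn]; linarith [sq_nonneg (g k).im]).trans hg
  have r2 : ∑ k, (g k).im ^ 2 ≤ V :=
    (sum_le_sum fun k _ => by rw [hn]; linarith [sq_nonneg (g k).re]).trans hg
  have b1 := tail_re (fun k => (g k).re) hV t0 r1
  have b2 := tail_re (fun k => -(g k).re) hV t0 (by simpa using r1)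
  have b3 := tail_re (fun k => (g k).im) hV t0 r2
  have b4 := tail_re (fun k => -(g k).im) hV t0 (by simpa using r2)
  have hs : {ξ : Fin n → ℝ | T < ‖∑ k, g k * (ξ k : ℂ)‖ ^ 2} ⊆
      ({ξ | t ≤ ∑ k, (g k).re * ξ k} ∪ {ξ | t ≤ ∑ k, -(g k).re * ξ k}) ∪
        ({ξ | t ≤ ∑ k, (g k).im * ξ k} ∪ {ξ | t ≤ ∑ k, -(g k).im * ξ k}) := by
    intro ξ hξ
    by_contra hc
    simp only [Set.mem_union, Set.mem_ofPred_eq, not_or, not_le, neg_mul, sum_neg_distrib] at hc hξ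
    rw [Complex.sq_norm, Complex.normSq_apply] at hξ
    simp only [Complex.re_sum, Complex.im_sum, Complex.mul_re, Complex.mul_im, Complex.ofReal_re,
      Complex.ofReal_im, mul_zero, sub_zero, zero_add] at hξ
    obtain ⟨⟨c1, c2⟩, c3, c4⟩ := hc
    nlinarith
  have e : -t ^ 2 / (2 * V) = -(T / (4 * V)) := by rw [t2]; field_simp; norm_num
  rw [e] at b1 b2 b3 b4
  refine (measureReal_mono hs (measure_ne_top _ _)).trans ((measureReal_union_le _ _).trans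
    ((add_le_add (measureReal_union_le _ _) (measureReal_union_le _ _)).trans ?_))
  linarith

lemma meas_Res (z : ℂ) (a b : Fin n) : Measurable fun y : Ix n → ℝ => Res (Wy n y) z a b := by
  have hc : Continuous fun y : Ix n → ℝ =>
      (Wy n y).map (fun x => (x : ℂ)) - z • (1 : Matrix (Fin n) (Fin n) ℂ) :=
    ((continuous_Wy n).matrix_map Complex.continuous_ofReal).sub continuous_const
  simp only [Res, Matrix.inv_def, Ring.inverse_eq_inv', Matrix.smul_apply, smul_eq_mul]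
  exact hc.matrix_det.measurable.inv.mul (hc.matrix_adjugate.matrix_elem a b).measurable

/-- a large component of `G ξ` although the row of `G` is small -/
def Bad (n : ℕ) (z : ℂ) (V T : ℝ) : Set ((Ix n → ℝ) × (Fin n → ℝ)) :=
  ⋃ a ∈ (univ : Finset (Fin n)), {q | ∑ k, ‖Res (Wy n q.1) z a k‖ ^ 2 ≤ V ∧
    T < ‖∑ k, Res (Wy n q.1) z a k * (q.2 k : ℂ)‖ ^ 2}

lemma bad_le (z : ℂ) {V T : ℝ} (hV : 0 < V) (hT : 0 ≤ T) :
    ((PW n).prod (gv (Fin n))).real (Bad n z V T) ≤ n * (4 * exp (-(T / (4 * V)))) := by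
  refine (measureReal_biUnion_finset_le _ _).trans ((sum_le_sum (g := fun _ => 4 * exp (-(T / (4 * V))))
    fun a _ => ?_).trans (by simp))
  have m1 : ∀ k, Measurable fun q : (Ix n → ℝ) × (Fin n → ℝ) => Res (Wy n q.1) z a k := fun k =>
    (meas_Res z a k).comp measurable_fst
  have hm : MeasurableSet {q : (Ix n → ℝ) × (Fin n → ℝ) | ∑ k, ‖Res (Wy n q.1) z a k‖ ^ 2 ≤ V ∧
      T < ‖∑ k, Res (Wy n q.1) z a k * (q.2 k : ℂ)‖ ^ 2} :=
    (measurableSet_le (Finset.measurable_sum _ fun k _ => (m1 k).norm.pow_const 2)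
      measurable_const).inter (measurableSet_lt measurable_const
        ((Finset.measurable_sum _ fun k _ => (m1 k).mul (Complex.measurable_ofReal.comp
          ((measurable_pi_apply k).comp measurable_snd))).norm.pow_const 2))
  refine ENNReal.toReal_le_of_le_ofReal (by positivity) ?_
  rw [Measure.prod_apply hm]
  refine (lintegral_mono (g := fun _ => ENNReal.ofReal (4 * exp (-(T / (4 * V))))) fun y => ?_).trans
    (by simp)
  by_cases h : ∑ k, ‖Res (Wy n y) z a k‖ ^ 2 ≤ V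
  · rw [← ofReal_measureReal]
    refine ENNReal.ofReal_le_ofReal (le_trans (measureReal_mono ?_ (measure_ne_top _ _))
      (tail_c _ hV hT h))
    exact fun ξ hξ => hξ.2
  · have : Prod.mk y ⁻¹' {q : (Ix n → ℝ) × (Fin n → ℝ) | ∑ k, ‖Res (Wy n q.1) z a k‖ ^ 2 ≤ V ∧
        T < ‖∑ k, Res (Wy n q.1) z a k * (q.2 k : ℂ)‖ ^ 2} = ∅ :=
      Set.eq_empty_of_forall_notMem fun ξ hξ => h hξ.1
    simp only [this, measure_empty, zero_le]

lemma zL_im (L : ℝ) : (zL n L).im = L / tau n := by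
  simp only [zL, Complex.add_im, Complex.mul_im, Complex.ofReal_re, Complex.I_im, mul_one,
    Complex.ofReal_im, Complex.I_re, mul_zero, add_zero, Complex.im_ofNat, zero_add]

lemma zL_re (L : ℝ) : (zL n L).re = 2 := by
  simp only [zL, Complex.add_re, Complex.mul_re, Complex.ofReal_re, Complex.I_im, mul_one,
    Complex.ofReal_im, Complex.I_re, mul_zero, add_zero, Complex.re_ofNat, sub_zero]

lemma dom_zL (hn : 1 ≤ n) {L : ℝ} (hL : 1 ≤ L) (hLt : L ≤ tau n) : Dom 3 (1 / 4) n (zL n L) := by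
  have n1 : (1 : ℝ) ≤ n := by exact_mod_cast hn
  have t0 : 0 < tau n := by linarith
  refine ⟨by rw [zL_re]; norm_num, ?_, ?_⟩
  · rw [zL_im, le_div_iff₀ t0, tau, ← rpow_add (by linarith)]
    exact (rpow_le_one_of_one_le_of_nonpos n1 (by norm_num)).trans hL
  · rw [zL_im, div_le_iff₀ t0]; linarith

lemma psi_le (hn : 1 ≤ n) {L : ℝ} (hL : 1 ≤ L) (hLt : L ≤ tau n) :
    (msc (zL n L)).im ≤ 2 * L / sx n ^ 2 ∧ Psi n (zL n L) ≤ 3 / sx n ^ 2 := by
  have s0 := sx_pos hn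
  have t0 : 0 < tau n := by linarith
  have η0 : 0 < L / tau n := by positivity
  have η1 : L / tau n ≤ 1 := (div_le_one t0).2 hLt
  have hz : 0 < (zL n L).im := by rwa [zL_im]
  have a1 : ‖zL n L - 2‖ = L / tau n := by
    rw [zL, add_sub_cancel_left, norm_mul, Complex.norm_I, mul_one, Complex.norm_real,
      Real.norm_of_nonneg η0.le]
  have a2 : ‖zL n L + 2‖ ≤ 5 := by
    have : zL n L + 2 = (zL n L - 2) + 4 := by ring
    rw [this]
    refine (norm_add_le _ _).trans ?_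
    rw [a1, Complex.norm_ofNat]; linarith
  have a3 : al (zL n L) ≤ 4 * L / sx n ^ 2 := by
    refine (abs_le_of_sq_le_sq' ?_ (by positivity)).2
    rw [mscApi.al_sq, a1]
    refine (mul_le_mul_of_nonneg_left a2 η0.le).trans ?_
    rw [tau_eq, div_pow, ← pow_mul, div_mul_eq_mul_div]
    exact div_le_div_of_nonneg_right (by nlinarith) (by positivity)
  have m1 : (msc (zL n L)).im ≤ 2 * L / sx n ^ 2 := by
    have := mscApi.im_le_al hz
    have e : 4 * L / sx n ^ 2 = 2 * (2 * L / sx n ^ 2) := by ring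
    linarith
  have q1 : qq n (zL n L) = 1 / (L * sx n ^ 2) := by
    rw [qq, zL_im, tau_eq, ← sx_pow_six n]; field_simp
  refine ⟨m1, ?_⟩
  have q2 : qq n (zL n L) ≤ 1 / sx n ^ 2 := by
    rw [q1]; exact one_div_le_one_div_of_le (by positivity) (le_mul_of_one_le_left (by positivity) hL)
  have q3 : √(qq n (zL n L) * (msc (zL n L)).im) ≤ 2 / sx n ^ 2 := by
    refine sqrt_le_iff.2 ⟨by positivity, ?_⟩
    rw [q1]
    refine (mul_le_mul_of_nonneg_left m1 (by positivity)).trans ?_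
    have : 1 / (L * sx n ^ 2) * (2 * L / sx n ^ 2) = 2 / (sx n ^ 2) ^ 2 := by field_simp
    rw [this, div_pow]
    exact div_le_div_of_nonneg_right (by norm_num) (by positivity)
  have e : 3 / sx n ^ 2 = 2 / sx n ^ 2 + 1 / sx n ^ 2 := by ring
  rw [Psi]; linarith

lemma ee_dot (a b : Fin n) : ee a ⬝ᵥ ee b = if a = b then 1 else 0 := by
  simp [ee, Pi.single_apply, eq_comm]

lemma gw_of (hn : 1 ≤ n) {L A : ℝ} (hL : 1 ≤ L) (hLt : L ≤ tau n) (hA : 0 ≤ A) {W : Mat n}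
    (hW : W.IsHermitian) (h : ∀ a b : Fin n, ‖gb W (zL n L) (ee a) (ee b) -
      msc (zL n L) * ((ee a ⬝ᵥ ee b : ℝ) : ℂ)‖ ≤ A * Psi n (zL n L)) :
    (∀ a b, ‖Res W (zL n L) a b‖ ≤ 2 + 3 * A) ∧
      (∀ a, ∑ k, ‖Res W (zL n L) k a‖ ^ 2 ≤ (2 + 3 * A) * sx n ^ 2) ∧
      ∀ a, ∑ k, ‖Res W (zL n L) a k‖ ^ 2 ≤ (2 + 3 * A) * sx n ^ 2 := by
  have s0 := sx_pos hn
  have s1 : 1 ≤ sx n ^ 2 := one_le_pow₀ (one_le_sx hn)
  have t0 : 0 < tau n := by linarith
  have hz : 0 < (zL n L).im := by rw [zL_im]; positivity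
  obtain ⟨m1, p1⟩ := psi_le hn hL hLt
  have p2 : A * Psi n (zL n L) ≤ 3 * A / sx n ^ 2 :=
    (mul_le_mul_of_nonneg_left p1 hA).trans (le_of_eq (by ring))
  have p3 : 3 * A / sx n ^ 2 ≤ 3 * A := div_le_self (by positivity) s1
  have h2 : ∀ a, ∑ k, ‖Res W (zL n L) k a‖ ^ 2 ≤ (2 + 3 * A) * sx n ^ 2 := fun a => by
    have w := resApi.ward hW hz (ee a)
    simp only [resApi.entry] at w
    have h1 := (Complex.im_le_norm _).trans ((h a a).trans p2)
    rw [ee_dot, if_pos rfl, Complex.ofReal_one, mul_one, Complex.sub_im, resApi.entry] at h1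
    rw [w, zL_im, div_le_iff₀ (by positivity), tau_eq]
    have e : (2 + 3 * A) * sx n ^ 2 * (L / sx n ^ 4) = 2 * L / sx n ^ 2 + L * (3 * A / sx n ^ 2) := by
      field_simp
    have : 3 * A / sx n ^ 2 ≤ L * (3 * A / sx n ^ 2) := le_mul_of_one_le_left (by positivity) hL
    linarith
  refine ⟨fun a b => ?_, h2, fun a => ?_⟩
  · have h1 := norm_le_norm_add_norm_sub' (gb W (zL n L) (ee a) (ee b))
      (msc (zL n L) * ((ee a ⬝ᵥ ee b : ℝ) : ℂ))
    have h3 : ‖msc (zL n L) * ((ee a ⬝ᵥ ee b : ℝ) : ℂ)‖ ≤ 1 := by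
      rw [ee_dot]
      split_ifs
      · simpa using mscApi.norm_le hz
      · simp
    rw [← resApi.entry]
    linarith [h a b]
  · refine le_trans (le_of_eq (sum_congr rfl fun k _ => ?_)) (h2 a)
    rw [← resApi.entry, ← resApi.entry, resApi.symm hW]

lemma gd1_of (hn : 1 ≤ n) {L A : ℝ} (hL : 1 ≤ L) (hLt : L ≤ tau n) (hA : 4 ≤ A) {y : Ix n → ℝ}
    {ξ : Fin n → ℝ} (h : ∀ a b : Fin n, ‖gb (Wy n y) (zL n L) (ee a) (ee b) -
      msc (zL n L) * ((ee a ⬝ᵥ ee b : ℝ) : ℂ)‖ ≤ A * Psi n (zL n L))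
    (hb : (y, ξ) ∉ Bad n (zL n L) (A ^ 2 * sx n ^ 2) ((A ^ 2) ^ 2 * sx n ^ 2)) :
    Gd1 n L (A ^ 2) (Wy n y) ξ := by
  obtain ⟨g1, g2, g3⟩ := gw_of hn hL hLt (by linarith) (Wy_herm y) h
  have a1 : 2 + 3 * A ≤ A ^ 2 := by nlinarith
  have a2 : A ^ 2 ≤ (A ^ 2) ^ 2 := by nlinarith
  have s0 := sq_nonneg (sx n)
  refine ⟨fun a b => (g1 a b).trans a1,
    fun a => (g2 a).trans (mul_le_mul_of_nonneg_right (a1.trans a2) s0), fun a => ?_⟩
  by_contra hc
  exact hb (Set.mem_biUnion (mem_coe.2 (mem_univ a))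
    ⟨(g3 a).trans (mul_le_mul_of_nonneg_right a1 s0), not_le.1 hc⟩)

lemma lim (m : ℕ) {b c : ℝ} (hb : 0 < b) (hc : 0 < c) :
    Tendsto (fun n : ℕ => (n : ℝ) ^ m * exp (-b * (n : ℝ) ^ c)) atTop (𝓝 0) := by
  refine ((tendsto_rpow_mul_exp_neg_mul_atTop_nhds_zero (m / c) b hb).comp
    ((tendsto_rpow_atTop hc).comp tendsto_natCast_atTop_atTop)).congr fun n => ?_
  simp only [Function.comp]
  rw [← rpow_mul (Nat.cast_nonneg n), mul_div_cancel₀ _ hc.ne', rpow_natCast]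

end Pr49

open Pr49

theorem prStmt : PrStmt := by
  intro c hc δ hδ m
  obtain ⟨-, -, -, l1, l2⟩ := hc
  obtain ⟨c₀, hc₀, hI⟩ :=
    (Ll.All.isoStmt 3 (1 / 4) (δ / 2) (by norm_num) (by positivity)).wmat
  have ht : Tendsto tau atTop atTop :=
    (tendsto_rpow_atTop (by norm_num)).comp tendsto_natCast_atTop_atTop
  have hA : Tendsto (fun n : ℕ => (n : ℝ) ^ (δ / 2)) atTop atTop :=
    (tendsto_rpow_atTop (by positivity)).comp tendsto_natCast_atTop_atTop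
  have h0 := (lim m one_pos hc₀).add ((lim (m + 1) (b := 1 / 4) (by norm_num) hδ).const_mul 8)
  rw [mul_zero, add_zero] at h0
  refine squeeze_zero' (Eventually.of_forall fun n => by positivity) ?_ h0
  filter_upwards [hI, eventually_ge_atTop 1, ht.eventually_ge_atTop c.l,
    ht.eventually_ge_atTop c.l', hA.eventually_ge_atTop 4] with n hn n1 t1 t2 A4
  set A : ℝ := (n : ℝ) ^ (δ / 2) with hAd
  have eA : A ^ 2 = (n : ℝ) ^ δ := by
    rw [hAd, ← rpow_natCast, ← rpow_mul (Nat.cast_nonneg n)]; norm_num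
  have s0 := sx_pos n1
  have b0 := (real_pre (mpW n) _).trans
    (ENNReal.toReal_le_of_le_ofReal (exp_pos _).le (hn true (0, 0)))
  have V0 : 0 < A ^ 2 * sx n ^ 2 := by positivity
  have T0 : 0 ≤ (A ^ 2) ^ 2 * sx n ^ 2 := by positivity
  have b1 := (real_pre (mp1 n) _).trans (bad_le (zL n c.l') V0 T0)
  have b2 := (real_pre (mp2 n) _).trans (bad_le (zL n c.l) V0 T0)
  have e1 : -((A ^ 2) ^ 2 * sx n ^ 2 / (4 * (A ^ 2 * sx n ^ 2))) = -(1 / 4) * (n : ℝ) ^ δ := by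
    rw [← eA]; field_simp
  rw [e1] at b1 b2
  have b := (measureReal_union_le (μ := P4 n) _ _).trans (add_le_add
    ((measureReal_union_le _ _).trans (add_le_add (coin_null n).le b0))
    ((measureReal_union_le _ _).trans (add_le_add b1 b2)))
  refine (mul_le_mul_of_nonneg_left ((measureReal_mono ?_ (measure_ne_top _ _)).trans b)
    (by positivity)).trans (le_of_eq (by rw [neg_one_mul]; ring))
  intro y hy
  by_contra hcon
  simp only [Set.mem_union, Set.mem_preimage, Set.mem_ofPred_eq, not_or, not_not] at hcon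
  obtain ⟨⟨c1, c2⟩, c3, c4⟩ := hcon
  have c5 := c2 (by simp) (by simp)
  refine hy ⟨⟨?_, ?_⟩, c1⟩ <;> rw [← eA]
  · exact gd1_of n1 l2 t2 A4 (fun a b => c5 _ (dom_zL n1 l2 t2) _ _ (.inr (.inr ⟨a, rfl⟩))
      (.inr (.inr ⟨b, rfl⟩))) c3
  · exact gd1_of n1 l1 t1 A4 (fun a b => c5 _ (dom_zL n1 l1 t1) _ _ (.inr (.inr ⟨a, rfl⟩))
      (.inr (.inr ⟨b, rfl⟩))) c4

end Crest.Agent.T157.Sw14

end
end

-- ▼ part T157/SwG_13

/-!
# Row 157, part C: SWAP for coin couplings, the leaves `Glue` and `TrStmt` (helper13)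
-/

set_option autoImplicit false

noncomputable section

namespace Crest.Agent.T157.Sw14

open MeasureTheory ProbabilityTheory Matrix Filter Topology Finset Real Function
open Crest.ProbabilityR.SpinGlassDynamics Crest.Agent.T157.E Crest.Agent.T157.Eig
open Crest.Agent.T157.St Crest.Agent.T157.Ed Crest.Agent.T157.Cq Crest.Agent.T157.Cond
open Crest.Agent.T157.Tr (Om)

/-- **`Glue`** -/
theorem glue : Glue := by
  intro hw hf hc hp c hc0 ω hω
  obtain ⟨C, k, hC, H⟩ := hc c hc0 (wt ω) (hw ω hω)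
  set δ : ℝ := 1 / (12 * (k + 1)) with hδ
  have δ0 : 0 < δ := by positivity
  have t1 : Tendsto (fun n : ℕ => (n : ℝ) ^ (1 / 12 : ℝ)) atTop atTop :=
    (tendsto_rpow_atTop (by norm_num)).comp tendsto_natCast_atTop_atTop
  have t2 : Tendsto (fun n : ℕ => 2 * (C / (n : ℝ) ^ (1 / 12 : ℝ) + C * ((n : ℝ) ^ k *
      (P4 n).real {y | Good c ((n : ℝ) ^ δ) y ∧ ∀ p, |y (ip p)| = 1}ᶜ))) atTop
      (𝓝 (2 * (0 + C * 0))) :=
    ((tendsto_const_nhds.div_atTop t1).add ((hp c hc0 δ δ0 k).const_mul C)).const_mul 2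
  simp only [mul_zero, add_zero] at t2
  refine squeeze_zero_norm' ?_ t2
  filter_upwards [eventually_ge_atTop 1, t1.eventually_ge_atTop C] with n hn hn2
  have n1 : (1 : ℝ) ≤ n := by exact_mod_cast hn
  have n0 : (0 : ℝ) < n := by linarith
  set x : ℝ := (n : ℝ) ^ (1 / 12 : ℝ) with hx
  have x0 : 0 < x := by positivity
  have hs : sx n = x * x := by
    rw [sx, hx, ← rpow_add n0]; norm_num
  have hL : ((n : ℝ) ^ δ) ^ k ≤ x := by
    rw [← rpow_natCast, ← rpow_mul n0.le, hx]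
    refine rpow_le_rpow_of_exponent_le n1 ?_
    rw [hδ, div_mul_eq_mul_div, div_le_div_iff₀ (by positivity) (by norm_num)]
    linarith
  have L1 : (1 : ℝ) ≤ (n : ℝ) ^ δ := one_le_rpow n1 δ0.le
  have L0 : (0 : ℝ) ≤ ((n : ℝ) ^ δ) ^ k := by positivity
  have := hf n c ω hn hc0 hω {y | Good c ((n : ℝ) ^ δ) y ∧ ∀ p, |y (ip p)| = 1} (C / x)
    (C * (n : ℝ) ^ k) (by positivity) (fun φ y => (H n y φ hn).1) fun φ y hy => by
      refine ((H n y φ hn).2 _ L1 hy.1 hy.2 ?_).trans ?_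
      · rw [hs]; exact mul_le_mul hn2 hL L0 x0.le
      · rw [hs, div_le_div_iff₀ (by positivity) x0]
        have : C * ((n : ℝ) ^ δ) ^ k ≤ C * x := mul_le_mul_of_nonneg_left hL (by linarith)
        nlinarith
  rw [Real.norm_eq_abs, ← mul_assoc C]
  exact this

namespace G13

variable {n : ℕ}

lemma rot_half (a b : Fin n → ℝ) : rot a b (π / 2) =
    1 - vecMulVec a a - vecMulVec b b + vecMulVec b a - vecMulVec a b := by
  rw [rot, cos_pi_div_two, sin_pi_div_two, zero_sub, neg_one_smul, one_smul]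
  abel

lemma rot_mulVec {a b : Fin n → ℝ} (ha : a ⬝ᵥ a = 1) (hab : a ⬝ᵥ b = 0) :
    rot a b (π / 2) *ᵥ a = b := by
  have hba : b ⬝ᵥ a = 0 := by rwa [dotProduct_comm]
  simp [rot_half, add_mulVec, sub_mulVec, vecMulVec_mulVec, ha, hba]

lemma frame {a b : Fin n → ℝ} (h0 : 0 < a ⬝ᵥ a) (h1 : (a ⬝ᵥ b) ^ 2 < a ⬝ᵥ a * b ⬝ᵥ b) :
    unitv a ⬝ᵥ unitv a = 1 ∧ prp a b ⬝ᵥ prp a b = 1 ∧ unitv a ⬝ᵥ prp a b = 0 := by
  have o : a ⬝ᵥ (b - ((a ⬝ᵥ b) / (a ⬝ᵥ a)) • a) = 0 := by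
    rw [dotProduct_sub, dotProduct_smul, smul_eq_mul, div_mul_cancel₀ _ h0.ne', sub_self]
  refine ⟨unitv_dot fun h => by simp [h] at h0, unitv_dot fun h => ?_, ?_⟩
  · have := congrArg (fun v => v ⬝ᵥ b) h
    simp only [sub_dotProduct, smul_dotProduct, smul_eq_mul, zero_dotProduct] at this
    have e : a ⬝ᵥ a * b ⬝ᵥ b = (a ⬝ᵥ b) ^ 2 := by
      rw [sub_eq_zero.1 this]; field_simp
    linarith
  · rw [prp, unitv, unitv, smul_dotProduct, dotProduct_smul, o, smul_zero, smul_zero]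

lemma ps_eq {a b : Fin n → ℝ} (h0 : 0 < a ⬝ᵥ a) :
    ps a b = (len a)⁻¹ * (len (b - ((a ⬝ᵥ b) / (a ⬝ᵥ a)) • a))⁻¹ := by
  rw [ps, ← mul_inv, len, len, ← sqrt_mul h0.le]
  congr 2
  simp only [sub_dotProduct, dotProduct_sub, smul_dotProduct, dotProduct_smul, smul_eq_mul,
    dotProduct_comm b a]
  field_simp
  ring

lemma S_eq {a b : Fin n → ℝ} (h0 : 0 < a ⬝ᵥ a) :
    ps a b • Og a b = vecMulVec (prp a b) (unitv a) - vecMulVec (unitv a) (prp a b) := by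
  rw [ps_eq h0]
  ext i j
  simp only [Og, prp, unitv, Matrix.smul_apply, Matrix.sub_apply, vecMulVec_apply, Pi.smul_apply,
    Pi.sub_apply, smul_eq_mul]
  ring

lemma Rt_half {a b : Fin n → ℝ} (h0 : 0 < a ⬝ᵥ a) (h1 : (a ⬝ᵥ b) ^ 2 < a ⬝ᵥ a * b ⬝ᵥ b) :
    Rt (π / 2) a b = rot (unitv a) (prp a b) (π / 2) := by
  obtain ⟨f1, f2, f3⟩ := frame h0 h1
  have f4 : prp a b ⬝ᵥ unitv a = 0 := by rwa [dotProduct_comm]
  have e : ps a b ^ 2 • (Og a b * Og a b) = (ps a b • Og a b) * (ps a b • Og a b) := by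
    rw [Matrix.smul_mul, Matrix.mul_smul, smul_smul, sq]
  rw [Rt, cos_pi_div_two, sin_pi_div_two, sub_zero, one_mul, one_mul, e, S_eq h0, rot_half]
  simp only [Matrix.mul_sub, Matrix.sub_mul, vecMulVec_mul_vecMulVec, f1, f2, f3, f4, one_smul,
    zero_smul, vecMulVec_zero]
  abel

lemma Rt_zero (a b : Fin n → ℝ) : Rt 0 a b = 1 := by
  simp [Rt]

lemma swp_eq (c : Par) (y : I4 n → ℝ) (h0 : 0 < av c y ⬝ᵥ av c y)
    (h1 : (av c y ⬝ᵥ bv c y) ^ 2 < av c y ⬝ᵥ av c y * bv c y ⬝ᵥ bv c y) :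
    swp c.ε c.s (W4 y) (av c y) (bv c y) = Kp c 0 y - Kp c (π / 2) y := by
  obtain ⟨f1, -, f3⟩ := frame h0 h1
  have e : (√(av c y ⬝ᵥ av c y))⁻¹ • rot (unitv (av c y)) (prp (av c y) (bv c y)) (π / 2) *ᵥ av c y
      = prp (av c y) (bv c y) := by
    rw [← mulVec_smul]; exact rot_mulVec f1 f3
  rw [swp, Kp, Kp, Rt_zero, Rt_half h0 h1, e, Matrix.one_mul, transpose_one, Matrix.mul_one,
    one_mulVec]
  rfl

lemma meas_kap (m : MsStmt) {X : Type*} [MeasurableSpace X] (ε s : ℝ) {W : X → Mat n}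
    {a : X → Fin n → ℝ} (hW : Measurable W) (ha : Measurable a) :
    Measurable fun x => kap (W x) ε fun y => s * sl (a x) y := by
  have h : Measurable fun x => (fun y => s * sl (a x) y : Cube n → ℝ) :=
    measurable_pi_lambda _ fun y => by unfold sl; fun_prop
  have hc : Continuous fun q : (Fin n → Fin n → ℝ) × (Cube n → ℝ) => kap (Matrix.of q.1) ε q.2 :=
    (m n ε 0).2
  have : OpensMeasurableSpace ((Fin n → Fin n → ℝ) × (Cube n → ℝ)) := Prod.opensMeasurableSpace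
  have hk := hc.measurable
  have hW' : Measurable fun x => (fun i j => W x i j : Fin n → Fin n → ℝ) :=
    measurable_pi_lambda _ fun i => measurable_pi_lambda _ fun j => hW.t157_entry i j
  have := hk.comp (hW'.prodMk h)
  exact this

lemma meas_swp (m : MsStmt) {X : Type*} [MeasurableSpace X] (ε s : ℝ) {W : X → Mat n}
    {a b : X → Fin n → ℝ} (hW : Measurable W) (ha : Measurable a) (hb : Measurable b) :
    Measurable fun x => swp ε s (W x) (a x) (b x) := by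
  have mp : Measurable fun x => prp (a x) (b x) := by unfold prp; fun_prop
  have h1 := ha.t157_unitv
  have mR : Measurable fun x => rot (unitv (a x)) (prp (a x) (b x)) (π / 2) := by
    unfold rot
    fun_prop
  exact (meas_kap m ε s hW h1).sub
    (meas_kap m ε s ((mR.t157_mul hW).t157_mul mR.t157_transpose) mp)

lemma abs_swp (k : Cq.KapStmt) (hn : 1 ≤ n) {ε s : ℝ} (hε : 0 < ε) (hs : 0 ≤ s) (W : Mat n)
    (a b : Fin n → ℝ) : |swp ε s W a b| ≤ 1 := by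
  have h : ∀ (W : Mat n) (a : Fin n → ℝ), 0 ≤ kap W ε (fun y => s * sl a y) ∧
      kap W ε (fun y => s * sl a y) ≤ 1 := fun W a => by
    have h0 : ∀ y, 0 ≤ s * sl a y := fun y => mul_nonneg hs (sq_nonneg _)
    obtain ⟨h1, h2, -⟩ := (k n W ε hn hε).1 _ _ h0 h0
    exact ⟨h1, h2⟩
  rw [swp, abs_le]
  constructor
  · linarith [(h W (unitv a)).1, (h (rot (unitv a) (prp a b) (π / 2) * W *
      (rot (unitv a) (prp a b) (π / 2))ᵀ) (prp a b)).2]
  · linarith [(h W (unitv a)).2, (h (rot (unitv a) (prp a b) (π / 2) * W *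
      (rot (unitv a) (prp a b) (π / 2))ᵀ) (prp a b)).1]

/-- the change of coordinates -/
def Ph (y : I4 n → ℝ) : Om n × (Fin n → ℝ) × (Fin n → ℝ) :=
  ((fun p => y (.inl (.inl p)), fun i => y (.inl (.inr i))), (x1 y, x2 y))

lemma mp_Ph : MeasurePreserving (Ph (n := n)) (P4 n)
    ((PB true n).prod ((gv (Fin n)).prod (gv (Fin n)))) := by
  have h0 := measurePreserving_sumPiEquivProdPi (X := fun _ : I4 n => ℝ)
    fun k => entryLaw (isC k)
  have h1 := measurePreserving_sumPiEquivProdPi (X := fun _ : Ix n => ℝ)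
    fun k => entryLaw (isC (n := n) (.inl k))
  have h2 := measurePreserving_sumPiEquivProdPi (X := fun _ : Fin n ⊕ Fin n => ℝ)
    fun k => entryLaw (isC (n := n) (.inr k))
  have h := (h1.prod h2).comp h0
  rw [PB, couplingLaw_eq]
  exact h

lemma int_sq : Integrable (fun y : I4 n → ℝ => y ⬝ᵥ y) (P4 n) ∧
    ∫ y : I4 n → ℝ, y ⬝ᵥ y ∂P4 n = Fintype.card (I4 n) := by
  have i1 : ∀ b, Integrable (fun t : ℝ => t ^ 2) (entryLaw b) := fun b =>
    Integrable.of_integral_ne_zero (by rw [Conc.sq_entry]; exact one_ne_zero)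
  have mp : ∀ k : I4 n, MeasurePreserving (fun y : I4 n → ℝ => y k) (P4 n) (entryLaw (isC k)) :=
    fun k => measurePreserving_eval _ k
  have i2 : ∀ k : I4 n, Integrable (fun y : I4 n → ℝ => y k * y k) (P4 n) := fun k => by
    have := (mp k).integrable_comp_of_integrable (i1 _)
    simpa only [Function.comp_def, sq] using this
  have i3 : ∀ k : I4 n, ∫ y : I4 n → ℝ, y k * y k ∂P4 n = 1 := fun k => by
    have h := Conc.sq_entry (isC k)
    rw [← (mp k).map_eq, integral_map (mp k).measurable.aemeasurable (by fun_prop)] at h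
    simpa only [sq] using h
  refine ⟨integrable_finsetSum _ fun k _ => i2 k, ?_⟩
  simp only [dotProduct]
  rw [integral_finsetSum _ fun k _ => i2 k]
  simp [i3]

lemma card_le (hn : 1 ≤ n) : (Fintype.card (I4 n) : ℝ) ≤ 4 * (n : ℝ) ^ 2 := by
  have h : Fintype.card (Pair n) ≤ n * n := by
    have := Fintype.card_subtype_le (fun p : Fin n × Fin n => p.1 < p.2)
    simpa using this
  have h' : (Fintype.card (Pair n) : ℝ) ≤ n * n := by exact_mod_cast h
  have n1 : (1 : ℝ) ≤ n := by exact_mod_cast hn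
  simp only [Fintype.card_sum, Fintype.card_fin]
  push_cast
  nlinarith

lemma cut_one {u : ℝ} (h : u ≤ 1) : cut u = 1 := smoothTransition.one_of_one_le (by linarith)
lemma cut_zero {u : ℝ} (h : 2 ≤ u) : cut u = 0 := smoothTransition.zero_of_nonpos (by linarith)
lemma cut_nonneg (u : ℝ) : 0 ≤ cut u := smoothTransition.nonneg _
lemma cut_le (u : ℝ) : cut u ≤ 1 := smoothTransition.le_one _
lemma cut_smooth : ContDiff ℝ (⊤ : ℕ∞) cut :=
  smoothTransition.contDiff.comp (contDiff_const.sub contDiff_id)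

/-- the first three coordinates -/
def pr3 (q : Fin 4 → ℝ) : Fin 3 → ℝ := ![q 0, q 1, q 2]
/-- the cutoff in four variables -/
def om4 (ω : (Fin 3 → ℝ) → ℝ) (q : Fin 4 → ℝ) : ℝ := ω (pr3 q) * (cut (q 3) * cut (-(q 3)))

lemma pr3_smooth : ContDiff ℝ (⊤ : ℕ∞) pr3 :=
  contDiff_pi.2 fun i => by
    fin_cases i
    · exact contDiff_apply ℝ ℝ (0 : Fin 4)
    · exact contDiff_apply ℝ ℝ (1 : Fin 4)
    · exact contDiff_apply ℝ ℝ (2 : Fin 4)

lemma adm {ω : (Fin 3 → ℝ) → ℝ} (hω : ContDiff ℝ (⊤ : ℕ∞) ω) (hc : HasCompactSupport ω)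
    (hs : tsupport ω ⊆ {q | 0 < q 0 ∧ q 2 ^ 2 < q 0 * q 1}) : Adm (om4 ω) := by
  have c3 : ContDiff ℝ (⊤ : ℕ∞) fun q : Fin 4 → ℝ => q 3 := contDiff_apply ℝ ℝ (3 : Fin 4)
  have cl : IsClosed (pr3 ⁻¹' tsupport ω ∩ {q : Fin 4 → ℝ | q 3 ≤ 2} ∩ {q | -2 ≤ q 3}) :=
    (((isClosed_tsupport ω).preimage pr3_smooth.continuous).inter
      (isClosed_le c3.continuous continuous_const)).inter
      (isClosed_le continuous_const c3.continuous)
  have sub : tsupport (om4 ω) ⊆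
      pr3 ⁻¹' tsupport ω ∩ {q : Fin 4 → ℝ | q 3 ≤ 2} ∩ {q | -2 ≤ q 3} := by
    refine closure_minimal (fun q hq => ?_) cl
    have h : om4 ω q ≠ 0 := hq
    refine ⟨⟨subset_tsupport _ (left_ne_zero_of_mul h), ?_⟩, ?_⟩
    · by_contra h'
      exact h (by rw [om4, cut_zero (not_le.1 h').le, zero_mul, mul_zero])
    · by_contra h'
      have h2 : q 3 < -2 := not_le.1 h'
      exact h (by rw [om4, cut_zero (u := -(q 3)) (by linarith), mul_zero, mul_zero])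
  refine ⟨(hω.comp pr3_smooth).mul ((cut_smooth.comp c3).mul (cut_smooth.comp c3.neg)), ?_,
    fun q hq => ?_⟩
  · obtain ⟨R, hR⟩ := hc.isCompact.isBounded.exists_norm_le
    refine Metric.isCompact_of_isClosed_isBounded (isClosed_tsupport _)
      (isBounded_iff_forall_norm_le.2 ⟨max R 2, fun q hq => ?_⟩)
    obtain ⟨⟨h1, h2⟩, h3⟩ := sub hq
    have h4 := hR _ h1
    have h5 : ∀ j, ‖pr3 q j‖ ≤ max R 2 := fun j =>
      ((norm_le_pi_norm _ j).trans h4).trans (le_max_left _ _)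
    refine (pi_norm_le_iff_of_nonneg (le_max_of_le_right (by norm_num))).2 fun i => ?_
    fin_cases i
    · exact h5 0
    · exact h5 1
    · exact h5 2
    · exact le_max_of_le_right (abs_le.2 ⟨h3, h2⟩)
  · obtain ⟨⟨h1, h2⟩, -⟩ := sub hq
    exact ⟨(hs h1).1, (hs h1).2, h2⟩

end G13

open G13

/-- **`TrStmt`** -/
theorem trStmt : TrStmt := by
  intro k m h4 ε s l l' hε hε1 hs hl hl' ω hω hc hsup
  obtain ⟨M, hM⟩ := hω.continuous.bounded_above_of_compact_support hc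
  have M0 : 0 ≤ M := (norm_nonneg _).trans (hM 0)
  set c : Par := ⟨ε, s, l, l'⟩ with hcd
  have t1 := (h4 c ⟨hε, hε1, hs, hl, hl'⟩ _ (adm hω hc hsup)).neg
  rw [neg_zero] at t1
  have t2 : Tendsto (fun n : ℕ => M * 4 / (n : ℝ)) atTop (𝓝 0) :=
    tendsto_const_div_atTop_nhds_zero_nat _
  refine t1.congr_dist (squeeze_zero' (.of_forall fun _ => dist_nonneg) ?_ t2)
  filter_upwards [eventually_ge_atTop 1] with n hn
  have n0 : (0 : ℝ) < n := by exact_mod_cast hn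
  have mW : Measurable fun q : Om n × (Fin n → ℝ) × (Fin n → ℝ) => Wp q.1 :=
    (mp_Wmat (n := n)).measurable.comp measurable_fst
  have ma : Measurable fun q : Om n × (Fin n → ℝ) × (Fin n → ℝ) => fl n l' (Wp q.1) *ᵥ q.2.1 :=
    ((m n ε l').1.comp mW).t157_mulVec measurable_snd.fst
  have mb : Measurable fun q : Om n × (Fin n → ℝ) × (Fin n → ℝ) => fl n l (Wp q.1) *ᵥ q.2.2 :=
    ((m n ε l).1.comp mW).t157_mulVec measurable_snd.snd
  set G : Om n × (Fin n → ℝ) × (Fin n → ℝ) → ℝ := fun q =>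
    ω ![(fl n l' (Wp q.1) *ᵥ q.2.1) ⬝ᵥ (fl n l' (Wp q.1) *ᵥ q.2.1),
          (fl n l (Wp q.1) *ᵥ q.2.2) ⬝ᵥ (fl n l (Wp q.1) *ᵥ q.2.2),
          (fl n l' (Wp q.1) *ᵥ q.2.1) ⬝ᵥ (fl n l (Wp q.1) *ᵥ q.2.2)] *
        swp ε s (Wp q.1) (fl n l' (Wp q.1) *ᵥ q.2.1) (fl n l (Wp q.1) *ᵥ q.2.2) with hG
  have mG : Measurable G := by
    refine (hω.continuous.measurable.comp <| measurable_pi_lambda _ fun i => ?_).mul
      (meas_swp m ε s mW ma mb)
    fin_cases i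
    · exact ma.t157_dot ma
    · exact mb.t157_dot mb
    · exact ma.t157_dot mb
  have bG : ∀ q, |G q| ≤ M := fun q => by
    rw [hG, abs_mul]
    exact (mul_le_of_le_one_right (abs_nonneg _) (abs_swp k hn hε hs _ _ _)).trans (hM _)
  have mP := (mp_Ph (n := n)).measurable
  have eG : ∀ y : I4 n → ℝ, G (Ph y) = ω (pr3 (q4 c y)) * swp c.ε c.s (W4 y) (av c y) (bv c y) :=
    fun y => rfl
  have q3 : ∀ y : I4 n → ℝ, q4 c y 3 = y ⬝ᵥ y / (n : ℝ) ^ 3 := fun y => rfl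
  have y0 : ∀ y : I4 n → ℝ, 0 ≤ y ⬝ᵥ y / (n : ℝ) ^ 3 := fun y =>
    div_nonneg (Finset.sum_nonneg fun i _ => mul_self_nonneg _) (by positivity)
  have eH : ∀ y : I4 n → ℝ, Hf c (om4 ω) (π / 2) y - Hf c (om4 ω) 0 y =
      -(cut (y ⬝ᵥ y / (n : ℝ) ^ 3) * G (Ph y)) := fun y => by
    rw [Hf, Hf, eG, om4, q3, cut_one (u := -(y ⬝ᵥ y / (n : ℝ) ^ 3)) (by linarith [y0 y])]
    by_cases h0 : ω (pr3 (q4 c y)) = 0
    · rw [h0]; ring
    · have h := hsup (subset_tsupport _ h0)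
      rw [swp_eq c y h.1 h.2]; ring
  have iG : Integrable (fun y => G (Ph y)) (P4 n) :=
    (integrable_const M).mono' (mG.comp mP).aestronglyMeasurable (.of_forall fun y => bG _)
  have mc : Measurable fun y : I4 n → ℝ => cut (y ⬝ᵥ y / (n : ℝ) ^ 3) :=
    cut_smooth.continuous.measurable.comp
      ((measurable_id.t157_dot measurable_id).div_const _)
  have iC : Integrable (fun y => cut (y ⬝ᵥ y / (n : ℝ) ^ 3) * G (Ph y)) (P4 n) :=
    iG.bdd_mul (c := 1) mc.aestronglyMeasurable (.of_forall fun y => by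
      rw [Real.norm_eq_abs, abs_of_nonneg (cut_nonneg _)]; exact cut_le _)
  rw [← (mp_Ph (n := n)).map_eq, integral_map mP.aemeasurable mG.aestronglyMeasurable]
  simp only [eH]
  rw [integral_neg, neg_neg, Real.dist_eq, ← integral_sub iC iG]
  have hb : ∀ y : I4 n → ℝ, ‖cut (y ⬝ᵥ y / (n : ℝ) ^ 3) * G (Ph y) - G (Ph y)‖ ≤
      M / (n : ℝ) ^ 3 * y ⬝ᵥ y := fun y => by
    have e : cut (y ⬝ᵥ y / (n : ℝ) ^ 3) * G (Ph y) - G (Ph y) =
        -((1 - cut (y ⬝ᵥ y / (n : ℝ) ^ 3)) * G (Ph y)) := by ring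
    have h1 : 1 - cut (y ⬝ᵥ y / (n : ℝ) ^ 3) ≤ y ⬝ᵥ y / (n : ℝ) ^ 3 := by
      rcases le_total (y ⬝ᵥ y / (n : ℝ) ^ 3) 1 with h | h
      · rw [cut_one h, sub_self]; exact y0 y
      · linarith [cut_nonneg (y ⬝ᵥ y / (n : ℝ) ^ 3)]
    rw [e, norm_neg, Real.norm_eq_abs, abs_mul, abs_of_nonneg (sub_nonneg.2 (cut_le _))]
    calc _ ≤ y ⬝ᵥ y / (n : ℝ) ^ 3 * M := mul_le_mul h1 (bG _) (abs_nonneg _) (y0 y)
      _ = _ := by ring
  refine (norm_integral_le_of_norm_le (int_sq.1.const_mul _) (.of_forall hb)).trans ?_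
  rw [integral_const_mul, int_sq.2]
  calc M / (n : ℝ) ^ 3 * (Fintype.card (I4 n) : ℝ) ≤ M / (n : ℝ) ^ 3 * (4 * (n : ℝ) ^ 2) :=
        mul_le_mul_of_nonneg_left (card_le hn) (by positivity)
    _ = M * 4 / n := by field_simp

end Crest.Agent.T157.Sw14

end
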