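import Crest.Agent.T157.SwF_77_Mg
import Crest.Agent.T157.SwG_13_Mg
import Crest.Agent.T157.SwTrap_90
import Crest.Agent.T157.CqBd_43
import Crest.Agent.T157.CqKap_46
import Crest.Agent.T157.O7Def_64
import Crest.Agent.T157.CqDiscPb_66
import Crest.Agent.T157.TrG_64
import Crest.Agent.T157.OeEd_87_Mg
import Crest.Agent.T157.O0Def_21
import Crest.Agent.T157.LlAll_91
import Crest.Agent.T157.FinD_88
import Crest.Agent.T157.O7St_64_Mg
import Crest.Agent.T157.O7G_13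
import Crest.Agent.T157.O7Qu_64
import Crest.Agent.T157.O7W_22
import Crest.Agent.T157.O0W_44
import Crest.Agent.T157.O0I_21
import Crest.Agent.T157.Kp_12
import Crest.Agent.T157.KbAll_5

-- ▼ part T157/SwAll_14
section

/-!
# Row 157, part C: SWAP for coin couplings, unconditional (helper14)
-/

set_option autoImplicit false

namespace Crest.Agent.T157.Sw14

theorem swapT : Cq.SwapStmt true :=
  swap_of Cq.kapStmt Cq.msStmt Sw77.wtStmt Sw77.smStmt Sw77.divStmt Sw77.flowGlue Sw77.steinStmt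
    Sw77.fGlue dStmt resStmt kGlue derGlue gcStmt trapGlue prStmt glue trStmt

end Crest.Agent.T157.Sw14
end

-- ▼ part T157/O7Pb_31
section

/-!
# Row 157, block A2, section 7 (helper31): `O7.PbStmt` and `O7.SharpGlue`
-/

set_option autoImplicit false

noncomputable section

namespace Crest.Agent.T157.O7

open MeasureTheory Filter Set Matrix Real
open Crest.ProbabilityR.SpinGlassDynamics
open Crest.Agent.T157.E Crest.Agent.T157.SL Crest.Agent.T157.Eig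
open Crest.Agent.T157.Tr (Off pb nx ig Xp)
open Crest.Agent.T157.Crit (CovLe CovAt)
open Crest.Agent.T157.Soft (N23)
open Crest.Agent.T157.Cq.Dc.Pb66

namespace X31

variable {n : ℕ}

/-- sixth moment of the covariance norm on the cube -/
theorem six (hn : 0 < n) (g : Pair n → ℝ) {B r : ℝ} (hB : 1 ≤ B)
    (h : ∀ θ, 0 ≤ θ → Soft.Xth n g θ ≤ B * exp (B * θ ^ (3 / 2 : ℝ))) (hr : 1 ≤ N23 n * r) :
    ex sv (gibbsWeight n 1 g) (fun p => ((1 + nx sv (gibbsWeight n 1 g) p) ^ 3) ^ 2) r ≤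
      10 ^ 8 * B ^ 6 * (N23 n * r) ^ 10 := by
  have hN := Soft.N23_pos hn
  set c : ℝ := ((n : ℝ) ^ (1 / 3 : ℝ))⁻¹ with hc
  have c0 : 0 ≤ c := by positivity
  have c2 : c * c = (N23 n)⁻¹ := Soft.third_sq hn
  have h6 := ex_six (φ := fun x : Cube n => c • sv x) (w := gibbsWeight n 1 g)
    (gibbsWeight_pos 1 g) hr hB fun θ _ => by
      have e : St.Xk θ (St.dm (gibbsWeight n 1 g) fun x : Cube n => c • sv x)
          (St.dm (gibbsWeight n 1 g) fun x : Cube n => c • sv x) = Soft.Xth n g θ := by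
        rw [Xk_dm (gibbsWeight_pos 1 g), Soft.Xth]
        simp only [smul_dotProduct, dotProduct_smul, smul_eq_mul, ← mul_assoc c c, c2, gibbsProb_eq]
      rw [e]
      rcases le_total 0 θ with h0 | h0
      · rw [abs_of_nonneg h0]; exact h θ h0
      · rw [abs_of_nonpos h0, ← Soft.Xth_neg]; exact h _ (neg_nonneg.2 h0)
  have e := Tr.ex_smul (φ := sv) (w := gibbsWeight n 1 g) c0 (N23 n * r)
    fun M => ((1 + opn M) ^ 3) ^ 2
  rw [sq c, c2, inv_mul_cancel_left₀ hN.ne'] at e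
  exact e.symm.trans_le h6

theorem decay {c : ℝ} (hc : 0 < c) :
    ∃ A : ℝ, 0 ≤ A ∧ ∀ x : ℝ, 1 ≤ x → x ^ 5 * √(exp (-x ^ c)) ≤ A * x ^ (-(1 + c)) := by
  obtain ⟨m, hm⟩ := exists_nat_ge ((6 + c) / c)
  refine ⟨2 ^ m * m.factorial, by positivity, fun x hx => ?_⟩
  have x0 : 0 < x := by linarith
  have h1 : x ^ (6 + c) ≤ (x ^ c) ^ m := by
    rw [← rpow_natCast, ← rpow_mul x0.le]
    refine rpow_le_rpow_of_exponent_le hx ?_
    rwa [div_le_iff₀' hc] at hm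
  have h2 := pow_div_factorial_le_exp (x ^ c / 2) (by positivity) m
  rw [div_le_iff₀ (by positivity), div_pow, div_le_iff₀ (by positivity)] at h2
  have e1 : √(exp (-x ^ c)) = (exp (x ^ c / 2))⁻¹ := by
    rw [← exp_neg, ← exp_half]; congr 1; ring
  have e2 : x ^ (6 + c) = x ^ 5 * x ^ (1 + c) := by
    rw [← rpow_natCast, ← rpow_add x0]; congr 1; push_cast; ring
  rw [e1, rpow_neg x0.le, ← div_eq_mul_inv, ← div_eq_mul_inv,
    div_le_div_iff₀ (exp_pos _) (rpow_pos_of_pos x0 _), ← e2]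
  linarith

end X31

open X31

/-- **task 768, first half** -/
theorem pbStmt : PbStmt := by
  intro n g B r k p e hB h hr hk hC
  have hn : 0 < n := by
    rcases Nat.eq_zero_or_pos n with rfl | hn
    · norm_num [N23] at hr
    · exact hn
  have hN := Soft.N23_pos hn
  have r0 : 0 < r := (pos_iff_pos_of_mul_pos (lt_of_lt_of_le one_pos hr)).1 hN
  set w := gibbsWeight n 1 g with hw
  have hW : Wt w := Wt.of_pos (gibbsWeight_pos 1 g)
  set A := toMeasurable (law sv w r) {y | ¬ CovLe (tilt w y) (k / r)} with hA'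
  have hA : MeasurableSet A := measurableSet_toMeasurable _ _
  have hl : (law sv w r).real A ≤ p := by
    rw [hA', Measure.real, measure_toMeasurable]; exact hC
  have hp : 0 ≤ p := measureReal_nonneg.trans hl
  have hi : ∀ y, 1 - ig sv w e (r, y) ≤ A.indicator (fun _ => (1 : ℝ)) y := by
    intro y
    by_cases hy : y ∈ A
    · rw [indicator_of_mem hy]; linarith [Tr.ig_nonneg (φ := sv) (w := w) (ε := e) (r, y)]
    · have hy' : CovLe (tilt w y) (k / r) := by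
        by_contra h'
        exact hy (subset_toMeasurable _ _ h')
      have q : ∀ v, r * (v ⬝ᵥ covMat (post sv w r y) sv *ᵥ v) ≤ k * (v ⬝ᵥ v) := fun v => by
        have := hy' v
        rw [div_mul_eq_mul_div, le_div_iff₀' r0] at this
        rwa [covMat_post_sv]
      have k0 : 0 ≤ k := by
        have h1 := q fun _ => 1
        have h2 := (hW.post sv r y).covMat_quad_nonneg sv fun _ => 1
        have h3 : (0 : ℝ) < (fun _ : Fin n => (1 : ℝ)) ⬝ᵥ fun _ => 1 := by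
          simpa [dotProduct] using hn
        exact nonneg_of_mul_nonneg_left ((mul_nonneg r0.le h2).trans h1) h3
      have : nx sv w (r, y) ≤ 1 + e r := (nx_le hW r0.le y k0 q).trans hk
      rw [indicator_of_notMem hy, ig, if_pos this, sub_self]
  have mN : MG fun y => (1 + nx sv w (r, y)) ^ 3 :=
    Tr.MG.pow' ((MG.const 1).add (Tr.mg_nx hW r)) 3
  have n0 : ∀ y, 0 ≤ 1 + nx sv w (r, y) := fun y => by
    linarith [Tr.nx_nonneg (φ := sv) (w := w) (r, y)]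
  have h3 : pb sv w e 3 r ≤
      ex sv w (fun q => A.indicator (fun _ => (1 : ℝ)) q.2 * (1 + nx sv w q) ^ 3) r :=
    ex_mono hW (Tr.mg_pb hW e 3 r) ((Tr.mg_ind hA).mul mN) fun y =>
      mul_le_mul_of_nonneg_right (hi y) (pow_nonneg (n0 y) 3)
  have h4 := ex_mul_sq_le (φ := sv) (G := fun q => A.indicator (fun _ => (1 : ℝ)) q.2)
    (H := fun q => (1 + nx sv w q) ^ 3) (t := r) hW (Tr.mg_ind hA) mN
  have h5 : ex sv w (fun q => A.indicator (fun _ => (1 : ℝ)) q.2 ^ 2) r = (law sv w r).real A := by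
    rw [← Tr.ex_ind hW hA]
    exact ex_congr fun y => by by_cases hy : y ∈ A <;> simp [hy]
  have h6 := six hn g hB h hr
  have h7 : 0 ≤ ex sv w (fun p => ((1 + nx sv w p) ^ 3) ^ 2) r := ex_nonneg hW fun _ => sq_nonneg _
  rw [h5] at h4
  refine h3.trans ((le_abs_self _).trans (abs_le_of_sq_le_sq' ?_ (by positivity)).2)
  rw [sq_abs, mul_pow, sq_sqrt hp]
  refine h4.trans ((mul_le_mul hl h6 h7 hp).trans (le_of_eq ?_))
  ring

/-- **task 768, second half** -/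
theorem sharpGlue : SharpGlue := by
  intro hP hL hG ε hε
  obtain ⟨B0, hB⟩ := hL (ε / 2) (half_pos hε)
  obtain ⟨c, hc, C0, s0, t0, ht0, h2⟩ := hG (ε / 2) (half_pos hε)
  obtain ⟨A, A0, hA⟩ := decay hc
  set B := max B0 1 with hB'
  have B1 : 1 ≤ B := le_max_right _ _
  have h1 : Off disorderLaw (ε / 2) fun n g =>
      ∀ θ, 0 ≤ θ → Soft.Xth n g θ ≤ B * exp (B * θ ^ (3 / 2 : ℝ)) :=
    hB.mono fun n hn => le_trans (measure_mono fun g hg => by
      by_contra h'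
      refine hg fun θ h0 => le_trans (not_lt.1 fun h => h' ⟨θ, h0, h⟩) ?_
      have e : exp (B0 * θ ^ (3 / 2 : ℝ)) ≤ exp (B * θ ^ (3 / 2 : ℝ)) :=
        exp_le_exp.2 (mul_le_mul_of_nonneg_right (le_max_left _ _) (by positivity))
      exact (mul_le_mul_of_nonneg_right (le_max_left B0 1) (exp_pos _).le).trans
        (mul_le_mul_of_nonneg_left e (by linarith))) hn
  refine ⟨max C0 (10 ^ 4 * B ^ 3 * A), c, max s0 1, t0, hc, lt_max_of_lt_right one_pos, ht0, ?_⟩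
  have h3 := h1.and h2 (half_pos hε).le (half_pos hε).le
  rw [add_halves] at h3
  refine h3.mono ((eventually_gt_atTop 0).mono fun n hn g hg r hr => ?_)
  have hN := Soft.N23_pos hn
  have r1 : 1 ≤ N23 n * r := (le_max_right s0 1).trans ((div_le_iff₀' hN).1 hr.1)
  have r0 : 0 < r := (pos_iff_pos_of_mul_pos (lt_of_lt_of_le one_pos r1)).1 hN
  have hq := hg.2 r ⟨(div_le_div_of_nonneg_right (le_max_left _ _) hN.le).trans hr.1, hr.2⟩
  refine (hP n g B r _ _ _ B1 hg.1 r1 ?_ hq).trans ?_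
  · have : 0 ≤ r ^ c + (N23 n * r) ^ (-c) := by positivity
    exact add_le_add le_rfl (mul_le_mul_of_nonneg_right (le_max_left _ _) this)
  · rw [mul_assoc]
    refine (mul_le_mul_of_nonneg_left (hA _ r1) (by positivity)).trans ?_
    rw [← mul_assoc]
    exact mul_le_mul_of_nonneg_right (le_max_right _ _) (by positivity)

end Crest.Agent.T157.O7

end
end

-- ▼ part T157/OeG_44
section

/-!
# Row 157, block A2, section 7 (helper44): the edge window from the transfer property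
-/

set_option autoImplicit false

noncomputable section

namespace Crest.Agent.T157.O7

open MeasureTheory ProbabilityTheory Filter Set Matrix Real Topology
open Crest.Agent.T157.E Crest.Agent.T157.St Crest.Agent.T157.Ed Crest.Agent.T157.Sp
open Crest.Agent.T157.Top (Whp)
open Crest.Agent.T157.Tr (Off)
open Crest.Agent.T157.Crit (CovLe CovAt)
open Crest.Agent.T157.Soft (N23)

/-- covariance bounds pass from the sphere to the cube at hatted times `≤ R` -/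
def PassL (n : ℕ) (W : Mat n) (R ga th : ℝ) : Prop := ∀ r e p : ℝ, 1 ≤ r → r ≤ R → 0 ≤ e → 0 ≤ p →
  OffY r (nuW n W) p (fun y => CovB (pst r (nuW n W) y) ((1 + e) / r)) →
  CovAt (ising W 0) (r / tau n) ((1 + e) * (1 + ga) / (r / tau n)) (5 * p + th)

namespace G44

theorem covB_of_mom {ι : Type} [Fintype ι] {μ : Measure (ι → ℝ)} {a : ℝ} (h : Mom μ a) :
    CovB μ a := by
  obtain ⟨_, m, h⟩ := h
  intro v
  obtain ⟨h4, h2, -⟩ := h v
  have hc : Continuous fun x : ι → ℝ => v ⬝ᵥ (x - m) := by fun_prop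
  have hl : MemLp (fun x : ι → ℝ => v ⬝ᵥ (x - m)) 2 μ := by
    rw [memLp_two_iff_integrable_sq hc.aestronglyMeasurable]
    refine ((integrable_const 1).add h4).mono' (hc.pow 2).aestronglyMeasurable
      (.of_forall fun x => ?_)
    rw [Real.norm_eq_abs, abs_of_nonneg (sq_nonneg _), Pi.add_apply]
    nlinarith [sq_nonneg ((v ⬝ᵥ (x - m)) ^ 2 - 1), sq_nonneg (v ⬝ᵥ (x - m))]
  have e : (fun x : ι → ℝ => v ⬝ᵥ x) = fun x => v ⬝ᵥ (x - m) + v ⬝ᵥ m := by
    funext x; rw [dotProduct_sub]; ring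
  rw [e, variance_add_const hc.aestronglyMeasurable]
  exact ⟨hl.add (memLp_const _), (variance_le_expectation_sq hc.aestronglyMeasurable).trans h2⟩

variable {n : ℕ} {W : Mat n}

lemma covAt_mono {r K K' p p' : ℝ} (h : CovAt (ising W 0) r K p) (hK : K ≤ K') (hp : p ≤ p') :
    CovAt (ising W 0) r K' p' :=
  le_trans (Q1.covAt_mono (SL.Wt.of_pos fun _ => exp_pos _) h hK) hp

lemma Mt_eq (hn : 1 ≤ n) {r : ℝ} (hr : 0 ≤ r) : Mt n r = N23 n * r * √(N23 n * r) := by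
  have h0 : (0 : ℝ) < n := by exact_mod_cast hn
  have h1 : ∀ x : ℝ, 0 ≤ x → x * √x = x ^ (3 / 2 : ℝ) := fun x hx => by
    rw [sqrt_eq_rpow, show (3 / 2 : ℝ) = 1 + 1 / 2 by norm_num, rpow_add' hx (by norm_num), rpow_one]
  rw [h1 _ (by positivity), mul_rpow (by positivity) hr, ← rpow_mul h0.le, Mt]
  norm_num

lemma core (hn : 1 ≤ n) {d ga th s0 r e p k q a : ℝ} (h : PassL n W ((n : ℝ) ^ d) ga th)
    (hs : 1 ≤ s0) (hr : r ∈ Icc (s0 / N23 n) (lo d n)) (he : 0 ≤ e) (hp : 0 ≤ p)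
    (ho : s0 ≤ N23 n * r → N23 n * r ≤ (n : ℝ) ^ d → OffY (N23 n * r) (nuW n W) p
      (fun y => Mom (pst (N23 n * r) (nuW n W) y) (a / (N23 n * r))))
    (ha : a ≤ 1 + e) (hk : (1 + e) * (1 + ga) ≤ k) (hq : 5 * p + th ≤ q) :
    CovAt (ising W 0) r (k / r) q := by
  have N0 : 0 < N23 n := Soft.N23_pos hn
  have h1 : s0 ≤ N23 n * r := (div_le_iff₀' N0).1 hr.1
  have h2 : N23 n * r ≤ (n : ℝ) ^ d := (le_div_iff₀' N0).1 hr.2
  have r0 : 0 < r := lt_of_lt_of_le (by positivity) hr.1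
  have := h _ e p (hs.trans h1) h2 he hp (Win34.OffY.mono (ho h1 h2) le_rfl fun y hy =>
    Win34.CovB.mono (covB_of_mom hy) (by gcongr))
  rw [show N23 n * r / tau n = r from mul_div_cancel_left₀ _ N0.ne'] at this
  exact covAt_mono this (by gcongr) hq

lemma tail {a b : ℝ} (C : ℝ) (hab : a < b) (hb : 0 < b) :
    ∀ᶠ n : ℕ in atTop, C * (n : ℝ) ^ a + 1 ≤ (n : ℝ) ^ b / 10 := by
  have h1 := ((tendsto_rpow_atTop (sub_pos.2 hab)).comp tendsto_natCast_atTop_atTop).eventually_ge_atTop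
    (20 * |C|)
  have h2 := ((tendsto_rpow_atTop hb).comp tendsto_natCast_atTop_atTop).eventually_ge_atTop 20
  filter_upwards [h1, h2, eventually_gt_atTop 0] with n h1 h2 hn
  have h0 : (0 : ℝ) < n := by exact_mod_cast hn
  have h3 : (n : ℝ) ^ b = (n : ℝ) ^ (b - a) * (n : ℝ) ^ a := by rw [← rpow_add h0, sub_add_cancel]
  have h4 : 0 < (n : ℝ) ^ a := by positivity
  simp only [Function.comp] at h1 h2
  nlinarith [mul_le_mul_of_nonneg_right h1 h4.le, mul_le_mul_of_nonneg_right (le_abs_self C) h4.le]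

/-- the two failure probabilities together -/
lemma sum_le {B x y H : ℝ} (hB : 0 < B) (hx : H + 10 * B ≤ x) (hy : H + 1 ≤ y) :
    5 * (B * exp (-x)) + exp (-y) ≤ exp (-H) := by
  have h1 : exp (-x) ≤ exp (-H) * exp (-(10 * B)) := by rw [← exp_add]; gcongr; linarith
  have h2 : exp (-y) ≤ exp (-H) * exp (-1) := by rw [← exp_add]; gcongr; linarith
  have h3 : 10 * B * exp (-(10 * B)) ≤ 1 := by
    rw [exp_neg, mul_inv_le_iff₀ (exp_pos _)]; linarith [add_one_le_exp (10 * B)]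
  have h4 : 2 * exp (-1) ≤ 1 := by
    rw [exp_neg, mul_inv_le_iff₀ (exp_pos _)]; linarith [add_one_le_exp (1 : ℝ)]
  have h5 := exp_pos (-H)
  nlinarith [mul_le_mul_of_nonneg_left h1 hB.le, mul_le_mul_of_nonneg_left h3 h5.le,
    mul_le_mul_of_nonneg_left h4 h5.le]

lemma sizes {d : ℝ} (hd : d ≤ 1 / 3) (hn : 1 ≤ n) {x : ℝ} (h1 : 1 ≤ x) (hx : x ≤ (n : ℝ) ^ d) :
    x ≤ sx n ^ 2 ∧ x * √x ≤ (n : ℝ) ^ (3 / 2 * d) ∧ x ≤ x * √x := by
  have h0 : (1 : ℝ) ≤ n := by exact_mod_cast hn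
  refine ⟨hx.trans ?_, ?_, le_mul_of_one_le_right (by linarith) (one_le_sqrt.2 h1)⟩
  · rw [sx_pow]; exact rpow_le_rpow_of_exponent_le h0 (by push_cast; linarith)
  · rw [show 3 / 2 * d = d + d * (1 / 2) by ring, rpow_add (by linarith), rpow_mul (by linarith),
      ← sqrt_eq_rpow]
    gcongr

end G44

open G44

variable {d γ h : ℝ}

theorem e0_of (hd : 0 < d) (hd' : d ≤ 1 / 3) (hγ : 0 < γ) (hh : 3 / 2 * d < h)
    (H : Whp GOE fun n W => PassL n W ((n : ℝ) ^ d) ((n : ℝ) ^ (-γ)) (exp (-((n : ℝ) ^ h / 10)))) :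
    E0 d := fun ε hε L => by
  obtain ⟨B, _, _, hB, -, -, S⟩ := sLevW (ε / 2) (half_pos hε)
  obtain ⟨K, A, hK, hA, S⟩ := S (|L| + 1)
  refine ⟨2 * max A 1, max K (10 * B), ?_⟩
  have := Tr.Off.and (show Off GOE (ε / 2) _ from S) (Tr.off_of_whp H (half_pos hε))
    (half_pos hε).le (half_pos hε).le
  rw [add_halves] at this
  refine this.mono ?_
  filter_upwards [eventually_ge_atTop 1, tail |L| hh (by linarith)] with n hn t W ⟨⟨_, _, h1⟩, h2⟩
    r hr
  have N0 : 0 < N23 n := Soft.N23_pos hn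
  have s1 : 1 ≤ max K (10 * B) := le_max_of_le_left hK
  have x0 : max K (10 * B) ≤ N23 n * r := (div_le_iff₀' N0).1 hr.1
  obtain ⟨a1, a2, a3⟩ := sizes hd' hn (s1.trans x0) ((le_div_iff₀' N0).1 hr.2)
  have r0 : 0 ≤ r := le_trans (by positivity) hr.1
  have g1 : (n : ℝ) ^ (-γ) ≤ 1 :=
    rpow_le_one_of_one_le_of_nonpos (by exact_mod_cast hn) (by linarith)
  have m1 := le_max_right A 1
  refine core hn h2 s1 hr (e := max A 1 - 1) (by linarith) (by positivity)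
    (fun b _ => h1 _ (le_of_max_le_left b) a1) (by linarith [le_max_left A 1]) (by nlinarith) ?_
  beta_reduce
  rw [Mt_eq hn r0]
  have x1 := le_of_max_le_right x0
  generalize N23 n * r * √(N23 n * r) = y at *
  have y0 : 0 ≤ y := by linarith
  have b1 := mul_le_mul_of_nonneg_right (le_abs_self L) y0
  exact sum_le hB (by linarith) (by linarith [mul_le_mul_of_nonneg_left a2 (abs_nonneg L)])

theorem e1_of (hd : 0 < d) (hd' : d ≤ 1 / 3) (hγ : 0 < γ) (hh : 3 / 2 * d < h)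
    (H : Whp GOE fun n W => PassL n W ((n : ℝ) ^ d) ((n : ℝ) ^ (-γ)) (exp (-((n : ℝ) ^ h / 10)))) :
    E1 d := fun ε hε e he => by
  obtain ⟨B, K, c, hB, hK, hc, S⟩ := sLevW (ε / 2) (half_pos hε)
  obtain ⟨_, _, -, -, S⟩ := S 0
  obtain ⟨u, hu⟩ : ∃ u, u = min (1 / 4) (e / 3 / B) := ⟨_, rfl⟩
  have u0 : 0 < u := hu ▸ lt_min (by norm_num) (by positivity)
  have u1 : u ≤ 1 / 4 := hu ▸ min_le_left _ _
  have u2 : B * u ≤ e / 3 := (le_div_iff₀' hB).1 (hu ▸ min_le_right _ _)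
  refine ⟨c * u ^ 3 / 2, by positivity, K + (u⁻¹) ^ 4 + 10 * B / (c * u ^ 3 / 2), ?_⟩
  have := Tr.Off.and (show Off GOE (ε / 2) _ from S) (Tr.off_of_whp H (half_pos hε))
    (half_pos hε).le (half_pos hε).le
  rw [add_halves] at this
  refine this.mono ?_
  filter_upwards [eventually_ge_atTop 1, tail (c * u ^ 3 / 2) hh (by linarith),
    ((tendsto_rpow_neg_atTop hγ).comp tendsto_natCast_atTop_atTop).eventually_le_const
      (lt_min one_pos (by positivity : 0 < e / 3))] with n hn t g W ⟨⟨_, h1, _⟩, h2⟩ r hr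
  have N0 : 0 < N23 n := Soft.N23_pos hn
  have p1 : 0 < (u⁻¹) ^ 4 := by positivity
  have p2 : 0 < 10 * B / (c * u ^ 3 / 2) := by positivity
  have x0 := (div_le_iff₀' N0).1 hr.1
  obtain ⟨a1, a2, a3⟩ := sizes hd' hn (x := N23 n * r) (by linarith) ((le_div_iff₀' N0).1 hr.2)
  have r0 : 0 ≤ r := le_trans (by positivity) hr.1
  have g1 : (n : ℝ) ^ (-γ) ≤ 1 := g.trans (min_le_left _ _)
  have g2 : (n : ℝ) ^ (-γ) ≤ e / 3 := g.trans (min_le_right _ _)
  have g0 : 0 ≤ (n : ℝ) ^ (-γ) := by positivity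
  have b0 : (N23 n * r) ^ (-(1 / 4) : ℝ) ≤ u := by
    refine (rpow_le_rpow_of_nonpos p1 (by linarith) (by norm_num)).trans_eq ?_
    rw [← rpow_natCast, ← rpow_mul (by positivity), inv_rpow u0.le, ← rpow_neg u0.le]
    norm_num
  refine core hn h2 (by linarith) hr (e := e / 3) (by positivity) (by positivity)
    (fun _ _ => h1 _ u (by linarith) a1 b0 u1) (by linarith) (by nlinarith) ?_
  beta_reduce
  rw [Mt_eq hn r0]
  generalize N23 n * r * √(N23 n * r) = y at *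
  have b1 : 10 * B ≤ c * u ^ 3 / 2 * y := (div_le_iff₀' (by positivity)).1 (by linarith)
  exact sum_le hB (by linarith)
    (by linarith [mul_le_mul_of_nonneg_left a2 (by positivity : 0 ≤ c * u ^ 3 / 2)])

theorem e2_of (hd : 0 < d) (hd' : d ≤ 1 / 3) (hγ : 0 < γ) (hh : 3 / 2 * d < h)
    (H : Whp GOE fun n W => PassL n W ((n : ℝ) ^ d) ((n : ℝ) ^ (-γ)) (exp (-((n : ℝ) ^ h / 10)))) :
    E2 d := fun ε hε => by
  obtain ⟨B, K, c, hB, hK, hc, S⟩ := sLevW (ε / 2) (half_pos hε)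
  obtain ⟨_, _, -, -, S⟩ := S 0
  obtain ⟨a, ha⟩ : ∃ a, a = min (1 / 4) (γ / d) := ⟨_, rfl⟩
  have a0 : 0 < a := ha ▸ lt_min (by norm_num) (by positivity)
  have a4 : a ≤ 1 / 4 := ha ▸ min_le_left _ _
  have a5 : d * a ≤ γ := (le_div_iff₀' hd).1 (ha ▸ min_le_right _ _)
  refine ⟨a, a0, 2 * B + 1, K + (4 + (1 + 10 * B) / c) ^ 4, ?_⟩
  have := Tr.Off.and (show Off GOE (ε / 2) _ from S) (Tr.off_of_whp H (half_pos hε))
    (half_pos hε).le (half_pos hε).le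
  rw [add_halves] at this
  refine this.mono ?_
  filter_upwards [eventually_ge_atTop 1, tail 1 hh (by linarith)] with n hn t W ⟨⟨_, h1, _⟩, h2⟩ r hr
  have N0 : 0 < N23 n := Soft.N23_pos hn
  have n1 : (1 : ℝ) ≤ n := by exact_mod_cast hn
  have p1 : 0 < (1 + 10 * B) / c := by positivity
  have p2 : 0 < (4 + (1 + 10 * B) / c) ^ 4 := by positivity
  have x0 := (div_le_iff₀' N0).1 hr.1
  have x1 : N23 n * r ≤ (n : ℝ) ^ d := (le_div_iff₀' N0).1 hr.2
  obtain ⟨a1, a2, a3⟩ := sizes hd' hn (x := N23 n * r) (by linarith) x1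
  have key := fun (e p k q a : ℝ) => core (r := r) (e := e) (p := p) (k := k) (q := q) (a := a) hn h2
    (by linarith : 1 ≤ K + (4 + (1 + 10 * B) / c) ^ 4) hr
  beta_reduce
  generalize N23 n * r = x at *
  have x2 : 1 ≤ x := by linarith
  have x3 : 0 < x := by linarith
  obtain ⟨u, hu⟩ : ∃ u, u = x ^ (1 / 4 : ℝ) := ⟨_, rfl⟩
  have u0 : 0 < u := hu ▸ rpow_pos_of_pos x3 _
  have u4 : u ^ 4 = x := by rw [hu, ← rpow_natCast, ← rpow_mul x3.le]; norm_num
  have u1 : x ^ (-(1 / 4) : ℝ) = u⁻¹ := by rw [hu, rpow_neg x3.le]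
  have u2 : √x = u ^ 2 := by rw [← u4, show u ^ 4 = (u ^ 2) ^ 2 by ring, sqrt_sq (sq_nonneg u)]
  have u3 : 4 + (1 + 10 * B) / c ≤ u :=
    le_of_pow_le_pow_left₀ four_ne_zero u0.le (by linarith)
  have u5 : u⁻¹ ≤ 1 / 4 := by rw [one_div]; exact inv_anti₀ (by norm_num) (by linarith)
  have b1 : u⁻¹ ≤ x ^ (-a) := u1 ▸ rpow_le_rpow_of_exponent_le x2 (by linarith)
  have b2 : (n : ℝ) ^ (-γ) ≤ x ^ (-a) := by
    refine le_trans ?_ (rpow_le_rpow_of_nonpos x3 x1 (by linarith))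
    rw [← rpow_mul (by linarith)]
    exact rpow_le_rpow_of_exponent_le n1 (by linarith)
  have b3 : x ^ (-a) ≤ 1 := rpow_le_one_of_one_le_of_nonpos x2 (by linarith)
  have b4 : x ^ a ≤ u := hu ▸ rpow_le_rpow_of_exponent_le x2 a4
  have b5 : x ^ a ≤ x := (rpow_le_rpow_of_exponent_le x2 (by linarith)).trans_eq (rpow_one x)
  have g0 : 0 ≤ (n : ℝ) ^ (-γ) := by positivity
  refine key (B * u⁻¹) _ _ _ _ (by positivity) (by positivity)
    (fun _ _ => h1 _ u⁻¹ (by linarith) a1 u1.le u5) le_rfl ?_ (sum_le hB ?_ (by linarith))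
  · have c1 := mul_le_mul_of_nonneg_left b1 hB.le
    have c2 : B * u⁻¹ * (n : ℝ) ^ (-γ) ≤ B * x ^ (-a) * 1 := by gcongr; exact b2.trans b3
    linarith
  · have c1 : 1 + 10 * B ≤ c * u := (div_le_iff₀' hc).1 (by linarith)
    have c2 : c * u⁻¹ ^ 3 * (x * √x) = c * u * u ^ 2 := by rw [u2, ← u4]; field_simp
    have c3 : u ≤ u ^ 2 := by nlinarith
    rw [c2]
    nlinarith [mul_le_mul_of_nonneg_right c1 (sq_nonneg u)]

/-- **the edge window from the transfer property** -/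
theorem edge_of (hd : 0 < d) (hd' : d ≤ 1 / 3) (hγ : 0 < γ) (hh : 3 / 2 * d < h)
    (H : Whp GOE fun n W => PassL n W ((n : ℝ) ^ d) ((n : ℝ) ^ (-γ)) (exp (-((n : ℝ) ^ h / 10)))) :
    Edge := ⟨d, hd, e0_of hd hd' hγ hh H, e1_of hd hd' hγ hh H, e2_of hd hd' hγ hh H⟩

/-- the edge window from the edge transfer at any time `t n ≥ 2 n ^ d / τ` -/
theorem edge_of_T (T : Oe.EdgeT) {I : ∀ n, Set (Mat n)} {t : ℕ → ℝ} {η : ℝ} (hI : ∀ n, Oe.Inv (I n))
    (hW : Whp GOE fun n W => W ∈ I n) (hd : 0 < d) (hh : 0 < h) (hη : h < η) (h1 : η ≤ 1 / 10)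
    (ht : ∀ n, t n ∈ Icc (0 : ℝ) 1) (ht' : ∀ᶠ n : ℕ in atTop, 2 * (n : ℝ) ^ d ≤ tau n * t n)
    (E : Oe.EIn I t η h) : Edge := by
  have m1 := min_le_left d (h / 2)
  have m2 := min_le_right d (h / 2)
  refine edge_of (d := min d (h / 2)) (γ := (η - h) / 4) (h := h) (lt_min hd (half_pos hh))
    (by linarith) (by linarith) (by linarith) ((T I t η h hI hW hh hη h1 ht E).mono ?_)
  filter_upwards [ht', eventually_ge_atTop 1] with n a hn W H r e p r1 r2
  have := rpow_le_rpow_of_exponent_le (by exact_mod_cast hn : (1 : ℝ) ≤ n) m1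
  exact H r e p r1 (by linarith)

/-- **the edge window from the joint theorem at the time `lo D n`** -/
theorem edge_of_lo (T : Oe.EdgeT) {I : ∀ n, Set (Mat n)} {D η : ℝ} (hI : ∀ n, Oe.Inv (I n))
    (hW : Whp GOE fun n W => W ∈ I n) (hD : 0 < D) (hD' : D ≤ 2 / 3) (hh : 0 < h) (hη : h < η)
    (h1 : η ≤ 1 / 10) (E : Oe.EIn I (lo D) η h) : Edge := by
  refine edge_of_T T hI hW (half_pos hD) hh hη h1 (fun n => ⟨by unfold lo N23; positivity, ?_⟩) ?_ E
  · rcases Nat.eq_zero_or_pos n with rfl | hn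
    · simp [lo, N23]
    · exact (div_le_one (Soft.N23_pos hn)).2
        (rpow_le_rpow_of_exponent_le (by exact_mod_cast hn) hD')
  · filter_upwards [eventually_ge_atTop 1, tail 20 (half_lt_self hD) hD] with n hn a
    have : tau n * lo D n = (n : ℝ) ^ D := mul_div_cancel₀ _ (Soft.N23_pos hn).ne'
    have h0 : 0 ≤ (n : ℝ) ^ (D / 2) := by positivity
    rw [this]
    linarith

end Crest.Agent.T157.O7

end
end

-- ▼ part T157/O0E_87
section

/-!
# Row 157, block A2 (helper87): the edge window from the joint planted theorem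
-/

set_option autoImplicit false

noncomputable section

namespace Crest.Agent.T157.O0

open MeasureTheory Matrix Filter Topology Set Real
open Crest.Agent.T157.E Crest.Agent.T157.Ks
open Crest.Agent.T157.Tap (Mx V GOE)
open Crest.Agent.T157.Oa (AQ Az fld_ising)
open Crest.Agent.T157.Oe.Ed87 (ev_pow)

/-- fix all the constants -/
theorem exists_fix {Q : Pm → Prop} (h : ∀ᶠ p in FF, Q p) :
    ∃ q : Pm, ∀ᶠ n in atTop, Q { q with n := n } := by
  have h1 := ev_iff.1 h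
  unfold Ev at h1
  iterate 20 obtain ⟨_, h1⟩ := h1.exists
  exact ⟨⟨_, _, _, _, _, _, _, _, _, _, _, _, _, _, _, _, _, _, _, _, 0⟩, h1⟩

namespace E87

variable {n : ℕ}

theorem dg_lo {W : Mx n} {a : V n} (h : Dq.Dg W a) {c : ℝ} (ha : ∀ i, c ≤ a i) (v : V n) :
    c * (v ⬝ᵥ v) ≤ v ⬝ᵥ W *ᵥ v := by
  obtain ⟨O, hO, rfl⟩ := h
  have e1 : v ⬝ᵥ v = (Oᵀ *ᵥ v) ⬝ᵥ (Oᵀ *ᵥ v) := by
    rw [dotProduct_mulVec, vecMul_transpose, mulVec_mulVec, hO, one_mulVec]
  rw [e1, ← mulVec_mulVec, ← mulVec_mulVec, dotProduct_mulVec v, ← mulVec_transpose]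
  simp only [dotProduct, mulVec_diagonal, Finset.mul_sum]
  exact Finset.sum_le_sum fun i _ => by nlinarith [ha i, mul_self_nonneg ((Oᵀ *ᵥ v) i)]

theorem eg_of {c : Oo.Cs} {ζ r μ t e κ s c' : ℝ} {W : Mx n} {y : V n} (hW : Cw.WW t e κ W)
    (h : AQ c ζ r μ W (ising W y)) (hζ : 0 ≤ ζ) (h1 : c.k1 + μ ≤ s) (h2 : c.a1 ≤ c' ^ 2)
    (h3 : r * μ ≤ c' ^ 2) : Oe.EG W y s c' := by
  obtain ⟨a, hd, ha, -⟩ := hW
  have h4 := h.apt 2 ⟨le_rfl, by linarith⟩
  have d0 : ∀ v : V n, 0 ≤ v ⬝ᵥ v := fun v => Finset.sum_nonneg fun i _ => mul_self_nonneg _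
  refine ⟨hd.symm, fun v => by linarith [dg_lo hd (fun i => (ha i).1) v], fun v => ?_,
    h4.a1.trans h2, ?_⟩
  · have b1 : v ⬝ᵥ covM (ising W y) *ᵥ v ≤ c.k1 * (v ⬝ᵥ v) := h4.k1 v
    have b2 := Oe.Trf87.dot_sq h.msq v
    rw [dotProduct_comm v (meanV _ _)] at b2
    have b3 := mul_le_mul_of_nonneg_right h1 (d0 v)
    unfold mag
    linarith
  · have b1 := h.res
    rw [fld_ising] at b1
    exact (mul_le_mul b1 h.msq (d0 _) ((d0 _).trans b1)).trans h3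

end E87

open E87 in
/-- **the edge window from the joint planted theorem** -/
theorem edge_of_thm (hW : WStmt) (hP : WhpStmt) (hT : Thm) : O7.Edge := by
  obtain ⟨q, hq⟩ := exists_fix (hT.and ev_ok)
  obtain ⟨_, -, ok⟩ := hq.exists
  have c0 : 0 < q.ch := ok.ch.1
  have c1 : q.ch ≤ 1 / 1000 := ok.ch.2
  have d0 : 0 < q.d := ok.d.1
  have d1 : q.d ≤ q.ch / 100 := ok.d.2
  have k0 : 0 < q.k4 := ok.k4.1
  have k1 : q.k4 ≤ q.d / 100 := ok.k4.2
  have L1 : 100 ≤ q.L := ok.L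
  have f0 : 0 < q.ef := ok.ef
  have t0 : 0 < q.t0 := ok.t0.1
  have B0 : q.B ≤ q.B0 := ok.B0
  have B1 : 1 ≤ q.B := ok.K.trans ok.B
  have e0 : 0 < q.e1 ^ q.A := pow_pos ok.e1.1 _
  have t2 : 0 < q.t2 := rpow_pos_of_pos (div_pos f0 (by linarith)) _
  have lo0 : ∀ n : ℕ, n ≠ 0 → 0 < O7.lo q.d n := fun n hn =>
    div_pos (rpow_pos_of_pos (by positivity) _) (rpow_pos_of_pos (by positivity) _)
  have lo1 : ∀ n : ℕ, 1 ≤ n → O7.lo q.d n = (n : ℝ) ^ (q.d - 2 / 3) := fun n hn =>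
    (rpow_sub (by exact_mod_cast hn) _ _).symm
  have sm : ∀ {a b : ℝ}, 0 < a → 0 < b → ∀ᶠ n : ℕ in atTop, (n : ℝ) ^ (-a) ≤ b := fun ha hb =>
    ((tendsto_rpow_neg_atTop ha).comp tendsto_natCast_atTop_atTop).eventually (ge_mem_nhds hb)
  have lo2 : ∀ {b : ℝ}, 0 < b → ∀ᶠ n : ℕ in atTop, O7.lo q.d n ≤ b := fun hb => by
    filter_upwards [sm (a := 2 / 3 - q.d) (by linarith) hb, eventually_ge_atTop 1] with n h hn
    rwa [lo1 n hn, ← neg_sub]
  refine O7.edge_of_lo Oe.edgeT (I := fun n => {W | n ≠ 0 →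
    Cw.WW (min (O7.lo q.d n) q.t2) (q.e1 ^ q.A) q.k3 W}) (D := q.d) (h := q.d) (η := q.ch / 4)
    (fun n => ?_) ?_ d0 (by linarith) d0 (by linarith) (by linarith) ?_
  · by_cases hn : n = 0
    · exact ⟨by simp [hn], fun _ _ _ _ h => absurd hn h⟩
    · obtain ⟨h1, h2, -⟩ := hW n q.k3 _ _ e0 (lt_min (lo0 n hn) t2)
      exact ⟨by simpa [hn] using h1, fun W h O hO _ => h2 O W hO (h hn)⟩
  · refine (hP q.k3 ok.k3.1 q.d ⟨d0, by linarith⟩).mono ?_
    filter_upwards [sm (half_pos d0) e0, lo2 t2] with n h1 h2 W h hn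
    exact (hW n q.k3 _ _ (rpow_pos_of_pos (by positivity) _) (lo0 n hn)).2.2 _ _ h1
      (le_min le_rfl h2) W h
  filter_upwards [hq, eventually_ge_atTop 1, lo2 t0, ev_pow (a := q.ch / 12) (by linarith) q.B0,
    ev_pow (a := 1 / 50) (by norm_num) (2 * q.B0), sm (a := 1 - q.d) (by linarith) f0]
    with n h n1 a1 a2 a3 a4
  have N1 : (1 : ℝ) ≤ n := by exact_mod_cast n1
  have N0 : (0 : ℝ) < n := by linarith
  have l0 := lo0 n (by omega)
  have l1 := lo1 n n1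
  have mo : ∀ {a b : ℝ}, a ≤ b → (n : ℝ) ^ a ≤ (n : ℝ) ^ b := rpow_le_rpow_of_exponent_le N1
  have pw : ∀ a : ℝ, (n : ℝ) * (n : ℝ) ^ a = (n : ℝ) ^ (1 + a) := fun a => by
    rw [rpow_add N0, rpow_one]
  set p : Pm := { q with n := n } with hp
  have h1 := (h.1 (O7.lo q.d n) ⟨le_rfl, a1⟩).1
  have b0 : 0 ≤ p.Bt (O7.lo q.d n) ∧ p.Bt (O7.lo q.d n) ≤ q.B0 := by
    unfold Pm.Bt; split_ifs
    · exact ⟨zero_le_one.trans B1, B0⟩
    · exact ⟨zero_le_one.trans (B1.trans B0), le_rfl⟩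
  set B := p.Bt (O7.lo q.d n) with hB
  have s1 : (n : ℝ) * √(O7.lo q.d n) ≤ (n : ℝ) ^ (67 / 100 : ℝ) := by
    rw [l1, sqrt_eq_rpow, ← rpow_mul N0.le, pw]; exact mo (by linarith)
  have s2 : 1 / O7.lo q.d n ≤ (n : ℝ) ^ (67 / 100 : ℝ) := by
    rw [l1, one_div, ← rpow_neg N0.le]; exact mo (by linarith)
  have s3 : p.M (max (O7.lo q.d n) p.ts) ≤ (n : ℝ) ^ (27 / 100 : ℝ) := by
    have : max (O7.lo q.d n) p.ts = (n : ℝ) ^ (q.k4 - 1 / 2) :=
      max_eq_right (by rw [l1]; exact mo (by linarith))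
    rw [this, Pm.M, ← rpow_mul N0.le, pw]; exact mo (by linarith)
  have s4 : (n : ℝ) * p.al (O7.lo q.d n) ≤ (n : ℝ) ^ (1 - q.ch / 3) := by
    have : max (O7.lo q.d n) p.tss = (n : ℝ) ^ (-q.ch) :=
      max_eq_right (by rw [l1]; exact mo (by linarith))
    rw [Pm.al, this, ← rpow_mul N0.le, pw]; exact mo (by linarith)
  have s5 : ((n : ℝ) ^ ((1 - q.ch / 4) / 2)) ^ 2 = (n : ℝ) ^ (1 - q.ch / 4) := by
    rw [← rpow_mul_natCast N0.le]; norm_num
  have g0 : ∀ a : ℝ, 0 ≤ (n : ℝ) ^ a := fun a => (rpow_pos_of_pos N0 a).le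
  have u1 : 2 * B ≤ (n : ℝ) ^ (1 / 50 : ℝ) := by linarith [b0.2]
  refine le_trans (measure_mono fun z hz => ?_) (h1.trans (ENNReal.ofReal_le_ofReal
    (exp_le_exp.2 (neg_le_neg (le_min ?_ ?_)))))
  · have hz1 := hz.1 (by omega)
    refine ⟨hz1, fun hA => hz.2 (eg_of hz1 hA.1 (by positivity) ?_ ?_ ?_)⟩
    · calc B / O7.lo q.d n + B * n * √(O7.lo q.d n)
          = B * (1 / O7.lo q.d n + n * √(O7.lo q.d n)) := by ring
        _ ≤ B * (2 * (n : ℝ) ^ (67 / 100 : ℝ)) := mul_le_mul_of_nonneg_left (by linarith) b0.1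
        _ ≤ (n : ℝ) ^ (1 / 50 : ℝ) * (n : ℝ) ^ (67 / 100 : ℝ) := by
          rw [← mul_assoc, mul_comm B]; exact mul_le_mul_of_nonneg_right u1 (g0 _)
        _ ≤ _ := by rw [← rpow_add N0]; exact mo (by norm_num)
    · calc B * n * p.al (O7.lo q.d n) ≤ (n : ℝ) ^ (q.ch / 12) * (n : ℝ) ^ (1 - q.ch / 3) := by
            rw [mul_assoc]
            exact mul_le_mul (b0.2.trans a2) s4 (mul_nonneg N0.le (rpow_nonneg
              (l0.le.trans (le_max_left _ _)) _)) (g0 _)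
        _ = _ := by rw [← rpow_add N0, s5]; congr 1; ring
    · have v1 : B ≤ (n : ℝ) ^ (1 / 50 : ℝ) := by linarith [b0.1]
      calc B * p.M (max (O7.lo q.d n) p.ts) * (B * n * √(O7.lo q.d n))
          ≤ (n : ℝ) ^ (1 / 50 : ℝ) * (n : ℝ) ^ (27 / 100 : ℝ) *
            ((n : ℝ) ^ (1 / 50 : ℝ) * (n : ℝ) ^ (67 / 100 : ℝ)) := by
            rw [mul_assoc B n]
            exact mul_le_mul (mul_le_mul v1 s3 (mul_nonneg N0.le (rpow_nonneg
              (l0.le.trans (le_max_left _ _)) _)) (g0 _)) (mul_le_mul v1 s1 (by positivity) (g0 _))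
              (mul_nonneg b0.1 (by positivity)) (by positivity)
        _ ≤ _ := by rw [← rpow_add N0, ← rpow_add N0, ← rpow_add N0, s5]; exact mo (by linarith)
  · have : (n : ℝ) ^ q.d ≤ p.M (O7.lo q.d n) := by
      rw [l1, Pm.M, ← rpow_mul N0.le, pw]; exact mo (by linarith)
    exact this.trans (le_mul_of_one_le_left ((g0 _).trans this) (by linarith))
  · have v1 := mul_le_mul_of_nonneg_right a4 N0.le
    rw [mul_comm, pw, show 1 + -(1 - q.d) = q.d by ring] at v1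
    exact v1.trans (le_mul_of_one_le_right ((g0 _).trans v1) (by linarith))

end Crest.Agent.T157.O0

end
end

-- ▼ part T157/O0Whp_58
section

/-!
# Row 157, part A2 (helper58): the finest spectral event is typical (`O0.WhpStmt`)
-/

set_option autoImplicit false

noncomputable section

namespace Crest.Agent.T157.O0

open MeasureTheory Matrix Filter Topology Set Real
open Crest.Agent.T157.Tap (Mx V GOE)
open Crest.Agent.T157.Qe (zz ell)
open Crest.Agent.T157.Eig Crest.Agent.T157.Sc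

namespace Whp58

lemma rt_zz {g : ℝ} (h0 : 0 < g) (h1 : g < 1) : rt (zz g) = g := by
  have h2 : g ≤ 1 / g := by rw [le_div_iff₀ h0]; nlinarith
  have h3 : g * (1 / g) = 1 := by field_simp
  have : zz g ^ 2 - 4 = (1 / g - g) ^ 2 := by unfold zz; nlinarith
  rw [rt, this, sqrt_sq (by linarith), zz]; ring

lemma sum_eq {n : ℕ} {A : Mx n} (hA : A.IsHermitian) (f : ℝ → ℝ) :
    ∑ k ∈ Finset.range n, f (lam A k) = ∑ i, f (hA.eigenvalues i) := by
  simpa only [Fintype.card_fin] using sum_range_eq hA fun l _ => f l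

lemma abs_eig {n : ℕ} {A : Mx n} (hA : A.IsHermitian) (i : Fin n) :
    |hA.eigenvalues i| ≤ opn A := by
  have := abs_lam_le hA ((eqv (Fin n)).symm i)
  rwa [lam_fin hA, Equiv.apply_symm_apply] at this

/-- deterministic part: a norm bound and the counting function give `WW` -/
lemma ww_of {n : ℕ} {A : Mx n} {M t e κ : ℝ} (hA : A.IsHermitian) (hC : Ll.Rig.CntA A M)
    (hE : opn A ≤ 2 + e * t) (x0 : 1 / (n : ℝ) ≤ e * t) (x1 : e * t ≤ 1) (hn : 0 < n)
    (h1 : ∀ s, 2 * e * t ≤ s → 2 * M / s ≤ min (e * n * √(max s t))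
      (min ((n : ℝ) ^ κ * √(n / s)) (e * √n / s ^ (3 / 4 : ℝ))))
    (h2 : ∀ s, M * (log 68 + log n) ≤ min (e * n * max s t ^ (3 / 2 : ℝ))
      ((n : ℝ) ^ κ * √(n * t))) : Cw.WW t e κ A := by
  have n0 : (0 : ℝ) < n := by exact_mod_cast hn
  have x2 : 0 < e * t := lt_of_lt_of_le (by positivity) x0
  refine ⟨hA.eigenvalues, Dq.dg_herm hA, fun i => ?_, fun g hg hs => ?_⟩
  · have := abs_le.1 ((abs_eig hA i).trans hE)
    exact ⟨by linarith [this.1], this.2⟩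
  have g0 : 0 < g := lt_of_lt_of_le (by norm_num) hg.1
  have hz : 2 + e * t < zz g := by linarith
  have z1 : zz g ≤ 65 := by
    have : 1 / g ≤ 64 := by rw [div_le_iff₀ g0]; linarith [hg.1]
    unfold zz; linarith [hg.2]
  have r1 := hC.res hA (by linarith) hE hz
  have r2 := hC.log hA (by linarith) hE hz
  rw [rt_zz g0 hg.2] at r1 r2
  rw [sum_eq hA fun l => 1 / (zz g - l)] at r1
  rw [sum_eq hA fun l => Real.log (zz g - l)] at r2
  simp only [one_div] at r1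
  refine ⟨r1.trans (le_trans ?_ (h1 _ hs)), r2.trans (le_trans ?_ (h2 (zz g - 2)))⟩
  · rw [div_le_div_iff₀ (by linarith) (by linarith)]
    nlinarith [hC.nonneg]
  · refine mul_le_mul_of_nonneg_left ?_ hC.nonneg
    have a1 : log (zz g + (2 + e * t)) ≤ log 68 := log_le_log (by linarith) (by linarith)
    have a2 : log (1 / (n : ℝ)) ≤ log (zz g - (2 + e * t)) :=
      log_le_log (by positivity) (by linarith)
    rw [one_div, log_inv] at a2
    linarith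

lemma ev_log {c : ℝ} (hc : 0 < c) : ∀ᶠ n : ℕ in atTop, log 68 + log n ≤ (n : ℝ) ^ c := by
  have h := (isLittleO_log_rpow_atTop hc).bound (show (0 : ℝ) < 1 / 2 by norm_num)
  have h2 := (tendsto_rpow_atTop hc).eventually_ge_atTop (2 * log 68)
  filter_upwards [tendsto_natCast_atTop_atTop.eventually (h.and h2)] with n hn
  have h3 := hn.1
  rw [Real.norm_eq_abs, Real.norm_eq_abs, abs_of_nonneg (rpow_nonneg (Nat.cast_nonneg n) c)] at h3
  linarith [le_abs_self (log (n : ℝ)), hn.2]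

lemma ev_ww {κ d : ℝ} (hκ : 0 < κ) (d0 : 0 < d) (d1 : d < 1 / 10) : ∀ᶠ n : ℕ in atTop,
    ∀ A : Mx n, Ll.Rig.Good (d / 4) n A →
      Cw.WW ((n : ℝ) ^ d / (n : ℝ) ^ (2 / 3 : ℝ)) ((n : ℝ) ^ (-(d / 2))) κ A := by
  have h2 := ((tendsto_rpow_atTop (show (0 : ℝ) < 1 / 4 by norm_num)).comp
    tendsto_natCast_atTop_atTop).eventually_ge_atTop 2
  filter_upwards [ev_log (show 0 < d / 4 by linarith), h2, eventually_ge_atTop 1] with n hl h2 hn A hA
  obtain ⟨N, hN⟩ : ∃ N : ℝ, N = (n : ℝ) := ⟨_, rfl⟩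
  rw [← hN] at hl ⊢
  have n1 : 1 ≤ N := by rw [hN]; exact_mod_cast hn
  have n0 : 0 < N := by linarith
  have h2' : 2 ≤ N ^ (1 / 4 : ℝ) := hN ▸ h2
  have mo : ∀ {a b : ℝ}, a ≤ b → N ^ a ≤ N ^ b := fun h => rpow_le_rpow_of_exponent_le n1 h
  have ad : ∀ a b : ℝ, N ^ a * N ^ b = N ^ (a + b) := fun a b => (rpow_add n0 a b).symm
  have ps : ∀ a : ℝ, 0 < N ^ a := fun a => rpow_pos_of_pos n0 a
  have sq : ∀ a : ℝ, √(N ^ a) = N ^ (a / 2) := fun a => by
    rw [sqrt_eq_rpow, ← rpow_mul n0.le]; ring_nf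
  have o0 : ∀ {a : ℝ}, 0 ≤ a → 1 ≤ N ^ a := fun h => one_le_rpow n1 h
  have ht : N ^ d / N ^ (2 / 3 : ℝ) = N ^ (d - 2 / 3) := (rpow_sub n0 _ _).symm
  have hx : N ^ (-(d / 2)) * N ^ (d - 2 / 3) = N ^ (d / 2 - 2 / 3) := by rw [ad]; ring_nf
  rw [ht]
  refine ww_of hA.1 hA.2.2 (hA.2.1.trans ?_) ?_ ?_ hn (fun s hs => ?_) (fun s => ?_) <;>
    try rw [← hN]
  · rw [hx]; linarith [mo (show -(2 / 3 : ℝ) + d / 4 ≤ d / 2 - 2 / 3 by linarith)]
  · rw [hx, one_div, ← rpow_neg_one]; exact mo (by linarith)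
  · rw [hx]; exact rpow_le_one_of_one_le_of_nonpos n1 (by linarith)
  · rw [mul_assoc, hx] at hs
    have s0 : 0 < s := lt_of_lt_of_le (by linarith [ps (d / 2 - 2 / 3)]) hs
    refine le_min ?_ (le_min ?_ ?_)
    · have a1 : N ^ (2 / 3 : ℝ) ≤ N ^ (-(d / 2)) * N * √(max s (N ^ (d - 2 / 3))) := by
        refine le_trans (le_of_eq ?_) (mul_le_mul_of_nonneg_left
          (sqrt_le_sqrt (le_max_right _ _)) (by positivity))
        rw [sq, ← rpow_add_one n0.ne', ad]; ring_nf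
      refine le_trans ?_ a1
      rw [div_le_iff₀ s0]
      have a2 : N ^ (d / 4) ≤ N ^ (2 / 3 : ℝ) * N ^ (d / 2 - 2 / 3) := by
        rw [ad]; exact mo (by linarith)
      nlinarith [ps (2 / 3)]
    · refine le_trans ?_ (le_mul_of_one_le_left (sqrt_nonneg _) (o0 hκ.le))
      refine le_sqrt_of_sq_le ?_
      rw [div_pow, div_le_div_iff₀ (by positivity) s0]
      have a1 : N ^ (1 / 4 : ℝ) * (N ^ (d / 4) * N ^ (d / 4)) ≤ N * N ^ (d / 2 - 2 / 3) := by
        rw [ad, ad, mul_comm N, ← rpow_add_one n0.ne']; exact mo (by linarith)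
      have a2 : (2 * N ^ (d / 4)) ^ 2 ≤ N * s := by
        nlinarith [mul_pos (ps (d / 4)) (ps (d / 4)), mul_le_mul_of_nonneg_left hs n0.le]
      nlinarith [mul_le_mul_of_nonneg_right a2 s0.le]
    · have a0 : s = s ^ (3 / 4 : ℝ) * s ^ (1 / 4 : ℝ) := by rw [← rpow_add s0]; norm_num
      have a1 : N ^ (-(1 / 6 : ℝ)) ≤ s ^ (1 / 4 : ℝ) := by
        have : N ^ (-(2 / 3 : ℝ)) ≤ s := by
          linarith [mo (show -(2 / 3 : ℝ) ≤ d / 2 - 2 / 3 by linarith), ps (d / 2 - 2 / 3)]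
        refine le_trans (le_of_eq ?_) (rpow_le_rpow (ps _).le this (by norm_num))
        rw [← rpow_mul n0.le]; norm_num
      have a2 : N ^ (1 / 4 : ℝ) * N ^ (d / 4) ≤ N ^ (-(d / 2)) * √N * N ^ (-(1 / 6 : ℝ)) := by
        rw [sqrt_eq_rpow, ad, ad, ad]; exact mo (by linarith)
      have a3 : 2 * N ^ (d / 4) ≤ N ^ (-(d / 2)) * √N * s ^ (1 / 4 : ℝ) :=
        ((mul_le_mul_of_nonneg_right h2' (ps _).le).trans a2).trans
          (mul_le_mul_of_nonneg_left a1 (by positivity))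
      rw [div_le_div_iff₀ s0 (by positivity)]
      calc _ ≤ N ^ (-(d / 2)) * √N * s ^ (1 / 4 : ℝ) * s ^ (3 / 4 : ℝ) :=
            mul_le_mul_of_nonneg_right a3 (by positivity)
        _ = _ := by rw [mul_assoc, mul_comm (s ^ (1 / 4 : ℝ)), ← a0]
  · have a0 : N ^ (d / 4) * (log 68 + log N) ≤ N ^ (d / 2) := by
      refine (mul_le_mul_of_nonneg_left hl (ps _).le).trans (le_of_eq ?_)
      rw [ad]; ring_nf
    refine a0.trans (le_min ?_ ?_)
    · refine le_trans ?_ (mul_le_mul_of_nonneg_left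
        (rpow_le_rpow (ps _).le (le_max_right _ _) (by norm_num)) (by positivity))
      rw [← rpow_mul n0.le, ← rpow_add_one n0.ne', ad]; exact mo (by linarith)
    · refine le_trans ?_ (le_mul_of_one_le_left (sqrt_nonneg _) (o0 hκ.le))
      rw [mul_comm N, ← rpow_add_one n0.ne', sq]; exact mo (by linarith)

lemma whp_good {ε : ℝ} (hε : 0 < ε) : Top.Whp GOE fun n W => Ll.Rig.Good ε n W := by
  obtain ⟨c, hc, h⟩ := (Ll.All.good hε).goe
  have t1 : Tendsto (fun n : ℕ => ENNReal.ofReal (exp (-(n : ℝ) ^ c))) atTop (𝓝 0) := by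
    rw [← ENNReal.ofReal_zero]
    exact ENNReal.tendsto_ofReal (tendsto_exp_neg_atTop_nhds_zero.comp
      ((tendsto_rpow_atTop hc).comp tendsto_natCast_atTop_atTop))
  exact tendsto_of_tendsto_of_tendsto_of_le_of_le' tendsto_const_nhds t1
    (.of_forall fun _ => zero_le) (h.mono fun n hn => hn ())

end Whp58

/-- **task 836** -/
theorem whpStmt : WhpStmt := fun _ hκ d hd =>
  (Whp58.whp_good (show 0 < d / 4 by linarith [hd.1])).mono (Whp58.ev_ww hκ hd.1 hd.2)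

end Crest.Agent.T157.O0
end
end

-- ▼ part T157/FinE_88
section

/-!
# Row 157: the critical statements from the joint planted theorem and the coin windows (helper88)
-/

set_option autoImplicit false

namespace Crest.Agent.T157.TopZ

open Crest.ProbabilityR.SpinGlassDynamics

/-- the Gaussian input -/
structure JIn : Prop where
  j0 : O7.J0
  j1 : O7.J1
  j2 : O7.J2
  j3 : O7.J3
  ed : O7.Edge

theorem aOut (J : JIn) : AOut (3 / 5) (1 / 30) 1 :=
  have h := O7.out_of O7.quStmt O7.w2Glue O7.awGlue O7.gGlue O7.g3Glue O7.pbStmt O7.starGlue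
    O7.sharpGlue LpAll.covStmt (Un.ldB false) J.j0 J.j1 J.j2 J.j3 J.ed (a := 3 / 5) (κ := 1 / 30)
    (T := 1) (by norm_num) (by norm_num) one_pos
  ⟨h.1, h.2.1, h.2.2.1, h.2.2.2⟩

/-- the coin input -/
structure KIn : Prop where
  g0 : O7.G0 (couplingLaw true)
  g1 : O7.G1 (couplingLaw true)
  g2 : O7.G2 (couplingLaw true)
  g3 : ∀ T, 0 < T → Cn.FroC T → O7.G3 (couplingLaw true) T
  win : ∀ T, 0 < T → Cn.FroC T → Cn.WinC T

theorem kOut (K : KIn) : KOut (3 / 5) (1 / 30) := fun T hT hF =>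
  ⟨O7.starGlue O7.pbStmt true _ _ T (by norm_num) (by norm_num) hT (Un.ldB true) K.g0 K.g1 K.g2
    (K.g3 T hT hF), K.win T hT hF⟩

theorem r29_of (J : JIn) : Top.R29 :=
  r29 (by norm_num) (by norm_num) (by norm_num) le_rfl one_pos (aOut J)

theorem r32_of (J : JIn) (K : KOut (3 / 5) (1 / 30)) : Top.R32 :=
  r32' (by norm_num) (by norm_num) (by norm_num) le_rfl one_pos (aOut J) K Sw14.swapT

theorem r33_of (J : JIn) (K : KOut (3 / 5) (1 / 30)) : Top.R33 :=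
  r33' (by norm_num) (by norm_num) (by norm_num) le_rfl one_pos (aOut J) K Sw14.swapT

end Crest.Agent.T157.TopZ
end

-- ▼ part T157/O0J_46
section

/-!
# Row 157, block A2 (helper46): from the joint planted theorem to `J0 … J3`
-/

set_option autoImplicit false

noncomputable section

namespace Crest.Agent.T157.O0

open MeasureTheory Matrix Filter Topology Set
open Crest.Agent.T157.E Crest.Agent.T157.SL Crest.Agent.T157.Ks
open Crest.Agent.T157.Tap (Mx V GOE)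
open Crest.Agent.T157.Ks.St0 (JP)

namespace J46

/-- choice of the parameters: `L, K` first, then `d` as small as we like -/
lemma pick {Q : Pm → Prop} (hQ : ∀ᶠ p in FF, Q p) (L0 : ℝ) : ∃ L K : ℝ, L0 ≤ L ∧ ∀ d > (0 : ℝ),
    ∃ p : Pm, p.L = L ∧ p.K = K ∧ p.d ≤ d ∧ p.Ok ∧ ∀ᶠ n : ℕ in atTop, Q { p with n := n } := by
  have h := ev_iff.1 (hQ.and ev_ok)
  unfold Ev at h
  obtain ⟨L, hL, h⟩ := ((ev_ge L0).and h).exists
  obtain ⟨T, h⟩ := h.exists
  obtain ⟨C, h⟩ := h.exists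
  obtain ⟨K, h⟩ := h.exists
  obtain ⟨A, h⟩ := h.exists
  obtain ⟨ch, h⟩ := h.exists
  refine ⟨L, K, hL, fun d hd => ?_⟩
  obtain ⟨d', hd', h⟩ := ((ev_sm d).and h).exists
  iterate 13 obtain ⟨_, h⟩ := h.exists
  obtain ⟨n, hn⟩ := h.exists
  exact ⟨_, rfl, rfl, hd'.2 hd, hn.2, h.mono fun _ h => h.1⟩

lemma ev_neg {c a : ℝ} (hc : 0 < c) (ha : 0 < a) : ∀ᶠ n : ℕ in atTop, (n : ℝ) ^ (-c) ≤ a :=
  ((tendsto_rpow_neg_atTop hc).comp tendsto_natCast_atTop_atTop).eventually (ge_mem_nhds ha)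

lemma ev_one : ∀ᶠ n : ℕ in atTop, (1 : ℝ) ≤ n :=
  (eventually_ge_atTop 1).mono fun _ h => by exact_mod_cast h

lemma ev_pow {c a : ℝ} (hc : c < 1) (ha : 0 < a) : ∀ᶠ n : ℕ in atTop, (n : ℝ) ^ c ≤ a * n := by
  filter_upwards [ev_neg (sub_pos.2 hc) ha, ev_one] with n h h1
  have h0 : (0 : ℝ) < n := by linarith
  calc (n : ℝ) ^ c = n ^ (-(1 - c)) * n := by
        rw [← Real.rpow_add_one h0.ne']; congr 1; ring
    _ ≤ a * n := mul_le_mul_of_nonneg_right h h0.le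

lemma lo_eq {n : ℕ} (h : (1 : ℝ) ≤ n) (d : ℝ) : O7.lo d n = (n : ℝ) ^ (-(2 / 3 - d)) := by
  rw [O7.lo, Soft.N23, ← Real.rpow_sub (by linarith)]; congr 1; ring

lemma lo_mono {n : ℕ} (h : (1 : ℝ) ≤ n) {d d' : ℝ} (hd : d' ≤ d) : O7.lo d' n ≤ O7.lo d n := by
  rw [lo_eq h, lo_eq h]; exact Real.rpow_le_rpow_of_exponent_le h (by linarith)

lemma lo_pos {n : ℕ} (h : (1 : ℝ) ≤ n) (d : ℝ) : 0 < O7.lo d n := by
  rw [lo_eq h]; exact Real.rpow_pos_of_pos (by linarith) _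

lemma ev_lo {d a : ℝ} (hd : d < 2 / 3) (ha : 0 < a) : ∀ᶠ n : ℕ in atTop, O7.lo d n ≤ a := by
  filter_upwards [ev_neg (sub_pos.2 hd) ha, ev_one] with n h h1
  rwa [lo_eq h1]

variable {p : Pm}

lemma nums (h : p.Ok) : 0 < p.d ∧ p.d < 1 / 10 ∧ 0 < p.k3 ∧ p.k3 ≤ p.d ∧ p.cv ≤ p.A * p.cv ∧
    0 < p.t2 := by
  have hA : (1 : ℝ) ≤ p.A := by exact_mod_cast h.A
  refine ⟨h.d.1, by linarith [h.d.2, h.ch.2], h.k3.1,
    by linarith [h.d.1, h.k3.2, h.k2.2, h.k4.2], le_mul_of_one_le_left h.cv.le hA, ?_⟩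
  exact Real.rpow_pos_of_pos (div_pos h.ef (by linarith [h.L])) _

/-- the general reduction -/
lemma jb (hW : WStmt) (hP : WhpStmt) (h : p.Ok) {a : ℕ → ℝ} {b : ℝ} {H : ℕ → ℝ → ℝ}
    {G : ∀ n, ℝ → Mx n → V n → Prop} (e : ℕ → ℝ → ℝ)
    (hh : ∀ᶠ n : ℕ in atTop, ∀ t ∈ Icc (a n) b, O7.lo p.d n ≤ t ∧ (n : ℝ) ^ (-p.cv) ≤ e n t ∧
      ∃ (S : Set (Mx n × V n)) (H' : ℝ), Pm.Lev { p with n := n } t
        (Pm.Wt { p with n := n } (e n t) t) S H' ∧ H n t ≤ H' ∧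
        ∀ z ∈ S, z.1ᵀ = z.1 → G n t z.1 z.2) : O7.JB a b H G := by
  obtain ⟨d0, d1, k0, k1, c1, t2⟩ := nums h
  refine ⟨fun n t W => Cw.WW (min t p.t2) (e n t ^ p.A) p.k3 W, ?_, ?_⟩
  · refine (hP p.k3 k0 p.d ⟨d0, d1⟩).mono ?_
    filter_upwards [hh, ev_one, ev_lo (show p.d < 2 / 3 by linarith) t2] with n hn h1 h2 W hw t ht
    obtain ⟨h3, h4, -⟩ := hn t ht
    have h0 : (0 : ℝ) < n := by linarith
    refine (hW n p.k3 _ _ (Real.rpow_pos_of_pos h0 _) (lo_pos h1 p.d)).2.2 _ _ ?_ (le_min h3 h2) W hw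
    refine le_trans ?_ (pow_le_pow_left₀ (Real.rpow_pos_of_pos h0 _).le h4 p.A)
    rw [← Real.rpow_mul_natCast h0.le]
    exact Real.rpow_le_rpow_of_exponent_le h1 (by linarith [h.cv'])
  · filter_upwards [hh] with n hn t ht
    obtain ⟨-, -, S, H', h1, h2, h3⟩ := hn t ht
    refine le_trans (measure_mono ?_) (le_trans h1
      (ENNReal.ofReal_le_ofReal (Real.exp_le_exp.2 (neg_le_neg h2))))
    intro z hz
    obtain ⟨l, hl, -⟩ := id hz.1
    exact ⟨hz.1, fun hS => hz.2 (h3 z hS hl.symm)⟩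

lemma cb_mono {n : ℕ} {w : Cube n → ℝ} {k k' : ℝ} (h : CB w sv k) (hk : k ≤ k') : Crit.CovLe w k' :=
  fun u => (h u).trans (mul_le_mul_of_nonneg_right hk (Finset.sum_nonneg fun _ _ => mul_self_nonneg _))

lemma ef_le (h : p.Ok) (n : ℕ) {t : ℝ} (ht : 0 ≤ t) : p.ef * n ≤ p.ef * n * (1 + t) :=
  le_mul_of_one_le_right (mul_nonneg h.ef.le (Nat.cast_nonneg n)) (by linarith)

end J46

open J46

theorem j0 (hW : WStmt) (hP : WhpStmt) (hT : Thm) : O7.J0 := fun L0 => by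
  obtain ⟨L, K, hL, h⟩ := pick hT L0
  refine ⟨K, fun d hd => ?_⟩
  obtain ⟨p, rfl, rfl, h1, ho, h⟩ := h d hd
  refine ⟨p.t0, ho.t0.1, p.ef, ho.ef, jb hW hP ho (fun _ _ => p.e1) ?_⟩
  filter_upwards [h, ev_one, ev_neg ho.cv ho.e1.1] with n hn n1 he t ht
  have h2 := (lo_mono n1 h1).trans ht.1
  have h3 := ((lo_pos n1 _).trans_le h2).le
  exact ⟨h2, he, _, _, (hn t ⟨h2, ht.2⟩).2.1, min_le_min (mul_le_mul_of_nonneg_right hL
    (by unfold O7.Mt; positivity)) (ef_le ho n h3), fun z hz _ => hz.g1⟩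

theorem j1 (hW : WStmt) (hP : WhpStmt) (hT : Thm) : O7.J1 := fun e he d hd => by
  obtain ⟨L, K, -, h⟩ := pick hT 0
  obtain ⟨p, -, -, h1, ho, h⟩ := h d hd
  have e0 : 0 < min e p.e1 := lt_min he ho.e1.1
  refine ⟨min e p.e1 ^ p.A, pow_pos e0 _, min p.t0 (min e p.e1 ^ (1 / p.cv)),
    lt_min ho.t0.1 (Real.rpow_pos_of_pos e0 _), p.ef, ho.ef, jb hW hP ho (fun _ _ => min e p.e1) ?_⟩
  filter_upwards [h, ev_one, ev_neg ho.cv e0] with n hn n1 he' t ht
  have h2 := (lo_mono n1 h1).trans ht.1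
  have h3 := (lo_pos n1 _).trans_le h2
  have h4 : t ^ p.cv ≤ min e p.e1 := by
    refine (Real.rpow_le_rpow h3.le (ht.2.trans (min_le_right _ _)) ho.cv.le).trans_eq ?_
    rw [← Real.rpow_mul e0.le, one_div_mul_cancel ho.cv.ne', Real.rpow_one]
  exact ⟨h2, he', _, _, (hn t ⟨h2, ht.2.trans (min_le_left _ _)⟩).2.2 _
    ⟨e0, min_le_right _ _, h4, he'⟩, min_le_min le_rfl (ef_le ho n h3.le), fun z hz _ =>
    cb_mono hz (div_le_div_of_nonneg_right (by linarith [min_le_left e p.e1]) h3.le)⟩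

theorem j2 (hW : WStmt) (hP : WhpStmt) (hT : Thm) : O7.J2 := fun d hd => by
  obtain ⟨L, K, -, h⟩ := pick hT 0
  obtain ⟨p, -, -, h1, ho, h⟩ := h d hd
  obtain ⟨d0, d1, k0, k1, c1, -⟩ := nums ho
  refine ⟨p.cv, ho.cv, 1, p.t0, ho.t0.1,
    jb hW hP ho (fun n t => max (t ^ p.cv) ((n : ℝ) ^ (-p.cv))) ?_⟩
  filter_upwards [h, ev_one, ev_neg ho.cv ho.e1.1,
    ev_pow (show p.cv < 1 by linarith [ho.cv']) ho.ef] with n hn n1 he hf t ht
  have n0 : (0 : ℝ) < n := by linarith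
  have h2 := (lo_mono n1 h1).trans ht.1
  have h3 := (lo_pos n1 _).trans_le h2
  have h4 : t ^ p.cv ≤ p.e1 := (Real.rpow_le_rpow h3.le ht.2 ho.cv.le).trans ho.t0'
  have h5 := Real.rpow_pos_of_pos h3 p.cv
  have h6 := Real.rpow_pos_of_pos n0 (-p.cv)
  refine ⟨h2, le_max_right _ _, _, _, (hn t ⟨h2, ht.2⟩).2.2 _
    ⟨lt_max_of_lt_left h5, max_le h4 he, le_max_left _ _, le_max_right _ _⟩,
    le_min ?_ (hf.trans (ef_le ho n h3.le)), fun z hz _ =>
    cb_mono hz (div_le_div_of_nonneg_right ?_ h3.le)⟩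
  · have a1 := pow_le_pow_left₀ h6.le (le_max_right (t ^ p.cv) _) p.A
    have a2 := Real.rpow_le_rpow (lo_pos n1 _).le h2 (show (0 : ℝ) ≤ 3 / 2 by norm_num)
    rw [lo_eq n1, ← Real.rpow_mul n0.le] at a2
    refine le_trans ?_ (mul_le_mul a1 (mul_le_mul_of_nonneg_left a2 n0.le) (by positivity)
      (by positivity))
    rw [← Real.rpow_mul_natCast n0.le, mul_comm (n : ℝ), ← Real.rpow_add_one n0.ne',
      ← Real.rpow_add n0]
    exact Real.rpow_le_rpow_of_exponent_le n1 (by linarith [ho.cv'])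
  · linarith [max_le_add_of_nonneg h5.le h6.le]

theorem j3 (hW : WStmt) (hP : WhpStmt) (hT : Thm) : O7.J3 := by
  obtain ⟨L, K, -, h⟩ := pick hT 0
  obtain ⟨p, -, -, -, ho, h⟩ := h 1 one_pos
  obtain ⟨d0, d1, -⟩ := nums ho
  refine ⟨p.K, p.K, p.t0, ho.t0.1, fun s hs => ⟨1 / 2, by norm_num,
    jb hW hP ho (fun _ _ => p.e1) ?_⟩⟩
  have hL : 0 < p.L := by linarith [ho.L]
  filter_upwards [h, ev_neg ho.cv ho.e1.1, ev_lo (show p.d < 2 / 3 by linarith) hs,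
    ev_neg ho.ch.1 hs, ev_pow (show (1 / 2 : ℝ) < 1 by norm_num) ho.ef,
    ev_pow (show (1 / 2 : ℝ) < 1 by norm_num) (mul_pos hL (Real.rpow_pos_of_pos hs (3 / 2)))]
    with n hn he h1 h2 hf hf' t ht
  have h3 := hs.trans_le ht.1
  refine ⟨h1.trans ht.1, he, _, _, (hn t ⟨h1.trans ht.1, ht.2⟩).2.1,
    le_min (hf'.trans ?_) (hf.trans (ef_le ho n h3.le)), fun z hz hs => ⟨hz.g1, fun v => ?_⟩⟩
  · rw [mul_assoc, mul_comm _ (n : ℝ)]
    exact mul_le_mul_of_nonneg_left (mul_le_mul_of_nonneg_left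
      (Real.rpow_le_rpow hs.le ht.1 (by norm_num)) (Nat.cast_nonneg n)) hL.le
  · have h4 := hz.g2 v
    have h5 : (Pm.gc { p with n := n } t).K2 = p.K := if_pos (h2.trans ht.1)
    rw [h5] at h4
    refine le_of_eq_of_le ?_ h4
    have hA : (Oa.Az 2 z.1)ᵀ = Oa.Az 2 z.1 := by
      rw [transpose_sub, transpose_smul, transpose_one, hs]
    rw [← Od.covV_lin, Od.covV_fA, Od.dot_fA hA, Od.covV_lin, Od.symm_dot hA]
    rfl

end Crest.Agent.T157.O0
end
end

-- ▼ part T157/FinF_88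

/-!
# Row 157: the critical statements from the joint planted theorem (helper88)
-/

set_option autoImplicit false

namespace Crest.Agent.T157.TopZ

theorem jIn (h : O0.Thm) : JIn :=
  ⟨O0.j0 O0.wStmt O0.whpStmt h, O0.j1 O0.wStmt O0.whpStmt h, O0.j2 O0.wStmt O0.whpStmt h,
    O0.j3 O0.wStmt O0.whpStmt h, O0.edge_of_thm O0.wStmt O0.whpStmt h⟩


theorem r29_thm (h : O0.Thm) : Top.R29 := r29_of (jIn h)

theorem r32_thm (h : O0.Thm) (K : KIn) : Top.R32 := r32_of (jIn h) (kOut K)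

theorem r33_thm (h : O0.Thm) (K : KIn) : Top.R33 := r33_of (jIn h) (kOut K)

end Crest.Agent.T157.TopZ
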