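import Crest.Agent.T157.CpDef_72
import Crest.Agent.T157.QeA_24
import Crest.Agent.T157.QeTi_61
import Crest.Agent.T157.CpRot_10_Mg
import Crest.Agent.T157.CpNear_56
import Crest.Agent.T157.CwLtA_15
import Crest.Agent.T157.UnB_81
import Crest.Agent.T157.UnD_81
import Crest.Agent.T157.CwTr_72
import Crest.Agent.T157.EtDef_81
import Crest.Agent.T157.SLE_23
import Crest.Agent.T157.EtTime_90
import Crest.Agent.T157.O7Def_64
import Crest.Agent.T157.FinF_88
import Crest.Agent.T157.CtWin_63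
import Crest.Agent.T157.O0S4_5_Mg

-- ▼ part T157/CpTop_71
section

/-!
# Row 157, part C (helper71): the top eigenvector is flat (`Cp.TopGlue`)
-/

set_option autoImplicit false

noncomputable section

namespace Crest.Agent.T157.Cp

open MeasureTheory ProbabilityTheory Matrix Set Filter
open scoped ENNReal
open Crest.Agent.T157.Qe (V Mx Le GOE)
open Crest.Agent.T157.Conc (ex ex_add ex_mono ex_zero)
open Crest.Agent.T157.Dq (Dg)

namespace Top71

variable {n : ℕ}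

lemma ex_sum {ι : Type*} (s : Finset ι) (f : ι → ℝ) : ex (∑ i ∈ s, f i) = ∏ i ∈ s, ex (f i) := by
  classical
  induction s using Finset.induction_on with
  | empty => simp [ex_zero]
  | insert a s ha ih => rw [Finset.sum_insert ha, Finset.prod_insert ha, ex_add, ih]

/-- exponential Chebyshev inequality -/
lemma cher {Ω : Type*} [MeasurableSpace Ω] (μ : Measure Ω) {f : Ω → ℝ} (hf : Measurable f)
    (a : ℝ) : μ {y | a ≤ f y} ≤ ex (-a) * ∫⁻ y, ex (f y) ∂μ := by
  rw [← lintegral_const_mul _ (by fun_prop),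
    ← lintegral_indicator_one (measurableSet_le measurable_const hf)]
  refine lintegral_mono fun y => ?_
  by_cases h : a ≤ f y
  · rw [indicator_of_mem (show y ∈ {y | a ≤ f y} from h), ← ex_add, Pi.one_apply, ← ex_zero]
    exact ex_mono (by linarith)
  · rw [indicator_of_notMem (show y ∉ {y | a ≤ f y} from h)]
    exact zero_le

lemma small (n : ℕ) : Conc.gv (Fin n) {y | y ⬝ᵥ y < n / 2} ≤ ex (-(n / 16 : ℝ)) := by
  have h1 := cher (Conc.gv (Fin n)) (f := fun y : V n => -(y ⬝ᵥ y) / 2)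
    (by unfold dotProduct; fun_prop) (-(n / 4 : ℝ))
  have h2 := Qe.gi_dg (Dq.dg_diagonal fun _ : Fin n => (2 : ℝ)) fun _ => two_pos
  have e : ∀ y : V n, (y ⬝ᵥ y - y ⬝ᵥ diagonal (fun _ : Fin n => (2 : ℝ)) *ᵥ y) / 2 =
      -(y ⬝ᵥ y) / 2 := fun y => by
    have : y ⬝ᵥ diagonal (fun _ : Fin n => (2 : ℝ)) *ᵥ y = 2 * (y ⬝ᵥ y) := by
      simp only [dotProduct, mulVec_diagonal, Finset.mul_sum]
      exact Finset.sum_congr rfl fun i _ => by ring
    rw [this]; ring
  simp only [Qe.Gi, e] at h2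
  rw [h2, ← ex_add] at h1
  refine (measure_mono fun y hy => ?_).trans (h1.trans (ex_mono ?_))
  · simp only [mem_ofPred_eq] at hy ⊢; linarith
  · have := Real.log_two_gt_d9
    have hn : (0 : ℝ) ≤ n := Nat.cast_nonneg n
    simp only [Finset.sum_const, Finset.card_univ, Fintype.card_fin, nsmul_eq_mul]
    nlinarith

/-- the mass of the large coordinates -/
def hv (B : ℝ) (y : V n) : ℝ := ∑ i, if B < y i ^ 2 then y i ^ 2 else 0

lemma meas_hv {B : V n → ℝ} (hB : Measurable B) : Measurable fun y : V n => hv (B y) y := by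
  unfold hv
  refine Finset.measurable_sum _ fun i _ => Measurable.ite ?_ (by fun_prop) measurable_const
  exact measurableSet_lt hB (by fun_prop)

lemma hv_anti {B B' : ℝ} (h : B ≤ B') (y : V n) : hv B' y ≤ hv B y := by
  refine Finset.sum_le_sum fun i _ => ?_
  have := sq_nonneg (y i)
  split_ifs with h1 h2 <;> linarith

lemma hv_smul {c : ℝ} (hc : 0 < c) (B : ℝ) (y : V n) : hv (c ^ 2 * B) (c • y) = c ^ 2 * hv B y := by
  unfold hv
  rw [Finset.mul_sum]
  refine Finset.sum_congr rfl fun i _ => ?_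
  have h2 : 0 < c ^ 2 := by positivity
  simp only [Pi.smul_apply, smul_eq_mul, mul_pow, mul_lt_mul_iff_right₀ h2]
  split_ifs <;> simp

lemma mgf_hv (B : ℝ) :
    ∫⁻ y, ex (hv B y / 4) ∂Conc.gv (Fin n) ≤ ex (n * (2 * Real.exp (-B / 8))) := by
  classical
  have h1 : ∀ y : V n, ex (hv B y / 4) ≤ ∑ S ∈ (Finset.univ : Finset (Fin n)).powerset,
      ex (∑ _i ∈ S, -B / 8) *
        ex ((y ⬝ᵥ y - y ⬝ᵥ diagonal (fun i => if i ∈ S then (1 / 4 : ℝ) else 1) *ᵥ y) / 2) := by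
    intro y
    calc ex (hv B y / 4) = ∏ i, ex ((if B < y i ^ 2 then y i ^ 2 else 0) / 4) := by
          rw [hv, Finset.sum_div, ex_sum]
      _ ≤ ∏ i, (1 + ex (-B / 8 + 3 / 8 * y i ^ 2)) := by
          refine Finset.prod_le_prod' fun i _ => ?_
          split_ifs with h
          · exact (ex_mono (by linarith)).trans le_add_self
          · rw [zero_div, ex_zero]; exact le_self_add
      _ = _ := by
          rw [Finset.prod_one_add]
          refine Finset.sum_congr rfl fun S _ => ?_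
          rw [← ex_sum, ← ex_add, Finset.sum_add_distrib]
          congr 2
          have : ∑ i ∈ S, 3 / 8 * y i ^ 2 = ∑ i, if i ∈ S then 3 / 8 * y i ^ 2 else 0 := by
            rw [Finset.sum_ite_mem, Finset.univ_inter]
          rw [this]
          simp only [dotProduct, mulVec_diagonal, ← Finset.sum_sub_distrib, Finset.sum_div]
          refine Finset.sum_congr rfl fun i _ => ?_
          split_ifs <;> ring
  refine (lintegral_mono h1).trans ?_
  rw [lintegral_finsetSum _ fun S _ => by unfold dotProduct mulVec dotProduct; fun_prop]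
  have h2 : ∀ S : Finset (Fin n), ∫⁻ y, ex (∑ _i ∈ S, -B / 8) *
      ex ((y ⬝ᵥ y - y ⬝ᵥ diagonal (fun i => if i ∈ S then (1 / 4 : ℝ) else 1) *ᵥ y) / 2)
        ∂Conc.gv (Fin n) = ∏ _i ∈ S, ex (-B / 8 + Real.log 2) := by
    intro S
    have h3 := Qe.gi_dg (Dq.dg_diagonal fun i : Fin n => if i ∈ S then (1 / 4 : ℝ) else 1)
      fun i => by split_ifs <;> norm_num
    rw [lintegral_const_mul _ (by unfold dotProduct mulVec dotProduct; fun_prop)]
    rw [Qe.Gi] at h3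
    rw [h3, ← ex_add, ← ex_sum, Finset.sum_add_distrib]
    congr 2
    have h4 : Real.log (1 / 4) = -(2 * Real.log 2) := by
      rw [one_div, Real.log_inv, show (4 : ℝ) = 2 ^ 2 by norm_num, Real.log_pow]; norm_num
    have h5 : ∑ i, Real.log (if i ∈ S then (1 / 4 : ℝ) else 1) =
        ∑ i, if i ∈ S then -(2 * Real.log 2) else 0 :=
      Finset.sum_congr rfl fun i _ => by split_ifs <;> simp [← h4]
    rw [h5, Finset.sum_ite_mem, Finset.univ_inter]
    simp only [Finset.sum_const, nsmul_eq_mul]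
    ring
  simp only [h2]
  rw [← Finset.prod_one_add]
  calc ∏ _i : Fin n, (1 + ex (-B / 8 + Real.log 2))
      ≤ ∏ _i : Fin n, ex (2 * Real.exp (-B / 8)) := by
        refine Finset.prod_le_prod' fun i _ => ?_
        rw [ex, ex, ← ENNReal.ofReal_one, ← ENNReal.ofReal_add zero_le_one (Real.exp_pos _).le,
          Real.exp_add, Real.exp_log two_pos]
        refine ENNReal.ofReal_le_ofReal ?_
        linarith [Real.add_one_le_exp (2 * Real.exp (-B / 8))]
    _ = _ := by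
        rw [← ex_sum]
        simp only [Finset.sum_const, Finset.card_univ, Fintype.card_fin, nsmul_eq_mul]

/-- the directions with a heavy set of large coordinates -/
def AA (x β : ℝ) : Set (V n) := {y | x / 14 * (y ⬝ᵥ y) ≤ hv (β * (y ⬝ᵥ y)) y}

lemma meas_AA (x β : ℝ) : MeasurableSet (AA x β : Set (V n)) :=
  measurableSet_le (by unfold dotProduct; fun_prop) (meas_hv (by unfold dotProduct; fun_prop))

lemma AA_smul (x β : ℝ) {c : ℝ} (hc : 0 < c) (y : V n) : c • y ∈ AA x β ↔ y ∈ AA x β := by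
  have h2 : 0 < c ^ 2 := by positivity
  have e : (c • y) ⬝ᵥ (c • y) = c ^ 2 * (y ⬝ᵥ y) := by
    rw [smul_dotProduct, dotProduct_smul, smul_eq_mul, smul_eq_mul]; ring
  simp only [AA, mem_ofPred_eq]
  rw [e, mul_left_comm β, hv_smul hc, mul_left_comm (x / 14), mul_le_mul_iff_right₀ h2]

lemma gv_AA {x β : ℝ} (hn : 1 ≤ n) (hx : 0 < x) (hβ : 0 ≤ β) (h : 16 * Real.log n ≤ β * n) :
    Conc.gv (Fin n) (AA x β) ≤ ex (-(n / 16 : ℝ)) + ex (2 - x * n / 112) := by
  have hn' : (1 : ℝ) ≤ n := by exact_mod_cast hn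
  have h1 := cher (Conc.gv (Fin n)) (f := fun y : V n => hv (β * n / 2) y / 4)
    ((meas_hv measurable_const).div_const 4) (x * n / 112)
  have h2 : ex (-(x * n / 112)) * ∫⁻ y, ex (hv (β * n / 2) y / 4) ∂Conc.gv (Fin n) ≤
      ex (2 - x * n / 112) := by
    refine (mul_le_mul_right (mgf_hv _) _).trans ?_
    rw [← ex_add]
    refine ex_mono ?_
    have h3 : Real.exp (-(β * n / 2) / 8) ≤ (n : ℝ)⁻¹ := by
      rw [← Real.exp_log (show (0 : ℝ) < (n : ℝ)⁻¹ by positivity), Real.log_inv]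
      exact Real.exp_le_exp.2 (by linarith)
    have h4 : (n : ℝ) * Real.exp (-(β * n / 2) / 8) ≤ 1 := by
      calc _ ≤ (n : ℝ) * (n : ℝ)⁻¹ := by gcongr
        _ = 1 := mul_inv_cancel₀ (by positivity)
    linarith
  refine le_trans ?_ (add_le_add (small n) (h1.trans h2))
  refine (measure_mono fun y hy => ?_).trans (measure_union_le _ _)
  by_cases h5 : y ⬝ᵥ y < n / 2
  · exact Or.inl h5
  · right
    have h6 : (n : ℝ) / 2 ≤ y ⬝ᵥ y := not_lt.1 h5
    have h7 := hv_anti (show β * n / 2 ≤ β * (y ⬝ᵥ y) by nlinarith) y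
    simp only [AA, mem_ofPred_eq] at hy ⊢
    nlinarith

lemma meas_E1 (ρ z x H : ℝ) : MeasurableSet (E1 ρ z x H : Set (Mx n)) := by
  have h1 : IsClosed {W : Mx n | Wᵀ = W} := isClosed_eq (by fun_prop) continuous_id
  have h2 : IsClosed {W : Mx n | ∀ u ∈ box ρ, u ⬝ᵥ (W - z • (1 : Mx n)) *ᵥ u ≤ 2 * H} := by
    simp only [Set.ofPred_forall]
    exact isClosed_iInter fun u => isClosed_iInter fun _ => isClosed_le
      (continuous_const.dotProduct
        ((continuous_id.sub continuous_const).matrix_mulVec continuous_const)) continuous_const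
  exact h1.measurableSet.inter ((Qe.measurableSet_le measurable_const measurable_id).inter
    ((Qe.measurableSet_le measurable_id measurable_const).inter
      ((Qe.measurableSet_le measurable_id measurable_const).compl.inter h2.measurableSet)))

/-- the deterministic core -/
lemma core {ρ z x H l : ℝ} {W : Mx n} {p : V n} (hρ : 0 < ρ) (hx : 0 < x) (hx1 : x ≤ 1)
    (hH : 0 < H) (hW : W ∈ E1 ρ z x H) (hp : p ⬝ᵥ p = 1) (hl : W *ᵥ p = l • p)
    (ht : Le W (l • (1 : Mx n))) : p ∈ AA x (ρ ^ 2 * x / (8 * H)) := by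
  obtain ⟨hs, h3, h3', hz, hb⟩ := hW
  set β := ρ ^ 2 * x / (8 * H) with hβ
  by_contra hA
  simp only [AA, mem_ofPred_eq, hp, mul_one, not_le] at hA
  have hl1 : z + x < l := by
    by_contra hc
    refine hz fun u => (ht u).trans ?_
    rw [Qe.qf_smul, Qe.qf_smul, Qe.qf_one]
    exact mul_le_mul_of_nonneg_right (not_lt.1 hc) (Finset.sum_nonneg fun i _ => mul_self_nonneg _)
  have hpp : p ⬝ᵥ W *ᵥ p = l := by rw [hl, dotProduct_smul, hp, smul_eq_mul, mul_one]
  have hl3 : l ≤ 3 := by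
    have := h3' p
    rwa [Qe.qf_smul, Qe.qf_one, hp, hpp, mul_one] at this
  set q : V n := fun i => if β < p i ^ 2 then p i else 0 with hq
  have hqq : q ⬝ᵥ q = hv β p := Finset.sum_congr rfl fun i _ => by
    simp only [hq]; split_ifs <;> ring
  have hqp : q ⬝ᵥ p = hv β p := Finset.sum_congr rfl fun i _ => by
    simp only [hq]; split_ifs <;> ring
  have hm : 0 ≤ hv β p := hqq ▸ Finset.sum_nonneg fun i _ => mul_self_nonneg _
  have hqW : -3 * hv β p ≤ q ⬝ᵥ W *ᵥ q := by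
    have := h3 q
    rwa [Qe.qf_smul, Qe.qf_one, hqq] at this
  have hpq : p ⬝ᵥ W *ᵥ q = l * hv β p := by
    rw [Qe.qf_comm hs, hl, dotProduct_smul, hqp, smul_eq_mul]
  set s := √(8 * H / x) with hs'
  have hs2 : s ^ 2 = 8 * H / x := Real.sq_sqrt (by positivity)
  have hu : s • p + (-s) • q ∈ box ρ := by
    intro i
    refine abs_le_of_sq_le_sq' ?_ hρ.le |> abs_le.2
    have e : s ^ 2 * β = ρ ^ 2 := by rw [hs2, hβ]; field_simp
    simp only [Pi.add_apply, Pi.smul_apply, smul_eq_mul, hq]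
    split_ifs with h
    · have : s * p i + -s * p i = 0 := by ring
      rw [this]; nlinarith
    · rw [← e, mul_zero, add_zero, mul_pow]
      exact mul_le_mul_of_nonneg_left (not_lt.1 h) (sq_nonneg _)
  have hf := hb _ hu
  have hs1 : (W - z • (1 : Mx n))ᵀ = W - z • (1 : Mx n) := by
    rw [transpose_sub, hs, transpose_smul, transpose_one]
  rw [Qe.qf_expand hs1] at hf
  simp only [Qe.qf_sub, Qe.qf_smul, Qe.qf_one, hpp, hp, hpq, hqq, dotProduct_comm p q, hqp] at hf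
  have key : x / 2 < (l - z * 1) - 2 * (l * hv β p - z * hv β p) + (q ⬝ᵥ W *ᵥ q - z * hv β p) := by
    have a1 : 0 ≤ (l - z - x) * (1 - hv β p) := mul_nonneg (by linarith) (by linarith)
    have a2 : 0 ≤ (3 - l) * hv β p := mul_nonneg (by linarith) hm
    have a3 : 0 ≤ (1 - x) * hv β p := mul_nonneg (by linarith) hm
    nlinarith
  have h8 : s ^ 2 * (x / 2) = 4 * H := by rw [hs2]; field_simp; ring
  have h9 : 0 < s ^ 2 := by rw [hs2]; positivity
  have h10 := mul_lt_mul_of_pos_left key h9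
  nlinarith

end Top71

open Top71 in
theorem topGlue : TopGlue := by
  intro hR n ρ z x H hn hρ hx hx1 hH h
  refine hR n _ _ (meas_E1 ρ z x H) fun W hW => ?_
  obtain ⟨a, ha⟩ := Qe.dg_symm hW
  have : Nonempty (Fin n) := ⟨⟨0, hn⟩⟩
  obtain ⟨i, -, hi⟩ := Finset.exists_max_image Finset.univ a Finset.univ_nonempty
  have hle := Qe.dg_le ha fun j => hi j (Finset.mem_univ j)
  obtain ⟨Q, hQ, hWQ⟩ := ha
  have hQ' : Qᵀ * Q = 1 := mul_eq_one_comm.1 hQ
  have nrm : ∀ (O : Mx n) (u : V n), Oᵀ * O = 1 → (O *ᵥ u) ⬝ᵥ (O *ᵥ u) = u ⬝ᵥ u := fun O u hO => by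
    have := Qe.qf_conj O 1 u u
    rw [Matrix.mul_one, hO, one_mulVec, one_mulVec] at this
    exact this.symm
  have hv1 : (Q *ᵥ Pi.single i 1) ⬝ᵥ (Q *ᵥ Pi.single i 1) = 1 := by
    rw [nrm _ _ hQ']; simp
  have hev : W *ᵥ (Q *ᵥ Pi.single i 1) = a i • (Q *ᵥ Pi.single i 1) := by
    rw [hWQ, mulVec_mulVec, Matrix.mul_assoc, hQ', Matrix.mul_one, ← mulVec_mulVec, ← mulVec_smul]
    congr 1
    ext j
    by_cases hj : j = i <;> simp [hj, mulVec_diagonal]
  refine ⟨Q *ᵥ Pi.single i 1, AA x (ρ ^ 2 * x / (8 * H)), hv1, meas_AA _ _,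
    fun c hc y => AA_smul _ _ hc y, gv_AA hn hx (by positivity) ?_, Or.inl fun O hO hE => ?_⟩
  · rw [div_mul_eq_mul_div, le_div_iff₀ (by positivity)]
    linarith
  · have hO' : Oᵀ * O = 1 := mul_eq_one_comm.1 hO
    refine core (l := a i) hρ hx hx1 hH hE (by rw [nrm _ _ hO', hv1]) ?_ fun u => ?_
    · rw [mulVec_mulVec, Matrix.mul_assoc, hO', Matrix.mul_one, ← mulVec_mulVec, hev, mulVec_smul]
    · have e := Qe.qf_conj Oᵀ W u u
      rw [transpose_transpose] at e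
      have h2 := hle (Oᵀ *ᵥ u)
      rw [Qe.qf_smul, Qe.qf_one, nrm _ _ (by rw [transpose_transpose, hO])] at h2
      rw [e, Qe.qf_smul, Qe.qf_one]
      exact h2

end Crest.Agent.T157.Cp

end
end

-- ▼ part T157/CpDiag_17
section

/-!
# Row 157, part C (helper17): the diagonal of the resolvent and linear statistics of two matrices
-/

set_option autoImplicit false

noncomputable section

namespace Crest.Agent.T157.Cp

open MeasureTheory ProbabilityTheory Matrix Set Filter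
open scoped ENNReal
open Crest.Agent.T157.E Crest.Agent.T157.Cw Crest.Agent.T157.Cond
open Crest.Agent.T157.Qe (V Mx Le zz ell GOE)
open Crest.Agent.T157.Conc (ex)
open Crest.Agent.T157.Dq (Dg)

variable {n : ℕ}

namespace Diag17

lemma rz_conj {O : Mx n} (hO : O * Oᵀ = 1) (z : ℝ) (W : Mx n) :
    Rz z (O * W * Oᵀ) = O * Rz z W * Oᵀ := by
  have hO' : Oᵀ * O = 1 := mul_eq_one_comm.1 hO
  have e : z • (1 : Mx n) - O * W * Oᵀ = O * (z • (1 : Mx n) - W) * Oᵀ := by
    rw [Matrix.mul_sub, Matrix.sub_mul, Matrix.mul_smul, Matrix.smul_mul, Matrix.mul_one, hO]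
  rw [Rz, e, Matrix.mul_inv_rev, Matrix.mul_inv_rev, inv_eq_right_inv hO, inv_eq_right_inv hO', Rz,
    Matrix.mul_assoc]

lemma meas_rz (z : ℝ) (i j : Fin n) : Measurable fun W : Mx n => Rz z W i j := by
  have hc : Continuous fun W : Mx n => z • (1 : Mx n) - W := continuous_const.sub continuous_id
  simp only [Rz, inv_def, Ring.inverse_eq_inv', Matrix.smul_apply, smul_eq_mul]
  exact hc.matrix_det.measurable.inv.mul (hc.matrix_adjugate.matrix_elem i j).measurable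

lemma chern {z η : ℝ} (h0 : 0 < η) (h1 : η ≤ 1 / 16) {W : Mx n} (hW : Wᵀ = W)
    (hL : Le W ((z - η) • (1 : Mx n))) (hT : (Rz z W).trace ≤ 4 * n) :
    Conc.gv (Fin n) {y | 32 * (y ⬝ᵥ y) < y ⬝ᵥ Rz z W *ᵥ y} ≤ ex (-(2 * η * n)) := by
  obtain ⟨a, ha⟩ := Qe.dg_symm hW
  have hz : ∀ i, η ≤ z - a i := fun i => by linarith [Qe.le_dg ha hL i]
  have hG : Dg (Rz z W) fun i => (z - a i)⁻¹ := (Qe.Ti61.dg_inv ha fun i => by linarith [hz i]).1
  have hp : ∀ i, 0 ≤ η / 2 * (z - a i)⁻¹ ∧ η / 2 * (z - a i)⁻¹ ≤ 1 / 2 := fun i => by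
    have h2 := h0.trans_le (hz i)
    refine ⟨by positivity, ?_⟩
    rw [← div_eq_mul_inv, div_le_iff₀ h2]; linarith [hz i]
  have hN := Qe.dg_affine hG (-(η / 2)) (1 + 16 * η)
  have hm : MeasurableSet {y : V n | 32 * (y ⬝ᵥ y) < y ⬝ᵥ Rz z W *ᵥ y} :=
    measurableSet_lt (by fun_prop) (by fun_prop)
  rw [Qe.dg_trace hG] at hT
  refine le_trans ?_ ((Qe.gi_dg hN fun i => by linarith [hp i]).trans_le (Conc.ex_mono ?_))
  · rw [← lintegral_indicator_one hm]
    refine lintegral_mono fun y => ?_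
    by_cases hy : y ∈ {y : V n | 32 * (y ⬝ᵥ y) < y ⬝ᵥ Rz z W *ᵥ y}
    · rw [indicator_of_mem hy, Pi.one_apply, ← Conc.ex_zero]
      refine Conc.ex_mono ?_
      rw [Qe.qf_add, Qe.qf_smul, Qe.qf_smul, Qe.qf_one]
      have := mul_lt_mul_of_pos_left (show 32 * (y ⬝ᵥ y) < y ⬝ᵥ Rz z W *ᵥ y from hy) h0
      linarith
    · rw [indicator_of_notMem hy]; exact zero_le
  · have h3 : ∑ i : Fin n, (8 * η - η * (z - a i)⁻¹) ≤
        ∑ i, Real.log (-(η / 2) * (z - a i)⁻¹ + (1 + 16 * η)) := Finset.sum_le_sum fun i _ => by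
      obtain ⟨p0, p1⟩ := hp i
      have hb : 0 < -(η / 2) * (z - a i)⁻¹ + (1 + 16 * η) := by linarith
      refine le_trans ?_ (Real.one_sub_inv_le_log_of_pos hb)
      rw [le_sub_comm, inv_le_iff_one_le_mul₀ hb]
      have e : η * (z - a i)⁻¹ = 2 * (η / 2 * (z - a i)⁻¹) := by ring
      rw [e, neg_mul]
      generalize η / 2 * (z - a i)⁻¹ = p at *
      nlinarith [mul_nonneg p0 h0.le, mul_nonneg p0 (sub_nonneg.2 p1), mul_nonneg h0.le (sub_nonneg.2 h1)]
    simp only [Finset.sum_sub_distrib, ← Finset.mul_sum, Finset.sum_const, Finset.card_univ,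
      Fintype.card_fin, nsmul_eq_mul] at h3
    nlinarith [mul_le_mul_of_nonneg_left hT h0.le]

lemma fr_eq (X : Mx n) : fr X = (X * Xᵀ).trace := by
  simp only [fr, trace, diag_apply, mul_apply, transpose_apply, sq]

lemma fr_conj {O O' : Mx n} (hO : O * Oᵀ = 1) (hO' : O' * O'ᵀ = 1) (X : Mx n) :
    fr (Oᵀ * X * O') = fr X := by
  rw [fr_eq, fr_eq, transpose_mul, transpose_mul, transpose_transpose,
    show Oᵀ * X * O' * (O'ᵀ * (Xᵀ * O)) = Oᵀ * (X * (O' * O'ᵀ) * Xᵀ) * O by simp only [Matrix.mul_assoc],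
    hO', Matrix.mul_one, trace_mul_cycle, hO, Matrix.one_mul]

end Diag17

open Diag17

theorem diagGlue : DiagGlue := by
  intro hR n z η h0 h1
  let F : Fin n → Set (Mx n) := fun i => {W | Wᵀ = W ∧ Le W ((z - η) • (1 : Mx n)) ∧
    (Rz z W).trace ≤ 4 * n ∧ 32 < Rz z W i i}
  have hF : ∀ i, GOE n (F i) ≤ ex (-(2 * η * n)) := fun i => by
    refine hR n _ _ ?_ fun W hW => ?_
    · refine MeasurableSet.inter (isClosed_eq continuous_id.matrix_transpose continuous_id).measurableSet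
        (MeasurableSet.inter (Qe.measurableSet_le measurable_id measurable_const)
          (MeasurableSet.inter (measurableSet_le (Finset.measurable_sum _ fun j _ => meas_rz z j j)
            measurable_const) (measurableSet_lt measurable_const (meas_rz z i i))))
    · by_cases hE : ∃ O : Mx n, O * Oᵀ = 1 ∧ O * W * Oᵀ ∈ F i
      · obtain ⟨O, hO, -, hL, hT, -⟩ := hE
        have hO' : Oᵀ * O = 1 := mul_eq_one_comm.1 hO
        rw [rz_conj hO, trace_mul_cycle, hO', Matrix.one_mul] at hT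
        refine ⟨Pi.single i 1, {y | 32 * (y ⬝ᵥ y) < y ⬝ᵥ Rz z W *ᵥ y}, by simp,
          measurableSet_lt (by fun_prop) (by fun_prop), fun c hc x => ?_, chern h0 h1 hW (fun u => ?_) hT,
          Or.inr fun P hP hm => ?_⟩
        · simp only [mem_ofPred_eq, mulVec_smul, smul_dotProduct, dotProduct_smul, smul_eq_mul]
          have := mul_pos hc hc
          constructor <;> intro h <;> nlinarith
        · have h2 := hL (O *ᵥ u)
          have e : ∀ X : Mx n, O *ᵥ u ⬝ᵥ X *ᵥ (O *ᵥ u) = u ⬝ᵥ (Oᵀ * X * O) *ᵥ u := fun X => by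
            rw [← mulVec_mulVec, ← mulVec_mulVec, dotProduct_mulVec u, vecMul_transpose]
          rwa [e, e, Matrix.mul_smul, Matrix.smul_mul, Matrix.mul_one, hO',
            show Oᵀ * (O * W * Oᵀ) * O = Oᵀ * O * W * (Oᵀ * O) by simp only [Matrix.mul_assoc], hO',
            Matrix.one_mul, Matrix.mul_one] at h2
        · have h2 := hm.2.2.2
          have e : ∀ X : Mx n, Pᵀ *ᵥ Pi.single i 1 ⬝ᵥ X *ᵥ (Pᵀ *ᵥ Pi.single i 1) = (P * X * Pᵀ) i i :=
            fun X => by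
              rw [← Qe.qf_conj, transpose_transpose, mulVec_single_one, single_one_dotProduct, col_apply]
          have e1 := e 1
          rw [one_mulVec, Matrix.mul_one, hP, one_apply_eq] at e1
          rw [rz_conj hP] at h2
          rw [mem_ofPred_eq, e1, e]; linarith
      · exact ⟨Pi.single i 1, ∅, by simp, MeasurableSet.empty, by simp, by simp,
          Or.inr fun O hO hm => hE ⟨O, hO, hm⟩⟩
  have hs : E3 z η ⊆ ⋃ i, F i := fun W ⟨a, b, c, i, d⟩ => mem_iUnion.2 ⟨i, a, b, c, d⟩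
  refine (measure_mono hs).trans ((measure_iUnion_fintype_le _ _).trans ?_)
  exact (Finset.sum_le_sum fun i _ => hF i).trans (by simp)

theorem hwStmt : HwStmt := by
  rintro n _ _ a a' φ ψ f ⟨O, hO, rfl⟩ ⟨O', hO', rfl⟩ hf
  have h1 : Oᵀ * O = 1 := mul_eq_one_comm.1 hO
  have h2 : O'ᵀ * O' = 1 := mul_eq_one_comm.1 hO'
  set U := Oᵀ * O' with hU
  have hr : ∀ k, ∑ l, U k l ^ 2 = 1 := fun k => by
    have : U * Uᵀ = 1 := by
      rw [hU, transpose_mul, transpose_transpose, Matrix.mul_assoc, ← Matrix.mul_assoc O', hO',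
        Matrix.one_mul, h1]
    simpa only [mul_apply, transpose_apply, one_apply_eq, ← sq] using congrFun (congrFun this k) k
  have hc : ∀ l, ∑ k, U k l ^ 2 = 1 := fun l => by
    have : Uᵀ * U = 1 := by
      rw [hU, transpose_mul, transpose_transpose, Matrix.mul_assoc, ← Matrix.mul_assoc O, hO,
        Matrix.one_mul, h2]
    simpa only [mul_apply, transpose_apply, one_apply_eq, ← sq] using congrFun (congrFun this l) l
  have e0 : ∀ x y : V n, ∑ k, x k + ∑ l, y l = ∑ q : Fin n × Fin n, (x q.1 + y q.2) * U q.1 q.2 ^ 2 :=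
    fun x y => by
      simp only [Fintype.sum_prod_type, add_mul, Finset.sum_add_distrib, ← Finset.mul_sum, hr, mul_one]
      rw [Finset.sum_comm]
      simp only [← Finset.mul_sum, hc, mul_one]
  have e1 : fr (O * diagonal a * Oᵀ - O' * diagonal a' * O'ᵀ) =
      ∑ q : Fin n × Fin n, (|a q.1 - a' q.2| * |U q.1 q.2|) ^ 2 := by
    have : Oᵀ * (O * diagonal a * Oᵀ - O' * diagonal a' * O'ᵀ) * O' = diagonal a * U - U * diagonal a' := by
      rw [Matrix.mul_sub, Matrix.sub_mul, hU]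
      simp only [Matrix.mul_assoc, h2, Matrix.mul_one]
      rw [← Matrix.mul_assoc Oᵀ O, h1, Matrix.one_mul]
    rw [← fr_conj hO hO', this, fr, Fintype.sum_prod_type]
    simp only [Matrix.sub_apply, diagonal_mul, mul_diagonal, mul_pow, sq_abs]
    exact Finset.sum_congr rfl fun k _ => Finset.sum_congr rfl fun l _ => by ring
  have e2 : ∑ k, f (a k) - ∑ l, f (a' l) =
      ∑ q : Fin n × Fin n, (f (a q.1) - f (a' q.2)) * U q.1 q.2 ^ 2 := by
    have := e0 (fun k => f (a k)) fun l => -f (a' l)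
    simpa only [Finset.sum_neg_distrib, ← sub_eq_add_neg] using this
  have b1 : |∑ k, f (a k) - ∑ l, f (a' l)| ≤ ∑ q : Fin n × Fin n,
      ((φ q.1 + ψ q.2) * |U q.1 q.2|) * (|a q.1 - a' q.2| * |U q.1 q.2|) := by
    rw [e2]
    refine (Finset.abs_sum_le_sum_abs _ _).trans (Finset.sum_le_sum fun q _ => ?_)
    rw [abs_mul, abs_sq, ← sq_abs (U q.1 q.2)]
    exact (mul_le_mul_of_nonneg_right (hf q.1 q.2) (sq_nonneg _)).trans_eq (by ring)
  have b2 : ∑ q : Fin n × Fin n, ((φ q.1 + ψ q.2) * |U q.1 q.2|) ^ 2 ≤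
      2 * (∑ k, φ k ^ 2 + ∑ l, ψ l ^ 2) := by
    rw [e0, Finset.mul_sum]
    refine Finset.sum_le_sum fun q _ => ?_
    rw [mul_pow, sq_abs]
    nlinarith [mul_nonneg (sq_nonneg (φ q.1 - ψ q.2)) (sq_nonneg (U q.1 q.2))]
  rw [← sq_abs, e1]
  exact (pow_le_pow_left₀ (abs_nonneg _) b1 2).trans ((Finset.sum_mul_sq_le_sq_mul_sq _ _ _).trans
    (mul_le_mul_of_nonneg_right b2 (Finset.sum_nonneg fun _ _ => sq_nonneg _)))

end Crest.Agent.T157.Cp

end
end

-- ▼ part T157/CpGrid_80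
section

/-!
# Row 157, part C (helper80): from the grid to all spectral parameters (`Cp.GridStmt`)
-/

set_option autoImplicit false

noncomputable section

namespace Crest.Agent.T157.Cp

open Set Real
open Crest.Agent.T157.Qe (V zz ell)

namespace Grid80

variable {n : ℕ} {a : V n} {z z' g g1 g2 w δ D : ℝ}

theorem Tz_anti (ha : ∀ i, a i < z) (h : z ≤ z') : Tz a z' ≤ Tz a z :=
  Finset.sum_le_sum fun i _ => inv_anti₀ (sub_pos.2 (ha i)) (by linarith)

theorem Ph_up (ha : ∀ i, a i < z) (h : z ≤ z') : Ph a z' - Ph a z ≤ (z' - z) * Tz a z := by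
  rw [Ph, Ph, Tz, ← Finset.sum_sub_distrib, Finset.mul_sum]
  refine Finset.sum_le_sum fun i _ => ?_
  have h1 := sub_pos.2 (ha i)
  have h2 : 0 < z' - a i := by linarith
  rw [← log_div h2.ne' h1.ne']
  refine (log_le_sub_one_of_pos (div_pos h2 h1)).trans_eq ?_
  field_simp
  ring

theorem Ph_lo (ha : ∀ i, a i < z) (h : z ≤ z') : (z' - z) * Tz a z' ≤ Ph a z' - Ph a z := by
  rw [Ph, Ph, Tz, ← Finset.sum_sub_distrib, Finset.mul_sum]
  refine Finset.sum_le_sum fun i _ => ?_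
  have h1 := sub_pos.2 (ha i)
  have h2 : 0 < z' - a i := by linarith
  have h3 := log_le_sub_one_of_pos (div_pos h1 h2)
  rw [log_div h1.ne' h2.ne'] at h3
  have e : (z' - z) * (z' - a i)⁻¹ = 1 - (z - a i) / (z' - a i) := by field_simp; ring
  linarith

theorem zz_sub (h1 : 0 < g1) (h2 : 0 < g2) :
    zz g2 - zz g1 = (g1 - g2) * (1 - g1 * g2) / (g1 * g2) := by
  unfold zz; field_simp; ring

theorem zz_two (h : 0 < g) : zz g - 2 = (1 - g) ^ 2 / g := by unfold zz; field_simp; ring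

theorem sq_le_zz (h : 0 < g) (h1 : g ≤ 1) : (1 - g) ^ 2 ≤ zz g - 2 := by
  rw [zz_two h, le_div_iff₀ h]
  exact mul_le_of_le_one_right (sq_nonneg _) h1

theorem zz_gap (h2 : 0 < g2) (h : g2 ≤ g1) (h1 : g1 ≤ 1) :
    (g1 - g2) * (1 - g1) ≤ zz g2 - zz g1 := by
  have h0 : 0 < g1 := h2.trans_le h
  rw [zz_sub h0 h2, le_div_iff₀ (mul_pos h0 h2)]
  have a1 : g1 * g2 ≤ g1 := mul_le_of_le_one_right h0.le (h.trans h1)
  have a2 : (1 - g1) * (g1 * g2) ≤ 1 - g1 * g2 :=
    (mul_le_of_le_one_right (by linarith) (by linarith)).trans (by linarith)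
  rw [mul_assoc]
  exact mul_le_mul_of_nonneg_left a2 (by linarith)

theorem zz_anti (h2 : 0 < g2) (h : g2 ≤ g1) (h1 : g1 ≤ 1) : zz g1 ≤ zz g2 := by
  have := zz_gap h2 h h1
  nlinarith

theorem ell_up (h2 : 0 < g2) (h : g2 ≤ g1) (h1 : g1 ≤ 1) :
    ell g2 - ell g1 ≤ g1 * (zz g2 - zz g1) := by
  have h0 : 0 < g1 := h2.trans_le h
  have r1 : 1 ≤ g1 / g2 := (one_le_div h2).2 h
  have a := self_le_sinh_iff.2 (log_nonneg r1)
  rw [sinh_log (by positivity), log_div h0.ne' h2.ne'] at a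
  have e : g1 * (zz g2 - zz g1) - ((g1 / g2 - (g1 / g2)⁻¹) / 2 + (g2 ^ 2 - g1 ^ 2) / 2) =
      (g1 - g2) ^ 2 * (1 - g1 * g2) / (2 * (g1 * g2)) := by unfold zz; field_simp; ring
  have b : 0 ≤ (g1 - g2) ^ 2 * (1 - g1 * g2) / (2 * (g1 * g2)) :=
    div_nonneg (mul_nonneg (sq_nonneg _) (by nlinarith)) (by positivity)
  unfold ell
  linarith

theorem ell_lo (h2 : 0 < g2) (h : g2 ≤ g1) (h1 : g1 ≤ 1) :
    g2 * (zz g2 - zz g1) ≤ ell g2 - ell g1 := by
  have h0 : 0 < g1 := h2.trans_le h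
  have a := le_log_one_add_of_nonneg (x := (g1 - g2) / g2) (div_nonneg (by linarith) h2.le)
  rw [show 1 + (g1 - g2) / g2 = g1 / g2 by field_simp; ring, log_div h0.ne' h2.ne'] at a
  have e : 2 * ((g1 - g2) / g2) / ((g1 - g2) / g2 + 2) + (g2 ^ 2 - g1 ^ 2) / 2 -
      g2 * (zz g2 - zz g1) = (g1 - g2) ^ 2 * (2 - g1 * (g1 + g2)) / (2 * (g1 * (g1 + g2))) := by
    have : g1 - g2 + g2 * 2 ≠ 0 := by linarith
    unfold zz
    rw [show (g1 - g2) / g2 + 2 = (g1 + g2) / g2 by field_simp; ring]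
    field_simp
    ring
  have b : 0 ≤ (g1 - g2) ^ 2 * (2 - g1 * (g1 + g2)) / (2 * (g1 * (g1 + g2))) :=
    div_nonneg (mul_nonneg (sq_nonneg _) (by nlinarith)) (by positivity)
  unfold ell
  linarith

theorem half_le (hw : 0 < w) (ha : ∀ i, a i ≤ 2 + w ^ 2 / 2) (h : 0 < g) (h1 : g ≤ 1 - w)
    (i : Fin n) : (zz g - 2) / 2 ≤ zz g - a i ∧ a i < zz g := by
  have a1 := sq_le_zz h (by linarith)
  have a2 : w ^ 2 ≤ (1 - g) ^ 2 := pow_le_pow_left₀ hw.le (by linarith) 2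
  have a3 := ha i
  have a4 := pow_pos hw 2
  constructor <;> linarith

/-- two neighbouring grid points -/
theorem slope (hδ : 0 < δ) (hw : 0 < w) (hD : 0 ≤ D) (ha : ∀ i, a i ≤ 2 + w ^ 2 / 2) (h : 0 < g)
    (h1 : g + δ ≤ 1 - w) (q2 : |Ph a (zz g) - n * ell g| ≤ D)
    (q1 : |Ph a (zz (g + δ)) - n * ell (g + δ)| ≤ D) :
    Tz a (zz g) ≤ n * (g + δ) + 2 * D / (δ * w) ∧
      n * g - 2 * D / (δ * w) ≤ Tz a (zz (g + δ)) := by
  have n0 : (0 : ℝ) ≤ n := n.cast_nonneg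
  have hg : g ≤ g + δ := by linarith
  have hl : ∀ i, a i < zz (g + δ) := fun i => (half_le hw ha (by linarith) h1 i).2
  have hz := zz_anti h hg (by linarith)
  have b1 := Ph_lo hl hz
  have b2 := Ph_up hl hz
  have b3 := mul_le_mul_of_nonneg_left (ell_up h hg (by linarith)) n0
  have b4 := mul_le_mul_of_nonneg_left (ell_lo h hg (by linarith)) n0
  have b5 : δ * w ≤ zz g - zz (g + δ) := le_trans (by nlinarith) (zz_gap h hg (by linarith))
  have b6 : 0 < zz g - zz (g + δ) := (mul_pos hδ hw).trans_le b5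
  have b7 : 2 * D ≤ (zz g - zz (g + δ)) * (2 * D / (δ * w)) := by
    rw [← mul_div_assoc, le_div_iff₀ (mul_pos hδ hw)]
    nlinarith
  rw [abs_le] at q1 q2
  constructor <;> refine le_of_mul_le_mul_left ?_ b6 <;> linarith [q1.1, q1.2, q2.1, q2.2]

structure Hy (a : V n) (w δ D : ℝ) : Prop where
  d0 : 0 < δ
  dw : 128 * δ ≤ w
  w4 : w ≤ 1 / 4
  D0 : 0 ≤ D
  Dn : 2 * D ≤ n * δ * w
  ha : ∀ i, a i ≤ 2 + w ^ 2 / 2
  hq : ∀ j : ℕ, j * δ ∈ Icc (1 / 128 : ℝ) (1 - w) → Tz a (zz (j * δ)) ≤ 4 * n →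
    |Ph a (zz (j * δ)) - n * ell (j * δ)| ≤ D

theorem Hy.w0 (h : Hy a w δ D) : 0 < w := by linarith [h.d0, h.dw]

theorem Hy.four (h : Hy a w δ D) (j : ℕ) (hj : j * δ ∈ Icc (1 / 128 : ℝ) (1 - w)) :
    Tz a (zz (j * δ)) ≤ 4 * n := by
  induction j using Nat.strong_induction_on with
  | _ j ih =>
  have n0 : (0 : ℝ) ≤ n := n.cast_nonneg
  have d0 := h.d0
  have dw := h.dw
  have w4 := h.w4
  have w0 := h.w0
  have g0 : 0 < j * δ := by linarith [hj.1]
  rcases le_or_gt (j * δ) (1 / 4) with h4 | h4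
  · have a1 : ∀ i, (zz (j * δ) - a i)⁻¹ ≤ 4 := fun i => by
      have b1 := (half_le w0 h.ha g0 hj.2 i).1
      have b2 := sq_le_zz g0 (by linarith)
      rw [inv_le_comm₀ (by nlinarith) four_pos]
      nlinarith
    simpa [Tz, mul_comm] using Finset.sum_le_card_nsmul Finset.univ _ 4 fun i _ => a1 i
  · obtain ⟨k, rfl⟩ : ∃ k, j = k + 2 := by
      refine ⟨j - 2, (Nat.sub_add_cancel ?_).symm⟩
      by_contra hc
      have : (j : ℝ) ≤ 2 := by exact_mod_cast (not_le.1 hc).le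
      nlinarith
    have e1 : ((k + 1 : ℕ) : ℝ) * δ = k * δ + δ := by push_cast; ring
    have e2 : ((k + 2 : ℕ) : ℝ) * δ = k * δ + 2 * δ := by push_cast; ring
    rw [e2] at hj h4 g0 ⊢
    have m0 : (k : ℝ) * δ ∈ Icc (1 / 128 : ℝ) (1 - w) := ⟨by linarith, by linarith [hj.2]⟩
    have m1 : ((k + 1 : ℕ) : ℝ) * δ ∈ Icc (1 / 128 : ℝ) (1 - w) := by
      rw [e1]; exact ⟨by linarith, by linarith [hj.2]⟩
    have q0 := h.hq k m0 (ih k (by omega) m0)
    have q1 := h.hq (k + 1) m1 (ih (k + 1) (by omega) m1)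
    rw [e1] at q1
    generalize (k : ℝ) * δ = g at *
    have g1 : 0 < g := by linarith
    have s1 := (slope d0 w0 h.D0 h.ha g1 (by linarith [hj.2]) q0 q1).1
    have s2 : 2 * D / (δ * w) ≤ n := by rw [div_le_iff₀ (mul_pos d0 w0)]; linarith [h.Dn]
    have s3 : n * (g + δ) ≤ n := mul_le_of_le_one_right n0 (by linarith [hj.2])
    have s4 : zz g - zz (g + 2 * δ) ≤ (zz (g + 2 * δ) - 2) / 2 := by
      rw [zz_sub g0 g1, zz_two g0, div_div, div_le_div_iff₀ (by positivity) (by positivity)]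
      have u1 : 128 * δ ≤ 1 - (g + 2 * δ) := by linarith [hj.2]
      have u2 : 1 - (g + 2 * δ) * g ≤ 3 * (1 - (g + 2 * δ)) := by nlinarith
      have u3 : 12 * δ ≤ g * (1 - (g + 2 * δ)) := by nlinarith
      have u4 : 4 * δ * (1 - (g + 2 * δ) * g) ≤ (1 - (g + 2 * δ)) ^ 2 * g := by nlinarith
      nlinarith
    have s5 : Tz a (zz (g + 2 * δ)) ≤ 2 * Tz a (zz g) := by
      rw [Tz, Tz, Finset.mul_sum]
      refine Finset.sum_le_sum fun i _ => ?_
      have b1 := half_le w0 h.ha g0 hj.2 i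
      have b2 := sub_pos.2 (half_le w0 h.ha g1 m0.2 i).2
      rw [← div_eq_mul_inv, inv_eq_one_div, div_le_div_iff₀ (sub_pos.2 b1.2) b2]
      linarith [b1.1]
    linarith

theorem Hy.q (h : Hy a w δ D) (j : ℕ) (hj : j * δ ∈ Icc (1 / 128 : ℝ) (1 - w)) :
    |Ph a (zz (j * δ)) - n * ell (j * δ)| ≤ D := h.hq j hj (h.four j hj)

theorem exists_grid (d0 : 0 < δ) (hg : 0 ≤ g) : ∃ j : ℕ, j * δ ≤ g ∧ g < j * δ + δ := by
  refine ⟨⌊g / δ⌋₊, (le_div_iff₀ d0).1 (Nat.floor_le (by positivity)), ?_⟩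
  have := (div_lt_iff₀ d0).1 (Nat.lt_floor_add_one (g / δ))
  linarith

theorem Hy.pair (h : Hy a w δ D) (j : ℕ) (h1 : 1 / 128 ≤ j * δ) (h2 : j * δ + δ ≤ 1 - w) :
    Tz a (zz (j * δ)) ≤ n * (j * δ + δ) + 2 * D / (δ * w) ∧
      n * (j * δ) - 2 * D / (δ * w) ≤ Tz a (zz (j * δ + δ)) := by
  have d0 := h.d0
  have e1 : ((j + 1 : ℕ) : ℝ) * δ = j * δ + δ := by push_cast; ring
  have q1 := h.q (j + 1) (by rw [e1]; exact ⟨by linarith, h2⟩)
  rw [e1] at q1
  exact slope d0 h.w0 h.D0 h.ha (by linarith) h2 (h.q j ⟨h1, by linarith⟩) q1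

theorem Hy.tz (h : Hy a w δ D) (h1 : 3 / 256 ≤ g) (h2 : g ≤ 1 - 3 * w / 2) :
    |Tz a (zz g) - n * g| ≤ 2 * n * δ + 2 * D / (δ * w) := by
  have n0 : (0 : ℝ) ≤ n := n.cast_nonneg
  have d0 := h.d0
  have dw := h.dw
  have w4 := h.w4
  have w0 := h.w0
  obtain ⟨j, j1, j2⟩ := exists_grid d0 (g := g - δ) (by linarith)
  have e2 : ((j + 2 : ℕ) : ℝ) * δ = j * δ + 2 * δ := by push_cast; ring
  have p1 := (h.pair j (by linarith) (by linarith)).2
  have p2 := (h.pair (j + 2) (by linarith) (by linarith)).1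
  rw [e2] at p2
  have t1 : Tz a (zz (j * δ + δ)) ≤ Tz a (zz g) :=
    Tz_anti (fun i => (half_le w0 h.ha (by linarith) (by linarith) i).2)
      (zz_anti (by linarith) (by linarith) (by linarith))
  have t2 : Tz a (zz g) ≤ Tz a (zz (j * δ + 2 * δ)) :=
    Tz_anti (fun i => (half_le w0 h.ha (by linarith) (by linarith) i).2)
      (zz_anti (by linarith) (by linarith) (by linarith))
  have a1 := mul_le_mul_of_nonneg_left j1 n0
  have a2 := mul_le_mul_of_nonneg_left j2.le n0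
  exact abs_le.2 ⟨by linarith, by linarith⟩

theorem le_sqrt_zz (h : 0 < g) (h1 : g ≤ 1) : 1 - g ≤ √(zz g - 2) :=
  le_sqrt_of_sq_le (sq_le_zz h h1)

end Grid80

open Grid80

theorem gridStmt : GridStmt := fun n a w δ D d0 dw w4 D0 Dn ha hq g hg => by
  have h : Hy a w δ D := ⟨d0, dw, w4, D0, Dn, ha, hq⟩
  have n0 : (0 : ℝ) ≤ n := n.cast_nonneg
  have w0 := h.w0
  have g1 := hg.1
  have g2 := hg.2
  have g0 : 0 < g := by linarith
  have t0 := h.tz (g := g) (by linarith) (by linarith)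
  have hl : ∀ i, a i < zz g := fun i => (half_le w0 ha g0 (by linarith) i).2
  have sq := le_sqrt_zz g0 (by linarith)
  refine ⟨t0, ?_, ?_⟩
  · obtain ⟨j, j1, j2⟩ := exists_grid d0 g0.le
    have q := h.q j ⟨by linarith, by linarith⟩
    generalize (j : ℝ) * δ = g' at *
    have g0' : 0 < g' := by linarith
    have t1 := h.tz (g := g') (by linarith) (by linarith)
    have hz := zz_anti g0' j1 (by linarith)
    have b1 := Ph_lo hl hz
    have b2 := Ph_up hl hz
    have b3 := mul_le_mul_of_nonneg_left (ell_up g0' j1 (by linarith)) n0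
    have b4 := mul_le_mul_of_nonneg_left (ell_lo g0' j1 (by linarith)) n0
    have b5 : zz g' - zz g ≤ 24576 * δ * √(zz g - 2) := by
      refine le_trans ?_ (mul_le_mul_of_nonneg_left sq (by positivity))
      rw [zz_sub g0 g0', div_le_iff₀ (by positivity)]
      have u1 : 1 - g * g' ≤ 3 * (1 - g) := by nlinarith
      have u2 : 1 / 64 * (1 / 128) ≤ g * g' := mul_le_mul g1 (by linarith) (by norm_num) g0.le
      have u3 : (g - g') * (1 - g * g') ≤ δ * (3 * (1 - g)) :=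
        mul_le_mul (by linarith) u1 (by nlinarith) d0.le
      nlinarith [mul_le_mul_of_nonneg_left u2 (by nlinarith : 0 ≤ δ * (1 - g))]
    have b6 : 0 ≤ zz g' - zz g := by linarith
    have a1 := mul_le_mul_of_nonneg_left j2.le n0
    have τ0 : 0 ≤ 3 * n * δ + 2 * D / (δ * w) := by positivity
    have b7 := mul_le_mul_of_nonneg_right b5 τ0
    rw [abs_le] at t0 t1 q ⊢
    have c1 : n * g - Tz a (zz g') ≤ 3 * n * δ + 2 * D / (δ * w) := by linarith [t1.1]
    have c2 : Tz a (zz g) - n * g' ≤ 3 * n * δ + 2 * D / (δ * w) := by linarith [t0.2]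
    have c3 := mul_le_mul_of_nonneg_left c1 b6
    have c4 := mul_le_mul_of_nonneg_left c2 b6
    constructor <;> linarith [q.1, q.2]
  · obtain ⟨g', e⟩ : ∃ g', g' = g + (1 - g) / 4 := ⟨_, rfl⟩
    have g0' : 0 < g' := by linarith
    have t1 := h.tz (g := g') (by linarith) (by linarith)
    have hl' : ∀ i, a i < zz g' := fun i => (half_le w0 ha g0' (by linarith) i).2
    have s0 : 0 < zz g - 2 := lt_of_lt_of_le (pow_pos (by linarith) 2) (sq_le_zz g0 (by linarith))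
    have b1 : (zz g - 2) / 4 ≤ zz g - zz g' := by
      rw [zz_sub g0' g0, zz_two g0, div_div, div_le_div_iff₀ (by positivity) (by positivity)]
      have u1 : (1 - g) * g' ≤ 1 - g' * g := by nlinarith
      have u2 : g' - g = (1 - g) / 4 := by linarith
      rw [u2]
      nlinarith [mul_le_mul_of_nonneg_left u1 (by nlinarith : 0 ≤ (1 - g) * g)]
    have b2 : (zz g - zz g') * ∑ i, ((zz g - a i) ^ 2)⁻¹ ≤ Tz a (zz g') - Tz a (zz g) := by
      rw [Tz, Tz, ← Finset.sum_sub_distrib, Finset.mul_sum]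
      refine Finset.sum_le_sum fun i _ => ?_
      have u1 := sub_pos.2 (hl i)
      have u2 := sub_pos.2 (hl' i)
      have e' : (zz g' - a i)⁻¹ - (zz g - a i)⁻¹ =
          (zz g - zz g') * ((zz g' - a i) * (zz g - a i))⁻¹ := by field_simp; ring
      rw [e']
      refine mul_le_mul_of_nonneg_left (inv_anti₀ (mul_pos u2 u1) ?_) (by linarith)
      nlinarith
    have b3 : 0 ≤ ∑ i, ((zz g - a i) ^ 2)⁻¹ := by positivity
    have b4 := mul_le_mul_of_nonneg_right b1 b3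
    have b5 := mul_le_mul_of_nonneg_left sq n0
    rw [abs_le] at t0 t1
    rw [le_div_iff₀ s0]
    have b6 : n * g' = n * g + n * (1 - g) / 4 := by rw [e]; ring
    linarith [t0.1, t1.2]

end Crest.Agent.T157.Cp

end
end

-- ▼ part T157/CpAll_72
section

/-!
# Row 157, coin windows: the penalty, unconditional (helper72)
-/

set_option autoImplicit false

namespace Crest.Agent.T157.Cp

theorem penStmt : PenStmt :=
  penGlue _ Cw.ltStmt (boxGlue _ Cw.ltStmt) (topGlue rotStmt) (diagGlue rotStmt) nearStmt hwStmt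
    gridStmt fineStmt

end Crest.Agent.T157.Cp
end

-- ▼ part T157/EtA_81
section

/-!
# Row 157, part C: edge transfer, A (helper81)

Universality with two radii and the class `Rl` of functionals with a relative oscillation bound.
-/

set_option autoImplicit false
set_option linter.unusedSectionVars false

noncomputable section

namespace Crest.Agent.T157.Et

open MeasureTheory Metric Finset
open Crest.ProbabilityR.SpinGlassDynamics Crest.Agent.T157.E Crest.Agent.T157.Un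

variable {ι : Type*} [Fintype ι] [DecidableEq ι]

/-- the error of the replacement scheme -/
def err (r s M η : ℝ) : ℝ := 64 * (1 + 10 * m8 ^ 2) / r ^ 4 * η + 1024 * M * m8 / (s ^ 4 * r ^ 8)

/-- difference of the two entry laws -/
def dl (q : ℝ → ℝ) : ℝ := ∫ x, q x ∂entryLaw true - ∫ x, q x ∂entryLaw false

lemma piece {q : (ι → ℝ) → ι → ℝ → ℝ} {G : (ι → ℝ) → ℝ} {r s M η : ℝ} (hr : 0 < r) (hs : 0 < s)
    (hη : 0 < η) (hc : (Fintype.card ι : ℝ) ≤ s ^ 4) (hM0 : 0 ≤ M)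
    (hq : ∀ g e, Measurable (q g e)) (hM : ∀ g e x, |q g e x| ≤ M)
    (h : ∀ g, ∃ K : ι → ℝ, ∑ e, K e ^ 2 ≤ s ^ 4 * G g ∧ ∀ e, ∃ F,
      Ex r (fun t => q g e (g e + s * t)) F ∧ ∀ z ∈ ball (0 : ℂ) r, ‖F z - F 0‖ ≤ K e)
    (σ : ι → Bool) (hG : Integrable G (hyb σ) ∧ ∫ g, G g ∂hyb σ ≤ η ^ 2) :
    ∃ B : (ι → ℝ) → ℝ, Integrable B (hyb σ) ∧ ∫ g, B g ∂hyb σ ≤ err r s M η ∧
      ∀ g, ∑ e, |dl (q g e)| ≤ B g := by
  have h8 := one_le_m8
  have hsr : 0 < s * r := mul_pos hs hr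
  set A := 64 * η * 8 * m8 ^ 2 / (s * r) ^ 4 + 512 * M * m8 / (s * r) ^ 8
  set B := 128 * η / (s * r) ^ 4 + 512 * M / (s * r) ^ 8
  have hB : 0 ≤ B := by positivity
  have i1 : ∀ e, Integrable (fun g : ι → ℝ => A + B * g e ^ 8) (hyb σ) := fun e =>
    (integrable_const _).add ((int_eval8 σ e).const_mul _)
  refine ⟨fun g => 64 / (r ^ 4 * η) * G g + ∑ e, (A + B * g e ^ 8),
    (hG.1.const_mul _).add (integrable_finsetSum _ fun e _ => i1 e), ?_, fun g => ?_⟩
  · rw [integral_add (hG.1.const_mul _) (integrable_finsetSum _ fun e _ => i1 e),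
      integral_const_mul, integral_finsetSum _ fun e _ => i1 e]
    have h2 : ∀ e, ∫ g, (A + B * g e ^ 8) ∂hyb σ ≤ A + B * m8 := fun e => by
      rw [integral_add (integrable_const _) ((int_eval8 σ e).const_mul _), integral_const_mul]
      simp only [integral_const, probReal_univ, smul_eq_mul, one_mul]
      gcongr; exact eval8_le σ e
    have h3 : ∑ e : ι, ∫ g, (A + B * g e ^ 8) ∂hyb σ ≤ s ^ 4 * (A + B * m8) := by
      refine (sum_le_sum fun e _ => h2 e).trans ?_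
      rw [sum_const, card_univ, nsmul_eq_mul]
      gcongr
    have h4 : s ^ 4 * (A + B * m8) = 64 * (8 * m8 ^ 2 + 2 * m8) / r ^ 4 * η +
        1024 * M * m8 / (s ^ 4 * r ^ 8) := by simp only [A, B]; field_simp; ring
    have h5 : 64 / (r ^ 4 * η) * ∫ g, G g ∂hyb σ ≤ 64 / r ^ 4 * η :=
      (mul_le_mul_of_nonneg_left hG.2 (by positivity)).trans_eq (by field_simp)
    have h6 : 64 * (8 * m8 ^ 2 + 2 * m8) / r ^ 4 * η ≤ 64 * (10 * m8 ^ 2) / r ^ 4 * η := by
      gcongr; nlinarith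
    have h7 : 64 * (1 + 10 * m8 ^ 2) / r ^ 4 * η =
        64 / r ^ 4 * η + 64 * (10 * m8 ^ 2) / r ^ 4 * η := by ring
    unfold err; linarith
  · obtain ⟨K, hK, hF⟩ := h g
    have h1 : ∀ e, |dl (q g e)| ≤ 64 / ((s * r) ^ 4 * η) * K e ^ 2 + (A + B * g e ^ 8) := fun e => by
      obtain ⟨F, hF, hz⟩ := hF e
      refine (one_entry (x₀ := g e) (hq g e) (hM g e) hr hs hF hz).trans ?_
      have h2 : 2 * (K e * (2 * m8 + g e ^ 4)) ≤ K e ^ 2 / η + η * (8 * m8 ^ 2 + 2 * g e ^ 8) := by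
        have h3 : 0 ≤ (K e - η * (2 * m8 + g e ^ 4)) ^ 2 / η := by positivity
        have h4 : (K e - η * (2 * m8 + g e ^ 4)) ^ 2 / η = K e ^ 2 / η -
            2 * (K e * (2 * m8 + g e ^ 4)) + η * (2 * m8 + g e ^ 4) ^ 2 := by field_simp; ring
        have h5 : (2 * m8 + g e ^ 4) ^ 2 ≤ 8 * m8 ^ 2 + 2 * g e ^ 8 := by
          nlinarith [sq_nonneg (2 * m8 - g e ^ 4)]
        nlinarith [mul_le_mul_of_nonneg_left h5 hη.le]
      calc _ = 64 / (s * r) ^ 4 * (2 * (K e * (2 * m8 + g e ^ 4))) +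
            512 * M * (m8 + g e ^ 8) / (s * r) ^ 8 := by ring
        _ ≤ 64 / (s * r) ^ 4 * (K e ^ 2 / η + η * (8 * m8 ^ 2 + 2 * g e ^ 8)) +
            512 * M * (m8 + g e ^ 8) / (s * r) ^ 8 := by gcongr
        _ = _ := by simp only [A, B]; field_simp; ring
    refine (sum_le_sum fun e _ => h1 e).trans ?_
    rw [sum_add_distrib, ← mul_sum]
    refine add_le_add_left ?_ _
    calc _ ≤ 64 / ((s * r) ^ 4 * η) * (s ^ 4 * G g) := by gcongr
      _ = _ := by field_simp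

/-- **universality of a product, two radii** -/
theorem univ2 {φ ψ G G' : (ι → ℝ) → ℝ} {r r' s η η' : ℝ} (hr : 0 < r) (hr' : 0 < r') (hs : 0 < s)
    (hη : 0 < η) (hη' : 0 < η') (hc : (Fintype.card ι : ℝ) ≤ s ^ 4) (hφ : Measurable φ)
    (hψ : Measurable ψ) (bφ : ∀ g, |φ g| ≤ 1) (bψ : ∀ g, |ψ g| ≤ 1)
    (h : ∀ g, ∃ K : ι → ℝ, ∑ e, K e ^ 2 ≤ s ^ 4 * G g ∧ ∀ e, ∃ F,
      Ex r (fun t => ψ (sh s g e t) * (φ (sh s g e t) - φ g)) F ∧
        ∀ z ∈ ball (0 : ℂ) r, ‖F z - F 0‖ ≤ K e)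
    (h' : AnK r' s ψ G') (hG : ∀ σ, Integrable G (hyb σ) ∧ ∫ g, G g ∂hyb σ ≤ η ^ 2)
    (hG' : ∀ σ, Integrable G' (hyb σ) ∧ ∫ g, G' g ∂hyb σ ≤ η' ^ 2) :
    |∫ g, φ g * ψ g ∂hyb (fun _ => true) - ∫ g, φ g * ψ g ∂hyb fun _ => false| ≤
      err r s 2 η + err r' s 1 η' := by
  have hQ : Measurable fun g => φ g * ψ g := hφ.mul hψ
  have hM : ∀ g, |φ g * ψ g| ≤ 1 := fun g => by
    rw [abs_mul]; exact mul_le_one₀ (bφ g) (abs_nonneg _) (bψ g)
  let Δ : ι → (ι → ℝ) → ℝ := fun e g =>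
    |dl fun x => φ (Function.update g e x) * ψ (Function.update g e x)|
  have hΔ : ∀ σ e, Integrable (Δ e) (hyb σ) := fun σ e =>
    ((hyb_update hQ hM σ e true).2.sub (hyb_update hQ hM σ e false).2).abs
  refine mix_le (fun σ => ∫ g, φ g * ψ g ∂hyb σ) (fun σ e => ∫ g, Δ e g ∂hyb σ) (fun σ e => ?_)
    fun σ => ?_
  · rw [(hyb_update hQ hM σ e true).1, (hyb_update hQ hM σ e false).1,
      ← integral_sub (hyb_update hQ hM σ e true).2 (hyb_update hQ hM σ e false).2]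
    exact abs_integral_le_integral_abs
  let q : (ι → ℝ) → ι → ℝ → ℝ := fun g e x =>
    ψ (Function.update g e x) * (φ (Function.update g e x) - φ g)
  let q' : (ι → ℝ) → ι → ℝ → ℝ := fun g e x => φ g * ψ (Function.update g e x)
  have mq : ∀ g e, Measurable (q g e) := fun g e => (hψ.comp (measurable_update g)).mul
    ((hφ.comp (measurable_update g)).sub_const _)
  have mq' : ∀ g e, Measurable (q' g e) := fun g e => (hψ.comp (measurable_update g)).const_mul _
  have bq : ∀ g e x, |q g e x| ≤ 2 := fun g e x => by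
    rw [abs_mul]
    have := (abs_sub _ _).trans (add_le_add (bφ (Function.update g e x)) (bφ g))
    nlinarith [bψ (Function.update g e x), abs_nonneg (ψ (Function.update g e x)),
      abs_nonneg (φ (Function.update g e x) - φ g)]
  have bq' : ∀ g e x, |q' g e x| ≤ 1 := fun g e x => by
    rw [abs_mul]; exact mul_le_one₀ (bφ g) (abs_nonneg _) (bψ _)
  obtain ⟨B, i1, i2, i3⟩ := piece (q := q) hr hs hη hc zero_le_two mq bq h σ (hG σ)
  obtain ⟨B', j1, j2, j3⟩ := piece (q := q') hr' hs hη' hc zero_le_one mq' bq' (fun g => by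
    obtain ⟨K, hK, hF⟩ := h' g
    refine ⟨K, hK, fun e => ?_⟩
    obtain ⟨F, h1, h2⟩ := hF e
    refine ⟨_, (Ex.const r' (φ g)).mul h1, fun z hz => ?_⟩
    rw [← mul_sub, norm_mul, Complex.norm_real, Real.norm_eq_abs]
    exact (mul_le_of_le_one_left (norm_nonneg _) (bφ g)).trans (h2 z hz)) σ (hG' σ)
  rw [← integral_finsetSum _ fun e _ => hΔ σ e]
  refine (integral_mono (integrable_finsetSum _ fun e _ => hΔ σ e) (i1.add j1) fun g => ?_).trans
    (by rw [integral_add' i1 j1]; exact add_le_add i2 j2)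
  refine le_trans ?_ (add_le_add (i3 g) (j3 g))
  rw [← sum_add_distrib]
  refine sum_le_sum fun e _ => le_trans (le_of_eq ?_) (abs_add_le _ _)
  have e1 : (fun x => φ (Function.update g e x) * ψ (Function.update g e x)) =
      fun x => q g e x + q' g e x := by funext x; simp only [q, q']; ring
  simp only [Δ, e1, dl, integral_add (int_bdd (mq g e) (bq g e)) (int_bdd (mq' g e) (bq' g e))]
  congr 1; ring

/-- from all selections to a supremum -/
lemma sel {h : ι → ℂ → ℝ} {S : Set ℂ} {B : ℝ} (hS : S.Nonempty)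
    (H : ∀ z : ι → ℂ, (∀ e, z e ∈ S) → ∑ e, h e (z e) ^ 2 ≤ B) :
    ∃ D : ι → ℝ, ∑ e, D e ^ 2 ≤ B ∧ ∀ e, ∀ z ∈ S, h e z ≤ D e := by
  have hb : ∀ e, BddAbove (h e '' S) := fun e => ⟨√B, by
    rintro _ ⟨z, hz, rfl⟩
    exact Real.le_sqrt_of_sq_le ((single_le_sum (f := fun e => h e z ^ 2)
      (fun _ _ => sq_nonneg _) (mem_univ e)).trans (H (fun _ => z) fun _ => hz))⟩
  refine ⟨fun e => sSup (h e '' S), ?_, fun e z hz => le_csSup (hb e) ⟨z, hz, rfl⟩⟩
  have hc : IsClosed {x : ι → ℝ | ∑ e, x e ^ 2 ≤ B} := isClosed_le (by fun_prop) continuous_const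
  have h1 : (fun e => sSup (h e '' S)) ∈ closure (Set.univ.pi fun e => h e '' S) := by
    rw [closure_pi_set]
    exact fun e _ => csSup_mem_closure (hS.image _) (hb e)
  refine closure_minimal (fun x hx => ?_) hc h1
  choose z hz using fun e => hx e (Set.mem_univ e)
  have : x = fun e => h e (z e) := funext fun e => (hz e).2.symm
  rw [this]; exact H z fun e => (hz e).1

/-- Minkowski -/
lemma mink {α : Type*} (T : Finset α) {c N : α → ℝ} {x : α → ι → ℝ} (hc : ∀ a ∈ T, 0 ≤ c a)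
    (hN : ∀ a ∈ T, 0 ≤ N a) (h : ∀ a ∈ T, ∑ e, x a e ^ 2 ≤ N a ^ 2) :
    ∑ e, (∑ a ∈ T, c a * x a e) ^ 2 ≤ (∑ a ∈ T, c a * N a) ^ 2 := by
  simp only [sq, sum_mul_sum]
  rw [sum_comm]
  refine sum_le_sum fun a ha => ?_
  rw [sum_comm]
  refine sum_le_sum fun b hb => ?_
  have h1 : ∑ e, x a e * x b e ≤ N a * N b := by
    refine abs_le_of_sq_le_sq' ?_ (mul_nonneg (hN a ha) (hN b hb)) |>.2
    rw [mul_pow]
    exact (sum_mul_sq_le_sq_mul_sq _ _ _).trans
      (mul_le_mul (h a ha) (h b hb) (by positivity) (sq_nonneg _))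
  calc _ = c a * c b * ∑ e, x a e * x b e := by
        rw [mul_sum]; exact sum_congr rfl fun _ _ => by ring
    _ ≤ c a * c b * (N a * N b) := mul_le_mul_of_nonneg_left h1 (mul_nonneg (hc a ha) (hc b hb))
    _ = _ := by ring

lemma pow_sub_le {a : ℂ} {b δ d : ℝ} (hb : 0 ≤ b) (hδ : 0 ≤ δ) (h1 : ‖a - b‖ ≤ δ * b)
    (h2 : ‖a - b‖ ≤ d) (m : ℕ) : ‖a ^ (m + 1) - (b : ℂ) ^ (m + 1)‖ ≤ (m + 1) * d * ((1 + δ) * b) ^ m := by
  have ha : ‖a‖ ≤ (1 + δ) * b := by
    have := norm_sub_norm_le a b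
    rw [Complex.norm_real, Real.norm_of_nonneg hb] at this
    linarith
  have hd : 0 ≤ d := (norm_nonneg _).trans h2
  induction m with
  | zero => simpa using h2
  | succ m ih =>
    have e : a ^ (m + 1 + 1) - (b : ℂ) ^ (m + 1 + 1) =
        a * (a ^ (m + 1) - (b : ℂ) ^ (m + 1)) + (a - b) * (b : ℂ) ^ (m + 1) := by ring
    have h3 : ‖(b : ℂ) ^ (m + 1)‖ ≤ ((1 + δ) * b) ^ (m + 1) := by
      rw [norm_pow, Complex.norm_real, Real.norm_of_nonneg hb]
      gcongr; nlinarith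
    rw [e]
    refine (norm_add_le _ _).trans ?_
    rw [norm_mul, norm_mul]
    calc _ ≤ (1 + δ) * b * ((m + 1) * d * ((1 + δ) * b) ^ m) + d * ((1 + δ) * b) ^ (m + 1) := by
          gcongr
      _ = _ := by push_cast; ring

lemma one_add_pow_le {δ : ℝ} (hδ : 0 ≤ δ) (m : ℕ) (hm : m * δ ≤ 1 / 4) : (1 + δ) ^ m ≤ 2 := by
  have a1 : (1 + δ) ^ m ≤ Real.exp δ ^ m := by gcongr; linarith [Real.add_one_le_exp δ]
  rw [← Real.exp_nat_mul] at a1
  have a2 : Real.exp (m * δ) ≤ Real.exp (1 / 4) := Real.exp_le_exp.2 hm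
  have a3 := Real.exp_bound' (x := 1 / 4) (by norm_num) (by norm_num) (n := 1) one_pos
  norm_num [Finset.sum_range_succ] at a3
  linarith

/-- relative oscillation: at most `δ` for each entry, at most `G` in the quadratic mean -/
def Rl (ρ s δ : ℝ) (X G : (ι → ℝ) → ℝ) : Prop := ∀ g, 0 ≤ X g ∧ ∃ F : ι → ℂ → ℂ,
  (∀ e, Ex ρ (fun t => X (sh s g e t)) (F e)) ∧
  (∀ e, ∀ z ∈ ball (0 : ℂ) ρ, ‖F e z - X g‖ ≤ δ * X g) ∧
  ∀ z : ι → ℂ, (∀ e, z e ∈ ball (0 : ℂ) ρ) → ∑ e, ‖F e (z e) - X g‖ ^ 2 ≤ s ^ 4 * G g * X g ^ 2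

variable {ρ s δ : ℝ} {X G : (ι → ℝ) → ℝ}

lemma Ex.pow' {q : ℝ → ℝ} {F : ℂ → ℂ} (h : Ex ρ q F) (m : ℕ) :
    Ex ρ (fun t => q t ^ m) fun z => F z ^ m :=
  ⟨h.diff.pow m, fun t ht => by rw [h.eq t ht]; push_cast; rfl⟩

lemma Rl.pow (h : Rl ρ s δ X G) (hδ : 0 ≤ δ) (m : ℕ) (hm : (m + 1) * δ ≤ 1 / 4) :
    Rl ρ s (1 / 2) (fun g => X g ^ (m + 1)) fun g => 4 * (m + 1) ^ 2 * G g := fun g => by
  obtain ⟨h0, F, h1, h2, h3⟩ := h g
  have hp : (1 + δ) ^ m ≤ 2 := one_add_pow_le hδ m (by nlinarith)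
  have key : ∀ e, ∀ z ∈ ball (0 : ℂ) ρ, ‖F e z ^ (m + 1) - ((X g ^ (m + 1) : ℝ) : ℂ)‖ ≤
      2 * (m + 1) * X g ^ m * ‖F e z - X g‖ := fun e z hz => by
    push_cast
    refine (pow_sub_le h0 hδ (h2 e z hz) le_rfl m).trans ?_
    rw [mul_pow]
    calc _ ≤ (m + 1) * ‖F e z - X g‖ * (2 * X g ^ m) := by gcongr
      _ = _ := by ring
  refine ⟨pow_nonneg h0 _, fun e z => F e z ^ (m + 1), fun e => Ex.pow' (h1 e) _,
    fun e z hz => (key e z hz).trans ?_, fun z hz => ?_⟩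
  · calc _ ≤ 2 * (m + 1) * X g ^ m * (δ * X g) := by gcongr; exact h2 e z hz
      _ = 2 * ((m + 1) * δ) * X g ^ (m + 1) := by ring
      _ ≤ 2 * (1 / 4) * X g ^ (m + 1) := by gcongr
      _ = _ := by ring
  · calc _ ≤ ∑ e, (2 * (m + 1) * X g ^ m * ‖F e (z e) - X g‖) ^ 2 :=
          sum_le_sum fun e _ => by gcongr; exact key e _ (hz e)
      _ = (2 * (m + 1) * X g ^ m) ^ 2 * ∑ e, ‖F e (z e) - X g‖ ^ 2 := by
          simp only [mul_pow, mul_sum]
      _ ≤ (2 * (m + 1) * X g ^ m) ^ 2 * (s ^ 4 * G g * X g ^ 2) := by gcongr; exact h3 z hz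
      _ = _ := by ring

lemma Rl.sum {α : Type*} (T : Finset α) {c : α → ℝ} {X : α → (ι → ℝ) → ℝ} (hc : ∀ a ∈ T, 0 ≤ c a)
    (hG : ∀ g, 0 ≤ G g) (h : ∀ a ∈ T, Rl ρ s δ (X a) G) :
    Rl ρ s δ (fun g => ∑ a ∈ T, c a * X a g) G := fun g => by
  classical
  have h0 : ∀ a ∈ T, 0 ≤ X a g := fun a ha => (h a ha g).1
  choose! F h1 h2 h3 using fun a ha => (h a ha g).2
  have key : ∀ e z, ‖∑ a ∈ T, c a * F a e z - ((∑ a ∈ T, c a * X a g : ℝ) : ℂ)‖ ≤
      ∑ a ∈ T, c a * ‖F a e z - X a g‖ := fun e z => by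
    push_cast
    rw [← sum_sub_distrib]
    refine (norm_sum_le _ _).trans (sum_le_sum fun a ha => le_of_eq ?_)
    rw [← mul_sub, norm_mul, Complex.norm_real, Real.norm_of_nonneg (hc a ha)]
  refine ⟨sum_nonneg fun a ha => mul_nonneg (hc a ha) (h0 a ha), fun e z => ∑ a ∈ T, c a * F a e z,
    fun e => Ex.sum _ fun a ha => (Ex.const ρ (c a)).mul (h1 a ha e),
    fun e z hz => (key e z).trans ?_, fun z hz => ?_⟩
  · rw [mul_sum]
    refine sum_le_sum fun a ha => ?_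
    nlinarith [mul_le_mul_of_nonneg_left (h2 a ha e z hz) (hc a ha)]
  · have p : 0 ≤ s ^ 4 * G g := mul_nonneg (by positivity) (hG g)
    refine (sum_le_sum fun e _ => pow_le_pow_left₀ (norm_nonneg _) (key e (z e)) 2).trans
      ((mink T (N := fun a => √(s ^ 4 * G g) * X a g) hc
        (fun a ha => mul_nonneg (Real.sqrt_nonneg _) (h0 a ha)) fun a ha => ?_).trans (le_of_eq ?_))
    · rw [mul_pow, Real.sq_sqrt p]; exact h3 a ha z hz
    · rw [show ∑ a ∈ T, c a * (√(s ^ 4 * G g) * X a g) = √(s ^ 4 * G g) * ∑ a ∈ T, c a * X a g by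
        rw [mul_sum]; exact sum_congr rfl fun _ _ => by ring, mul_pow, Real.sq_sqrt p]

lemma norm_ratio {a : ℂ} {b L : ℝ} (hb : 0 ≤ b) (hL : 0 < L) (h : ‖a - b‖ ≤ 1 / 2 * b) :
    (L + b) / 2 ≤ ‖L + a‖ ∧ ‖a / (L + a) - ((b / (L + b) : ℝ) : ℂ)‖ ≤
      2 * L / (L + b) ^ 2 * ‖a - b‖ := by
  have h1 : (L + b) / 2 ≤ ‖(L : ℂ) + a‖ := by
    have := norm_sub_norm_le ((L + b : ℝ) : ℂ) (b - a)
    rw [Complex.norm_real, Real.norm_of_nonneg (by linarith), norm_sub_rev (b : ℂ)] at this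
    have e : ((L + b : ℝ) : ℂ) - (b - a) = L + a := by push_cast; ring
    rw [e] at this; linarith
  have hLb : 0 < L + b := by linarith
  have n1 : (L : ℂ) + a ≠ 0 := norm_pos_iff.1 (lt_of_lt_of_le (by linarith) h1)
  have n2 : (L : ℂ) + b ≠ 0 := by exact_mod_cast hLb.ne'
  refine ⟨h1, ?_⟩
  have e : a / (L + a) - ((b / (L + b) : ℝ) : ℂ) = L * (a - b) / ((L + a) * ((L + b : ℝ) : ℂ)) := by
    push_cast; field_simp; ring
  rw [e, norm_div, norm_mul, norm_mul, Complex.norm_real, Complex.norm_real,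
    Real.norm_of_nonneg hL.le, Real.norm_of_nonneg hLb.le]
  calc _ ≤ L * ‖a - b‖ / ((L + b) / 2 * (L + b)) := by gcongr
    _ = _ := by field_simp

/-- **the penalised functional is universal** -/
theorem Rl.univ {S U : (ι → ℝ) → ℝ} {η η' : ℝ} (h : Rl ρ s (1 / 2) S fun g => η ^ 2 * (1 + U g))
    (hρ : 0 < ρ) (hρ' : ρ ≤ 1 / 80) (hs : 0 < s) (hη : 0 < η) (hη' : 0 < η')
    (hc : (Fintype.card ι : ℝ) ≤ s ^ 4) (mS : Measurable S) (mU : Measurable U) (h0 : ∀ g, 0 ≤ U g)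
    (hU : Pm (1 / 4) s 9 U) (hI : ∀ σ, ∫ g, U g / (1 + U g) ∂hyb σ ≤ η' ^ 2 / 25) :
    |∫ g, S g / (1 + S g) * (1 / (1 + U g)) ∂hyb (fun _ => true) -
      ∫ g, S g / (1 + S g) * (1 / (1 + U g)) ∂hyb fun _ => false| ≤
      err ρ s 2 η + err (1 / 80) s 1 η' := by
  have b1 : ∀ a : ℝ, 0 ≤ a → |a / (1 + a)| ≤ 1 := fun a ha => by
    rw [abs_of_nonneg (by positivity), div_le_one (by positivity)]; linarith
  have hψ : ∀ g e, ∃ F, Ex (1 / 80) (fun t => 1 / (1 + U (sh s g e t))) F ∧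
      ∀ z ∈ ball (0 : ℂ) (1 / 80), ‖F z‖ ≤ 2 / (1 + U g) ∧ ‖F z - F 0‖ ≤ 5 * (U g / (1 + U g)) := by
    intro g e
    obtain ⟨F, h1, h2⟩ := hU g e
    have f0 : F 0 = U g := by rw [h1.zero (by norm_num), sh_zero]
    have p := h0 g
    have key := fun z (hz : z ∈ ball (0 : ℂ) (1 / 80)) =>
      half_le (z := z) (L := 1) (by norm_num) p one_pos h1.diff f0 h2 (by convert hz using 2; norm_num)
    have n1 : ∀ z ∈ ball (0 : ℂ) (1 / 80), ((1 : ℝ) : ℂ) + F z ≠ 0 := fun z hz =>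
      norm_pos_iff.1 (lt_of_lt_of_le (by positivity) (key z hz).2)
    refine ⟨_, (Ex.const _ 1).div (((Ex.const _ 1).add h1).mono (by norm_num)) n1, fun z hz => ?_⟩
    obtain ⟨k1, k2⟩ := key z hz
    have n2 : ((1 + U g : ℝ) : ℂ) ≠ 0 := by exact_mod_cast (by positivity : 1 + U g ≠ 0)
    constructor
    · rw [norm_div, Complex.norm_real, norm_one]
      calc _ ≤ 1 / ((1 + U g) / 2) := by gcongr
        _ = _ := by field_simp
    · have e1 : ((1 : ℝ) : ℂ) / ((1 : ℝ) + F z) - ((1 : ℝ) : ℂ) / ((1 : ℝ) + F 0) =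
          (U g - F z) / (((1 : ℝ) + F z) * ((1 + U g : ℝ) : ℂ)) := by
        have := n1 z hz
        rw [f0]; push_cast at *; field_simp; ring
      have k3 : ‖(U g : ℂ) - F z‖ ≤ 5 / 2 * U g := by
        have := norm_sub_le (U g : ℂ) (F z)
        rw [Complex.norm_real, Real.norm_of_nonneg p] at this; linarith
      rw [e1, norm_div, norm_mul, Complex.norm_real, Real.norm_of_nonneg (by positivity)]
      calc _ ≤ 5 / 2 * U g / (1 / 2 * (1 + U g)) := by gcongr; linarith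
        _ = _ := by field_simp
  have mR : Measurable fun g => U g / (1 + U g) := mU.div (mU.const_add 1)
  refine univ2 (G := fun _ => η ^ 2) (G' := fun g => 25 * (U g / (1 + U g))) hρ (by norm_num) hs hη
    hη' hc (mS.div (mS.const_add 1)) (measurable_const.div (mU.const_add 1))
    (fun g => b1 _ (h g).1) (fun g => ?_) (fun g => ?_) (fun g => ?_) (fun σ => by simp) fun σ => ?_
  · have := h0 g
    rw [abs_of_nonneg (by positivity), div_le_one (by positivity)]; linarith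
  · obtain ⟨p, F, h1, h2, h3⟩ := h g
    obtain ⟨D, d1, d2⟩ := sel (h := fun e z => ‖F e z - S g‖) ⟨0, mem_ball_self hρ⟩ h3
    have q := h0 g
    refine ⟨fun e => 4 / ((1 + U g) * (1 + S g) ^ 2) * D e, ?_, fun e => ?_⟩
    · simp only [mul_pow, ← mul_sum]
      calc _ ≤ (4 / ((1 + U g) * (1 + S g) ^ 2)) ^ 2 * (s ^ 4 * (η ^ 2 * (1 + U g)) * S g ^ 2) := by
            gcongr
        _ = s ^ 4 * η ^ 2 * ((4 * S g) ^ 2 / ((1 + S g) ^ 2) ^ 2 / (1 + U g)) := by field_simp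
        _ ≤ s ^ 4 * η ^ 2 * 1 := by
            gcongr
            refine (div_le_one (by positivity)).2 (le_trans ((div_le_one (by positivity)).2 ?_)
              (by linarith))
            gcongr; nlinarith [sq_nonneg (1 - S g)]
        _ = _ := mul_one _
    · obtain ⟨P, p1, p2⟩ := hψ g e
      have key := fun z hz => norm_ratio p one_pos (h2 e z hz)
      refine ⟨_, (p1.mono hρ').mul (((h1 e).div ((Ex.const _ 1).add (h1 e)) fun z hz =>
        norm_pos_iff.1 (lt_of_lt_of_le (by positivity) (key z hz).1)).sub (Ex.const _ _)),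
        fun z hz => ?_⟩
      have f0 : F e 0 = S g := by rw [(h1 e).zero hρ, sh_zero]
      have z0 : F e 0 / (((1 : ℝ) : ℂ) + F e 0) - ((S g / (1 + S g) : ℝ) : ℂ) = 0 := by
        rw [f0]; push_cast; ring
      rw [z0, mul_zero, sub_zero, norm_mul]
      calc _ ≤ 2 / (1 + U g) * (2 * 1 / (1 + S g) ^ 2 * D e) := by
            refine mul_le_mul (p2 z (ball_subset_ball hρ' hz)).1 ((key z hz).2.trans ?_)
              (norm_nonneg _) (by positivity)
            gcongr; exact d2 e z hz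
        _ = _ := by field_simp; ring
  · refine ⟨fun _ => 5 * (U g / (1 + U g)), ?_, fun e => (hψ g e).imp fun F hF =>
      ⟨hF.1, fun z hz => (hF.2 z hz).2⟩⟩
    have q := h0 g
    have a1 : U g / (1 + U g) ≤ 1 := (le_abs_self _).trans (b1 _ q)
    have a0 : 0 ≤ U g / (1 + U g) := by positivity
    rw [sum_const, card_univ, nsmul_eq_mul]
    exact mul_le_mul hc (by nlinarith) (sq_nonneg _) (by positivity)
  · refine ⟨(int_bdd mR fun g => b1 _ (h0 g)).const_mul _, ?_⟩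
    rw [integral_const_mul]; linarith [hI σ]

lemma int_le_add {Ω : Type*} [MeasurableSpace Ω] {μ : Measure Ω} [IsProbabilityMeasure μ]
    {f : Ω → ℝ} (hf : Measurable f) (hB : ∀ x, |f x| ≤ 1) {δ ε : ℝ} (hδ : 0 ≤ δ) (hε : 0 ≤ ε)
    {A : Set Ω} (hA : μ A ≤ ENNReal.ofReal ε) (h : ∀ x ∉ A, f x ≤ δ) : ∫ x, f x ∂μ ≤ δ + ε := by
  have hm := measurableSet_toMeasurable μ A
  have i1 : Integrable ((toMeasurable μ A).indicator fun _ => (1 : ℝ)) μ :=
    (integrable_const 1).indicator hm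
  refine (integral_mono (int_bdd hf hB) ((integrable_const δ).add i1) fun x => ?_).trans ?_
  · by_cases hx : x ∈ toMeasurable μ A
    · simp only [Pi.add_apply, Set.indicator_of_mem hx]; linarith [(abs_le.1 (hB x)).2]
    · simp only [Pi.add_apply, Set.indicator_of_notMem hx, add_zero]
      exact h x fun ha => hx (subset_toMeasurable μ A ha)
  · rw [integral_add' (integrable_const δ) i1, integral_indicator hm]
    simp only [integral_const, probReal_univ, smul_eq_mul, one_mul, mul_one, add_le_add_iff_left,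
      MeasurableSet.univ, measureReal_restrict_apply, Set.univ_inter]
    rw [measureReal_def, measure_toMeasurable]
    exact ENNReal.toReal_le_of_le_ofReal hε hA

end Crest.Agent.T157.Et

end
end

-- ▼ part T157/EtB_81
section

/-!
# Row 157, part C: edge transfer, B (helper81)

The trace of a power of the covariance matrix under a complex tilt by a sign function.
-/

set_option autoImplicit false
set_option linter.unusedSectionVars false

noncomputable section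

namespace Crest.Agent.T157.Et

open Metric Finset Matrix
open scoped Matrix.Norms.L2Operator
open Crest.ProbabilityR.SpinGlassDynamics Crest.Agent.T157.E Crest.Agent.T157.SL
open Crest.Agent.T157.Un Crest.Agent.T157.CwTr

section fin
variable {Ω κ : Type*} [Fintype Ω] [Nonempty Ω] [DecidableEq Ω] [Fintype κ] [DecidableEq κ]
  {w χ : Ω → ℝ} {f : κ → Ω → ℝ} {μ : κ → ℝ} {z υ : ℂ}

lemma pc_formula (hw : ∀ x, 0 < w x) (h : Sgn χ) (hz : z ∈ ball (0 : ℂ) (1 / 4)) :
    ∃ υ : ℂ, ‖υ‖ ≤ 4 * ‖z‖ ∧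
      ∀ x, pc (cw w χ z) x = prob w x * (1 + υ * ((χ x - mean w χ : ℝ) : ℂ)) := by
  have hS := Chain22.sum_w_pos hw
  set c := (Complex.exp z + Complex.exp (-z)) / 2
  set B := (Complex.exp z - Complex.exp (-z)) / 2
  have e1 : ∀ x, cw w χ z x = w x * (c + B * χ x) := fun x => by
    rcases h x with e | e <;> simp only [cw, e, c, B] <;> push_cast <;> ring_nf
  have hB : ‖B‖ ≤ 2 * ‖z‖ := by
    have h2 := mem_ball_zero_iff.1 hz
    have a1 := Complex.norm_exp_sub_one_le (x := z) (by linarith)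
    have a2 := Complex.norm_exp_sub_one_le (x := -z) (by rw [norm_neg]; linarith)
    rw [norm_neg] at a2
    have : B = ((Complex.exp z - 1) - (Complex.exp (-z) - 1)) / 2 := by simp only [B]; ring
    rw [this, norm_div, Complex.norm_two]
    linarith [norm_sub_le (Complex.exp z - 1) (Complex.exp (-z) - 1)]
  have hm : ∑ x, (w x : ℂ) * χ x = (∑ x, w x : ℝ) * (mean w χ : ℝ) := by
    rw [← Complex.ofReal_mul, mean_eq_div, mul_div_cancel₀ _ hS.ne']; push_cast; rfl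
  have e2 : ∑ x, cw w χ z x = (∑ x, w x : ℝ) * (c + B * (mean w χ : ℝ)) := by
    simp only [e1, mul_add, sum_add_distrib, mul_left_comm _ B, ← mul_sum, ← sum_mul, hm]
    push_cast; ring
  have hD : 1 / 2 ≤ ‖c + B * (mean w χ : ℝ)‖ := by
    have := norm_sum_cw hw h hz
    rw [e2, norm_mul, Complex.norm_real, Real.norm_of_nonneg hS.le] at this
    nlinarith
  have hD' : c + B * (mean w χ : ℝ) ≠ 0 := norm_pos_iff.1 (by linarith)
  have hS' : ((∑ x, w x : ℝ) : ℂ) ≠ 0 := by exact_mod_cast hS.ne'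
  refine ⟨B / (c + B * (mean w χ : ℝ)), ?_, fun x => ?_⟩
  · rw [norm_div, div_le_iff₀ (by linarith)]; nlinarith [norm_nonneg z]
  · rw [pc, e2, e1, prob, Complex.ofReal_div, Complex.ofReal_sub]; field_simp; ring

lemma mean_cs (hw : ∀ x, 0 < w x) (g h : Ω → ℝ) : (mean w fun x => g x * h x) ^ 2 ≤
    (mean w fun x => g x * g x) * mean w fun x => h x * h x := (Wt.of_pos hw).isP.ip_sq_le g h

/-- centred orthogonal system -/
structure Og (w : Ω → ℝ) (f : κ → Ω → ℝ) (μ : κ → ℝ) : Prop where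
  pos : ∀ x, 0 < w x
  cen : ∀ a, mean w (f a) = 0
  ort : ∀ a b, (mean w fun x => f a x * f b x) = if a = b then μ a else 0

def al (w χ : Ω → ℝ) (f : κ → Ω → ℝ) (a b : κ) : ℝ :=
  mean w fun x => (χ x - mean w χ) * f a x * f b x
def be (w χ : Ω → ℝ) (f : κ → Ω → ℝ) (a : κ) : ℝ := mean w fun x => χ x * f a x
/-- change of the covariance matrix -/
def Zm (w χ : Ω → ℝ) (f : κ → Ω → ℝ) (υ : ℂ) : Matrix κ κ ℂ :=
  of fun a b => υ * al w χ f a b - υ ^ 2 * (be w χ f a * be w χ f b)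
def yy (w χ : Ω → ℝ) (f : κ → Ω → ℝ) (μ : κ → ℝ) (a : κ) : ℝ :=
  ∑ b ∈ univ.filter fun b => μ b ≤ μ a, al w χ f a b ^ 2 + μ a * be w χ f a ^ 2
/-- covariance for a complex kernel -/
def cvc (p : Ω → ℂ) (g h : Ω → ℝ) : ℂ := ∑ x, p x * (g x * h x) - (∑ x, p x * g x) * ∑ x, p x * h x

lemma al_comm (a b : κ) : al w χ f a b = al w χ f b a := by
  simp only [al, mul_right_comm]

lemma sq_sub_mean (hw : ∀ x, 0 < w x) (h : Sgn χ) (x : Ω) : |χ x - mean w χ| ≤ 2 := by
  have := (Wt.of_pos hw).abs_mean_le fun x => (h.abs x).le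
  linarith [abs_sub (χ x) (mean w χ), h.abs x]

namespace Og
variable (o : Og w f μ)
include o

lemma self (a : κ) : (mean w fun x => f a x * f a x) = μ a := by simpa using o.ort a a

lemma nn (a : κ) : 0 ≤ μ a := o.self a ▸ (Wt.of_pos o.pos).mean_nonneg fun _ => mul_self_nonneg _

lemma sq_sum (c : κ → ℝ) (S : Finset κ) {m : ℝ} (h : ∀ b ∈ S, μ b ≤ m) :
    (mean w fun x => (∑ b ∈ S, c b * f b x) * ∑ b ∈ S, c b * f b x) ≤ m * ∑ b ∈ S, c b ^ 2 := by
  have e3 : ∀ a b x, c a * f a x * (c b * f b x) = c a * c b * (f a x * f b x) := fun _ _ _ => by ring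
  simp only [sum_mul_sum, mean_sum, e3, mean_const_mul, o.ort, mul_ite, mul_zero]
  rw [mul_sum]
  refine sum_le_sum fun b hb => ?_
  rw [sum_ite_eq, if_pos hb]
  nlinarith [h b hb, sq_nonneg (c b)]

lemma bessel (g : Ω → ℝ) (S : Finset κ) {m : ℝ} (hm : 0 ≤ m) (h : ∀ b ∈ S, μ b ≤ m) :
    ∑ b ∈ S, (mean w fun x => g x * f b x) ^ 2 ≤ m * mean w fun x => g x * g x := by
  set c : κ → ℝ := fun b => mean w fun x => g x * f b x with hc
  have e1 : (mean w fun x => g x * ∑ b ∈ S, c b * f b x) = ∑ b ∈ S, c b ^ 2 := by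
    simp only [mul_sum, mean_sum, mul_left_comm (g _), mean_const_mul, sq, hc]
  have e2 := o.sq_sum c S h
  have h1 := mean_cs o.pos g fun x => ∑ b ∈ S, c b * f b x
  have g0 : 0 ≤ mean w fun x => g x * g x :=
    (Wt.of_pos o.pos).mean_nonneg fun _ => mul_self_nonneg _
  rw [e1] at h1
  have h2 := h1.trans (mul_le_mul_of_nonneg_left e2 g0)
  rcases (sum_nonneg fun b (_ : b ∈ S) => sq_nonneg (c b)).eq_or_lt with h0 | h0
  · rw [← h0]; positivity
  · nlinarith

lemma sum_be (h : Sgn χ) (S : Finset κ) {m : ℝ} (hm : 0 ≤ m) (hS : ∀ b ∈ S, μ b ≤ m) :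
    ∑ b ∈ S, be w χ f b ^ 2 ≤ m := by
  refine (o.bessel χ S hm hS).trans (mul_le_of_le_one_right hm ((Wt.of_pos o.pos).mean_le fun x => ?_))
  rcases h x with e | e <;> simp [e]

lemma be_sq (h : Sgn χ) (a : κ) : be w χ f a ^ 2 ≤ μ a := by
  simpa using o.sum_be h {a} (o.nn a) (by simp)

lemma sum_al (h : Sgn χ) (a : κ) :
    ∑ b ∈ univ.filter fun b => μ b ≤ μ a, al w χ f a b ^ 2 ≤ 4 * μ a ^ 2 := by
  refine (o.bessel (fun x => (χ x - mean w χ) * f a x) _ (o.nn a) (by simp)).trans ?_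
  have : (mean w fun x => (χ x - mean w χ) * f a x * ((χ x - mean w χ) * f a x)) ≤ 4 * μ a := by
    rw [← o.self a, ← mean_const_mul]
    refine (Wt.of_pos o.pos).mean_mono fun x => ?_
    have h1 : (χ x - mean w χ) ^ 2 ≤ 2 ^ 2 := sq_le_sq' (abs_le.1 (sq_sub_mean o.pos h x)).1
      (abs_le.1 (sq_sub_mean o.pos h x)).2
    nlinarith [mul_le_mul_of_nonneg_right h1 (mul_self_nonneg (f a x))]
  nlinarith [mul_le_mul_of_nonneg_left this (o.nn a)]

lemma cvc_eq {p : Ω → ℂ} (hp : ∀ x, p x = prob w x * (1 + υ * ((χ x - mean w χ : ℝ) : ℂ))) :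
    (of fun a b => cvc p (f a) (f b)) = dg μ + Zm w χ f υ := by
  have e0 : ∀ g : Ω → ℝ, ∑ x, p x * g x =
      (mean w g : ℝ) + υ * (mean w fun x => (χ x - mean w χ) * g x : ℝ) := fun g => by
    simp only [hp, mean, Complex.ofReal_sum, mul_sum, ← sum_add_distrib]
    exact sum_congr rfl fun x _ => by push_cast; ring
  have e1 : ∀ a, ∑ x, p x * f a x = υ * be w χ f a := fun a => by
    simp only [e0, o.cen, sub_mul, mean_sub, mean_const_mul, be]; simp
  ext a b
  have e2 := e0 fun x => f a x * f b x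
  simp only [Complex.ofReal_mul, o.ort, ← mul_assoc] at e2
  simp only [of_apply, cvc, e1, Matrix.add_apply, dg, Zm, diagonal_apply, ← mul_assoc, e2, al]
  split_ifs <;> push_cast <;> ring

lemma norm_Zm (h : Sgn χ) {u : ℝ} (hu : ‖υ‖ ≤ u) (hu1 : u ≤ 1) (S : Finset κ) (m : ℝ) (hm : 0 ≤ m)
    (hS : ∀ a ∈ S, μ a ≤ m) : ‖Pj S * Zm w χ f υ * Pj S‖ ≤ 3 * u * m := by
  let F : Matrix Ω κ ℂ := of fun x a => if a ∈ S then ((√(prob w x) * f a x : ℝ) : ℂ) else 0
  let B : Matrix κ Unit ℂ := of fun a _ => if a ∈ S then (be w χ f a : ℂ) else 0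
  let D : Matrix Ω Ω ℂ := diagonal fun x => ((χ x - mean w χ : ℝ) : ℂ)
  have sp : ∀ x, √(prob w x) * √(prob w x) = prob w x := fun x =>
    Real.mul_self_sqrt (prob_nn o.pos x)
  have hF : ∀ d : Ω → ℝ, ∀ a b, (Fᴴ * diagonal (fun x => (d x : ℂ)) * F) a b =
      if a ∈ S ∧ b ∈ S then ((mean w fun x => d x * f a x * f b x : ℝ) : ℂ) else 0 := fun d a b => by
    simp only [mul_apply (M := _ * _), mul_diagonal, conjTranspose_apply, F, of_apply]
    by_cases ha : a ∈ S <;> by_cases hb : b ∈ S <;> simp only [ha, hb, if_true, if_false, and_self,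
      and_false, false_and, star_zero, zero_mul, mul_zero, sum_const_zero]
    simp only [mean, Complex.ofReal_sum, RCLike.star_def, Complex.conj_ofReal]
    refine sum_congr rfl fun x _ => ?_
    rw [← Complex.ofReal_mul, ← Complex.ofReal_mul]
    congr 1
    linear_combination (d x * f a x * f b x) * sp x
  have nF : ‖F‖ * ‖F‖ ≤ m := by
    rw [← l2_opNorm_conjTranspose_mul_self]
    have : Fᴴ * F = diagonal fun a => if a ∈ S then (μ a : ℂ) else 0 := by
      ext a b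
      have := hF (fun _ => 1) a b
      simp only [Complex.ofReal_one, diagonal_one, Matrix.mul_one, one_mul, o.ort] at this
      rw [this, diagonal_apply]
      by_cases e : a = b
      · subst e; simp
      · simp [e]
    rw [this]
    refine norm_diag hm fun a => ?_
    split_ifs with ha
    · rw [Complex.norm_real, Real.norm_of_nonneg (o.nn a)]; exact hS a ha
    · simpa using hm
  have nB : ‖B‖ * ‖B‖ ≤ m := by
    rw [← l2_opNorm_conjTranspose_mul_self]
    have : Bᴴ * B = diagonal fun _ => ((∑ b ∈ S, be w χ f b ^ 2 : ℝ) : ℂ) := by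
      ext a b
      simp only [B, mul_apply, conjTranspose_apply, of_apply, mul_ite, mul_zero, sum_ite_mem,
        univ_inter, diagonal_apply, if_true, Complex.ofReal_sum]
      exact sum_congr rfl fun x hx => by simp [hx, sq]
    rw [this]
    refine norm_diag hm fun a => ?_
    rw [Complex.norm_real, Real.norm_of_nonneg (by positivity)]; exact o.sum_be h S hm hS
  have nD : ‖D‖ ≤ 2 := norm_diag zero_le_two fun x => by
    rw [Complex.norm_real]; exact sq_sub_mean o.pos h x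
  have e : Pj S * Zm w χ f υ * Pj S = υ • (Fᴴ * D * F) - υ ^ 2 • (B * Bᴴ) := by
    ext a b
    rw [Pj_apply, Matrix.sub_apply, Matrix.smul_apply, Matrix.smul_apply, hF]
    by_cases ha : a ∈ S <;> by_cases hb : b ∈ S <;> simp [ha, hb, B, mul_apply, Zm, al]
  have n1 : ‖Fᴴ * D * F‖ ≤ 2 * m := by
    refine (l2_opNorm_mul _ _).trans ((mul_le_mul_of_nonneg_right (l2_opNorm_mul _ _)
      (norm_nonneg _)).trans ?_)
    rw [l2_opNorm_conjTranspose]
    nlinarith [mul_le_mul_of_nonneg_left nD (mul_self_nonneg ‖F‖)]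
  have n2 : ‖B * Bᴴ‖ ≤ m := (l2_opNorm_mul _ _).trans (by rwa [l2_opNorm_conjTranspose])
  have u0 : 0 ≤ u := (norm_nonneg _).trans hu
  rw [e]
  refine (norm_sub_le _ _).trans ?_
  rw [norm_smul, norm_smul, norm_pow]
  calc _ ≤ u * (2 * m) + u ^ 2 * m := by gcongr
    _ ≤ _ := by nlinarith [mul_nonneg (mul_nonneg u0 hm) (sub_nonneg.2 hu1)]

lemma yy_nn (a : κ) : 0 ≤ yy w χ f μ a := by have := o.nn a; unfold yy; positivity

lemma yy_le (h : Sgn χ) (a : κ) : yy w χ f μ a ≤ 5 * μ a ^ 2 := by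
  unfold yy; nlinarith [o.sum_al h a, mul_le_mul_of_nonneg_left (o.be_sq h a) (o.nn a)]

/-- **the trace under a tilt** -/
theorem core (h : Sgn χ) {u : ℝ} (hu : ‖υ‖ ≤ u) (j : ℕ) (hj : (j + 2) * u ≤ 1 / 12) :
    ‖((dg μ + Zm w χ f υ) ^ (j + 2)).trace - ((∑ a, μ a ^ (j + 2) : ℝ) : ℂ)‖ ≤
      3 * ((j + 2) * u) * ∑ a, μ a ^ (j + 1) * √(yy w χ f μ a) := by
  have u0 : 0 ≤ u := (norm_nonneg _).trans hu
  have j0 : (0 : ℝ) ≤ j := Nat.cast_nonneg j
  have u1 : u ≤ 1 := by nlinarith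
  have h1 := tr_second o.nn (by positivity : 0 ≤ 3 * u) (o.norm_Zm h hu u1) j
  have hp : (1 + 3 * u) ^ j ≤ 2 := one_add_pow_le (by positivity) j (by nlinarith)
  have nz : ∀ a b, ‖Zm w χ f υ a b‖ ≤ u * (|al w χ f a b| + |be w χ f a * be w χ f b|) := fun a b => by
    refine (norm_sub_le _ _).trans ?_
    rw [norm_mul, norm_mul, norm_pow, ← Complex.ofReal_mul, Complex.norm_real, Complex.norm_real,
      Real.norm_eq_abs, Real.norm_eq_abs, mul_add]
    gcongr; nlinarith [norm_nonneg υ]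
  have nz2 : ∀ a b, ‖Zm w χ f υ a b‖ ^ 2 ≤
      2 * u ^ 2 * (al w χ f a b ^ 2 + be w χ f a ^ 2 * be w χ f b ^ 2) := fun a b => by
    refine (pow_le_pow_left₀ (norm_nonneg _) (nz a b) 2).trans ?_
    rw [mul_pow, ← mul_pow (be w χ f a), ← sq_abs (al w χ f a b), ← sq_abs (be w χ f a * _)]
    nlinarith [mul_nonneg (sq_nonneg u) (sq_nonneg (|al w χ f a b| - |be w χ f a * be w χ f b|))]
  have l1 : ∀ a, lo μ (Zm w χ f υ) a ≤ 4 * u ^ 2 * yy w χ f μ a := fun a => by
    have b1 := o.sum_be h (univ.filter fun b => μ b ≤ μ a) (o.nn a) (by simp)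
    calc _ ≤ ∑ b ∈ univ.filter fun b => μ b ≤ μ a,
          4 * u ^ 2 * (al w χ f a b ^ 2 + be w χ f a ^ 2 * be w χ f b ^ 2) :=
          sum_le_sum fun b _ => by have := nz2 b a; rw [al_comm b a] at this; linarith [nz2 a b]
      _ ≤ _ := by
          rw [← mul_sum, sum_add_distrib, ← mul_sum, yy, mul_comm (μ a)]; gcongr
  have d1 : ∀ a, ‖Zm w χ f υ a a‖ ≤ u * (3 / 2 * √(yy w χ f μ a)) := fun a => by
    refine (nz a a).trans (mul_le_mul_of_nonneg_left (abs_le_of_sq_le_sq' ?_ (by positivity)).2 u0)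
    have b1 : al w χ f a a ^ 2 ≤ ∑ b ∈ univ.filter fun b => μ b ≤ μ a, al w χ f a b ^ 2 :=
      single_le_sum (f := fun b => al w χ f a b ^ 2) (fun _ _ => sq_nonneg _) (by simp)
    have b2 := mul_le_mul_of_nonneg_right (o.be_sq h a) (sq_nonneg (be w χ f a))
    have b3 := o.yy_nn (χ := χ) a
    rw [mul_pow, Real.sq_sqrt b3, abs_mul_self]
    unfold yy at b3 ⊢
    nlinarith [sq_abs (al w χ f a a), sq_nonneg (|al w χ f a a| - be w χ f a * be w χ f a)]
  have d2 : ∀ a, yy w χ f μ a ≤ 9 / 4 * μ a * √(yy w χ f μ a) := fun a => by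
    have b1 : √(yy w χ f μ a) ≤ 9 / 4 * μ a := Real.sqrt_le_iff.2
      ⟨by have := o.nn a; positivity, by nlinarith [o.yy_le h a, sq_nonneg (μ a)]⟩
    nth_rewrite 1 [← Real.mul_self_sqrt (o.yy_nn (χ := χ) a)]
    gcongr
  have h2 : ‖((j : ℂ) + 2) * ∑ a, (μ a : ℂ) ^ (j + 1) * Zm w χ f υ a a‖ ≤
      (j + 2) * ∑ a, μ a ^ (j + 1) * (u * (3 / 2 * √(yy w χ f μ a))) := by
    rw [norm_mul, show ((j : ℂ) + 2) = ((j + 2 : ℝ) : ℂ) by push_cast; rfl, Complex.norm_real,
      Real.norm_of_nonneg (by positivity)]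
    gcongr
    refine (norm_sum_le _ _).trans (sum_le_sum fun a _ => ?_)
    rw [norm_mul, norm_pow, Complex.norm_real, Real.norm_of_nonneg (o.nn a)]
    exact mul_le_mul_of_nonneg_left (d1 a) (pow_nonneg (o.nn a) _)
  have h3 : ∑ a, μ a ^ j * lo μ (Zm w χ f υ) a ≤
      9 * u ^ 2 * ∑ a, μ a ^ (j + 1) * √(yy w χ f μ a) := by
    rw [mul_sum]
    refine sum_le_sum fun a _ => ?_
    have := o.nn a
    calc _ ≤ μ a ^ j * (4 * u ^ 2 * (9 / 4 * μ a * √(yy w χ f μ a))) := by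
          gcongr; exact (l1 a).trans (by gcongr; exact d2 a)
      _ = _ := by ring
  set Y := ∑ a, μ a ^ (j + 1) * √(yy w χ f μ a) with hY
  have Y0 : 0 ≤ Y := sum_nonneg fun a _ => by have := o.nn a; positivity
  have e2 : ∑ a, μ a ^ (j + 1) * (u * (3 / 2 * √(yy w χ f μ a))) = u * (3 / 2) * Y := by
    rw [hY, mul_sum]; exact sum_congr rfl fun _ _ => by ring
  rw [e2] at h2
  have h4 : ((j : ℝ) + 2) ^ 2 * (1 + 3 * u) ^ j * ∑ a, μ a ^ j * lo μ (Zm w χ f υ) a ≤
      (j + 2) ^ 2 * 2 * (9 * u ^ 2 * Y) := by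
    refine mul_le_mul (by gcongr) h3 (sum_nonneg fun a _ => mul_nonneg (pow_nonneg (o.nn a) _) ?_)
      (by positivity)
    unfold lo; positivity
  have h5 := norm_add_le (((dg μ + Zm w χ f υ) ^ (j + 2)).trace - ∑ a, (μ a : ℂ) ^ (j + 2) -
    ((j : ℂ) + 2) * ∑ a, (μ a : ℂ) ^ (j + 1) * Zm w χ f υ a a)
    (((j : ℂ) + 2) * ∑ a, (μ a : ℂ) ^ (j + 1) * Zm w χ f υ a a)
  rw [sub_add_cancel] at h5
  push_cast
  have h6 := mul_le_mul_of_nonneg_left hj (mul_nonneg (mul_nonneg (by positivity : (0 : ℝ) ≤ j + 2) u0) Y0)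
  nlinarith

end Og
end fin

end Crest.Agent.T157.Et

end
end

-- ▼ part T157/EtC_81
section

/-!
# Row 157, part C: edge transfer, C (helper81)

The functional `T / (Λ + T)`, `T = tr (C / K) ^ k`, of a weight on the cube.
-/

set_option autoImplicit false
set_option linter.unusedSectionVars false

noncomputable section

namespace Crest.Agent.T157.Et

open Metric Finset Matrix
open Crest.ProbabilityR.SpinGlassDynamics Crest.Agent.T157.E Crest.Agent.T157.SL
open Crest.Agent.T157.Un Crest.Agent.T157.CwTr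
open Crest.Agent.T157.Crit (CovLe)

variable {n : ℕ} {w : Cube n → ℝ} {K L γ ρ : ℝ} {j k : ℕ}

/-- `tr (C / K) ^ k` for a complex kernel -/
def TC (K : ℝ) (k : ℕ) (p : Cube n → ℂ) : ℂ :=
  ((((K⁻¹ : ℝ) : ℂ) • of fun i j => cvc p (fun x => sv x i) fun x => sv x j) ^ k).trace
def TT (K : ℝ) (k : ℕ) (w : Cube n → ℝ) : ℝ := (TC K k fun x => prob w x).re
def YC (K L : ℝ) (k : ℕ) (p : Cube n → ℂ) : ℂ := TC K k p / (L + TC K k p)
def YY (K L : ℝ) (k : ℕ) (w : Cube n → ℝ) : ℝ := TT K k w / (L + TT K k w)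
/-- large overlaps -/
def big (γ : ℝ) (x y : Cube n) : ℝ := if γ < |sv x ⬝ᵥ sv y| then 1 else 0

lemma diff_TC (K : ℝ) (k : ℕ) : Differentiable ℂ (TC (n := n) K k) := by
  have h : ∀ (k : ℕ) a b, Differentiable ℂ fun p : Cube n → ℂ =>
      ((((K⁻¹ : ℝ) : ℂ) • of fun i j => cvc p (fun x => sv x i) fun x => sv x j) ^ k) a b := by
    intro k
    induction k with
    | zero => intro a b; simp only [pow_zero]; exact differentiable_const _
    | succ k ih =>
      intro a b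
      simp only [pow_succ, mul_apply]
      refine Differentiable.fun_sum fun c _ => (ih a c).mul ?_
      simp only [Matrix.smul_apply, of_apply, cvc, smul_eq_mul]
      fun_prop
  exact Differentiable.fun_sum (u := univ) fun a _ => h k a a

lemma tr_conj {κ : Type*} [Fintype κ] [DecidableEq κ] {O O' : Matrix κ κ ℂ} (h : O * O' = 1)
    (A : Matrix κ κ ℂ) (k : ℕ) : ((O' * A * O) ^ k).trace = (A ^ k).trace := by
  have : (O' * A * O) ^ k = O' * A ^ k * O := by
    induction k with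
    | zero => simp [mul_eq_one_comm.1 h]
    | succ k ih =>
      rw [pow_succ, ih, pow_succ]
      simp only [mul_assoc]
      rw [← mul_assoc O, h, one_mul]
  rw [this, trace_mul_cycle, h, one_mul]

lemma cvc_lin {p : Cube n → ℂ} (hp : ∑ x, p x = 1) (u v : Fin n → ℝ) (a b : ℝ) :
    cvc p (fun x => u ⬝ᵥ sv x - a) (fun x => v ⬝ᵥ sv x - b) =
      ∑ l, (∑ i, (u i : ℂ) * cvc p (fun x => sv x i) fun x => sv x l) * v l := by
  have e1 : ∀ (g : Cube n → ℂ) (u : Fin n → ℝ), ∑ x, g x * ((u ⬝ᵥ sv x : ℝ) : ℂ) =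
      ∑ i, (∑ x, g x * sv x i) * u i := fun g u => by
    simp only [dotProduct, Complex.ofReal_sum, Complex.ofReal_mul, mul_sum, sum_mul]
    rw [sum_comm]; exact sum_congr rfl fun _ _ => sum_congr rfl fun _ _ => by ring
  have e2 : cvc p (fun x => u ⬝ᵥ sv x - a) (fun x => v ⬝ᵥ sv x - b) =
      ∑ x, p x * ((u ⬝ᵥ sv x : ℝ) : ℂ) * ((v ⬝ᵥ sv x : ℝ) : ℂ) -
        (∑ x, p x * ((u ⬝ᵥ sv x : ℝ) : ℂ)) * ∑ x, p x * ((v ⬝ᵥ sv x : ℝ) : ℂ) := by
    simp only [cvc, Complex.ofReal_sub, mul_sub, sub_mul, sum_sub_distrib, ← mul_assoc, ← sum_mul,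
      mul_right_comm _ (a : ℂ), hp]
    ring
  rw [e2, e1, e1 p v, mul_sum, ← sum_sub_distrib]
  refine sum_congr rfl fun l _ => ?_
  rw [← mul_assoc, ← sub_mul]
  congr 1
  simp only [mul_right_comm (p _) _ (sv _ l : ℂ), e1, sum_mul, ← sum_sub_distrib, cvc]
  refine sum_congr rfl fun i _ => ?_
  rw [mul_sum]
  exact sum_congr rfl fun _ _ => by ring

lemma exists_basis (hw : ∀ x, 0 < w x) (hK : 1 ≤ K) : ∃ (f : Fin n → Cube n → ℝ) (μ : Fin n → ℝ),
    Og w f μ ∧ (∀ a x, |f a x| ≤ 2 * √n) ∧ (∀ (p : Cube n → ℂ) (k : ℕ), ∑ x, p x = 1 →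
      TC K k p = ((of fun a b => cvc p (f a) (f b)) ^ k).trace) ∧
      ∀ c, CovLe w (c * K) ↔ ∀ a, μ a ≤ c := by
  have hW := Wt.of_pos hw
  have K0 : 0 < K := by linarith
  have hH : (covM w).IsHermitian := (hW.covMat_psd sv).isHermitian
  set Q : Matrix (Fin n) (Fin n) ℝ := (hH.eigenvectorUnitary : Matrix (Fin n) (Fin n) ℝ)
  set l := hH.eigenvalues
  have q1 : Q * Qᵀ = 1 := by
    have := Unitary.coe_mul_star_self hH.eigenvectorUnitary
    simpa [star_eq_conjTranspose] using this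
  have q2 : Qᵀ * Q = 1 := mul_eq_one_comm.1 q1
  have sp : covM w = Q * diagonal l * Qᵀ := by
    have := hH.spectral_theorem
    simpa [Unitary.conjStarAlgAut_apply, star_eq_conjTranspose] using this
  have sq : √K⁻¹ * √K⁻¹ = K⁻¹ := Real.mul_self_sqrt (by positivity)
  have quad : ∀ u v : Fin n → ℝ, u ⬝ᵥ covM w *ᵥ v = ∑ a, l a * ((Qᵀ *ᵥ u) a * (Qᵀ *ᵥ v) a) := by
    intro u v
    rw [sp, ← mulVec_mulVec, ← mulVec_mulVec, dotProduct_mulVec, ← mulVec_transpose]
    exact sum_congr rfl fun a _ => by rw [mulVec_diagonal]; ring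
  have col : ∀ a, Qᵀ *ᵥ Qᵀ a = Pi.single a 1 := fun a => by
    funext b
    have := congrFun (congrFun q2 b) a
    simpa [mul_apply, mulVec, dotProduct, one_apply, Pi.single_apply] using this
  have nrm : ∀ u : Fin n → ℝ, Qᵀ *ᵥ u ⬝ᵥ Qᵀ *ᵥ u = u ⬝ᵥ u := fun u => by
    rw [dotProduct_mulVec, ← mulVec_transpose, transpose_transpose, mulVec_mulVec, q1, one_mulVec]
  have one : ∀ a, Qᵀ a ⬝ᵥ Qᵀ a = 1 := fun a => by rw [← nrm, col]; simp
  refine ⟨fun a x => (√K⁻¹ • Qᵀ a) ⬝ᵥ sv x - mean w fun x => (√K⁻¹ • Qᵀ a) ⬝ᵥ sv x,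
    fun a => K⁻¹ * l a, ⟨hw, fun a => by rw [mean_sub, hW.mean_const, sub_self], fun a b => ?_⟩,
    fun a x => ?_, fun p k hp => ?_, fun c => ⟨fun h a => ?_, fun h u => ?_⟩⟩
  · refine (covMat_quad w sv (√K⁻¹ • Qᵀ b) (√K⁻¹ • Qᵀ a)).symm.trans ((quad _ _).trans ?_)
    simp only [mulVec_smul, col, Pi.smul_apply, smul_eq_mul, Pi.single_apply, mul_ite, mul_one,
      mul_zero, ite_mul, zero_mul, sum_ite_eq', mem_univ, if_true, sq, mul_comm (l _)]
  · have h1 : ∀ x, |(√K⁻¹ • Qᵀ a) ⬝ᵥ sv x| ≤ √n := fun x => by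
      refine Real.abs_le_sqrt ((sum_mul_sq_le_sq_mul_sq _ _ _).trans ?_)
      have a1 : ∑ i, (√K⁻¹ • Qᵀ a) i ^ 2 = K⁻¹ := by
        have : (√K⁻¹ • Qᵀ a) ⬝ᵥ (√K⁻¹ • Qᵀ a) = K⁻¹ := by
          rw [smul_dotProduct, dotProduct_smul, one, smul_eq_mul, smul_eq_mul, mul_one, sq]
        simpa only [dotProduct, pow_two] using this
      have a2 : ∑ i, sv x i ^ 2 = n := by simpa only [dotProduct, pow_two] using sv_dot_self x
      rw [a1, a2]
      exact mul_le_of_le_one_left (Nat.cast_nonneg n) (inv_le_one_of_one_le₀ hK)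
    linarith [abs_sub ((√K⁻¹ • Qᵀ a) ⬝ᵥ sv x) (mean w fun x => (√K⁻¹ • Qᵀ a) ⬝ᵥ sv x), h1 x,
      hW.abs_mean_le h1]
  · have h1 : Q.map Complex.ofReal * (Q.map Complex.ofReal)ᵀ = 1 := by
      have := congrArg (fun M : Matrix (Fin n) (Fin n) ℝ => M.map Complex.ofRealHom) q1
      simp only [Matrix.map_mul, transpose_map] at this
      rwa [Matrix.map_one _ (map_zero _) (map_one _)] at this
    rw [TC, ← tr_conj h1]
    congr 2
    ext a b
    have sq' : ((K⁻¹ : ℝ) : ℂ) = (√K⁻¹ : ℝ) * (√K⁻¹ : ℝ) := by rw [← Complex.ofReal_mul, sq]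
    simp only [of_apply, cvc_lin hp, mul_apply, Matrix.smul_apply, transpose_apply, map_apply,
      Pi.smul_apply, smul_eq_mul, Complex.ofReal_mul, sum_mul]
    rw [sq']
    exact sum_congr rfl fun _ _ => sum_congr rfl fun _ _ => by ring
  · have := h (Qᵀ a)
    rw [quad, one] at this
    simp only [col, Pi.single_apply, mul_ite, mul_one, mul_zero, sum_ite_eq', mem_univ,
      if_true] at this
    rwa [inv_mul_le_iff₀ K0, mul_comm]
  · rw [quad, ← nrm u, dotProduct, mul_sum]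
    refine sum_le_sum fun a _ => mul_le_mul_of_nonneg_right ?_ (mul_self_nonneg _)
    have := h a
    rwa [inv_mul_le_iff₀ K0, mul_comm] at this

lemma abs_ov_le (x y : Cube n) : |sv x ⬝ᵥ sv y| ≤ n := by
  refine (abs_sum_le_sum_abs _ _).trans (le_of_eq ?_)
  have : ∀ i, |sv x i * sv y i| = 1 := fun i => by
    simp only [sv, spin]; split_ifs <;> norm_num
  simp [this]

lemma big_nn (x y : Cube n) : 0 ≤ big γ x y := by unfold big; split_ifs <;> norm_num

lemma sum_chi {ι : Type*} [Fintype ι] (hw : ∀ x, 0 < w x) (γ : ℝ) (u : ι → Cube n → ℝ) {B : ℝ}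
    (hB : ∀ x y, |∑ i, u i x * u i y| ≤ B) :
    ∑ e : Pair n, ∑ i, (mean w fun x => chi e x * u i x) ^ 2 ≤
      γ ^ 2 * m2 w (fun x y => |∑ i, u i x * u i y|) + n ^ 2 * B * m2 w (big γ) := by
  refine (sum_cov_le w u).trans ?_
  rw [← m2_const_mul, ← m2_const_mul, ← m2_add]
  refine m2_mono hw fun x y => (mul_le_mul_of_nonneg_right (le_abs_self _) (sq_nonneg _)).trans ?_
  have h0 := abs_nonneg (∑ i, u i x * u i y)
  rw [← sq_abs (sv x ⬝ᵥ sv y), big]
  split_ifs with h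
  · have : |∑ i, u i x * u i y| * |sv x ⬝ᵥ sv y| ^ 2 ≤ B * n ^ 2 := by
      gcongr
      · exact h0.trans (hB x y)
      · exact hB x y
      · exact abs_ov_le x y
    nlinarith [mul_nonneg (sq_nonneg γ) h0]
  · rw [mul_zero, add_zero, mul_comm]
    gcongr; exact not_lt.1 h

lemma sum_chi1 (hw : ∀ x, 0 < w x) (γ : ℝ) (u : Cube n → ℝ) {B : ℝ} (hB : ∀ x y, |u x * u y| ≤ B) :
    ∑ e : Pair n, (mean w fun x => chi e x * u x) ^ 2 ≤
      γ ^ 2 * m2 w (fun x y => |u x * u y|) + n ^ 2 * B * m2 w (big γ) := by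
  simpa using sum_chi (ι := Unit) hw γ (fun _ => u) (B := B) (by simpa using hB)

lemma sum_t (hw : ∀ x, 0 < w x) (γ : ℝ) :
    ∑ e : Pair n, mean w (chi e) ^ 2 ≤ γ ^ 2 + n ^ 2 * m2 w (big γ) := by
  simpa [m2_const hw] using sum_chi1 hw γ (fun _ => 1) (B := 1) (by simp)

lemma sum_yy {f : Fin n → Cube n → ℝ} {μ : Fin n → ℝ} (o : Og w f μ) (hn : 0 < n)
    (hf : ∀ a x, |f a x| ≤ 2 * √n) (γ : ℝ) (a : Fin n) :
    ∑ e : Pair n, yy w (chi e) f μ a ≤ 5 * γ ^ 2 * √n * μ a ^ 2 + 80 * n ^ 5 * m2 w (big γ) := by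
  have hW := Wt.of_pos o.pos
  have n1 : (1 : ℝ) ≤ n := by exact_mod_cast hn
  have s1 : 1 ≤ √(n : ℝ) := Real.one_le_sqrt.2 n1
  have ss : √(n : ℝ) * √n = n := Real.mul_self_sqrt (by positivity)
  have f2 : ∀ a b x y, |f a x * f b y| ≤ 4 * n := fun a b x y => by
    rw [abs_mul]
    exact (mul_le_mul (hf a x) (hf b y) (abs_nonneg _) (by positivity)).trans_eq (by linarith)
  have μ0 := o.nn a
  have μ1 : μ a ≤ 4 * n := o.self a ▸ hW.mean_le fun x => (le_abs_self _).trans (f2 a a x x)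
  set S := univ.filter fun b => μ b ≤ μ a with hS
  set t := m2 w (big γ)
  have t0 : 0 ≤ t := m2_nonneg o.pos big_nn
  have eu : ∀ x y, ∑ b : S, f a x * f b x * (f a y * f b y) =
      f a x * f a y * ∑ b ∈ S, f b x * f b y := fun x y => by
    rw [sum_coe_sort S fun b => f a x * f b x * (f a y * f b y), mul_sum]
    exact sum_congr rfl fun _ _ => by ring
  have A1 := sum_chi o.pos γ (fun (b : S) x => f a x * f b x) (B := 16 * n ^ 3) fun x y => by
    rw [eu, abs_mul]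
    have : |∑ b ∈ S, f b x * f b y| ≤ n * (4 * n) := by
      refine (abs_sum_le_sum_abs _ _).trans ((sum_le_card_nsmul _ _ _ fun b _ => f2 b b x y).trans ?_)
      rw [nsmul_eq_mul]
      gcongr
      simpa using card_le_univ S
    exact (mul_le_mul (f2 a a x y) this (abs_nonneg _) (by positivity)).trans_eq (by ring)
  have B1 : m2 w (fun x y => (∑ b ∈ S, f b x * f b y) * ∑ b ∈ S, f b x * f b y) ≤ n * μ a ^ 2 := by
    rw [m2_eq_mean]
    refine (hW.mean_mono fun x => o.sq_sum (fun b => f b x) S (m := μ a) (by simp [hS])).trans ?_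
    simp only [mean_const_mul, mean_sum, sq, o.self]
    have : ∑ b ∈ S, μ b ≤ n * μ a := by
      refine (sum_le_card_nsmul _ _ (μ a) (by simp [hS])).trans ?_
      rw [nsmul_eq_mul]
      gcongr
      simpa using card_le_univ S
    nlinarith
  have B2 : m2 w (fun x y => |∑ b : S, f a x * f b x * (f a y * f b y)|) ≤ √n * μ a ^ 2 := by
    have := m2_mono o.pos (F := fun x y => 2 * √n * |∑ b : S, f a x * f b x * (f a y * f b y)|)
      (G := fun x y => n * (f a x * f a x * (f a y * f a y)) +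
        (∑ b ∈ S, f b x * f b y) * ∑ b ∈ S, f b x * f b y) fun x y => by
      rw [eu, abs_mul, ← abs_mul_abs_self (∑ b ∈ S, _), mul_mul_mul_comm (f a x),
        ← abs_mul_abs_self (f a x * _)]
      nth_rewrite 2 [← ss]
      nlinarith [sq_nonneg (√n * |f a x * f a y| - |∑ b ∈ S, f b x * f b y|)]
    rw [m2_const_mul, m2_add, m2_const_mul, m2_mul (fun x => f a x * f a x) fun x => f a x * f a x,
      o.self] at this
    refine le_of_mul_le_mul_left (this.trans ?_) (by positivity : 0 < 2 * √(n : ℝ))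
    nlinarith
  have A2 := sum_t o.pos γ
  have A3 := sum_chi1 o.pos γ (f a) (f2 a a)
  have B3 : m2 w (fun x y => |f a x * f a y|) ≤ μ a := by
    have := m2_mono o.pos (F := fun x y => 2 * |f a x * f a y|)
      (G := fun x y => f a x * f a x + f a y * f a y) fun x y => by
      rw [abs_mul, ← abs_mul_abs_self (f a x), ← abs_mul_abs_self (f a y)]
      nlinarith [sq_nonneg (|f a x| - |f a y|)]
    rw [m2_const_mul, m2_add, m2_left o.pos fun x => f a x * f a x,
      m2_right o.pos fun x => f a x * f a x, o.self] at this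
    linarith
  have C1 : ∀ e : Pair n, yy w (chi e) f μ a ≤
      2 * ∑ b : S, (mean w fun x => chi e x * (f a x * f b x)) ^ 2 +
        2 * μ a ^ 2 * mean w (chi e) ^ 2 + μ a * (mean w fun x => chi e x * f a x) ^ 2 := fun e => by
    refine add_le_add_left ?_ _
    rw [sum_coe_sort S fun b => (mean w fun x => chi e x * (f a x * f b x)) ^ 2]
    have h1 : ∀ b, al w (chi e) f a b ^ 2 ≤ 2 * (mean w fun x => chi e x * (f a x * f b x)) ^ 2 +
        if a = b then 2 * μ a ^ 2 * mean w (chi e) ^ 2 else 0 := fun b => by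
      simp only [al, mul_assoc, sub_mul, mean_sub, mean_const_mul, o.ort]
      split_ifs
      · nlinarith [sq_nonneg ((mean w fun x => chi e x * (f a x * f b x)) + mean w (chi e) * μ a)]
      · nlinarith [sq_nonneg (mean w fun x => chi e x * (f a x * f b x))]
    refine (sum_le_sum fun b _ => h1 b).trans (le_of_eq ?_)
    rw [sum_add_distrib, ← mul_sum, sum_ite_eq, if_pos (by simp)]
  refine (sum_le_sum fun e _ => C1 e).trans ?_
  rw [sum_add_distrib, sum_add_distrib, ← mul_sum, ← mul_sum, ← mul_sum]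
  have g0 := sq_nonneg γ
  calc _ ≤ 2 * (γ ^ 2 * (√n * μ a ^ 2) + n ^ 2 * (16 * n ^ 3) * t) +
        2 * μ a ^ 2 * (γ ^ 2 + n ^ 2 * t) + μ a * (γ ^ 2 * μ a + n ^ 2 * (4 * n) * t) := by
        gcongr
        · exact A1.trans (by gcongr)
        · exact A3.trans (by gcongr)
    _ = 2 * γ ^ 2 * √n * μ a ^ 2 + 3 * γ ^ 2 * 1 * μ a ^ 2 +
        (32 * n ^ 5 + 2 * μ a ^ 2 * n ^ 2 * 1 + 4 * μ a * n ^ 3 * 1) * t := by ring
    _ ≤ 2 * γ ^ 2 * √n * μ a ^ 2 + 3 * γ ^ 2 * √n * μ a ^ 2 +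
        (32 * n ^ 5 + 2 * (4 * n) ^ 2 * n ^ 2 * n + 4 * (4 * n) * n ^ 3 * n) * t := by gcongr
    _ = _ := by ring

lemma TT_eq {f : Fin n → Cube n → ℝ} {μ : Fin n → ℝ} (o : Og w f μ)
    (h : ∀ (p : Cube n → ℂ) (k : ℕ), ∑ x, p x = 1 →
      TC K k p = ((of fun a b => cvc p (f a) (f b)) ^ k).trace) (k : ℕ) :
    (TC K k fun x => prob w x) = (TT K k w : ℝ) ∧ TT K k w = ∑ a, μ a ^ k := by
  have h1 : (TC K k fun x => prob w x) = ((∑ a, μ a ^ k : ℝ) : ℂ) := by
    have z0 : Zm w (fun _ => 1) f 0 = 0 := by ext a b; simp [Zm]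
    rw [h _ _ (by exact_mod_cast sum_prob o.pos), o.cvc_eq (χ := fun _ => 1) (υ := 0) (by simp), z0,
      add_zero, dg, diagonal_pow, trace_diagonal]
    simp
  have h2 : TT K k w = ∑ a, μ a ^ k := by rw [TT, h1, Complex.ofReal_re]
  exact ⟨by rw [h1, h2], h2⟩

section
variable (hw : ∀ x, 0 < w x) (hK : 1 ≤ K)
include hw hK

lemma TC_real (k : ℕ) : (TC K k fun x => prob w x) = (TT K k w : ℝ) := by
  obtain ⟨f, μ, o, -, h, -⟩ := exists_basis hw hK
  exact (TT_eq o h k).1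

lemma TT_nn (k : ℕ) : 0 ≤ TT K k w := by
  obtain ⟨f, μ, o, -, h, -⟩ := exists_basis hw hK
  rw [(TT_eq o h k).2]; exact sum_nonneg fun a _ => pow_nonneg (o.nn a) _

lemma TT_le (k : ℕ) (hc : CovLe w K) : TT K k w ≤ n := by
  obtain ⟨f, μ, o, -, h, h'⟩ := exists_basis hw hK
  rw [(TT_eq o h k).2]
  simpa using sum_le_card_nsmul univ _ 1 fun a _ =>
    pow_le_one₀ (n := k) (o.nn a) ((h' 1).1 (by rwa [one_mul]) a)

lemma le_TT (k : ℕ) {c : ℝ} (h0 : 0 ≤ c) (hc : ¬ CovLe w (c * K)) : c ^ k ≤ TT K k w := by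
  obtain ⟨f, μ, o, -, h, h'⟩ := exists_basis hw hK
  rw [(TT_eq o h k).2]
  obtain ⟨a, ha⟩ := not_forall.1 (mt (h' c).2 hc)
  exact (pow_le_pow_left₀ h0 (not_le.1 ha).le k).trans
    (single_le_sum (f := fun a => μ a ^ k) (fun a _ => pow_nonneg (o.nn a) _) (mem_univ a))

lemma YY_nn (hL : 1 ≤ L) : 0 ≤ YY K L k w := by
  have := TT_nn hw hK k; unfold YY; positivity

lemma YY_le (hL : 1 ≤ L) : |YY K L k w| ≤ 1 := by
  have := TT_nn hw hK k
  rw [abs_of_nonneg (YY_nn hw hK hL), YY, div_le_one (by positivity)]; linarith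

/-- the trace under the change of one coupling -/
theorem tilt_T (hn : 0 < n) (hρ : (j + 2) * ρ ≤ 1 / 64) (γ : ℝ) :
    (∀ e, ∀ z ∈ ball (0 : ℂ) ρ, ‖TC K (j + 2) (pc (cw w (chi e) z)) - TT K (j + 2) w‖ ≤
      27 * ((j + 2) * ρ) * TT K (j + 2) w) ∧
    ∀ z : Pair n → ℂ, (∀ e, z e ∈ ball (0 : ℂ) ρ) →
      ∑ e, ‖TC K (j + 2) (pc (cw w (chi e) (z e))) - TT K (j + 2) w‖ ^ 2 ≤
        γ ^ 2 * √n * TT K (j + 2) w ^ 2 + 8 * n ^ 5 * m2 w (big γ) * (n + TT K (j + 2) w) ^ 2 := by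
  obtain ⟨f, μ, o, hf, h, -⟩ := exists_basis hw hK
  have j0 : (0 : ℝ) ≤ j := Nat.cast_nonneg j
  rw [(TT_eq o h _).2]
  have key : ∀ e, ∀ z ∈ ball (0 : ℂ) ρ, 0 ≤ (j + 2) * ρ ∧
      ‖TC K (j + 2) (pc (cw w (chi e) z)) - ((∑ a, μ a ^ (j + 2) : ℝ) : ℂ)‖ ≤
        12 * ((j + 2) * ρ) * ∑ a, μ a ^ (j + 1) * √(yy w (chi e) f μ a) := fun e z hz => by
    have ρ0 := pos_of_mem_ball hz
    have hz' : z ∈ ball (0 : ℂ) (1 / 4) := ball_subset_ball (by nlinarith) hz
    obtain ⟨υ, h1, h2⟩ := pc_formula hw (sgn_chi e) hz'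
    have h3 : ∑ x, pc (cw w (chi e) z) x = 1 := by
      simp only [pc, ← sum_div]; exact div_self (sum_cw_ne hw (sgn_chi e) hz')
    rw [h _ _ h3, o.cvc_eq h2]
    refine ⟨by positivity, (o.core (sgn_chi e) (u := 4 * ρ)
      (h1.trans (by linarith [mem_ball_zero_iff.1 hz])) j (by linarith)).trans_eq (by ring)⟩
  refine ⟨fun e z hz => (key e z hz).2.trans ?_, fun z hz => ?_⟩
  · have : ∑ a, μ a ^ (j + 1) * √(yy w (chi e) f μ a) ≤ 9 / 4 * ∑ a, μ a ^ (j + 2) := by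
      rw [mul_sum]
      refine sum_le_sum fun a _ => ?_
      have p := o.nn a
      have b1 : √(yy w (chi e) f μ a) ≤ 9 / 4 * μ a := Real.sqrt_le_iff.2
        ⟨by positivity, by nlinarith [o.yy_le (sgn_chi e) a, sq_nonneg (μ a)]⟩
      exact (mul_le_mul_of_nonneg_left b1 (pow_nonneg p _)).trans_eq (by ring)
    nlinarith [mul_le_mul_of_nonneg_left this (key e z hz).1]
  · have t0 : 0 ≤ m2 w (big γ) := m2_nonneg hw big_nn
    set A := √(5 * γ ^ 2 * √n) with hA
    set B := √(80 * n ^ 5 * m2 w (big γ)) with hB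
    have a2 : A ^ 2 = 5 * γ ^ 2 * √n := Real.sq_sqrt (by positivity)
    have b2 : B ^ 2 = 80 * n ^ 5 * m2 w (big γ) := Real.sq_sqrt (by positivity)
    have h1 := mink univ (c := fun a => μ a ^ (j + 1)) (N := fun a => A * μ a + B)
      (x := fun a e => √(yy w (chi e) f μ a)) (fun a _ => pow_nonneg (o.nn a) _)
      (fun a _ => by have := o.nn a; positivity) fun a _ => by
        simp only [Real.sq_sqrt (o.yy_nn a)]
        refine (sum_yy o hn hf γ a).trans ?_
        have := o.nn a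
        rw [← a2, ← b2]; nlinarith [show 0 ≤ A * μ a * B by positivity]
    have h2 : ∑ a, μ a ^ (j + 1) * (A * μ a + B) ≤
        A * ∑ a, μ a ^ (j + 2) + B * (n + ∑ a, μ a ^ (j + 2)) := by
      have : ∑ a, μ a ^ (j + 1) ≤ ∑ a, (1 + μ a ^ (j + 2)) := sum_le_sum fun a _ => by
        rcases le_total (μ a) 1 with c | c
        · linarith [pow_le_one₀ (n := j + 1) (o.nn a) c, pow_nonneg (o.nn a) (j + 2)]
        · linarith [pow_le_pow_right₀ c (show j + 1 ≤ j + 2 by omega)]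
      simp only [sum_add_distrib, sum_const, card_univ, Fintype.card_fin, nsmul_eq_mul,
        mul_one] at this
      simp only [mul_add (μ _ ^ _), sum_add_distrib, ← sum_mul]
      refine add_le_add (le_of_eq ?_) (by rw [mul_comm]; gcongr)
      rw [mul_sum]; exact sum_congr rfl fun _ _ => by ring
    have h3 := h1.trans (pow_le_pow_left₀ (sum_nonneg fun a _ => by
      have := o.nn a; positivity) h2 2)
    calc _ ≤ ∑ e : Pair n, (3 / 16 * ∑ a, μ a ^ (j + 1) * √(yy w (chi e) f μ a)) ^ 2 := by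
          refine sum_le_sum fun e _ => pow_le_pow_left₀ (norm_nonneg _)
            ((key e _ (hz e)).2.trans (mul_le_mul_of_nonneg_right (by linarith)
              (sum_nonneg fun a _ => ?_))) 2
          have := o.nn a; positivity
      _ ≤ _ := by
          simp only [mul_pow, ← mul_sum]
          set T := ∑ a, μ a ^ (j + 2)
          have e1 : γ ^ 2 * √n * T ^ 2 + 8 * n ^ 5 * m2 w (big γ) * (n + T) ^ 2 =
              1 / 5 * (A * T) ^ 2 + 1 / 10 * (B * (n + T)) ^ 2 := by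
            rw [mul_pow, mul_pow, a2, b2]; ring
          rw [e1]
          nlinarith [sq_nonneg (A * T - B * (n + T)), sq_nonneg (A * T), sq_nonneg (B * (n + T))]

/-- the bounded functional under the change of one coupling -/
theorem tilt_Y (hn : 0 < n) (hL : 1 ≤ L) (hρ : (j + 2) * ρ ≤ 1 / 64) (γ : ℝ) :
    (∀ e, Ex ρ (fun t => YY K L (j + 2) (rw w (chi e) t))
      fun z => YC K L (j + 2) (pc (cw w (chi e) z))) ∧
    (∀ e, ∀ z ∈ ball (0 : ℂ) ρ, ‖YC K L (j + 2) (pc (cw w (chi e) z)) - YY K L (j + 2) w‖ ≤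
      54 * ((j + 2) * ρ) * YY K L (j + 2) w) ∧
    ∀ z : Pair n → ℂ, (∀ e, z e ∈ ball (0 : ℂ) ρ) →
      ∑ e, ‖YC K L (j + 2) (pc (cw w (chi e) (z e))) - YY K L (j + 2) w‖ ^ 2 ≤
        4 * γ ^ 2 * √n * YY K L (j + 2) w ^ 2 + 32 * n ^ 7 * m2 w (big γ) := by
  obtain ⟨h1, h2⟩ := tilt_T hw hK hn hρ γ
  have T0 := TT_nn hw hK (j + 2)
  have j0 : (0 : ℝ) ≤ j := Nat.cast_nonneg j
  have n1 : (1 : ℝ) ≤ n := by exact_mod_cast hn
  have key := fun e z hz => norm_ratio T0 (by linarith : 0 < L) ((h1 e z hz).trans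
    (mul_le_mul_of_nonneg_right (by linarith) T0))
  set T := TT K (j + 2) w with hT
  have k2 : ∀ e, ∀ z ∈ ball (0 : ℂ) ρ, ‖YC K L (j + 2) (pc (cw w (chi e) z)) - YY K L (j + 2) w‖ ≤
      2 / (L + T) * ‖TC K (j + 2) (pc (cw w (chi e) z)) - T‖ := fun e z hz => by
    refine (key e z hz).2.trans (mul_le_mul_of_nonneg_right ?_ (norm_nonneg _))
    rw [div_le_div_iff₀ (by positivity) (by positivity)]
    nlinarith [mul_nonneg T0 (by positivity : 0 ≤ L + T)]
  refine ⟨fun e => ?_, fun e z hz => (k2 e z hz).trans ?_, fun z hz => ?_⟩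
  · rcases le_or_gt ρ 0 with r0 | r0
    · exact ⟨by rw [ball_eq_empty.2 r0]; exact differentiableOn_empty,
        fun t ht => absurd (ht.trans_le r0) (abs_nonneg t).not_gt⟩
    have r1 : ρ ≤ 1 / 4 := by nlinarith
    have e1 : Ex ρ (fun t => TT K (j + 2) (rw w (chi e) t))
        fun z => TC K (j + 2) (pc (cw w (chi e) z)) :=
      ⟨(diff_TC K _).comp_differentiableOn (differentiableOn_pi.2 fun x =>
        ((ex_pc hw (sgn_chi e) x).mono r1).diff), fun t ht => by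
        rw [← TC_real (rw_pos hw t) hK]
        congr 1; funext x; exact ((ex_pc hw (sgn_chi e) x).mono r1).eq t ht⟩
    exact e1.div ((Ex.const _ L).add e1) fun z hz =>
      norm_pos_iff.1 (lt_of_lt_of_le (by positivity) (key e z hz).1)
  · calc _ ≤ 2 / (L + T) * (27 * ((j + 2) * ρ) * T) := by gcongr; exact h1 e z hz
      _ = _ := by rw [YY, ← hT]; ring
  · have t0 : 0 ≤ m2 w (big γ) := m2_nonneg hw big_nn
    calc _ ≤ ∑ e, (2 / (L + T) * ‖TC K (j + 2) (pc (cw w (chi e) (z e))) - T‖) ^ 2 :=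
          sum_le_sum fun e _ => by gcongr; exact k2 e _ (hz e)
      _ ≤ (2 / (L + T)) ^ 2 * (γ ^ 2 * √n * T ^ 2 + 8 * n ^ 5 * m2 w (big γ) * (n * (L + T)) ^ 2) := by
          simp only [mul_pow (2 / (L + T)), ← mul_sum]
          gcongr
          refine (h2 z hz).trans ?_
          gcongr; nlinarith
      _ = _ := by rw [YY, ← hT]; field_simp; ring

end

end Crest.Agent.T157.Et

end
end

-- ▼ part T157/EtD_81
section

/-!
# Row 157, part C: edge transfer, D (helper81)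

The mean of the functional along the localisation channel has a small relative oscillation.
-/

set_option autoImplicit false
set_option linter.unusedSectionVars false

noncomputable section

namespace Crest.Agent.T157.Et

open MeasureTheory Metric Finset Matrix
open Crest.ProbabilityR.SpinGlassDynamics Crest.Agent.T157.E Crest.Agent.T157.SL
open Crest.Agent.T157.Un
open Crest.Agent.T157.Crit (CovLe CovAt)

variable {n : ℕ} {w : Cube n → ℝ} {r K L γ ρ p : ℝ} {j k : ℕ}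

lemma sum_int_sq {Z ι : Type*} [MeasurableSpace Z] [Fintype ι] {μ : Measure Z} {d : ι → Z → ℝ}
    {b c : Z → ℝ} (hd : ∀ e, Integrable (d e) μ) (hb : Integrable b μ) (hc : Integrable c μ)
    (b0 : ∀ y, 0 ≤ b y) (c0 : ∀ y, 0 ≤ c y) (hB : 0 < ∫ y, b y ∂μ)
    (h : ∀ y, ∑ e, d e y ^ 2 ≤ b y * c y) :
    ∑ e, (∫ y, d e y ∂μ) ^ 2 ≤ (∫ y, b y ∂μ) * ∫ y, c y ∂μ := by
  set B := ∫ y, b y ∂μ
  set D := ∑ e, (∫ y, d e y ∂μ) ^ 2 with hD
  have D0 : 0 ≤ D := by positivity
  have i1 : ∀ e, Integrable (fun y => 2 * B * ((∫ y, d e y ∂μ) * d e y)) μ := fun e =>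
    ((hd e).const_mul _).const_mul _
  have h1 := integral_mono (integrable_finsetSum univ fun e _ => i1 e)
    ((hb.const_mul D).add (hc.const_mul (B ^ 2))) fun y => by
      have a1 := (sum_mul_sq_le_sq_mul_sq univ (fun e => ∫ y, d e y ∂μ) fun e => d e y).trans
        (mul_le_mul_of_nonneg_left (h y) D0)
      have := b0 y
      have := c0 y
      simp only [← mul_sum, Pi.add_apply]
      refine (abs_le_of_sq_le_sq' ?_ (by positivity)).2
      rw [mul_pow]
      nlinarith [mul_le_mul_of_nonneg_left a1 (sq_nonneg (2 * B)), sq_nonneg (D * b y - B ^ 2 * c y)]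
  rw [integral_finsetSum _ fun e _ => i1 e, integral_add' (hb.const_mul D) (hc.const_mul _)] at h1
  simp only [integral_const_mul, ← sq, ← mul_sum] at h1
  refine le_of_mul_le_mul_left ?_ hB
  nlinarith

lemma meas_TC {X : Type*} [MeasurableSpace X] {q : X → Cube n → ℂ}
    (h : ∀ x, Measurable fun a => q a x) : Measurable fun a => TC K k (q a) :=
  (diff_TC K k).continuous.measurable.comp (measurable_pi_lambda _ h)

lemma meas_YC {X : Type*} [MeasurableSpace X] {q : X → Cube n → ℂ}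
    (h : ∀ x, Measurable fun a => q a x) : Measurable fun a => YC K L k (q a) :=
  (meas_TC h).div ((meas_TC h).const_add _)

lemma meas_YY {X : Type*} [MeasurableSpace X] {v : X → Cube n → ℝ}
    (h : ∀ x, Measurable fun a => v a x) : Measurable fun a => YY K L k (v a) := by
  have : Measurable fun a => TT K k (v a) := Complex.measurable_re.comp (meas_TC fun x =>
    Complex.measurable_ofReal.comp ((h x).div (measurable_sum _ fun y _ => h y)))
  exact this.div (this.const_add _)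

lemma meas_pc {X : Type*} [MeasurableSpace X] {v : X → Cube n → ℝ}
    (h : ∀ x, Measurable fun a => v a x) (χ : Cube n → ℝ) (z : ℂ) (x : Cube n) :
    Measurable fun a => pc (cw (v a) χ z) x := by
  have : ∀ y, Measurable fun a => cw (v a) χ z y := fun y =>
    (Complex.measurable_ofReal.comp (h y)).mul_const _
  exact (this x).div (measurable_sum _ fun y _ => this y)

lemma meas_post (x : Cube n) : Measurable fun y => post sv w r y x := by
  simp only [post, dotProduct]; fun_prop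

lemma post_pos (hw : ∀ x, 0 < w x) (y : Fin n → ℝ) (x : Cube n) : 0 < post sv w r y x :=
  mul_pos (hw x) (Real.exp_pos _)

lemma int_law_eq (hw : ∀ x, 0 < w x) {H : (Fin n → ℝ) → ℝ} (hH : Measurable H) {M : ℝ}
    (hM : ∀ y, |H y| ≤ M) : ∫ y, H y ∂law sv w r =
      mean w fun x => ∫ ζ, H (r • sv x + √r • ζ) ∂gv (Fin n) :=
  integral_law (Wt.of_pos hw) hH fun _ => int_bdd (hH.comp (by fun_prop)) fun _ => hM _

lemma sum_tl_rel (hw : ∀ x, 0 < w x) (γ : ℝ) {f : Cube n → ℝ} (h0 : ∀ x, 0 ≤ f x) (h1 : ∀ x, f x ≤ 1) :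
    ∑ e, tl w (chi e) f ^ 2 ≤ 4 * γ ^ 2 * mean w f ^ 2 + 4 * n ^ 2 * m2 w (big γ) := by
  have t0 : 0 ≤ m2 w (big γ) := m2_nonneg hw big_nn
  have X0 := (Wt.of_pos hw).mean_nonneg h0
  have X1 := (Wt.of_pos hw).mean_le h1
  have b1 := sum_chi1 hw γ f (B := 1) fun x y => by
    rw [abs_of_nonneg (mul_nonneg (h0 x) (h0 y))]; exact mul_le_one₀ (h1 x) (h0 y) (h1 y)
  simp only [fun x y => abs_of_nonneg (mul_nonneg (h0 x) (h0 y)), m2_mul] at b1
  have b2 := mul_le_mul_of_nonneg_left (sum_t hw γ) (sq_nonneg (mean w f))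
  have b3 : ∑ e, tl w (chi e) f ^ 2 ≤ ∑ e : Pair n,
      (2 * (mean w fun x => chi e x * f x) ^ 2 + 2 * (mean w f ^ 2 * mean w (chi e) ^ 2)) :=
    sum_le_sum fun e _ => by
      rw [tl, ← abs_mul, ← mul_pow, mul_comm (mean w f), ← sq_abs (_ * mean w f), ← sq_abs (mean w _)]
      nlinarith [sq_nonneg (|mean w fun x => chi e x * f x| - |mean w (chi e) * mean w f|)]
  rw [sum_add_distrib, ← mul_sum, ← mul_sum, ← mul_sum] at b3
  have b4 : mean w f ^ 2 * (n ^ 2 * m2 w (big γ)) ≤ 1 * (n ^ 2 * m2 w (big γ)) := by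
    gcongr; nlinarith
  nlinarith

lemma add_sq_le' (a b : ℝ) : (3 * a + b) ^ 2 ≤ 18 * a ^ 2 + 2 * b ^ 2 := by
  nlinarith [sq_nonneg (3 * a - b)]

lemma fin_le {X N E t a b : ℝ} (X0 : 0 ≤ X) (hp : 0 < p) (n1 : 1 ≤ N) (E0 : 0 ≤ E) (t0 : 0 ≤ t)
    (ha : a ≤ (X + p) * (4 * γ ^ 2 * √N * X + 32 * N ^ 7 / p * E))
    (hb : b ≤ 4 * γ ^ 2 * X ^ 2 + 4 * N ^ 2 * t) :
    18 * a + 2 * b ≤ (80 * γ ^ 2 * √N + 576 * N ^ 7 * (E + t) / p ^ 2) * (X + p) ^ 2 := by
  have s1 : 1 ≤ √N := Real.one_le_sqrt.2 n1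
  have p1 : 1 ≤ (X + p) / p := by rw [one_le_div hp]; linarith
  have p2 : 1 ≤ ((X + p) / p) ^ 2 := one_le_pow₀ p1
  calc _ ≤ 18 * ((X + p) * (4 * γ ^ 2 * √N * X + 32 * N ^ 7 / p * E * 1)) +
        2 * (4 * γ ^ 2 * 1 * X ^ 2 + 4 * N ^ 2 * t * 1) := by simp only [mul_one]; linarith
    _ ≤ 18 * ((X + p) * (4 * γ ^ 2 * √N * (X + p) + 32 * N ^ 7 / p * E * ((X + p) / p))) +
        2 * (4 * γ ^ 2 * √N * (X + p) ^ 2 + 288 * N ^ 7 * t * ((X + p) / p) ^ 2) := by
        gcongr <;> linarith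
    _ = _ := by field_simp; ring

/-- the mean of the functional at time `r` -/
def XX (r K L : ℝ) (k : ℕ) (w : Cube n → ℝ) : ℝ :=
  mean w fun x => ∫ ζ, YY K L k (po sv r w x ζ) ∂gv (Fin n)

lemma meas_XX : Measurable fun g => XX r K L k (gw n g) := meas_mean fun x => by
  have h : ∀ y, Measurable fun q : (Pair n → ℝ) × (Fin n → ℝ) => po sv r (gw n q.1) x q.2 y :=
    fun y => by simp only [po, post, dotProduct, gw, gibbsWeight]; fun_prop
  exact ((meas_YY h).stronglyMeasurable.integral_prod_right' (ν := gv (Fin n))).measurable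

section
variable (hw : ∀ x, 0 < w x) (hK : 1 ≤ K) (hL : 1 ≤ L)
include hw hK hL

lemma XX_eq : XX r K L k w = ∫ y, YY K L k (post sv w r y) ∂law sv w r :=
  (int_law_eq hw (meas_YY meas_post) fun y => YY_le (post_pos hw y) hK hL).symm

lemma XX_le (hp : 0 ≤ p) (h : CovAt w r K p) : XX r K L k w ≤ n / L + p := by
  have := isProb_law (φ := sv) (s := r) (Wt.of_pos hw)
  rw [XX_eq hw hK hL]
  refine int_le_add (meas_YY meas_post) (fun y => YY_le (post_pos hw y) hK hL) (by positivity) hp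
    (A := {y | ¬ CovLe (tilt w y) K})
    (by rw [← ofReal_measureReal]; exact ENNReal.ofReal_le_ofReal h) fun y hy => ?_
  have h1 := TT_le (post_pos (r := r) hw y) hK k fun u => by
    rw [covM, covMat_post_sv]; exact not_not.1 hy u
  have h0 := TT_nn (post_pos (r := r) hw y) hK k
  rw [YY]; gcongr; linarith

lemma covAt_of {c : ℝ} (hc : 0 ≤ c) (e : L = c ^ k) (hp : 0 ≤ p) (h : XX r K L k w ≤ 1 / 2 * p) :
    CovAt w r (c * K) p := by
  have := isProb_law (φ := sv) (s := r) (Wt.of_pos hw)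
  rw [XX_eq hw hK hL] at h
  refine ENNReal.toReal_le_of_le_ofReal hp (meas_le_of_int (int_bdd (meas_YY meas_post)
    fun y => YY_le (post_pos hw y) hK hL) (fun y => YY_nn (post_pos hw y) hK hL) (by norm_num)
    (fun y hy => ?_) h)
  have h1 := le_TT (post_pos (r := r) hw y) hK k hc fun h' => hy fun u => by
    have := h' u; rwa [covM, covMat_post_sv] at this
  rw [YY, le_div_iff₀ (by linarith)]; linarith

theorem tilt_X (hn : 0 < n) (hp : 0 < p) (hρ : (j + 2) * ρ ≤ 1 / 64) (γ : ℝ) :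
    ∃ F : Pair n → ℂ → ℂ, (∀ e, Ex ρ (fun t => XX r K L (j + 2) (rw w (chi e) t) + p) (F e)) ∧
    (∀ e, ∀ z ∈ ball (0 : ℂ) ρ, ‖F e z - (XX r K L (j + 2) w + p : ℝ)‖ ≤
      166 * ((j + 2) * ρ) * (XX r K L (j + 2) w + p)) ∧
    ∀ z : Pair n → ℂ, (∀ e, z e ∈ ball (0 : ℂ) ρ) → ∑ e, ‖F e (z e) - (XX r K L (j + 2) w + p : ℝ)‖ ^ 2 ≤
      (80 * γ ^ 2 * √n + 576 * n ^ 7 * (mean w (E2 sv r w (big γ)) + m2 w (big γ)) / p ^ 2) *
        (XX r K L (j + 2) w + p) ^ 2 := by
  have := isProb_law (φ := sv) (s := r) (Wt.of_pos hw)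
  have hW := Wt.of_pos hw
  have j0 : (0 : ℝ) ≤ j := Nat.cast_nonneg j
  have n1 : (1 : ℝ) ≤ n := by exact_mod_cast hn
  have T := fun y => tilt_Y (post_pos (r := r) hw y) hK hn hL hρ γ
  let Y : (Fin n → ℝ) → ℝ := fun y => YY K L (j + 2) (post sv w r y)
  let C : Pair n → ℂ → (Fin n → ℝ) → ℂ := fun e z y =>
    YC K L (j + 2) (pc (cw (post sv w r y) (chi e) z))
  have mY : Measurable Y := meas_YY meas_post
  have mC : ∀ e z, Measurable (C e z) := fun e z => meas_YC (meas_pc meas_post _ z)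
  have Y0 : ∀ y, 0 ≤ Y y := fun y => YY_nn (post_pos hw y) hK hL
  have Y1 : ∀ y, |Y y| ≤ 1 := fun y => YY_le (post_pos hw y) hK hL
  have d1 : ∀ e, ∀ z ∈ ball (0 : ℂ) ρ, ∀ y, |‖C e z y - Y y‖| ≤ 1 := fun e z hz y => by
    rw [abs_norm]
    refine ((T y).2.1 e z hz).trans (mul_le_one₀ (by linarith) (Y0 y) (abs_le.1 (Y1 y)).2)
  have C2 : ∀ e, ∀ z ∈ ball (0 : ℂ) ρ, ∀ y, ‖C e z y‖ ≤ 2 := fun e z hz y => by
    have := norm_sub_norm_le (C e z y) (Y y)
    rw [Complex.norm_real, Real.norm_eq_abs] at this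
    linarith [(abs_le.1 (d1 e z hz y)).2, Y1 y]
  have md : ∀ e z, Measurable fun y => ‖C e z y - Y y‖ := fun e z =>
    ((mC e z).sub (Complex.measurable_ofReal.comp mY)).norm
  have ma : ∀ x : Cube n, Measurable fun ζ : Fin n → ℝ => r • sv x + √r • ζ := fun x => by fun_prop
  let y0 : Cube n → ℝ := fun x => ∫ ζ, Y (r • sv x + √r • ζ) ∂gv (Fin n)
  have eX : XX r K L (j + 2) w = mean w y0 := rfl
  have eX' : XX r K L (j + 2) w = ∫ y, Y y ∂law sv w r := XX_eq hw hK hL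
  have y00 : ∀ x, 0 ≤ y0 x := fun x => integral_nonneg fun _ => Y0 _
  have y01 : ∀ x, y0 x ≤ 1 := fun x => by
    simpa using integral_mono (int_bdd (μ := gv (Fin n)) (mY.comp (ma x)) fun _ => Y1 _)
      (integrable_const (1 : ℝ)) fun ζ => (abs_le.1 (Y1 _)).2
  set X := XX r K L (j + 2) w
  have X0 : 0 ≤ X := eX ▸ hW.mean_nonneg y00
  have key : ∀ e, ∀ z ∈ ball (0 : ℂ) ρ, ‖∑ x, pc (cw w (chi e) z) x *
      ∫ ζ, C e z (r • sv x + √r • ζ) ∂gv (Fin n) + p - (X + p : ℝ)‖ ≤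
      3 * ∫ y, ‖C e z y - Y y‖ ∂law sv w r + min (8 * ρ * X) (tl w (chi e) y0) := fun e z hz => by
    have ρ0 := pos_of_mem_ball hz
    have hz' : z ∈ ball (0 : ℂ) (1 / 4) := ball_subset_ball (by nlinarith) hz
    have e1 : ∑ x, pc (cw w (chi e) z) x * ∫ ζ, C e z (r • sv x + √r • ζ) ∂gv (Fin n) + p -
        (X + p : ℝ) = ∑ x, pc (cw w (chi e) z) x *
          (∫ ζ, C e z (r • sv x + √r • ζ) ∂gv (Fin n) - y0 x) +
        (∑ x, pc (cw w (chi e) z) x * y0 x - mean w y0) := by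
      simp only [mul_sub, sum_sub_distrib, eX]; push_cast; ring
    rw [e1]
    refine (norm_add_le _ _).trans (add_le_add ?_ (le_min ?_ (tilt_le hw (sgn_chi e) hz' y0)))
    · rw [int_law_eq hw (md e z) (d1 e z hz), mean, mul_sum]
      refine (norm_sum_le _ _).trans (sum_le_sum fun x _ => ?_)
      rw [norm_mul, ← mul_assoc]
      refine mul_le_mul (norm_pc hw (sgn_chi e) hz' x) ?_ (norm_nonneg _)
        (mul_nonneg zero_le_three (prob_nn hw x))
      have i1 : Integrable (fun ζ => C e z (r • sv x + √r • ζ)) (gv (Fin n)) := Integrable.of_bound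
        ((mC e z).comp (ma x)).aestronglyMeasurable 2 (.of_forall fun _ => C2 e z hz _)
      have i2 : Integrable (fun ζ => (Y (r • sv x + √r • ζ) : ℂ)) (gv (Fin n)) :=
        (int_bdd (mY.comp (ma x)) fun _ => Y1 _).ofReal
      rw [← integral_complex_ofReal, ← integral_sub i1 i2]
      exact norm_integral_le_integral_norm _
    · obtain ⟨υ, h1, h2⟩ := pc_formula hw (sgn_chi e) hz'
      have e2 : ∑ x, pc (cw w (chi e) z) x * y0 x - mean w y0 =
          υ * (mean w fun x => (chi e x - mean w (chi e)) * y0 x : ℝ) := by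
        simp only [h2, mean, Complex.ofReal_sum, mul_sum, ← sum_sub_distrib]
        exact sum_congr rfl fun x _ => by push_cast; ring
      have h3 : |mean w fun x => (chi e x - mean w (chi e)) * y0 x| ≤ 2 * X := by
        rw [eX, ← mean_const_mul, abs_le, ← mean_neg]
        exact ⟨hW.mean_mono fun x => by
            nlinarith [(abs_le.1 (sq_sub_mean hw (sgn_chi e) x)).1, y00 x],
          hW.mean_mono fun x => by nlinarith [(abs_le.1 (sq_sub_mean hw (sgn_chi e) x)).2, y00 x]⟩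
      rw [e2, norm_mul, Complex.norm_real, Real.norm_eq_abs]
      calc _ ≤ 4 * ρ * (2 * X) := by
            gcongr; exact h1.trans (by linarith [mem_ball_zero_iff.1 hz])
        _ = _ := by ring
  refine ⟨fun e z => ∑ x, pc (cw w (chi e) z) x * ∫ ζ, C e z (r • sv x + √r • ζ) ∂gv (Fin n) + p,
    fun e => ?_, fun e z hz => (key e z hz).trans ?_, fun z hz => ?_⟩
  · rcases le_or_gt ρ 0 with r0 | r0
    · exact ⟨by rw [ball_eq_empty.2 r0]; exact differentiableOn_empty,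
        fun t ht => absurd (ht.trans_le r0) (abs_nonneg t).not_gt⟩
    have r1 : ρ ≤ 1 / 4 := by nlinarith
    refine (Ex.sum _ fun x _ => ((ex_pc hw (sgn_chi e) x).mono r1).mul ?_).add (Ex.const ρ p)
    refine ⟨diffOn_integral _ (fun ζ => ((T _).1 e).diff) (fun z => (mC e z).comp (ma x))
      fun z hz ζ => C2 e z hz _, fun t ht => ?_⟩
    rw [← integral_complex_ofReal]
    congr 1; funext ζ
    rw [po_rw]; exact ((T _).1 e).eq t ht
  · have ρ0 := pos_of_mem_ball hz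
    have h1 : ∫ y, ‖C e z y - Y y‖ ∂law sv w r ≤ 54 * ((j + 2) * ρ) * X := by
      rw [eX', ← integral_const_mul]
      exact integral_mono (int_bdd (md e z) (d1 e z hz)) ((int_bdd mY Y1).const_mul _)
        fun y => (T y).2.1 e z hz
    have h2 := min_le_left (8 * ρ * X) (tl w (chi e) y0)
    nlinarith [mul_nonneg (mul_nonneg j0 ρ0.le) X0, mul_nonneg (mul_nonneg j0 ρ0.le) hp.le,
      mul_nonneg ρ0.le hp.le]
  · have mt : Measurable fun y => m2 (post sv w r y) (big γ) :=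
      measurable_sum _ fun a _ => measurable_sum _ fun b _ =>
        (((meas_post a).div (measurable_sum _ fun c _ => meas_post c)).mul
          ((meas_post b).div (measurable_sum _ fun c _ => meas_post c))).mul_const _
    have bt := fun y => abs_m2_le (post_pos (r := r) hw y) (big γ)
    have et : mean w (E2 sv r w (big γ)) = ∫ y, m2 (post sv w r y) (big γ) ∂law sv w r :=
      (int_law_eq hw mt bt).symm
    have iY := int_bdd (μ := law sv w r) mY Y1
    have it := int_bdd (μ := law sv w r) mt bt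
    have A1 := sum_int_sq (d := fun e y => ‖C e (z e) y - Y y‖) (b := fun y => Y y + p)
      (c := fun y => 4 * γ ^ 2 * √n * Y y + 32 * n ^ 7 / p * m2 (post sv w r y) (big γ))
      (fun e => int_bdd (md e _) (d1 e _ (hz e))) (iY.add (integrable_const p))
      ((iY.const_mul _).add (it.const_mul _)) (fun y => by have := Y0 y; positivity)
      (fun y => by
        have := Y0 y
        have := m2_nonneg (post_pos (r := r) hw y) (big_nn (γ := γ))
        positivity)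
      (by rw [integral_add iY (integrable_const p), ← eX']; simp; positivity) fun y => by
        have a := Y0 y
        have b := m2_nonneg (post_pos (r := r) hw y) (big_nn (γ := γ))
        refine ((T y).2.2 z hz).trans ?_
        have e3 : (Y y + p) * (4 * γ ^ 2 * √n * Y y + 32 * n ^ 7 / p * m2 (post sv w r y) (big γ)) =
            4 * γ ^ 2 * √n * Y y ^ 2 + 32 * n ^ 7 * m2 (post sv w r y) (big γ) +
              (p * (4 * γ ^ 2 * √n * Y y) + Y y * (32 * n ^ 7 / p * m2 (post sv w r y) (big γ))) := by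
          field_simp; ring
        rw [e3]; exact le_add_of_nonneg_right (by positivity)
    rw [integral_add iY (integrable_const p), integral_add (iY.const_mul _) (it.const_mul _),
      integral_const_mul, integral_const_mul, ← eX', ← et] at A1
    simp only [integral_const, probReal_univ, smul_eq_mul, one_mul] at A1
    refine le_trans (sum_le_sum fun e _ => (pow_le_pow_left₀ (norm_nonneg _) ((key e _ (hz e)).trans
      (add_le_add_right (min_le_right _ _) _)) 2).trans (add_sq_le' _ _)) ?_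
    rw [sum_add_distrib, ← mul_sum, ← mul_sum]
    exact fin_le X0 hp n1 (hW.mean_nonneg (E2_nonneg hw big_nn)) (m2_nonneg hw big_nn) A1
      (sum_tl_rel hw γ y00 y01)

end

theorem rl_X (hn : 0 < n) (hK : 1 ≤ K) (hL : 1 ≤ L) (hp : 0 < p)
    (hρ : (j + 2) * ρ ≤ 1 / 64) (γ : ℝ) {G : (Pair n → ℝ) → ℝ}
    (hG : ∀ g, 80 * γ ^ 2 * √n + 576 * n ^ 7 *
      (mean (gw n g) (E2 sv r (gw n g) (big γ)) + m2 (gw n g) (big γ)) / p ^ 2 ≤ n ^ 2 * G g) :
    Rl ρ √(n : ℝ) (166 * ((j + 2) * ρ)) (fun g => XX r K L (j + 2) (gw n g) + p) G := fun g => by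
  obtain ⟨F, h1, h2, h3⟩ := tilt_X (r := r) (gw_pos g) hK hL hn hp hρ γ
  refine ⟨add_nonneg ((gwt g).mean_nonneg fun x => integral_nonneg fun ζ =>
    YY_nn (po_pos (gw_pos g) x ζ) hK hL) hp.le, F, fun e => ?_, h2, fun z hz => (h3 z hz).trans ?_⟩
  · simpa only [gw, gibbs_sh hn] using h1 e
  · rw [sqrt_pow4]; gcongr; exact hG g

/-- large overlaps before and after the channel -/
lemma tail_le (hn : 0 < n) {u : ℝ} (hu : 0 ≤ u) (hr : 0 ≤ r) (hr' : r ≤ u / Soft.N23 n)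
    (g : Pair n → ℝ) : mean (gw n g) (E2 sv r (gw n g) (big (u * Soft.N23 n))) +
      m2 (gw n g) (big (u * Soft.N23 n)) ≤
      2 * Real.exp (-(u ^ 2 / 4)) * (1 + Real.exp (-(u ^ 2 / 2)) * XA (2 * u) n g) := by
  have N0 := Soft.N23_pos hn
  set l := Real.exp (-(u ^ 2 / 4)) with hl
  have l0 : 0 < l := Real.exp_pos _
  have l2 : Real.exp (-(u ^ 2 / 2)) = l ^ 2 := by rw [hl, ← Real.exp_nat_mul]; congr 1; ring
  have l4 : Real.exp (-u ^ 2) = l ^ 4 := by rw [hl, ← Real.exp_nat_mul]; congr 1; ring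
  have l1 : l ≤ 1 := Real.exp_le_one_iff.2 (by nlinarith)
  have key : ∀ s, 0 ≤ s → s ≤ u / Soft.N23 n → m2 (gw n g) (fun x y => big (u * Soft.N23 n) x y ^ 2 *
      Real.exp (s * (sv x ⬝ᵥ sv y))) ≤ l ^ 4 * XA (2 * u) n g := fun s h0 h1 => by
    rw [XA, ← m2_const_mul, ← l4]
    refine m2_mono (gw_pos g) fun x y => ?_
    unfold big
    split_ifs with h
    · have e1 : |Rh n x y| = |sv x ⬝ᵥ sv y| / Soft.N23 n := by
        rw [Rh, abs_mul, abs_of_pos (inv_pos.2 N0), div_eq_inv_mul]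
      have a1 : u ≤ |Rh n x y| := by rw [e1, le_div_iff₀ N0]; exact h.le
      have a2 : s * (sv x ⬝ᵥ sv y) ≤ u * |Rh n x y| := by
        rw [e1, ← mul_div_assoc, ← div_mul_eq_mul_div]
        exact (mul_le_mul_of_nonneg_left (le_abs_self _) h0).trans
          (mul_le_mul_of_nonneg_right h1 (abs_nonneg _))
      rw [one_pow, one_mul, ← Real.exp_add]
      exact Real.exp_le_exp.2 (by nlinarith)
    · simp only [ne_eq, OfNat.ofNat_ne_zero, not_false_eq_true, zero_pow, zero_mul]; positivity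
  have X0 : 0 ≤ XA (2 * u) n g := m2_nonneg (gw_pos g) fun _ _ => (Real.exp_pos _).le
  have h1 := key 0 le_rfl (by positivity)
  have e0 : ∀ x y : Cube n, big (u * Soft.N23 n) x y ^ 2 = big (u * Soft.N23 n) x y := fun x y => by
    unfold big; split_ifs <;> norm_num
  simp only [zero_mul, Real.exp_zero, mul_one, e0] at h1
  have h2 := mean_E2_le (φ := sv) (gw_pos g) hr fun x y => l⁻¹ * big (u * Soft.N23 n) x y
  have e2 : E2 sv r (gw n g) (fun x y => l⁻¹ * big (u * Soft.N23 n) x y) =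
      fun x => l⁻¹ * E2 sv r (gw n g) (big (u * Soft.N23 n)) x := funext (E2_const_mul _ _)
  simp only [e2, mean_const_mul, mul_pow, mul_assoc, m2_const_mul] at h2
  have h3 := h2.trans (add_le_add_right (mul_le_mul_of_nonneg_left (key r hr hr') (sq_nonneg _)) 1)
  rw [inv_mul_le_iff₀ l0, show l⁻¹ ^ 2 * (l ^ 4 * XA (2 * u) n g) = l ^ 2 * XA (2 * u) n g by
    field_simp] at h3
  rw [l2]
  have h4 : l ^ 4 * XA (2 * u) n g ≤ l * (l ^ 2 * XA (2 * u) n g) := by
    rw [show l ^ 4 * XA (2 * u) n g = l * (l * (l ^ 2 * XA (2 * u) n g)) by ring]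
    exact mul_le_mul_of_nonneg_left (mul_le_of_le_one_left (by positivity) l1) l0.le
  change m2 (gw n g) (big (u * Soft.N23 n)) ≤ _ at h1
  nlinarith

end Crest.Agent.T157.Et

end
end

-- ▼ part T157/EtNet_91
section

/-!
# Row 157, part C (helper91): `Et.NetGlue`
-/

set_option autoImplicit false

noncomputable section

namespace Crest.Agent.T157.Et

open MeasureTheory Filter Finset Matrix
open Crest.ProbabilityR.SpinGlassDynamics Crest.Agent.T157.E Crest.Agent.T157.SL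
open Crest.Agent.T157.Crit (CovLe CovAt)

namespace Net91

variable {n : ℕ} {w : Cube n → ℝ}

lemma mono (hw : Wt w) {r K K' p p' : ℝ} (h : CovAt w r K p) (hK : K ≤ K') (hp : p ≤ p') :
    CovAt w r K' p' := by
  have := isProb_law (φ := sv) (s := r) hw
  refine le_trans (measureReal_mono ?_) (le_trans h hp)
  exact fun y hy h => hy fun u => (h u).trans (mul_le_mul_of_nonneg_right hK
    (sum_nonneg fun _ _ => mul_self_nonneg _))

lemma of_one (hw : Wt w) {r K p : ℝ} (hp : 1 ≤ p) : CovAt w r K p := by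
  have := isProb_law (φ := sv) (s := r) hw
  exact measureReal_le_one.trans hp

lemma of_n (hw : Wt w) {r K p : ℝ} (hK : n ≤ K) (hp : 0 ≤ p) : CovAt w r K p := by
  have e : {y | ¬ CovLe (tilt w y) K} = ∅ := Set.eq_empty_of_forall_notMem fun y hy =>
    hy fun u => (covM_le (hw.tilt y) u).trans (mul_le_mul_of_nonneg_right hK
      (sum_nonneg fun _ _ => mul_self_nonneg _))
  rw [CovAt, e, measureReal_empty]; exact hp

/-- the cell of a triple -/
def cell (n : ℕ) (q : ℝ × ℝ × ℝ) : ℕ × ℕ × ℕ :=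
  (⌊q.1 * (n : ℝ) ^ 8⌋₊, ⌊q.2.1 * n⌋₊, ⌊-Real.log q.2.2⌋₊)

lemma close {a b : ℝ} (ha : 0 ≤ a) (hb : 0 ≤ b) (h : ⌊a⌋₊ = ⌊b⌋₊) : |a - b| ≤ 1 := by
  have h1 := Nat.floor_le ha
  have h2 := Nat.floor_le hb
  have h3 := Nat.lt_floor_add_one a
  have h4 := Nat.lt_floor_add_one b
  rw [h] at h1 h3
  rw [abs_le]; constructor <;> linarith

lemma un_bd (hn : 1 ≤ n) : 1 ≤ un n ∧ un n ≤ n ∧ un n ≤ Soft.N23 n := by
  have n1 : (1 : ℝ) ≤ n := by exact_mod_cast hn
  refine ⟨Real.one_le_rpow n1 (by norm_num), ?_,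
    Real.rpow_le_rpow_of_exponent_le n1 (by norm_num)⟩
  conv_rhs => rw [← Real.rpow_one n]
  exact Real.rpow_le_rpow_of_exponent_le n1 (by norm_num)

end Net91

open Net91 Classical in
/-- **a net chosen inside the family** -/
theorem netGlue : NetGlue := by
  intro hT hE D ε hε hD hP
  set ex : ∀ n : ℕ, ℕ × ℕ × ℕ → Prop := fun n c => ∃ q ∈ D n, q.2.2 ≤ 1 ∧ cell n q = c with hex
  set rep : ∀ n : ℕ, ℕ × ℕ × ℕ → ℝ × ℝ × ℝ := fun n c =>
    if h : ex n c then h.choose else 0 with hrep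
  have hr : ∀ n c, ex n c → rep n c ∈ D n ∧ (rep n c).2.2 ≤ 1 ∧ cell n (rep n c) = c :=
    fun n c h => by simp only [hrep, dif_pos h]; exact h.choose_spec
  set D' : ℕ → Finset (ℝ × ℝ × ℝ) := fun n =>
    ((range (n ^ 8 + 1) ×ˢ range (n ^ 2 + 1) ×ˢ range (n + 1)).filter (ex n)).image (rep n)
    with hD'
  have sub : ∀ n, ∀ q ∈ D' n, q ∈ D n := fun n q hq => by
    obtain ⟨c, hc, rfl⟩ := mem_image.1 hq
    exact (hr n c (mem_filter.1 hc).2).1
  have h := hE D' 14 ε hε ?_ ?_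
  · filter_upwards [h, hT, hD, eventually_ge_atTop 8] with n h1 h2 h3 h4
    refine le_trans (measure_mono ?_) h1
    refine fun g hg hall => hg fun q hq => ?_
    have hw : Wt (gibbsWeight n 1 g) := Wt.of_pos (gibbsWeight_pos 1 g)
    have n8 : (8 : ℝ) ≤ n := by exact_mod_cast h4
    obtain ⟨u1, u2, u3⟩ := un_bd (n := n) (by omega)
    obtain ⟨a1, a2, a3, a4⟩ := h3 q hq
    have p0 : 0 < q.2.2 := (Real.exp_pos _).trans_le a4
    have i0 : 0 < (un n)⁻¹ := by positivity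
    rcases le_total 1 q.2.2 with c1 | c1
    · exact of_one hw (by linarith)
    rcases le_total (n : ℝ) q.2.1 with c2 | c2
    · exact of_n hw (by nlinarith) (by linarith)
    have e : ex n (cell n q) := ⟨q, hq, c1, rfl⟩
    obtain ⟨b0, b1, b2⟩ := hr n _ e
    have m : rep n (cell n q) ∈ D' n := by
      refine mem_image_of_mem _ (mem_filter.2 ⟨?_, e⟩)
      simp only [cell, mem_product, mem_range, Nat.lt_succ_iff]
      have r1 : q.1 ≤ 1 := a2.trans (div_le_one_of_le₀ u3 (by linarith))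
      have r2 : -Real.log q.2.2 ≤ n := by
        have := Real.log_le_log (Real.exp_pos _) a4
        rw [Real.log_exp] at this
        linarith
      refine ⟨Nat.floor_le_of_le ?_, Nat.floor_le_of_le ?_, Nat.floor_le_of_le r2⟩ <;> push_cast
      · exact mul_le_of_le_one_left (by positivity) r1
      · nlinarith
    set q' := rep n (cell n q)
    obtain ⟨d1, -, d3, d4⟩ := h3 q' b0
    have p1 : 0 < q'.2.2 := (Real.exp_pos _).trans_le d4
    simp only [cell, Prod.mk.injEq] at b2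
    have f1 := close (by positivity) (by positivity) b2.1.symm
    have f2 := (abs_le.1 (close (by positivity) (by positivity) b2.2.1)).2
    have f3 := (abs_le.1 (close (neg_nonneg.2 (Real.log_nonpos p1.le b1))
      (neg_nonneg.2 (Real.log_nonpos p0.le c1)) b2.2.2)).1
    have g1 : |q.1 - q'.1| ≤ ((n : ℝ) ^ 8)⁻¹ := by
      rw [← sub_mul, abs_mul, abs_of_pos (a := (n : ℝ) ^ 8) (by positivity)] at f1
      rw [← one_div, le_div_iff₀ (by positivity)]; exact f1
    have j0 : 0 < (n : ℝ)⁻¹ := by positivity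
    have j1 : (n : ℝ)⁻¹ ≤ (un n)⁻¹ := inv_anti₀ (by linarith) u2
    have j2 : (n : ℝ)⁻¹ ≤ 1 / 8 := by rw [inv_le_comm₀ (by linarith) (by norm_num)]; linarith
    have j3 : (un n)⁻¹ ≤ 1 := inv_le_one_of_one_le₀ u1
    have g2 : q'.2.1 ≤ (1 + (n : ℝ)⁻¹) * q.2.1 := by
      have : q'.2.1 - q.2.1 ≤ (n : ℝ)⁻¹ := by
        rw [← one_div, le_div_iff₀ (by linarith)]; linarith
      nlinarith
    have g3 : q'.2.2 ≤ 3 * q.2.2 := by
      have k1 : Real.log q'.2.2 ≤ 1 + Real.log q.2.2 := by linarith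
      have k2 := Real.exp_le_exp.2 k1
      rw [Real.exp_log p1, Real.exp_add, Real.exp_log p0] at k2
      have k3 := Real.exp_one_lt_d9
      nlinarith
    have g4 : Real.exp (-(n : ℝ)) ≤ q.2.2 := (Real.exp_le_exp.2 (by linarith)).trans a4
    refine mono hw (h2 _ (gibbsWeight_pos 1 g) q.1 q'.1 _ _ a1 d1 g1 (hall q' m)) ?_ (by linarith)
    calc _ ≤ (1 + (n : ℝ)⁻¹) * ((1 + (un n)⁻¹) * ((1 + (n : ℝ)⁻¹) * q.2.1)) := by gcongr
      _ = (1 + (n : ℝ)⁻¹) ^ 2 * (1 + (un n)⁻¹) * q.2.1 := by ring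
      _ ≤ _ := by
        gcongr
        nlinarith [mul_le_mul j2 j1 j0.le (by norm_num), mul_le_mul j2 j3 i0.le (by norm_num),
          mul_le_mul j2 (le_refl (un n)⁻¹) i0.le (by norm_num),
          mul_le_mul (mul_le_mul j2 j2 j0.le (by norm_num)) (le_refl (un n)⁻¹) i0.le (by norm_num)]
  · filter_upwards [hD, eventually_ge_atTop 2] with n h1 h2
    refine ⟨?_, fun q hq => h1 q (sub n q hq)⟩
    have c1 : (D' n).card ≤ (n ^ 8 + 1) * ((n ^ 2 + 1) * (n + 1)) :=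
      card_image_le.trans ((card_filter_le _ _).trans (by simp))
    have k : ∀ j, 1 ≤ j → n ^ j + 1 ≤ n ^ (j + 1) := fun j hj => by
      have := Nat.one_le_pow j n (by omega)
      rw [pow_succ]; nlinarith
    have c2 : (n ^ 8 + 1) * ((n ^ 2 + 1) * (n + 1)) ≤ n ^ 9 * (n ^ 3 * n ^ 2) :=
      Nat.mul_le_mul (k 8 (by norm_num)) (Nat.mul_le_mul (k 2 (by norm_num))
        (by simpa using k 1 le_rfl))
    have c3 : (D' n).card ≤ n ^ 14 := (c1.trans c2).trans_eq (by ring)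
    exact_mod_cast c3
  · filter_upwards [hP] with n h1
    refine le_trans (measure_mono ?_) h1
    exact fun g hg hall => hg fun q hq => hall q (sub n q hq)

end Crest.Agent.T157.Et

end
end

-- ▼ part T157/EtE_81
section

/-!
# Row 157, part C: edge transfer, E (helper81)

`edgeT`, `edgeC`.
-/

set_option autoImplicit false

noncomputable section

namespace Crest.Agent.T157.Et

open MeasureTheory Metric Finset Filter Topology
open Crest.ProbabilityR.SpinGlassDynamics Crest.Agent.T157.E Crest.Agent.T157.SL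
open Crest.Agent.T157.Un
open Crest.Agent.T157.Crit (CovLe CovAt)

lemma tendsto_un : Tendsto un atTop atTop :=
  (tendsto_rpow_atTop (by norm_num)).comp tendsto_natCast_atTop_atTop

lemma un_pow (n k : ℕ) : un n ^ k = (n : ℝ) ^ (k / 192 : ℝ) := by
  rw [un, ← Real.rpow_natCast, ← Real.rpow_mul (Nat.cast_nonneg n)]; congr 1; ring

lemma un192 (n : ℕ) : (n : ℝ) = un n ^ 192 := by rw [un_pow]; norm_num
lemma un128 (n : ℕ) : Soft.N23 n = un n ^ 128 := by rw [un_pow, Soft.N23]; norm_num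
lemma un96 (n : ℕ) : √(n : ℝ) = un n ^ 96 := by rw [un_pow, Real.sqrt_eq_rpow]; norm_num

lemma pe (a : ℕ) {c δ : ℝ} (hc : 0 < c) (hδ : 0 < δ) :
    ∀ᶠ n : ℕ in atTop, un n ^ a ≤ δ * Real.exp (c * un n) := by
  refine tendsto_un.eventually (p := fun x => x ^ a ≤ δ * Real.exp (c * x))
    (((isLittleO_pow_exp_pos_mul_atTop a hc).bound hδ).mono fun x hx => ?_)
  rw [Real.norm_eq_abs, Real.norm_of_nonneg (Real.exp_pos _).le] at hx
  exact (le_abs_self _).trans hx

/-- the penalty -/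
def UU : Fam := fun n g => Real.exp (-(un n ^ 2 / 2)) * XA (2 * un n) n g

lemma UU_eq (n : ℕ) : UU n = fun g => m2 (gw n g) fun x y =>
    Real.exp (-(un n ^ 2 / 2)) * Real.exp (2 * un n * |Rh n x y|) := by
  funext g; rw [UU, XA, m2_const_mul]

lemma pm_UU : ∀ᶠ n : ℕ in atTop, Pm (1 / 4) √(n : ℝ) 9 (UU n) := by
  simp only [UU_eq]
  exact pm_m2 (k := fun n x y => Real.exp (-(un n ^ 2 / 2)) * Real.exp (2 * un n * |Rh n x y|))
    (fun _ _ _ => by positivity) fun n x y => by rw [Rh_comm]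

lemma nl_UU : Nl UU := by
  refine ⟨⟨fun n => by rw [UU_eq]; exact meas_m2 _, fun n g => mul_nonneg (Real.exp_pos _).le
    (m2_nonneg (gw_pos g) fun _ _ => (Real.exp_pos _).le), _, _, by norm_num, by norm_num, pm_UU⟩,
    fun δ ε hδ hε => ?_⟩
  obtain ⟨B, hB⟩ := ldB false ε hε
  have b0 : 0 < |B| + 1 := by positivity
  filter_upwards [hB, tendsto_un.eventually_ge_atTop (128 * (|B| + 1) ^ 2 + 4),
    pe 0 one_pos (show 0 < δ / (2 * (|B| + 1)) by positivity)] with n h1 h2 h3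
  refine le_trans (measure_mono fun g hg => ?_) h1
  set u := un n
  have u4 : 4 ≤ u := by nlinarith [sq_nonneg (|B| + 1)]
  refine ⟨2 * u, by linarith, not_le.1 fun h => absurd (show δ < UU n g from hg) (not_lt.2 ?_)⟩
  have a1 : √(2 * u) ≤ u / (8 * (|B| + 1)) := Real.sqrt_le_iff.2 ⟨by positivity, by
    rw [div_pow, le_div_iff₀ (by positivity)]; nlinarith⟩
  have a2 : B * (2 * u) ^ (3 / 2 : ℝ) ≤ u ^ 2 / 4 := by
    rw [rpow32 (by linarith)]
    calc _ ≤ (|B| + 1) * (2 * u * (u / (8 * (|B| + 1)))) := by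
          gcongr; linarith [le_abs_self B]
      _ = _ := by field_simp; ring
  have a3 : Real.exp (-(u ^ 2 / 2)) * Real.exp (u ^ 2 / 4) * Real.exp (1 * u) ≤ 1 := by
    rw [← Real.exp_add, ← Real.exp_add]; exact Real.exp_le_one_iff.2 (by nlinarith)
  rw [pow_zero, div_mul_eq_mul_div, one_le_div (by positivity)] at h3
  calc UU n g ≤ Real.exp (-(u ^ 2 / 2)) * (2 * ((|B| + 1) * Real.exp (u ^ 2 / 4))) := by
        unfold UU
        gcongr
        refine (XA_le _ n g).trans (mul_le_mul_of_nonneg_left (h.trans ?_) zero_le_two)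
        gcongr; linarith [le_abs_self B]
    _ = 2 * (|B| + 1) * (Real.exp (-(u ^ 2 / 2)) * Real.exp (u ^ 2 / 4)) := by ring
    _ ≤ δ * Real.exp (1 * u) * (Real.exp (-(u ^ 2 / 2)) * Real.exp (u ^ 2 / 4)) := by gcongr
    _ ≤ δ := by nlinarith

lemma exp_half_le {x : ℝ} (h0 : 0 ≤ x) (h1 : x ≤ 1) : Real.exp (x / 2) ≤ 1 + x := by
  have := Real.add_one_le_exp (-(x / 2))
  rw [Real.exp_neg, le_inv_comm₀ (by linarith) (Real.exp_pos _)] at this
  refine this.trans ?_
  rw [inv_le_iff_one_le_mul₀ (by linarith)]; nlinarith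

lemma err_le {u ρ η : ℝ} (hu : 1 ≤ u) (h1 : 1 / (13944 * u ^ 3) ≤ ρ) (h2 : η ≤ 54 / u ^ 14) :
    err ρ (u ^ 96) 2 η ≤
      (64 * (1 + 10 * m8 ^ 2) * 13944 ^ 4 * 54 + 1024 * 2 * m8 * 13944 ^ 8) / u := by
  have h8 := one_le_m8
  calc _ ≤ 64 * (1 + 10 * m8 ^ 2) / (1 / (13944 * u ^ 3)) ^ 4 * (54 / u ^ 14) +
        1024 * 2 * m8 / ((u ^ 96) ^ 4 * (1 / (13944 * u ^ 3)) ^ 8) := by
        unfold err
        rcases le_total η 0 with h | h
        · have : 0 < ρ := lt_of_lt_of_le (by positivity) h1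
          refine add_le_add ((mul_nonpos_of_nonneg_of_nonpos (by positivity) h).trans
            (by positivity)) (by gcongr)
        · gcongr
    _ = 64 * (1 + 10 * m8 ^ 2) * 13944 ^ 4 * 54 / u ^ 2 + 1024 * 2 * m8 * 13944 ^ 8 / u ^ 360 := by
        field_simp
    _ ≤ 64 * (1 + 10 * m8 ^ 2) * 13944 ^ 4 * 54 / u ^ 1 + 1024 * 2 * m8 * 13944 ^ 8 / u ^ 1 := by
        gcongr <;> norm_num
    _ = _ := by rw [pow_one, add_div]

set_option maxHeartbeats 1000000 in
/-- **edge transfer** -/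
theorem edgeT : EdgeT := fun D A ε hε hD hG => by
  have h8 := one_le_m8
  obtain ⟨C0, hC0⟩ : ∃ C0, C0 = 64 * (1 + 10 * m8 ^ 2) / (1 / 80) ^ 4 := ⟨_, rfl⟩
  have C0p : 0 < C0 := by rw [hC0]; positivity
  have hη' : 0 < ε / (60 * C0) := by positivity
  filter_upwards [hD, hG, pm_UU, eventually_gt_atTop 0, tendsto_un.eventually_ge_atTop 12,
    nl_UU.po.null_hyb nl_UU.nu (show 0 < (ε / (60 * C0)) ^ 2 / 25 by positivity),
    nl_UU.coin true (1 / 4) (ε / 4) (by norm_num) (by positivity), pe 192 one_pos one_pos,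
    pe 990 one_pos (show (0 : ℝ) < 1 / 1152 by norm_num),
    pe (192 * A) (show (0 : ℝ) < 2 / 5 by norm_num) (show 0 < ε / 30 by positivity),
    (tendsto_err (1024 * 1 * m8) (1 / 80)).eventually_le_const (show 0 < ε / 60 by positivity),
    (tendsto_un.const_div_atTop (64 * (1 + 10 * m8 ^ 2) * 13944 ^ 4 * 54 +
      1024 * 2 * m8 * 13944 ^ 8)).eventually_le_const (show 0 < ε / 30 by positivity)]
    with n ⟨hc, hA⟩ g1 pU hn u12 hI cU e1 e2 e3 e4 e5
  have n192 := un192 n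
  have n128 := un128 n
  have n96 := un96 n
  set u := un n with hu
  obtain ⟨j, j1, j2⟩ : ∃ j : ℕ, 4 * u ^ 2 ≤ j ∧ (j : ℝ) + 2 ≤ 7 * u ^ 2 := ⟨_, Nat.le_ceil _, by
    nlinarith [Nat.ceil_lt_add_one (show 0 ≤ 4 * u ^ 2 by positivity)]⟩
  obtain ⟨m, m1, m2'⟩ : ∃ m : ℕ, u ≤ m ∧ (m : ℝ) + 1 ≤ 3 * u := ⟨_, Nat.le_ceil _, by
    linarith [Nat.ceil_lt_add_one (show 0 ≤ u by linarith)]⟩
  have u0 : 0 < u := by linarith
  have j0 : (0 : ℝ) ≤ j := Nat.cast_nonneg _
  have m0 : (0 : ℝ) ≤ m := Nat.cast_nonneg _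
  obtain ⟨ρ, hρ⟩ : ∃ ρ : ℝ, ρ = 1 / (664 * (j + 2) * (m + 1)) := ⟨_, rfl⟩
  have ρ0 : 0 < ρ := by rw [hρ]; positivity
  have ρ1 : (j + 2) * ρ = 1 / (664 * (m + 1)) := by rw [hρ]; field_simp
  have ρ2 : (j + 2) * ρ ≤ 1 / 64 := by rw [ρ1]; gcongr; linarith
  have ρ3 : ρ ≤ 1 / 80 := by rw [hρ]; gcongr; nlinarith
  obtain ⟨L, hL⟩ : ∃ L, L = (1 + u⁻¹) ^ (j + 2) := ⟨_, rfl⟩
  have ui : 0 < u⁻¹ := inv_pos.2 u0
  have L1 : 1 ≤ L := hL ▸ one_le_pow₀ (by linarith)
  have L2 : n / L ≤ Real.exp (-u) := by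
    have a1 := pow_le_pow_left₀ (Real.exp_pos _).le
      (exp_half_le ui.le (inv_le_one_of_one_le₀ (by linarith))) (j + 2)
    rw [← Real.exp_nat_mul, ← hL] at a1
    have a2 : Real.exp (1 * u) ≤ Real.exp (-u) * Real.exp (((j + 2 : ℕ) : ℝ) * (u⁻¹ / 2)) := by
      rw [← Real.exp_add]
      refine Real.exp_le_exp.2 ?_
      have : 4 * u ^ 2 * (u⁻¹ / 2) ≤ ((j + 2 : ℕ) : ℝ) * (u⁻¹ / 2) := by
        gcongr; push_cast; linarith
      rw [show 4 * u ^ 2 * (u⁻¹ / 2) = 2 * u by field_simp; ring] at this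
      linarith
    rw [div_le_iff₀ (by linarith), n192]
    exact (e1.trans_eq (one_mul _)).trans (a2.trans (by gcongr))
  have p0 : ∀ q ∈ D n, 0 < q.2.2 := fun q hq => (Real.exp_pos _).trans_le (hA q hq).2.2.2
  have U0 := nl_UU.po.nn n
  let X : ℝ × ℝ × ℝ → (Pair n → ℝ) → ℝ := fun q g => XX q.1 q.2.1 L (j + 2) (gw n g) + q.2.2
  have R1 : ∀ q ∈ D n, Rl ρ √(n : ℝ) (166 * ((j + 2) * ρ)) (X q)
      fun g => 81 / u ^ 30 * (1 + UU n g) := fun q hq => by
    obtain ⟨a1, a2, a3, a4⟩ := hA q hq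
    refine rl_X hn a3 L1 (p0 q hq) ρ2 (u * Soft.N23 n) fun g => ?_
    have b1 := tail_le hn u0.le a1 a2 g
    have b2 : 1152 * u ^ 990 * Real.exp (-(u ^ 2 / 4)) ≤ q.2.2 ^ 2 := by
      refine le_trans ?_ (pow_le_pow_left₀ (Real.exp_pos _).le a4 2)
      calc _ ≤ 1152 * (1 / 1152 * Real.exp (1 * u)) * Real.exp (-(u ^ 2 / 4)) := by gcongr
        _ = Real.exp (1 * u + -(u ^ 2 / 4)) := by rw [Real.exp_add]; ring
        _ ≤ _ := by rw [← Real.exp_nat_mul]; exact Real.exp_le_exp.2 (by push_cast; nlinarith)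
    have b0 := U0 g
    have b3 := p0 q hq
    calc _ ≤ 80 * (u * Soft.N23 n) ^ 2 * √n * (1 + UU n g) +
          576 * n ^ 7 * (2 * Real.exp (-(u ^ 2 / 4)) * (1 + UU n g)) /
            (1152 * u ^ 990 * Real.exp (-(u ^ 2 / 4))) := by
          refine add_le_add (le_mul_of_one_le_right (by positivity) (by linarith)) ?_
          gcongr
          exact b1
      _ = _ := by rw [n128, n96, n192]; field_simp; ring
  have R2 := Rl.sum (D n) (c := fun q => ((5 * q.2.2) ^ (m + 1))⁻¹)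
    (fun q hq => by have := p0 q hq; positivity) (fun g => by have := U0 g; positivity)
    fun q hq => (R1 q hq).pow (by positivity) m (le_of_eq (by rw [ρ1]; field_simp; ring))
  set S : (Pair n → ℝ) → ℝ := fun g => ∑ q ∈ D n, ((5 * q.2.2) ^ (m + 1))⁻¹ * X q g ^ (m + 1)
  have mS : Measurable S := measurable_sum _ fun q _ =>
    ((meas_XX.add_const _).pow_const _).const_mul _
  have S0 : ∀ g, 0 ≤ S g := fun g => (R2 g).1
  have eG : (fun g => 4 * ((m : ℝ) + 1) ^ 2 * (81 / u ^ 30 * (1 + UU n g))) =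
      fun g => (18 * (m + 1) / u ^ 15) ^ 2 * (1 + UU n g) := by funext g; field_simp; ring
  rw [eG] at R2
  have R3 := R2.univ ρ0 ρ3 (Real.sqrt_pos.2 (by exact_mod_cast hn)) (by positivity) hη'
    (card_pair n) mS (nl_UU.po.meas n) U0 pU hI
  rw [hyb_const, hyb_const] at R3
  have E1 : err ρ √(n : ℝ) 2 (18 * (m + 1) / u ^ 15) ≤ ε / 30 := by
    rw [n96]
    refine (err_le (by linarith) ?_ ?_).trans e5
    · rw [hρ]
      refine one_div_le_one_div_of_le (by positivity) ?_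
      calc _ ≤ 664 * (7 * u ^ 2) * (3 * u) := by gcongr
        _ = _ := by ring
    · calc _ ≤ 18 * (3 * u) / u ^ 15 := by gcongr
        _ = _ := by field_simp; ring
  have E2 : err (1 / 80) √(n : ℝ) 1 (ε / (60 * C0)) ≤ ε / 30 := by
    rw [err, ← hC0, show C0 * (ε / (60 * C0)) = ε / 60 by field_simp]; linarith
  have mQ : Measurable fun g => S g / (1 + S g) * (1 / (1 + UU n g)) :=
    (mS.div (mS.const_add 1)).mul (measurable_const.div ((nl_UU.po.meas n).const_add 1))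
  have Q0 : ∀ g, 0 ≤ S g / (1 + S g) * (1 / (1 + UU n g)) := fun g => by
    have := S0 g; have := U0 g; positivity
  have Q1 : ∀ g, S g / (1 + S g) * (1 / (1 + UU n g)) ≤ S g / (1 + S g) := fun g => by
    have := S0 g; have := U0 g
    exact mul_le_of_le_one_right (by positivity) ((div_le_one (by positivity)).2 (by linarith))
  have Q2 : ∀ g, |S g / (1 + S g) * (1 / (1 + UU n g))| ≤ 1 := fun g => by
    have := S0 g
    rw [abs_of_nonneg (Q0 g)]; exact (Q1 g).trans ((div_le_one (by positivity)).2 (by linarith))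
  have G1 := int_le_add mQ Q2 (show 0 ≤ ε / 30 by positivity) hε.le g1 fun g hg => by
    refine (Q1 g).trans ((div_le_self (S0 g) (by linarith [S0 g])).trans ?_)
    have a1 : S g ≤ (D n).card • (3 / 5 : ℝ) ^ (m + 1) := sum_le_card_nsmul _ _ _ fun q hq => by
      obtain ⟨-, -, a3, a4⟩ := hA q hq
      have b3 := p0 q hq
      have b1 := XX_le (k := j + 2) (gw_pos g) a3 L1 b3.le (by simpa using not_not.1 hg q hq)
      rw [← div_eq_inv_mul, ← div_pow]
      refine pow_le_pow_left₀ (div_nonneg (R1 q hq g).1 (by positivity)) ?_ _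
      rw [div_le_iff₀ (by positivity)]
      simp only [X]; linarith
    have a2 : (3 / 5 : ℝ) ^ (m + 1) ≤ Real.exp (-(2 / 5 * u)) := by
      refine (pow_le_pow_left₀ (by norm_num) (show (3 / 5 : ℝ) ≤ Real.exp (-(2 / 5)) by
        linarith [Real.add_one_le_exp (-(2 / 5))]) _).trans ?_
      rw [← Real.exp_nat_mul]; exact Real.exp_le_exp.2 (by push_cast; linarith)
    rw [nsmul_eq_mul] at a1
    rw [pow_mul, ← n192] at e3
    calc _ ≤ ε / 30 * Real.exp (2 / 5 * u) * Real.exp (-(2 / 5 * u)) :=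
          a1.trans (mul_le_mul (hc.trans e3) a2 (by positivity) (by positivity))
      _ = _ := by rw [mul_assoc, ← Real.exp_add]; simp
  have G2 : couplingLaw true n ({g | ¬ ∀ q ∈ (D n : Set (ℝ × ℝ × ℝ)),
      CovAt (gibbsWeight n 1 g) q.1 ((1 + u⁻¹) * q.2.1) (8 * q.2.2)} \ {g | 1 / 4 < UU n g}) ≤
      ENNReal.ofReal (11 / 4 * ε) := by
    refine meas_le_of_int (int_bdd mQ Q2) Q0 (show (0 : ℝ) < 2 / 5 by norm_num) (fun g hg => ?_)
      (by linarith [(abs_le.1 R3).2])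
    obtain ⟨h1, h2⟩ := hg
    simp only [Set.mem_ofPred_eq, not_forall, not_lt] at h1 h2
    obtain ⟨q, hq, h1⟩ := h1
    have b3 := p0 q hq
    have b1 := not_le.1 (mt (covAt_of (gw_pos g) (hA q hq).2.2.1 L1 (by linarith) hL
      (by positivity)) h1)
    have b2 : 1 ≤ S g := by
      refine le_trans ?_ (single_le_sum (f := fun q => ((5 * q.2.2) ^ (m + 1))⁻¹ * X q g ^ (m + 1))
        (fun q hq => mul_nonneg (by have := p0 q hq; positivity) (pow_nonneg (R1 q hq g).1 _)) hq)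
      rw [← div_eq_inv_mul, ← div_pow]
      refine one_le_pow₀ ((one_le_div (by positivity)).2 ?_)
      simp only [X]; linarith
    have := U0 g
    calc (2 / 5 : ℝ) = 1 / 2 * (1 / (1 + 1 / 4)) := by norm_num
      _ ≤ _ := mul_le_mul (by rw [le_div_iff₀ (by positivity)]; linarith)
          (one_div_le_one_div_of_le (by positivity) (by linarith)) (by norm_num) (by positivity)
  refine ((measure_mono (Set.subset_sdiff_union _ _)).trans (measure_union_le _ _)).trans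
    ((add_le_add G2 cU).trans_eq ?_)
  rw [← ENNReal.ofReal_add (by positivity) (by positivity)]; congr 1; ring

/-- **edge transfer**, any family -/
theorem edgeC : EdgeC := netGlue timeStmt edgeT

end Crest.Agent.T157.Et

end
end

-- ▼ part T157/EtG_81
section

/-!
# Row 157, part C: edge transfer, window form (helper81)
-/

set_option autoImplicit false

noncomputable section

namespace Crest.Agent.T157.Et

open MeasureTheory Filter Set Real
open Crest.ProbabilityR.SpinGlassDynamics Crest.Agent.T157.E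
open Crest.Agent.T157.Crit (CovAt)

/-- the window form: hypothesis and conclusion are `Tr.Off _ _ (O7.QW ..)` by definition -/
theorem edge_qw (a b : ℕ → ℝ) (k H : ℕ → ℝ → ℝ) {ε : ℝ} (hε : 0 < ε)
    (h : ∀ᶠ n : ℕ in atTop, ∀ r ∈ Icc (a n) (b n), 0 < r ∧ r ≤ un n / Soft.N23 n ∧ r ≤ k n r)
    (hG : ∀ᶠ n : ℕ in atTop, couplingLaw false n {g | ¬ ∀ r ∈ Icc (a n) (b n),
      CovAt (gibbsWeight n 1 g) r (k n r / r) (exp (-H n r))} ≤ ENNReal.ofReal ε) :
    ∀ᶠ n : ℕ in atTop, couplingLaw true n {g | ¬ ∀ r ∈ Icc (a n) (b n),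
      CovAt (gibbsWeight n 1 g) r ((1 + 4 * (un n)⁻¹) * k n r / r)
        (exp (-(min (H n r) (un n) - 4)))} ≤ ENNReal.ofReal (3 * ε) := by
  have := edgeC (fun n => (fun r => (r, k n r / r, exp (-min (H n r) (un n)))) '' Icc (a n) (b n))
    ε hε (h.mono fun n hn => by
      rintro _ ⟨r, hr, rfl⟩
      obtain ⟨h0, h1, h2⟩ := hn r hr
      exact ⟨h0.le, h1, (one_le_div h0).2 h2, exp_le_exp.2 (neg_le_neg (min_le_right _ _))⟩)
    (hG.mono fun n hn => by
      refine le_trans (measure_mono ?_) hn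
      intro g hg hq
      refine hg ?_
      rintro _ ⟨r, hr, rfl⟩
      simp only [one_mul]
      exact le_trans (hq r hr) (exp_le_exp.2 (neg_le_neg (min_le_left _ _))))
  refine this.mono fun n hn => le_trans (measure_mono ?_) hn
  intro g hg hq
  refine hg fun r hr => ?_
  have h1 := hq _ ⟨r, hr, rfl⟩
  rw [mul_div_assoc]
  refine le_trans h1 ?_
  rw [neg_sub, sub_eq_add_neg, exp_add]
  refine mul_le_mul_of_nonneg_right ?_ (exp_pos _).le
  have h2 := pow_le_pow_left₀ (by norm_num) (exp_one_gt_d9.le) 4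
  rw [← exp_nat_mul] at h2
  norm_num at h2 ⊢
  linarith

end Crest.Agent.T157.Et

end
end

-- ▼ part T157/CtEdge_81
section

/-!
# Row 157, coin windows (helper81): the edge windows for coins
-/

set_option autoImplicit false

noncomputable section

namespace Crest.Agent.T157.Cw

open MeasureTheory Set Real Filter Topology
open Crest.ProbabilityR.SpinGlassDynamics
open Crest.Agent.T157.E
open Crest.Agent.T157.Crit (CovAt)
open Crest.Agent.T157.Tr (Off)
open Crest.Agent.T157.O7 (Mt lo QW)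
open Crest.Agent.T157.Soft (N23)
open Crest.Agent.T157.Et (un)

namespace Edge81

lemma ev_lt {x y : ℝ} (h : x < y) (A : ℝ) :
    ∀ᶠ n : ℕ in atTop, A * (n : ℝ) ^ x ≤ (n : ℝ) ^ y := by
  filter_upwards [((tendsto_rpow_atTop (sub_pos.2 h)).comp
    tendsto_natCast_atTop_atTop).eventually_ge_atTop A, eventually_gt_atTop 0] with n h1 hn
  have n0 : (0 : ℝ) < n := by exact_mod_cast hn
  calc _ ≤ (n : ℝ) ^ (y - x) * (n : ℝ) ^ x := mul_le_mul_of_nonneg_right h1 (by positivity)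
    _ = _ := by rw [← rpow_add n0, sub_add_cancel]

/-- the numerics of the edge window -/
structure Wn (s τ A : ℝ) (n : ℕ) (r : ℝ) : Prop where
  r0 : 0 < r
  rt : r ≤ τ
  ru : r ≤ un n / N23 n
  xs : s ≤ N23 n * r
  xM : N23 n * r ≤ Mt n r
  Mu : A * Mt n r + A ≤ un n
  us : un n ≤ √n

lemma wn {s τ A : ℝ} (hs : 1 ≤ s) (hτ : 0 < τ) (hA : 0 ≤ A) :
    ∀ᶠ n : ℕ in atTop, ∀ r ∈ Icc (s / N23 n) (lo (1 / 400) n), Wn s τ A n r := by
  filter_upwards [ev_lt (show (1 / 400 : ℝ) < 2 / 3 by norm_num) τ⁻¹,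
    ev_lt (show (3 / 800 : ℝ) < 1 / 192 by norm_num) (2 * A), eventually_gt_atTop 0]
    with n h1 h2 hn r hr
  have n1 : (1 : ℝ) ≤ n := by exact_mod_cast hn
  have n0 : (0 : ℝ) < n := by linarith
  have N0 := Soft.N23_pos hn
  have a1 : s ≤ N23 n * r := by have := hr.1; rwa [div_le_iff₀' N0] at this
  have a2 : N23 n * r ≤ (n : ℝ) ^ (1 / 400 : ℝ) := by
    have := hr.2; rwa [lo, le_div_iff₀' N0] at this
  have r0 : 0 < r := (mul_pos_iff_of_pos_left N0).1 (by linarith)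
  have a3 : Mt n r = (N23 n * r) ^ (3 / 2 : ℝ) := by
    rw [Mt, mul_rpow N0.le r0.le, N23, ← rpow_mul n0.le]; norm_num
  have a4 : Mt n r ≤ (n : ℝ) ^ (3 / 800 : ℝ) := by
    rw [a3]
    refine (rpow_le_rpow (by linarith) a2 (by norm_num)).trans (le_of_eq ?_)
    rw [← rpow_mul n0.le]; norm_num
  have a5 : 1 ≤ (n : ℝ) ^ (3 / 800 : ℝ) := one_le_rpow n1 (by norm_num)
  refine ⟨r0, ?_, ?_, a1, ?_, ?_, ?_⟩
  · rw [inv_mul_le_iff₀ hτ] at h1
    have : N23 n * r ≤ N23 n * τ := by rw [mul_comm _ τ]; exact a2.trans h1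
    exact le_of_mul_le_mul_left this N0
  · rw [le_div_iff₀' N0]
    exact a2.trans (rpow_le_rpow_of_exponent_le n1 (by norm_num))
  · rw [a3]; exact self_le_rpow_of_one_le (by linarith) (by norm_num)
  · refine le_trans ?_ h2
    nlinarith [mul_le_mul_of_nonneg_left a4 hA, mul_le_mul_of_nonneg_left a5 hA]
  · rw [sqrt_eq_rpow]; exact rpow_le_rpow_of_exponent_le n1 (by norm_num)

lemma qw_le {n : ℕ} (g : Pair n → ℝ) {r k k' H H' : ℝ} (r0 : 0 < r) (hk : k ≤ k') (hH : H' ≤ H)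
    (h : CovAt (gibbsWeight n 1 g) r (k / r) (exp (-H))) :
    CovAt (gibbsWeight n 1 g) r (k' / r) (exp (-H')) :=
  le_trans (Q1.covAt_mono (SL.Wt.of_pos (gibbsWeight_pos 1 g)) h
    (div_le_div_of_nonneg_right hk r0.le)) (exp_le_exp.2 (neg_le_neg hH))

/-- the general form -/
lemma gen81 {ε s s0 t0 A : ℝ} (hε : 0 < ε) (hs : 1 ≤ s) (hs0 : s0 ≤ s) (ht : 0 < t0) (hA : 0 ≤ A)
    {k k1 k' H H' : ℕ → ℝ → ℝ}
    (hG : Off disorderLaw (ε / 3) fun n g =>
      QW (gibbsWeight n 1 g) (s0 / N23 n) t0 (k n) (H n))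
    (h : ∀ n r, Wn s (min t0 1) A n r → k n r ≤ k1 n r ∧ 1 ≤ k1 n r ∧
      (1 + 4 * (un n)⁻¹) * k1 n r ≤ k' n r ∧ H' n r + 4 ≤ H n r ∧ H' n r + 4 ≤ un n) :
    Off (couplingLaw true) ε fun n g =>
      QW (gibbsWeight n 1 g) (s / N23 n) (lo (1 / 400) n) (k' n) (H' n) := by
  have hw := wn hs (lt_min ht one_pos) hA
  have h1 : Off (couplingLaw false) (ε / 3) fun n g =>
      QW (gibbsWeight n 1 g) (s / N23 n) (lo (1 / 400) n) (k1 n) (H n) := by
    refine Off.mono (μ := disorderLaw) hG ?_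
    filter_upwards [hw, eventually_gt_atTop 0] with n p hn g q r hr
    have p1 := p r hr
    exact qw_le g p1.r0 (h n r p1).1 le_rfl (q r ⟨le_trans (div_le_div_of_nonneg_right hs0
      (Soft.N23_pos hn).le) hr.1, p1.rt.trans (min_le_left _ _)⟩)
  have h2 : Off (couplingLaw true) (3 * (ε / 3)) fun n g =>
      QW (gibbsWeight n 1 g) (s / N23 n) (lo (1 / 400) n)
        (fun r => (1 + 4 * (un n)⁻¹) * k1 n r) fun r => min (H n r) (un n) - 4 :=
    Et.edge_qw (fun n => s / N23 n) (lo (1 / 400)) k1 H (by positivity)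
      (hw.mono fun n p r hr => ⟨(p r hr).r0, (p r hr).ru,
        ((p r hr).rt.trans (min_le_right _ _)).trans (h n r (p r hr)).2.1⟩) h1
  refine (h2.le (by linarith)).mono (hw.mono fun n p g q r hr => ?_)
  obtain ⟨-, -, b1, b2, b3⟩ := h n r (p r hr)
  exact qw_le g (p r hr).r0 b1 (by have := le_min b2 b3; linarith) (q r hr)

lemma Wn.u1 {s τ A : ℝ} {n : ℕ} {r : ℝ} (h : Wn s τ A n r) (hs : 1 ≤ s) (hA : 0 ≤ A) :
    A ≤ un n ∧ s ≤ Mt n r := by
  have := h.xs.trans h.xM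
  exact ⟨by nlinarith [h.Mu], this⟩

end Edge81

open Edge81

theorem edge0 (hG : O7.G0 disorderLaw) : ∀ ε > (0 : ℝ), ∀ L : ℝ, ∃ K s0 : ℝ,
    Off (couplingLaw true) ε fun n g => QW (gibbsWeight n 1 g) (s0 / N23 n) (lo (1 / 400) n)
      (fun _ => K) fun r => min (L * Mt n r) √n := by
  intro ε hε L
  obtain ⟨K, s0, t0, ht, hG⟩ := hG (ε / 3) (by positivity) (L + 1)
  refine ⟨5 * max K 1, max s0 4, gen81 (A := |L| + 4) (k1 := fun _ _ => max K 1) hε
    (le_max_of_le_right (by norm_num)) (le_max_left _ _) ht (by positivity) hG fun n r p => ?_⟩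
  obtain ⟨a1, a2⟩ := p.u1 (le_max_of_le_right (by norm_num)) (by positivity)
  have a3 : 4 ≤ Mt n r := (le_max_right _ _).trans a2
  have a4 : L * Mt n r + 4 ≤ un n := by
    nlinarith [p.Mu, le_abs_self L, abs_nonneg L]
  have a5 := min_le_left (L * Mt n r) √n
  have a6 : (un n)⁻¹ ≤ 1 := inv_le_one_of_one_le₀ (by linarith [abs_nonneg L])
  refine ⟨le_max_left _ _, le_max_right _ _, ?_, le_min (by linarith) (by linarith [p.us]),
    by linarith⟩
  exact mul_le_mul_of_nonneg_right (by linarith) (le_max_of_le_right zero_le_one)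

theorem edge1 (hG : O7.G1 disorderLaw) : ∀ ε > (0 : ℝ), ∀ e > (0 : ℝ), ∃ c0 > (0 : ℝ), ∃ s0 : ℝ,
    Off (couplingLaw true) ε fun n g => QW (gibbsWeight n 1 g) (s0 / N23 n) (lo (1 / 400) n)
      (fun _ => 1 + e) fun r => min (c0 * Mt n r) √n := by
  intro ε hε e he
  obtain ⟨c, hc, s0, t0, ht, hG⟩ := hG (ε / 3) (by positivity) (e / 2) (by positivity)
  have c0 : 0 < 8 / c := by positivity
  have hs : 1 ≤ max s0 (8 / c + 1) := le_max_of_le_right (by linarith)
  refine ⟨c / 2, by positivity, max s0 (8 / c + 1), gen81 (A := c + 4 + 8 / e + 4)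
    (k1 := fun _ _ => 1 + e / 2) hε hs (le_max_left _ _) ht (by positivity) hG fun n r p => ?_⟩
  obtain ⟨a1, a2⟩ := p.u1 hs (by positivity)
  have a3 : 8 / c + 1 ≤ Mt n r := (le_max_right _ _).trans a2
  have e0 : 0 < 8 / e := by positivity
  have a4 : c / 2 * Mt n r + 4 ≤ un n := by nlinarith [p.Mu]
  have a5 := min_le_left (c / 2 * Mt n r) √n
  have a6 : 8 ≤ c * Mt n r := by
    have := (div_le_iff₀' hc).1 (show 8 / c ≤ Mt n r by linarith); linarith
  have a7 : (un n)⁻¹ * (8 + 4 * e) ≤ e := by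
    rw [inv_mul_le_iff₀ (by linarith)]
    have : e * (8 / e + 4) ≤ e * un n := mul_le_mul_of_nonneg_left (by linarith) he.le
    rw [mul_add, mul_div_cancel₀ _ he.ne'] at this
    linarith
  exact ⟨le_rfl, by linarith, by linarith, le_min (by linarith) (by linarith [p.us]), by linarith⟩

theorem edge2 (hG : O7.G2 disorderLaw) : ∀ ε > (0 : ℝ), ∃ c > (0 : ℝ), ∃ C s0 : ℝ,
    Off (couplingLaw true) ε fun n g => QW (gibbsWeight n 1 g) (s0 / N23 n) (lo (1 / 400) n)
      (fun r => 1 + C * (r ^ c + (N23 n * r) ^ (-c))) fun r => (N23 n * r) ^ c := by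
  intro ε hε
  obtain ⟨c, hc, C, s0, t0, ht, hG⟩ := hG (ε / 3) (by positivity)
  have h3 : (1 : ℝ) ≤ 3 ^ (2 / c) := one_le_rpow (by norm_num) (by positivity)
  have hs : 1 ≤ max s0 (3 ^ (2 / c)) := le_max_of_le_right h3
  refine ⟨min (c / 2) 1, by positivity, 5 * |C| + 4, max s0 (3 ^ (2 / c)), gen81 (A := 4)
    (k1 := fun n r => 1 + |C| * (r ^ c + (N23 n * r) ^ (-c))) hε hs (le_max_left _ _) ht
    (by positivity) hG fun n r p => ?_⟩
  obtain ⟨a1, a2⟩ := p.u1 hs (by positivity)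
  have r0 := p.r0
  have r1 : r ≤ 1 := p.rt.trans (min_le_right _ _)
  have xM := p.xM
  have Mu := p.Mu
  have x1 := hs.trans p.xs
  have x3 := (le_max_right _ _).trans p.xs
  generalize N23 n * r = x at *
  have x0 : 0 < x := by linarith
  have m1 := min_le_left (c / 2) 1
  have m2 := min_le_right (c / 2) 1
  have z0 : 0 ≤ r ^ c + x ^ (-c) := by positivity
  have b1 : x ^ min (c / 2) 1 ≤ x :=
    (rpow_le_rpow_of_exponent_le x1 m2).trans (rpow_one x).le
  have b2 : x ^ min (c / 2) 1 ≤ x ^ (c / 2) := rpow_le_rpow_of_exponent_le x1 m1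
  have b3 : 3 ≤ x ^ (c / 2) := by
    refine le_trans (le_of_eq ?_) (rpow_le_rpow (by positivity) x3 (by positivity))
    rw [← rpow_mul (by norm_num), show 2 / c * (c / 2) = 1 by field_simp, rpow_one]
  have b4 : x ^ c = x ^ (c / 2) * x ^ (c / 2) := by rw [← rpow_add x0, add_halves]
  have b5 : r ^ c ≤ r ^ min (c / 2) 1 := rpow_le_rpow_of_exponent_ge r0 r1 (by linarith)
  have b6 : x ^ (-c) ≤ x ^ (-min (c / 2) 1) := rpow_le_rpow_of_exponent_le x1 (by linarith)
  have b7 : (un n)⁻¹ ≤ x ^ (-min (c / 2) 1) := by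
    rw [rpow_neg x0.le]; exact inv_anti₀ (by positivity) (by linarith)
  have b8 : (un n)⁻¹ ≤ 1 := inv_le_one_of_one_le₀ (by linarith)
  have b9 : 0 ≤ r ^ min (c / 2) 1 := by positivity
  have b0 := mul_nonneg (abs_nonneg C) z0
  refine ⟨by linarith [mul_le_mul_of_nonneg_right (le_abs_self C) z0], by linarith, ?_,
    by nlinarith, by linarith⟩
  have d1 := mul_le_mul_of_nonneg_right b8 b0
  have d2 := mul_le_mul_of_nonneg_left (add_le_add b5 b6) (abs_nonneg C)
  linarith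

end Crest.Agent.T157.Cw

end
end

-- ▼ part T157/FinH_88

/-!
# Row 157: the coin inputs from the joint planted theorem (helper88, text of helper63)
-/

set_option autoImplicit false

namespace Crest.Agent.T157.TopZ

open Crest.Agent.T157.Cw

theorem kIn (h : O0.Thm) : KIn :=
  have J := jIn h
  have G := O7.gGlue O7.quStmt J.j0 J.j1 J.j2 J.ed
  have v0 := u0 Cp.penStmt (O0.jw0 h)
  have v1 := u1 Cp.penStmt (O0.jw1 h)
  ⟨g0C v0 (edge0 G.1), g1C v1 (edge1 G.2.1), g2C (u2 Cp.penStmt (O0.jw2 h)) (edge2 G.2.2),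
    fun T _ _ => g3C T, fun T _ _ => winC v0 v1 T⟩

theorem r32_fin (h : O0.Thm) : Top.R32 := r32_thm h (kIn h)

theorem r33_fin (h : O0.Thm) : Top.R33 := r33_thm h (kIn h)

end Crest.Agent.T157.TopZ
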