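import Crest.Agent.T157.HdK_20

/-!
# Row 157, part B, S6 (LC): the cut, the crossing error, the two-point form of (K) (helper20)
-/

set_option autoImplicit false

noncomputable section

namespace Crest.Agent.T157.Hd

open Real

/-- the cut difference `(|a - b| - η (a + b))₊` -/
def cut (η a b : ℝ) : ℝ := max (|a - b| - η * (a + b)) 0

/-- the sign of `a - b` -/
def sgn (a b : ℝ) : ℝ := if b ≤ a then 1 else -1

/-- the linear piece of the cut with sign `τ` -/
def lin (η τ a b : ℝ) : ℝ := τ * (a - b) - η * (a + b)

/-- the crossing error at `(a', b')` seen from `(a, b)` -/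
def cer (η a b a' b' : ℝ) : ℝ := cut η a' b' - lin η (sgn a b) a' b'


lemma cut_nonneg (η a b : ℝ) : 0 ≤ cut η a b := le_max_right _ _
















/-- the weight of the owed term -/
def zt (ε p : ℝ) : ℝ := min (1 + ε) ((1 + ε⁻¹) * p)



/-! ### the two-point form -/




end Crest.Agent.T157.Hd

end
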