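import Crest.Agent.T157.UeA_83
import Crest.Agent.T157.HdC_20
import Crest.Agent.T157.RecB_77

-- ▼ part T157/UeB_83
section

/-!
# Row 157, part B: the two-point inequality (U) with slack, on loud edges (helper83)

`p` = field of `π`, `h` = untilted field (`μ^loc`), `k` = field of `ν`.
-/

set_option autoImplicit false

noncomputable section

namespace Crest.Agent.T157.Ue

open Real Crest.Agent.T157.Hd

/-- the excess square: `t²` if `|t| > c`, else `0` -/
def xs (c t : ℝ) : ℝ := if c < |t| then t ^ 2 else 0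

lemma xs_nonneg (c t : ℝ) : 0 ≤ xs c t := by unfold xs; split_ifs <;> positivity

lemma xs_le (c t : ℝ) : xs c t ≤ t ^ 2 := by unfold xs; split_ifs; exacts [le_rfl, sq_nonneg _]

lemma xs_neg (c t : ℝ) : xs c (-t) = xs c t := by simp [xs]

lemma xs_of_lt {c t : ℝ} (h : c < |t|) : xs c t = t ^ 2 := if_pos h

lemma xs_of_le {c t : ℝ} (h : |t| ≤ c) : xs c t = 0 := if_neg (not_lt.2 h)

/-- the excess square is paid by the distance to any `c/2`-small number -/
lemma xs_le_sq {c t o : ℝ} (ho : |o| ≤ c / 2) : xs c t ≤ 4 * (t - o) ^ 2 := by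
  rcases lt_or_ge c |t| with h | h
  · rw [xs_of_lt h, ← sq_abs t, ← sq_abs (t - o)]
    have h1 := abs_sub_abs_le_abs_sub t o
    have h2 : |t| ≤ 2 * |t - o| := by linarith
    nlinarith [abs_nonneg t]
  · rw [xs_of_le h]; positivity

lemma exp_six : exp 6 ≤ 405 := by
  have h := exp_one_lt_d9
  have e : exp 6 = exp 1 ^ 6 := by rw [← exp_nat_mul]; norm_num
  rw [e]
  calc exp 1 ^ 6 ≤ (2.7182818286 : ℝ) ^ 6 := pow_le_pow_left₀ (exp_pos 1).le h.le 6
    _ ≤ 405 := by norm_num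

lemma exp_four : exp 4 ≤ 55 := by
  have h := exp_one_lt_d9
  have e : exp 4 = exp 1 ^ 4 := by rw [← exp_nat_mul]; norm_num
  rw [e]
  calc exp 1 ^ 4 ≤ (2.7182818286 : ℝ) ^ 4 := pow_le_pow_left₀ (exp_pos 1).le h.le 4
    _ ≤ 55 := by norm_num

/-- the real-number core with slack -/
lemma U_slack {a a' κ A B K U V X X' : ℝ} (ha : 0 ≤ a) (hκ : 0 ≤ κ) (haa : a + κ ≤ a')
    (ha1 : a' + κ ≤ 1) (hU : 0 ≤ U) (pA : U / 2 ≤ A) (pB : U / 2 ≤ B) (hK : 0 ≤ K) (hX : 0 ≤ X)
    (hX' : 0 ≤ X') (hKA : K ≤ A + X) (hV : V ≤ U + X') :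
    a * K + (1 - a') / 2 * V + κ / 2 * (A + B) - X - X' / 2 ≤
      th a' * K + (1 - th a') / 2 * (A + B) := by
  have hA : 0 ≤ A := by linarith
  have q3 : (1 - a') / 2 * V ≤ (1 - a') / 2 * U + X' / 2 := by
    have h1 := mul_le_mul_of_nonneg_left hV (by linarith : 0 ≤ (1 - a') / 2)
    have h2 : (1 - a') / 2 * X' ≤ 1 / 2 * X' := mul_le_mul_of_nonneg_right (by linarith) hX'
    linarith
  have q4 : ∀ c : ℝ, 0 ≤ c → c ≤ 1 → c * K ≤ c * A + X := fun c h0 hc => by
    have h2 := mul_le_mul_of_nonneg_left hKA h0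
    have h3 := mul_le_of_le_one_left hX hc
    linarith
  have k1 := mul_le_mul_of_nonneg_left pA hκ
  rcases le_total (1 / 2) a' with h2 | h2
  · rw [show th a' = 2 * a' - 1 from max_eq_left (by linarith)]
    have hB := mul_le_mul_of_nonneg_left pB (by linarith : 0 ≤ 1 - a' - κ / 2)
    rcases le_total (a - (2 * a' - 1)) 0 with h3 | h3
    · have h5 : (a - (2 * a' - 1)) * K ≤ 0 := mul_nonpos_of_nonpos_of_nonneg h3 hK
      have h6 : 0 ≤ (1 - a' - κ) * A := mul_nonneg (by linarith) hA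
      linarith
    · have h4 := q4 (a - (2 * a' - 1)) h3 (by linarith)
      have h5 : (a - (2 * a' - 1)) * A ≤ (1 - a' - κ) * A :=
        mul_le_mul_of_nonneg_right (by linarith) hA
      linarith
  · rw [th_eq_zero h2]
    have h4 := q4 a ha (by linarith)
    have h5 : a * A ≤ (a' - κ) * A := mul_le_mul_of_nonneg_right (by linarith) hA
    have h6 := mul_le_mul_of_nonneg_left pA (by linarith : 0 ≤ 1 / 2 - a')
    have h7 := mul_le_mul_of_nonneg_left pB (by linarith : 0 ≤ 1 / 2 - κ / 2)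
    linarith

lemma sq_tanh_sub_le (h p : ℝ) : (tanh h - tanh p) ^ 2 ≤ (h - p) ^ 2 := by
  rw [← sq_abs, ← sq_abs (h - p)]
  exact pow_le_pow_left₀ (abs_nonneg _) (abs_tanh_sub_le h p) 2

/-- **(U), additive form with slack**: any edge, any shift -/
theorem U_add {a a' κ : ℝ} (ha : 0 ≤ a) (hκ : 0 < κ) (haa : a + κ ≤ a') (ha1 : a' + κ ≤ 1)
    (p h k : ℝ) :
    a * klr p k + (1 - a') / 2 * (1 - κ) * (tanh k - tanh p) ^ 2 + κ / 4 * ee h k -
        2 / κ * (h - p) ^ 2 ≤ th a' * klr p k + (1 - th a') / 2 * ee h k := by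
  have p1 := pinsker h k
  have p2 := pinsker' h k
  have s1 := klr_shift p h k
  have hi1 : 1 ≤ 1 / κ := by rw [le_div_iff₀ hκ]; linarith
  have q1 := sq_shift (u := tanh k - tanh h) hκ (sq_tanh_sub_le h p)
  rw [show tanh k - tanh h + (tanh h - tanh p) = tanh k - tanh p by ring] at q1
  have q2 := amgm_abs (u := tanh k - tanh h) (τ := h - p) (half_pos hκ)
  have e0 : 1 / (κ / 2) * (h - p) ^ 2 / 2 = 1 / κ * (h - p) ^ 2 := by field_simp
  have hτ2 := le_mul_of_one_le_left (sq_nonneg (h - p)) hi1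
  have h4 := mul_le_mul_of_nonneg_left (sq_le_ee h k) hκ.le
  have := U_slack (X := |h - p| * |tanh k - tanh h| + (h - p) ^ 2 / 2) (X' := 1 / κ * (h - p) ^ 2)
    (V := (1 - κ) * (tanh k - tanh p) ^ 2) ha hκ.le haa ha1 (sq_nonneg _) p1 p2 (klr_nonneg p k)
    (by positivity) (by positivity) (by linarith) (by linarith)
  have e3 : 2 / κ * (h - p) ^ 2 = 2 * (1 / κ * (h - p) ^ 2) := by field_simp
  rw [klr_add] at this
  rw [e3, mul_assoc ((1 - a') / 2)]
  linarith

/-- on a loud edge a small shift of the reference moves the mean by little -/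
lemma shift_loud {p h k η ρ : ℝ} (h0 : 0 < η) (h1 : η ≤ 1) (hη : η ≤ |k - h|) (hρ0 : 0 ≤ ρ)
    (hρ1 : ρ ≤ 1) (hτ : |h - p| ≤ ρ * η) :
    |tanh h - tanh p| * (ρ * η) ≤ exp 4 * ρ ^ 2 * ee h k ∧
      (tanh h - tanh p) ^ 2 ≤ exp 6 * ρ ^ 2 * ee h k := by
  have b3 := loud h0.le hη
  have t1 : |h - p| ≤ 1 := hτ.trans (by nlinarith)
  have hs := sq2_pos h
  have b1 := abs_tanh_sub_le2 p h
  rw [abs_sub_comm p h, abs_sub_comm (tanh p)] at b1
  have t3 : exp (2 * |h - p|) ≤ exp 2 := exp_le_exp.2 (by linarith)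
  have b2 : |tanh h - tanh p| ≤ exp 2 * sq2 h * (ρ * η) := b1.trans (by gcongr)
  have t4 : ∀ c : ℝ, exp c ≤ exp (c + 2) * exp (-(2 * η)) := fun c => by
    rw [← exp_add]; exact exp_le_exp.2 (by linarith)
  have key : ∀ c : ℝ, exp c * sq2 h * (ρ * η) ^ 2 ≤ exp (c + 2) * ρ ^ 2 * ee h k := fun c =>
    calc exp c * sq2 h * (ρ * η) ^ 2 ≤ exp (c + 2) * exp (-(2 * η)) * sq2 h * (ρ * η) ^ 2 := by
          gcongr; exact t4 c
      _ = exp (c + 2) * ρ ^ 2 * (exp (-(2 * η)) * η ^ 2 * sq2 h) := by ring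
      _ ≤ _ := mul_le_mul_of_nonneg_left b3 (by positivity)
  constructor
  · have := key 2
    rw [show (2 : ℝ) + 2 = 4 by norm_num] at this
    calc |tanh h - tanh p| * (ρ * η) ≤ exp 2 * sq2 h * (ρ * η) * (ρ * η) := by gcongr
      _ = exp 2 * sq2 h * (ρ * η) ^ 2 := by ring
      _ ≤ _ := this
  · have := key 4
    rw [show (4 : ℝ) + 2 = 6 by norm_num] at this
    have e4 : exp 4 = exp 2 * exp 2 := by rw [← exp_add]; norm_num
    calc (tanh h - tanh p) ^ 2 = |tanh h - tanh p| ^ 2 := (sq_abs _).symm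
      _ ≤ (exp 2 * sq2 h * (ρ * η)) ^ 2 := pow_le_pow_left₀ (abs_nonneg _) b2 2
      _ = exp 4 * sq2 h * (ρ * η) ^ 2 * sq2 h := by rw [e4]; ring
      _ ≤ exp 4 * sq2 h * (ρ * η) ^ 2 * 1 := by gcongr; exact sq2_le_one h
      _ ≤ _ := by rw [mul_one]; exact this

/-- **(U) on a loud edge**: only the excess of the shift is charged -/
theorem U_mix {a a' κ η : ℝ} (ha : 0 ≤ a) (hκ : 0 < κ) (haa : a + κ ≤ a') (ha1 : a' + κ ≤ 1)
    (h0 : 0 < η) (h1 : η ≤ 1) (p : ℝ) {h k : ℝ} (hη : η ≤ |k - h|) :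
    a * klr p k + (1 - a') / 2 * (1 - κ) * (tanh k - tanh p) ^ 2 + κ / 4 * ee h k -
        2 / κ * xs (κ / 64 * η) (h - p) ≤ th a' * klr p k + (1 - th a') / 2 * ee h k := by
  rcases lt_or_ge (κ / 64 * η) |h - p| with hτ | hτ
  · rw [xs_of_lt hτ]; exact U_add ha hκ haa ha1 p h k
  rw [xs_of_le hτ, mul_zero, sub_zero]
  have hκ1 : κ ≤ 1 := by linarith
  have hE := ee_nonneg h k
  have s1 := klr_shift_loud h0 h1 hη (by positivity) (by linarith) hτ
  have s2 := (shift_loud h0 h1 hη (by positivity) (by linarith) hτ).2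
  have q1 := sq_shift (u := tanh k - tanh h) (τ := tanh h - tanh p) hκ le_rfl
  rw [show tanh k - tanh h + (tanh h - tanh p) = tanh k - tanh p by ring] at q1
  have c1 : (κ / 64 + exp 4 * (κ / 64) ^ 2) * ee h k ≤ κ / 8 * ee h k := by
    refine mul_le_mul_of_nonneg_right ?_ hE
    have : exp 4 * (κ / 64) ^ 2 ≤ 55 * (κ / 64) ^ 2 := by gcongr; exact exp_four
    nlinarith
  have c2 : 1 / κ * (tanh h - tanh p) ^ 2 ≤ κ / 8 * ee h k := by
    have d1 : exp 6 * (κ / 64) ^ 2 * ee h k ≤ 405 * (κ / 64) ^ 2 * ee h k := by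
      gcongr; exact exp_six
    have d2 := mul_le_mul_of_nonneg_left (s2.trans d1) (by positivity : 0 ≤ 1 / κ)
    have d3 : 1 / κ * (405 * (κ / 64) ^ 2 * ee h k) = 405 / 4096 * (κ * ee h k) := by
      field_simp; ring
    have d4 : 0 ≤ κ * ee h k := by positivity
    linarith
  have := U_slack (X := κ / 8 * ee h k) (X' := κ / 8 * ee h k)
    (V := (1 - κ) * (tanh k - tanh p) ^ 2) ha hκ.le haa ha1 (sq_nonneg _) (pinsker h k)
    (pinsker' h k) (klr_nonneg p k) (by positivity) (by positivity) (by linarith) (by linarith)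
  rw [klr_add] at this
  rw [mul_assoc ((1 - a') / 2)]
  have d4 : 0 ≤ κ * ee h k := by positivity
  linarith

/-- (U) on a quiet edge (weight `r ≥ ...`): Pinsker -/
theorem U_quiet {a a' r κ : ℝ} (hκ : 0 ≤ κ) (ha1 : a' ≤ 1) (hr : a + (1 - a') ≤ r) (p k : ℝ) :
    a * klr p k + (1 - a') / 2 * (1 - κ) * (tanh k - tanh p) ^ 2 ≤ r * klr p k := by
  have h1 := mul_le_mul_of_nonneg_left (pinsker p k) (by linarith : 0 ≤ 1 - a')
  have h2 := mul_le_mul_of_nonneg_right hr (klr_nonneg p k)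
  have h3 : 0 ≤ (1 - a') * κ * (tanh k - tanh p) ^ 2 :=
    mul_nonneg (mul_nonneg (by linarith) hκ) (sq_nonneg _)
  nlinarith

/-- on a loud edge the squared difference of the means is paid by `e` and the excess shift -/
theorem chi_loud {η ρ : ℝ} (h0 : 0 < η) (h1 : η ≤ 1) (hρ0 : 0 ≤ ρ) (hρ1 : ρ ≤ 1) (p : ℝ) {h k : ℝ}
    (hη : η ≤ |k - h|) :
    (tanh k - tanh p) ^ 2 ≤ 2 * (1 + exp 6 * ρ ^ 2) * ee h k + 2 * xs (ρ * η) (h - p) := by
  have a1 := sq_le_ee h k
  have hE := ee_nonneg h k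
  have a0 : (tanh k - tanh p) ^ 2 ≤ 2 * (tanh k - tanh h) ^ 2 + 2 * (tanh h - tanh p) ^ 2 := by
    nlinarith [sq_nonneg (tanh k - 2 * tanh h + tanh p)]
  rcases lt_or_ge (ρ * η) |h - p| with hτ | hτ
  · rw [xs_of_lt hτ]
    have := sq_tanh_sub_le h p
    have : 0 ≤ exp 6 * ρ ^ 2 * ee h k := by positivity
    linarith
  · rw [xs_of_le hτ]
    have := (shift_loud h0 h1 hη hρ0 hρ1 hτ).2
    linarith

/-- **the tilt error on a loud edge** -/
theorem tilt_err {η ρ : ℝ} (h0 : 0 < η) (h1 : η ≤ 1) (hρ0 : 0 < ρ) (hρ1 : ρ ≤ 1) (p g : ℝ) {h k : ℝ}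
    (hη : η ≤ |k - h|) : |tanh k - tanh p| * |g| ≤
      (ρ + exp 6 * ρ ^ 2) * ee h k + 1 / ρ * xs (ρ * η) g + xs (ρ * η) (h - p) := by
  have hE := ee_nonneg h k
  have tri : |tanh k - tanh p| * |g| ≤ |tanh k - tanh h| * |g| + |tanh h - tanh p| * |g| := by
    rw [← add_mul]; exact mul_le_mul_of_nonneg_right (abs_sub_le _ _ _) (abs_nonneg g)
  have e46 : exp 4 ≤ exp 6 := exp_le_exp.2 (by norm_num)
  have hi1 : 1 ≤ 1 / ρ := by rw [le_div_iff₀ hρ0]; linarith
  have hX : 0 ≤ exp 6 * ρ ^ 2 * ee h k := by positivity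
  have hd := abs_tanh_sub_le h p
  rcases lt_or_ge (ρ * η) |g| with hg | hg
  · rw [xs_of_lt hg]
    have b1 := amgm_abs (u := tanh k - tanh h) (τ := g) (by positivity : 0 < 2 * ρ)
    have e1 : 1 / (2 * ρ) * g ^ 2 / 2 = 1 / ρ * g ^ 2 / 4 := by field_simp; ring
    have b2 := mul_le_mul_of_nonneg_left (sq_le_ee h k) hρ0.le
    have b3 := le_mul_of_one_le_left (sq_nonneg g) hi1
    have b4 : |tanh h - tanh p| * |g| ≤ (tanh h - tanh p) ^ 2 + g ^ 2 / 4 := by
      rw [← sq_abs g, ← sq_abs (tanh h - tanh p)]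
      nlinarith [sq_nonneg (|tanh h - tanh p| - |g| / 2)]
    have b5 : (tanh h - tanh p) ^ 2 ≤ exp 6 * ρ ^ 2 * ee h k + xs (ρ * η) (h - p) := by
      rcases lt_or_ge (ρ * η) |h - p| with hτ | hτ
      · rw [xs_of_lt hτ]; linarith [sq_tanh_sub_le h p]
      · rw [xs_of_le hτ]; linarith [(shift_loud h0 h1 hη hρ0.le hρ1 hτ).2]
    have b6 := sq_nonneg g
    rw [mul_comm |g|] at b1
    linarith
  · rw [xs_of_le hg, mul_zero, add_zero]
    have b1 : |tanh k - tanh h| * |g| ≤ ρ * ee h k := by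
      rw [ee_eq_abs, mul_comm, ← mul_assoc]
      exact mul_le_mul_of_nonneg_right (hg.trans (mul_le_mul_of_nonneg_left hη hρ0.le))
        (abs_nonneg _)
    have b2 : |tanh h - tanh p| * |g| ≤ exp 6 * ρ ^ 2 * ee h k + xs (ρ * η) (h - p) := by
      rcases lt_or_ge (ρ * η) |h - p| with hτ | hτ
      · rw [xs_of_lt hτ, ← sq_abs (h - p), sq]
        have : |tanh h - tanh p| * |g| ≤ |h - p| * |h - p| :=
          mul_le_mul hd (hg.trans hτ.le) (abs_nonneg _) (abs_nonneg _)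
        linarith
      · rw [xs_of_le hτ]
        have c1 := (shift_loud h0 h1 hη hρ0.le hρ1 hτ).1
        have c2 := mul_le_mul_of_nonneg_left hg (abs_nonneg (tanh h - tanh p))
        have c3 : exp 4 * ρ ^ 2 * ee h k ≤ exp 6 * ρ ^ 2 * ee h k := by gcongr
        linarith
    linarith

/-- LEVEL 0 on a quiet edge -/
theorem level0_quiet {η : ℝ} {h k : ℝ} (hη : |k - h| ≤ η) : 2 * ((1 - 2 * η) * klr h k) ≤ ee h k := by
  have := quiet_ee hη; linarith

lemma ee_symm (h k : ℝ) : ee k h = ee h k := by unfold ee; ring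

/-- on a loud edge the conditional variances of both laws are paid by `e` -/
theorem var_loud {h k η : ℝ} (h0 : 0 < η) (h1 : η ≤ 1) (hη : η ≤ |k - h|) :
    η ^ 2 * (1 - tanh h ^ 2) ≤ 8 * ee h k ∧ η ^ 2 * (1 - tanh k ^ 2) ≤ 8 * ee h k := by
  have key : ∀ h k : ℝ, η ≤ |k - h| → η ^ 2 * (1 - tanh h ^ 2) ≤ 8 * ee h k := fun h k hη => by
    have b := loud h0.le hη
    rw [← sq2_eq]
    have e2 : exp 2 ≤ 8 := by
      have h := exp_one_lt_d9
      have e : exp 2 = exp 1 ^ 2 := by rw [← exp_nat_mul]; norm_num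
      rw [e]; nlinarith [exp_pos 1]
    have t : 1 ≤ 8 * exp (-(2 * η)) := by
      have : exp (-2) ≤ exp (-(2 * η)) := exp_le_exp.2 (by linarith)
      have e : exp 2 * exp (-2) = 1 := by rw [← exp_add]; simp
      nlinarith [exp_pos (-2)]
    have := le_mul_of_one_le_left (mul_nonneg (sq_nonneg η) (sq2_pos h).le) t
    linarith
  exact ⟨key h k hη, by rw [← ee_symm]; exact key k h (by rwa [abs_sub_comm])⟩

end Crest.Agent.T157.Ue
end
end

-- ▼ part T157/HdI_20

/-!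
# Row 157, part B, S6 (LC): the deficit `kl - rev` is paid by one integration by parts (helper20)
-/

set_option autoImplicit false

noncomputable section

namespace Crest.Agent.T157.Hd

open Real Function Finset
open Crest.Agent.T157.E
open Crest.Agent.T157.Rec (fl)

variable {n : ℕ} {v w f : Cube n → ℝ}

/-- flip probability of the site `j` at `x` -/
def pf (w : Cube n → ℝ) (x : Cube n) (j : Fin n) : ℝ := w (fl x j) / (w x + w (fl x j))

/-- flip difference -/
def df (g : Cube n → ℝ) (x : Cube n) (j : Fin n) : ℝ := g (fl x j) - g x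

/-- invariance under the flip of the site `i` -/
def Inv (i : Fin n) (g : Cube n → ℝ) : Prop := ∀ x, g (fl x i) = g x

@[simp] lemma fl_fl (x : Cube n) (i : Fin n) : fl (fl x i) i = x := by simp [fl]




lemma sum_fl (i : Fin n) (F : Cube n → ℝ) : ∑ x, F (fl x i) = ∑ x, F x :=
  Equiv.sum_comp (Function.Involutive.toPerm (fun x : Cube n => fl x i) fun x => fl_fl x i) F






/-- detailed balance -/
lemma w_pf (w : Cube n → ℝ) (x : Cube n) (j : Fin n) :
    w (fl x j) * pf w (fl x j) j = w x * pf w x j := by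
  rw [pf, pf, fl_fl, add_comm (w (fl x j))]; ring





/-- edge swap -/
lemma swap (w : Cube n → ℝ) (j : Fin n) (G : Cube n → ℝ) :
    ∑ x, w x * (pf w x j * G (fl x j)) = ∑ x, w x * (pf w x j * G x) := by
  rw [← sum_fl j fun x => w x * (pf w x j * G x)]
  exact sum_congr rfl fun x _ => by rw [← mul_assoc, ← mul_assoc, w_pf]






/-! ### the objects of the site `i` -/

/-- the local field (half log-odds) -/
def hl (w : Cube n → ℝ) (i : Fin n) (x : Cube n) : ℝ :=
  (log (w (update x i true)) - log (w (update x i false))) / 2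

/-- the conditional variance weight `μ₊ μ₋` -/
def cw (w : Cube n → ℝ) (i : Fin n) (x : Cube n) : ℝ := pf w x i * pf w (fl x i) i

/-- the test weight `4 tanh h μ₊ μ₋` -/
def Wt (w : Cube n → ℝ) (i : Fin n) (x : Cube n) : ℝ := 4 * tanh (hl w i x) * cw w i x


/-- the crossing error along `j` -/
def ce (η : ℝ) (F : Cube n → ℝ) (i : Fin n) (x : Cube n) (j : Fin n) : ℝ :=
  cer η (F x) (F (fl x i)) (F (fl x j)) (F (fl (fl x j) i))


/-- the direction field -/
def Ad (v χ : Cube n → ℝ) (i : Fin n) (x : Cube n) (j : Fin n) : ℝ :=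
  if j = i then 0 else siteM v (fun z => pf v z j * df χ z j) i x














end Crest.Agent.T157.Hd

end
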