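import Mathlib

/-!
# Row 157, part B, S6 (LC): the two-point inequality (K) (helper20, after helper65)

`μ± ∝ e^{±h}`, `ν± ∝ e^{±k}`; `klr h k = KL(ν|μ)`, `klr k h = KL(μ|ν)`, `Sq h k = 1 - BC²`.
-/

set_option autoImplicit false

noncomputable section

namespace Crest.Agent.T157.Hd

open Real

/-- `KL(ν|μ)` for the two-point laws with half log-odds `k` (ν) and `h` (μ) -/
def klr (h k : ℝ) : ℝ := (k - h) * tanh k - log (cosh k) + log (cosh h)

/-- `1 - BC²`, the squared sine of the angle between `√μ` and `√ν` -/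
def Sq (h k : ℝ) : ℝ := sinh ((h - k) / 2) ^ 2 / (cosh h * cosh k)






lemma hasDerivAt_tanh' (x : ℝ) : HasDerivAt tanh (1 / cosh x ^ 2) x := by
  have h := (hasDerivAt_sinh x).div (hasDerivAt_cosh x) (cosh_pos x).ne'
  have e : (fun y => sinh y / cosh y) = tanh := by funext y; rw [tanh_eq_sinh_div_cosh]
  have e2 : (cosh x * cosh x - sinh x * sinh x) / cosh x ^ 2 = 1 / cosh x ^ 2 := by
    congr 1; have := cosh_sq x; nlinarith
  rw [e2] at h
  exact e ▸ h

lemma hasDerivAt_logcosh (x : ℝ) : HasDerivAt (fun y => log (cosh y)) (tanh x) x := by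
  have h := (hasDerivAt_cosh x).log (cosh_pos x).ne'
  rw [tanh_eq_sinh_div_cosh]; exact h


lemma tanh_mono {x y : ℝ} (h : x ≤ y) : tanh x ≤ tanh y := by
  have hm : Monotone tanh := by
    refine monotone_of_deriv_nonneg (fun y => (hasDerivAt_tanh' y).differentiableAt) fun y => ?_
    rw [(hasDerivAt_tanh' y).deriv]; positivity
  exact hm h

lemma tanh_nn {x : ℝ} (h : 0 ≤ x) : 0 ≤ tanh x := by
  simpa using tanh_mono h

lemma abs_tanh_lt (x : ℝ) : |tanh x| < 1 := by
  rw [tanh_eq_sinh_div_cosh, abs_div, abs_of_pos (cosh_pos x), div_lt_one (cosh_pos x)]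
  have := cosh_sq x
  have h2 : |sinh x| ^ 2 < cosh x ^ 2 := by rw [sq_abs]; linarith
  exact lt_of_pow_lt_pow_left₀ 2 (cosh_pos x).le h2

/-- `T = kl - rev` at `h = M + s`, `k = M - s` -/
def Tf (M s : ℝ) : ℝ :=
  2 * (log (cosh (M + s)) - log (cosh (M - s))) - 2 * s * (tanh (M + s) + tanh (M - s))












lemma tanh_sub_tanh (h k : ℝ) : tanh h - tanh k = sinh (h - k) / (cosh h * cosh k) := by
  have h1 := cosh_pos h
  have h2 := cosh_pos k
  simp only [tanh_eq_sinh_div_cosh]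
  rw [sinh_sub]; field_simp




end Crest.Agent.T157.Hd

end
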