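import Crest.Agent.T157.ZDef_73
import Crest.Agent.T157.NrmG_84
import Crest.Agent.T157.TapPl_37
import Crest.Agent.T157.PlA_37
import Crest.Agent.T157.ZLip_85
import Crest.Agent.T157.ZApB_11

-- ▼ part T157/ZHp_58
section

/-!
# Row 157, package (Z): the calculus of likely events (helper58)
-/

set_option autoImplicit false

noncomputable section

namespace Crest.Agent.T157.Z

open MeasureTheory ProbabilityTheory Matrix Filter Set
open Crest.ProbabilityR.SpinGlassDynamics
open Crest.Agent.T157.E Crest.Agent.T157.Eig Crest.Agent.T157.Tap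
open Crest.Agent.T157.Conc (en ELip)
open Crest.Agent.T157.Cond (CF CF_map CF_gv ext_vec)
open Crest.Agent.R339.Guerra (mp_comp mp_sum)
open scoped Topology

namespace Hp58

variable {n : ℕ} {ι κ : Type} [Fintype ι] [Fintype κ]

omit [Fintype ι] in
theorem meas_rows (c d : ι → ℝ) (σ : V n) : Measurable (rows c d σ) := by
  unfold rows; fun_prop

instance (c d : ι → ℝ) (σ : V n) : IsProbabilityMeasure (RL c d σ) :=
  Measure.isProbabilityMeasure_map (meas_rows c d σ).aemeasurable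

omit [Fintype ι] in
theorem meas_lc (T : Matrix ι κ ℝ) : Measurable (lc T : (κ → V n) → ι → V n) := by
  unfold lc; fun_prop

theorem wt_gibbs (n : ℕ) (β : ℝ) (g : Pair n → ℝ) : SL.Wt (gibbsWeight n β g) :=
  SL.Wt.of_pos fun _ => Real.exp_pos _

/-- transfer along a map of the rows -/
theorem hp_le {β : ℝ} {c d : ι → ℝ} {c' d' : κ → ℝ} {P : ∀ n, Mx n → (ι → V n) → Prop}
    {Q : ∀ n, Mx n → (κ → V n) → Prop} (h : Hp β c d P)
    (hle : ∀ᶠ n in atTop, ∀ J (x : Cube n), (RL c' d' (sv x)).real {a | ¬ Q n J a} ≤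
      (RL c d (sv x)).real {a | ¬ P n J a}) : Hp β c' d' Q := by
  obtain ⟨k, hk, h⟩ := h
  refine ⟨k, hk, h.mono ?_⟩
  filter_upwards [hle] with n hn g hg
  exact ((wt_gibbs n β g).mean_mono fun x => hn _ x).trans hg

theorem hp_map {β : ℝ} {c d : ι → ℝ} {c' d' : κ → ℝ} (S : ∀ n, (κ → V n) → ι → V n)
    (hm : ∀ n, Measurable (S n)) (hS : ∀ n σ, (RL c' d' σ).map (S n) = RL c d σ)
    {P : ∀ n, Mx n → (ι → V n) → Prop} (h : Hp β c d P) :
    Hp β c' d' fun n J a => P n J (S n a) :=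
  hp_le h (.of_forall fun n J x => by
    rw [← hS n]
    exact ENNReal.toReal_mono (measure_ne_top _ _)
      (Measure.le_map_apply (hm n).aemeasurable {a | ¬ P n J a}))

theorem CF_aff {μ : Type} [Fintype μ] (b : ℝ) (a : μ → ℝ) : CF (gv μ) (fun w => b + a ⬝ᵥ w) =
    Complex.exp (b * Complex.I) * Complex.exp (-((a ⬝ᵥ a : ℝ) : ℂ) / 2) := by
  rw [← CF_gv, CF, CF, ← integral_const_mul]
  congr 1; funext w
  rw [← Complex.exp_add]; push_cast; ring_nf

theorem law [DecidableEq ι] [DecidableEq κ] (c d : ι → ℝ) (c' d' : κ → ℝ) (T : Matrix ι κ ℝ)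
    (h1 : T *ᵥ c' = c)
    (h2 : T * diagonal (fun k => d' k ^ 2) * Tᵀ = diagonal (fun l => d l ^ 2)) (σ : V n) :
    (RL c' d' σ).map (lc T) = RL c d σ := by
  have mu : Measurable fun (a : ι → V n) (p : ι × Fin n) => a p.1 p.2 := by fun_prop
  have mc : Measurable fun (w : ι × Fin n → ℝ) (l : ι) (i : Fin n) => w (l, i) := by fun_prop
  have mX := mu.comp ((meas_lc T).comp (meas_rows c' d' σ))
  have mY := mu.comp (meas_rows c d σ)
  have key := ext_vec (μ := gv (κ × Fin n)) (ν := gv (ι × Fin n)) mX mY fun t => by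
    have e1 : ∀ w, t ⬝ᵥ ((fun (a : ι → V n) (p : ι × Fin n) => a p.1 p.2) ∘ lc T ∘ rows c' d' σ) w =
        (∑ p : ι × Fin n, t p * (c p.1 * σ p.2)) +
          (fun q : κ × Fin n => d' q.1 * ∑ l, t (l, q.2) * T l q.1) ⬝ᵥ w := fun w => by
      simp only [dotProduct, Function.comp, lc, rows, ← h1, mulVec, Fintype.sum_prod_type, mul_add,
        Finset.sum_add_distrib, Finset.mul_sum, Finset.sum_mul]
      congr 1
      · exact Finset.sum_congr rfl fun l _ => Finset.sum_congr rfl fun i _ =>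
          Finset.sum_congr rfl fun k _ => by ring
      · rw [Finset.sum_comm]
        refine Eq.trans (Finset.sum_congr rfl fun i _ => Finset.sum_comm) ?_
        rw [Finset.sum_comm]
        exact Finset.sum_congr rfl fun k _ => Finset.sum_congr rfl fun i _ =>
          Finset.sum_congr rfl fun l _ => by ring
    have e2 : ∀ w, t ⬝ᵥ ((fun (a : ι → V n) (p : ι × Fin n) => a p.1 p.2) ∘ rows c d σ) w =
        (∑ p : ι × Fin n, t p * (c p.1 * σ p.2)) +
          (fun q : ι × Fin n => d q.1 * t q) ⬝ᵥ w := fun w => by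
      simp only [dotProduct, Function.comp, rows, ← Finset.sum_add_distrib]
      exact Finset.sum_congr rfl fun p _ => by ring
    simp only [e1, e2, CF_aff]
    congr 5
    simp only [dotProduct, Fintype.sum_prod_type]
    rw [Finset.sum_comm, Finset.sum_comm (s := Finset.univ (α := ι))]
    refine Finset.sum_congr rfl fun i _ => ?_
    have e3 := congrArg (fun M => (fun l => t (l, i)) ⬝ᵥ M *ᵥ fun l => t (l, i)) h2
    simp only [← mulVec_mulVec, dotProduct_mulVec] at e3
    rw [← dotProduct_mulVec, mulVec_transpose] at e3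
    simp only [dotProduct, vecMul_diagonal] at e3
    simp only [vecMul, dotProduct] at e3
    refine Eq.trans ?_ (e3.trans ?_)
    · exact Finset.sum_congr rfl fun k _ => by ring
    · exact Finset.sum_congr rfl fun k _ => by ring
  have := congrArg (Measure.map fun (w : ι × Fin n → ℝ) (l : ι) (i : Fin n) => w (l, i)) key
  rw [Measure.map_map mc mX, Measure.map_map mc mY] at this
  rw [RL, Measure.map_map (meas_lc T) (meas_rows c' d' σ)]
  exact this

theorem law_emb (c d : κ → ℝ) (f : ι ↪ κ) (σ : V n) :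
    (RL c d σ).map (fun a l => a (f l)) = RL (c ∘ f) (d ∘ f) σ := by
  have hm := mp_comp (ι := κ × Fin n) (Prod.map f id) (f.injective.prodMap Function.injective_id)
  rw [RL, RL, Measure.map_map (by fun_prop) (meas_rows c d σ)]
  conv_rhs => rw [show gv (ι × Fin n) = _ from hm.map_eq.symm]
  rw [Measure.map_map (meas_rows _ _ σ) hm.measurable]
  rfl

theorem split (c d : ι → ℝ) (c' d' : κ → ℝ) (σ : V n) : RL (Sum.elim c c') (Sum.elim d d') σ =
    ((RL c d σ).prod (RL c' d' σ)).map fun p => Sum.elim p.1 p.2 := by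
  have hm := (mp_comp (Equiv.sumProdDistrib ι κ (Fin n)) (Equiv.injective _)).comp
    (mp_sum (ι := ι × Fin n) (κ := κ × Fin n))
  have me : Measurable fun p : (ι → V n) × (κ → V n) => (Sum.elim p.1 p.2 : ι ⊕ κ → V n) :=
    (MeasurableEquiv.sumPiEquivProdPi fun _ : ι ⊕ κ => V n).symm.measurable
  rw [RL, RL, RL, Measure.map_prod_map _ _ (meas_rows c d σ) (meas_rows c' d' σ),
    Measure.map_map me ((meas_rows c d σ).prodMap (meas_rows c' d' σ))]
  conv_lhs => rw [show gv ((ι ⊕ κ) × Fin n) = _ from hm.map_eq.symm]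
  rw [Measure.map_map (meas_rows _ _ σ) hm.measurable]
  congr 1
  funext p l i
  cases l <;> rfl

theorem real_inl (c d : ι → ℝ) (c' d' : κ → ℝ) (σ : V n) (B : Set (ι → V n)) :
    (RL (Sum.elim c c') (Sum.elim d d') σ).real {a | (fun l => a (.inl l)) ∈ B} =
      (RL c d σ).real B := by
  have e := (MeasurableEquiv.sumPiEquivProdPi fun _ : ι ⊕ κ => V n).symm.map_apply
    (μ := (RL c d σ).prod (RL c' d' σ)) {a | (fun l => a (.inl l)) ∈ B}
  rw [Measure.real, Measure.real, split]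
  congr 1
  refine e.trans ?_
  rw [show (⇑(MeasurableEquiv.sumPiEquivProdPi fun _ : ι ⊕ κ => V n).symm ⁻¹'
      {a | (fun l => a (.inl l)) ∈ B}) = B ×ˢ univ from Set.ext fun p => ⟨fun h => ⟨h, trivial⟩, fun h => h.1⟩,
    Measure.prod_prod, measure_univ, mul_one]

theorem law_real {Ω : Type} [Fintype Ω] {φ : Ω → V n} {v : Ω → ℝ} (hv : SL.Wt v) (s : ℝ)
    (B : Set (V n)) : (SL.law φ v s).real B = mean v fun x =>
      (RL (fun _ : Unit => s) (fun _ => √s) (φ x)).real {a | a () ∈ B} := by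
  have e : ∀ x, (SL.Gs (Fin n)).map (fun z => s • φ x + √s • z) B =
      RL (fun _ : Unit => s) (fun _ => √s) (φ x) {a | a () ∈ B} := fun x => by
    have hm := mp_comp (ι := Unit × Fin n) (fun i : Fin n => ((), i)) fun _ _ h => congrArg Prod.snd h
    refine Eq.trans ?_ ((MeasurableEquiv.funUnique Unit (V n)).map_apply B)
    rw [RL, Measure.map_map (MeasurableEquiv.measurable _) (meas_rows _ _ _)]
    conv_lhs => rw [show SL.Gs (Fin n) = _ from hm.map_eq.symm]
    rw [Measure.map_map (by fun_prop) hm.measurable]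
    rfl
  simp only [SL.law, Measure.real, Measure.coe_finsetSum, Finset.sum_apply, Measure.smul_apply, e,
    smul_eq_mul, mean]
  rw [ENNReal.toReal_sum fun x _ => ENNReal.mul_ne_top ENNReal.ofReal_ne_top (measure_ne_top _ _)]
  exact Finset.sum_congr rfl fun x _ => by
    rw [ENNReal.toReal_mul, ENNReal.toReal_ofReal (hv.prob_nonneg x)]

theorem nrm_row_le (w : ι × Fin n → ℝ) (l : ι) : nrm (fun i => w (l, i)) ≤ nrm w := by
  refine Real.sqrt_le_sqrt ?_
  simp only [dotProduct, Fintype.sum_prod_type]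
  exact Finset.single_le_sum (f := fun l => ∑ i, w (l, i) * w (l, i))
    (fun l _ => Finset.sum_nonneg fun i _ => mul_self_nonneg _) (Finset.mem_univ l)

theorem nA_tail (c d : ι → ℝ) (x : Cube n) : (RL c d (sv x)).real
    {a | ¬ nA a ≤ (∑ l, (|c l| + |d l| * (√(Fintype.card ι) + 1))) * √n} ≤ Real.exp (-(1 / 2) * n) := by
  classical
  have mA : Measurable (nA : (ι → V n) → ℝ) :=
    Finset.measurable_sum _ fun l _ => continuous_nrm.measurable.comp (measurable_pi_apply l)
  have mS : MeasurableSet {a : ι → V n |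
      ¬ nA a ≤ (∑ l, (|c l| + |d l| * (√(Fintype.card ι) + 1))) * √n} :=
    (measurableSet_le mA measurable_const).compl
  rw [RL, map_measureReal_apply (meas_rows _ _ _) mS]
  have t := Conc.tail_lip (Conc.elip_en (ι := ι × Fin n)) (Real.sqrt_nonneg n)
  rw [Real.sq_sqrt (Nat.cast_nonneg n), show -(n : ℝ) / (2 * 1 ^ 2) = -(1 / 2) * n by ring] at t
  refine le_trans (measureReal_mono fun w hw => ?_) t
  by_contra hc
  refine hw ?_
  have hc' : en w - ∫ y, en y ∂gv (ι × Fin n) < √n := not_le.1 hc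
  have i1 := Nrm.integral_nrm_le (ι := ι × Fin n)
  rw [show (en : (ι × Fin n → ℝ) → ℝ) = nrm from funext Nrm.en_eq_nrm] at hc'
  rw [Fintype.card_prod, Fintype.card_fin, Nat.cast_mul, Real.sqrt_mul (Nat.cast_nonneg _)] at i1
  change nA _ ≤ _
  rw [nA, Finset.sum_mul]
  refine Finset.sum_le_sum fun l _ => ?_
  have e : rows c d (sv x) w l = c l • sv x + d l • fun i => w (l, i) := rfl
  have a1 := nrm_add_le (c l • sv x) (d l • fun i => w (l, i))
  rw [nrm_smul, nrm_smul, show nrm (sv x) = √n by rw [nrm, sv_dot_self]] at a1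
  have a2 := mul_le_mul_of_nonneg_left ((nrm_row_le w l).trans
    (show nrm w ≤ (√(Fintype.card ι) + 1) * √n by linarith)) (abs_nonneg (d l))
  rw [e]
  linarith

theorem whp_opn : Top.Whp disorderLaw fun n g => opn (Jmat n g) ≤ 3 := by
  have h : Tendsto (fun n : ℕ => 2 * Real.exp (-(n * 1 ^ 2 / 4))) atTop (𝓝 0) := by
    simpa using (Real.tendsto_exp_neg_atTop_nhds_zero.comp ((tendsto_natCast_atTop_atTop (R := ℝ)
      ).atTop_div_const (r := 4) four_pos)).const_mul 2
  refine Top.whp_of_real_le h (.of_forall fun n => ?_)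
  refine (measureReal_mono fun g hg => ?_).trans (Nrm.Jmat_opn_tail zero_le_one)
  have : 3 < opn (Jmat n g) := not_le.1 hg
  exact le_trans (by norm_num) this.le

theorem two_exp {k : ℝ} (hk : 0 < k) :
    ∀ᶠ n : ℕ in atTop, 2 * Real.exp (-k * n) ≤ Real.exp (-(k / 2) * n) := by
  filter_upwards [tendsto_natCast_atTop_atTop.eventually_ge_atTop (2 / k)] with n hn
  rw [div_le_iff₀ hk] at hn
  have a := Real.add_one_le_exp (k / 2 * n)
  rw [show -(k / 2) * n = k / 2 * n + -k * n by ring, Real.exp_add]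
  exact mul_le_mul_of_nonneg_right (by linarith) (Real.exp_pos _).le

end Hp58

open Hp58 in
theorem hpStmt : HpStmt where
  mono ι _ β c d P Q h hPQ := hp_le h (hPQ.mono fun n hn J x =>
    measureReal_mono fun a ha hP => ha (hn J a hP))
  and ι _ β c d P Q := by
    rintro ⟨k, hk, h⟩ ⟨k', hk', h'⟩
    have h0 := lt_min hk hk'
    refine ⟨min k k' / 2, half_pos h0, (h.and h').mono ?_⟩
    filter_upwards [two_exp h0] with n hn g hg
    have n0 : (0 : ℝ) ≤ n := Nat.cast_nonneg n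
    have a1 : Real.exp (-k * n) ≤ Real.exp (-min k k' * n) :=
      Real.exp_le_exp.2 (by nlinarith [min_le_left k k'])
    have a2 : Real.exp (-k' * n) ≤ Real.exp (-min k k' * n) :=
      Real.exp_le_exp.2 (by nlinarith [min_le_right k k'])
    refine le_trans ((wt_gibbs n β g).mean_mono fun x => (measureReal_mono (fun a ha =>
      not_and_or.1 ha)).trans (measureReal_union_le {a | ¬ P n (β • Jmat n g) a}
        {a | ¬ Q n (β • Jmat n g) a})) ?_
    rw [SL.mean_add]
    linarith [hg.1, hg.2]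
  good ι _ β hβ c d := by
    refine ⟨_, 1 / 2, one_half_pos, whp_opn.imp fun n g hg => (wt_gibbs n β g).mean_le fun x =>
      le_trans (measureReal_mono fun a ha hA => ha ⟨?_, ?_, hA⟩) (nA_tail c d x)⟩
    · rw [transpose_smul, Jmat_transpose]
    · rw [opn_smul, abs_of_nonneg hβ.1]
      exact (mul_le_of_le_one_left (opn_nonneg _) hβ.2).trans hg
  law ι κ _ _ _ _ c d c' d' T h1 h2 n σ := law c d c' d' T h1 h2 σ
  lin ι κ _ _ _ _ β c d c' d' T h1 h2 P h :=
    hp_map (fun _ => lc T) (fun _ => meas_lc T) (fun _ σ => law c d c' d' T h1 h2 σ) h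
  emb ι κ _ _ β c d f P h :=
    hp_map (fun _ a l => a (f l)) (fun _ => by fun_prop) (fun _ σ => law_emb c d f σ) h
  split ι κ _ _ c d c' d' n σ := split c d c' d' σ
  prj ι κ _ _ β c d c' d' P h :=
    hp_le h (.of_forall fun n J x => (real_inl c d c' d' (sv x) {a | ¬ P n J a}).ge)
  ty β s _ P := by
    simp only [Ty, Hp, law_real (wt_gibbs _ β _)]
    rfl
  spin ι _ β c d j hc hd := by
    refine ⟨1, one_pos, Top.whp_of_eventually (.of_forall fun n g =>
      (wt_gibbs n β g).mean_le fun x => ?_)⟩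
    have mS : MeasurableSet {a : ι → V n | ¬ ∀ i, a j i = 1 ∨ a j i = -1} := by measurability
    rw [RL, map_measureReal_apply (meas_rows _ _ _) mS,
      show rows c d (sv x) ⁻¹' {a : ι → V n | ¬ ∀ i, a j i = 1 ∨ a j i = -1} = ∅ from ?_,
      measureReal_empty]
    · exact (Real.exp_pos _).le
    · refine Set.eq_empty_of_forall_notMem fun w hw => hw fun i => ?_
      simp only [rows, hc, hd, one_mul, zero_mul, add_zero, sv, spin]
      split_ifs <;> simp

end Crest.Agent.T157.Z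

end
end

-- ▼ part T157/ZApA_48
section

/-!
# Row 157, part B, package (Z) (helper48): closure of the approximable words, first half
-/

set_option autoImplicit false

noncomputable section

namespace Crest.Agent.T157.Z

open MeasureTheory ProbabilityTheory Matrix Filter Set
open Crest.ProbabilityR.SpinGlassDynamics
open Crest.Agent.T157.E Crest.Agent.T157.Eig Crest.Agent.T157.Tap

namespace A48

variable {ι κ : Type} {β : ℝ} {n : ℕ}

theorem nrm_mono {μ : Type} [Fintype μ] {u v : μ → ℝ} (h : ∀ i, u i ^ 2 ≤ v i ^ 2) : nrm u ≤ nrm v :=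
  Real.sqrt_le_sqrt (Finset.sum_le_sum fun i _ => by simpa only [sq] using h i)

theorem nrm_box {μ : Type} [Fintype μ] {u : μ → ℝ} {M : ℝ} (M0 : 0 ≤ M) (h : ∀ i, |u i| ≤ M) :
    nrm u ≤ M * √(Fintype.card μ) := by
  refine (nrm_mono (v := fun _ => M) fun i => sq_le_sq' (abs_le.1 (h i)).1 (abs_le.1 (h i)).2).trans_eq ?_
  simp only [nrm, dotProduct, Finset.sum_const, Finset.card_univ, nsmul_eq_mul]
  rw [Real.sqrt_mul (Nat.cast_nonneg _), Real.sqrt_mul_self M0, mul_comm]

theorem tri (u v w : V n) : nrm (u - w) ≤ nrm (u - v) + nrm (v - w) := by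
  simpa only [sub_add_sub_cancel] using nrm_add_le (u - v) (v - w)

/-- `cp M u` is the nearest point of the box -/
theorem cp_near {M : ℝ} (u x : V n) (h : ∀ i, |x i| ≤ M) : nrm (u - cp M u) ≤ nrm (u - x) :=
  nrm_mono fun i => by
    obtain ⟨h1, h2⟩ := abs_le.1 (h i)
    simp only [cp, Pi.sub_apply]
    rcases le_total M (u i) with h3 | h3
    · rw [min_eq_left h3, max_eq_right (by linarith)]; nlinarith
    · rw [min_eq_right h3]
      rcases le_total (-M) (u i) with h4 | h4
      · rw [max_eq_right h4, sub_self]; simpa using sq_nonneg _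
      · rw [max_eq_left h4]; nlinarith

theorem part_le {M : ℝ} (M0 : 0 ≤ M) (u x : V n) (h : ∀ i, |x i| ≤ M) (S : Finset (Fin n)) :
    √(∑ i ∈ S, u i ^ 2) ≤ nrm (u - x) + M * √S.card := by
  have h1 := nrm_add_le (fun i : S => (u - x) i) fun i : S => x i
  have h2 := nrm_box (u := fun i : S => x i) M0 fun i => h i
  have h3 : nrm (fun i : S => (u - x) i) ≤ nrm (u - x) := Real.sqrt_le_sqrt (by
    rw [dotProduct, Finset.sum_coe_sort S fun i => (u - x) i * (u - x) i]
    exact Finset.sum_le_univ_sum_of_nonneg fun i => mul_self_nonneg _)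
  have e : nrm ((fun i : S => (u - x) i) + fun i : S => x i) = √(∑ i ∈ S, u i ^ 2) := by
    simp only [nrm, dotProduct, Pi.add_apply, Pi.sub_apply, sub_add_cancel, ← sq]
    rw [Finset.sum_coe_sort S fun i => u i ^ 2]
  rw [Fintype.card_coe] at h2
  linarith

theorem Bd.pos {X : Nt ι} (h : Bd X) : ∃ M ≥ (0 : ℝ), ∀ n J a i, |X n J a i| ≤ M :=
  let ⟨M, hM⟩ := h
  ⟨max M 0, le_max_right _ _, fun n J a i => (hM n J a i).trans (le_max_left _ _)⟩

theorem Bd.comp {X : Nt ι} (h : Bd X) (F : ∀ n, Mx n → (κ → V n) → ι → V n) :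
    Bd fun n J a => X n J (F n J a) :=
  let ⟨M, hM⟩ := h
  ⟨M, fun n J _ i => hM n J _ i⟩

theorem rel (L : LipStmt) {sm : Prop} {X : Nt ι} (h : Nw sm X) (f : ι → κ) :
    Nw sm fun n J (a : κ → V n) => X n J fun j => a (f j) :=
  L.comp ι κ sm X (fun j _ _ a => a (f j)) h fun j => .inp (f j)

variable [Fintype ι] [Fintype κ] {c d : ι → ℝ}

theorem hp_true : Hp β c d fun _ _ _ => True :=
  ⟨1, one_pos, Top.whp_of_eventually (Eventually.of_forall fun n g => by
    simpa [mean] using Real.exp_nonneg _)⟩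

theorem imp (H : HpStmt) {P Q : ∀ n, Mx n → (ι → V n) → Prop} (h : Hp β c d P)
    (e : ∀ n J a, P n J a → Q n J a) : Hp β c d Q := H.mono ι β c d P Q h (Eventually.of_forall e)

theorem hp_all (H : HpStmt) {k : ℕ} {P : Fin k → ∀ n, Mx n → (ι → V n) → Prop}
    (h : ∀ l, Hp β c d (P l)) : Hp β c d fun n J a => ∀ l, P l n J a := by
  induction k with
  | zero => exact imp H hp_true fun _ _ _ _ l => l.elim0
  | succ k ih => exact imp H (H.and ι β c d _ _ (h 0) (ih fun l => h l.succ)) fun _ _ _ h =>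
      Fin.forall_fin_succ.2 h

/-- relabelling -/
theorem emb' (H : HpStmt) {c' d' : κ → ℝ} (f : ι ↪ κ) (hc : ∀ l, c' (f l) = c l)
    (hd : ∀ l, d' (f l) = d l) {P : ∀ n, Mx n → (ι → V n) → Prop} (h : Hp β c d P) :
    Hp β c' d' fun n J a => P n J fun l => a (f l) :=
  H.emb ι κ β c' d' f P (by rwa [show c' ∘ f = c from funext hc, show d' ∘ f = d from funext hd])

theorem inl' (H : HpStmt) (c' d' : κ → ℝ) {P : ∀ n, Mx n → (ι → V n) → Prop} (h : Hp β c d P) :
    Hp β (Sum.elim c c') (Sum.elim d d') fun n J a => P n J fun l => a (.inl l) :=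
  emb' H Function.Embedding.inl (fun _ => rfl) (fun _ => rfl) h

end A48

open A48

theorem apAGlue : ApAGlue := fun L H UI Mol => by
  refine ⟨fun ι _ β hβ c d X hX ε hε => ?_, fun ι _ β c d U h ε hε => ?_,
    fun ι _ β c d U m h ε hε => ?_, fun ι κ _ _ β c d f U h ε hε => ?_,
    fun ι κ _ _ _ _ β c d c' d' T h1 h2 U h ε hε => ?_, fun ι _ β c d k U h ε hε => ?_,
    fun ι _ β c d U h => ⟨?_, fun ε hε => ?_⟩, fun ι _ β c d U h ε hε => ?_⟩
  · obtain ⟨M, M0, hM⟩ := UI ι β hβ c d X hX ε hε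
    obtain ⟨h1, h2⟩ := L.clip _ _ M M0 (rel L hX (Sum.inl : ι → ι ⊕ Fin 0))
    have h3 := inl' H (0 : Fin 0 → ℝ) 1 hM
    exact ⟨0, _, h1, h2, h3⟩
  · obtain ⟨U', h1, h2⟩ := h (ε / 2) (by linarith)
    obtain ⟨m, X, h3, h4, h5⟩ := h1 (ε / 2) (by linarith)
    have h6 := inl' H (0 : Fin m → ℝ) 1 h2
    exact ⟨m, X, h3, h4, imp H (H.and _ _ _ _ _ _ h6 h5) fun n J a h =>
      (tri _ _ _).trans (by linarith [h.1, h.2])⟩
  · obtain ⟨m', X, h3, h4, h5⟩ := h ε hε
    let f : (ι ⊕ Fin m) ⊕ Fin m' ↪ ι ⊕ Fin (m + m') :=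
      ((Equiv.sumAssoc _ _ _).trans ((Equiv.refl ι).sumCongr finSumFinEquiv)).toEmbedding
    have h6 := emb' H (c' := Sum.elim c 0) (d' := Sum.elim d 1) f (by rintro ((l | l) | l) <;> rfl)
      (by rintro ((l | l) | l) <;> rfl) h5
    exact ⟨m + m', _, rel L h3 f, Bd.comp h4 fun _ _ a j => a (f j), h6⟩
  · obtain ⟨m, X, h3, h4, h5⟩ := h ε hε
    let g : ι ⊕ Fin m ↪ κ ⊕ Fin m := f.sumMap (Function.Embedding.refl _)
    have h6 := emb' H (c' := Sum.elim c 0) (d' := Sum.elim d 1) g (by rintro (l | l) <;> rfl)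
      (by rintro (l | l) <;> rfl) h5
    exact ⟨m, _, rel L h3 g, Bd.comp h4 fun _ _ a j => a (g j), h6⟩
  · obtain ⟨m, X, h3, h4, h5⟩ := h ε hε
    have e : ∀ {μ : Type} [DecidableEq μ] (x : μ → ℝ),
        (diagonal fun k => Sum.elim x (1 : Fin m → ℝ) k ^ 2) =
          fromBlocks (diagonal fun k => x k ^ 2) 0 0 1 := fun x => by
      rw [← diagonal_one, fromBlocks_diagonal]
      congr 1; funext k; rcases k with k | k <;> simp
    refine ⟨m, fun n J a => X n J (lc (fromBlocks T 0 0 1) a),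
      L.comp _ _ _ X (fun j _ _ a => lc (fromBlocks T 0 0 1) a j) h3 fun j => L.lin _ _ _ _ j,
      Bd.comp h4 fun _ _ a => lc (fromBlocks T 0 0 1) a, imp H (H.lin _ _ β _ _ (Sum.elim c' 0) (Sum.elim d' 1) (fromBlocks T 0 0 1) ?_ ?_ _ h5)
        fun n J a h => ?_⟩
    · simp [fromBlocks_mulVec, h1]
    · rw [e, e, fromBlocks_transpose, fromBlocks_multiply, fromBlocks_multiply, ← h2]; simp
    · have : (fun l => lc (fromBlocks T 0 0 (1 : Matrix (Fin m) (Fin m) ℝ)) a (.inl l)) =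
          lc T fun l => a (.inl l) := by
        funext l i; simp [lc]
      rwa [this] at h
  · choose m X h3 h4 h5 using fun l => h l ε hε
    let g : ∀ l, ι ⊕ Fin (m l) ↪ ι ⊕ Fin (Finset.univ.sup m) := fun l =>
      (Function.Embedding.refl _).sumMap (Fin.castLEEmb (Finset.le_sup (Finset.mem_univ l)))
    have h6 := hp_all H fun l => emb' H (c' := Sum.elim c 0) (d' := Sum.elim d 1) (g l)
      (by rintro (l | l) <;> rfl) (by rintro (l | l) <;> rfl) (h5 l)
    exact ⟨_, fun l n J a => X l n J fun j => a (g l j), fun l => ⟨rel L (h3 l) (g l),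
      Bd.comp (h4 l) fun _ _ a j => a (g l j)⟩, h6⟩
  · obtain ⟨m, X, -, h4, h5⟩ := h 1 one_pos
    obtain ⟨M, M0, hM⟩ := Bd.pos h4
    refine ⟨1 + M, by positivity, H.prj _ _ β c d 0 1 _ (imp H h5 fun n J a h => ?_)⟩
    have h6 := nrm_box M0 (hM n J a)
    have h7 := tri (U n J fun l => a (.inl l)) (X n J a) 0
    rw [Fintype.card_fin] at h6
    simp only [sub_zero] at h7
    linarith
  · obtain ⟨m, X, -, h4, h5⟩ := h ε hε
    obtain ⟨M, M0, hM⟩ := Bd.pos h4
    exact ⟨M, M0, H.prj _ _ β c d 0 1 _ (imp H h5 fun n J a h => ⟨(cp_near _ _ (hM n J a)).trans h,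
      fun S => (part_le M0 _ _ (hM n J a) S).trans (add_le_add_left h _)⟩)⟩
  · obtain ⟨m, X, h3, h4, h5⟩ := h (ε / 2) (by linarith)
    obtain ⟨X', h6, h7, h8⟩ := Mol _ X h3 (ε / 2) (by linarith)
    exact ⟨m, X', h6, h7 h4, imp H h5 fun n J a h => (tri _ _ _).trans (by linarith [h8 n J a])⟩

end Crest.Agent.T157.Z

end
end

-- ▼ part T157/ZUI_33
section

/-!
# Row 157, part B, package (Z): uniform integrability of the networks (helper33)
-/

set_option autoImplicit false
set_option linter.unusedSectionVars false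

noncomputable section

namespace Crest.Agent.T157.Z

open MeasureTheory ProbabilityTheory Matrix Filter Set Topology
open Crest.ProbabilityR.SpinGlassDynamics
open Crest.Agent.T157.E Crest.Agent.T157.Eig Crest.Agent.T157.Tap
open Crest.Agent.T157.Conc (en ELip)

namespace UI33

variable {n : ℕ}

/-! ### clipping -/

lemma clip_lip (M a b : ℝ) (hM : 0 ≤ M) :
    |(a - max (-M) (min M a)) - (b - max (-M) (min M b))| ≤ |a - b| := by
  rcases le_total M a with h1 | h1 <;> rcases le_total M b with h2 | h2 <;>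
  rcases le_total (-M) a with h3 | h3 <;> rcases le_total (-M) b with h4 | h4 <;>
  simp only [max_def, min_def] <;> split_ifs <;>
  (rw [abs_le]; constructor <;> cases abs_cases (a - b) <;> linarith)

lemma clip_sq (M a : ℝ) (hM : 0 ≤ M) :
    (a - max (-M) (min M a)) ^ 2 ≤ 2 * Real.exp (-M) * (Real.exp a + Real.exp (-a)) := by
  have k : ∀ u : ℝ, 0 ≤ u → u ^ 2 ≤ 2 * Real.exp u := fun u hu => by
    have := Real.quadratic_le_exp_of_nonneg hu
    nlinarith
  have h1 := Real.exp_pos a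
  have h2 := Real.exp_pos (-a)
  have h3 := Real.exp_pos (-M)
  rcases le_total M a with h | h
  · rw [min_eq_left h, max_eq_right (by linarith)]
    have := k (a - M) (by linarith)
    rw [sub_eq_add_neg a M, Real.exp_add] at this
    rw [sub_eq_add_neg a M]
    nlinarith [mul_pos h3 h2]
  · rw [min_eq_right h]
    rcases le_total (-M) a with h' | h'
    · rw [max_eq_right h', sub_self, zero_pow two_ne_zero]; positivity
    · rw [max_eq_left h']
      have := k (-a + -M) (by linarith)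
      rw [Real.exp_add] at this
      nlinarith [mul_pos h3 h1]

lemma nrm_mono {u v : V n} (h : ∀ i, |u i| ≤ |v i|) : nrm u ≤ nrm v :=
  Real.sqrt_le_sqrt (Finset.sum_le_sum fun i _ => by
    rw [← sq, ← sq]; exact sq_le_sq.2 (h i))

lemma abs_nrm_sub_le (u v : V n) : |nrm u - nrm v| ≤ nrm (u - v) := by
  simpa only [Nrm.en_eq_nrm] using Conc.abs_en_sub_le u v

lemma cp_sign {s : V n} (hs : Pl.IsSign s) {M : ℝ} (hM : 0 ≤ M) (v : V n) :
    s * v - cp M (s * v) = s * (v - cp M v) := by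
  funext i
  simp only [cp, Pi.sub_apply, Pi.mul_apply]
  rcases hs i with h | h <;> rw [h]
  · simp
  · simp only [max_def, min_def]
    split_ifs <;> linarith

lemma continuous_cp (M : ℝ) : Continuous (cp M : V n → V n) := by
  unfold cp; fun_prop

lemma en_comp_le {κ κ' : Type*} [Fintype κ] [Fintype κ'] (f : κ' → κ) (hf : Function.Injective f)
    (w : κ → ℝ) : en (fun k => w (f k)) ≤ en w := by
  refine Real.sqrt_le_sqrt ?_
  have := Finset.sum_map Finset.univ ⟨f, hf⟩ fun k => w k ^ 2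
  simp only [Function.Embedding.coeFn_mk] at this
  rw [← this]
  exact Finset.sum_le_sum_of_subset_of_nonneg (Finset.subset_univ _) fun _ _ _ => sq_nonneg _

/-! ### the Gaussian core -/

lemma core {κ : Type*} [Fintype κ] (Y : (κ → ℝ) → V n) {C K M ε : ℝ} (hn : 0 < n)
    (hε : 0 < ε) (hM : 0 ≤ M) (hL : ∀ ω ω', nrm (Y ω - Y ω') ≤ C * en (ω - ω'))
    (hK : ∀ k, |∫ ω, Y ω k ∂gv κ| ≤ K) (hMK : 4 * Real.exp (K + C ^ 2 / 2 - M) ≤ ε ^ 2 / 4) :
    (gv κ).real {ω | ¬ nrm (Y ω - cp M (Y ω)) ≤ ε * √n} ≤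
      Real.exp (-(ε ^ 2 / (8 * C ^ 2)) * n) := by
  have hk : ∀ k, ELip C fun ω => Y ω k := fun k ω ω' =>
    (abs_apply_le_nrm (Y ω - Y ω') k).trans (hL ω ω')
  have hf : ELip C fun ω => nrm (Y ω - cp M (Y ω)) := fun ω ω' =>
    (abs_nrm_sub_le _ _).trans ((nrm_mono fun i => clip_lip M _ _ hM).trans (hL ω ω'))
  have hE : ∀ k (s : ℝ), |s| = 1 → ∫ ω, Real.exp (s * Y ω k) ∂gv κ ≤ Real.exp (K + C ^ 2 / 2) := by
    intro k s hs
    have h1 := Conc.mgf_lip (hk k) s
    have e : ∀ ω, Real.exp (s * Y ω k) = Real.exp (s * ∫ y, Y y k ∂gv κ) *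
        Real.exp (s * (Y ω k - ∫ y, Y y k ∂gv κ)) := fun ω => by
      rw [← Real.exp_add]; congr 1; ring
    simp only [e]
    rw [integral_const_mul, Real.exp_add]
    have h2 : s ^ 2 = 1 := by rw [← sq_abs, hs]; norm_num
    rw [h2, mul_one] at h1
    refine mul_le_mul (Real.exp_le_exp.2 ?_) h1 (integral_nonneg fun _ => (Real.exp_pos _).le)
      (Real.exp_pos _).le
    refine (le_abs_self _).trans ?_
    rw [abs_mul, hs, one_mul]; exact hK k
  have hr : 0 < √(n : ℝ) := Real.sqrt_pos.2 (Nat.cast_pos.2 hn)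
  have hr2 : √(n : ℝ) * √n = n := Real.mul_self_sqrt (Nat.cast_nonneg n)
  have hI : ∀ k, Integrable (fun ω => 2 * Real.exp (-M) *
      (Real.exp (1 * Y ω k) + Real.exp (-1 * Y ω k))) (gv κ) := fun k =>
    (((hk k).integrable_exp 1).add ((hk k).integrable_exp (-1))).const_mul _
  have hm : ∫ ω, nrm (Y ω - cp M (Y ω)) ∂gv κ ≤ ε * √n / 2 := by
    have h1 : ∫ ω, nrm (Y ω - cp M (Y ω)) ∂gv κ ≤ ∫ ω, ((∑ k, 2 * Real.exp (-M) *
        (Real.exp (1 * Y ω k) + Real.exp (-1 * Y ω k))) / (ε * √n) + ε * √n / 4) ∂gv κ := by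
      refine integral_mono hf.integrable (((integrable_finsetSum _ fun k _ => hI k).div_const
        _).add (integrable_const _)) fun ω => ?_
      have h2 : nrm (Y ω - cp M (Y ω)) ^ 2 ≤ ∑ k, 2 * Real.exp (-M) *
          (Real.exp (1 * Y ω k) + Real.exp (-1 * Y ω k)) := by
        rw [nrm_sq]
        refine Finset.sum_le_sum fun k _ => ?_
        rw [← sq, one_mul, neg_one_mul]
        exact clip_sq M _ hM
      have h3 : 0 < ε * √n := mul_pos hε hr
      simp only
      rw [div_add' _ _ _ h3.ne', le_div_iff₀ h3]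
      nlinarith [sq_nonneg (nrm (Y ω - cp M (Y ω)) - ε * √n / 2)]
    refine h1.trans ?_
    rw [integral_add ((integrable_finsetSum _ fun k _ => hI k).div_const _) (integrable_const _),
      integral_div, integral_finsetSum _ fun k _ => hI k]
    simp only [integral_const, probReal_univ, one_smul]
    have h4 : ∑ k, ∫ ω, 2 * Real.exp (-M) * (Real.exp (1 * Y ω k) + Real.exp (-1 * Y ω k)) ∂gv κ ≤
        ∑ _k : Fin n, ε ^ 2 / 4 := by
      refine Finset.sum_le_sum fun k _ => le_trans ?_ hMK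
      rw [integral_const_mul, integral_add ((hk k).integrable_exp 1) ((hk k).integrable_exp (-1)),
        sub_eq_add_neg, Real.exp_add]
      have a1 := hE k 1 (by simp)
      have a2 := hE k (-1) (by simp)
      nlinarith [Real.exp_pos (-M)]
    simp only [Finset.sum_const, Finset.card_univ, Fintype.card_fin, nsmul_eq_mul] at h4
    have h5 : (n : ℝ) * (ε ^ 2 / 4) / (ε * √n) = ε * √n / 4 := by
      rw [div_eq_iff (mul_pos hε hr).ne']
      nth_rewrite 1 [← hr2]; ring
    have := div_le_div_of_nonneg_right h4 (mul_pos hε hr).le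
    linarith
  refine le_trans (measureReal_mono fun ω hω => ?_)
    ((Conc.tail_lip hf (t := ε * √n / 2) (by positivity)).trans_eq ?_)
  · have := not_le.1 hω
    simp only [mem_ofPred_eq]
    linarith
  · congr 1
    rw [div_pow, mul_pow, Real.sq_sqrt (Nat.cast_nonneg n)]
    ring

/-! ### permutations of the sites -/

/-- the action on pairs -/
def pe (e : Equiv.Perm (Fin n)) (p : Pair n) : Pair n :=
  if h : e p.1.1 < e p.1.2 then ⟨(e p.1.1, e p.1.2), h⟩ else
    ⟨(e p.1.2, e p.1.1), lt_of_le_of_ne (not_lt.1 h) fun h' => p.2.ne' (e.injective h')⟩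

lemma pe_inj (e : Equiv.Perm (Fin n)) : Function.Injective (pe e) := by
  rintro ⟨⟨a, b⟩, p⟩ ⟨⟨a', b'⟩, q⟩ h
  simp only [pe] at h p q
  split_ifs at h <;> simp only [Subtype.mk.injEq, Prod.mk.injEq, e.injective.eq_iff] at h ⊢ <;>
    omega

lemma Jmat_pe_lt (e : Equiv.Perm (Fin n)) (g : Pair n → ℝ) {i j : Fin n} (h : i < j) :
    Jmat n g (e i) (e j) = g (pe e ⟨(i, j), h⟩) / √n := by
  simp only [pe]
  split_ifs with h'
  · exact Jmat_apply_lt g h'
  · exact Jmat_apply_gt g _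

lemma Jmat_pe (e : Equiv.Perm (Fin n)) (g : Pair n → ℝ) :
    Jmat n (fun p => g (pe e p)) = (Jmat n g).submatrix e e := by
  ext i j
  rw [submatrix_apply]
  rcases lt_trichotomy i j with h | rfl | h
  · rw [Jmat_apply_lt _ h, Jmat_pe_lt e g h]
  · simp only [Jmat_diag]
  · rw [Jmat_apply_gt _ h, Jmat_symm g, Jmat_pe_lt e g h]

/-! ### the planted word -/

variable {ι : Type} [Fintype ι]

/-- the word in the planted model, gauge fixed -/
def YY (β : ℝ) (c d : ι → ℝ) (X : Nt ι) (n : ℕ) (ω : Pair n ⊕ ι × Fin n → ℝ) : V n :=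
  X n (β • Jmat n ((fun p => ω (.inl p)) + fun _ => Pl.th n β)) (rows c d 1 fun q => ω (.inr q))

lemma nrm_row (w : ι × Fin n → ℝ) (l : ι) : nrm (fun i => w (l, i)) ≤ en w := by
  rw [← Nrm.en_eq_nrm]
  exact en_comp_le (fun i => (l, i)) (fun _ _ h => (Prod.mk.inj h).2) w

lemma nrm_one : nrm (1 : V n) = √n := by simp [nrm]

lemma nA_rows (c d : ι → ℝ) (w : ι × Fin n → ℝ) :
    nA (rows c d (1 : V n) w) ≤ (∑ l, |c l|) * √n + (∑ l, |d l|) * en w := by
  rw [nA, Finset.sum_mul, Finset.sum_mul, ← Finset.sum_add_distrib]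
  refine Finset.sum_le_sum fun l _ => ?_
  have : rows c d (1 : V n) w l = c l • (1 : V n) + d l • fun i => w (l, i) := rfl
  rw [this]
  refine (nrm_add_le _ _).trans ?_
  rw [nrm_smul, nrm_smul, nrm_one]
  exact add_le_add le_rfl (mul_le_mul_of_nonneg_left (nrm_row w l) (abs_nonneg _))

lemma rows_sub (c d : ι → ℝ) (w w' : ι × Fin n → ℝ) :
    rows c d (1 : V n) w - rows c d 1 w' = rows 0 d 1 (w - w') := by
  funext l i; simp only [rows, Pi.sub_apply, Pi.zero_apply]; ring

lemma sqrt_two_le : √(n : ℝ) * √(2 / n) ≤ 2 := by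
  rw [← Real.sqrt_mul (Nat.cast_nonneg n)]
  refine Real.sqrt_le_iff.2 ⟨by norm_num, ?_⟩
  rcases Nat.eq_zero_or_pos n with h | h
  · simp [h]
  · rw [mul_div_cancel₀ _ (Nat.cast_pos.2 h).ne']; norm_num

variable {β : ℝ} {c d : ι → ℝ} {X : Nt ι} {L : ℝ}

lemma YY_lip (hβ : β ∈ Icc (0 : ℝ) 1) (hL0 : 0 ≤ L) (hL : ∀ n J J' a a',
    nrm (X n J a - X n J' a') ≤ L * (nA (a - a') + √n * opn (J - J'))) (ω ω' : _ → ℝ) :
    nrm (YY β c d X n ω - YY β c d X n ω') ≤ (L * (∑ l, |d l| + 2) + 1) * en (ω - ω') := by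
  refine (hL _ _ _ _ _).trans ?_
  rw [rows_sub, ← smul_sub, Nrm.Jmat_sub, add_sub_add_right_eq_sub, opn_smul, abs_of_nonneg hβ.1]
  have h1 := nA_rows (n := n) 0 d ((fun q => ω (.inr q)) - fun q => ω' (.inr q))
  have h2 : en ((fun q => ω (.inr q)) - fun q => ω' (.inr q)) ≤ en (ω - ω') :=
    en_comp_le Sum.inr Sum.inr_injective (ω - ω')
  have h3 : en ((fun p => ω (.inl p)) - fun p => ω' (.inl p)) ≤ en (ω - ω') :=
    en_comp_le Sum.inl Sum.inl_injective (ω - ω')
  have h4 := Nrm.opn_Jmat_le ((fun p => ω (.inl p)) - fun p => ω' (.inl p))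
  have h0 := Conc.en_nonneg (ω - ω')
  have hd : 0 ≤ ∑ l, |d l| := Finset.sum_nonneg fun _ _ => abs_nonneg _
  simp only [Pi.zero_apply, abs_zero, Finset.sum_const_zero, zero_mul, zero_add] at h1
  have h5 : √(n : ℝ) * (β * opn (Jmat n ((fun p => ω (.inl p)) - fun p => ω' (.inl p)))) ≤
      2 * en (ω - ω') := by
    calc _ ≤ √(n : ℝ) * (1 * (√(2 / n) * en (ω - ω'))) :=
          mul_le_mul_of_nonneg_left (mul_le_mul hβ.2 (h4.trans
            (mul_le_mul_of_nonneg_left h3 (Real.sqrt_nonneg _))) (opn_nonneg _) zero_le_one)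
            (Real.sqrt_nonneg _)
      _ ≤ _ := by
          rw [one_mul, ← mul_assoc]; exact mul_le_mul_of_nonneg_right sqrt_two_le h0
  have h6 := h1.trans (mul_le_mul_of_nonneg_left h2 hd)
  have h7 := mul_le_mul_of_nonneg_left (add_le_add h6 h5) hL0
  nlinarith

lemma YY_nrm (hL0 : 0 ≤ L) (hL : ∀ n J J' a a',
    nrm (X n J a - X n J' a') ≤ L * (nA (a - a') + √n * opn (J - J')))
    (ho : ∀ n J a, X n J (-a) = -X n J a) (ω : _ → ℝ) :
    nrm (YY β c d X n ω) ≤ L * ((∑ l, |c l|) * √n + (∑ l, |d l|) * en fun q => ω (.inr q)) := by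
  have z : ∀ J, X n J 0 = 0 := fun J => by
    have := ho n J 0
    rw [neg_zero] at this
    funext i
    have := congrFun this i
    simp only [Pi.neg_apply] at this
    simp only [Pi.zero_apply]; linarith
  have := hL n (β • Jmat n ((fun p => ω (.inl p)) + fun _ => Pl.th n β))
    (β • Jmat n ((fun p => ω (.inl p)) + fun _ => Pl.th n β)) (rows c d 1 fun q => ω (.inr q)) 0
  rw [z, sub_zero, sub_zero, sub_self, opn_zero, mul_zero, add_zero] at this
  exact this.trans (mul_le_mul_of_nonneg_left (nA_rows c d _) hL0)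

lemma YY_perm (hp : ∀ n (J : Mx n) a (e : Equiv.Perm (Fin n)),
    X n (J.submatrix e e) (fun l => a l ∘ e) = X n J a ∘ e) (e : Equiv.Perm (Fin n)) (ω : _ → ℝ) :
    YY β c d X n (fun k => ω (Sum.map (pe e) (Prod.map id e) k)) = YY β c d X n ω ∘ e := by
  rw [YY, YY, ← hp]
  congr 1
  rw [submatrix_smul, Pi.smul_apply, Pi.smul_apply, ← Jmat_pe]
  rfl

lemma mean_le (hn : 0 < n) (hβ : β ∈ Icc (0 : ℝ) 1) (hL0 : 0 ≤ L) (hL : ∀ n J J' a a',
    nrm (X n J a - X n J' a') ≤ L * (nA (a - a') + √n * opn (J - J')))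
    (ho : ∀ n J a, X n J (-a) = -X n J a) (hp : ∀ n (J : Mx n) a (e : Equiv.Perm (Fin n)),
    X n (J.submatrix e e) (fun l => a l ∘ e) = X n J a ∘ e) (k : Fin n) :
    |∫ ω, YY β c d X n ω k ∂gv _| ≤ L * (∑ l, |c l| + (∑ l, |d l|) * √(Fintype.card ι)) := by
  classical
  have hk : ∀ k, ELip _ fun ω => YY β c d X n ω k := fun k ω ω' =>
    (abs_apply_le_nrm (YY β c d X n ω - YY β c d X n ω') k).trans (YY_lip hβ hL0 hL ω ω')
  have he : ∀ j, ∫ ω, YY β c d X n ω j ∂gv _ = ∫ ω, YY β c d X n ω k ∂gv _ := fun j => by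
    have mp := R339.Guerra.mp_comp (Sum.map (pe (Equiv.swap k j)) (Prod.map (id : ι → ι)
      (Equiv.swap k j))) ((pe_inj _).sumMap (Function.injective_id.prodMap (Equiv.injective _)))
    have := integral_map (μ := gv _) mp.measurable.aemeasurable
      (f := fun ω => YY β c d X n ω k) (hk k).continuous.aestronglyMeasurable
    rw [mp.map_eq] at this
    rw [this]
    simp only [YY_perm hp, Function.comp_apply, Equiv.swap_apply_left]
  have hr : 0 < √(n : ℝ) := Real.sqrt_pos.2 (Nat.cast_pos.2 hn)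
  have hr2 : √(n : ℝ) * √n = n := Real.mul_self_sqrt (Nat.cast_nonneg n)
  have mp := R339.Guerra.mp_comp (Sum.inr : ι × Fin n → Pair n ⊕ ι × Fin n) Sum.inr_injective
  have hi : Integrable (fun ω : Pair n ⊕ ι × Fin n → ℝ => en fun q => ω (.inr q)) (gv _) :=
    mp.integrable_comp_of_integrable Conc.elip_en.integrable
  have h1 : ∫ ω : Pair n ⊕ ι × Fin n → ℝ, en (fun q => ω (.inr q)) ∂gv _ ≤
      √(Fintype.card ι) * √n := by
    have := integral_map (μ := gv _) mp.measurable.aemeasurable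
      (f := en) Conc.continuous_en.aestronglyMeasurable
    rw [mp.map_eq] at this
    rw [← this, ← Real.sqrt_mul (Nat.cast_nonneg _)]
    have h := Nrm.integral_nrm_le (ι := ι × Fin n)
    simp only [Fintype.card_prod, Fintype.card_fin, Nat.cast_mul, ← Nrm.en_eq_nrm] at h
    exact h
  have h2 : (n : ℝ) * ∫ ω, YY β c d X n ω k ∂gv _ = ∫ ω, ∑ j, YY β c d X n ω j ∂gv _ := by
    rw [integral_finsetSum _ fun j _ => (hk j).integrable]
    simp [he]
  have h3 : |∫ ω, ∑ j, YY β c d X n ω j ∂gv _| ≤ ∫ ω : Pair n ⊕ ι × Fin n → ℝ,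
      √n * (L * ((∑ l, |c l|) * √n + (∑ l, |d l|) * en fun q => ω (.inr q))) ∂gv _ := by
    refine norm_integral_le_of_norm_le (f := fun ω => ∑ j, YY β c d X n ω j)
      ((((integrable_const _).add (hi.const_mul _)).const_mul
      _).const_mul _) (.of_forall fun ω => ?_)
    have := abs_dot_le 1 (YY β c d X n ω)
    rw [nrm_one, one_dotProduct] at this
    exact this.trans (mul_le_mul_of_nonneg_left (YY_nrm hL0 hL ho ω) hr.le)
  rw [integral_const_mul, integral_const_mul, integral_add (integrable_const _) (hi.const_mul _),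
    integral_const_mul, integral_const_mul, ← h2, abs_mul, Nat.abs_cast] at h3
  simp only [integral_const, probReal_univ, one_smul] at h3
  have hd : 0 ≤ ∑ l, |d l| := Finset.sum_nonneg fun _ _ => abs_nonneg _
  refine le_of_mul_le_mul_left (h3.trans ?_) (Nat.cast_pos.2 hn)
  calc _ ≤ √n * (L * ((∑ l, |c l|) * √n + (∑ l, |d l|) * (√(Fintype.card ι) * √n))) := by gcongr
    _ = √n * √n * (L * (∑ l, |c l| + (∑ l, |d l|) * √(Fintype.card ι))) := by ring
    _ = _ := by rw [hr2]

end UI33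

open UI33 in
theorem uiGlue : UIGlue := by
  intro hS _ ι _ β hβ c d X hX ε hε
  obtain ⟨L, hL0, hL⟩ := hS.lip ι False X hX
  set C := L * (∑ l, |d l| + 2) + 1 with hC
  set K := L * (∑ l, |c l| + (∑ l, |d l|) * √(Fintype.card ι)) with hK
  have hd : 0 ≤ ∑ l, |d l| := Finset.sum_nonneg fun _ _ => abs_nonneg _
  have hC0 : 0 < C := by positivity
  obtain ⟨M, hM, hMK⟩ : ∃ M ≥ (0 : ℝ), 4 * Real.exp (K + C ^ 2 / 2 - M) ≤ ε ^ 2 / 4 := by
    refine ⟨max 0 (K + C ^ 2 / 2 - Real.log (ε ^ 2 / 16)), le_max_left _ _, ?_⟩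
    have h1 : K + C ^ 2 / 2 - max 0 (K + C ^ 2 / 2 - Real.log (ε ^ 2 / 16)) ≤
        Real.log (ε ^ 2 / 16) := by linarith [le_max_right 0 (K + C ^ 2 / 2 - Real.log (ε ^ 2 / 16))]
    have h2 := Real.exp_le_exp.2 h1
    rw [Real.exp_log (by positivity)] at h2
    linarith
  set κ := ε ^ 2 / (8 * C ^ 2) / 4 with hκ
  have hκ0 : 0 < κ := by positivity
  refine ⟨M, hM, κ, hκ0, ?_⟩
  have h1 := Pl.tendsto_LR_lt_exp false hβ.1 hβ.2 (A := fun n => κ * (n : ℝ) ^ (1 : ℝ)) (by
    have h := ((isLittleO_log_rpow_rpow_atTop 2 one_pos).tendsto_div_nhds_zero).comp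
      tendsto_natCast_atTop_atTop
    have h2 : Tendsto (fun n : ℕ => Real.log n ^ (2 : ℝ) / (n : ℝ) ^ (1 : ℝ)) atTop (𝓝[>] 0) := by
      refine tendsto_nhdsWithin_iff.2 ⟨h, ?_⟩
      filter_upwards [eventually_ge_atTop 2] with n hn
      have : (1 : ℝ) < n := by exact_mod_cast hn
      exact div_pos (Real.rpow_pos_of_pos (Real.log_pos this) _) (by positivity)
    refine (h2.inv_tendsto_nhdsGT_zero.const_mul_atTop hκ0).congr fun n => ?_
    rw [Pi.inv_apply, inv_div, mul_div_assoc, Real.rpow_two])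
  refine Top.whp_of_real_le ((h1.add (TapPl.tendsto_exp_neg (κ := 2 * κ) (by positivity))).trans_eq
    (by simp)) ?_
  filter_upwards [eventually_gt_atTop 0] with n hn
  have hc := hS.cont ι False X hX n
  have hB : IsOpen {p : Mx n × (ι → V n) | ¬ nrm (X n p.1 p.2 - cp M (X n p.1 p.2)) ≤ ε * √n} := by
    simp only [not_le]
    exact isOpen_lt continuous_const
      (continuous_nrm.comp (hc.sub ((continuous_cp M).comp hc)))
  have hJ : Continuous (Jmat n) := by
    refine continuous_pi fun i => continuous_pi fun j => ?_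
    unfold Jmat; split_ifs <;> fun_prop
  have hR : ∀ σ : V n, Continuous (rows c d σ) := fun σ => by unfold rows; fun_prop
  set S : Set ((Pair n → ℝ) × (ι × Fin n → ℝ)) := {z | ¬ nrm (X n (β • Jmat n (z.1 + fun _ =>
    Pl.th n β)) (rows c d 1 z.2) - cp M (X n (β • Jmat n (z.1 + fun _ => Pl.th n β))
      (rows c d 1 z.2))) ≤ ε * √n} with hSd
  have hSm : MeasurableSet S := (hB.preimage (f := fun z : (Pair n → ℝ) × (ι × Fin n → ℝ) =>
    (β • Jmat n (z.1 + fun _ => Pl.th n β), rows c d 1 z.2))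
      (((hJ.comp (by fun_prop)).const_smul β).prodMk ((hR 1).comp continuous_snd))).measurableSet
  have hT := Pl.transfer_mean_inv false β (F := fun x g => (RL c d (sv x)).real
      {a | ¬ nrm (X n (β • Jmat n g) a - cp M (X n (β • Jmat n g) a)) ≤ ε * √n})
    (G := fun ξ => (gv (ι × Fin n)).real {w | ¬ nrm (X n (β • Jmat n ξ) (rows c d 1 w) -
      cp M (X n (β • Jmat n ξ) (rows c d 1 w))) ≤ ε * √n}) (fun _ _ => measureReal_nonneg)
    (fun x ξ => by
      have hs : Pl.IsSign fun q : ι × Fin n => sv x q.2 := fun q => Pl.isSign_sv x q.2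
      refine (map_measureReal_apply (hR _).measurable (hB.preimage
        (f := fun a => (β • Jmat n (Pl.tau x * ξ), a)) (by fun_prop)).measurableSet).trans ?_
      refine congrArg ENNReal.toReal
        (((Pl.mp_sign_law false hs).measure_preimage_emb hs.emb _).symm.trans ?_)
      congr 1
      ext w
      have e1 : rows c d (sv x) ((fun q : ι × Fin n => sv x q.2) * w) =
          fun l => sv x * rows c d 1 w l := by
        funext l i; simp only [rows, Pi.mul_apply, Pi.one_apply]; ring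
      have e2 : β • Jmat n (Pl.tau x * ξ) = diagonal (sv x) * (β • Jmat n ξ) * diagonal (sv x) := by
        rw [Pl.Jmat_gauge, Matrix.mul_smul, Matrix.smul_mul]
      simp only [mem_preimage, mem_ofPred_eq, e1, e2, hS.gauge ι False X hX n _ _ _ (Pl.isSign_sv x),
        cp_sign (Pl.isSign_sv x) hM, TapPl.nrm_sign (Pl.isSign_sv x)])
    ((Pl.integrable_pl_false β _).2 (Measure.integrable_measure_prodMk_left
      (μ := gv (Pair n)) (ν := gv (ι × Fin n)) hSm (measure_ne_top _ _)))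
    (Real.exp_pos (-κ * n)) (Real.exp_pos (-(κ * (n : ℝ) ^ (1 : ℝ))))
  refine le_trans (measureReal_mono fun g hg => (not_le.1 hg).le) (hT.trans (add_le_add le_rfl ?_))
  have hI : ∫ ξ, (gv (ι × Fin n)).real {w | ¬ nrm (X n (β • Jmat n ξ) (rows c d 1 w) -
      cp M (X n (β • Jmat n ξ) (rows c d 1 w))) ≤ ε * √n} ∂Pl.pl false n β =
      ((gv (Pair n)).prod (gv (ι × Fin n))).real S := by
    rw [Pl.integral_pl_false, Measure.real, Measure.prod_apply hSm, ← integral_toReal
      (measurable_measure_prodMk_left hSm).aemeasurable (.of_forall fun _ => measure_lt_top _ _)]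
    rfl
  have hP : ((gv (Pair n)).prod (gv (ι × Fin n))).real S ≤ Real.exp (-(ε ^ 2 / (8 * C ^ 2)) * n) := by
    refine le_of_eq_of_le ?_ (core (YY β c d X n) hn hε hM (YY_lip hβ hL0 hL)
      (mean_le hn hβ hL0 hL (hS.odd ι False X hX) (hS.perm ι False X hX)) hMK)
    exact congrArg ENNReal.toReal ((measurePreserving_sumPiEquivProdPi
      (fun _ : Pair n ⊕ ι × Fin n => gaussianReal 0 1)).measure_preimage_equiv S).symm
  rw [hI, div_le_iff₀ (by positivity), ← Real.exp_add, ← Real.exp_add, Real.rpow_one]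
  refine hP.trans (le_of_eq ?_)
  congr 1
  rw [hκ]; ring

end Crest.Agent.T157.Z

end
end

-- ▼ part T157/ZMol_62
section

/-!
# Row 157, part B, package (Z) (helper62): smoothing of the letters (`Z.molGlue`)
-/

set_option autoImplicit false

noncomputable section

namespace Crest.Agent.T157.Z

open MeasureTheory Matrix Filter Set
open scoped Convolution NNReal
open Crest.Agent.T157.Eig Crest.Agent.T157.Tap

namespace Mol62

/-- a convolution with a compactly supported kernel preserves the Lipschitz property -/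
lemma conv_lip {m : ℕ} {F G : Type} [NormedAddCommGroup F] [NormedSpace ℝ F]
    [NormedAddCommGroup G] [NormedSpace ℝ G] (B : F →L[ℝ] ℝ →L[ℝ] G) {f : (Fin m → ℝ) → F}
    (hc : HasCompactSupport f) (hf : Continuous f) {g : (Fin m → ℝ) → ℝ} {L : ℝ≥0}
    (hg : LipschitzWith L g) : ∃ K, LipschitzWith K (f ⋆[B, volume] g) := by
  have hi : ∀ x, Integrable fun t => B (f t) (g (x - t)) :=
    hc.convolutionExists_left B hf hg.continuous.locallyIntegrable
  have hn : Integrable fun t => ‖f t‖ := (hf.integrable_of_hasCompactSupport hc).norm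
  refine ⟨Real.toNNReal (‖B‖ * L * ∫ t, ‖f t‖), LipschitzWith.of_dist_le' fun x y => ?_⟩
  rw [dist_eq_norm, convolution_def, convolution_def, ← integral_sub (hi x) (hi y), mul_assoc,
    mul_comm _ (dist x y), ← mul_assoc, ← integral_const_mul]
  refine norm_integral_le_of_norm_le (hn.const_mul _) (Eventually.of_forall fun t => ?_)
  have h := hg.dist_le_mul (x - t) (y - t)
  rw [dist_sub_right, dist_eq_norm] at h
  rw [← map_sub]
  calc _ ≤ ‖B‖ * ‖f t‖ * ‖g (x - t) - g (y - t)‖ := B.le_opNorm₂ _ _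
    _ ≤ ‖B‖ * ‖f t‖ * (L * dist x y) := mul_le_mul_of_nonneg_left h (by positivity)
    _ = _ := by ring

/-- smoothing of one letter -/
lemma mol {m : ℕ} {φ : (Fin m → ℝ) → ℝ} (h : OL φ) {δ : ℝ} (hδ : 0 < δ) :
    ∃ ψ, OL ψ ∧ SmL ψ ∧ ∀ u, |φ u - ψ u| ≤ δ := by
  obtain ⟨ho, L, hL⟩ := h
  have hr : 0 < δ / (L + 1) := by positivity
  let b : ContDiffBump (0 : Fin m → ℝ) := ⟨δ / (L + 1) / 2, δ / (L + 1), half_pos hr, half_lt_self hr⟩
  have hc : HasCompactSupport (b.normed volume) := b.hasCompactSupport_normed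
  have hd : ContDiff ℝ 1 (b.normed volume) := b.contDiff_normed (n := 1)
  have hD := hc.hasFDerivAt_convolution_left (ContinuousLinearMap.lsmul ℝ ℝ) hd
    (hL.continuous.locallyIntegrable (μ := volume))
  refine ⟨b.normed volume ⋆[ContinuousLinearMap.lsmul ℝ ℝ, volume] φ,
    ⟨fun u => ?_, conv_lip _ hc hd.continuous hL⟩, ⟨fun u => (hD u).differentiableAt, ?_⟩,
    fun u => ?_⟩
  · rw [convolution_def, convolution_def, ← integral_neg, ← integral_neg_eq_self]
    refine integral_congr_ae (Eventually.of_forall fun t => ?_)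
    simp only [b.normed_neg]
    rw [show -u - -t = -(u - t) by abel, ho, map_neg]
  · rw [funext fun u => (hD u).fderiv]
    exact conv_lip _ (hc.fderiv ℝ) (hd.continuous_fderiv one_ne_zero) hL
  · rw [abs_sub_comm, ← Real.dist_eq]
    refine b.dist_normed_convolution_le hL.continuous.aestronglyMeasurable fun x hx => ?_
    refine (hL.dist_le_mul _ _).trans ?_
    have hx' : dist x u ≤ δ / (L + 1) := le_of_lt hx
    refine (mul_le_mul_of_nonneg_left hx' L.coe_nonneg).trans ?_
    rw [← mul_div_assoc, div_le_iff₀ (by positivity), mul_add, mul_one, mul_comm]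
    exact le_add_of_nonneg_right hδ.le

variable {n : ℕ} {ι : Type}

lemma nrm_mono {u v : V n} (h : ∀ i, |u i| ≤ v i) : nrm u ≤ nrm v :=
  Real.sqrt_le_sqrt (Finset.sum_le_sum fun i _ => by
    rw [← abs_mul_abs_self (u i)]
    exact mul_self_le_mul_self (abs_nonneg _) (h i))

lemma nrm_abs (u : V n) : nrm (fun i => |u i|) = nrm u := by
  simp only [nrm, dotProduct, abs_mul_abs_self]

lemma nrm_const {c : ℝ} (hc : 0 ≤ c) : nrm (fun _ : Fin n => c) = c * √n := by
  simp only [nrm, dotProduct, Finset.sum_const, Finset.card_univ, Fintype.card_fin, nsmul_eq_mul]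
  rw [Real.sqrt_mul (Nat.cast_nonneg n), Real.sqrt_mul_self hc, mul_comm]

lemma nrm_bd {u : V n} {c : ℝ} (hc : 0 ≤ c) (h : ∀ i, |u i| ≤ c) : nrm u ≤ c * √n :=
  (nrm_mono h).trans_eq (nrm_const hc)

lemma nrm_sum_le {κ : Type} (s : Finset κ) (v : κ → V n) :
    nrm (∑ l ∈ s, v l) ≤ ∑ l ∈ s, nrm (v l) :=
  Finset.le_sum_of_subadditive nrm (by simp) nrm_add_le s v

lemma avg_le {u w : V n} {e c : ℝ} (he : 0 ≤ e) (hc : 0 ≤ c) (hu : nrm u ≤ e * √n)
    (hw : nrm w ≤ c * √n) : |avg (u * w)| ≤ e * c := by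
  rcases Nat.eq_zero_or_pos n with rfl | hn
  · simp only [avg, Finset.univ_eq_empty, Finset.sum_empty, zero_div, abs_zero]; positivity
  have n0 : (0 : ℝ) < n := by exact_mod_cast hn
  have h : |u ⬝ᵥ w| ≤ e * √n * (c * √n) :=
    (abs_dot_le u w).trans (mul_le_mul hu hw (nrm_nonneg _) (by positivity))
  rw [mul_mul_mul_comm, Real.mul_self_sqrt n0.le] at h
  rw [avg, abs_div, abs_of_pos n0, div_le_iff₀ n0]
  exact h

/-- `X'` is `ε`-close to `X` -/
def Cl (ε : ℝ) (X X' : Nt ι) : Prop := ∀ n J a, nrm (X n J a - X' n J a) ≤ ε * √n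
/-- approximable by smooth networks -/
def Ax (X : Nt ι) : Prop := ∀ ε > (0 : ℝ), ∃ X', Nw True X' ∧ Cl ε X X'
/-- approximable by bounded smooth networks -/
def AxB (X : Nt ι) : Prop := ∀ ε > (0 : ℝ), ∃ X', Nw True X' ∧ Bd X' ∧ Cl ε X X'

lemma bd_pos {X : Nt ι} (h : Bd X) : ∃ M > (0 : ℝ), ∀ n J a i, |X n J a i| ≤ M :=
  let ⟨M, hM⟩ := h
  ⟨max M 1, lt_max_of_lt_right one_pos, fun n J a i => (hM n J a i).trans (le_max_left _ _)⟩

lemma map_step {m : ℕ} {φ : (Fin m → ℝ) → ℝ} {X : Fin m → Nt ι} (h : OL φ) (hX : ∀ l, Ax (X l))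
    {ε : ℝ} (hε : 0 < ε) : ∃ X' : Nt ι, Nw True X' ∧ ((∃ M, ∀ u, |φ u| ≤ M) → Bd X') ∧
      Cl ε (fun n J a i => φ fun l => X l n J a i) X' := by
  obtain ⟨ψ, h1, h2, h3⟩ := mol h (half_pos hε)
  obtain ⟨-, L, hL⟩ := h
  have he : 0 < ε / 2 / (L * m + 1) := by positivity
  choose X' k1 k2 using fun l => hX l _ he
  refine ⟨_, Nw.map ψ X' h1 (fun _ => h2) k1, fun ⟨M, hM⟩ => ⟨M + ε / 2, fun n J a i => ?_⟩,
    fun n J a => ?_⟩
  · have a1 := abs_le.1 (hM fun l => X' l n J a i)
    have a2 := abs_le.1 (h3 fun l => X' l n J a i)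
    rw [abs_le]; constructor <;> linarith [a1.1, a1.2, a2.1, a2.2]
  have e : ∀ i, |((fun i => φ fun l => X l n J a i) - fun i => ψ fun l => X' l n J a i) i| ≤
      ((L : ℝ) • (∑ l, fun i => |(X l n J a - X' l n J a) i|) + fun _ => ε / 2 : V n) i := by
    intro i
    have a1 := hL.dist_le_mul (fun l => X l n J a i) fun l => X' l n J a i
    have a2 : dist (fun l => X l n J a i) (fun l => X' l n J a i) ≤
        ∑ l, |X l n J a i - X' l n J a i| :=
      (dist_pi_le_iff (by positivity)).2 fun l => Finset.single_le_sum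
        (f := fun l => |X l n J a i - X' l n J a i|) (fun _ _ => abs_nonneg _) (Finset.mem_univ l)
    have a3 := abs_sub_le (φ fun l => X l n J a i) (φ fun l => X' l n J a i)
      (ψ fun l => X' l n J a i)
    rw [Real.dist_eq] at a1
    simp only [Pi.add_apply, Pi.sub_apply, Pi.smul_apply, Finset.sum_apply, smul_eq_mul]
    linarith [h3 fun l => X' l n J a i, mul_le_mul_of_nonneg_left a2 L.coe_nonneg]
  refine (nrm_mono e).trans ((nrm_add_le _ _).trans ?_)
  rw [nrm_const (half_pos hε).le, nrm_smul, abs_of_nonneg L.coe_nonneg]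
  have s1 : nrm (∑ l, fun i => |(X l n J a - X' l n J a) i|) ≤ m * (ε / 2 / (L * m + 1) * √n) := by
    refine (nrm_sum_le _ _).trans ((Finset.sum_le_sum fun l _ =>
      (nrm_abs _).trans_le (k2 l n J a)).trans_eq ?_)
    rw [Finset.sum_const, Finset.card_univ, Fintype.card_fin, nsmul_eq_mul]
  have s2 : (L : ℝ) * m * (ε / 2 / (L * m + 1)) ≤ ε / 2 := by
    rw [← mul_div_assoc, div_le_iff₀ (by positivity)]; nlinarith
  nlinarith [mul_le_mul_of_nonneg_left s1 L.coe_nonneg,
    mul_le_mul_of_nonneg_right s2 (Real.sqrt_nonneg n)]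

lemma Ax.bd {X : Nt ι} (h : Ax X) (hb : Bd X) : AxB X := fun ε hε => by
  obtain ⟨M, M0, hM⟩ := bd_pos hb
  have ho : OL fun u : Fin 1 → ℝ => max (-M) (min M (u 0)) := by
    refine ⟨fun u => ?_, _, ((LipschitzWith.eval (α := fun _ : Fin 1 => ℝ) 0).const_min M).const_max
      (-M)⟩
    simp only [Pi.neg_apply, max_def, min_def]
    split_ifs <;> linarith
  obtain ⟨X', k1, k2, k3⟩ := map_step (X := fun _ => X) ho (fun _ => h) hε
  refine ⟨X', k1, k2 ⟨M, fun u => abs_le.2 ⟨le_max_left _ _, max_le (by linarith) (min_le_left _ _)⟩⟩,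
    fun n J a => ?_⟩
  convert k3 n J a using 3
  funext i
  have := abs_le.1 (hM n J a i)
  show _ = max (-M) (min M (X n J a i))
  rw [min_eq_right this.2, max_eq_right this.1]

lemma sc_step {X Y Z : Nt ι} (hX : AxB X) (hY : AxB Y) (hZ : AxB Z) (bY : Bd Y) (bZ : Bd Z) :
    Ax fun n J a => avg (X n J a * Y n J a) • Z n J a := fun ε hε => by
  obtain ⟨b, b0, hb⟩ := bd_pos bY
  obtain ⟨c, c0, hc⟩ := bd_pos bZ
  obtain ⟨X', x1, x2, x3⟩ := hX (ε / 3 / (b * c)) (by positivity)
  obtain ⟨p, p0, hp⟩ := bd_pos x2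
  obtain ⟨Y', y1, y2, y3⟩ := hY (ε / 3 / (p * c)) (by positivity)
  obtain ⟨q, q0, hq⟩ := bd_pos y2
  obtain ⟨Z', z1, z2, z3⟩ := hZ (ε / 3 / (p * q)) (by positivity)
  refine ⟨_, Nw.sc X' Y' Z' x1 y1 z1 x2 y2 z2, fun n J a => ?_⟩
  have e : avg (X n J a * Y n J a) • Z n J a - avg (X' n J a * Y' n J a) • Z' n J a =
      avg ((X n J a - X' n J a) * Y n J a) • Z n J a +
      avg ((Y n J a - Y' n J a) * X' n J a) • Z n J a +
      avg (X' n J a * Y' n J a) • (Z n J a - Z' n J a) := by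
    have : avg (X n J a * Y n J a) = avg ((X n J a - X' n J a) * Y n J a) +
        avg ((Y n J a - Y' n J a) * X' n J a) + avg (X' n J a * Y' n J a) := by
      simp only [avg, ← add_div, ← Finset.sum_add_distrib, Pi.mul_apply, Pi.sub_apply]
      exact congrArg (· / (n : ℝ)) (Finset.sum_congr rfl fun i _ => by ring)
    rw [this]; module
  have a1 := avg_le (by positivity) b0.le (x3 n J a) (nrm_bd b0.le (hb n J a))
  have a2 := avg_le (by positivity) p0.le (y3 n J a) (nrm_bd p0.le (hp n J a))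
  have a3 := avg_le p0.le q0.le (nrm_bd p0.le (hp n J a)) (nrm_bd q0.le (hq n J a))
  have a4 := nrm_bd c0.le (hc n J a)
  have t1 := mul_le_mul a1 a4 (nrm_nonneg _) (by positivity)
  have t2 := mul_le_mul a2 a4 (nrm_nonneg _) (by positivity)
  have t3 := mul_le_mul a3 (z3 n J a) (nrm_nonneg _) (by positivity)
  rw [show ε / 3 / (b * c) * b * (c * √n) = ε / 3 * √n by field_simp] at t1
  rw [show ε / 3 / (p * c) * p * (c * √n) = ε / 3 * √n by field_simp] at t2
  rw [show p * q * (ε / 3 / (p * q) * √n) = ε / 3 * √n by field_simp] at t3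
  show nrm (_ - _) ≤ _
  rw [e]
  refine (nrm_add_le _ _).trans ((add_le_add_left (nrm_add_le _ _) _).trans ?_)
  rw [nrm_smul, nrm_smul, nrm_smul]
  linarith

lemma ax (h : LipStmt) {X : Nt ι} (hX : Nw False X) : Ax X := by
  induction hX with
  | inp j => exact fun ε hε => ⟨_, Nw.inp j, fun n J a => by
      rw [sub_self, nrm_zero]; positivity⟩
  | map φ X h1 _ _ ih => exact fun ε hε =>
      let ⟨X', k1, _, k3⟩ := map_step h1 ih hε
      ⟨X', k1, k3⟩
  | mul X _ hb ih =>
    intro ε hε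
    obtain ⟨X', k1, k2, k3⟩ := ih.bd hb (ε / 3) (by positivity)
    refine ⟨_, Nw.mul X' k1 k2, fun n J a => ?_⟩
    show nrm (_ - _) ≤ _
    rw [← mulVec_sub]
    refine (nrm_mulVec_le _ _).trans ((mul_le_mul (h.tJ_le n J).1 (k3 n J a) (nrm_nonneg _)
      zero_le_three).trans_eq (by ring))
  | sc X Y Z _ _ _ bX bY bZ iX iY iZ => exact sc_step (iX.bd bX) (iY.bd bY) (iZ.bd bZ) bY bZ

end Mol62

theorem molGlue : MolGlue := fun h ι X hX ε hε => by
  by_cases hb : Bd X
  · obtain ⟨X', k1, k2, k3⟩ := (Mol62.ax h hX).bd hb ε hε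
    exact ⟨X', k1, fun _ => k2, k3⟩
  · obtain ⟨X', k1, k3⟩ := Mol62.ax h hX ε hε
    exact ⟨X', k1, fun k => absurd k hb, k3⟩

end Crest.Agent.T157.Z

end
end

-- ▼ part T157/ZCM_75
section

/-!
# Row 157, part B, package (Z): the Cameron–Martin shift of one coordinate (helper75)
-/

set_option autoImplicit false

noncomputable section

namespace Crest.Agent.T157.Z

open MeasureTheory ProbabilityTheory Matrix Filter Set
open Crest.Agent.T157.E
open Crest.Agent.T157.Conc (en ELip)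

namespace CM75

variable {κ : Type} [Fintype κ] [DecidableEq κ]

theorem dens (i : κ) (a : ℝ) (F : (κ → ℝ) → ℝ) (w : κ → ℝ) :
    F w * Real.exp (-a * w i - a ^ 2 / 2) =
      Real.exp (-(a ^ 2 / 2)) * (Real.exp (w ⬝ᵥ (-Pi.single i a)) * F w) := by
  rw [dotProduct_neg, dotProduct_single, ← mul_assoc, ← Real.exp_add, mul_comm]
  congr 2; ring

/-- the shift formula holds for every `F` -/
theorem shift (i : κ) (a : ℝ) (F : (κ → ℝ) → ℝ) :
    ∫ w, F (w - Pi.single i a) ∂gv κ = ∫ w, F w * Real.exp (-a * w i - a ^ 2 / 2) ∂gv κ := by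
  have h := Pl.integral_exp_mul false (-Pi.single i a : κ → ℝ) F
  rw [Pl.integral_tilted_false, Pl.MM_false, Pl.law_false] at h
  simp only [dens]
  rw [integral_const_mul, h, ← mul_assoc, ← Real.exp_add]
  have e : -(a ^ 2 / 2) + (-Pi.single i a : κ → ℝ) ⬝ᵥ (-Pi.single i a) / 2 = 0 := by
    rw [neg_dotProduct_neg, dotProduct_single, Pi.single_eq_same]; ring
  simp only [e, Real.exp_zero, one_mul, sub_eq_add_neg]






end CM75

open CM75


end Crest.Agent.T157.Z
end
end

-- ▼ part T157/ZAll_73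

/-!
# Row 157, part B, package (Z) (helper73): the network layer is unconditional; the seam words
-/

set_option autoImplicit false

noncomputable section

namespace Crest.Agent.T157.Z

open MeasureTheory ProbabilityTheory Matrix Filter Set
open Crest.ProbabilityR.SpinGlassDynamics
open Crest.Agent.T157.E Crest.Agent.T157.Eig Crest.Agent.T157.Tap

theorem uiStmt : UIStmt := uiGlue lipStmt hpStmt
theorem molStmt : MolStmt := molGlue lipStmt
theorem apA : ApA := apAGlue lipStmt hpStmt uiStmt molStmt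
theorem apB : ApB := apBGlue lipStmt hpStmt uiStmt apA
theorem bpStmt : BPStmt := bpGlue lipStmt hpStmt apA apB

variable {n : ℕ}

/-- a product sample with field `x`, read off the Gaussian label `w` -/
def smp (x w : V n) : Cube n :=
  fun i => decide (2 * cdf (gaussianReal 0 1) (w i) - 1 ≤ Real.tanh (x i))

/-- the law of the sample -/
def SmpStmt : Prop := ∀ n : ℕ, Measurable (fun p : V n × V n => smp p.1 p.2) ∧
  ∀ (x : V n) (F : Cube n → ℝ), ∫ w, F (smp x w) ∂gv (Fin n) = mean (ising 0 x) F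

/-- sampling with a fresh label preserves the approximable words -/
def ThStmt : Prop := ∀ (ι κ : Type) [Fintype ι] [Fintype κ], ∀ β ∈ Icc (0 : ℝ) 1, ∀ (c d : κ → ℝ)
  (f : ι ↪ κ) (j : κ), j ∉ range f → c j = 0 → d j = 1 → ∀ U : Nt ι, Ap β (c ∘ f) (d ∘ f) U →
  Ap β c d fun n J a => sv (smp (U n J fun l => a (f l)) (a j))

/-- so does any symmetric positive square root of `J + 4` -/
def QStmt : Prop := ∀ (ι : Type) [Fintype ι], ∀ β ∈ Icc (0 : ℝ) 1, ∀ (c d : ι → ℝ)
  (Q : ∀ n, Mx n → Mx n), (∀ n (J : Mx n), Jᵀ = J → opn J ≤ 3 →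
    (Q n J).PosSemidef ∧ Q n J * Q n J = J + (4 : ℝ) • (1 : Mx n)) →
  ∀ U : Nt ι, Ap β c d U → Ap β c d fun n J a => Q n J *ᵥ U n J a



end Crest.Agent.T157.Z

end
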