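import Crest.Agent.T157.KTc_36
import Crest.Agent.T157.ZTh_16
import Crest.Agent.T157.KFo_54
import Crest.Agent.T157.ZQ_64
import Crest.Agent.T157.ZAll_73
import Crest.Agent.T157.ZfTr_23
import Crest.Agent.T157.KStA_47
import Crest.Agent.T157.KGt_48
import Crest.Agent.T157.ZSol_23
import Crest.Agent.T157.KBp_91
import Crest.Agent.T157.RegTool_31
import Crest.Agent.T157.ZLip_85
import Crest.Agent.T157.KW_15_Mg
import Crest.Agent.T157.KDi_8
import Crest.Agent.T157.AtC_39

-- ▼ part T157/KTd_68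
section

/-!
# Row 157, part B, block S5 (helper68): the dictionary of the thermal calculus
-/

set_option autoImplicit false

noncomputable section

namespace Crest.Agent.T157.K

open MeasureTheory ProbabilityTheory Matrix Set Filter
open Crest.ProbabilityR.SpinGlassDynamics
open Crest.Agent.T157.E Crest.Agent.T157.Eig
open Crest.Agent.T157.Tap (V Mx)
open Crest.Agent.T157.Z (Nt Nw Bd cp Ap Hp Ty Rq RL rows hpStmt apA lipStmt)
open Crest.Agent.T157.Zf (QQ Vf)
open Crest.Agent.T157.SL (Wt px MG SInt)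

namespace Td68

variable {n : ℕ}

lemma cbsv (s : Cube n) : cb (sv s) = s := by
  funext i
  change decide (0 ≤ spin (s i)) = s i
  cases s i <;> simp [spin]

lemma svcb {v : V n} (h : ∀ i, v i = 1 ∨ v i = -1) : sv (cb v) = v := by
  funext i
  change spin (decide (0 ≤ v i)) = v i
  rcases h i with e | e <;> simp [e, spin]

lemma wtI (J : Mx n) (y : V n) : Wt (ising J y) := Wt.of_pos fun _ => Real.exp_pos _

/-- the two rows -/
def tw (σ y : V n) : Bool → V n := fun t => if t then σ else y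

lemma emb_tw (σ : V n) : MeasurableEmbedding (tw σ) := by
  refine .of_measurable_inverse (g := fun a => a false) ?_ ?_ (measurable_pi_apply false) fun _ => rfl
  · refine measurable_pi_lambda _ fun t => ?_
    cases t
    · exact measurable_id
    · exact measurable_const
  · have e : range (tw σ) = (fun a : Bool → V n => a true) ⁻¹' {σ} := by
      ext a
      constructor
      · rintro ⟨y, rfl⟩; rfl
      · intro h
        refine ⟨a false, funext fun t => ?_⟩
        cases t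
        · rfl
        · exact (show a true = σ from h).symm
    rw [e]
    exact measurable_pi_apply true (measurableSet_singleton σ)

/-- the law of the rows is the image of the channel -/
lemma RL_tw (r : ℝ) (σ : V n) : RL (wc r) (wd r) σ =
    ((SL.Gs (Fin n)).map fun z => r • σ + √r • z).map (tw σ) := by
  have hm := R339.Guerra.mp_comp (ι := Bool × Fin n) (fun i : Fin n => (false, i))
    fun _ _ h => congrArg Prod.snd h
  have m1 : Measurable fun z : V n => r • σ + √r • z := by fun_prop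
  rw [Measure.map_map (emb_tw σ).measurable m1]
  conv_rhs => rw [show SL.Gs (Fin n) = _ from hm.map_eq.symm]
  rw [Measure.map_map ((emb_tw σ).measurable.comp m1) hm.measurable, RL]
  congr 1
  funext w t i
  cases t
  · rfl
  · simp [rows, wc, wd, tw]

lemma RL_real (r : ℝ) (x : Cube n) (P : Cube n → V n → Prop) :
    (RL (wc r) (wd r) (sv x)).real {a | ¬ P (cb (a true)) (a false)} = px sv r {y | ¬ P x y} x := by
  rw [RL_tw, Measure.real, (emb_tw _).map_apply, px, Measure.real]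
  congr 2
  ext y
  change ¬ P (cb (sv x)) y ↔ ¬ P x y
  rw [cbsv]

lemma law_px {v : Cube n → ℝ} (hv : Wt v) (r : ℝ) (B : Set (V n)) :
    (SL.law sv v r).real B = mean v (px sv r B) := by
  have := fun x : Cube n => SL.isProb_path (r • sv x) √r
  simp only [SL.law, Measure.real, Measure.coe_finsetSum, Finset.sum_apply, Measure.smul_apply,
    smul_eq_mul, mean, px]
  rw [ENNReal.toReal_sum fun x _ => ENNReal.mul_ne_top ENNReal.ofReal_ne_top (measure_ne_top _ _)]
  exact Finset.sum_congr rfl fun x _ => by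
    rw [ENNReal.toReal_mul, ENNReal.toReal_ofReal (hv.prob_nonneg x)]

/-- likely events of the world `(s, y)` -/
lemma hp_iff (β r : ℝ) (P : ∀ n, Mx n → Cube n → V n → Prop) :
    (Hp β (wc r) (wd r) fun n J a => P n J (cb (a true)) (a false)) ↔ ∃ κ > (0 : ℝ),
      Top.Whp disorderLaw fun n g => mean (ising (β • Jmat n g) 0)
        (fun x => px sv r {y | ¬ P n (β • Jmat n g) x y} x) ≤ Real.exp (-κ * n) := by
  simp only [Hp, RL_real, gibbsWeight_eq_ising]

lemma ty_iff (β r : ℝ) (P : ∀ n, Mx n → V n → Prop) :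
    Ty β r P ↔ Hp β (wc r) (wd r) fun n J a => P n J (a false) := by
  rw [hp_iff β r fun n J _ y => P n J y]
  simp only [Ty, gibbsWeight_eq_ising, law_px (wtI _ _)]

lemma meas_mean (J : Mx n) {X : F2 n} (hX : ∀ s, Measurable (X s)) :
    Measurable fun y => mean (ising J y) fun s => X s y := by
  have a : ∀ s, Measurable fun y : V n => ising J y s := fun s =>
    (Real.continuous_exp.comp (continuous_const.add (continuous_id.dotProduct
      continuous_const))).measurable
  exact Finset.measurable_sum _ fun s _ =>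
    ((a s).div (Finset.measurable_sum _ fun s _ => a s)).mul (hX s)

/-- Bayes formula for bounded measurable functions -/
lemma int_mean (J : Mx n) {r B : ℝ} (hr : 0 ≤ r) {X : F2 n} (hX : ∀ s, Measurable (X s))
    (hB : ∀ s y, 0 ≤ X s y ∧ X s y ≤ B) :
    Integrable (fun y => mean (ising J y) fun s => X s y) (SL.law sv (ising J 0) r) ∧
    ∫ y, (mean (ising J y) fun s => X s y) ∂SL.law sv (ising J 0) r = PM J r X := by
  have hb : ∀ s y, |X s y| ≤ B := fun s y => by rw [abs_of_nonneg (hB s y).1]; exact (hB s y).2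
  have m : MG fun y => mean (ising J y) fun s => X s y :=
    .of_bdd (meas_mean J hX) B fun y => (wtI J y).abs_mean_le fun s => hb s y
  refine ⟨m.int_law, ?_⟩
  rw [SL.integral_law (wtI J 0) m.meas (.of_mg fun _ => m), PM,
    SL.bayes (wtI J 0) hr (.of_mg fun s => .of_bdd (hX s) B (hb s))]
  simp only [SL.mean_post_sv, tilt_ising, zero_add]

lemma mkv (J : Mx n) {r t B : ℝ} (hr : 0 ≤ r) (ht : 0 < t) {X : F2 n} (hX : ∀ s, Measurable (X s))
    (hB : ∀ s y, 0 ≤ X s y ∧ X s y ≤ B) :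
    (SL.law sv (ising J 0) r).real {y | t < mean (ising J y) fun s => X s y} ≤ PM J r X / t := by
  have := SL.isProb_law (φ := sv) (s := r) (wtI J 0)
  obtain ⟨h1, h2⟩ := int_mean J hr hX hB
  have h3 := mul_meas_ge_le_integral_of_nonneg
    (ae_of_all _ fun y => (wtI J y).mean_nonneg fun s => (hB s y).1) h1 t
  rw [h2, mul_comm, ← le_div_iff₀ ht] at h3
  refine le_trans (measureReal_mono fun y hy => ?_) h3
  exact le_of_lt (show t < _ from hy)

lemma PM_ind (J : Mx n) (r : ℝ) {B : Cube n → Set (V n)} (hB : ∀ s, MeasurableSet (B s)) :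
    PM J r (fun s => (B s).indicator 1) = mean (ising J 0) fun x => px sv r (B x) x := by
  rw [PM, SL.slE_eq_mean]
  congr 1; ext x
  rw [← integral_map (f := (B x).indicator 1) (by fun_prop)
    (measurable_one.indicator (hB x)).aestronglyMeasurable, integral_indicator_one (hB x), px]

lemma ind01 (B : Set (V n)) (y : V n) : 0 ≤ B.indicator (1 : V n → ℝ) y ∧ B.indicator 1 y ≤ (1 : ℝ) := by
  by_cases h : y ∈ B <;> simp [h]

lemma mass_eq (w : Cube n → ℝ) (P : Cube n → V n → Prop) (y : V n) :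
    mass w {s | ¬ P s y} = mean w fun s => {y | ¬ P s y}.indicator 1 y := by
  classical
  simp only [mass, mean, Finset.sum_filter, indicator, mem_ofPred_eq, Pi.one_apply, mul_ite, mul_one,
    mul_zero]

lemma gib (J : Mx n) {r t : ℝ} (hr : 0 ≤ r) (ht : 0 < t) (P : Cube n → V n → Prop) :
    (SL.law sv (ising J 0) r).real {y | ¬ mass (ising J y) {s | ¬ P s y} ≤ t} ≤
      (mean (ising J 0) fun x => px sv r {y | ¬ P x y} x) / t := by
  have := SL.isProb_law (φ := sv) (s := r) (wtI J 0)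
  let B : Cube n → Set (V n) := fun x =>
    toMeasurable ((SL.Gs (Fin n)).map fun z => r • sv x + √r • z) {y | ¬ P x y}
  have mB : ∀ x, MeasurableSet (B x) := fun x => measurableSet_toMeasurable _ _
  have h := mkv J hr ht (X := fun s => (B s).indicator 1)
    (fun s => measurable_one.indicator (mB s)) fun s => ind01 (B s)
  have e : (fun x => px sv r (B x) x) = fun x => px sv r {y | ¬ P x y} x := funext fun x => by
    simp only [px, B, Measure.real, measure_toMeasurable]
  rw [PM_ind J r mB, e] at h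
  refine (measureReal_mono fun y hy => ?_).trans h
  refine (not_le.1 hy).trans_le ?_
  rw [mass_eq]
  exact (wtI J y).mean_mono fun s =>
    indicator_le_indicator_of_subset (subset_toMeasurable _ _) (fun _ => zero_le_one) y

lemma gib' (J : Mx n) {r t : ℝ} (hr : 0 ≤ r) (ht : 0 ≤ t) (P : Cube n → V n → Prop)
    (hP : ∀ s, MeasurableSet {y | P s y}) :
    (mean (ising J 0) fun x => px sv r {y | ¬ P x y} x) ≤
      t + (SL.law sv (ising J 0) r).real {y | ¬ mass (ising J y) {s | ¬ P s y} ≤ t} := by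
  have := SL.isProb_law (φ := sv) (s := r) (wtI J 0)
  have mB : ∀ s, MeasurableSet {y | ¬ P s y} := fun s => (hP s).compl
  have mX : ∀ s, Measurable ({y | ¬ P s y}.indicator (1 : V n → ℝ)) := fun s =>
    measurable_one.indicator (mB s)
  obtain ⟨h1, h2⟩ := int_mean J hr mX fun s => ind01 _
  simp only [mass_eq]
  have mA : MeasurableSet {y | ¬ (mean (ising J y) fun s => {y | ¬ P s y}.indicator 1 y) ≤ t} :=
    (measurableSet_le (meas_mean J mX) measurable_const).compl
  rw [← PM_ind J r mB, ← h2, ← integral_indicator_one mA]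
  refine (integral_mono h1 ((integrable_const t).add ((integrable_const 1).indicator mA))
    fun y => ?_).trans_eq ?_
  · by_cases hy : (mean (ising J y) fun s => {y | ¬ P s y}.indicator 1 y) ≤ t
    · exact le_add_of_le_of_nonneg hy (indicator_nonneg (fun _ _ => zero_le_one) y)
    · rw [Pi.add_apply, indicator_of_mem (show y ∈ {y | ¬ (mean (ising J y) fun s =>
        {y | ¬ P s y}.indicator 1 y) ≤ t} from hy)]
      exact le_add_of_nonneg_of_le ht ((wtI J y).mean_le fun s => (ind01 _ y).2)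
  · rw [integral_add' (integrable_const t) ((integrable_const 1).indicator mA), integral_const,
      probReal_univ, one_smul]
    rfl

lemma whp_gj {β : ℝ} (hβ : β ∈ Icc (0 : ℝ) 1) : Top.Whp disorderLaw fun n g => GJ (β • Jmat n g) :=
  Z.Hp58.whp_opn.imp fun n g hg => ⟨by rw [transpose_smul, Jmat_transpose],
    fun i => by rw [Matrix.smul_apply, Jmat_diag, smul_zero], by
      rw [opn_smul, abs_of_nonneg hβ.1]
      exact (mul_le_of_le_one_left (opn_nonneg _) hβ.2).trans hg⟩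

lemma gj (ι : Type) [Fintype ι] (β : ℝ) (hβ : β ∈ Icc (0 : ℝ) 1) (c d : ι → ℝ) :
    Hp β c d fun _ J _ => GJ J :=
  ⟨1, one_pos, (whp_gj hβ).imp fun n g hg => (Z.Hp58.wt_gibbs n β g).mean_le fun x => by
    simp only [hg, not_true_eq_false, ofPred_false, measureReal_empty]
    exact (Real.exp_pos _).le⟩

/-- words which agree on a likely event -/
lemma ap_congr {ι : Type} [Fintype ι] {β : ℝ} {c d : ι → ℝ} {U U' : Nt ι} (h : Ap β c d U)
    (e : Hp β c d fun n J a => U' n J a = U n J a) : Ap β c d U' :=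
  apA.lim ι β c d U' fun ε hε => ⟨U, h, hpStmt.mono ι β c d _ _ e (.of_forall fun n J a ha => by
    rw [ha, sub_self, nrm_zero]; positivity)⟩

lemma jq (n : ℕ) (J : Mx n) (h : GJ J) : JQ J (QQ J) := ⟨h.1, h.2.1, h.2.2, Sq.rt_symm _, by
  have e : Zf.AA J = J + (4 : ℝ) • (1 : Mx n) := by rw [Zf.AA, (lipStmt.tJ_le n J).2 h.2.2]
  rw [QQ, e]
  exact (Sq.g1_shift (herm_iff.2 h.1) h.2.2 (by norm_num)).mul⟩

lemma rq (β r : ℝ) (u : ∀ n, Mx n → V n → V n) (h : Rq β r u) : TY β r u :=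
  apA.emb Unit Bool β (wc r) (wd r) ⟨fun _ => false, fun _ _ _ => rfl⟩
    (fun n J a => u n J (a ())) h

lemma spn (β : ℝ) (hβ : β ∈ Icc (0 : ℝ) 1) (r : ℝ) : TC β r fun _ _ s _ => sv s :=
  ap_congr (apA.net Bool β hβ _ _ _ (Nw.inp true))
    (hpStmt.mono _ β _ _ _ _ (hpStmt.spin Bool β (wc r) (wd r) true rfl rfl)
      (.of_forall fun _ _ _ ha => svcb ha))

lemma fld (β : ℝ) (hβ : β ∈ Icc (0 : ℝ) 1) (r : ℝ) : TY β r fun _ _ y => y :=
  apA.net Bool β hβ (wc r) (wd r) (fun _ _ a => a false) (Nw.inp false)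

lemma cgr (β : ℝ) (hβ : β ∈ Icc (0 : ℝ) 1) (r : ℝ) (U U' : Vf) (e : ∀ n J, GJ J → U n J = U' n J)
    (h : TC β r U) : TC β r U' :=
  ap_congr h (hpStmt.mono _ β _ _ _ _ (gj Bool β hβ _ _)
    (.of_forall fun n J _ hJ => by rw [e n J hJ]))

lemma tl (β r : ℝ) (m : ℕ) (U : Vf) (h : TC β r U) : TL β r m fun n J s y _ => U n J s y :=
  apA.emb Bool (Bool ⊕ Fin m) β (Sum.elim (wc r) 0) (Sum.elim (wd r) 1)
    Function.Embedding.inl (fun n J a => U n J (cb (a true)) (a false)) h

lemma lab (β : ℝ) (hβ : β ∈ Icc (0 : ℝ) 1) (r : ℝ) (m : ℕ) (l : Fin m) :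
    TL β r m fun _ _ _ _ w => w l :=
  apA.net (Bool ⊕ Fin m) β hβ (Sum.elim (wc r) 0) (Sum.elim (wd r) 1) (fun _ _ a => a (.inr l))
    (Nw.inp (Sum.inr l))

lemma lim (β r : ℝ) (u : ∀ n, Mx n → V n → V n) (h : ∀ ε > (0 : ℝ), ∃ u', TY β r u' ∧
    Ty β r fun n J y => nrm (u n J y - u' n J y) ≤ ε * √n) : TY β r u :=
  apA.lim Bool β (wc r) (wd r) (fun n J a => u n J (a false)) fun ε hε => by
    obtain ⟨u', h1, h2⟩ := h ε hε
    exact ⟨fun n J a => u' n J (a false), h1,
      (ty_iff β r fun n J y => nrm (u n J y - u' n J y) ≤ ε * √n).1 h2⟩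

lemma flat (β r : ℝ) (u : ∀ n, Mx n → V n → V n) (h : TY β r u) :
    (∃ C ≥ (0 : ℝ), Ty β r fun n J y => nrm (u n J y) ≤ C * √n) ∧
    ∀ ε > (0 : ℝ), ∃ M ≥ (0 : ℝ), Ty β r fun n J y => nrm (u n J y - cp M (u n J y)) ≤ ε * √n ∧
      ∀ S : Finset (Fin n), √(∑ i ∈ S, u n J y i ^ 2) ≤ ε * √n + M * √S.card := by
  obtain ⟨⟨C, hC, h1⟩, h2⟩ := apA.bd Bool β (wc r) (wd r) (fun n J a => u n J (a false)) h
  refine ⟨⟨C, hC, (ty_iff β r fun n J y => nrm (u n J y) ≤ C * √n).2 h1⟩, fun ε hε => ?_⟩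
  obtain ⟨M, hM, h3⟩ := h2 ε hε
  exact ⟨M, hM, (ty_iff β r fun n J y => nrm (u n J y - cp M (u n J y)) ≤ ε * √n ∧
    ∀ S : Finset (Fin n), √(∑ i ∈ S, u n J y i ^ 2) ≤ ε * √n + M * √S.card).2 h3⟩

lemma gibbs (β r : ℝ) (hr : 0 ≤ r) (P : ∀ n, Mx n → Cube n → V n → Prop)
    (h : Hp β (wc r) (wd r) fun n J a => P n J (cb (a true)) (a false)) : ∃ κ > (0 : ℝ),
    Ty β r fun n J y => mass (ising J y) {s | ¬ P n J s y} ≤ Real.exp (-κ * n) := by
  obtain ⟨κ, hκ, h⟩ := (hp_iff β r P).1 h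
  refine ⟨κ / 2, half_pos hκ, κ / 2, half_pos hκ, h.imp fun n g hg => ?_⟩
  rw [gibbsWeight_eq_ising]
  refine (gib _ hr (Real.exp_pos _) (P n (β • Jmat n g))).trans ?_
  rw [div_le_iff₀ (Real.exp_pos _), ← Real.exp_add]
  exact hg.trans_eq (congrArg _ (by ring))

lemma gibbs' (β : ℝ) (hβ : β ∈ Icc (0 : ℝ) 1) (r : ℝ) (hr : 0 ≤ r)
    (P : ∀ n, Mx n → Cube n → V n → Prop) (hP : ∀ n J s, GJ J → MeasurableSet {y | P n J s y})
    (κ : ℝ) (hκ : 0 < κ)
    (h : Ty β r fun n J y => mass (ising J y) {s | ¬ P n J s y} ≤ Real.exp (-κ * n)) :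
    Hp β (wc r) (wd r) fun n J a => P n J (cb (a true)) (a false) := by
  obtain ⟨k, hk, h⟩ := h
  have h0 := lt_min hκ hk
  refine (hp_iff β r P).2 ⟨min κ k / 2, half_pos h0, (h.and (whp_gj hβ)).mono ?_⟩
  filter_upwards [Z.Hp58.two_exp h0] with n hn g hg
  have n0 : (0 : ℝ) ≤ n := Nat.cast_nonneg n
  have a1 : Real.exp (-κ * n) ≤ Real.exp (-min κ k * n) :=
    Real.exp_le_exp.2 (by nlinarith only [min_le_left κ k, n0])
  have a2 : Real.exp (-k * n) ≤ Real.exp (-min κ k * n) :=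
    Real.exp_le_exp.2 (by nlinarith only [min_le_right κ k, n0])
  have a3 := gib' (β • Jmat n g) hr (Real.exp_pos (-κ * n)).le (P n (β • Jmat n g))
    fun s => hP n _ s hg.2
  have a4 := hg.1
  rw [gibbsWeight_eq_ising] at a4
  linarith

end Td68

open Td68 in
theorem tcStmt : TcStmt where
  jq := jq
  gj := gj
  cbsv _ := cbsv
  ty β r _ P := ty_iff β r P
  rq := rq
  spin := spn
  fld := fld
  congr := cgr
  tl := tl
  lab := lab
  lim β r _ := lim β r
  flat β r _ := flat β r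
  gibbs := gibbs
  gibbs' := gibbs'
  mkv _ J _ _ _ hr ht hX := fun ⟨_, hB⟩ => mkv J hr ht (fun s => (hX s).measurable) hB

end Crest.Agent.T157.K

end
end

-- ▼ part T157/KCe_22
section

/-!
# Row 157, thermal calculus (helper22): networks of approximable words, bounded continuous letters
-/

set_option autoImplicit false

noncomputable section

namespace Crest.Agent.T157.K

open MeasureTheory Matrix Set Filter
open Crest.Agent.T157.E Crest.Agent.T157.Eig
open Crest.Agent.T157.Tap (V Mx)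
open Crest.Agent.T157.Z (Nt Nw Bd cp Ap Hp nA lipStmt hpStmt uiStmt apA apB)
open Crest.Agent.T157.Z.ApB11 (hp_mono nrm_mono nrm_abs nrm_tri clip_neg)

theorem compStmt : CompStmt := by
  intro ι κ _ _ β hβ c d X U hX hU ε hε
  obtain ⟨L, L0, hL⟩ := lipStmt.lip ι False X hX
  set e := Fintype.equivFin ι
  obtain ⟨m, Y, hY, hp⟩ := apA.com κ β c d _ (fun l => U (e.symm l)) (fun l => hU _)
    (ε / (2 * (L * Fintype.card ι + 1))) (by positivity)
  have hZ := lipStmt.comp ι _ False X (fun j => Y (e j)) hX fun j => (hY _).1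
  obtain ⟨M, hM, hq⟩ := uiStmt _ β hβ (Sum.elim c 0) (Sum.elim d 1) _ hZ (ε / 2) (by positivity)
  refine ⟨m, _, (lipStmt.clip _ _ M hM hZ).1, (lipStmt.clip _ _ M hM hZ).2,
    hp_mono hpStmt (hpStmt.and _ β _ _ _ _ hp hq) fun n J a ha =>
      (nrm_tri _ (X n J fun j => Y (e j) n J a) _).trans ?_⟩
  have h1 := hL n J J (fun j => U j n J fun l => a (.inl l)) fun j => Y (e j) n J a
  rw [sub_self, opn_zero, mul_zero, add_zero] at h1
  have h2 : nA ((fun j => U j n J fun l => a (.inl l)) - fun j => Y (e j) n J a) ≤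
      Fintype.card ι * (ε / (2 * (L * Fintype.card ι + 1)) * √n) := by
    unfold nA
    refine (Finset.sum_le_sum fun j _ => ?_).trans_eq (by
      rw [Finset.sum_const, Finset.card_univ, nsmul_eq_mul])
    simpa using ha.1 (e j)
  have h3 : L * (Fintype.card ι * (ε / (2 * (L * Fintype.card ι + 1)) * √n)) ≤ ε / 2 * √n := by
    rw [← mul_assoc, ← mul_assoc]
    refine mul_le_mul_of_nonneg_right ?_ (Real.sqrt_nonneg _)
    rw [mul_div_assoc', div_le_iff₀ (by positivity)]
    nlinarith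
  linarith [ha.2, mul_le_mul_of_nonneg_left h2 L0]

namespace Ce22

variable {n : ℕ}

/-- Lipschitz approximation that keeps the parity -/
lemma approx {f : ℝ → ℝ} (hf : Continuous f) {M σ R δ : ℝ} (hM : ∀ t, |f t| ≤ M)
    (hσ : σ = 1 ∨ σ = -1) (hs : ∀ t, f (-t) = σ * f t) (hR : 0 ≤ R) (hδ : 0 < δ) :
    ∃ g : ℝ → ℝ, (∀ t, g (-t) = σ * g t) ∧ (∃ L, LipschitzWith L g) ∧ (∀ t, |g t| ≤ M + δ) ∧
      ∀ t, |t| ≤ R → |f t - g t| ≤ δ := by
  obtain ⟨p, hp⟩ := exists_polynomial_near_of_continuousOn (-R) R f hf.continuousOn δ hδ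
  have hc : ContDiff ℝ 1 fun x : ℝ => p.eval x := by
    simpa using Polynomial.contDiff_aeval (𝕜 := ℝ) p 1
  obtain ⟨K, hK⟩ := hc.contDiffOn.exists_lipschitzOnWith one_ne_zero (convex_Icc (-R) R)
    isCompact_Icc
  have hm : ∀ t : ℝ, max (-R) (min R t) ∈ Icc (-R) R := fun t =>
    ⟨le_max_left _ _, max_le (by linarith) (min_le_left _ _)⟩
  have hl : LipschitzWith 1 fun t : ℝ => max (-R) (min R t) :=
    (LipschitzWith.id.const_min R).const_max (-R)
  have hh : LipschitzWith (K * 1) fun t : ℝ => p.eval (max (-R) (min R t)) :=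
    lipschitzOnWith_univ.1 (hK.comp hl.lipschitzOnWith fun t _ => hm t)
  set h : ℝ → ℝ := fun t => p.eval (max (-R) (min R t))
  have hb : ∀ t, |h t| ≤ M + δ := fun t => by
    have := abs_sub_abs_le_abs_sub (h t) (f (max (-R) (min R t)))
    linarith [hp _ (hm t), hM (max (-R) (min R t))]
  have ha : ∀ t, |t| ≤ R → |h t - f t| ≤ δ := fun t ht => by
    have := (hp _ (hm t)).le
    rw [abs_le] at ht
    have e : max (-R) (min R t) = t := by rw [min_eq_right ht.2, max_eq_right ht.1]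
    simpa only [h, e] using this
  refine ⟨fun t => (h t + σ * h (-t)) / 2, fun t => ?_, ⟨K * 1, ?_⟩, fun t => ?_, fun t ht => ?_⟩
  · rcases hσ with rfl | rfl <;> simp only [neg_neg] <;> ring
  · refine LipschitzWith.of_dist_le_mul fun x y => ?_
    have h1 := hh.dist_le_mul x y
    have h2 := hh.dist_le_mul (-x) (-y)
    rw [dist_neg_neg] at h2
    rw [Real.dist_eq (h _), abs_le] at h1 h2
    rw [Real.dist_eq (_ / 2), abs_le]
    rcases hσ with rfl | rfl <;> constructor <;> linarith [h1.1, h1.2, h2.1, h2.2]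
  · have h1 := hb t; have h2 := hb (-t)
    rw [abs_le] at h1 h2 ⊢
    rcases hσ with rfl | rfl <;> constructor <;> linarith [h1.1, h1.2, h2.1, h2.2]
  · have h1 := ha t ht; have h2 := ha (-t) (by rwa [abs_neg])
    rw [hs, abs_le] at h2
    rw [abs_le] at h1 ⊢
    rcases hσ with rfl | rfl <;> constructor <;> linarith [h1.1, h1.2, h2.1, h2.2]

lemma abs_cp {M : ℝ} (hM : 0 ≤ M) (u : V n) (i : Fin n) : |cp M u i| ≤ M :=
  abs_le.2 ⟨le_max_left _ _, max_le (by linarith) (min_le_left _ _)⟩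

lemma nrm_one : nrm (fun _ : Fin n => (1 : ℝ)) = √n := by simp [nrm, dotProduct]

/-- few sites are large -/
lemma est {φ : ℝ → ℝ} {A δ R M : ℝ} (hR : 0 < R) (hM : 0 ≤ M) (hδ : 0 ≤ δ) (h1 : ∀ t, |φ t| ≤ A)
    (h2 : ∀ t, |t| ≤ R → |φ t| ≤ δ) (B U : V n) :
    nrm (fun i => φ (B i) * U i) ≤ A * nrm (U - cp M U) + M * (δ * √n + A / R * nrm B) := by
  have A0 : 0 ≤ A := (abs_nonneg _).trans (h1 0)
  refine (nrm_mono (v := A • (fun i => |(U - cp M U) i|) +
    M • (δ • (fun _ => (1 : ℝ)) + (A / R) • fun i => |B i|)) fun i => ?_).trans ?_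
  · have e : φ (B i) * U i = φ (B i) * (U i - cp M U i) + φ (B i) * cp M U i := by ring
    have h3 : |φ (B i)| ≤ δ + A / R * |B i| := by
      rcases le_total |B i| R with h | h
      · exact (h2 _ h).trans (le_add_of_nonneg_right (by positivity))
      · have : A ≤ A / R * |B i| := by
          rw [div_mul_eq_mul_div, le_div_iff₀ hR]; exact mul_le_mul_of_nonneg_left h A0
        linarith [h1 (B i)]
    simp only [Pi.add_apply, Pi.smul_apply, smul_eq_mul, Pi.sub_apply, mul_one]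
    rw [e]
    refine (abs_add_le _ _).trans (add_le_add ?_ ?_)
    · rw [abs_mul]; exact mul_le_mul_of_nonneg_right (h1 _) (abs_nonneg _)
    · rw [abs_mul, mul_comm]; exact mul_le_mul (abs_cp hM U i) h3 (abs_nonneg _) hM
  · refine (nrm_add_le _ _).trans (add_le_add ?_ ?_)
    · rw [nrm_smul, nrm_abs, abs_of_nonneg A0]
    · rw [nrm_smul, abs_of_nonneg hM]
      refine mul_le_mul_of_nonneg_left ((nrm_add_le _ _).trans_eq ?_) hM
      rw [nrm_smul, nrm_smul, nrm_abs, nrm_one, abs_of_nonneg hδ, abs_of_nonneg (by positivity)]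

/-- the choice of the accuracies -/
lemma num {A C M ε s x y : ℝ} (A0 : 0 < A) (C0 : 0 ≤ C) (M0 : 0 ≤ M) (hε : 0 < ε) (s0 : 0 ≤ s)
    (hx : x ≤ ε / (3 * A) * s) (hy : y ≤ C * s) :
    A * x + M * (min 1 (ε / (3 * (M + 1))) * s + A / (3 * M * A * C / ε + 1) * y) ≤ ε * s := by
  have h1 : A * x ≤ ε / 3 * s := (mul_le_mul_of_nonneg_left hx A0.le).trans_eq (by field_simp)
  have h2 : M * min 1 (ε / (3 * (M + 1))) ≤ ε / 3 := by
    refine (mul_le_mul_of_nonneg_left (min_le_right _ _) M0).trans ?_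
    rw [mul_div_assoc', div_le_iff₀ (by positivity)]; nlinarith
  have h3 : M * (A / (3 * M * A * C / ε + 1) * C) ≤ ε / 3 := by
    rw [div_mul_eq_mul_div, mul_div_assoc', div_le_iff₀ (by positivity)]
    have : ε / 3 * (3 * M * A * C / ε + 1) = M * (A * C) + ε / 3 := by field_simp
    linarith
  have h4 : M * (A / (3 * M * A * C / ε + 1) * y) ≤ M * (A / (3 * M * A * C / ε + 1) * (C * s)) := by
    gcongr
  nlinarith [mul_le_mul_of_nonneg_right h2 s0, mul_le_mul_of_nonneg_right h3 s0]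

lemma lip1 {g : ℝ → ℝ} (h : ∃ L, LipschitzWith L g) :
    ∃ L, LipschitzWith L fun u : Fin 1 → ℝ => g (u 0) :=
  let ⟨_, hL⟩ := h; ⟨_, hL.comp (LipschitzWith.eval 0)⟩

end Ce22
open Ce22

theorem evStmt : EvStmt := by
  intro ι _ β hβ c d f B U hf ⟨M, hM⟩ hB
  have M0 : 0 ≤ M := (abs_nonneg _).trans (hM 0)
  obtain ⟨C, C0, hC⟩ := (apA.bd ι β c d B hB).1
  have bd : ∀ {g : ℝ → ℝ} {x : ℝ}, (∀ t, |g t| ≤ M + min 1 x) → ∀ t, |f t - g t| ≤ 2 * M + 1 :=
    fun {g x} h t => (abs_sub _ _).trans (by linarith [hM t, h t, min_le_left 1 x])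
  refine ⟨fun ho => apA.lim ι β c d _ fun ε hε => ?_, fun he hU => apA.lim ι β c d _ fun ε hε => ?_⟩
  · obtain ⟨g, g1, g2, g3, g4⟩ := approx hf hM (Or.inr rfl) (fun t => by rw [ho, neg_one_mul])
      (R := 3 * 1 * (2 * M + 1) * C / ε + 1) (δ := min 1 (ε / (3 * (1 + 1)))) (by positivity)
      (by positivity)
    refine ⟨_, apB.map ι β hβ c d 1 (fun u => g (u 0)) (fun _ => B)
      ⟨fun u => by simpa using g1 (u 0), lip1 g2⟩ fun _ => hB, hp_mono hpStmt hC fun n J a ha => ?_⟩
    have h1 := est (φ := fun t => f t - g t) (M := 1) (by positivity) zero_le_one (by positivity)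
      (bd g3) g4 (B n J a) fun _ => 1
    have e : ((fun _ => 1) - cp 1 fun _ => 1 : V n) = 0 := by funext i; simp [cp]
    rw [e, nrm_zero] at h1
    refine le_trans (le_of_eq ?_) (h1.trans (num (by positivity) C0 zero_le_one hε
      (Real.sqrt_nonneg _) (by positivity) ha))
    congr 1; funext i; simp
  · obtain ⟨M', M0', hq⟩ := (apA.bd ι β c d U hU).2 (ε / (3 * (2 * M + 1))) (by positivity)
    obtain ⟨g, g1, g2, g3, g4⟩ := approx hf hM (Or.inl rfl) (fun t => by rw [he, one_mul])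
      (R := 3 * M' * (2 * M + 1) * C / ε + 1) (δ := min 1 (ε / (3 * (M' + 1)))) (by positivity)
      (by positivity)
    refine ⟨_, apB.ev ι β hβ c d 1 (fun u => g (u 0)) (fun _ => B) U
      ⟨fun u => by simpa using g1 (u 0), lip1 g2, _, fun u => g3 (u 0)⟩ (fun _ => hB) hU,
      hp_mono hpStmt (hpStmt.and _ β _ _ _ _ hC hq) fun n J a ha => ?_⟩
    have h1 := est (φ := fun t => f t - g t) (by positivity) M0' (by positivity)
      (bd g3) g4 (B n J a) (U n J a)
    refine le_trans (le_of_eq ?_) (h1.trans (num (by positivity) C0 M0' hε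
      (Real.sqrt_nonneg _) ha.2.1 ha.1))
    congr 1; funext i; simp [sub_mul]

end Crest.Agent.T157.K

end
end

-- ▼ part T157/KAv_46
section

/-!
# Row 157, part B, kernel route (helper46): means over labels

`K.avStmt : AvStmt`.  The Monte Carlo step is the one of `ZfAv_62`; the bad set is replaced by its
measurable hull.
-/

set_option autoImplicit false

noncomputable section

namespace Crest.Agent.T157.K

open MeasureTheory ProbabilityTheory Matrix Filter Set Real
open Crest.ProbabilityR.SpinGlassDynamics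
open Crest.Agent.T157.E Crest.Agent.T157.Eig Crest.Agent.T157.Z
open Crest.Agent.T157.Tap (V Mx)
open scoped Topology

namespace Av46

variable {n : ℕ} {ι μ ν : Type} [Fintype ι] [Fintype μ] [Fintype ν]

/-- the law of the labels -/
def Lb (μ : Type) [Fintype μ] (n : ℕ) : Measure (μ → V n) :=
  (gv (μ × Fin n)).map fun w l j => w (l, j)

theorem RL_eq (σ : V n) : RL (0 : μ → ℝ) 1 σ = Lb μ n := by
  rw [RL, Lb]; congr 1; funext w l j; simp [rows]

instance : IsProbabilityMeasure (Lb μ n) := RL_eq (μ := μ) (0 : V n) ▸ inferInstance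

omit [Fintype μ] in
theorem mcu : Measurable fun (w : μ × Fin n → ℝ) (l : μ) (j : Fin n) => w (l, j) := by fun_prop

omit [Fintype ι] [Fintype μ] in
theorem mel : Measurable fun p : (ι → V n) × (μ → V n) => (Sum.elim p.1 p.2 : ι ⊕ μ → V n) :=
  (MeasurableEquiv.sumPiEquivProdPi fun _ : ι ⊕ μ => V n).symm.measurable

omit [Fintype ι] [Fintype μ] in
theorem mel1 (a : ι → V n) : Measurable fun b : μ → V n => (Sum.elim a b : ι ⊕ μ → V n) :=
  mel.comp measurable_prodMk_left

theorem emb (f : μ ↪ ν) : (Lb ν n).map (fun b l => b (f l)) = Lb μ n := by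
  rw [← RL_eq 0, Hp58.law_emb]; exact RL_eq 0

theorem pair (f : μ ⊕ μ ↪ ν) : (Lb ν n).map (fun b => (fun l => b (f (.inl l)),
    fun l => b (f (.inr l)))) = (Lb μ n).prod (Lb μ n) := by
  have m1 : Measurable fun (b : ν → V n) l => b (f l) := by fun_prop
  have m2 : Measurable fun b : μ ⊕ μ → V n => (fun l => b (.inl l), fun l => b (.inr l)) := by
    fun_prop
  have e := Hp58.split (0 : μ → ℝ) 1 (0 : μ → ℝ) 1 (0 : V n)
  rw [Sum.elim_zero_zero, Sum.elim_one_one, RL_eq, RL_eq, ← emb f] at e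
  have e2 := congrArg (Measure.map fun b : μ ⊕ μ → V n =>
    (fun l => b (.inl l), fun l => b (.inr l))) e
  rw [Measure.map_map m2 m1, Measure.map_map m2 mel] at e2
  exact e2.trans Measure.map_id

theorem split (c d : ι → ℝ) (σ : V n) {B : Set (ι ⊕ μ → V n)} (hB : MeasurableSet B) :
    RL (Sum.elim c (0 : μ → ℝ)) (Sum.elim d 1) σ B =
      ∫⁻ a, Lb μ n {b | Sum.elim a b ∈ B} ∂(RL c d σ) := by
  rw [Hp58.split, Measure.map_apply mel hB, Measure.prod_apply (mel hB), RL_eq]
  rfl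

/-- events that are likely given the rows -/
theorem fresh (β : ℝ) (c d : ι → ℝ) {k : ℝ} (hk : 0 < k) {P : ∀ n, Mx n → (ι ⊕ μ → V n) → Prop}
    (hm : ∀ n J, MeasurableSet {a | ¬ P n J a})
    (h : ∀ n J a, (Lb μ n).real {b | ¬ P n J (Sum.elim a b)} ≤ exp (-k * n)) :
    Hp β (Sum.elim c 0) (Sum.elim d 1) P := by
  refine ⟨k, hk, Top.whp_of_eventually (.of_forall fun n g =>
    (Hp58.wt_gibbs n β g).mean_le fun x => ?_)⟩
  rw [Measure.real, split c d _ (hm n _)]
  refine ENNReal.toReal_le_of_le_ofReal (exp_pos _).le ((lintegral_mono (g := fun _ =>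
    ENNReal.ofReal (exp (-k * n))) fun a => ?_).trans_eq (by simp))
  exact (ENNReal.le_ofReal_iff_toReal_le (measure_ne_top _ _) (exp_pos _).le).2 (h n _ a)

section gen
variable {α : Type} [MeasurableSpace α] (ρ : Measure α) [IsProbabilityMeasure ρ]

theorem ib {f : α → ℝ} (hf : Measurable f) {K : ℝ} (h : ∀ a, |f a| ≤ K) : Integrable f ρ :=
  Integrable.of_bound hf.aestronglyMeasurable K (.of_forall h)

theorem ico {D : α → V n} (hD : Measurable D) {K : ℝ} (hK : ∀ a, nrm (D a) ≤ K) (i : Fin n) :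
    Integrable (fun a => D a i) ρ :=
  ib ρ ((measurable_pi_apply i).comp hD) fun a => (abs_apply_le_nrm _ i).trans (hK a)

theorem nrm_int {D : α → V n} (hD : Measurable D) {K : ℝ} (hK : ∀ a, nrm (D a) ≤ K) :
    nrm (fun i => ∫ a, D a i ∂ρ) ≤ ∫ a, nrm (D a) ∂ρ := by
  obtain ⟨v, hv⟩ : ∃ v : V n, v = fun i => ∫ a, D a i ∂ρ := ⟨_, rfl⟩
  have i1 := fun i => (ico ρ hD hK i).const_mul (v i)
  have i2 := ib ρ (continuous_nrm.measurable.comp hD) (K := K) fun a =>
    (abs_of_nonneg (nrm_nonneg _)).trans_le (hK a)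
  have e : nrm v * nrm v ≤ nrm v * ∫ a, nrm (D a) ∂ρ := by
    rw [nrm_mul_self, ← integral_const_mul]
    calc v ⬝ᵥ v = ∫ a, ∑ i, v i * D a i ∂ρ := by
          rw [integral_finsetSum _ fun i _ => i1 i]
          exact Finset.sum_congr rfl fun i _ => by rw [integral_const_mul]; congr 1; rw [hv]
      _ ≤ _ := integral_mono (integrable_finsetSum _ fun i _ => i1 i) (i2.const_mul _)
          fun a => dot_le v (D a)
  rw [← hv]
  rcases (nrm_nonneg v).eq_or_lt with h0 | h0
  · rw [← h0]; exact integral_nonneg fun a => nrm_nonneg _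
  · exact le_of_mul_le_mul_left e h0

theorem jen {D : α → V n} (hD : Measurable D) {K δ : ℝ} (δ0 : 0 ≤ δ) (hK : ∀ a, nrm (D a) ≤ K) :
    nrm (fun i => ∫ a, D a i ∂ρ) ≤ δ + K * ρ.real {a | ¬ nrm (D a) ≤ δ} := by
  have hB : MeasurableSet {a | ¬ nrm (D a) ≤ δ} :=
    (measurableSet_le (continuous_nrm.measurable.comp hD) measurable_const).compl
  have i1 := (integrable_const (μ := ρ) K).indicator hB
  refine (nrm_int ρ hD hK).trans ((integral_mono_of_nonneg (.of_forall fun a => nrm_nonneg _)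
    ((integrable_const δ).add i1) (.of_forall fun a => ?_)).trans_eq ?_)
  · by_cases ha : nrm (D a) ≤ δ
    · simp only [Pi.add_apply, indicator, mem_ofPred_eq, ha, not_true_eq_false, if_false, add_zero]
    · have := hK a
      simp only [Pi.add_apply, indicator, mem_ofPred_eq, ha, not_false_eq_true, if_true]
      linarith
  · simp only [Pi.add_apply]
    rw [integral_add (integrable_const _) i1, integral_indicator_const _ hB]
    simp [mul_comm]

/-- the mean of orthogonal bounded variables -/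
theorem avg_sq {N : ℕ} {Y : Fin N → α → ℝ} (hY : ∀ t, Measurable (Y t)) {B : ℝ}
    (hB : ∀ t a, |Y t a| ≤ B) (ho : ∀ t s, s ≠ t → ∫ a, Y t a * Y s a ∂ρ = 0) :
    ∫ a, (∑ t, Y t a) ^ 2 ∂ρ ≤ N * B ^ 2 := by
  have b : ∀ t s a, |Y t a * Y s a| ≤ B ^ 2 := fun t s a => by
    rw [abs_mul, sq]
    exact mul_le_mul (hB t a) (hB s a) (abs_nonneg _) ((abs_nonneg _).trans (hB t a))
  have i1 : ∀ t s, Integrable (fun a => Y t a * Y s a) ρ := fun t s =>
    ib ρ ((hY t).mul (hY s)) (b t s)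
  simp only [sq (∑ t, Y t _), Finset.sum_mul_sum]
  rw [integral_finsetSum _ fun t _ => integrable_finsetSum _ fun s _ => i1 t s]
  refine (Finset.sum_le_sum (g := fun _ => B ^ 2) fun t _ => ?_).trans_eq (by simp)
  rw [integral_finsetSum _ fun s _ => i1 t s,
    Finset.sum_eq_single t (fun s _ h => ho t s h) fun h => absurd (Finset.mem_univ t) h]
  exact (integral_mono (i1 t t) (integrable_const _) fun a =>
    (le_abs_self _).trans (b t t a)).trans_eq (by simp)

end gen

/-- the mean over the labels -/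
def av (Y : Nt (ι ⊕ μ)) : Nt ι := fun n J a i => ∫ b, Y n J (Sum.elim a b) i ∂(Lb μ n)

omit [Fintype ι] in
theorem meas_av {Y : Nt (ι ⊕ μ)} {J : Mx n} (h : Measurable (Y n J)) : Measurable (av Y n J) :=
  measurable_pi_lambda _ fun i => (StronglyMeasurable.integral_prod_right'
    (f := fun p : (ι → V n) × (μ → V n) => Y n J (Sum.elim p.1 p.2) i)
    ((measurable_pi_apply i).comp (h.comp mel)).stronglyMeasurable).measurable

/-- a small word has a small mean -/
theorem cond {β : ℝ} (hβ : β ∈ Icc (0 : ℝ) 1) {c d : ι → ℝ} {D : Nt (ι ⊕ μ)} {K δ η : ℝ}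
    (K0 : 0 ≤ K) (δ0 : 0 ≤ δ) (η0 : 0 < η) (hD : ∀ n (J : Mx n), GJ J → ∀ a,
      (Measurable fun b => D n J (Sum.elim a b)) ∧ ∀ b, nrm (D n J (Sum.elim a b)) ≤ K * √n)
    (h : Hp β (Sum.elim c 0) (Sum.elim d 1) fun n J a => nrm (D n J a) ≤ δ * √n) :
    Hp β c d fun n J a => GJ J ∧ nrm (av D n J a) ≤ (δ + K * η) * √n := by
  obtain ⟨k, k0, hW⟩ := h
  have hev : ∀ᶠ n : ℕ in atTop, exp (-(k / 2) * n) ≤ η :=
    (tendsto_exp_atBot.comp (tendsto_natCast_atTop_atTop.const_mul_atTop_of_neg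
      (by linarith))).eventually (eventually_le_nhds η0)
  refine ⟨k / 2, by linarith, (hW.and Hp58.whp_opn).mono ?_⟩
  filter_upwards [hev] with n hn g ⟨hg, ho⟩
  have hw := Hp58.wt_gibbs n β g
  have hJ : GJ (β • Jmat n g) := ⟨by rw [transpose_smul, Jmat_transpose],
    fun i => by simp [Jmat_diag], by
      rw [opn_smul, abs_of_nonneg hβ.1]
      exact (mul_le_of_le_one_left (opn_nonneg _) hβ.2).trans ho⟩
  have m1 := hD n _ hJ
  generalize β • Jmat n g = J at *
  refine le_of_mul_le_mul_left ?_ η0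
  rw [← SL.mean_const_mul]
  refine (hw.mean_mono fun x => ?_).trans (hg.trans ?_)
  · have hB := measurableSet_toMeasurable (RL (Sum.elim c (0 : μ → ℝ)) (Sum.elim d 1) (sv x))
      {a | ¬ nrm (D n J a) ≤ δ * √n}
    have a1 := mul_meas_ge_le_lintegral₀ (μ := RL c d (sv x))
      (measurable_measure_prodMk_left (ν := Lb μ n) (mel hB)).aemeasurable (ENNReal.ofReal η)
    have a2 := ENNReal.toReal_mono (measure_ne_top _ _)
      ((a1.trans_eq (split c d (sv x) hB).symm).trans_eq (measure_toMeasurable _))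
    rw [ENNReal.toReal_mul, ENNReal.toReal_ofReal η0.le] at a2
    refine le_trans (mul_le_mul_of_nonneg_left (measureReal_mono fun a ha => ?_) η0.le) a2
    refine (ENNReal.ofReal_le_iff_le_toReal (measure_ne_top _ _)).2
      (le_of_not_ge fun hc => ha ⟨hJ, ?_⟩)
    refine (jen (Lb μ n) (m1 a).1 (δ := δ * √n) (by positivity) (m1 a).2).trans ?_
    have h1 : (Lb μ n).real {b | ¬ nrm (D n J (Sum.elim a b)) ≤ δ * √n} ≤ η := by
      refine le_trans (ENNReal.toReal_mono (measure_ne_top _ _) (measure_mono fun b hb => ?_)) hc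
      exact subset_toMeasurable _ {a | ¬ nrm (D n J a) ≤ δ * √n} hb
    have := mul_le_mul_of_nonneg_left h1 (show 0 ≤ K * √n by positivity)
    exact (add_le_add le_rfl this).trans_eq (by ring)
  · have := mul_le_mul_of_nonneg_right hn (exp_pos (-(k / 2) * n)).le
    rwa [← exp_add, show -(k / 2) * n + -(k / 2) * n = -k * n by ring] at this

theorem tailL {F : (ν → V n) → ℝ} (hF : Measurable F) {L t : ℝ} (L0 : 0 ≤ L) (ht : 0 ≤ t)
    (h : ∀ b b', |F b - F b'| ≤ L * nA (b - b')) :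
    (Lb ν n).real {b | t ≤ F b - ∫ b, F b ∂(Lb ν n)} ≤
      exp (-t ^ 2 / (2 * (L * Fintype.card ν + 1) ^ 2)) := by
  classical
  rw [Lb, integral_map mcu.aemeasurable hF.aestronglyMeasurable, map_measureReal_apply mcu
    (measurableSet_le measurable_const (hF.sub_const _))]
  refine Conc.tail_lip (F := fun w => F fun l j => w (l, j)) (fun w w' => (h _ _).trans ?_) ht
  have e : Conc.en (w - w') = nrm (w - w') := by simp only [Conc.en, nrm, dotProduct, sq]
  have a : nA ((fun l j => w (l, j)) - fun l j => w' (l, j)) ≤ Fintype.card ν * nrm (w - w') :=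
    (Finset.sum_le_sum (g := fun _ => nrm (w - w')) fun l _ => Hp58.nrm_row_le (w - w') l).trans_eq
      (by simp)
  rw [e]
  nlinarith [mul_le_mul_of_nonneg_left a L0, nrm_nonneg (w - w')]

/-- the label mean of a bounded network -/
theorem ap_av (β : ℝ) (c d : ι → ℝ) {X : Nt (ι ⊕ μ)} (hX : Nw False X) (hb : Bd X) :
    Ap β c d (av X) := fun ε hε => by
  obtain ⟨M, M0, hM⟩ := A48.Bd.pos hb
  obtain ⟨N, hN⟩ := exists_nat_gt (16 * M ^ 2 / ε ^ 2)
  have N0 : (0 : ℝ) < N := lt_of_le_of_lt (by positivity) hN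
  let e := Fintype.equivFin (Fin N × μ)
  obtain ⟨X', hX'⟩ : ∃ X' : Nt (ι ⊕ Fin (Fintype.card (Fin N × μ))), X' = fun n J a =>
      lc (fun (_ : Unit) (_ : Fin N) => (N : ℝ)⁻¹)
        (fun t => X n J fun j => a (Sum.map id (fun l => e (t, l)) j)) () := ⟨_, rfl⟩
  have w1 : Nw False X' := hX' ▸ lipStmt.comp _ _ _ _ _ (lipStmt.lin _ _ _ _ ()) fun t =>
    A48.rel lipStmt hX _
  have mX : ∀ n J, Measurable (X n J) := fun n J =>
    ((lipStmt.cont _ _ _ hX n).comp (Continuous.prodMk_right J)).measurable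
  have mX' : ∀ n J, Measurable (X' n J) := fun n J =>
    ((lipStmt.cont _ _ _ w1 n).comp (Continuous.prodMk_right J)).measurable
  have b1 : ∀ n J a i, |X' n J a i| ≤ M := fun n J a i => by
    rw [hX']
    refine (Finset.abs_sum_le_sum_abs _ _).trans ((Finset.sum_le_sum (g := fun _ => (N : ℝ)⁻¹ * M)
      fun t _ => ?_).trans_eq ?_)
    · rw [abs_mul, abs_of_pos (inv_pos.2 N0)]
      exact mul_le_mul_of_nonneg_left (hM _ _ _ _) (inv_pos.2 N0).le
    · simp [N0.ne']
  obtain ⟨L, L0, hL⟩ := lipStmt.lip _ _ _ w1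
  refine ⟨_, X', w1, ⟨M, b1⟩, fresh β c d (k := (ε / 2) ^ 2 /
    (2 * (L * Fintype.card (Fin (Fintype.card (Fin N × μ))) + 1) ^ 2)) (by positivity)
    (fun n J => (measurableSet_le (continuous_nrm.measurable.comp (((meas_av (mX n J)).comp
      (by fun_prop)).sub (mX' n J))) measurable_const).compl) fun n J a => ?_⟩
  have mD : Measurable fun b => av X n J a - X' n J (Sum.elim a b) :=
    measurable_const.sub ((mX' n J).comp (mel1 a))
  have mF : Measurable fun b => nrm (av X n J a - X' n J (Sum.elim a b)) :=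
    continuous_nrm.measurable.comp mD
  have bA : ∀ i, |av X n J a i| ≤ M := fun i => by
    simpa [av] using norm_integral_le_of_norm_le_const (μ := Lb μ n) (C := M)
      (f := fun b => X n J (Sum.elim a b) i) (.of_forall fun b => hM _ _ _ _)
  have bD : ∀ b i, |(av X n J a - X' n J (Sum.elim a b)) i| ≤ 2 * M := fun b i =>
    (abs_sub _ _).trans (by linarith [bA i, b1 n J (Sum.elim a b) i])
  have s1 : ∀ i, ∫ b, (av X n J a - X' n J (Sum.elim a b)) i ^ 2 ∂(Lb _ n) ≤ (ε / 2) ^ 2 := fun i => by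
    obtain ⟨G, hG⟩ : ∃ G : (μ → V n) → ℝ, G = fun b =>
      (N : ℝ)⁻¹ * (av X n J a i - X n J (Sum.elim a b) i) := ⟨_, rfl⟩
    have m0 : Measurable fun b => X n J (Sum.elim a b) i :=
      (measurable_pi_apply i).comp ((mX n J).comp (mel1 a))
    have mG : Measurable G := hG ▸ (measurable_const.sub m0).const_mul _
    have G0 : ∫ b, G b ∂(Lb μ n) = 0 := by
      rw [hG, integral_const_mul, integral_sub (integrable_const _) (ib _ m0 fun b => hM _ _ _ _)]
      simp [av]
    have k := avg_sq (Lb (Fin (Fintype.card (Fin N × μ))) n) (Y := fun t b => G fun l => b (e (t, l)))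
      (B := (N : ℝ)⁻¹ * (2 * M)) (fun t => mG.comp (by fun_prop)) (fun t b => by
        rw [hG, abs_mul, abs_of_pos (inv_pos.2 N0)]
        exact mul_le_mul_of_nonneg_left ((abs_sub _ _).trans (by
          linarith [bA i, hM n J (Sum.elim a fun l => b (e (t, l))) i])) (inv_pos.2 N0).le)
      fun t s h => by
        let f : μ ⊕ μ ↪ Fin (Fintype.card (Fin N × μ)) :=
          ⟨Sum.elim (fun l => e (t, l)) fun l => e (s, l), by
            rintro (x | x) (y | y) hxy <;> have := Prod.mk.inj (e.injective hxy)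
            exacts [congrArg _ this.2, absurd this.1.symm h, absurd this.1 h, congrArg _ this.2]⟩
        have := integral_prod_mul (μ := Lb μ n) (ν := Lb μ n) G G
        rw [G0, mul_zero, ← pair f, integral_map (by fun_prop)
          (f := fun z : (μ → V n) × (μ → V n) => G z.1 * G z.2)
          ((mG.comp measurable_fst).mul (mG.comp measurable_snd)).aestronglyMeasurable] at this
        exact this
    refine le_trans (le_of_eq ?_) (k.trans ?_)
    · congr 1; funext b; congr 1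
      have : ∀ t, (fun j => (Sum.elim a b : _ → V n) (Sum.map id (fun l => e (t, l)) j)) =
          Sum.elim a fun l => b (e (t, l)) := fun t => funext (by rintro (j | j) <;> rfl)
      simp only [hG, hX', lc, Pi.sub_apply, this, mul_sub, Finset.sum_sub_distrib]
      simp [N0.ne']
    · rw [div_lt_iff₀ (by positivity)] at hN
      rw [show N * ((N : ℝ)⁻¹ * (2 * M)) ^ 2 = 4 * M ^ 2 / N by field_simp; ring, div_le_iff₀ N0]
      linarith
  have l2 : MemLp (fun b => nrm (av X n J a - X' n J (Sum.elim a b))) 2 (Lb _ n) :=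
    MemLp.of_bound mF.aestronglyMeasurable (|2 * M| * √n) (.of_forall fun b =>
      (abs_of_nonneg (nrm_nonneg _)).trans_le (L85.nrm_le_of_bd (bD b)))
  have s2 : ∫ b, nrm (av X n J a - X' n J (Sum.elim a b)) ∂(Lb _ n) ≤ ε / 2 * √n := by
    have v := variance_nonneg (fun b => nrm (av X n J a - X' n J (Sum.elim a b))) (Lb _ n)
    rw [variance_eq_sub l2] at v
    refine (abs_le_of_sq_le_sq' ((sub_nonneg.1 v).trans ?_) (by positivity)).2
    simp only [Pi.pow_apply, nrm_sq, dotProduct, ← sq]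
    rw [integral_finsetSum (f := fun i b => (av X n J a - X' n J (Sum.elim a b)) i ^ 2) _
      fun i _ => (MemLp.of_bound ((measurable_pi_apply i).comp
      mD).aestronglyMeasurable _ (.of_forall fun b => bD b i)).integrable_sq, mul_pow,
      sq_sqrt n.cast_nonneg]
    exact (Finset.sum_le_sum fun i _ => s1 i).trans_eq (by simp [mul_comm])
  refine le_trans (measureReal_mono fun b hb => ?_) ((tailL mF L0 (t := ε / 2 * √n) (by positivity)
    fun b b' => ?_).trans_eq ?_)
  · have : ε * √n < nrm (av X n J a - X' n J (Sum.elim a b)) := not_le.1 hb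
    simp only [mem_ofPred_eq]
    linarith
  · have k : ∀ b b', nrm (av X n J a - X' n J (Sum.elim a b)) -
        nrm (av X n J a - X' n J (Sum.elim a b')) ≤ L * nA (b' - b) := fun b b' => by
      have h1 := A48.tri (av X n J a) (X' n J (Sum.elim a b')) (X' n J (Sum.elim a b))
      have h2 := hL n J J (Sum.elim a b') (Sum.elim a b)
      have h3 : nA (Sum.elim a b' - Sum.elim a b) = nA (b' - b) := by
        simp only [nA, Fintype.sum_sum_type, Pi.sub_apply, Sum.elim_inl, Sum.elim_inr, sub_self,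
          nrm_zero, Finset.sum_const_zero, zero_add]
      rw [h3, sub_self, opn_zero, mul_zero, add_zero] at h2
      linarith
    have h4 : nA (b' - b) = nA (b - b') := Finset.sum_congr rfl fun l _ => by
      rw [← nrm_neg, Pi.sub_apply, Pi.sub_apply, neg_sub]
    exact abs_le.2 ⟨by linarith [k b' b], h4 ▸ k b b'⟩
  · rw [mul_pow, sq_sqrt n.cast_nonneg]; congr 1; ring

end Av46

open Av46 in
theorem avStmt : AvStmt := fun ι _ β hβ c d k U M hU hm hM => by
  refine apA.lim ι β c d _ fun ε hε => ?_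
  obtain ⟨m, X, h1, h2, h3⟩ := hU (ε / 2) (by positivity)
  obtain ⟨M', hM'⟩ := h2
  let r := Equiv.sumAssoc ι (Fin k) (Fin m)
  have w1 := A48.rel lipStmt h1 r
  have mX : ∀ n J, Measurable fun a : ι ⊕ Fin k ⊕ Fin m → V n => X n J fun j => a (r j) :=
    fun n J => ((lipStmt.cont _ _ _ w1 n).comp (Continuous.prodMk_right J)).measurable
  have m0 : ∀ n (J : Mx n), GJ J → ∀ a, Measurable fun b : Fin k → V n => U n J (Sum.elim a b) :=
    fun n J hJ a => (hm n J a hJ).comp (f := fun (b : Fin k → V n) (p : Fin k × Fin n) => b p.1 p.2)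
      (by fun_prop)
  have m1 : ∀ n, Measurable fun (b : Fin k ⊕ Fin m → V n) l =>
      b ((Function.Embedding.inl : Fin k ↪ Fin k ⊕ Fin m) l) := fun n =>
    measurable_pi_lambda _ fun l => measurable_pi_apply _
  have e1 : ∀ n (a : ι → V n) (b : Fin k ⊕ Fin m → V n), (fun l => Sum.elim a b (r (.inl l))) =
      Sum.elim a fun l => b ((Function.Embedding.inl : Fin k ↪ Fin k ⊕ Fin m) l) := fun n a b =>
    funext (by rintro (l | l) <;> rfl)
  have mU : ∀ n (J : Mx n), GJ J → ∀ a, Measurable fun b : Fin k ⊕ Fin m → V n =>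
      U n J fun l => Sum.elim a b (r (.inl l)) := fun n J hJ a => by
    simp only [e1]; exact (m0 n J hJ a).comp (m1 n)
  have bU : ∀ n (J : Mx n), GJ J → ∀ a, nrm (U n J a) ≤ |M| * √n := fun n J hJ a =>
    (hM n J a hJ).trans (mul_le_mul_of_nonneg_right (le_abs_self M) (sqrt_nonneg _))
  have bX : ∀ n J a, nrm (X n J a) ≤ |M'| * √n := fun n J a => L85.nrm_le_of_bd (hM' n J a)
  have h4 := A48.emb' hpStmt (c' := Sum.elim c (0 : Fin k ⊕ Fin m → ℝ)) (d' := Sum.elim d 1)
    r.toEmbedding (by rintro ((l | l) | l) <;> rfl) (by rintro ((l | l) | l) <;> rfl) h3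
  have h5 := cond hβ (D := fun n J a => (U n J fun l => a (r (.inl l))) - X n J fun j => a (r j))
    (K := |M| + |M'|) (δ := ε / 2) (η := ε / 2 / (|M| + |M'| + 1)) (by positivity) (by positivity)
    (by positivity) (fun n J hJ a => ⟨(mU n J hJ a).sub ((mX n J).comp (mel1 a)), fun b =>
      (nrm_sub_le _ _).trans ((add_le_add (bU n J hJ _) (bX n J _)).trans_eq (by ring))⟩) h4
  refine ⟨_, ap_av β c d w1 ⟨M', fun n J a i => hM' _ _ _ _⟩, A48.imp hpStmt h5 fun n J a h => ?_⟩
  obtain ⟨hJ, h6⟩ := h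
  refine le_trans (le_of_eq ?_) (h6.trans (mul_le_mul_of_nonneg_right ?_ (sqrt_nonneg _)))
  · congr 1; funext i
    have m2 : Measurable fun b : Fin k → V n => U n J (Sum.elim a b) i :=
      (measurable_pi_apply i).comp (m0 n J hJ a)
    simp only [av, Pi.sub_apply]
    rw [integral_sub (ico _ (D := fun b => U n J fun l => Sum.elim a b (r (.inl l)))
      (mU n J hJ a) (fun b => bU n J hJ _) i)
      (ico _ (D := fun b => X n J fun j => Sum.elim a b (r j)) ((mX n J).comp (mel1 a))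
        (fun b => bX n J _) i),
      ← integral_map mcu.aemeasurable m2.aestronglyMeasurable, ← Lb,
      ← Av46.emb (Function.Embedding.inl : Fin k ↪ Fin k ⊕ Fin m), integral_map (m1 n).aemeasurable
        m2.aestronglyMeasurable]
    simp only [e1]
  · have : (|M| + |M'|) * (ε / 2 / (|M| + |M'| + 1)) ≤ ε / 2 := by
      rw [← mul_div_assoc, div_le_iff₀ (by positivity)]; nlinarith
    linarith

end Crest.Agent.T157.K

end
end

-- ▼ part T157/KSm_64
section

/-!
# Row 157, part B, block S5: samples with given means (helper64, after `ZTh_16`)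
-/

set_option autoImplicit false

noncomputable section

namespace Crest.Agent.T157.K

open MeasureTheory ProbabilityTheory Matrix Set
open Crest.ProbabilityR.SpinGlassDynamics
open Crest.Agent.T157.E Crest.Agent.T157.Eig
open Crest.Agent.T157.Tap (V Mx)
open Crest.Agent.T157.Z
open Crest.Agent.T157.Z.Th16

namespace Sm64

variable {n : ℕ}

lemma meas_smm : Measurable fun p : V n × V n => smm p.1 p.2 := measurable_pi_lambda _ fun i => by
  refine measurable_to_bool ?_
  have : MeasurableSet {p : V n × V n | uf (p.2 i) ≤ p.1 i} :=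
    measurableSet_le (meas_uf.comp (by fun_prop)) (by fun_prop)
  convert this using 1
  ext p; simp [smm, uf]

lemma site {x : ℝ} (h : |x| ≤ 1) (b : Bool) :
    γ.real {t | decide (2 * cdf γ t - 1 ≤ x) = b} = (1 + x * spin b) / 2 := by
  obtain ⟨a1, a2⟩ := abs_le.1 h
  have e := U_eq x
  rw [min_eq_right (by linarith), max_eq_right (by linarith)] at e
  cases b
  · rw [show {t | decide (2 * cdf γ t - 1 ≤ x) = false} = {t | uf t ≤ x}ᶜ from
      Set.ext fun t => by simp [uf],
      probReal_compl_eq_one_sub (measurableSet_le meas_uf measurable_const), e]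
    simp only [spin, Bool.false_eq_true, if_false]
    ring
  · rw [show {t | decide (2 * cdf γ t - 1 ≤ x) = true} = {t | uf t ≤ x} from
      Set.ext fun t => by simp [uf], e]
    simp only [spin, if_true, mul_one]

/-- the ramp -/
def rq (δ : ℝ) (u : Fin 2 → ℝ) : ℝ := max (-1) (min 1 ((u 0 - uf (u 1)) / δ))

lemma ol_rq (δ : ℝ) : OL (rq δ) := by
  refine ⟨fun u => ?_, ?_⟩
  · have e : (-u 0 - uf (-u 1)) / δ = -((u 0 - uf (u 1)) / δ) := by
      rw [uf, uf, cdf_neg]; ring
    simp only [rq, Pi.neg_apply, e, max_def, min_def]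
    split_ifs <;> linarith
  · have a : LipschitzWith 1 fun u : Fin 2 → ℝ => u 0 := LipschitzWith.eval 0
    have b : LipschitzWith (1 * 1) fun u : Fin 2 → ℝ => cdf γ (u 1) :=
      cdf_lip.comp (LipschitzWith.eval 1)
    have c := (lipschitzWith_smul δ⁻¹).comp
      (a.sub (((lipschitzWith_smul (2 : ℝ)).comp b).sub (LipschitzWith.const' (1 : ℝ) (K := 0))))
    refine ⟨_, Eq.mp (congrArg _ (funext fun u => ?_)) ((c.const_min 1).const_max (-1))⟩
    simp only [rq, uf, Function.comp, smul_eq_mul, div_eq_inv_mul]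

lemma err {δ : ℝ} (h : 0 < δ) (s t w : ℝ) :
    (spin (decide (2 * cdf γ w - 1 ≤ s)) - rq δ ![t, w]) ^ 2 ≤
      4 * ind δ t w + 4 / δ ^ 2 * (s - t) ^ 2 := by
  have b : (spin (decide (2 * cdf γ w - 1 ≤ s)) - rq δ ![t, w]) ^ 2 ≤ 4 := by
    have b1 : -1 ≤ rq δ ![t, w] := le_max_left _ _
    have b2 : rq δ ![t, w] ≤ 1 := max_le (by norm_num) (min_le_left _ _)
    unfold spin; split_ifs <;> nlinarith
  have c0 : 0 ≤ 4 / δ ^ 2 * (s - t) ^ 2 := by positivity
  by_cases c : δ ≤ |s - t|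
  · have : 4 ≤ 4 / δ ^ 2 * (s - t) ^ 2 := by
      rw [div_mul_eq_mul_div, le_div_iff₀ (by positivity), ← sq_abs (s - t)]
      nlinarith [mul_self_le_mul_self h.le c]
    linarith [(ind_bd δ t w).1]
  have a' := abs_le.1 (not_le.1 c).le
  unfold ind
  split_ifs with e
  · linarith
  rcases not_and_or.1 e with e | e
  · have e1 : 1 ≤ (t - uf w) / δ := by rw [le_div_iff₀ h]; linarith
    have e2 : 2 * cdf γ w - 1 ≤ s := by unfold uf at e; linarith
    simp [rq, e2, spin, min_eq_left e1, c0]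
  · have e1 : (t - uf w) / δ ≤ -1 := by rw [div_le_iff₀ h]; linarith
    have e2 : ¬ 2 * cdf γ w - 1 ≤ s := by unfold uf at e; linarith
    have e3 : rq δ ![t, w] = -1 := max_eq_left ((min_le_right _ _).trans e1)
    simp only [e2, e3, spin, decide_false, Bool.false_eq_true, if_false]
    linarith

theorem law (m : V n) (F : Cube n → ℝ) (hm : ∀ i, |m i| ≤ 1) :
    ∫ w, F (smm m w) ∂gv (Fin n) = ml F m := by
  have me : Measurable (smm m) := meas_smm.comp (f := fun w => (m, w)) (by fun_prop)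
  have := Measure.isProbabilityMeasure_map (μ := gv (Fin n)) me.aemeasurable
  rw [← integral_map me.aemeasurable (measurable_of_finite F).aestronglyMeasurable,
    integral_fintype Integrable.of_finite, ml]
  refine Finset.sum_congr rfl fun s _ => ?_
  rw [smul_eq_mul, map_measureReal_apply me (measurableSet_singleton s),
    show smm m ⁻¹' {s} = univ.pi fun i => {t | decide (2 * cdf γ t - 1 ≤ m i) = s i} from
      Set.ext fun w => by simp [smm, funext_iff], Measure.real, Measure.pi_pi, ENNReal.toReal_prod]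
  congr 1
  exact Finset.prod_congr rfl fun i _ => site (hm i) (s i)

theorem ap (ι κ : Type) [Fintype ι] [Fintype κ] (β : ℝ) (c d : κ → ℝ) (f : ι ↪ κ) (j : κ)
    (hj : j ∉ range f) (hc : c j = 0) (hd : d j = 1) (U : Nt ι) (hU : Ap β (c ∘ f) (d ∘ f) U) :
    Ap β c d fun n J a => sv (smm (U n J fun l => a (f l)) (a j)) := fun ε hε => by
  set δ := ε ^ 2 / 24 with hδ
  have δ0 : 0 < δ := by positivity
  obtain ⟨m, X, h3, -, h5⟩ := hU (ε * δ / 4) (by positivity)
  let g : ι ⊕ Fin m ↪ κ ⊕ Fin m := f.sumMap (Function.Embedding.refl _)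
  let g' : (ι ⊕ Fin m) ⊕ Unit ↪ κ ⊕ Fin m := ⟨Sum.elim g fun _ => .inl j, by
    have k : ∀ a, g a ≠ .inl j := by
      rintro (a | a) e
      exacts [hj ⟨a, Sum.inl_injective e⟩, Sum.inr_ne_inl e]
    rintro (a | a) (b | b) e
    exacts [congrArg _ (g.injective e), absurd e (k a), absurd e.symm (k b), rfl]⟩
  have h6 := A48.emb' hpStmt (c' := Sum.elim c 0) (d' := Sum.elim d 1) g (by rintro (l | l) <;> rfl)
    (by rintro (l | l) <;> rfl) h5
  have h7 := A48.emb' hpStmt (c' := Sum.elim c 0) (d' := Sum.elim d 1) g'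
    (by rintro ((l | l) | l); exacts [rfl, rfl, hc]) (by rintro ((l | l) | l); exacts [rfl, rfl, hd])
    (fresh β (Sum.elim (c ∘ f) 0) (Sum.elim (d ∘ f) 1) δ0 X fun n J =>
      ((lipStmt.cont _ _ X h3 n).comp (f := fun a => (J, a)) (by fun_prop)).measurable)
  refine ⟨m, fun n J a i => rq δ fun l => (![fun n J a => X n J fun l => a (g l),
    fun _ _ a => a (.inl j)] : Fin 2 → Nt (κ ⊕ Fin m)) l n J a i,
    .map _ _ (ol_rq δ) False.elim (Fin.forall_fin_two.2 ⟨A48.rel lipStmt h3 g, .inp _⟩),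
    ⟨1, fun n J a i => abs_le.2 ⟨le_max_left _ _, max_le (by norm_num) (min_le_left _ _)⟩⟩,
    A48.imp hpStmt (hpStmt.and _ _ _ _ _ _ h6 h7) fun n J a h => ?_⟩
  obtain ⟨h1, h2⟩ := h
  rw [nrm_le_iff (by positivity), mul_pow, Real.sq_sqrt (Nat.cast_nonneg _)] at h1 ⊢
  have h8 : ∑ i, ind δ (X n J (fun l => a (g l)) i) (a (.inl j) i) ≤ 3 * δ * n := by
    rcases h2 with h2 | rfl
    · exact h2.le
    · simp
  have h9 := Finset.sum_le_sum (s := Finset.univ) fun i _ =>
    err δ0 (U n J (fun l => a (.inl (f l))) i) (X n J (fun l => a (g l)) i) (a (.inl j) i)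
  rw [Finset.sum_add_distrib, ← Finset.mul_sum, ← Finset.mul_sum] at h9
  have h10 : ∑ i, (U n J (fun l => a (.inl (f l))) i - X n J (fun l => a (g l)) i) ^ 2 ≤
      (ε * δ / 4) ^ 2 * n := le_trans (le_of_eq (Finset.sum_congr rfl fun i _ => sq _)) h1
  have h11 := mul_le_mul_of_nonneg_left h10 (show 0 ≤ 4 / δ ^ 2 by positivity)
  rw [show 4 / δ ^ 2 * ((ε * δ / 4) ^ 2 * n) = ε ^ 2 / 4 * n by field_simp] at h11
  refine le_trans (le_of_eq (Finset.sum_congr rfl fun i _ => ?_)) (h9.trans ?_)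
  · rw [← sq]
    congr 3
  · nlinarith [mul_nonneg (sq_nonneg ε) (Nat.cast_nonneg (α := ℝ) n)]

end Sm64

theorem smmStmt : SmmStmt where
  meas _ := Sm64.meas_smm
  law _ := Sm64.law
  ap ι κ _ _ β _ := Sm64.ap ι κ β

end Crest.Agent.T157.K

end
end

-- ▼ part T157/KLw_11
section

/-!
# Row 157, block S5 (helper11): the mixed sample has the law of the spin
-/

set_option autoImplicit false

noncomputable section

namespace Crest.Agent.T157.K

open MeasureTheory ProbabilityTheory Matrix Set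
open Crest.Agent.T157.E Crest.Agent.T157.Eig
open Crest.Agent.T157.Tap (V Mx)
open Crest.Agent.T157.Z (Hp RL rows)
open Crest.Agent.T157.Zf (QQ)
open Crest.Agent.T157.SL (MG)
open Crest.Agent.R339.Guerra (mp_comp mp_sum)

namespace Lw11

variable {n m : ℕ} {ι κ : Type} [Fintype ι] [Fintype κ]

theorem fub {F : (ι ⊕ κ → ℝ) → ℝ} (hm : Measurable F) (hB : ∀ z, |F z| ≤ 1) :
    ∫ z, F z ∂gv (ι ⊕ κ) = ∫ a, ∫ b, F (Sum.elim a b) ∂gv κ ∂gv ι := by
  have h := mp_sum (ι := ι) (κ := κ)
  rw [show gv (ι ⊕ κ) = _ from h.map_eq.symm,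
    integral_map h.measurable.aemeasurable hm.aestronglyMeasurable, integral_prod]
  exact (integrable_const 1).mono' (hm.comp h.measurable).aestronglyMeasurable
    (.of_forall fun z => hB _)

theorem cmp {e : κ → ι} (he : Function.Injective e) {F : (κ → ℝ) → ℝ} (hm : Measurable F) :
    ∫ w, F (fun k => w (e k)) ∂gv ι = ∫ v, F v ∂gv κ := by
  have h := mp_comp e he
  rw [show gv κ = _ from h.map_eq.symm,
    integral_map h.measurable.aemeasurable hm.aestronglyMeasurable]

omit [Fintype ι] [Fintype κ] in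
theorem m_elim (a : ι → ℝ) : Measurable fun b : κ → ℝ => (Sum.elim a b : ι ⊕ κ → ℝ) :=
  measurable_pi_lambda _ fun k => by cases k; exacts [measurable_const, measurable_pi_apply _]

theorem m_lab {α : Type} [MeasurableSpace α] {x y : α → V n} {w : α → Fin m × Fin n → ℝ}
    (hx : Measurable x) (hy : Measurable y) (hw : Measurable w) :
    Measurable fun p => lab2 (x p) (y p) (w p) := measurable_pi_lambda _ fun l => by
  rcases l with (_ | _) | l
  exacts [hy, hx, measurable_pi_lambda _ fun i => (measurable_pi_apply (l, i)).comp hw]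

theorem m_cb : Measurable (cb : V n → Cube n) := measurable_pi_lambda _ fun i => by
  refine measurable_to_bool ?_
  convert measurableSet_le (f := fun _ : V n => (0 : ℝ)) measurable_const (measurable_pi_apply i)
    using 1
  ext p; simp [cb]

theorem m_mxs (hS : SmmStmt) (J : Mx n) (a : ℝ) {α : Type} [MeasurableSpace α] {s : α → Cube n}
    {y z w : α → V n} (hs : Measurable s) (hy : Measurable y) (hz : Measurable z)
    (hw : Measurable w) : Measurable fun p => sv (mxs J a (s p) (y p) (z p) (w p)) := by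
  have h1 : Measurable fun p => sv (s p) := (measurable_of_finite sv).comp hs
  have h2 : Continuous fun q : V n × V n × V n =>
      a • q.1 + (1 - a) • pt (QQ J) q.2.1 (QQ J *ᵥ q.1 + q.2.2) :=
    (continuous_fst.const_smul a).add ((Tap.continuous_th.comp (f := fun q : V n × V n × V n =>
      q.2.1 + QQ J *ᵥ (QQ J *ᵥ q.1 + q.2.2)) (by fun_prop)).const_smul (1 - a))
  exact (measurable_of_finite sv).comp ((hS.meas n).comp
    ((h2.measurable.comp (h1.prodMk (hy.prodMk hz))).prodMk hw))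

theorem abs_int {f : (κ → ℝ) → ℝ} (h : ∀ w, |f w| ≤ 1) : |∫ w, f w ∂gv κ| ≤ 1 := by
  simpa using norm_integral_le_of_norm_le_const (μ := gv κ) (f := f) (.of_forall h)

variable {f : (Bool ⊕ Fin m → V n) → ℝ}

/-- the mean over the labels -/
def GG (f : (Bool ⊕ Fin m → V n) → ℝ) (s : Cube n) (y : V n) : ℝ :=
  ∫ v, f (lab2 (sv s) y v) ∂gv (Fin m × Fin n)

theorem m_GG (hm : Measurable f) (s : Cube n) : Measurable (GG f s) :=
  (StronglyMeasurable.integral_prod_right (f := fun y v => f (lab2 (sv s) y v)) (hm.comp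
    (m_lab measurable_const measurable_fst measurable_snd)).stronglyMeasurable).measurable

theorem small (hm : Measurable f) (hB : ∀ a, |f a| ≤ 1) (r : ℝ) (x : Cube n) :
    ∫ a, f a ∂(RL (Sum.elim (wc r) 0) (Sum.elim (wd r) 1) (sv x)) =
      ∫ g, GG f x (r • sv x + √r • g) ∂gv (Fin n) := by
  have h : Measurable fun v : Fin n ⊕ Fin m × Fin n → ℝ =>
      f (lab2 (sv x) (r • sv x + √r • fun i => v (.inl i)) fun p => v (.inr p)) :=
    hm.comp (m_lab measurable_const (by fun_prop) (by fun_prop))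
  rw [RL, integral_map (Z.Hp58.meas_rows _ _ _).aemeasurable hm.aestronglyMeasurable]
  refine Eq.trans ?_ ((cmp (ι := (Bool ⊕ Fin m) × Fin n)
    (e := Sum.elim (fun i => (.inl false, i)) fun p => (.inr p.1, p.2)) ?_ h).trans
    (fub h fun _ => hB _))
  · congr 1; ext w; congr 1
    ext ((_ | _) | l) i <;> simp [rows, lab2, wc, wd]
  · rintro (i | ⟨l, i⟩) (j | ⟨k, j⟩) <;> simp

/-- the map of the rows -/
def SS (J : Mx n) (a : ℝ) (b : (Bool ⊕ Fin 2) ⊕ Fin m → V n) : Bool ⊕ Fin m → V n :=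
  Sum.elim (fun t => if t then sv (mxs J a (cb (b (.inl (.inl true)))) (b (.inl (.inl false)))
    (b (.inl (.inr 0))) (b (.inl (.inr 1)))) else b (.inl (.inl false))) fun l => b (.inr l)

theorem m_SS (hS : SmmStmt) (J : Mx n) (a : ℝ) : Measurable (SS (m := m) J a) :=
  m_lab (w := fun (b : (Bool ⊕ Fin 2) ⊕ Fin m → V n) p => b (.inr p.1) p.2)
    (m_mxs hS J a (m_cb.comp (measurable_pi_apply _)) (measurable_pi_apply _)
      (measurable_pi_apply _) (measurable_pi_apply _)) (measurable_pi_apply _) (by fun_prop)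

/-- the resampled function -/
def XX (J : Mx n) (a : ℝ) (G : F2 n) : F2 n := fun x y =>
  cav (QQ J) (fun s ζ => ml (fun t => G t y) (a • sv s + (1 - a) • pt (QQ J) y ζ)) x

theorem big (hT : TcStmt) (hS : SmmStmt) (hm : Measurable f) (hB : ∀ a, |f a| ≤ 1) (J : Mx n)
    {a : ℝ} (ha : a ∈ Icc (0 : ℝ) 1) (r : ℝ) (x : Cube n) :
    ∫ b, f (SS J a b) ∂(RL (Sum.elim (Sum.elim (wc r) (0 : Fin 2 → ℝ)) (0 : Fin m → ℝ))
      (Sum.elim (Sum.elim (wd r) 1) 1) (sv x)) =
      ∫ g, XX J a (GG f) x (r • sv x + √r • g) ∂gv (Fin n) := by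
  have h : Measurable fun v : Fin n ⊕ Fin n ⊕ Fin n ⊕ Fin m × Fin n → ℝ =>
      f (lab2 (sv (mxs J a x (r • sv x + √r • fun i => v (.inl i)) (fun i => v (.inr (.inl i)))
        fun i => v (.inr (.inr (.inl i))))) (r • sv x + √r • fun i => v (.inl i))
        fun p => v (.inr (.inr (.inr p)))) :=
    hm.comp (m_lab (m_mxs hS J a measurable_const (by fun_prop) (by fun_prop) (by fun_prop))
      (by fun_prop) (by fun_prop))
  rw [RL, integral_map (f := fun b => f (SS J a b)) (Z.Hp58.meas_rows _ _ _).aemeasurable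
    (hm.comp (m_SS hS J a)).aestronglyMeasurable]
  refine Eq.trans ?_ ((cmp (ι := ((Bool ⊕ Fin 2) ⊕ Fin m) × Fin n)
    (e := Sum.elim (fun i => (.inl (.inl false), i)) (Sum.elim (fun i => (.inl (.inr 0), i))
      (Sum.elim (fun i => (.inl (.inr 1), i)) fun p => (.inr p.1, p.2)))) ?_ h).trans
    ((fub h fun _ => hB _).trans ?_))
  · congr 1; ext w; congr 1
    have e : ∀ l, rows (Sum.elim (Sum.elim (wc r) (0 : Fin 2 → ℝ)) (0 : Fin m → ℝ))
        (Sum.elim (Sum.elim (wd r) 1) 1) (sv x) w l = Sum.elim (Sum.elim (fun t => if t then sv x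
          else r • sv x + √r • fun i => w (.inl (.inl false), i)) fun k i => w (.inl (.inr k), i))
          (fun k i => w (.inr k, i)) l := by
      rintro (((_ | _) | l) | l) <;> ext i <;> simp [rows, wc, wd]
    simp only [SS, e, Sum.elim_inl, Sum.elim_inr, if_true, hT.cbsv, Bool.false_eq_true, if_false]
    rfl
  · rintro (i | i | i | ⟨l, i⟩) (j | j | j | ⟨k, j⟩) <;> simp
  · congr 1; ext g
    refine (fub (h.comp (m_elim g)) fun _ => hB _).trans (congrArg _ (funext fun z => ?_))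
    refine (fub (h.comp ((m_elim g).comp (m_elim z))) fun _ => hB _).trans ?_
    exact hS.law n (a • sv x + (1 - a) • pt (QQ J) (r • sv x + √r • g) (QQ J *ᵥ sv x + z))
      (fun t => GG f t (r • sv x + √r • g)) (Fo.cb_mix (Tap.cb_th _) x ha)

theorem inv (hP : PrStmt) (hR : RevStmt) {J : Mx n} (hJ : JQ J (QQ J)) {a r : ℝ}
    (ha : a ∈ Icc (0 : ℝ) 1) (hr : 0 ≤ r) {G : F2 n} (hm : ∀ s, Measurable (G s))
    (hB : ∀ s y, |G s y| ≤ 1) : PM J r (XX J a G) = PM J r G := by
  have b : ∀ s y ζ, |ml (fun t => G t y) (a • sv s + (1 - a) • pt (QQ J) y ζ)| ≤ 1 := fun s y ζ =>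
    Fo.abs_Ext_le (Fo.cb_mix (Tap.cb_th _) s ha) fun t => hB t y
  have c : ∀ s : Cube n, Continuous fun p : V n × V n => a • sv s + (1 - a) • pt (QQ J) p.1 p.2 :=
    fun s => continuous_const.add ((Tap.continuous_th.comp
      (f := fun p : V n × V n => p.1 + QQ J *ᵥ p.2) (by fun_prop)).const_smul (1 - a))
  have mX : ∀ s, MG (XX J a G s) := fun s => by
    refine .of_bdd (StronglyMeasurable.integral_prod_right (f := fun y z => ml (fun t => G t y)
      (a • sv s + (1 - a) • pt (QQ J) y (QQ J *ᵥ sv s + z))) (Measurable.stronglyMeasurable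
        (Finset.measurable_sum _ fun t _ => .mul ?_ ((hm t).comp measurable_fst)))).measurable 1
      fun y => abs_int fun _ => b _ _ _
    have := (c s).comp (f := fun p : V n × V n => (p.1, QQ J *ᵥ sv s + p.2)) (by fun_prop)
    exact (continuous_finsetProd _ fun i _ => (continuous_const.add
      (((continuous_apply i).comp this).mul continuous_const)).div_const _).measurable
  rw [hR.pm n J r _ hr mX, hR.pm n J r G hr fun s => .of_bdd (hm s) 1 (hB s)]
  congr 1; ext _ y
  refine (hR.bayes n J _ y _ hJ fun s => .of_bdd ((Fo.continuous_Ext _).comp ((c s).comp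
    (Continuous.prodMk_right y))).measurable 1 (b s y)).trans (Eq.trans ?_ (hR.inv n J _ y _ hJ))
  simp only [Ky, pw, hP.ml]
  congr 2; ext _ ζ
  exact Fo.Ext_mix _ _ a

end Lw11

open Lw11 in
theorem lawGlue : LawGlue := fun hT hS hP hR β hβ r hr a ha m P ⟨k, k0, h⟩ => by
  refine Z.A48.imp Z.hpStmt (Z.hpStmt.and _ _ _ _ _ (fun n J b => GJ J → P n J (SS J a b))
    (hT.gj _ β hβ _ _) ⟨k, k0, h.mono (.of_forall fun n g hg => le_trans ?_ hg)⟩)
    fun n J b h => h.2 h.1
  rw [gibbsWeight_eq_ising]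
  generalize β • Jmat n g = J
  have w : SL.Wt (ising J 0) := .of_pos fun _ => Real.exp_pos _
  by_cases hJ : GJ J
  swap
  · refine w.mean_mono fun x => ?_
    simp [hJ]
  obtain ⟨B, h1, h2, h3⟩ := exists_measurable_superset_forall_eq (fun x : Cube n =>
    RL (Sum.elim (wc r) (0 : Fin m → ℝ)) (Sum.elim (wd r) 1) (sv x)) {b | ¬ P n J b}
  have hm : Measurable (B.indicator (1 : (Bool ⊕ Fin m → V n) → ℝ)) := measurable_const.indicator h2
  have hB : ∀ b, |B.indicator (1 : (Bool ⊕ Fin m → V n) → ℝ) b| ≤ 1 := fun b => by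
    by_cases hb : b ∈ B <;> simp [hb]
  have e := inv hP hR (hT.jq n J hJ) ha hr (m_GG hm) fun s y => abs_int fun _ => hB _
  simp only [PM, SL.slE_eq_mean, ← small hm hB, ← big hT hS hm hB J ha] at e
  refine (w.mean_mono fun x => ?_).trans (e.trans_le (w.mean_mono fun x => ?_))
  · rw [show (fun b => B.indicator (1 : (Bool ⊕ Fin m → V n) → ℝ) (SS J a b)) = (SS J a ⁻¹' B).indicator 1 from rfl,
      integral_indicator_one (m_SS hS J a h2)]
    exact measureReal_mono fun b hb => h1 fun hp => hb fun _ => hp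
  · rw [integral_indicator_one h2, Measure.real, h3 x]; rfl

end Crest.Agent.T157.K

end
end

-- ▼ part T157/KRs_58
section

/-!
# Row 157, part B, block S5 (helper58): resampling the spin preserves the thermal calculus
-/

set_option autoImplicit false

noncomputable section

namespace Crest.Agent.T157.K

open MeasureTheory ProbabilityTheory Matrix Set
open Crest.Agent.T157.E Crest.Agent.T157.Eig
open Crest.Agent.T157.Tap (V Mx th)
open Crest.Agent.T157.Z (Nt Nw Bd Ap Hp OL apA apB hpStmt lipStmt)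
open Crest.Agent.T157.Zf (QQ AA Vf)

namespace Rs58

variable {ι : Type} [Fintype ι] {β : ℝ} {c d : ι → ℝ}

theorem ap_QQ (hβ : β ∈ Icc (0 : ℝ) 1) {U : Nt ι} (h : Ap β c d U) :
    Ap β c d fun n J a => QQ J *ᵥ U n J a :=
  Z.qStmt ι β hβ c d (fun _ J => QQ J) (fun n J h1 h3 => by
    have g : Sq.G1 (J + (4 : ℝ) • (1 : Mx n)) := Sq.g1_shift (Z.Q64.herm h1) h3 (by norm_num)
    rw [QQ, AA, (lipStmt.tJ_le n J).2 h3]
    exact ⟨PosSemidef.of_dotProduct_mulVec_nonneg g.rt.herm fun v =>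
      (dot_self_nonneg v).trans (g.rt.ge v), g.mul⟩) U h

theorem ap_th (hβ : β ∈ Icc (0 : ℝ) 1) {U : Nt ι} (h : Ap β c d U) :
    Ap β c d fun n J a => th (U n J a) :=
  apB.map ι β hβ c d 1 (fun u => Real.tanh (u 0)) (fun _ => U) ⟨fun u => Real.tanh_neg _, 1,
    LipschitzWith.of_dist_le_mul fun x y => (Da.Gr.tanh_lip _ _).trans (by
      simpa [Real.dist_eq] using dist_le_pi_dist x y 0)⟩ fun _ => h

theorem ap_add (hβ : β ∈ Icc (0 : ℝ) 1) {U W : Nt ι} (h : Ap β c d U) (h' : Ap β c d W) :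
    Ap β c d fun n J a => U n J a + W n J a := by
  simpa only [one_smul] using apB.add ι β hβ c d U W 1 1 h h'

theorem ap_inp (hβ : β ∈ Icc (0 : ℝ) 1) (j : ι) : Ap β c d fun _ _ a => a j :=
  apA.net ι β hβ c d _ (.inp j)

/-- the means of the mixed sample -/
theorem ap_mix (hβ : β ∈ Icc (0 : ℝ) 1) (t : ℝ) {S Y W : Nt ι} (hS : Ap β c d S) (hY : Ap β c d Y)
    (hW : Ap β c d W) : Ap β c d fun n J a =>
      t • S n J a + (1 - t) • pt (QQ J) (Y n J a) (QQ J *ᵥ S n J a + W n J a) :=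
  apB.add ι β hβ c d _ _ t (1 - t) hS
    (ap_th hβ (ap_add hβ hY (ap_QQ hβ (ap_add hβ (ap_QQ hβ hS) hW))))

/-- limits of approximable words with labels -/
theorem ap_lim {U : Nt ι} (h : ∀ ε > (0 : ℝ), ∃ (m : ℕ) (W : Nt (ι ⊕ Fin m)),
    Ap β (Sum.elim c 0) (Sum.elim d 1) W ∧ Hp β (Sum.elim c 0) (Sum.elim d 1) fun n J a =>
      nrm (U n J (fun l => a (.inl l)) - W n J a) ≤ ε * √n) : Ap β c d U := fun ε hε => by
  obtain ⟨m, W, h1, h2⟩ := h (ε / 2) (by linarith)
  obtain ⟨k, X, h3, h4, h5⟩ := h1 (ε / 2) (by linarith)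
  have h7 := Z.A48.inl' hpStmt (0 : Fin k → ℝ) 1 h2
  have h6 := hpStmt.and _ _ _ _ _ _ h7 h5
  let f : (ι ⊕ Fin m) ⊕ Fin k ↪ ι ⊕ Fin (m + k) :=
    ((Equiv.sumAssoc _ _ _).trans ((Equiv.refl ι).sumCongr finSumFinEquiv)).toEmbedding
  have h8 := Z.A48.emb' hpStmt (c' := Sum.elim c 0) (d' := Sum.elim d 1) f
    (by rintro ((l | l) | l) <;> rfl) (by rintro ((l | l) | l) <;> rfl) h6
  exact ⟨m + k, _, Z.A48.rel lipStmt h3 f, Z.A48.Bd.comp h4 fun _ _ a j => a (f j),
    Z.A48.imp hpStmt h8 fun n J a h => (Z.A48.tri _ _ _).trans ((add_le_add h.1 h.2).trans_eq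
      (by ring))⟩

/-- the mixed sample is approximable -/
theorem ap_mxs (T : TcStmt) (S : SmmStmt) (hβ : β ∈ Icc (0 : ℝ) 1) (r t : ℝ) :
    TL β r 2 fun _ J s y w => sv (mxs J t s y (w 0) (w 1)) := by
  let f : Bool ⊕ Fin 1 ↪ Bool ⊕ Fin 2 := (Function.Embedding.refl _).sumMap (Fin.castLEEmb one_le_two)
  have h1 := apA.emb Bool _ β (Sum.elim (wc r) (0 : Fin 2 → ℝ) ∘ f) (Sum.elim (wd r) 1 ∘ f)
    Function.Embedding.inl _ (T.spin β hβ r)
  have h2 := ap_mix hβ t h1 (ap_inp hβ (.inl false)) (ap_inp hβ (.inr 0))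
  have h3 := S.ap _ _ β hβ (Sum.elim (wc r) 0) (Sum.elim (wd r) 1) f (.inr 1)
    (by rintro ⟨l | l, h⟩ <;> simp [f, Fin.ext_iff] at h) rfl rfl _ h2
  exact h3

end Rs58

open Rs58

theorem rsGlue : RsGlue := fun T C S L β hβ r hr t ht U hU => ap_lim fun ε hε => by
  obtain ⟨m, X, hX, -, hp⟩ := hU ε hε
  have h1 := L β hβ r hr t ht m _ hp
  have h2 := apA.emb _ ((Bool ⊕ Fin 2) ⊕ Fin m) β (Sum.elim (Sum.elim (wc r) 0) 0)
    (Sum.elim (Sum.elim (wd r) 1) 1) Function.Embedding.inl _ (ap_mxs T S hβ r t)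
  refine ⟨m, _, C _ _ β hβ _ _ X (Sum.elim (fun b n J a => if b then sv (mxs J t
    (cb (a (.inl (.inl true)))) (a (.inl (.inl false))) (a (.inl (.inr 0))) (a (.inl (.inr 1))))
    else a (.inl (.inl false))) fun l _ _ a => a (.inr l)) hX ?_, Z.A48.imp hpStmt h1 ?_⟩
  · rintro ((_ | _) | l)
    exacts [ap_inp hβ _, h2, ap_inp hβ _]
  · intro n J a h
    simp only [Sum.elim_inl, if_true, T.cbsv, Bool.false_eq_true, if_false] at h
    convert h using 4
    funext j
    rcases j with j | j <;> rfl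

end Crest.Agent.T157.K

end
end

-- ▼ part T157/KTk_4
section

/-!
# Row 157, part B, block S5 (helper4): the kernel and the channel preserve the thermal calculus
-/

set_option autoImplicit false

noncomputable section

namespace Crest.Agent.T157.K

open MeasureTheory ProbabilityTheory Matrix Set
open Crest.Agent.T157.E Crest.Agent.T157.Eig
open Crest.Agent.T157.Tap (V Mx)
open Crest.Agent.T157.Z (Nt Nw Bd cp Ap Hp Ty Rq EL lc apA apB hpStmt)
open Crest.Agent.T157.Zf (QQ Vf)
open Crest.Agent.R339.Guerra (mp_comp)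

namespace Tk4

variable {n : ℕ}

/-- two labels are two independent Gaussian vectors -/
theorem mp2 (n : ℕ) : MeasurePreserving
    (fun w : Fin 2 × Fin n → ℝ => ((fun i => w (0, i), fun i => w (1, i)) : V n × V n))
    (gv (Fin 2 × Fin n)) ((gv (Fin n)).prod (gv (Fin n))) :=
  (measurePreserving_sumPiEquivProdPi (X := fun _ : Fin n ⊕ Fin n => ℝ)
    fun _ => gaussianReal 0 1).comp
    (mp_comp (Sum.elim (Prod.mk (0 : Fin 2)) (Prod.mk (1 : Fin 2)) : Fin n ⊕ Fin n → Fin 2 × Fin n)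
      (by rintro (i | i) (j | j) h <;> simp_all))

theorem mp1 (n : ℕ) : MeasurePreserving (fun (w : Fin 1 × Fin n → ℝ) (i : Fin n) => w (0, i))
    (gv (Fin 1 × Fin n)) (gv (Fin n)) :=
  mp_comp (Prod.mk (0 : Fin 1)) (Prod.mk_right_injective _)

theorem ct : Continuous Real.tanh := by
  have : Real.tanh = fun x => Real.sinh x / Real.cosh x := funext Real.tanh_eq_sinh_div_cosh
  rw [this]
  exact Real.continuous_sinh.div Real.continuous_cosh fun x => (Real.cosh_pos x).ne'

theorem meas_mxs (S : SmmStmt) (J : Mx n) (a : ℝ) (s : Cube n) (y : V n) :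
    Measurable fun p : V n × V n => mxs J a s y p.1 p.2 := by
  have h : Continuous fun p : V n × V n =>
      a • sv s + (1 - a) • pt (QQ J) y (QQ J *ᵥ sv s + p.1) := by
    have h1 : Continuous fun p : V n × V n => y + QQ J *ᵥ (QQ J *ᵥ sv s + p.1) :=
      continuous_const.add (continuous_const.matrix_mulVec (continuous_const.add continuous_fst))
    have h2 : Continuous fun p : V n × V n => pt (QQ J) y (QQ J *ᵥ sv s + p.1) :=
      continuous_pi fun i => ct.comp ((continuous_apply i).comp h1)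
    exact continuous_const.add (h2.const_smul (1 - a))
  exact (S.meas n).comp (h.measurable.prodMk measurable_snd)

/-- the kernel is the mean over two labels -/
theorem ky_eq (S : SmmStmt) (P : PrStmt) (J : Mx n) (s : Cube n) (y : V n) (F : Cube n → ℝ) :
    ∫ w, F (mxs J 0 s y (fun i => w (0, i)) fun i => w (1, i)) ∂gv (Fin 2 × Fin n) =
      Ky (QQ J) y F s := by
  have hm : Measurable fun p : V n × V n => F (mxs J 0 s y p.1 p.2) :=
    (measurable_of_finite F).comp (meas_mxs S J 0 s y)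
  obtain ⟨B, hB⟩ := (Set.finite_range fun t => |F t|).bddAbove
  have hi : Integrable (fun p : V n × V n => F (mxs J 0 s y p.1 p.2))
      ((gv (Fin n)).prod (gv (Fin n))) :=
    (integrable_const B).mono' hm.aestronglyMeasurable (.of_forall fun p => hB ⟨_, rfl⟩)
  have e := integral_map (mp2 n).aemeasurable
    (f := fun p : V n × V n => F (mxs J 0 s y p.1 p.2)) hm.aestronglyMeasurable
  rw [(mp2 n).map_eq, integral_prod _ hi] at e
  rw [← e]
  refine integral_congr_ae (.of_forall fun z => ?_)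
  simp only [mxs, zero_smul, zero_add, sub_zero, one_smul]
  exact (S.law n (pt (QQ J) y (QQ J *ᵥ sv s + z)) F fun i => (Real.abs_tanh_lt_one _).le).trans
    (P.ml n F _).symm

/-- averaging a word of the spin and of its resampled copy -/
theorem av2 (T : TcStmt) (A : AvStmt) (S : SmmStmt) (P : PrStmt) {β r C : ℝ}
    (hβ : β ∈ Icc (0 : ℝ) 1) (G : ∀ n, Mx n → Cube n → V n → Cube n → V n)
    (h : TL β r 2 fun n J s y w => G n J s y (mxs J 0 s y (w 0) (w 1)))
    (hb : ∀ n J s y t, GJ J → nrm (G n J s y t) ≤ C * √n) :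
    TC β r fun n J s y j => Ky (QQ J) y (fun t => G n J s y t j) s := by
  have hm : ∀ (n : ℕ) (J : Mx n) (s : Cube n) (y : V n), Measurable fun w : Fin 2 × Fin n → ℝ =>
      G n J s y (mxs J 0 s y (fun i => w (0, i)) fun i => w (1, i)) := fun n J s y => by
    have h1 := (meas_mxs S J 0 s y).comp (mp2 n).measurable
    exact (measurable_of_finite (G n J s y)).comp h1
  have := A Bool β hβ (wc r) (wd r) 2 (fun n J a => G n J (cb (a (.inl true))) (a (.inl false))
    (mxs J 0 (cb (a (.inl true))) (a (.inl false)) (a (.inr 0)) (a (.inr 1)))) C h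
    (fun n J a _ => by simpa only [Sum.elim_inl, Sum.elim_inr] using hm n J (cb (a true)) (a false))
    fun n J a hJ => hb _ _ _ _ _ hJ
  simp only [Sum.elim_inl, Sum.elim_inr] at this
  refine T.congr β hβ r (fun n J s y j => ∫ w, G n J s y
    (mxs J 0 s y (fun i => w (0, i)) fun i => w (1, i)) j ∂gv (Fin 2 × Fin n)) _
    (fun n J _ => ?_) this
  ext s y j
  exact ky_eq S P J s y fun t => G n J s y t j

/-- the product of two clips -/
def pc (u : Fin 2 → ℝ) : ℝ := max (-1) (min 1 (u 0)) * max (-1) (min 1 (u 1))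

theorem el_pc : EL pc := by
  have hb : ∀ x : ℝ, |max (-1 : ℝ) (min 1 x)| ≤ 1 := fun x =>
    abs_le.2 ⟨le_max_left _ _, max_le (by norm_num) (min_le_left _ _)⟩
  have hc : ∀ l : Fin 2, LipschitzWith 1 fun v : Fin 2 → ℝ => max (-1 : ℝ) (min 1 (v l)) := fun l =>
    ((LipschitzWith.eval l).const_min 1).const_max _
  refine ⟨fun u => ?_, Z.ApB11.lip_mul (hc 0) (hc 1) (fun _ => hb _) fun _ => hb _, 1, fun u => ?_⟩
  · simp only [pc, Pi.neg_apply, Z.ApB11.clip_neg zero_le_one, neg_mul_neg]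
  · rw [pc, abs_mul]
    exact mul_le_one₀ (hb _) (abs_nonneg _) (hb _)

theorem sv_pm (s : Cube n) (i : Fin n) : sv s i = 1 ∨ sv s i = -1 := by
  unfold sv
  cases s i <;> simp [Crest.ProbabilityR.SpinGlassDynamics.spin]

theorem pc_sv (s t : Cube n) (i : Fin n) : pc ![sv s i, sv t i] = sv s i * sv t i := by
  rcases sv_pm s i with h | h <;> rcases sv_pm t i with h' | h' <;> simp [pc, h, h']

/-- multiplication by two spins -/
theorem ap_ss {ι : Type} [Fintype ι] {β : ℝ} (hβ : β ∈ Icc (0 : ℝ) 1) {c d : ι → ℝ}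
    {s t : ∀ n, Mx n → (ι → V n) → Cube n} {W : Nt ι} (hs : Ap β c d fun n J a => sv (s n J a))
    (ht : Ap β c d fun n J a => sv (t n J a)) (hW : Ap β c d W) :
    Ap β c d fun n J a j => sv (s n J a) j * (sv (t n J a) j * W n J a j) := by
  have h := apB.ev ι β hβ c d 2 pc ![fun n J a => sv (s n J a), fun n J a => sv (t n J a)] W el_pc
    (Fin.forall_fin_two.2 ⟨hs, ht⟩) hW
  convert h using 5 with n J a j
  rw [← mul_assoc, ← pc_sv]
  rfl

theorem nrm_sv (s : Cube n) (u : V n) : nrm (fun j => sv s j * u j) = nrm u := by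
  unfold nrm dotProduct
  refine congrArg _ (Finset.sum_congr rfl fun j _ => ?_)
  rcases sv_pm s j with h | h <;> simp [h]

theorem ky_mul (Q : Mx n) (y : V n) (c : ℝ) (F : Cube n → ℝ) (s : Cube n) :
    Ky Q y (fun t => c * F t) s = c * Ky Q y F s := by
  simp only [Ky, cav, mean]
  rw [← integral_const_mul]
  refine integral_congr_ae (.of_forall fun z => ?_)
  simp only [Finset.mul_sum]
  exact Finset.sum_congr rfl fun t _ => by ring

theorem tk (T : TcStmt) (A : AvStmt) (S : SmmStmt) (P : PrStmt) (R : RsStmt) : TkStmt := by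
  rintro β hβ r hr U hU ⟨C, hC⟩
  have h0 : (0 : ℝ) ∈ Icc (0 : ℝ) 1 := ⟨le_rfl, zero_le_one⟩
  have h1 := R β hβ r hr 0 h0 U hU
  refine ⟨av2 T A S P hβ (fun n J _ y t => U n J t y) h1 fun n J _ y t hJ => hC n J t y hJ, ?_⟩
  have h2 := R β hβ r hr 0 h0 _ (T.spin β hβ r)
  have h3 := T.tl β r 2 _ (T.spin β hβ r)
  have h5 := av2 T A S P hβ (C := C) (fun n J s y t j => sv s j * (sv t j * U n J t y j))
    (ap_ss hβ h3 h2 h1) fun n J s y t hJ => by rw [nrm_sv, nrm_sv]; exact hC n J t y hJ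
  simpa only [ky_mul] using h5

theorem sv_cb {v : V n} (h : ∀ i, v i = 1 ∨ v i = -1) : sv (cb v) = v := by
  ext i
  rcases h i with h | h <;> simp [sv, cb, h, Crest.ProbabilityR.SpinGlassDynamics.spin]

/-- the rows `(s, y + t s + √t z)` -/
def TT (t : ℝ) : Matrix Bool (Bool ⊕ Fin 1) ℝ := Matrix.of fun b =>
  Sum.elim (fun k => if b then (if k then 1 else 0) else if k then t else 1)
    fun _ => if b then 0 else √t

theorem tch (T : TcStmt) (A : AvStmt) : TchStmt := by
  rintro β hβ r hr t ht U hU ⟨⟨C, hC⟩, hm⟩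
  have h1 := apA.lin Bool (Bool ⊕ Fin 1) β (wc (r + t)) (wd (r + t)) (Sum.elim (wc r) 0)
    (Sum.elim (wd r) 1) (TT t)
    (by
      ext b
      cases b <;> simp [TT, wc, mulVec, dotProduct, add_comm])
    (by
      ext b b'
      cases b <;> cases b' <;>
        simp [TT, wd, mul_apply, diagonal_apply, Real.sq_sqrt hr, Real.sq_sqrt (add_nonneg hr ht),
          Real.mul_self_sqrt ht]) _ hU
  have h2 : Ap β (Sum.elim (wc r) (0 : Fin 1 → ℝ)) (Sum.elim (wd r) 1) fun n J a =>
      U n J (cb (a (.inl true))) (a (.inl false) + t • sv (cb (a (.inl true))) + √t • a (.inr 0)) := by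
    refine Z.ApB11.ap_congr hpStmt apA h1 (Z.A48.imp hpStmt
      (hpStmt.spin _ β _ _ (.inl true) rfl rfl) fun n J a ha => ?_)
    have e1 : lc (TT t) a true = a (.inl true) := by ext i; simp [lc, TT]
    have e2 : lc (TT t) a false = a (.inl false) + t • a (.inl true) + √t • a (.inr 0) := by
      ext i; simp [lc, TT, add_comm]
    rw [sv_cb ha, e1, e2]
  have mz : ∀ (n : ℕ) (v : V n), Measurable fun z : V n => v + √t • z := fun n v => by fun_prop
  have h3 := A Bool β hβ (wc r) (wd r) 1 _ C h2 (fun n J a hJ =>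
    (hm n J (cb (a true)) hJ).comp ((mz n (a false + t • sv (cb (a true)))).comp (mp1 n).measurable))
    fun n J a hJ => hC _ _ _ _ hJ
  refine T.congr β hβ r (fun n J s y j => ∫ w, U n J s
    (y + t • sv s + √t • fun i => w (0, i)) j ∂gv (Fin 1 × Fin n)) _ (fun n J hJ => ?_) h3
  ext s y j
  have e := integral_map (mp1 n).aemeasurable (f := fun z : V n => U n J s (y + t • sv s + √t • z) j)
    ((measurable_pi_apply j).comp ((hm n J s hJ).comp (mz n _))).aestronglyMeasurable
  rw [(mp1 n).map_eq] at e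
  exact e.symm

end Tk4

theorem tkGlue : TkGlue := fun T A S P R => ⟨Tk4.tk T A S P R, Tk4.tch T A⟩

end Crest.Agent.T157.K

end
end

-- ▼ part T157/KTw_71
section

/-!
# Row 157, part B, block S5 (helper71): programs, directions and response fields are thermal words
-/

set_option autoImplicit false

noncomputable section

namespace Crest.Agent.T157.K

open MeasureTheory ProbabilityTheory Matrix Set
open Crest.Agent.T157.E Crest.Agent.T157.Eig
open Crest.Agent.T157.Tap (V Mx th DD)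
open Crest.Agent.T157.Reg (jac)
open Crest.Agent.T157.Z (Nt Nw Bd cp Ap Hp EL apA apB hpStmt lipStmt qStmt)
open Crest.Agent.T157.Zf (QQ AA Vf)
open Crest.Agent.T157.Zf.Tr23 (ap_inl ev el_ev ev_sv nrm_mul_le)
open Crest.Agent.R339.Guerra (mp_comp)

namespace Tw71

variable {n : ℕ} {ι : Type} [Fintype ι] {β r : ℝ} {c d : ι → ℝ}

theorem ap_QQ (hβ : β ∈ Icc (0 : ℝ) 1) {U : Nt ι} (h : Ap β c d U) :
    Ap β c d fun n J a => QQ J *ᵥ U n J a := by
  refine qStmt ι β hβ c d (fun _ J => QQ J) (fun n J h1 h3 => ?_) U h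
  have e : AA J = J + (4 : ℝ) • (1 : Mx n) := by rw [AA, (lipStmt.tJ_le n J).2 h3]
  have g : Sq.G1 (AA J) := e ▸ Sq.g1_shift (Z.Q64.herm h1) h3 (by norm_num)
  refine ⟨.of_dotProduct_mulVec_nonneg (Sq.rt_herm _) fun x => ?_, g.mul.trans e⟩
  rw [star_trivial]
  exact le_trans (Finset.sum_nonneg fun i _ => mul_self_nonneg _) (g.rt.ge x)

theorem ap_add (hβ : β ∈ Icc (0 : ℝ) 1) {U W : Nt ι} (h : Ap β c d U) (h' : Ap β c d W) :
    Ap β c d fun n J a => U n J a + W n J a := by
  simpa only [one_smul] using apB.add ι β hβ c d U W 1 1 h h'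

theorem ap_gj (hT : TcStmt) (hβ : β ∈ Icc (0 : ℝ) 1) {U W : Nt ι} (h : Ap β c d W)
    (e : ∀ n J a, GJ J → U n J a = W n J a) : Ap β c d U :=
  Z.ApB11.ap_congr hpStmt apA h (Z.A48.imp hpStmt (hT.gj ι β hβ c d) fun n J a h => e n J a h)

theorem box {v : V n} {e : ℝ} (h : ∀ i, |v i| ≤ e) : nrm v ≤ |e| * √n := by
  simpa only [Fintype.card_fin] using
    Z.A48.nrm_box (abs_nonneg e) fun i => (h i).trans (le_abs_self e)

/-- the mean over one label -/
theorem av1 (hT : TcStmt) (hA : AvStmt) (hβ : β ∈ Icc (0 : ℝ) 1)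
    (G : ∀ n, Mx n → (ι → V n) → V n → V n) (C : ℝ)
    (h : Ap β (Sum.elim c (0 : Fin 1 → ℝ)) (Sum.elim d 1) fun n J a =>
      G n J (fun l => a (.inl l)) (a (.inr 0)))
    (hm : ∀ n J a, GJ J → Measurable (G n J a)) (hb : ∀ n J a z, GJ J → nrm (G n J a z) ≤ C * √n) :
    Ap β c d fun n J a i => ∫ z, G n J a z i ∂gv (Fin n) := by
  have mm : ∀ n, Measurable fun (w : Fin 1 × Fin n → ℝ) (i : Fin n) => w (0, i) := fun n => by
    fun_prop
  refine ap_gj hT hβ (hA ι β hβ c d 1 _ C h (fun n J a hJ => (hm n J a hJ).comp (mm n))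
    fun n J a hJ => hb n J _ _ hJ) fun n J a hJ => funext fun i => ?_
  have hp := mp_comp (ι := Fin 1 × Fin n) (fun j => ((0 : Fin 1), j)) fun _ _ h =>
    (Prod.ext_iff.1 h).2
  rw [show gv (Fin n) = _ from hp.map_eq.symm]
  exact integral_map hp.measurable.aemeasurable
    ((measurable_pi_apply i).comp (hm n J a hJ)).aestronglyMeasurable

/-- words of the spin, the field and one label -/
def T1 (β r : ℝ) (F : ∀ n, Mx n → Cube n → V n → V n → V n) : Prop :=
  Ap β (Sum.elim (wc r) (0 : Fin 1 → ℝ)) (Sum.elim (wd r) 1) fun n J a =>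
    F n J (cb (a (.inl true))) (a (.inl false)) (a (.inr 0))

theorem el_sech : EL fun u : Fin 1 → ℝ => 1 - Real.tanh (u 0) ^ 2 := by
  refine ⟨fun u => by simp [Real.tanh_neg], ⟨2, .of_dist_le_mul fun u v => ?_⟩, 1, fun u => ?_⟩
  · exact (St47.DD_lip u v 0).trans (mul_le_mul_of_nonneg_left (dist_le_pi_dist u v 0) zero_le_two)
  · exact abs_le.2 ⟨le_trans (by norm_num) (St47.DD_mem u 0).1, (St47.DD_mem u 0).2⟩

theorem blp {B : ℝ} {w : ℝ → ℝ} (h : W2 B w) : Zf.BLp B w := ⟨fun t => (h.2 t t).1, fun t t' =>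
  convex_univ.norm_image_sub_le_of_norm_deriv_le (fun x _ => h.1 x) (fun x _ => (h.2 x x).2.1)
    (mem_univ t') (mem_univ t)⟩

/-- the two labels as one label and another -/
def f2 : Bool ⊕ Fin 2 ↪ (Bool ⊕ Fin 1) ⊕ Fin 1 :=
  ⟨Sum.elim (fun t => .inl (.inl t)) ![.inl (.inr 0), .inr 0], by decide⟩

/-- the inputs of a direction -/
def rw3 (m : ℕ) : Bool ⊕ Fin m → Nt ((Bool ⊕ Fin 1) ⊕ Fin m)
  | .inl true => fun _ J a =>
    QQ J *ᵥ (QQ J *ᵥ sv (cb (a (.inl (.inl true)))) + a (.inl (.inr 0)))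
  | .inl false => fun _ _ a => a (.inl (.inl false))
  | .inr l => fun _ _ a => a (.inr l)

section
variable (hT : TcStmt) (hβ : β ∈ Icc (0 : ℝ) 1)
include hT hβ

theorem aS : T1 β r fun _ _ s _ _ => sv s := (hT.tl β r 1 _ (hT.spin β hβ r) :)
theorem aY : T1 β r fun _ _ _ y _ => y := (hT.tl β r 1 _ (hT.fld β hβ r) :)
theorem aZ : T1 β r fun _ _ _ _ z => z := (hT.lab β hβ r 1 0 :)
theorem aX : T1 β r fun _ J s _ z => QQ J *ᵥ (QQ J *ᵥ sv s + z) :=
  (ap_QQ hβ (ap_add hβ (ap_QQ hβ (aS hT hβ)) (aZ hT hβ)) :)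

/-- the mean under the product law -/
theorem aM (hA : AvStmt) (hS : SmmStmt) (hP : PrStmt) (hR : RsStmt) (hr : 0 ≤ r) {U : Vf}
    (hU : TC β r U) (hG : RG U) : T1 β r fun n J s y z =>
      meanV (pw (QQ J) y (QQ J *ᵥ sv s + z)) fun t => U n J t y := by
  obtain ⟨e, he⟩ := hG
  have h := hR β hβ r hr 0 ⟨le_rfl, zero_le_one⟩ U hU
  have e1 : Sum.elim (Sum.elim (wc r) (0 : Fin 1 → ℝ)) (0 : Fin 1 → ℝ) ∘ f2 =
      Sum.elim (wc r) (0 : Fin 2 → ℝ) := by
    funext l
    rcases l with t | l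
    · rfl
    · fin_cases l <;> rfl
  have e2 : Sum.elim (Sum.elim (wd r) (1 : Fin 1 → ℝ)) (1 : Fin 1 → ℝ) ∘ f2 =
      Sum.elim (wd r) (1 : Fin 2 → ℝ) := by
    funext l
    rcases l with t | l
    · rfl
    · fin_cases l <;> rfl
  rw [TL, ← e1, ← e2] at h
  have k := av1 hT hA hβ (fun n J (a : Bool ⊕ Fin 1 → V n) w =>
    U n J (mxs J 0 (cb (a (.inl true))) (a (.inl false)) (a (.inr 0)) w) (a (.inl false))) |e|
    (apA.emb _ _ β _ _ f2 _ h :)
    (fun n J a _ => (measurable_of_finite fun t => U n J t (a (.inl false))).comp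
      ((hS.meas n).comp measurable_prodMk_left))
    fun n J a z hJ => box fun i => ((he n J hJ).r0 _).sup _ i
  refine ap_gj hT hβ k fun n J a _ => funext fun i => ?_
  simp only [mxs, zero_smul, sub_zero, one_smul, zero_add]
  exact (hP.ml n _ _).trans (hS.law n (th _) (fun t => U n J t (a (.inl false)) i)
    fun i => (Real.abs_tanh_lt_one _).le).symm

theorem kw_tc (hA : AvStmt) (hS : SmmStmt) (hP : PrStmt) (hW : WStmt) (hR : RsStmt) (hr : 0 ≤ r)
    {U : Vf} (hU : TC β r U) (hG : RG U) {Λ η : ℝ} (hΛ : 0 ≤ Λ) (hη : 0 ≤ η) :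
    TC β r fun n J => kw (QQ J) Λ η (U n J) := by
  obtain ⟨C, -, hC⟩ := hW 4
  have w2 : W2 (C * Real.exp (2 * Λ)) (rh 4 Λ) :=
    (hC 4 Λ (by norm_num) le_rfl hΛ (rho 4) (by simp)).1
  have hf := blp w2
  have aU : T1 β r fun n J s y z => ub (QQ J) y (fun t => U n J t y) (QQ J *ᵥ sv s + z) :=
    (apB.ev _ β hβ _ _ 1 _ (fun _ => _) _ el_sech (fun _ => ap_add hβ (aY hT hβ) (aX hT hβ))
      (aM hT hβ hA hS hP hR hr hU hG) :)
  have aT : T1 β r fun n J s y z =>
      (QQ J * QQ J) *ᵥ ub (QQ J) y (fun t => U n J t y) (QQ J *ᵥ sv s + z) := by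
    simpa only [T1, mulVec_mulVec] using ap_QQ hβ (ap_QQ hβ aU)
  have aC : T1 β r fun n J s y z =>
      cp η ((QQ J * QQ J) *ᵥ ub (QQ J) y (fun t => U n J t y) (QQ J *ᵥ sv s + z)) :=
    (Zf.Tr23.ap_net hβ (U := fun _ : Unit => _) (lipStmt.clip Unit _ η hη (.inp ())).1
      fun _ => aT :)
  have aW := apB.ev _ β hβ _ _ 2 _ ![_, _] _ (el_ev hf)
    (Fin.forall_fin_two.2 ⟨aS (r := r) hT hβ, ap_QQ hβ (aZ hT hβ)⟩) aC
  refine av1 hT hA hβ (fun n J a z j => rh 4 Λ (sv (cb (a true)) j * ((QQ J)ᵀ *ᵥ z) j) *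
    cp η ((QQ J * QQ J) *ᵥ ub (QQ J) (a false) (fun t => U n J t (a false))
      (QQ J *ᵥ sv (cb (a true)) + z)) j) (C * Real.exp (2 * Λ) * |η|)
    (ap_gj hT hβ aW fun n J a _ => funext fun k => congrArg (· * _) ?_) (fun n J a _ => ?_)
    fun n J a z _ => ?_
  · rw [show (QQ J)ᵀ = QQ J from Sq.rt_symm _]
    exact (ev_sv _ _ k _).symm.trans
      (congrArg (ev _) (funext (Fin.forall_fin_two.2 ⟨rfl, rfl⟩)))
  · refine (continuous_pi fun j => (w2.1.continuous.comp (by fun_prop)).mul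
      ((continuous_apply j).comp ((St47.cont_cp η).comp ?_))).measurable
    exact continuous_const.matrix_mulVec ((St47.cont_U _).comp (by fun_prop))
  · have h0 := (abs_nonneg _).trans (hf.1 0)
    refine (nrm_mul_le (fun i => hf.1 _) h0).trans ?_
    rw [mul_assoc (C * _)]
    exact mul_le_mul_of_nonneg_left (box fun i => St47.abs_cp hη _ i) h0

theorem dir_tc (hA : AvStmt) {m : ℕ} {E : Nt (Bool ⊕ Fin m)} (hE : Nw False E) (hB : Bd E) :
    TC β r fun n J => dirS (QQ J) (Eh E n J) := by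
  obtain ⟨M, hM⟩ := hB
  have cE : ∀ n (J : Mx n), Continuous (E n J) := fun n J =>
    (lipStmt.cont _ _ E hE n).comp (Continuous.prodMk_right J)
  have cL : ∀ n (y : V n), Continuous fun p : V n × (Fin m × Fin n → ℝ) => lab2 p.1 y p.2 :=
    fun n y => continuous_pi fun l => by
      rcases l with (_ | _) | l
      · exact continuous_const
      · exact continuous_fst
      · exact continuous_pi fun i => (continuous_apply (l, i)).comp continuous_snd
  have h := Zf.Tr23.ap_net hβ (c := Sum.elim (Sum.elim (wc r) (0 : Fin 1 → ℝ)) (0 : Fin m → ℝ))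
    (d := Sum.elim (Sum.elim (wd r) (1 : Fin 1 → ℝ)) (1 : Fin m → ℝ)) (U := rw3 m) hE (by
    rintro ((_ | _) | l)
    · exact (ap_inl (0 : Fin m → ℝ) 1 (aY hT hβ) :)
    · exact (ap_inl (0 : Fin m → ℝ) 1 (aX hT hβ) :)
    · exact apA.net _ β hβ _ _ _ (.inp (Sum.inr l)))
  have e : ∀ n (J : Mx n) (a : Bool ⊕ Fin 1 → V n) (w : Fin m × Fin n → ℝ),
      (fun l => rw3 m l n J (Sum.elim a fun l i => w (l, i))) =
      lab2 (QQ J *ᵥ (QQ J *ᵥ sv (cb (a (.inl true))) + a (.inr 0))) (a (.inl false)) w :=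
    fun n J a w => funext fun l => by rcases l with (_ | _) | l <;> rfl
  have k := hA _ β hβ _ _ m _ |M| h (fun n J a _ => by
    simp only [e]
    exact ((cE n J).comp ((cL n _).comp (Continuous.prodMk_right _))).measurable)
    fun n J a _ => box fun i => hM n J _ i
  simp only [e] at k
  refine av1 hT hA hβ (fun n J a z => Eh E n J (QQ J *ᵥ (QQ J *ᵥ sv (cb (a true)) + z)) (a false))
    |M| k (fun n J a _ => measurable_pi_lambda _ fun i => ?_)
    fun n J a z _ => box (e := M) fun i => ?_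
  · have c1 : Continuous fun p : V n × (Fin m × Fin n → ℝ) => E n J
        (lab2 (QQ J *ᵥ (QQ J *ᵥ sv (cb (a true)) + p.1)) (a false) p.2) i :=
      (continuous_apply i).comp ((cE n J).comp ((cL n _).comp
        (Continuous.prodMk (continuous_const.matrix_mulVec (continuous_const.add continuous_fst))
          continuous_snd)))
    exact c1.stronglyMeasurable.integral_prod_right'.measurable
  · have := norm_integral_le_of_norm_le_const (μ := gv (Fin m × Fin n)) (C := M)
      (f := fun w => E n J (lab2 (QQ J *ᵥ (QQ J *ᵥ sv (cb (a true)) + z)) (a false) w) i)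
      (.of_forall fun w => hM n J _ i)
    rwa [probReal_univ, mul_one] at this

end

theorem rg_zero : RG fun _ _ => 0 := ⟨0, fun n J _ => ⟨fun _ => ⟨fun _ _ => by simp, fun s => by
  rw [show jac (fun s => (0 : U2 n) s _) s = 0 from Matrix.ext fun _ _ => sub_self _, opn_zero]⟩,
  fun _ _ _ => by simp⟩⟩

theorem rg_add {U W : Vf} (h : RG U) (h' : RG W) : RG fun n J => U n J + W n J := by
  obtain ⟨e, he⟩ := h
  obtain ⟨e', he'⟩ := h'
  refine ⟨e + e', fun n J hJ => ⟨fun y => ⟨fun s i => (abs_add_le _ _).trans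
    (add_le_add (((he n J hJ).r0 y).sup s i) (((he' n J hJ).r0 y).sup s i)), fun s => ?_⟩,
    fun s y y' => ?_⟩⟩
  · rw [show jac (fun s => (U n J + W n J) s y) s = jac (fun s => U n J s y) s +
      jac (fun s => W n J s y) s from Matrix.ext fun _ _ => add_sub_add_comm _ _ _ _]
    exact (opn_add_le _ _).trans (add_le_add (((he n J hJ).r0 y).op s) (((he' n J hJ).r0 y).op s))
  · simp only [Pi.add_apply]
    rw [add_sub_add_comm, add_mul]
    exact (nrm_add_le _ _).trans (add_le_add ((he n J hJ).lip s y y') ((he' n J hJ).lip s y y'))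

theorem tc_zero (hβ : β ∈ Icc (0 : ℝ) 1) : TC β r fun _ _ => 0 :=
  apB.sum Bool β hβ _ _ 0 (fun l => l.elim0) fun l => l.elim0

end Tw71

open Tw71

theorem twGlue : TwGlue := fun hT _ hA hS hP hW hR _ hβ _ hr _ hU hG =>
  ⟨fun _ hΛ _ hη => kw_tc hT hβ hA hS hP hW hR hr hU hG hΛ hη, fun _ _ hE hB =>
    dir_tc hT hβ hA hE hB⟩

theorem tcgGlue : TcgGlue := fun hW hG β hβ r hr m E c Λ e hE hB hΛ he h => by
  have h1 : ∀ l, TC β r fun n J => wS (QQ J) c Λ e (dirS (QQ J) (Eh E n J)) l := fun l => by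
    induction l with
    | zero => exact (hW β hβ r hr _ (tc_zero hβ) rg_zero).2 m E hE hB
    | succ l ih => exact (hW β hβ r hr _ ih (h l)).1 Λ hΛ _ (by positivity)
  refine ⟨h1, fun k => ?_⟩
  have h2 : (TC β r fun n J => ∑ l ∈ Finset.range k, wS (QQ J) c Λ e (dirS (QQ J) (Eh E n J)) l) ∧
      RG fun n J => ∑ l ∈ Finset.range k, wS (QQ J) c Λ e (dirS (QQ J) (Eh E n J)) l := by
    induction k with
    | zero => exact ⟨tc_zero hβ, rg_zero⟩
    | succ k ih =>
      simp only [Finset.sum_range_succ]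
      exact ⟨ap_add hβ ih.1 (h1 k), rg_add ih.2 (h k)⟩
  exact hG β hβ r hr _ h2.1 h2.2

end Crest.Agent.T157.K

end
end

-- ▼ part T157/KTg_12
section

/-!
# Row 157, block S5 (helper12): the response field is in the thermal calculus
-/

set_option autoImplicit false

noncomputable section

namespace Crest.Agent.T157.K

open MeasureTheory ProbabilityTheory Matrix Set
open Crest.Agent.T157.E Crest.Agent.T157.Eig
open Crest.Agent.T157.Tap (V Mx th DD Cb)
open Crest.Agent.T157.Z (Nt Ap apA apB hpStmt)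
open Crest.Agent.T157.Zf (QQ AA Vf)
open Crest.Agent.T157.Fo (Ext mix)

namespace Tg12

variable {n : ℕ}

/-- multiplication by `Q` -/
theorem ap_QQ {ι : Type} [Fintype ι] {β : ℝ} (hβ : β ∈ Icc (0 : ℝ) 1) {c d : ι → ℝ} {U : Nt ι}
    (hU : Ap β c d U) : Ap β c d fun n J a => QQ J *ᵥ U n J a := by
  refine apA.lim ι β c d _ fun ε hε => ?_
  obtain ⟨⟨C, C0, hC⟩, -⟩ := apA.bd ι β c d U hU
  obtain ⟨K, hK⟩ := hpStmt.good ι β hβ c d
  obtain ⟨p, hp⟩ := Sq.rt_poly 7 (ε := ε / (C + 1)) (by positivity)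
  refine ⟨_, Z.Q64.ap_poly hβ c d hU (p.comp (Polynomial.X + Polynomial.C 4)),
    Z.A48.imp hpStmt (hpStmt.and ι β c d _ _ hC hK) ?_⟩
  rintro n J a ⟨h1, h2, h3, -⟩
  have h4 := hp n _ (Sq.g1_shift (Z.Q64.herm h2) h3 (a := 4) (by norm_num))
    ((Sq.opn_shift h3 (a := 4) (by norm_num)).trans (by norm_num))
  rw [← sub_mulVec, QQ, AA, (Z.lipStmt.tJ_le n J).2 h3, Polynomial.aeval_comp, map_add,
    Polynomial.aeval_X, Polynomial.aeval_C, Algebra.algebraMap_eq_smul_one]
  refine (nrm_mulVec_le _ _).trans ((mul_le_mul h4 h1 (nrm_nonneg _) (by positivity)).trans ?_)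
  rw [← mul_assoc]
  refine mul_le_mul_of_nonneg_right ?_ (Real.sqrt_nonneg _)
  rw [div_mul_eq_mul_div, div_le_iff₀ (by positivity)]
  nlinarith

/-- multiplication by `1 - tanh²` -/
theorem ap_DD {ι : Type} [Fintype ι] {β : ℝ} (hβ : β ∈ Icc (0 : ℝ) 1) {c d : ι → ℝ} {H W : Nt ι}
    (hH : Ap β c d H) (hW : Ap β c d W) : Ap β c d fun n J a => DD (th (H n J a)) * W n J a := by
  refine apB.ev ι β hβ c d 1 (fun u => 1 - Real.tanh (u 0) ^ 2) (fun _ => H) W
    ⟨fun u => by simp, ⟨1, .of_dist_le_mul fun u v => ?_⟩, 1, fun u =>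
      Pr23.abs_DD (Tap.cb_th u) 0⟩ (fun _ => hH) hW
  rw [Real.dist_eq, sub_sub_sub_cancel_left, abs_sub_comm, NNReal.coe_one, one_mul]
  exact (Pr23.abs_tanh_sq_sub _ _).trans (dist_le_pi_dist u v 0)

theorem fub {F : V n → V n → ℝ} (hm : Measurable fun p : V n × V n => F p.1 p.2) {B : ℝ}
    (hB : ∀ z w, |F z w| ≤ B) :
    ∫ w, F (fun i => w (0, i)) (fun i => w (1, i)) ∂gv (Fin 2 × Fin n) =
      ∫ z, ∫ w, F z w ∂gv (Fin n) ∂gv (Fin n) := by
  have hG : Measurable fun v : Fin n ⊕ Fin n → ℝ => F (fun i => v (.inl i)) fun i => v (.inr i) :=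
    hm.comp (f := fun v : Fin n ⊕ Fin n → ℝ => (fun i => v (.inl i), fun i => v (.inr i)))
      (by fun_prop)
  refine (Lw11.cmp (ι := Fin 2 × Fin n) (e := Sum.elim (fun i => (0, i)) fun i => (1, i))
    (by rintro (i | i) (j | j) <;> simp) hG).trans ?_
  have h := R339.Guerra.mp_sum (ι := Fin n) (κ := Fin n)
  rw [show gv (Fin n ⊕ Fin n) = _ from h.map_eq.symm,
    integral_map h.measurable.aemeasurable hG.aestronglyMeasurable, integral_prod]
  · rfl
  exact (integrable_const B).mono' hm.aestronglyMeasurable (.of_forall fun z => hB _ _)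

/-- the integrand at the point `l` of the segment -/
def un (ω : Cube n → V n) (h : V n) (s : Cube n) (l : ℝ) : V n :=
  DD (th h) * fun j => Ext (fun x => ω x j) (mix (th h) s l)

/-- the field at the point `l` of the segment -/
def nd (l : ℝ) (U : Vf) : Vf := fun n J s y j =>
  ∫ z, un (fun t => U n J t y) (y + QQ J *ᵥ (QQ J *ᵥ sv s + z)) s l j ∂gv (Fin n)

theorem nrm_of_sup {e : ℝ} {u : V n} (he : 0 ≤ e) (h : ∀ i, |u i| ≤ e) : nrm u ≤ e * √n := by
  have := Pr23.nrm_le_of_abs (u := u) (v := sv fun _ => true) he fun i => by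
    rw [Fo.abs_sv, mul_one]; exact h i
  rwa [nrm, nrm, sv_dot_self] at this

theorem tc_nd (hT : TcStmt) (hA : AvStmt) (hS : SmmStmt) (hR : RsStmt) {β r l e : ℝ}
    (hβ : β ∈ Icc (0 : ℝ) 1) (hr : 0 ≤ r) (hl : l ∈ Icc (0 : ℝ) 1) {U : Vf} (hU : TC β r U)
    (he : ∀ n J, GJ J → RF e (U n J)) : TC β r (nd l U) := by
  have f1 := apB.add _ β hβ _ _ _ _ 1 1 (ap_QQ hβ (hT.tl β r 2 _ (hT.spin β hβ r)))
    (hT.lab β hβ r 2 0)
  have f2 := apB.add _ β hβ _ _ _ _ 1 1 (hT.tl β r 2 _ (hT.fld β hβ r)) (ap_QQ hβ f1)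
  simp only [one_smul] at f2
  have mm : ∀ (n : ℕ) (J : Mx n) (s : Cube n) (y : V n), Measurable fun p : V n × V n =>
      DD (th (y + QQ J *ᵥ (QQ J *ᵥ sv s + p.1))) * U n J (mxs J l s y p.1 p.2) y := fun n J s y => by
    have c1 : Continuous fun z : V n => th (y + QQ J *ᵥ (QQ J *ᵥ sv s + z)) :=
      Tap.continuous_th.comp (Gt48.cont_h _ _ _)
    have c2 : Continuous fun z : V n => DD (th (y + QQ J *ᵥ (QQ J *ᵥ sv s + z))) := by
      unfold DD; fun_prop
    exact (c2.measurable.comp measurable_fst).mul ((measurable_of_finite fun t => U n J t y).comp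
      ((hS.meas n).comp ((((continuous_const.add (c1.const_smul (1 - l))).measurable.comp
        measurable_fst)).prodMk measurable_snd)))
  have key := hA Bool β hβ (wc r) (wd r) 2 _ e (ap_DD hβ f2 (hR β hβ r hr l hl U hU))
    (fun n J a _ => (mm n J (cb (a true)) (a false)).comp
      (f := fun w : Fin 2 × Fin n → ℝ => (fun i => w (0, i), fun i => w (1, i))) (by fun_prop))
    fun n J a hJ => (Pr23.nrm_DD (Tap.cb_th _) _).trans (nrm_of_sup
      (Pr23.e_nonneg ((he n J hJ).r0 0)) (((he n J hJ).r0 _).sup _))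
  refine hT.congr β hβ r (fun n J s y i => ∫ w, (DD (th (y + QQ J *ᵥ (QQ J *ᵥ sv s +
    fun i => w (0, i)))) * U n J (mxs J l s y (fun i => w (0, i)) fun i => w (1, i)) y) i
    ∂gv (Fin 2 × Fin n)) _ (fun n J hJ => ?_) key
  ext s y j
  refine (fub (F := fun z w => (DD (th (y + QQ J *ᵥ (QQ J *ᵥ sv s + z))) *
    U n J (mxs J l s y z w) y) j) ((measurable_pi_apply j).comp (mm n J s y)) (B := e)
    fun z w => ?_).trans (congrArg _ (funext fun z => ?_))
  · rw [Pi.mul_apply, abs_mul]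
    exact (mul_le_of_le_one_left (abs_nonneg _) (Pr23.abs_DD (Tap.cb_th _) j)).trans
      (((he n J hJ).r0 y).sup _ j)
  · simp only [Pi.mul_apply, integral_const_mul, un]
    exact congrArg _ (hS.law n _ (fun t => U n J t y j) (Fo.cb_mix (Tap.cb_th _) s hl))

/-- Riemann sums of a Lipschitz function -/
theorem rie {f : ℝ → ℝ} (hc : Continuous f) {L : ℝ} (hL : 0 ≤ L) {N : ℕ} (hN : 0 < N)
    (h : ∀ a ∈ Icc (0 : ℝ) 1, ∀ b ∈ Icc (0 : ℝ) 1, |f a - f b| ≤ L * |a - b|) :
    |(∫ l in (0 : ℝ)..1, f l) - (N : ℝ)⁻¹ * ∑ k : Fin N, f (k / N)| ≤ L / N := by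
  have N0 : (0 : ℝ) < N := Nat.cast_pos.2 hN
  have e := intervalIntegral.sum_integral_adjacent_intervals (μ := volume) (f := f)
    (a := fun k => (k : ℝ) / N) (n := N) fun k _ => hc.intervalIntegrable _ _
  simp only [Nat.cast_zero, zero_div, div_self N0.ne'] at e
  rw [← e, Finset.sum_range (fun k => ∫ x in (k : ℝ) / N..((k + 1 : ℕ) : ℝ) / N, f x),
    Finset.mul_sum, ← Finset.sum_sub_distrib]
  refine (Finset.abs_sum_le_sum_abs _ _).trans ((Finset.sum_le_card_nsmul _ _ (L / N * (1 / N))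
    fun k _ => ?_).trans_eq ?_)
  · have d : (((k : ℕ) + 1 : ℕ) : ℝ) / N - (k : ℕ) / N = 1 / N := by push_cast; ring
    have k0 : (0 : ℝ) ≤ (k : ℕ) / N := by positivity
    have k1 : (((k : ℕ) + 1 : ℕ) : ℝ) / N ≤ 1 := (div_le_one N0).2 (Nat.cast_le.2 k.2)
    have p : (0 : ℝ) < 1 / N := by positivity
    have := intervalIntegral.norm_integral_le_of_norm_le_const (a := ((k : ℕ) : ℝ) / N)
      (b := (((k : ℕ) + 1 : ℕ) : ℝ) / N) (C := L / N) (f := fun x => f x - f ((k : ℕ) / N))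
      fun x hx => by
        rw [uIoc_of_le (by linarith)] at hx
        refine (h x ⟨by linarith [hx.1], by linarith [hx.2]⟩ _ ⟨k0, by linarith⟩).trans ?_
        rw [abs_of_nonneg (by linarith [hx.1]), div_eq_mul_one_div L]
        exact mul_le_mul_of_nonneg_left (by linarith [hx.2]) hL
    rw [intervalIntegral.integral_sub (hc.intervalIntegrable _ _) (by simp),
      intervalIntegral.integral_const, d, abs_of_pos p] at this
    rwa [← one_div]
  · rw [Finset.card_univ, Fintype.card_fin, nsmul_eq_mul]; field_simp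

theorem uf_rie {ω : Cube n → V n} {e : ℝ} (h : R0 e ω) (a : V n) (s : Cube n) {N : ℕ}
    (hN : 0 < N) : nrm (Gt48.uf ω a s - (N : ℝ)⁻¹ • ∑ k : Fin N, un ω a s (k / N)) ≤ e * √n / N := by
  have e0 := Pr23.e_nonneg h
  have ht := Tap.cb_th a
  simp only [Gt48.uf, un, ← Finset.mul_sum, ← mul_smul_comm, ← mul_sub]
  refine (Pr23.nrm_DD ht _).trans (Pr23.nrm_le_of_dot (by positivity) ?_)
  generalize th a = t at *
  generalize hv : vO ω t s - _ = v
  nth_rewrite 2 [← hv]
  have d : ∀ m : V n, v ⬝ᵥ (fun j => Ext (fun x => ω x j) m) = Ext (fun x => v ⬝ᵥ ω x) m :=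
    fun m => by
    simp only [Fo.Ext, Finset.mul_sum, dotProduct]
    rw [Finset.sum_comm]
    simp only [mul_left_comm]
  rw [dotProduct_sub, dotProduct_smul, dotProduct_sum, Pr23.dot_vO, smul_eq_mul]
  simp only [d]
  have b : nrm (sv s - t) ≤ 2 * √n := (nrm_sub_le _ _).trans (by
    have := ht.nrm_le
    rw [nrm, sv_dot_self]; linarith)
  have v0 : 0 ≤ e / 2 * nrm v := mul_nonneg (by linarith) (nrm_nonneg v)
  refine (le_abs_self _).trans ((rie (Pr23.cont_mix _ t s) (L := e / 2 * nrm v * (2 * √n))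
    (by positivity) hN fun a ha b hb => ?_).trans_eq (by ring))
  refine (K75.abs_Ext_sub v0 (Pr23.grad_dot h v) (Fo.cb_mix ht s ha) (Fo.cb_mix ht s hb)).trans ?_
  rw [K75.en_eq, show mix t s a - mix t s b = (a - b) • (sv s - t) by unfold mix; module, nrm_smul,
    mul_assoc _ _ |a - b|, mul_comm _ |a - b|]
  gcongr

theorem nrm_int {u : V n → V n} (hc : Continuous u) {c : ℝ} (h : ∀ z, nrm (u z) ≤ c) :
    nrm (fun j => ∫ z, u z j ∂gv (Fin n)) ≤ c := by
  refine (abs_le_of_sq_le_sq' ((Gt48.nrm_int_sq hc fun z j => (abs_apply_le_nrm _ j).trans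
    (h z)).trans ?_) ((nrm_nonneg _).trans (h 0))).2
  simpa using integral_mono_of_nonneg (μ := gv (Fin n)) (.of_forall fun z => sq_nonneg _)
    (integrable_const (c ^ 2)) (.of_forall fun z => pow_le_pow_left₀ (nrm_nonneg _) (h z) 2)

theorem un_cont (ω : Cube n → V n) (s : Cube n) (l : ℝ) : Continuous fun h => un ω h s l :=
  Continuous.mul (Continuous.comp (g := DD) (by unfold DD; fun_prop) Tap.continuous_th)
    (continuous_pi fun _ => (Fo.continuous_Ext _).comp
    (continuous_const.add (Tap.continuous_th.const_smul (1 - l))))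

theorem int_rie (hP : PrStmt) {ω : Cube n → V n} {e : ℝ} (h : R0 e ω) (s : Cube n) {H : V n → V n}
    (hH : Continuous H) {N : ℕ} (hN : 0 < N) :
    nrm ((fun j => ∫ z, Gt48.uf ω (H z) s j ∂gv (Fin n)) - (N : ℝ)⁻¹ • ∑ k : Fin N, fun j =>
      ∫ z, un ω (H z) s (k / N) j ∂gv (Fin n)) ≤ e * √n / N := by
  have c0 : Continuous fun z => Gt48.uf ω (H z) s := (Gt48.uf_cont hP h s).comp hH
  have c1 : ∀ l, Continuous fun z => un ω (H z) s l := fun l => (un_cont ω s l).comp hH
  have i0 : ∀ j, Integrable (fun z => Gt48.uf ω (H z) s j) (gv (Fin n)) := fun j =>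
    Gt48.int_bd ((continuous_apply j).comp c0) fun z => Gt48.uf_abs hP h s _ j
  have i1 : ∀ (k : Fin N) j, Integrable (fun z => un ω (H z) s (k / N) j) (gv (Fin n)) :=
    fun k j => Gt48.int_bd ((continuous_apply j).comp (c1 _)) (B := e) fun z => by
      change |DD _ j * _| ≤ e
      rw [abs_mul]
      exact (mul_le_of_le_one_left (abs_nonneg _) (Pr23.abs_DD (Tap.cb_th _) j)).trans
        (Fo.abs_Ext_le (Fo.cb_mix (Tap.cb_th _) s ⟨by positivity,
          div_le_one_of_le₀ (Nat.cast_le.2 k.2.le) N.cast_nonneg⟩) fun x => h.sup x j)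
  refine le_of_eq_of_le (congrArg _ (funext fun j => ?_)) (nrm_int (u := fun z =>
    Gt48.uf ω (H z) s - (N : ℝ)⁻¹ • ∑ k : Fin N, un ω (H z) s (k / N))
    (c0.sub ((continuous_finsetSum _ fun k _ => c1 _).fun_const_smul _)) fun z => uf_rie h _ s hN)
  simp only [Pi.sub_apply, Pi.smul_apply, Finset.sum_apply, smul_eq_mul]
  rw [integral_sub (i0 j) ((integrable_finsetSum _ fun k _ => i1 k j).const_mul _),
    integral_const_mul, integral_finsetSum _ fun k _ => i1 k j]

end Tg12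

open Tg12 in
theorem tgGlue : TgGlue := fun hT hA hS hP hR β hβ r hr U hU ⟨e, he⟩ => by
  refine apA.lim _ β _ _ _ fun ε hε => ?_
  obtain ⟨N, hN⟩ := exists_nat_gt (|e| / ε)
  have N0 : (0 : ℝ) < N := lt_of_le_of_lt (by positivity) hN
  have h1 := apB.sum _ β hβ _ _ N _ fun k : Fin N => tc_nd hT hA hS hR hβ hr (l := k / N)
    ⟨by positivity, div_le_one_of_le₀ (Nat.cast_le.2 k.2.le) N0.le⟩ hU he
  refine ⟨_, apB.add _ β hβ _ _ _ _ (N : ℝ)⁻¹ 0 h1 h1, Z.A48.imp hpStmt (hT.gj _ β hβ _ _)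
    fun n J a hJ => ?_⟩
  rw [zero_smul, add_zero]
  refine (int_rie hP ((he n J hJ).r0 _) _ (Gt48.cont_h _ _ _) (Nat.cast_pos.1 N0)).trans ?_
  rw [mul_div_right_comm]
  refine mul_le_mul_of_nonneg_right ((div_le_iff₀ N0).2 ?_) (Real.sqrt_nonneg _)
  rw [div_lt_iff₀ hε] at hN
  linarith [le_abs_self e]

end Crest.Agent.T157.K

end
end

-- ▼ part T157/KTb_38
section

/-!
# Row 157, part B, block S5 (helper38): static words of the thermal calculus
-/

set_option autoImplicit false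

noncomputable section

namespace Crest.Agent.T157.K

open Matrix Set Filter
open Crest.Agent.T157.E Crest.Agent.T157.Eig
open Crest.Agent.T157.Tap (V Mx)
open Crest.Agent.T157.Z (Ap Hp Ty apB hpStmt)
open Crest.Agent.T157.Zf (Vf)
open Crest.Agent.T157.Rip.Cav35 (Ww Uu Ww_zero Uu_zero Ww_succ Uu_succ)

namespace Tb38

variable {β r : ℝ} {U W : Vf}

lemma add (hβ : β ∈ Icc (0 : ℝ) 1) (hU : TC β r U) (hW : TC β r W) (s t : ℝ) :
    TC β r fun n J σ y => s • U n J σ y + t • W n J σ y := apB.add _ β hβ _ _ _ _ s t hU hW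

lemma mul (hβ : β ∈ Icc (0 : ℝ) 1) (hU : TC β r U) : TC β r fun n J σ y => J *ᵥ U n J σ y :=
  (apB.mul _ β hβ _ _ _ hU).1

lemma ev (hE : EvStmt) (hβ : β ∈ Icc (0 : ℝ) 1) {B : Vf} {f : ℝ → ℝ} (hf : Continuous f)
    (hM : ∃ M, ∀ t, |f t| ≤ M) (he : ∀ t, f (-t) = f t) (hB : TC β r B) (hU : TC β r U) :
    TC β r fun n J σ y i => f (B n J σ y i) * U n J σ y i :=
  (hE _ β hβ _ _ f _ _ hf hM hB).2 he hU

lemma avg (hT : TcStmt) (hβ : β ∈ Icc (0 : ℝ) 1) (hU : TC β r U) (hW : TC β r W) :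
    TC β r fun n J s y => Tap.avg (sv s * U n J s y) • W n J s y :=
  apB.sc _ β hβ _ _ _ _ _ (hT.spin β hβ r) hU hW

lemma avf (hT : TcStmt) (hE : EvStmt) (hβ : β ∈ Icc (0 : ℝ) 1) {B : Vf} {f : ℝ → ℝ}
    (hf : Continuous f) (hM : ∃ M, ∀ t, |f t| ≤ M) (he : ∀ t, f (-t) = f t) (hB : TC β r B)
    (hW : TC β r W) : TC β r fun n J s y => (Tap.avg fun i => f (B n J s y i)) • W n J s y := by
  refine hT.congr β hβ r _ _ (fun n J _ => ?_) (avg hT hβ (ev hE hβ hf hM he hB (hT.spin β hβ r)) hW)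
  ext s y i
  have : (sv s * fun i => f (B n J s y i) * sv s i) = fun i => f (B n J s y i) := by
    ext j
    rw [Pi.mul_apply, mul_left_comm, Rec.sv_mul_self, mul_one]
  rw [this]

lemma ty_mono (hT : TcStmt) (hr : 0 ≤ r) {P Q : ∀ n, Mx n → V n → Prop} (h : Ty β r P)
    (e : ∀ n J y, P n J y → Q n J y) : Ty β r Q :=
  (hT.ty β r hr Q).2 (hpStmt.mono _ _ _ _ _ _ ((hT.ty β r hr P).1 h)
    (.of_forall fun n J _ => e n J _))

lemma fl_of {n : ℕ} {u : V n} {ε M δ : ℝ} (hM : 0 ≤ M) (hδ : M * √δ ≤ ε / 2) (δ0 : 0 ≤ δ)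
    (h : ∀ S : Finset (Fin n), √(∑ i ∈ S, u i ^ 2) ≤ ε / 2 * √n + M * √S.card) :
    Rip.Fl (δ * n) (ε * √n) u := by
  rintro v ⟨T, hT, hv⟩
  have e : v ⬝ᵥ u = v ⬝ᵥ fun i => if i ∈ T then u i else 0 :=
    Finset.sum_congr rfl fun i _ => by
      by_cases hi : i ∈ T
      · simp [hi]
      · simp [hv i hi]
  have e2 : nrm (fun i => if i ∈ T then u i else 0) = √(∑ i ∈ T, u i ^ 2) := by
    simp [nrm, dotProduct, sq]
  have e3 : √(T.card : ℝ) ≤ √δ * √n := by rw [← Real.sqrt_mul δ0]; exact Real.sqrt_le_sqrt hT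
  have e4 := mul_le_mul_of_nonneg_left e3 hM
  have e5 := mul_le_mul_of_nonneg_right hδ (Real.sqrt_nonneg (n : ℝ))
  rw [e, mul_comm]
  refine (abs_dot_le _ _).trans (mul_le_mul_of_nonneg_left ?_ (nrm_nonneg _))
  rw [e2]
  linarith [h T]

theorem tb (hS : Z.SolStmt) : TbGlue := fun hT hE => by
  have mag : ∀ β ∈ Ioo (0 : ℝ) 1, ∀ r ≥ (0 : ℝ), TY β r fun _ J y => mag (ising J y) :=
    fun β hβ r hr => hT.rq β r _ (hS β hβ r hr)
  have bf : ∀ β ∈ Ioo (0 : ℝ) 1, ∀ r ≥ (0 : ℝ), TY β r (bf β) := fun β hβ r hr => by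
    have hb := Ioo_subset_Icc_self hβ
    have m := mag β hβ r hr
    have a := avf hT hE hb (f := fun t => 1 - min (t ^ 2) 1) (by fun_prop) ⟨1, fun t => by
      rw [abs_le]
      constructor
      · linarith [min_le_right (t ^ 2) 1]
      · linarith [le_min (sq_nonneg t) zero_le_one]⟩ (fun t => by rw [neg_sq]) m m
    refine hT.congr β hb r _ _ (fun n J _ => ?_)
      (add hb (add hb (hT.fld β hb r) (mul hb m) 1 1) a 1 (-β ^ 2))
    ext s y i
    have : (fun i => 1 - min (E.mag (ising J y) i ^ 2) 1) = Tap.DD (E.mag (ising J y)) := by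
      ext j
      have : |E.mag (ising J y) j| ≤ 1 :=
        (SL.Wt.of_pos fun _ => Real.exp_pos _).abs_mean_le fun x => (Fo.abs_sv x j).le
      rw [min_eq_left (Tap.Cb.sq_le (p := fun _ : Fin n => E.mag (ising J y) j) (fun _ => this) j)]; rfl
    simp only [this, K.bf, Pi.add_apply, Pi.sub_apply, Pi.smul_apply, smul_eq_mul]
    ring
  refine ⟨mag, bf, fun β hβ r U W => avg hT hβ, fun β hβ r B W f => avf hT hE hβ,
    fun β hβ r hr g u k hg hM he hu => ?_, fun β r hr u hu ε hε => ?_⟩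
  · have hb := Ioo_subset_Icc_self hβ
    have b := bf β hβ r hr
    suffices h : (TY β r fun n J y => Ww (β / √n) J (fun i => g (K.bf β n J y i)) k *ᵥ u n J y) ∧
        TY β r fun n J y => Uu (β / √n) J (fun i => g (K.bf β n J y i)) k *ᵥ u n J y from h.1
    induction k with
    | zero => simpa only [Ww_zero, Uu_zero, one_mulVec] using ⟨mul hb hu, hu⟩
    | succ k ih =>
      have h1 : TY β r fun n J y =>
          Uu (β / √n) J (fun i => g (K.bf β n J y i)) (k + 1) *ᵥ u n J y := by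
        refine hT.congr β hb r _ _ (fun n J _ => ?_) (ev hE hb hg hM he b ih.1)
        ext s y i
        simp only [Uu_succ, ← mulVec_mulVec, mulVec_diagonal]
      refine ⟨hT.congr β hb r _ _ (fun n J _ => ?_)
        (add hb (mul hb h1) (avf hT hE hb hg hM he b ih.2) 1 (-β ^ 2)), h1⟩
      ext s y i
      simp only [Ww_succ, sub_mulVec, smul_mulVec, ← mulVec_mulVec, Uw.eta, Tap.avg, div_pow,
        Real.sq_sqrt (Nat.cast_nonneg n), Pi.add_apply, Pi.sub_apply, Pi.smul_apply, smul_eq_mul]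
      ring
  · obtain ⟨M, M0, h⟩ := (hT.flat β r hr u hu).2 (ε / 2) (by positivity)
    refine ⟨(ε / 2 / (M + 1)) ^ 2, by positivity, ty_mono hT hr h fun n J y hy =>
      fl_of M0 ?_ (sq_nonneg _) hy.2⟩
    rw [Real.sqrt_sq (by positivity), ← mul_div_assoc, div_le_iff₀ (by positivity)]
    nlinarith

end Tb38

theorem tbGlue : TbGlue := Tb38.tb (Z.solGlue Z.lipStmt Z.hpStmt Z.apA Z.apB)

end Crest.Agent.T157.K

end
end

-- ▼ part T157/KRp_91
section

/-!
# Row 157, part B, block S5 (helper91): representation of a target by a direction, `RepStmt`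
-/

set_option autoImplicit false

noncomputable section

namespace Crest.Agent.T157.K

open MeasureTheory ProbabilityTheory Matrix Set Filter
open Crest.Agent.T157.E Crest.Agent.T157.Eig
open Crest.Agent.T157.Tap (V Mx th)
open Crest.Agent.T157.Z (Nt Nw Bd Hp RL hpStmt lipStmt nA)
open Crest.Agent.T157.Zf (QQ)
open Crest.Agent.T157.Z.Th16 (rp ind)

namespace Rp91

/-- Markov for sections of an arbitrary set -/
lemma sec_le {α β : Type} [MeasurableSpace α] [MeasurableSpace β] (μ : Measure α) (ν : Measure β)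
    [IsProbabilityMeasure μ] [IsProbabilityMeasure ν] (B : Set (α × β)) {η : ℝ} (hη : 0 < η) :
    η * μ.real {a | ¬ ν.real {b | (a, b) ∈ B} ≤ η} ≤ (μ.prod ν).real B := by
  have mH := measurableSet_toMeasurable (μ.prod ν) B
  have h := mul_meas_ge_le_lintegral₀ (μ := μ)
    (measurable_measure_prodMk_left (ν := ν) mH).aemeasurable (ENNReal.ofReal η)
  rw [← Measure.prod_apply mH, measure_toMeasurable] at h
  have h1 := ENNReal.toReal_mono (measure_ne_top _ _) h
  rw [ENNReal.toReal_mul, ENNReal.toReal_ofReal hη.le] at h1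
  refine le_trans (mul_le_mul_of_nonneg_left (measureReal_mono fun a ha => ?_) hη.le) h1
  refine (ENNReal.ofReal_le_iff_le_toReal (measure_ne_top _ _)).2 ((not_le.1 ha).le.trans ?_)
  exact measureReal_mono fun b hb => subset_toMeasurable _ _ hb

lemma ev_exp {k η : ℝ} (hk : 0 < k) (hη : 0 < η) : ∀ᶠ n : ℕ in atTop, Real.exp (-k * n) ≤ η := by
  have := Real.tendsto_exp_neg_atTop_nhds_zero.comp
    ((tendsto_natCast_atTop_atTop (R := ℝ)).const_mul_atTop hk)
  exact (this.eventually (eventually_le_nhds hη)).mono fun n hn => by simpa using hn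

/-- **sections**: the labels are good for most values of the other rows -/
theorem sec {ι κ : Type} [Fintype ι] [Fintype κ] {β η : ℝ} {c d : ι → ℝ}
    {P : ∀ n, Mx n → (ι ⊕ κ → V n) → Prop} (h : Hp β (Sum.elim c 0) (Sum.elim d 1) P) (hη : 0 < η) :
    Hp β c d fun n J a => (RL (0 : κ → ℝ) 1 0).real {b | ¬ P n J (Sum.elim a b)} ≤ η := by
  obtain ⟨k, hk, h⟩ := h
  refine ⟨k / 2, half_pos hk, h.mono ?_⟩
  filter_upwards [ev_exp (half_pos hk) hη] with n hn g hg
  refine le_of_mul_le_mul_left ?_ hη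
  rw [← SL.mean_const_mul]
  refine (((Z.Hp58.wt_gibbs n β g).mean_mono fun x => ?_).trans hg).trans ?_
  · have e := (MeasurableEquiv.sumPiEquivProdPi fun _ : ι ⊕ κ => V n).symm.map_apply
      (μ := (RL c d (sv x)).prod (RL 0 1 0)) {a | ¬ P n (β • Jmat n g) a}
    have e0 : RL (0 : κ → ℝ) 1 (sv x) = RL 0 1 0 := by
      rw [RL, RL]; congr 1; funext w l i; simp [Z.rows]
    rw [Z.Hp58.split, e0]
    exact (sec_le _ _ {p | ¬ P n (β • Jmat n g) (Sum.elim p.1 p.2)} hη).trans_eq
      (congrArg ENNReal.toReal e.symm)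
  · rw [show -k * n = -(k / 2) * n + -(k / 2) * n by ring, Real.exp_add]
    exact mul_le_mul_of_nonneg_right hn (Real.exp_pos _).le

variable {n : ℕ}

lemma real_rows {κ : Type} [Fintype κ] (S : Set (κ → V n)) :
    (gv (κ × Fin n)).real {w | (fun l i => w (l, i)) ∈ S} ≤ (RL (0 : κ → ℝ) 1 0).real S := by
  refine ENNReal.toReal_mono (measure_ne_top _ _) (le_trans (le_of_eq ?_)
    (Measure.le_map_apply (Z.Hp58.meas_rows 0 1 0).aemeasurable S))
  congr 1; ext w
  rw [mem_preimage, show Z.rows (0 : κ → ℝ) 1 0 w = fun l i => w (l, i) by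
    funext l i; simp [Z.rows]]
  rfl

lemma real_unit (S : Set (Unit → V n)) :
    (gv (Fin n)).real {z | (fun _ => z) ∈ S} ≤ (RL (0 : Unit → ℝ) 1 0).real S := by
  have hm := R339.Guerra.mp_comp (ι := Fin n) (Prod.snd : Unit × Fin n → Fin n)
    fun _ _ h => Prod.ext rfl h
  refine le_trans (ENNReal.toReal_mono (measure_ne_top _ _) ?_) (real_rows S)
  rw [show gv (Unit × Fin n) = _ from hm.map_eq.symm]
  exact Measure.le_map_apply hm.measurable.aemeasurable _

lemma int_le {Ω : Type} [TopologicalSpace Ω] [MeasurableSpace Ω] [OpensMeasurableSpace Ω]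
    {μ : Measure Ω} [IsProbabilityMeasure μ] {f : Ω → ℝ} (hf : Continuous f) {a b η : ℝ}
    (a0 : 0 ≤ a) (b0 : 0 ≤ b) (f0 : ∀ ω, 0 ≤ f ω) (h : ∀ ω, f ω ≤ b)
    (hη : μ.real {ω | ¬ f ω ≤ a} ≤ η) : ∫ ω, f ω ∂μ ≤ a + b * η := by
  have m : MeasurableSet {ω | ¬ f ω ≤ a} := (measurableSet_le hf.measurable measurable_const).compl
  have i := ((integrable_const (μ := μ) (1 : ℝ)).indicator m).const_mul b
  refine (integral_mono_of_nonneg (.of_forall f0) ((integrable_const a).add i)
    (.of_forall fun ω => ?_)).trans ?_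
  · by_cases c : f ω ≤ a
    · simp [c]
    · simp only [Pi.add_apply, indicator_of_mem (show ω ∈ {ω | ¬ f ω ≤ a} from c)]
      linarith [h ω]
  · simp only [Pi.add_apply]
    rw [integral_add (integrable_const a) i, integral_const_mul, integral_const, probReal_univ,
      one_smul, integral_indicator_const _ m, smul_eq_mul, mul_one]
    linarith [mul_le_mul_of_nonneg_left hη b0]

lemma mean_le {w f : Cube n → ℝ} (hw : SL.Wt w) {a b η : ℝ} (a0 : 0 ≤ a) (b0 : 0 ≤ b)
    (h : ∀ s, f s ≤ b) {P : Cube n → Prop} (hP : ∀ s, P s → f s ≤ a)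
    (hη : mass w {s | ¬ P s} ≤ η) : mean w f ≤ a + b * η := by
  classical
  have e : mass w {s | ¬ P s} = mean w fun s => if ¬ P s then 1 else 0 := by
    simp only [mass, mean, Finset.sum_filter, mul_ite, mul_one, mul_zero]
    exact Finset.sum_congr rfl fun s _ => by congr
  refine (hw.mean_mono (g := fun s => a + b * if ¬ P s then 1 else 0) fun s => ?_).trans ?_
  · split_ifs with c
    · linarith [hP s c]
    · linarith [h s]
  · rw [SL.mean_add, hw.mean_const, SL.mean_const_mul, ← e]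
    linarith [mul_le_mul_of_nonneg_left hη b0]

/-- the channel -/
def xx (J : Mx n) (s : Cube n) (z : V n) : V n := QQ J *ᵥ (QQ J *ᵥ sv s + z)

lemma meas_T (J : Mx n) : Measurable fun a : Bool ⊕ Unit → V n =>
    th (a (.inl false) + xx J (cb (a (.inl true))) (a (.inr ()))) := by
  have m1 : Measurable fun v : V n => sv (cb v) := (measurable_of_finite sv).comp
    (measurable_pi_lambda _ fun i => measurable_to_bool (by
      convert measurableSet_le (measurable_const (a := (0 : ℝ))) (measurable_pi_apply (X := fun _ => ℝ) i)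
      ext v; simp [cb]))
  have m2 : Measurable fun v : V n => QQ J *ᵥ v :=
    (continuous_const.matrix_mulVec continuous_id).measurable
  have p : ∀ l, Measurable fun a : Bool ⊕ Unit → V n => a l := fun l => measurable_pi_apply l
  exact measurable_pi_lambda _ fun i => Z.Th16.tanh_lip.continuous.measurable.comp
    ((measurable_pi_apply i).comp ((p _).add (m2.comp ((m2.comp (m1.comp (p _))).add (p _)))))

variable {m : ℕ}

/-- the ramp as a network -/
def Yr (m : ℕ) (δ : ℝ) : Nt (Bool ⊕ Fin (m + 1)) := fun _ _ a i =>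
  rp δ ![a (.inl false) i + a (.inl true) i, a (.inr 0) i]

lemma nw_Yr (δ : ℝ) : Nw False (Yr m δ) ∧ Bd (Yr m δ) := by
  refine ⟨?_, 1, fun n J a i => abs_le.2 ⟨le_max_left _ _, max_le (by norm_num) (min_le_left _ _)⟩⟩
  have h := Nw.map (sm := False) _ (![fun _ _ a => a (.inl false), fun _ _ a => a (.inl true)] :
    Fin 2 → Nt (Bool ⊕ Fin (m + 1))) (Z.ApB11.ol_lin 1) False.elim
    (Fin.forall_fin_two.2 ⟨.inp _, .inp _⟩)
  convert Nw.map _ (![_, fun _ _ a => a (.inr 0)] : Fin 2 → Nt (Bool ⊕ Fin (m + 1)))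
    (Z.Th16.ol_rp δ) False.elim (Fin.forall_fin_two.2 ⟨h, .inp _⟩) using 1
  funext n J a i
  simp [Yr, rp]

lemma ramp_le {δ ε : ℝ} (δ0 : 0 < δ) (ε0 : 0 ≤ ε) (h : 12 * δ ≤ ε ^ 2) (J : Mx n)
    (a : Bool ⊕ Fin (m + 1) → V n)
    (ha : ∑ i, ind δ (th (a (.inl false) + a (.inl true)) i) (a (.inr 0) i) < 3 * δ * n ∨ n = 0) :
    nrm (sv (smm (th (a (.inl false) + a (.inl true))) (a (.inr 0))) - Yr m δ n J a) ≤ ε * √n := by
  rw [nrm_le_iff (by positivity), mul_pow, Real.sq_sqrt (Nat.cast_nonneg _)]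
  have h8 : ∑ i, ind δ (th (a (.inl false) + a (.inl true)) i) (a (.inr 0) i) ≤ 3 * δ * n := by
    rcases ha with h2 | rfl
    · exact h2.le
    · simp
  have h9 := Finset.sum_le_sum (s := Finset.univ) fun i _ => Z.Th16.err δ0
    (a (.inl false) i + a (.inl true) i) (a (.inl false) i + a (.inl true) i) (a (.inr 0) i)
  simp only [sub_self, zero_pow two_ne_zero, mul_zero, add_zero, ← Finset.mul_sum] at h9
  refine le_trans (le_of_eq (Finset.sum_congr rfl fun i _ => (sq _).symm)) (h9.trans ?_)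
  change 4 * ∑ i, ind δ (th (a (.inl false) + a (.inl true)) i) (a (.inr 0) i) ≤ _
  linarith [mul_le_mul_of_nonneg_right h (Nat.cast_nonneg (α := ℝ) n)]

/-- the rows of the resampled world inside the world `(s, y, z; w, w')` -/
def f1 (m : ℕ) : (Bool ⊕ Fin 2) ⊕ Fin m ↪ (Bool ⊕ Unit) ⊕ Fin (m + 1) :=
  ⟨Sum.elim (Sum.elim (fun t => .inl (.inl t)) ![.inl (.inr ()), .inr 0]) fun l => .inr l.succ, by
    rintro ((a | a) | a) ((b | b) | b) h <;> (try fin_cases a) <;> (try fin_cases b) <;>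
      simp_all [(Fin.succ_ne_zero _).symm]⟩

/-- the approximation before the averages -/
theorem net (hL : LawStmt) {β r ε : ℝ} (hβ : β ∈ Icc (0 : ℝ) 1) (hr : 0 ≤ r)
    {u : ∀ n, Mx n → V n → V n} (hu : TY β r u) (hε : 0 < ε) :
    ∃ (m : ℕ) (E : Nt (Bool ⊕ Fin m)), Nw True E ∧ Bd E ∧
      Hp β (Sum.elim (Sum.elim (wc r) (0 : Unit → ℝ)) (0 : Fin m → ℝ))
        (Sum.elim (Sum.elim (wd r) 1) 1) fun n J b => nrm (E n J (Sum.elim (fun t => if t then
          xx J (cb (b (.inl (.inl true)))) (b (.inl (.inr ()))) else b (.inl (.inl false)))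
            fun l => b (.inr l)) - u n J (b (.inl (.inl false)))) ≤ ε * √n := by
  obtain ⟨m, X, hX, bX, h1⟩ := Z.apA.smo Bool β (wc r) (wd r) (fun n J a => u n J (a false)) hu
    (ε / 2) (half_pos hε)
  obtain ⟨L, L0, hl⟩ := Bp91.lipA hX
  obtain ⟨e, he⟩ : ∃ e, e = ε / (4 * (L + 1)) := ⟨_, rfl⟩
  have e0 : 0 < e := by rw [he]; positivity
  have δ0 : 0 < e ^ 2 / 12 := by positivity
  obtain ⟨Y, hY, -, h2⟩ := Z.molStmt _ _ (nw_Yr (m := m) (e ^ 2 / 12)).1 e e0
  have h3 := Z.A48.emb' hpStmt (c' := Sum.elim (Sum.elim (wc r) 0) 0)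
    (d' := Sum.elim (Sum.elim (wd r) 1) 1) (f1 m)
    (by rintro ((a | a) | a) <;> (try fin_cases a) <;> rfl)
    (by rintro ((a | a) | a) <;> (try fin_cases a) <;> rfl) (hL β hβ r hr 0 ⟨le_rfl, zero_le_one⟩ m _ h1)
  have h4 := Z.A48.emb' hpStmt (c' := Sum.elim (Sum.elim (wc r) 0) (0 : Fin (m + 1) → ℝ))
    (d' := Sum.elim (Sum.elim (wd r) 1) 1) ((Function.Embedding.refl _).sumMap
      ⟨fun _ : Unit => (0 : Fin (m + 1)), fun _ _ _ => rfl⟩) (by rintro (a | a) <;> rfl)
    (by rintro (a | a) <;> rfl) (Z.Th16.fresh β (Sum.elim (wc r) (0 : Unit → ℝ)) (Sum.elim (wd r) 1)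
      δ0 _ fun n J => meas_T J)
  refine ⟨m + 1, fun n J a => X n J fun j => (Sum.elim (fun t => if t then Y else
      fun _ _ a => a (.inl false)) (fun l _ _ a => a (.inr l.succ)) j : Nt _) n J a,
    lipStmt.comp _ _ _ _ _ hX ?_, Z.A48.Bd.comp bX _,
    Z.A48.imp hpStmt (hpStmt.and _ _ _ _ _ _ h3 h4) fun n J b h => ?_⟩
  · rintro ((_ | _) | l)
    exacts [.inp _, hY, .inp _]
  obtain ⟨k1, k2⟩ := h
  have e1 : ∀ t, f1 m (.inl (.inl t)) = .inl (.inl t) := fun _ => rfl
  have e2 : f1 m (.inl (.inr 0)) = .inl (.inr ()) := rfl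
  have e3 : f1 m (.inl (.inr 1)) = .inr 0 := rfl
  have e4 : ∀ l, f1 m (.inr l) = .inr l.succ := fun _ => rfl
  simp only [e1, e2, e3, e4, mxs, zero_smul, sub_zero, one_smul, zero_add] at k1
  set a : Bool ⊕ Fin (m + 1) → V n := Sum.elim (fun t => if t then
    xx J (cb (b (.inl (.inl true)))) (b (.inl (.inr ()))) else b (.inl (.inl false))) fun l => b (.inr l)
  have k3 := (Z.A48.tri _ _ _).trans (add_le_add (ramp_le δ0 e0.le (by linarith) J a k2) (h2 n J a))
  rw [← nrm_neg, neg_sub]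
  refine (Z.A48.tri _ _ _).trans ((add_le_add k1 ((hl n J _ _).trans
    (mul_le_mul_of_nonneg_left (le_of_eq_of_le ?_ k3) L0))).trans ?_)
  · simp only [nA, Fintype.sum_sum_type, Fintype.sum_bool]
    simp [a, xx, pt]
  · have : L * (e + e) ≤ ε / 2 := by
      rw [he, ← two_mul, ← mul_assoc, mul_div_assoc', div_le_iff₀ (by positivity)]; linarith
    linarith [mul_le_mul_of_nonneg_right this (Real.sqrt_nonneg (n : ℝ))]

end Rp91

open Rp91 in
theorem repGlue : RepGlue := by
  intro hT _ hL β hβ r hr u hu δ hδ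
  obtain ⟨⟨C, C0, hC⟩, -⟩ := hT.flat β r hr u hu
  obtain ⟨ε, hε⟩ : ∃ ε, ε = √δ / 4 := ⟨_, rfl⟩
  have ε0 : 0 < ε := by rw [hε]; positivity
  have ε2 : ε ^ 2 = δ / 16 := by rw [hε, div_pow, Real.sq_sqrt hδ.le]; norm_num
  obtain ⟨m, E, hE, hb, h1⟩ := net hL hβ hr hu ε0
  obtain ⟨M, M0, hM⟩ := Z.A48.Bd.pos hb
  obtain ⟨K, hK⟩ : ∃ K, K = M + C + 1 := ⟨_, rfl⟩
  have K0 : 0 < K := by rw [hK]; positivity
  obtain ⟨η, hη⟩ : ∃ η, η = min (ε / K) (δ / (4 * K ^ 2)) := ⟨_, rfl⟩
  have η0 : 0 < η := by rw [hη]; positivity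
  have η1 : η * K ≤ ε := (le_div_iff₀ K0).1 (hη ▸ min_le_left _ _)
  have η2 : η * (4 * K ^ 2) ≤ δ := (le_div_iff₀ (by positivity)).1 (hη ▸ min_le_right _ _)
  have h0 := sec (sec h1 η0) η0
  obtain ⟨k, hk, h2⟩ := hT.gibbs β r hr (fun n J s y => (RL (0 : Unit → ℝ) 1 0).real {z | ¬
    (RL (0 : Fin m → ℝ) 1 0).real {w | ¬ nrm (E n J (Sum.elim (fun t => if t then xx J s (z ())
      else y) w) - u n J y) ≤ ε * √n} ≤ η} ≤ η) h0
  refine ⟨m, E, hE, hb, (hT.ty β r hr _).2 (hpStmt.mono _ _ _ _ _ _ (hpStmt.and _ _ _ _ _ _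
    ((hT.ty β r hr _).1 hC) ((hT.ty β r hr _).1 h2)) ((ev_exp hk η0).mono fun n hn J a h => ?_))⟩
  obtain ⟨k1, k2⟩ := h
  set y := a false
  have s0 := Real.sqrt_nonneg (n : ℝ)
  have n0 : (0 : ℝ) ≤ n := Nat.cast_nonneg n
  have bd : ∀ b, nrm (E n J b - u n J y) ≤ K * √n := fun b => by
    have := Z.L85.nrm_le_of_bd (hM n J b)
    rw [abs_of_nonneg M0] at this
    rw [hK]
    linarith [nrm_sub_le (E n J b) (u n J y)]
  have cE : ∀ x, Continuous fun w : Fin m × Fin n → ℝ => E n J (lab2 x y w) := fun x =>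
    (Bp91.c1 hE n J).continuous.comp (Bp91.cont_lab2 continuous_const continuous_const continuous_id)
  have cf : ∀ x, Continuous fun w : Fin m × Fin n → ℝ => nrm (E n J (lab2 x y w) - u n J y) :=
    fun x => continuous_nrm.comp ((cE x).sub continuous_const)
  have j : ∀ x, nrm (Eh E n J x y - u n J y) ≤
      ∫ w, nrm (E n J (lab2 x y w) - u n J y) ∂gv (Fin m × Fin n) := fun x => by
    have := Bp91.nrm_int (μ := gv (Fin m × Fin n)) (f := fun w => E n J (lab2 x y w))
      (g := fun _ => u n J y)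
      (fun i => Bp91.int_of ((continuous_apply i).comp (cE x)) fun _ => hM n J _ i)
      (fun _ => integrable_const _) (Bp91.int_of (cf x) fun _ =>
        (abs_of_nonneg (nrm_nonneg _)).trans_le (bd _)) fun _ => le_rfl
    simp only [integral_const, probReal_univ, one_smul] at this
    exact this
  have b2 : ∀ x, nrm (Eh E n J x y - u n J y) ^ 2 ≤ K ^ 2 * n := fun x => by
    have := (j x).trans (int_le (cf x) (a := 0) (η := 1) le_rfl (by positivity)
      (fun _ => nrm_nonneg _) (fun _ => bd _) measureReal_le_one)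
    rw [zero_add, mul_one] at this
    simpa only [mul_pow, Real.sq_sqrt n0] using pow_le_pow_left₀ (nrm_nonneg _) this 2
  have cd : ∀ s, Continuous fun z => nrm (Eh E n J (xx J s z) y - u n J y) ^ 2 := fun s =>
    (continuous_nrm.comp (((Bp91.c1_Eh hE hb J).continuous.comp (f := fun z => (xx J s z, y))
      ((continuous_const.matrix_mulVec (continuous_const.add continuous_id)).prodMk
        continuous_const)).sub continuous_const)).pow 2
  refine (mean_le (.of_pos fun _ => Real.exp_pos _) (a := δ / 4 * n + K ^ 2 * n * η) (b := K ^ 2 * n)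
    (by positivity) (by positivity) (fun s => ?_) (fun s hs => ?_) (k2.trans hn)).trans ?_
  · exact (int_le (μ := gv (Fin n)) (cd s) (a := 0) (η := 1) le_rfl (by positivity)
      (fun _ => sq_nonneg _) (fun _ => b2 _) measureReal_le_one).trans_eq (by ring)
  · refine int_le (cd s) (by positivity) (by positivity) (fun _ => sq_nonneg _) (fun _ => b2 _)
      (le_trans (measureReal_mono fun z hz => ?_) ((real_unit _).trans hs))
    refine fun c => hz ?_
    have t := (j (xx J s z)).trans (int_le (cf _) (a := ε * √n) (by positivity) (by positivity)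
      (fun _ => nrm_nonneg _) (fun _ => bd _) ((real_rows _).trans c))
    have t2 := pow_le_pow_left₀ (nrm_nonneg _) (t.trans (show _ ≤ 2 * ε * √n by
      linarith [mul_le_mul_of_nonneg_right η1 s0])) 2
    rw [mul_pow, mul_pow, Real.sq_sqrt n0, ε2] at t2
    linarith
  · linarith [mul_le_mul_of_nonneg_right η2 n0, mul_nonneg hδ.le n0]

end Crest.Agent.T157.K

end
end

-- ▼ part T157/KJc_95
section

/-!
# Row 157, block S5: the Jacobian of a smooth network on the cube (helper95)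
-/

set_option autoImplicit false

noncomputable section

namespace Crest.Agent.T157.K

open Matrix Finset
open Crest.Agent.T157.E Crest.Agent.T157.Eig
open Crest.Agent.T157.Tap (V Mx avg)
open Crest.Agent.T157.Reg (jac toolStmt)
open Crest.Agent.T157.Z (Nt Nw Bd tJ)
open Crest.Agent.T157.Rec (fl)

namespace Jc95

variable {n : ℕ}

theorem taylor {m : ℕ} {φ : (Fin m → ℝ) → ℝ} {L : NNReal} (hd : Differentiable ℝ φ)
    (hL : LipschitzWith L (fderiv ℝ φ)) (u t : Fin m → ℝ) :
    |φ (u + t) - φ u - fderiv ℝ φ u t| ≤ L * ∑ l, t l ^ 2 := by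
  have h := (convex_closedBall u ‖t‖).norm_image_sub_le_of_norm_fderiv_le' (𝕜 := ℝ) (f := φ)
    (φ := fderiv ℝ φ u) (C := L * ‖t‖) (x := u) (y := u + t) (fun x _ => hd x)
    (fun x hx => (hL.norm_sub_le x u).trans (mul_le_mul_of_nonneg_left
      (mem_closedBall_iff_norm.1 hx) L.2)) (Metric.mem_closedBall_self (norm_nonneg _))
    (mem_closedBall_iff_norm.2 (by simp))
  rw [add_sub_cancel_left, Real.norm_eq_abs, mul_assoc] at h
  refine h.trans (mul_le_mul_of_nonneg_left ?_ L.2)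
  have h0 : 0 ≤ ∑ l, t l ^ 2 := by positivity
  have : ‖t‖ ≤ √(∑ l, t l ^ 2) := (pi_norm_le_iff_of_nonneg (Real.sqrt_nonneg _)).2 fun l =>
    Real.abs_le_sqrt (single_le_sum (f := fun l => t l ^ 2) (fun _ _ => sq_nonneg _) (mem_univ l))
  nlinarith [Real.sq_sqrt h0, norm_nonneg t, Real.sqrt_nonneg (∑ l, t l ^ 2)]

theorem jac_map {m : ℕ} {φ : (Fin m → ℝ) → ℝ} {L1 L : NNReal} (h1 : LipschitzWith L1 φ)
    (hd : Differentiable ℝ φ) (hL : LipschitzWith L (fderiv ℝ φ)) (u : Fin m → Cube n → V n)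
    (C : Fin m → ℝ) (s : Cube n) (hC : ∀ l, opn (jac (u l) s) ≤ C l) :
    opn (jac (fun s i => φ fun l => u l s i) s) ≤ ∑ l, L1 * C l + L * ∑ l, C l ^ 2 := by
  set D : Fin n → (Fin m → ℝ) →L[ℝ] ℝ := fun i => fderiv ℝ φ fun l => u l s i with hD
  set R : Mx n := of fun i j => φ ((fun l => u l s i) + fun l => jac (u l) s i j) -
    (φ fun l => u l s i) - D i fun l => jac (u l) s i j with hR
  have e : jac (fun s i => φ fun l => u l s i) s =
      ∑ l, diagonal (fun i => D i (Pi.single l 1)) * jac (u l) s + R := by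
    ext i j
    have e1 : ((fun l => u l s i) + fun l => jac (u l) s i j) = fun l => u l (fl s j) i := by
      ext l; simp [jac]
    have e2 : (D i fun l => jac (u l) s i j) = ∑ l, D i (Pi.single l 1) * jac (u l) s i j := by
      conv_lhs => rw [pi_eq_sum_univ' fun l => jac (u l) s i j]
      simp only [map_sum, map_smul, smul_eq_mul, mul_comm]
    simp only [hR, Matrix.add_apply, Matrix.sum_apply, diagonal_mul, of_apply, e1, e2]
    simp [jac]
  have q : ∀ l, opn (jac (u l) s) ^ 2 ≤ C l ^ 2 := fun l =>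
    pow_le_pow_left₀ (opn_nonneg _) (hC l) 2
  have r : ∀ i j, |R i j| ≤ L * ∑ l, jac (u l) s i j ^ 2 := fun i j => taylor hd hL _ _
  rw [e]
  refine (opn_add_le _ _).trans (add_le_add ((opn_sum_le _ _).trans (sum_le_sum fun l _ =>
    (opn_mul_le _ _).trans (mul_le_mul (opn_diagonal_le L1.2 fun i => ?_) (hC l) (opn_nonneg _) L1.2)))
    (toolStmt.op_schur n R _ (by positivity) (fun i => ?_) fun j => ?_))
  · refine ((D i).le_opNorm _).trans ?_
    rw [Pi.norm_single, norm_one, mul_one]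
    exact norm_fderiv_le_of_lipschitz ℝ h1
  · refine (sum_le_sum fun j _ => r i j).trans ?_
    rw [← mul_sum, sum_comm]
    exact mul_le_mul_of_nonneg_left (sum_le_sum fun l _ =>
      (toolStmt.row_le n _ i).1.trans (q l)) L.2
  · refine (sum_le_sum fun i _ => r i j).trans ?_
    rw [← mul_sum, sum_comm]
    exact mul_le_mul_of_nonneg_left (sum_le_sum fun l _ =>
      (toolStmt.row_le n _ j).2.trans (q l)) L.2

theorem jac_prod {u v : Cube n → V n} {M M' C C' : ℝ} {s : Cube n} (hu : ∀ i, |u s i| ≤ M)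
    (hv : ∀ i, |v s i| ≤ M') (hC : opn (jac u s) ≤ C) (hC' : opn (jac v s) ≤ C') :
    opn (jac (fun s => u s * v s) s) ≤ |M'| * C + |M| * C' + C * C' := by
  have e : jac (fun s => u s * v s) s = diagonal (v s) * jac u s + diagonal (u s) * jac v s +
      of fun i j => jac u s i j * jac v s i j := by
    ext i j
    simp only [Matrix.add_apply, diagonal_mul, jac, of_apply, Pi.mul_apply]; ring
  have c0 := (opn_nonneg _).trans hC
  have c1 := (opn_nonneg _).trans hC'
  rw [e]
  exact (opn_add_le _ _).trans (add_le_add ((opn_add_le _ _).trans (add_le_add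
    ((opn_mul_le _ _).trans (mul_le_mul (opn_diagonal_le (abs_nonneg _) fun i =>
      (hv i).trans (le_abs_self _)) hC (opn_nonneg _) (abs_nonneg _)))
    ((opn_mul_le _ _).trans (mul_le_mul (opn_diagonal_le (abs_nonneg _) fun i =>
      (hu i).trans (le_abs_self _)) hC' (opn_nonneg _) (abs_nonneg _)))))
    (toolStmt.op_had n (jac u s) (jac v s) _ C C' c0 c1
      (fun i => (toolStmt.row_le n _ i).1.trans (pow_le_pow_left₀ (opn_nonneg _) hC 2))
      (fun j => (toolStmt.row_le n _ j).2.trans (pow_le_pow_left₀ (opn_nonneg _) hC' 2))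
      fun i j => (abs_mul _ _).le))

theorem jac_sc {p z : Cube n → V n} {A M C C' : ℝ} {s : Cube n} (hp : ∀ t, |avg (p t)| ≤ A)
    (hz : ∀ i, |z s i| ≤ M) (hC : opn (jac p s) ≤ C) (hC' : opn (jac z s) ≤ C') :
    opn (jac (fun s => avg (p s) • z s) s) ≤ C' * A + |M| * C := by
  have e : jac (fun s => avg (p s) • z s) s = jac z s * diagonal (fun j => avg (p (fl s j))) +
      vecMulVec (z s) (fun _ => (n : ℝ)⁻¹) * jac p s := by
    ext i j
    simp only [Matrix.add_apply, mul_diagonal, jac, of_apply, Pi.smul_apply, smul_eq_mul]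
    simp only [mul_apply, vecMulVec_apply, of_apply, avg, ← mul_sum, sum_sub_distrib]
    ring
  have a0 := (abs_nonneg _).trans (hp s)
  rw [e]
  refine (opn_add_le _ _).trans (add_le_add ((opn_mul_le _ _).trans (mul_le_mul hC'
    (opn_diagonal_le a0 fun j => hp _) (opn_nonneg _) ((opn_nonneg _).trans hC')))
    ((opn_mul_le _ _).trans (mul_le_mul ((opn_vecMulVec_le _ _).trans ?_) hC (opn_nonneg _)
      (abs_nonneg _))))
  have h1 := Z.L85.nrm_le_of_bd hz
  have h2 := Z.L85.nrm_le_of_bd (n := n) (v := fun _ => (n : ℝ)⁻¹) (M := (n : ℝ)⁻¹) fun _ =>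
    (abs_of_nonneg (by positivity)).le
  refine (mul_le_mul h1 h2 (nrm_nonneg _) (by positivity)).trans ?_
  rw [abs_of_nonneg (show (0 : ℝ) ≤ (n : ℝ)⁻¹ by positivity), mul_mul_mul_comm,
    Real.mul_self_sqrt n.cast_nonneg, mul_assoc]
  exact mul_le_of_le_one_right (abs_nonneg _) (inv_mul_le_one_of_le₀ le_rfl n.cast_nonneg)

end Jc95

open Jc95 in
theorem jacStmt : JacStmt := by
  intro ι _ X hX c
  induction hX with
  | inp j =>
    refine ⟨2 * |c j|, by positivity, fun n J a s => ?_⟩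
    have e : jac (fun s => a j + c j • sv s) s = diagonal fun i => c j * (sv (fl s i) i - sv s i) := by
      ext i k
      by_cases h : i = k
      · subst h; simp [jac]; ring
      · simp [jac, h, sv, fl, Function.update_of_ne h]
    rw [e]
    refine opn_diagonal_le (by positivity) fun i => ?_
    rw [abs_mul, mul_comm]
    refine mul_le_mul_of_nonneg_right ((abs_sub _ _).trans ?_) (abs_nonneg _)
    rw [sv, sv, abs_spin, abs_spin]; norm_num
  | map φ X h1 h2 _ ih =>
    obtain ⟨-, L1, h1⟩ := h1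
    obtain ⟨hd, L, hL⟩ := h2 trivial
    choose C C0 hC using ih
    exact ⟨_, add_nonneg (sum_nonneg fun l _ => mul_nonneg L1.2 (C0 l)) (by positivity),
      fun n J a s => jac_map h1 hd hL (fun l s => X l n J fun k => a k + c k • sv s) C s
        fun l => hC l n J a s⟩
  | mul X _ _ ih =>
    obtain ⟨C, C0, hC⟩ := ih
    refine ⟨3 * C, by positivity, fun n J a s => ?_⟩
    have e : jac (fun s => tJ J *ᵥ X n J fun l => a l + c l • sv s) s =
        tJ J * jac (fun s => X n J fun l => a l + c l • sv s) s := by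
      ext i k
      simp only [jac, of_apply, mul_apply, mulVec, dotProduct, mul_sub, sum_sub_distrib]
    rw [e]
    exact (opn_mul_le _ _).trans (mul_le_mul (Z.L85.opn_tJ J) (hC n J a s) (opn_nonneg _) (by norm_num))
  | sc X Y W _ _ _ bX bY bW iX iY iW =>
    obtain ⟨M1, b1⟩ := bX
    obtain ⟨M2, b2⟩ := bY
    obtain ⟨M3, b3⟩ := bW
    obtain ⟨C1, p1, h1⟩ := iX
    obtain ⟨C2, p2, h2⟩ := iY
    obtain ⟨C3, p3, h3⟩ := iW
    exact ⟨C3 * (|M1| * |M2|) + |M3| * (|M2| * C1 + |M1| * C2 + C1 * C2), by positivity,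
      fun n J a s => jac_sc (fun t => Z.L85.abs_avg_le (b1 n J _) (b2 n J _)) (b3 n J _)
        (jac_prod (b1 n J _) (b2 n J _) (h1 n J a s) (h2 n J a s)) (h3 n J a s)⟩

end Crest.Agent.T157.K
end
end

-- ▼ part T157/KTAll_42
section

/-!
# Row 157, part B (helper42): the thermal calculus, assembled
-/

namespace Crest.Agent.T157.K

theorem lawStmt : LawStmt := lawGlue tcStmt smmStmt prStmt revStmt
theorem rsStmt : RsStmt := rsGlue tcStmt compStmt smmStmt lawStmt
theorem tkStmt : TkStmt := (tkGlue tcStmt avStmt smmStmt prStmt rsStmt).1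
theorem tchStmt : TchStmt := (tkGlue tcStmt avStmt smmStmt prStmt rsStmt).2
theorem twStmt : TwStmt := twGlue tcStmt compStmt avStmt smmStmt prStmt wStmt rsStmt
theorem tbStmt : TbStmt := tbGlue tcStmt evStmt
theorem repStmt : RepStmt := repGlue tcStmt smmStmt lawStmt
theorem tgStmt : TgStmt := tgGlue tcStmt avStmt smmStmt prStmt rsStmt
theorem tcgStmt : TcgStmt := tcgGlue twStmt tgStmt
theorem tm_of (h : TmGlue) : TmStmt := h tcStmt avStmt jacStmt tkStmt rfStmt prStmt revStmt

end Crest.Agent.T157.K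
end

-- ▼ part T157/KTmD_8
section

/-!
# Row 157, block S5 (helper8): iterates of the kernel approximate the thermal means
-/

set_option autoImplicit false

noncomputable section

namespace Crest.Agent.T157.K.Tm8

open Di MeasureTheory Real Matrix Finset Filter
open Crest.Agent.T157.E Crest.Agent.T157.Eig Crest.Agent.T157.SL Crest.Agent.T157.Rec
open Crest.Agent.T157.Kc
open Crest.Agent.T157.Tap (V Mx th DD)
open Crest.Agent.T157.Reg (jac neg)
open Crest.Agent.T157.S3.Hb (Vp)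
open Crest.Agent.T157.S3.Hd (AD)
open Crest.Agent.T157.K75 (wt_prod)

variable {n : ℕ}

/-- iterates of the kernel on vector fields -/
def Kit (Q : Mx n) (y : V n) (T : ℕ) (u : Cube n → V n) (s : Cube n) : V n :=
  fun j => (Ky Q y)^[T] (fun t => u t j) s

theorem R0.nn {e : ℝ} {u : Cube n → V n} (h : R0 e u) : 0 ≤ e := (opn_nonneg _).trans (h.op default)

/-- the even form -/
theorem r0_spin {e : ℝ} {u : Cube n → V n} (h : R0 e u) : R0 (3 * e) fun s => sv s * u s := by
  have a : ∀ (s : Cube n) i, |sv s i| = 1 := fun s i => abs_eq_iff_mul_self_eq.2 (by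
    rw [sv_mul_self, one_mul]) |>.trans abs_one
  have e0 := R0.nn h
  refine ⟨fun s i => by rw [Pi.mul_apply, abs_mul, a]; linarith [h.sup s i], fun s => ?_⟩
  have e1 : jac (fun s => sv s * u s) s =
      diagonal (sv s) * jac u s + diagonal fun i => -2 * sv s i * u (fl s i) i := by
    ext i j
    have := congrFun (sv_fl_sub s j) i
    rw [Pi.sub_apply, sub_eq_iff_eq_add] at this
    simp only [jac, of_apply, Pi.mul_apply, Matrix.add_apply, diagonal_mul, diagonal_apply, this]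
    by_cases hij : i = j
    · subst hij; simp; ring
    · simp [hij]; ring
  have h1 : opn (diagonal (sv s)) ≤ 1 := opn_diagonal_le zero_le_one fun i => (a s i).le
  have h2 : opn (diagonal fun i => -2 * sv s i * u (fl s i) i) ≤ 2 * e :=
    opn_diagonal_le (by positivity) fun i => by
      rw [abs_mul, abs_mul, a, abs_neg, abs_two]; linarith [h.sup (fl s i) i]
  rw [e1]
  linarith [opn_add_le (diagonal (sv s) * jac u s) (diagonal fun i => -2 * sv s i * u (fl s i) i),
    opn_mul_le (diagonal (sv s)) (jac u s), mul_le_mul h1 (h.op s) (opn_nonneg _) zero_le_one]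

/-- the kernel preserves regular fields -/
theorem r0_iter (hRF : RFStmt) (hP : PrStmt) : ∃ C ≥ (1 : ℝ), ∀ (n : ℕ) (Q : Mx n) (y : V n)
    (u : Cube n → V n) (e : ℝ), opn Q ≤ 3 → R0 e u → ∀ T, R0 (C ^ T * e) (Kit Q y T u) := by
  obtain ⟨C, c1, hRF⟩ := hRF 3
  refine ⟨3 * C, by linarith, fun n Q y u e hQ h T => ?_⟩
  induction T with
  | zero => rw [pow_zero, one_mul]; exact h
  | succ T ih =>
    have e0 := R0.nn ih
    have := hRF n (Fin n) Q Q (fun _ => 1) (fun _ ζ => meanV (pw Q y ζ) (Kit Q y T u)) 1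
      (3 * ((3 * C) ^ T * e)) hQ hQ ⟨differentiable_const _, fun u v => by simp⟩
      ⟨fun ζ => ⟨fun _ i => ((wt_prod _).abs_mean_le fun s => ih.sup s i).trans (by linarith),
        fun s => by
          rw [show jac (fun _ : Cube n => meanV (pw Q y ζ) (Kit Q y T u)) s = 0 by ext; simp [jac],
            opn_zero]; positivity⟩, fun _ ζ ζ' => (hP.lip n _ _ ih _ _).trans (by
        rw [add_sub_add_left_eq_sub, ← mulVec_sub, mul_comm 3 (_ * e), mul_assoc _ 3]
        exact mul_le_mul_of_nonneg_left ((nrm_mulVec_le Q _).trans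
          (mul_le_mul_of_nonneg_right hQ (nrm_nonneg _))) e0)⟩
    rw [show C * 1 * (3 * ((3 * C) ^ T * e)) = (3 * C) ^ (T + 1) * e by ring] at this
    convert this using 2 with s
    ext j
    simp only [Kit, Function.iterate_succ_apply', Ky, cav, cwv, one_mul, meanV]

/-- upper tail -/
theorem tail {w F : Cube n → ℝ} {K ε A a : ℝ} (hw : ∀ x, 0 < w x) (h : AD w K ε) (hA : 0 < A)
    (hF : ∀ x, Vp F x ≤ A) (ha : 0 ≤ a) (hm : mean w F ≤ a) :
    mass w {s | ¬ F s ≤ 2 * a} ≤ exp (-(a ^ 2 / (4 * K * A))) := by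
  have K0 := h.pos
  have t0 : 0 ≤ a / (2 * K * A) := by positivity
  have h1 := mul_le_mul_of_nonneg_left (S3.Hd.mgf_le hw h hF t0)
    (exp_pos (-(a / (2 * K * A) * (2 * a)))).le
  have p0 : ∀ x, 0 ≤ prob w x := fun x => div_nonneg (hw x).le (sum_nonneg fun y _ => (hw y).le)
  refine le_trans ?_ (h1.trans ?_)
  · rw [Chain22.mean, mul_sum, mass, sum_filter]
    refine sum_le_sum fun x _ => ?_
    rw [mul_left_comm, ← exp_add]
    split_ifs with hx
    · refine le_mul_of_one_le_right (p0 x) (one_le_exp ?_)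
      nlinarith [mul_le_mul_of_nonneg_left (not_le.1 hx).le t0]
    · exact mul_nonneg (p0 x) (exp_pos _).le
  · rw [← exp_add, exp_le_exp]
    have e : K * A * (a / (2 * K * A)) ^ 2 = a ^ 2 / (4 * K * A) := by field_simp; ring
    have e' : a / (2 * K * A) * a = 2 * (a ^ 2 / (4 * K * A)) := by field_simp; ring
    have := mul_le_mul_of_nonneg_left (show Chain22.mean (prob w) F ≤ a from hm) t0
    linarith

/-- **thermal means, deterministic core** -/
theorem core (hRF : RFStmt) (hP : PrStmt) (hR : RevStmt) (K0 k0 e δ : ℝ) (hK : 0 ≤ K0) (hk : 0 < k0)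
    (hδ : 0 < δ) : ∃ T : ℕ, ∃ κ > (0 : ℝ), ∀ᶠ n : ℕ in atTop, ∀ (J Q : Mx n) (y : V n)
    (u : Cube n → V n), JQ J Q → Atd.ATd (ising J y) K0 (exp (-(k0 * n))) → R0 e u →
    mass (ising J y) {s | ¬ nrm (Kit Q y T u s - meanV (ising J y) u) ≤ δ * √n} ≤ exp (-κ * n) := by
  obtain ⟨C, c1, hC⟩ := r0_iter hRF hP
  have g0 : 0 ≤ K0 * Ga 1 9 := mul_nonneg hK (Ga_nonneg zero_le_one (by norm_num))
  have η0 : 0 < δ ^ 2 / (12 * (e ^ 2 + 1)) := by positivity
  obtain ⟨T, hT⟩ := exists_pow_lt_of_lt_one η0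
    (show 1 - (1 + K0 * Ga 1 9)⁻¹ < 1 from sub_lt_self _ (by positivity))
  have t1 : Tendsto (fun n : ℕ => exp (-(k0 * n))) atTop (nhds 0) :=
    tendsto_exp_neg_atTop_nhds_zero.comp (tendsto_natCast_atTop_atTop.const_mul_atTop hk)
  obtain ⟨A, hA⟩ : ∃ A, A = (2 * (C ^ T * e)) ^ 2 + 1 := ⟨_, rfl⟩
  have A0 : 0 < A := by rw [hA]; positivity
  refine ⟨T, δ ^ 2 / (16 * (K0 + 32 / k0) * A), by positivity,
    (t1.eventually_lt_const η0).mono fun n hn J Q y u hJ hT' hu => ?_⟩
  have hw : ∀ x, 0 < ising J y x := fun _ => exp_pos _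
  have W := Wt.of_pos hw
  have hQ := (hR.opQ n J Q hJ).1
  have sb := sb_dist (hC n Q y u e hQ hu T).op (meanV (ising J y) u)
  have hV := S3.Hd.Vp_sqrt (sq_nonneg _) (fun s => (sb s).1) fun s => (sb s).2
  simp only [sqrt_sq (nrm_nonneg _)] at hV
  have m2 : (mean (ising J y) fun s => nrm (meanV (ising J y) u - Kit Q y T u s) ^ 2) ≤
      (δ * √n / 2) ^ 2 := by
    have : ∀ j, (mean (ising J y) fun s => (meanV (ising J y) u - Kit Q y T u s) j ^ 2) ≤ δ ^ 2 / 4 :=
      fun j => by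
        have b : ∀ x, |u x j - 0| ≤ e := fun x => by rw [sub_zero]; exact hu.sup x j
        have h1 := (fgQ hQ).gap_iter hw zero_le_one hK (exp_pos _).le hT' b T
        have h2 : var (ising J y) (fun x => u x j) ≤ e ^ 2 := (W.isP.var_le_sq _ 0).trans
          (W.mean_le fun x => sq_le_sq' (abs_le.1 (b x)).1 (abs_le.1 (b x)).2)
        have h3 := mul_le_mul hT.le h2 (W.var_nonneg _) η0.le
        have h4 := mul_le_mul_of_nonneg_right hn.le (sq_nonneg e)
        have h5 : δ ^ 2 / (12 * (e ^ 2 + 1)) * e ^ 2 ≤ δ ^ 2 / 12 := by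
          rw [div_mul_eq_mul_div, div_le_div_iff₀ (by positivity) (by norm_num)]
          nlinarith [sq_nonneg δ]
        rw [var, mean_iter W zero_le_one, ← hR.kf n J Q y hJ] at h1
        refine le_of_eq_of_le (sum_congr rfl fun x _ => ?_) (h1.trans (by linarith))
        beta_reduce
        rw [Pi.sub_apply, ← neg_sub, neg_sq]; rfl
    simp only [nrm_sq, dotProduct, ← sq, mean_sum]
    refine (sum_le_sum fun j _ => this j).trans_eq ?_
    rw [div_pow, mul_pow, sq_sqrt n.cast_nonneg]; simp; ring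
  have m1 : (mean (ising J y) fun s => nrm (meanV (ising J y) u - Kit Q y T u s)) ≤ δ * √n / 2 :=
    (abs_le_of_sq_le_sq' (le_trans (by simpa using mean_sub_sq_le W _ 0) m2) (by positivity)).2
  have h1 := tail hw (K := K0 + 32 / k0) ⟨K0, k0, hK, hk, le_rfl, le_rfl, hT'⟩ A0
    (fun x => (hV x).trans (by linarith)) (by positivity) m1
  rw [mul_div_cancel₀ _ two_ne_zero] at h1
  refine le_of_eq_of_le (by simp only [← nrm_neg (meanV _ u - _), neg_sub]) (h1.trans_eq ?_)
  rw [div_pow, mul_pow, sq_sqrt n.cast_nonneg]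
  congr 1
  generalize K0 + 32 / k0 = K
  ring

end Crest.Agent.T157.K.Tm8

end
end

-- ▼ part T157/KTmP_8

/-!
# Row 157, block S5 (helper8): thermal means are in the calculus
-/

set_option autoImplicit false

noncomputable section

namespace Crest.Agent.T157.K

namespace Tm8

open Di MeasureTheory Real Matrix Finset Filter
open Crest.Agent.T157.E Crest.Agent.T157.Eig Crest.Agent.T157.SL Crest.Agent.T157.Z
open Crest.Agent.T157.Tap (V Mx)
open Crest.Agent.T157.Reg (jac)
open Crest.Agent.T157.Zf (QQ Vf)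
open Crest.Agent.T157.K.Td68 (tw wtI)
open Crest.Agent.T157.K.Av46 (av Lb)

variable {n : ℕ} {β r : ℝ}

theorem mean_mass {w F : Cube n → ℝ} (hw : Wt w) {δ K : ℝ} (δ0 : 0 ≤ δ) (K0 : 0 ≤ K)
    (hK : ∀ s, F s ≤ K) : mean w F ≤ δ + K * mass w {s | ¬ F s ≤ δ} := by
  rw [Td68.mass_eq w (fun s _ => F s ≤ δ) 0, ← mean_const_mul, ← hw.mean_const δ, ← mean_add,
    hw.mean_const δ]
  refine hw.mean_mono fun s => ?_
  by_cases h : F s ≤ δ
  · simpa [h] using h
  · simp only [h, not_false_eq_true, Set.setOf_true, Set.indicator_univ, Pi.one_apply]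
    linarith [hK s]

theorem nrm_meanV {w : Cube n → ℝ} (hw : Wt w) (a b : Cube n → V n) :
    nrm (meanV w a - meanV w b) ≤ mean w fun s => nrm (a s - b s) := by
  have e : meanV w a - meanV w b = ∑ s, prob w s • (a s - b s) := by
    ext i; simp only [meanV, mean, Pi.sub_apply, Finset.sum_apply, Pi.smul_apply, smul_eq_mul, mul_sub,
      sum_sub_distrib]
  rw [e]
  exact (ApB11.nrm_sum_le _ _).trans_eq (sum_congr rfl fun s _ => by
    rw [nrm_smul, abs_of_nonneg (hw.isP.nn s)])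

theorem nrm_sg {σ : V n} (h : ∀ i, σ i * σ i = 1) (v : V n) : nrm (σ * v) = nrm v := by
  simp only [nrm, dotProduct, Pi.mul_apply, mul_mul_mul_comm (σ _), h, one_mul]

theorem meas_Kit (Q : Mx n) {u : Cube n → V n → V n} (h : ∀ s, Measurable (u s)) (T : ℕ) (s : Cube n) :
    Measurable fun y => Kit Q y T (fun t => u t y) s := measurable_pi_lambda _ fun j => by
  induction T generalizing s with
  | zero => exact (h s).eval
  | succ T ih =>
    simp only [Kit, Function.iterate_succ_apply'] at ih ⊢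
    have a : ∀ t, Measurable fun p : V n × V n => pw Q p.1 (Q *ᵥ sv s + p.2) t := fun t => by
      unfold pw ising; fun_prop
    refine (StronglyMeasurable.integral_prod_right' (f := fun p : V n × V n =>
      mean (pw Q p.1 (Q *ᵥ sv s + p.2)) ((Ky Q p.1)^[T] fun t => u t p.1 j))
      (Measurable.stronglyMeasurable ?_)).measurable
    exact Finset.measurable_sum _ fun t _ => ((a t).div (Finset.measurable_sum _ fun x _ => a x)).mul
      ((ih t).comp measurable_fst)

/-- regularisation -/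
theorem reg (hJac : JacStmt) (hβ : β ∈ Set.Icc (0 : ℝ) 1) {U : Vf} (hU : TC β r U) (hL : L2 U) {ε : ℝ}
    (hε : 0 < ε) : ∃ (u : Vf) (e : ℝ), TC β r u ∧ (∀ n J y, R0 e fun s => u n J s y) ∧
      (∀ n J s, Measurable (u n J s)) ∧ Hp β (wc r) (wd r) fun n J a =>
        nrm (U n J (cb (a true)) (a false) - u n J (cb (a true)) (a false)) ≤ ε * √n := by
  obtain ⟨C, hC⟩ := hL
  obtain ⟨m, X, hX, hb, hp⟩ := apA.smo Bool β (wc r) (wd r) _ hU (ε / 2) (half_pos hε)
  obtain ⟨M, M0, hM⟩ := A48.Bd.pos hb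
  obtain ⟨L, L0, hL⟩ := hJac _ X hX (Sum.elim (fun t => if t then 1 else 0) 0)
  have mX : ∀ n J, Measurable (X n J) := fun n J => (lipStmt.diff _ _ hX n J).continuous.measurable
  have bX : ∀ n J a, nrm (X n J a) ≤ M * √n := fun n J a => nrm_le_sup M0 (hM n J a)
  have iX : ∀ n J (a : Bool → V n) i, Integrable (fun b => X n J (Sum.elim a b) i) (Lb (Fin m) n) :=
    fun n J a => Av46.ico _ ((mX n J).comp (Av46.mel1 a)) fun b => bX n J _
  have sp : Hp β (wc r) (wd r) fun _ _ a => tw (sv (cb (a true))) (a false) = a :=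
    hpStmt.mono _ β _ _ _ _ (hpStmt.spin Bool β (wc r) (wd r) true rfl rfl)
      (.of_forall fun _ _ a ha => by rw [Td68.svcb ha]; ext1 t; cases t <;> rfl)
  have h1 := Av46.cond (K := |C| + M) (η := ε / (2 * (|C| + M + 1))) hβ (by positivity)
    (half_pos hε).le (by positivity) (fun n J hJ a => ⟨by
      exact (measurable_const (a := U n J (cb (a true)) (a false))).sub
        ((mX n J).comp (Av46.mel1 a)), fun b => (nrm_sub_le _ _).trans (by
        have := (hC n J (cb (a true)) (a false) hJ).trans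
          (mul_le_mul_of_nonneg_right (le_abs_self C) (sqrt_nonneg _))
        rw [add_mul]; exact add_le_add this (bX n J _))⟩) hp
  refine ⟨fun n J s y => av X n J (tw (sv s) y), M + L, Td68.ap_congr (Av46.ap_av β _ _
    (lipStmt.mono _ _ _ hX) hb) (hpStmt.mono _ β _ _ _ _ sp (.of_forall fun n J a ha => by simp only [ha])),
    fun n J y => ⟨fun s i => ?_, fun s => opn_le_of_nrm (by positivity) fun v => ?_⟩,
    fun n J s => (Av46.meas_av (mX n J)).comp (Td68.emb_tw _).measurable,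
    hpStmt.mono _ β _ _ _ _ (hpStmt.and _ β _ _ _ _ sp h1) (.of_forall fun n J a ha => ?_)⟩
  · refine le_trans ?_ (le_add_of_nonneg_right L0)
    simpa [av] using norm_integral_le_of_norm_le_const (μ := Lb (Fin m) n) (C := M)
      (f := fun b => X n J (Sum.elim (tw (sv s) y) b) i) (.of_forall fun b => hM _ _ _ _)
  · have e : ∀ (b : Fin m → V n) (t : Cube n), (fun l => Sum.elim (tw 0 y) b l + Sum.elim
        (fun t => if t then (1 : ℝ) else 0) (0 : Fin m → ℝ) l • sv t) = Sum.elim (tw (sv t) y) b := fun b t => by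
      ext1 l
      rcases l with l | l
      · cases l <;> simp [tw]
      · simp
    have hb : ∀ b, nrm (jac (fun t => X n J (Sum.elim (tw (sv t) y) b)) s *ᵥ v) ≤ L * nrm v :=
      fun b => (nrm_mulVec_le _ v).trans (mul_le_mul_of_nonneg_right (by
        simpa only [e] using hL n J (Sum.elim (tw 0 y) b) s) (nrm_nonneg v))
    have mY : ∀ (a : Bool → V n) i, Measurable fun b : Fin m → V n => X n J (Sum.elim a b) i :=
      fun a i => ((mX n J).comp (Av46.mel1 a)).eval
    have h2 := Av46.nrm_int (Lb (Fin m) n)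
      (D := fun b => jac (fun t => X n J (Sum.elim (tw (sv t) y) b)) s *ᵥ v)
      (measurable_pi_lambda _ fun i => by
        simp only [mulVec, dotProduct, jac, of_apply]
        exact Finset.measurable_sum _ fun j _ => ((mY _ i).sub (mY _ i)).mul_const _) hb
    have h3 := norm_integral_le_of_norm_le_const (μ := Lb (Fin m) n) (C := L * nrm v)
      (f := fun b => nrm (jac (fun t => X n J (Sum.elim (tw (sv t) y) b)) s *ᵥ v))
      (.of_forall fun b => (abs_of_nonneg (nrm_nonneg _)).trans_le (hb b))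
    rw [probReal_univ, mul_one] at h3
    refine le_of_eq_of_le (congrArg nrm (funext fun i => ?_)) ((h2.trans ((le_abs_self _).trans h3)).trans
      (mul_le_mul_of_nonneg_right (le_add_of_nonneg_left M0) (nrm_nonneg v)))
    simp only [mulVec, dotProduct, jac, of_apply, av]
    rw [integral_finsetSum _ fun j _ => by exact ((iX n J _ i).sub (iX n J _ i)).mul_const _]
    exact sum_congr rfl fun j _ => by rw [integral_mul_const, integral_sub (iX n J _ i) (iX n J _ i)]
  · beta_reduce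
    rw [ha.1]
    refine le_of_eq_of_le (congrArg nrm (funext fun i => ?_)) (ha.2.2.trans
      (mul_le_mul_of_nonneg_right ?_ (sqrt_nonneg _)))
    · simp only [av, Pi.sub_apply, Sum.elim_inl]
      rw [integral_sub (integrable_const _) (iX n J a i)]; simp
    · rw [mul_div_assoc', ← le_sub_iff_add_le', div_le_iff₀ (by positivity)]; linarith

/-- typical fields satisfy the approximate tensorisation -/
theorem ty_atd (hβ : β ∈ Set.Ioo (0 : ℝ) 1) (hr : 0 ≤ r) : ∃ K ≥ (0 : ℝ), ∃ k > (0 : ℝ),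
    Ty β r fun n J y => GJ J ∧ Atd.ATd (ising J y) K (exp (-(k * n))) := by
  obtain ⟨K, K0, ρ, ρ0, k, k0, h⟩ := Atd.atyC β hβ
  refine ⟨K, K0.le, k, k0, k, k0, (h.and (Td68.whp_gj ⟨hβ.1.le, hβ.2.le⟩)).imp fun n g hg => ?_⟩
  have := isProb_law (φ := sv) (s := r) (Hp58.wt_gibbs n β g)
  rw [neg_mul]
  refine le_trans (measureReal_mono ?_) (hg.1 r hr)
  refine fun y hy h' => hy ⟨hg.2, ?_⟩
  have := (h' 0 (by rw [nrm_zero]; positivity)).1
  rwa [gibbsWeight_eq_ising, tilt_ising, zero_add, add_zero] at this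

theorem ty_mono (hT : TcStmt) (hr : 0 ≤ r) {P Q : ∀ n, Mx n → V n → Prop} (h : Ty β r P)
    (e : ∀ᶠ n in atTop, ∀ J y, P n J y → Q n J y) : Ty β r Q :=
  (hT.ty β r hr Q).2 (hpStmt.mono _ β _ _ _ _ ((hT.ty β r hr P).1 h)
    (e.mono fun _ hn J a => hn J (a false)))

/-- both forms at once -/
theorem gen (hT : TcStmt) (hJac : JacStmt) (hRF : RFStmt) (hP : PrStmt) (hR : RevStmt)
    (hβ : β ∈ Set.Ioo (0 : ℝ) 1) (hr : 0 ≤ r) (σ : ∀ n, Cube n → V n)
    (hσ : ∀ n s i, σ n s i * σ n s i = 1)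
    (h0 : ∀ n e (u : Cube n → V n), R0 e u → R0 (3 * e) fun s => σ n s * u s)
    (hK : ∀ U : Vf, TC β r U → L2 U →
      TC β r fun n J s y j => σ n s j * Ky (QQ J) y (fun t => σ n t j * U n J t y j) s)
    {U : Vf} (hU : TC β r U) (hL : L2 U) :
    TC β r fun n J s y => σ n s * meanV (ising J y) fun t => σ n t * U n J t y := by
  have hβ' : β ∈ Set.Icc (0 : ℝ) 1 := ⟨hβ.1.le, hβ.2.le⟩
  refine apA.lim Bool β (wc r) (wd r) _ fun ε hε => ?_
  obtain ⟨u, e, tu, ru, mu, hp⟩ := reg hJac hβ' hU hL (show 0 < ε / 3 by positivity)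
  obtain ⟨C, hC⟩ := hL
  obtain ⟨K, K0, k, k0, hA⟩ := ty_atd hβ hr
  obtain ⟨T, κ, κ0, hc⟩ := core hRF hP hR K k (3 * e) (ε / 3) K0 k0 (by positivity)
  obtain ⟨C1, c1, hI⟩ := r0_iter hRF hP
  have e0 : 0 ≤ e := R0.nn (ru 0 0 0)
  have ss : ∀ n (t : Cube n) (v : V n), σ n t * (σ n t * v) = v := fun n t v => by
    ext i; rw [Pi.mul_apply, Pi.mul_apply, ← mul_assoc, hσ, one_mul]
  have tV : ∀ T, TC β r fun n J s y => σ n s * Kit (QQ J) y T (fun t => σ n t * u n J t y) s := by
    intro T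
    induction T with
    | zero => exact hT.congr β hβ' r _ _ (fun n J _ => funext₂ fun s y => (ss n s _).symm) tu
    | succ T ih =>
      refine hT.congr β hβ' r _ _ (fun n J _ => funext₂ fun s y => funext fun j => ?_)
        (hK _ ih ⟨C1 ^ T * (3 * e), fun n J s y hJ => ?_⟩)
      · simp only [Kit, Function.iterate_succ_apply', Pi.mul_apply, ← mul_assoc, hσ, one_mul]
      · rw [nrm_sg (hσ n s)]
        exact nrm_le_sup (by positivity)
          ((hI n _ y _ _ (hR.opQ n J _ (hT.jq n J hJ)).1 (h0 n e _ (ru n J y)) T).sup s)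
  have p1 := hT.gibbs' β hβ' r hr (fun n J s y => nrm (Kit (QQ J) y T (fun t => σ n t * u n J t y) s -
      meanV (ising J y) fun t => σ n t * u n J t y) ≤ ε / 3 * √n)
    (fun n J s _ => measurableSet_le (continuous_nrm.measurable.comp ((meas_Kit (QQ J)
      (u := fun t y => σ n t * u n J t y) (fun t => (mu n J t).const_mul _) T s).sub
      (measurable_pi_lambda _ fun i => Td68.meas_mean J (X := fun t y => (σ n t * u n J t y) i)
        fun t => ((mu n J t).const_mul _).eval))) measurable_const) κ κ0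
    (ty_mono hT hr hA (hc.mono fun n hn J y h => hn J _ y _ (hT.jq n J h.1) h.2 (h0 n e _ (ru n J y))))
  obtain ⟨κ', κ0', p2⟩ := hT.gibbs β r hr
    (fun n J s y => nrm (U n J s y - u n J s y) ≤ ε / 3 * √n) hp
  have t1 : Tendsto (fun n : ℕ => exp (-κ' * n)) atTop (nhds 0) :=
    tendsto_exp_atBot.comp (tendsto_natCast_atTop_atTop.const_mul_atTop_of_neg (by linarith))
  refine ⟨_, tV T, hpStmt.mono _ β _ _ _ _ (hpStmt.and _ β _ _ _ _ p1 (hpStmt.and _ β _ _ _ _
    ((hT.ty β r hr _).1 p2) (hT.gj Bool β hβ' _ _))) ((t1.eventually_le_const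
      (show 0 < ε / (3 * (|C| + e + 1)) by positivity)).mono fun n hn J a ha => ?_)⟩
  have s0 := sqrt_nonneg (n : ℝ)
  have h1 := nrm_meanV (wtI J (a false)) (fun t => σ n t * U n J t (a false))
    fun t => σ n t * u n J t (a false)
  simp only [← mul_sub, nrm_sg (hσ n _)] at h1 ⊢
  have h2 := mean_mass (F := fun s => nrm (U n J s (a false) - u n J s (a false))) (wtI J (a false))
    (show 0 ≤ ε / 3 * √n by positivity) (show 0 ≤ (|C| + e) * √n by positivity) fun s =>
      (nrm_sub_le _ _).trans (by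
        rw [add_mul]
        exact add_le_add ((hC n J s _ ha.2.2).trans (mul_le_mul_of_nonneg_right (le_abs_self C) s0))
          (nrm_le_sup e0 ((ru n J _).sup s)))
  have h3 := mul_le_mul_of_nonneg_left (ha.2.1.trans hn) (show 0 ≤ (|C| + e) * √n by positivity)
  have h4 : (|C| + e) * (ε / (3 * (|C| + e + 1))) ≤ ε / 3 := by
    rw [mul_div_assoc', div_le_iff₀ (by positivity)]; linarith
  have h5 := ha.1
  rw [← nrm_neg, neg_sub] at h5
  refine (ApB11.nrm_tri _ (meanV (ising J (a false)) fun t => σ n t * u n J t (a false)) _).trans ?_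
  linarith [mul_le_mul_of_nonneg_right h4 s0]

end Tm8

open Crest.Agent.T157.E in
theorem tmGlue8 : TmGlue := fun hT _ hJ hK hRF hP hR β hβ r hr U hU hL =>
  ⟨by
      have := Tm8.gen hT hJ hRF hP hR hβ hr (fun _ _ => 1) (fun _ _ _ => one_mul _)
        (fun n e u h => by
          simpa only [one_mul] using Di.R0.mono h (by linarith [Tm8.R0.nn h]))
        (fun U hU hL => by
          simp only [Pi.one_apply, one_mul]
          exact (hK β ⟨hβ.1.le, hβ.2.le⟩ r hr U hU hL).1) hU hL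
      simp only [one_mul] at this
      exact this,
    Tm8.gen hT hJ hRF hP hR hβ hr (fun _ => sv) (fun _ => Rec.sv_mul_self) (fun _ _ _ => Tm8.r0_spin)
      (fun U hU hL => (hK β ⟨hβ.1.le, hβ.2.le⟩ r hr U hU hL).2) hU hL⟩

end Crest.Agent.T157.K

end
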