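import Crest.Agent.T157.QeA_24
import Crest.Agent.T157.QeTi_61
import Crest.Agent.T157.QePt_66
import Crest.Agent.T157.QeQs_98
import Crest.Agent.T157.KbPos_10_Mg
import Crest.Agent.T157.KbM_24
import Crest.Agent.T157.KbTay_31
import Crest.Agent.T157.QeNumU_43

-- ▼ part T157/QeM_11
section

/-!
# Row 157, part A2 (helper11): the rank-two condition of (M1), replacing (B4)

Under the planted tilt, conditionally on `W p`, on a rigid spectrum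
`W ≤ 2 + ε q² + b₁₁ e e' + b₁₂ (e u' + u e') + b₂₂ u u'` off probability
`exp(K log n + E/2 - ε⁹ q² n / 64)`.
-/

set_option autoImplicit false

noncomputable section

namespace Crest.Agent.T157.Qe

open Matrix Finset MeasureTheory Set
open scoped ENNReal
open Crest.Agent.T157.E Crest.Agent.T157.Cond Crest.Agent.T157.Dq
open Crest.Agent.T157.Conc (ex ex_add ex_mono ex_zero ex_ne_top measurable_ex)

variable {n : ℕ}

/-- the rank-two matrix on `span (e, u)` -/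
def B2 (b11 b12 b22 : ℝ) (e u : V n) : Mx n :=
  b11 • vecMulVec e e + b12 • (vecMulVec e u + vecMulVec u e) + b22 • vecMulVec u u

/-- the scalar statistics used by the rank-two condition -/
structure S4 (C δ q b11 b12 b22 : ℝ) (e c τ u : V n) : Prop where
  orth : e ⬝ᵥ u = 0
  unit : u ⬝ᵥ u ≤ 1
  s1 : q / C ≤ 2 - e ⬝ᵥ c
  s2 : 2 - e ⬝ᵥ c ≤ C * q
  s3 : |bv e c ⬝ᵥ bv e c - (2 - e ⬝ᵥ c)| ≤ δ * (2 - e ⬝ᵥ c)
  u5 : (bv e c ⬝ᵥ τ) ^ 2 ≤ C * q ^ 3 * n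
  b1 : b12 ^ 2 ≤ C * q ^ 2
  b2 : (u ⬝ᵥ bv e c) ^ 2 ≤ C * q ^ 2
  b3 : 0 ≤ b22
  m : -(δ * q ^ 2) ≤ b11 + 2 * b12 * (u ⬝ᵥ bv e c) - b12 ^ 2
  ut : (u ⬝ᵥ τ) ^ 2 ≤ δ * q ^ 2 * n

lemma S4.mono {C C' δ δ' q b11 b12 b22 : ℝ} {e c τ u : V n} (h : S4 C δ q b11 b12 b22 e c τ u)
    (hq : 0 ≤ q) (h0 : 0 < C) (hC : C ≤ C') (hδ : δ ≤ δ') : S4 C' δ' q b11 b12 b22 e c τ u := by
  have hn : (0 : ℝ) ≤ n := Nat.cast_nonneg n
  have h1 : 0 ≤ 2 - e ⬝ᵥ c := le_trans (by positivity) h.s1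
  exact ⟨h.orth, h.unit, le_trans (div_le_div_of_nonneg_left hq h0 hC) h.s1,
    h.s2.trans (by gcongr), h.s3.trans (by gcongr), h.u5.trans (by gcongr), h.b1.trans (by gcongr),
    h.b2.trans (by gcongr), h.b3, le_trans (neg_le_neg (by gcongr)) h.m, h.ut.trans (by gcongr)⟩

namespace M11

lemma dg_sq {M : Mx n} {m : V n} (h : Dg M m) : (M * M).trace = ∑ i, m i ^ 2 := by
  obtain ⟨O, hO, rfl⟩ := h
  have hO' : Oᵀ * O = 1 := mul_eq_one_comm.1 hO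
  refine dg_trace ⟨O, hO, ?_⟩
  calc O * diagonal m * Oᵀ * (O * diagonal m * Oᵀ)
      = O * (diagonal m * (Oᵀ * O) * diagonal m) * Oᵀ := by simp only [Matrix.mul_assoc]
    _ = _ := by
      rw [hO', Matrix.mul_one, diagonal_mul_diagonal]
      simp only [sq]

/-- Gaussian Chernoff bound of a quadratic form -/
lemma chern {M : Mx n} (hM : Mᵀ = M) {l ρ : ℝ} (hl : 0 < l) (h1 : Le M (ρ • (1 : Mx n)))
    (h2 : l * ρ ≤ 1 / 2) : gv (Fin n) {g | 0 < g ⬝ᵥ M *ᵥ g} ≤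
      ex (l * M.trace / 2 + l ^ 2 * (M * M).trace) := by
  obtain ⟨m, hm⟩ := dg_symm hM
  have hx : ∀ i, l * m i ≤ 1 / 2 := fun i =>
    (mul_le_mul_of_nonneg_left (le_dg hm h1 i) hl.le).trans h2
  have hN := gi_dg (dg_affine hm (-l) 1) fun i => by linarith [hx i]
  have hmk := mul_meas_ge_le_lintegral₀ (μ := gv (Fin n))
    (f := fun x => ex ((x ⬝ᵥ x - x ⬝ᵥ ((-l) • M + (1 : ℝ) • (1 : Mx n)) *ᵥ x) / 2))
    (Measurable.aemeasurable (by fun_prop)) 1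
  rw [one_mul] at hmk
  refine le_trans (measure_mono fun g hg => ?_) (hmk.trans (le_of_eq_of_le hN (ex_mono ?_)))
  · simp only [Set.mem_ofPred_eq] at hg ⊢
    rw [← ex_zero]
    refine ex_mono ?_
    rw [qf_add, qf_smul, qf_smul, qf_one]
    nlinarith [mul_pos hl hg]
  · rw [dg_sq hm, dg_trace hm, mul_sum, mul_sum, ← sum_neg_distrib, sum_div, sum_div,
      ← sum_add_distrib]
    refine sum_le_sum fun i _ => ?_
    have h3 := hx i
    have h4 : 0 < -l * m i + 1 := by linarith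
    have h5 := Real.one_sub_inv_le_log_of_pos h4
    have h6 : (-l * m i + 1)⁻¹ ≤ 1 + l * m i + 2 * (l * m i) ^ 2 := by
      rw [inv_le_iff_one_le_mul₀ h4]
      nlinarith [mul_nonneg (sq_nonneg (l * m i)) (sub_nonneg.2 h3)]
    nlinarith

lemma fro_proj {P : Mx n} (hP : IsProj P) (Y : Mx n) :
    ((P * Y)ᵀ * (P * Y)).trace ≤ (Yᵀ * Y).trace := by
  have e : ∀ Z : Mx n, (Zᵀ * Z).trace = ∑ j, (fun i => Z i j) ⬝ᵥ fun i => Z i j := fun Z => rfl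
  rw [e, e]
  exact sum_le_sum fun j _ => hP.dot_le fun i => Y i j

lemma fro_pxp {P X : Mx n} (hP : IsProj P) (hX : Xᵀ = X) :
    (P * X * P * (P * X * P)).trace ≤ (X * X).trace := by
  have h1 := fro_proj hP (X * P)
  have h2 := fro_proj hP X
  simp only [transpose_mul, hP.symm, hX] at h1 h2
  rw [trace_mul_comm (P * X)] at h1
  simp only [Matrix.mul_assoc] at h1 h2 ⊢
  exact h1.trans h2

lemma tr_pxp {P R : Mx n} (hP : IsProj P) (hR : Le 0 R) : (P * R * P).trace ≤ R.trace := by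
  have e : ∀ Q : Mx n, IsProj Q → (Q * R * Q).trace = (R * Q).trace := fun Q hQ => by
    rw [trace_mul_cycle, hQ.idem, trace_mul_comm]
  have h1 : 0 ≤ ((1 - P) * R * (1 - P)).trace := sum_nonneg fun i _ => by
    have h2 := hR ((1 - P) *ᵥ Pi.single i 1)
    rw [qf_zero, ← qf_proj hP.compl] at h2
    simpa using h2
  rw [e _ hP.compl, Matrix.mul_sub, Matrix.mul_one, trace_sub, ← e _ hP] at h1
  linarith

lemma measurable_res (z : ℝ) : Measurable fun X : Mx n => (z • (1 : Mx n) - X)⁻¹ := by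
  have hc : Continuous fun X : Mx n => z • (1 : Mx n) - X := continuous_const.sub continuous_id
  simp only [Matrix.inv_def, Ring.inverse_eq_inv']
  exact Measurable.t157_smul hc.matrix_det.measurable.inv hc.matrix_adjugate.measurable

lemma wm_conj {O : Mx n} (hO : O * Oᵀ = 1) {e c τ : V n} (h1 : O *ᵥ e = e) (h2 : O *ᵥ c = c)
    (h3 : O *ᵥ τ = τ) (W : Mx n) : Wm e c τ (O * W * Oᵀ) = O * Wm e c τ W * Oᵀ := by
  rw [Wm, Wm, ← glue_conj hO h1 h2, Matrix.mul_add O, Matrix.add_mul, Matrix.mul_smul,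
    Matrix.smul_mul, conj_vmv, h3]

/-- the isotropic event in the direction `v` -/
def TT (z k : ℝ) (e c τ : V n) (S : Set (Mx n)) (v : V n) : Set (Mx n) :=
  {W | Wm e c τ W ∈ S ∧ k * (v ⬝ᵥ v) < v ⬝ᵥ (z • (1 : Mx n) - Wm e c τ W)⁻¹ *ᵥ v}

lemma TT_le {z k : ℝ} {e c τ : V n} {S : Set (Mx n)} (he : e ⬝ᵥ e = 1)
    (hS : ∀ O W : Mx n, O * Oᵀ = 1 → W ∈ S → O * W * Oᵀ ∈ S) {f v : V n}
    (hf : P3 e c τ *ᵥ f = f) (hv : P3 e c τ *ᵥ v = v) (h0 : 0 < v ⬝ᵥ v) :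
    GOE n (TT z k e c τ S f) ≤ GOE n (TT z k e c τ S v) := by
  obtain ⟨r, hr⟩ : ∃ r : ℝ, r ^ 2 * (v ⬝ᵥ v) = f ⬝ᵥ f :=
    ⟨√(f ⬝ᵥ f / (v ⬝ᵥ v)), by
      rw [Real.sq_sqrt (div_nonneg (dot_self_nonneg f) h0.le), div_mul_cancel₀ _ h0.ne']⟩
  obtain ⟨O, hO, hw⟩ := Qs.exists_refl (proj_P3 he c τ) hf (w' := r • v)
    (by rw [mulVec_smul, hv]) (by rw [smul_dotProduct, dotProduct_smul, ← hr]; simp only [smul_eq_mul]; ring)
  have hO1 : O * Oᵀ = 1 := by rw [hO.symm, hO.inv]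
  have hb : Oᵀ *ᵥ (r • v) = f := by rw [← hw, mulVec_mulVec, hO.symm, hO.inv, one_mulVec]
  conv_rhs => rw [GOE, ← goe_conj _ O hO1]
  refine le_trans (measure_mono fun W hW => ?_) (Measure.le_map_apply (by fun_prop) _)
  have hc := wm_conj hO1 (hO.fix _ (P3_e he c τ)) (hO.fix _ (P3_c he c τ))
    (hO.fix _ (P3_τ he c τ)) W
  refine ⟨by rw [hc]; exact hS _ _ hO1 hW.1, ?_⟩
  have h2 := hW.2
  rw [hc, Ti61.conj_sub hO1, Ti61.conj_inv hO1]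
  have h3 := qf_conj Oᵀ (z • (1 : Mx n) - Wm e c τ W)⁻¹ (r • v) (r • v)
  rw [transpose_transpose, hb, mulVec_smul, smul_dotProduct, dotProduct_smul, smul_eq_mul,
    smul_eq_mul] at h3
  rw [← h3, ← hr] at h2
  by_contra h4
  nlinarith [mul_le_mul_of_nonneg_left (not_lt.1 h4) (sq_nonneg r)]

lemma TT_avg {z k : ℝ} {e c τ : V n} {S : Set (Mx n)} (hn : 8 ≤ n) (he : e ⬝ᵥ e = 1)
    (hm : MeasurableSet S) (hS : ∀ O W : Mx n, O * Oᵀ = 1 → W ∈ S → O * W * Oᵀ ∈ S) {f : V n}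
    (hf : P3 e c τ *ᵥ f = f) {a : ℝ≥0∞}
    (ha : ∀ X ∈ S, gv (Fin n) {g | 0 < g ⬝ᵥ (P3 e c τ * ((z • (1 : Mx n) - X)⁻¹ -
      k • (1 : Mx n)) * P3 e c τ) *ᵥ g} ≤ a) : GOE n (TT z k e c τ S f) ≤ 2 * a := by
  have hP := proj_P3 he c τ
  obtain ⟨m, hm'⟩ := Qs98.trace_nat hP
  have hn' : (8 : ℝ) ≤ n := by exact_mod_cast hn
  have hm1 : (1 : ℝ) ≤ m := by linarith [trace_P3 he c τ]
  have hw := Qs.window hP hm' (by exact_mod_cast hm1)
  have hWm : Measurable (Wm e c τ) := by unfold Wm; fun_prop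
  have hres := (measurable_res (n := n) z).comp hWm
  have hZ : MeasurableSet {y : V n × Mx n | y.2 ∈ TT z k e c τ S (P3 e c τ *ᵥ y.1)} := by
    have h1 : Measurable fun y : V n × Mx n => (z • (1 : Mx n) - Wm e c τ y.2)⁻¹ :=
      hres.comp measurable_snd
    exact ((hWm.comp measurable_snd) hm).inter (measurableSet_lt
      (f := fun y : V n × Mx n => k * ((P3 e c τ *ᵥ y.1) ⬝ᵥ (P3 e c τ *ᵥ y.1)))
      (g := fun y : V n × Mx n => (P3 e c τ *ᵥ y.1) ⬝ᵥ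
        (z • (1 : Mx n) - Wm e c τ y.2)⁻¹ *ᵥ (P3 e c τ *ᵥ y.1)) (by fun_prop) (by fun_prop))
  have h1 := Measure.prod_apply (μ := gv (Fin n)) (ν := GOE n) hZ
  have h2 := Measure.prod_apply_symm (μ := gv (Fin n)) (ν := GOE n) hZ
  have h3 : ∫⁻ W, gv (Fin n) ((fun g => (g, W)) ⁻¹'
      {y : V n × Mx n | y.2 ∈ TT z k e c τ S (P3 e c τ *ᵥ y.1)}) ∂GOE n ≤ a := by
    refine le_trans (lintegral_mono (g := fun _ => a) fun W => ?_) (by simp)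
    by_cases hW : Wm e c τ W ∈ S
    · refine le_trans (measure_mono fun g hg => ?_) (ha _ hW)
      have h4 := hg.2
      simp only [Set.mem_ofPred_eq] at h4 ⊢
      rw [qf_proj hP, qf_sub, qf_smul, qf_one]
      linarith
    · exact le_trans (measure_mono (t := ∅) fun g hg => hW hg.1) (by simp)
  have h5 : GOE n (TT z k e c τ S f) * 2⁻¹ ≤ a := by
    refine le_trans (mul_le_mul_right hw _) ?_
    rw [← setLIntegral_const]
    refine le_trans (setLIntegral_mono (measurable_measure_prodMk_left hZ) fun g hg => ?_)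
      ((setLIntegral_le_lintegral _ _).trans ((h1.symm.trans h2).le.trans h3))
    exact TT_le he hS hf (hP.mulVec_mulVec g) (lt_of_lt_of_le (by positivity) hg.1)
  calc _ = 2 * (GOE n (TT z k e c τ S f) * 2⁻¹) := by
        rw [mul_comm (GOE n _), ← mul_assoc, ENNReal.mul_inv_cancel (by simp) (by simp), one_mul]
    _ ≤ _ := mul_le_mul_right h5 _

section main
variable {ε q E Cw d : ℝ} {e c τ : V n} {S : Set (Mx n)}

/-- the isotropic bound for one matrix -/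
lemma one (hp : Par n ε q) (hW : WS ε q E Cw S) (hCw : 0 ≤ Cw) {P : Mx n} (hP : IsProj P)
    (ht : (n : ℝ) - 3 ≤ P.trace) (hd1 : d ≤ 1 / 3) (hn : 6 ≤ d * n) (hq : 8 * (1 + Cw) * q ≤ d)
    {X : Mx n} (hX : X ∈ S) (htr : (zz (gg ε q) • (1 : Mx n) - X)⁻¹.trace ≤ (1 + d) * n) :
    gv (Fin n) {g | 0 < g ⬝ᵥ (P * ((zz (gg ε q) • (1 : Mx n) - X)⁻¹ -
      (1 + 3 * d) • (1 : Mx n)) * P) *ᵥ g} ≤ ex (-(d * ε ^ 4 * q ^ 2 * n / 16)) := by
  obtain ⟨hx, hx1, hz0, -⟩ := Ti61.consts hp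
  obtain ⟨a, hd, ha, -, hs⟩ := hW.sp X hX
  have h0 := hp.e0
  have h1 := hp.e1
  have h2 := hp.q0
  have hn8 : (8 : ℝ) ≤ n := by exact_mod_cast hp.n8
  have hd0 : 0 < d := by nlinarith
  obtain ⟨b, hb⟩ : ∃ b, b = ε ^ 4 * q ^ 2 / 2 := ⟨_, rfl⟩
  obtain ⟨z, hz⟩ : ∃ z, z = zz (gg ε q) := ⟨_, rfl⟩
  rw [← hz] at hz0 hs htr ⊢
  rw [← hb] at ha
  have hb0 : 0 < b := by rw [hb]; positivity
  have hab : ∀ i, b ≤ z - a i := fun i => by linarith [(ha i).2]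
  have haz : ∀ i, a i < z := fun i => by linarith [hab i]
  have hR := (Ti61.dg_inv hd haz).1
  obtain ⟨R, hRe⟩ : ∃ R, R = (z • (1 : Mx n) - X)⁻¹ := ⟨_, rfl⟩
  rw [← hRe] at hR htr ⊢
  have hR0 : Le 0 R := by
    have := dg_ge hR (c := 0) fun i => (inv_pos.2 (sub_pos.2 (haz i))).le
    rwa [zero_smul] at this
  have hR1 := dg_le hR (c := b⁻¹) fun i => inv_anti₀ hb0 (hab i)
  have hY := dg_affine hR 1 (-(1 + 3 * d))
  rw [one_smul, neg_smul, ← sub_eq_add_neg] at hY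
  have hs' : (P * (R - (1 + 3 * d) • (1 : Mx n)) * P)ᵀ = P * (R - (1 + 3 * d) • (1 : Mx n)) * P := by
    rw [transpose_mul, transpose_mul, hP.symm, hY.symm, Matrix.mul_assoc]
  refine (chern hs' (l := b / 2) (ρ := b⁻¹) (by positivity) (fun u => ?_)
    (le_of_eq (by field_simp))).trans (ex_mono ?_)
  · have h3 := hR1 (P *ᵥ u)
    have h4 := hP.dot_le u
    have h5 := dot_self_nonneg (P *ᵥ u)
    rw [qf_smul, qf_one] at h3
    rw [qf_proj hP, qf_sub, qf_smul, qf_smul, qf_one, qf_one]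
    have h6 : b⁻¹ * ((P *ᵥ u) ⬝ᵥ (P *ᵥ u)) ≤ b⁻¹ * (u ⬝ᵥ u) := by gcongr
    nlinarith
  · have t1 : (P * (R - (1 + 3 * d) • (1 : Mx n)) * P).trace ≤ -(d * n) := by
      rw [Matrix.mul_sub, Matrix.sub_mul, trace_sub, Matrix.mul_smul, Matrix.smul_mul,
        Matrix.mul_one, hP.idem, trace_smul, smul_eq_mul]
      have := tr_pxp hP hR0
      nlinarith
    have t2 := fro_pxp hP hY.symm
    rw [dg_sq hY] at t2
    have t3 : ∑ i, (1 * (z - a i)⁻¹ + -(1 + 3 * d)) ^ 2 ≤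
        ∑ i : Fin n, (((z - a i) ^ 2)⁻¹ + 4) := sum_le_sum fun i _ => by
      have := (inv_pos.2 (sub_pos.2 (haz i))).le
      rw [← inv_pow]
      nlinarith
    rw [sum_add_distrib, sum_const, card_univ, Fintype.card_fin, nsmul_eq_mul] at t3
    have t4 : b * (Cw * n / (ε ^ 2 * q) + n * 4) ≤ d * n / 2 := by
      have e1 : b * (Cw * n / (ε ^ 2 * q) + n * 4) =
          n * (ε ^ 2 * q * (Cw / 2 + 2 * (ε ^ 2 * q))) := by rw [hb]; field_simp; ring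
      have e2 : ε ^ 2 * q ≤ q :=
        mul_le_of_le_one_left h2.le (pow_le_one₀ h0.le (by linarith))
      have e3 : ε ^ 2 * q * (Cw / 2 + 2 * (ε ^ 2 * q)) ≤ q * (1 + Cw) :=
        mul_le_mul e2 (by linarith) (by positivity) h2.le
      rw [e1]; nlinarith
    have t5 : (P * (R - (1 + 3 * d) • (1 : Mx n)) * P * (P * (R - (1 + 3 * d) • (1 : Mx n)) * P)).trace
        ≤ Cw * n / (ε ^ 2 * q) + n * 4 := by linarith
    have t6 := mul_le_mul_of_nonneg_left t5 (sq_nonneg (b / 2))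
    have t7 := mul_le_mul_of_nonneg_left t1 hb0.le
    have t8 := mul_le_mul_of_nonneg_left t4 hb0.le
    have e4 : d * ε ^ 4 * q ^ 2 * n / 16 = b * (d * n) / 8 := by rw [hb]; ring
    rw [e4]; nlinarith


lemma pw_le {C : ℝ} (hC : 1 ≤ C) {j k : ℕ} (h : j ≤ k) (hq : 0 < q) : C ^ j * q ≤ C ^ k * q :=
  mul_le_mul_of_nonneg_right (pow_le_pow_right₀ hC h) hq.le

/-- the three coefficients -/
lemma scalA {C N B L μ β ν a1 a2 a3 : ℝ} (C0 : 0 < C) (hq : 0 < q) (hd : 0 < d) (hN : 0 < N)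
    (q4 : C ^ 4 * q ≤ d / 20) (B3 : q ^ 2 ≤ 4 * C ^ 2 * B ^ 2)
    (hL : N / 4 ≤ L) (u5 : β ^ 2 ≤ C * q ^ 3 * N) (hμ : μ ^ 2 ≤ C * q ^ 2)
    (hν : ν ^ 2 ≤ d * q ^ 2 * N) (e1 : a1 * B = μ) (e3 : a3 * B = β) (e2 : a2 * L = ν - a3 * μ) :
    a1 ^ 2 ≤ 4 * C ^ 3 ∧ a2 ^ 2 * N ≤ 64 * d * q ^ 2 ∧ (a2 * a3) ^ 2 ≤ 256 * C ^ 3 * d * q ^ 3 := by
  have q2 : 0 < q ^ 2 := by positivity
  have A1 : a1 ^ 2 ≤ 4 * C ^ 3 := by
    refine le_of_mul_le_mul_right ?_ q2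
    calc a1 ^ 2 * q ^ 2 ≤ a1 ^ 2 * (4 * C ^ 2 * B ^ 2) := by gcongr
      _ = 4 * C ^ 2 * μ ^ 2 := by rw [← e1]; ring
      _ ≤ 4 * C ^ 2 * (C * q ^ 2) := by gcongr
      _ = _ := by ring
  have A3 : a3 ^ 2 ≤ 4 * C ^ 3 * q * N := by
    refine le_of_mul_le_mul_right ?_ q2
    calc a3 ^ 2 * q ^ 2 ≤ a3 ^ 2 * (4 * C ^ 2 * B ^ 2) := by gcongr
      _ = 4 * C ^ 2 * β ^ 2 := by rw [← e3]; ring
      _ ≤ 4 * C ^ 2 * (C * q ^ 3 * N) := by gcongr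
      _ = _ := by ring
  have A2 : a2 ^ 2 * N ≤ 64 * d * q ^ 2 := by
    refine le_of_mul_le_mul_right ?_ hN
    have i0 := mul_pos hd (mul_pos q2 hN)
    have i1 : (a3 * μ) ^ 2 ≤ d * q ^ 2 * N := by
      calc (a3 * μ) ^ 2 = a3 ^ 2 * μ ^ 2 := by ring
        _ ≤ (4 * C ^ 3 * q * N) * (C * q ^ 2) := by gcongr
        _ = 4 * (C ^ 4 * q) * (q ^ 2 * N) := by ring
        _ ≤ 4 * (d / 20) * (q ^ 2 * N) := by gcongr
        _ ≤ _ := by linarith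
    have i2 : N ^ 2 ≤ 16 * L ^ 2 := by
      have := pow_le_pow_left₀ (by positivity) hL 2
      linarith
    calc a2 ^ 2 * N * N = a2 ^ 2 * N ^ 2 := by ring
      _ ≤ a2 ^ 2 * (16 * L ^ 2) := by gcongr
      _ = 16 * (ν - a3 * μ) ^ 2 := by rw [← e2]; ring
      _ ≤ _ := by linarith [sq_nonneg (ν + a3 * μ)]
  refine ⟨A1, A2, ?_⟩
  calc (a2 * a3) ^ 2 = a2 ^ 2 * a3 ^ 2 := by ring
    _ ≤ a2 ^ 2 * (4 * C ^ 3 * q * N) := by gcongr
    _ = 4 * C ^ 3 * q * (a2 ^ 2 * N) := by ring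
    _ ≤ 4 * C ^ 3 * q * (64 * d * q ^ 2) := by gcongr
    _ = _ := by ring

lemma scalB {C S0 η B : ℝ} (hC : 1 ≤ C) (hq : 0 < q) (hd : 0 < d) (d1 : d ≤ 1 / 10 ^ 4)
    (q1 : C * q ≤ d / 20) (s1 : q / C ≤ S0) (s2 : S0 ≤ C * q) (s3 : |B - S0| ≤ d * S0)
    (η0 : 0 ≤ η) (η1 : η ≤ 2 * q ^ 2) : q ^ 2 ≤ 4 * C ^ 2 * B ^ 2 ∧ 0 ≤ S0 + η ∧
      S0 + η ≤ 2 * C * q ∧ (S0 + η - B) ^ 2 ≤ (4 * d * B) ^ 2 := by
  have C0 : 0 < C := by linarith
  have hS0 : q ≤ C * S0 := by rwa [div_le_iff₀' C0] at s1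
  have S00 : 0 < S0 := lt_of_lt_of_le (by positivity) s1
  obtain ⟨s4, s5⟩ := abs_le.1 s3
  have i0 : d * S0 ≤ 1 / 10 ^ 4 * S0 := by gcongr
  have B1 : S0 ≤ 2 * B := by linarith
  have B2 : q ≤ 2 * C * B := by linarith [mul_le_mul_of_nonneg_left B1 C0.le]
  have η2 : η ≤ d * S0 := by
    calc η ≤ 2 * q * q := by linarith
      _ ≤ 2 * q * (C * S0) := by gcongr
      _ = 2 * (C * q) * S0 := by ring
      _ ≤ 2 * (d / 20) * S0 := by gcongr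
      _ ≤ _ := by linarith [mul_pos hd S00]
  have i1 := mul_le_mul_of_nonneg_left B1 hd.le
  have i2 := mul_pos hd S00
  exact ⟨by linarith [pow_le_pow_left₀ hq.le B2 2], by linarith, by linarith,
    sq_le_sq' (by linarith) (by linarith)⟩


/-- decomposition of `u` along the three projectors -/
lemma dec {u : V n} (hF : FS ε q e c τ) (hu : e ⬝ᵥ u = 0) (hB : 0 < bv e c ⬝ᵥ bv e c) (hn : 0 < n) :
    ∃ a1 a2 a3 L : ℝ, (n : ℝ) / 4 ≤ L ∧ a1 * (bv e c ⬝ᵥ bv e c) = u ⬝ᵥ bv e c ∧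
      a3 * (bv e c ⬝ᵥ bv e c) = bv e c ⬝ᵥ τ ∧ a2 * L = u ⬝ᵥ τ - a3 * (u ⬝ᵥ bv e c) ∧
      u = P3 e c τ *ᵥ u + (a1 - a2 * a3) • bv e c + a2 • τ := by
  have hn' : (0 : ℝ) < n := by exact_mod_cast hn
  obtain ⟨b, hb⟩ : ∃ b, b = bv e c := ⟨_, rfl⟩
  have hl : ∀ x y : V n, (unitv x ⬝ᵥ y) • unitv x = ((x ⬝ᵥ y) / (x ⬝ᵥ x)) • x := fun x y => by
    rw [unitv, smul_dotProduct, smul_smul, ← len_sq, smul_eq_mul]
    congr 1
    rw [div_eq_mul_inv, ← inv_pow]; ring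
  have p2 : ∀ y : V n, e ⬝ᵥ y = 0 → P2 e c *ᵥ y = y - ((b ⬝ᵥ y) / (b ⬝ᵥ b)) • b := fun y hy => by
    rw [P2, nextR, sub_mulVec, Ti61.R1_of hy, vmv_mulVec, hb, ← hl]; rfl
  have hL := (Ti61.proj_tau hF).1
  obtain ⟨t, ht⟩ : ∃ t, t = P2 e c *ᵥ τ := ⟨_, rfl⟩
  have p3 : P3 e c τ *ᵥ u = P2 e c *ᵥ u - ((t ⬝ᵥ u) / (t ⬝ᵥ t)) • t := by
    rw [P3, nextR, sub_mulVec, vmv_mulVec, ht, ← hl]; rfl
  rw [← ht] at hL
  rw [← hb] at hB ⊢
  have hL4 : (n : ℝ) / 4 ≤ t ⬝ᵥ t := by linarith [hF.t1, hF.w1]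
  have t0 : 0 < t ⬝ᵥ t := lt_of_lt_of_le (by positivity) hL4
  have t1 : t = τ - ((b ⬝ᵥ τ) / (b ⬝ᵥ b)) • b := ht.trans (p2 τ hF.orth)
  refine ⟨(b ⬝ᵥ u) / (b ⬝ᵥ b), (t ⬝ᵥ u) / (t ⬝ᵥ t), (b ⬝ᵥ τ) / (b ⬝ᵥ b), t ⬝ᵥ t, hL4,
    by rw [div_mul_cancel₀ _ hB.ne', dotProduct_comm], div_mul_cancel₀ _ hB.ne', ?_, ?_⟩
  · rw [div_mul_cancel₀ _ t0.ne', t1, sub_dotProduct, smul_dotProduct, smul_eq_mul,
      dotProduct_comm τ, dotProduct_comm b u]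
  · rw [p3, p2 u hu]
    generalize (t ⬝ᵥ u) / (t ⬝ᵥ t) = a2
    rw [t1]
    module


end main

end M11



end Crest.Agent.T157.Qe

end
end

-- ▼ part T157/QeH_11
section

/-!
# Row 157, part A2 (helper11): the form inequality (HA)

Under the planted tilt, conditionally on `W p`, on a rigid spectrum
`W + (1 - η) g g' ≤ 2 + ε q²`, `g = u - m e`, off probability `exp(K log n + E/2 - ε⁹ q² n / 64)`.
-/

set_option autoImplicit false

noncomputable section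

namespace Crest.Agent.T157.Qe

open Matrix Finset MeasureTheory Set
open scoped ENNReal
open Crest.Agent.T157.E Crest.Agent.T157.Cond Crest.Agent.T157.Dq
open Crest.Agent.T157.Conc (ex ex_add ex_mono ex_zero ex_ne_top measurable_ex)

variable {n : ℕ}

namespace M11

/-- any deterministic consequence of the tilt event and the isotropic event -/
theorem evCore : ∃ K : ℕ, ∀ (n : ℕ) (Cw ε d q E : ℝ) (e c τ u : V n) (S : Set (Mx n))
    (Q : Mx n → Prop), Par n ε q → 0 ≤ Cw → 1100 * (1 + Cw) * q ≤ ε ^ 3 → ε ^ 3 ≤ d → d ≤ 1 / 3 →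
    0 ≤ E → WS ε q E Cw S → (∀ W ∈ S, (zz (gg ε q) • (1 : Mx n) - W)⁻¹.trace ≤ (1 + d) * n) →
    FS ε q e c τ → u ⬝ᵥ u ≤ 1 →
    (∀ X : Mx n, Xᵀ = X → X *ᵥ e = c → Le (X + Tm ε q τ) (zz (gg ε q) • (1 : Mx n)) →
      (∀ v, ((P3 e c τ *ᵥ u) ⬝ᵥ v) ^ 2 ≤
        (1 + 3 * d) * (v ⬝ᵥ (zz (gg ε q) • (1 : Mx n) - X) *ᵥ v)) → Q X) →
    GOE n {W | Wm e c τ W ∈ S ∧ ¬ Q (Wm e c τ W)} ≤
      ex (K * Real.log n + E / 2 - ε ^ 9 * q ^ 2 * n / 64) := by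
  obtain ⟨K, hK⟩ := tiGlue qsStmt
  refine ⟨K + 1, fun n Cw ε d q E e c τ u S Q hp hCw hq hd1 d1 hE hW htr hF hu hQ => ?_⟩
  have hT := hK n ε q E Cw e c τ S hp hCw hq hW hF
  have h0 := hp.e0
  have h1 := hp.e1
  have h2 := hp.q0
  have hn8 : (8 : ℝ) ≤ n := by exact_mod_cast hp.n8
  have e3 : 0 < ε ^ 3 := by positivity
  have hd : 0 < d := by linarith
  have hn : 6 ≤ d * n := by
    have i1 : n * ε * q ≤ n * 1 * (d / 1100) := by
      gcongr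
      · linarith
      · nlinarith
    linarith [hp.nq]
  have hP := proj_P3 hF.unit c τ
  have hA := TT_avg hp.n8 hF.unit hW.meas hW.inv (hP.mulVec_mulVec u) fun X hX =>
    one hp hW hCw hP (trace_P3 hF.unit c τ) d1 hn (by nlinarith) hX (htr X hX)
  have hsub : {W | Wm e c τ W ∈ S ∧ ¬ Q (Wm e c τ W)} ⊆
      {W | Wm e c τ W ∈ S ∧ ¬ Le (Wm e c τ W + Tm ε q τ) (zz (gg ε q) • (1 : Mx n))} ∪
        TT (zz (gg ε q)) (1 + 3 * d) e c τ S (P3 e c τ *ᵥ u) := by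
    rintro W ⟨w1, w2⟩
    by_contra hc
    rw [Set.mem_union, not_or] at hc
    obtain ⟨a, hd', ha, -, -⟩ := hW.sp _ w1
    obtain ⟨-, -, hz0, -⟩ := Ti61.consts hp
    have e6 : 0 < ε ^ 4 * q ^ 2 := by positivity
    have haz : ∀ i, a i < zz (gg ε q) := fun i => by linarith [(ha i).2]
    refine w2 (hQ _ hd'.symm (glue_e hF.unit c _) (by_contra fun h => hc.1 ⟨w1, h⟩) fun v => ?_)
    have c1 := not_lt.1 fun h => hc.2 ⟨w1, h⟩
    have c2 := Ti61.psd_cs (Ti61.symm_of hd' _) (Ti61.psd_of hd' fun i => (haz i).le) v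
      ((zz (gg ε q) • (1 : Mx n) - Wm e c τ W)⁻¹ *ᵥ (P3 e c τ *ᵥ u))
    rw [mulVec_mulVec, (Ti61.dg_inv hd' haz).2, one_mulVec, dotProduct_comm v,
      dotProduct_comm (_ *ᵥ (P3 e c τ *ᵥ u))] at c2
    have c3 := Ti61.psd_of hd' (fun i => (haz i).le) v
    have c4 := (hP.dot_le u).trans hu
    have c5 := c1.trans (mul_le_of_le_one_right (by linarith) c4)
    exact c2.trans ((mul_le_mul_of_nonneg_left c5 c3).trans_eq (mul_comm _ _))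
  have c1 : 0 ≤ (K : ℝ) * Real.log n := mul_nonneg (Nat.cast_nonneg _) (Real.log_natCast_nonneg n)
  have c2 : ε ^ 9 * q ^ 2 * n / 64 ≤ d * ε ^ 4 * q ^ 2 * n / 16 := by
    have i1 : ε ^ 5 ≤ d := (pow_le_pow_of_le_one h0.le (by linarith) (by norm_num)).trans hd1
    have i2 : 0 < ε ^ 4 * q ^ 2 * n := by positivity
    nlinarith [mul_le_mul_of_nonneg_right i1 i2.le, mul_pos hd i2]
  refine (measure_mono hsub).trans ((measure_union_le _ _).trans ?_)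
  obtain ⟨x, hx⟩ : ∃ x, x = K * Real.log n + E / 2 - ε ^ 9 * q ^ 2 * n / 64 := ⟨_, rfl⟩
  rw [← hx] at hT
  have g2 := hA.trans (mul_le_mul_right (ex_mono (v := x) (by rw [hx]; linarith)) 2)
  refine (add_le_add hT g2).trans ?_
  have g3 : (3 : ℝ≥0∞) ≤ ex (Real.log n) := by
    rw [ex, Real.exp_log (by linarith), ← ENNReal.ofReal_ofNat]
    exact ENNReal.ofReal_le_ofReal (by linarith)
  calc ex x + 2 * ex x = 3 * ex x := by ring
    _ ≤ ex (Real.log n) * ex x := mul_le_mul_left g3 _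
    _ = _ := by rw [← ex_add, hx]; congr 1; push_cast; ring

variable {ε q d : ℝ} {e c τ : V n}




end M11



end Crest.Agent.T157.Qe

end
end

-- ▼ part T157/QeH2_11
section

/-!
# Row 157, part A2 (helper11): (HA) with an order-one bound of `u·τ`
-/

set_option autoImplicit false

noncomputable section

namespace Crest.Agent.T157.Qe

open Matrix Finset MeasureTheory Set
open scoped ENNReal
open Crest.Agent.T157.E Crest.Agent.T157.Cond Crest.Agent.T157.Dq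
open Crest.Agent.T157.Conc (ex ex_add ex_mono ex_zero ex_ne_top measurable_ex)

variable {n : ℕ}

/-- the scalar statistics used by (HA) -/
structure S5 (C d q m : ℝ) (e c τ u : V n) : Prop where
  orth : e ⬝ᵥ u = 0
  unit : u ⬝ᵥ u ≤ 1
  s1 : q / C ≤ 2 - e ⬝ᵥ c
  s2 : 2 - e ⬝ᵥ c ≤ C * q
  s3 : |bv e c ⬝ᵥ bv e c - (2 - e ⬝ᵥ c)| ≤ d * (2 - e ⬝ᵥ c)
  u5 : (bv e c ⬝ᵥ τ) ^ 2 ≤ C * q ^ 3 * n
  b2 : (u ⬝ᵥ bv e c) ^ 2 ≤ C * q ^ 2
  ut : (u ⬝ᵥ τ) ^ 2 ≤ C * q ^ 2 * n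
  hm : (m - u ⬝ᵥ bv e c) ^ 2 ≤ d * q ^ 2

namespace M11

variable {ε q d : ℝ} {e c τ : V n}

/-- the scalar bounds for (HA) -/
lemma scalH2 {C N S0 η B L μ β ν a1 a2 a3 m : ℝ} (hC : 1 ≤ C)
    (hq : 0 < q) (hd : 0 < d) (d1 : 10 ^ 4 * C ^ 2 * d ≤ 1) (hqd : 20 * C ^ 5 * q ≤ d) (hN : 0 < N)
    (s1 : q / C ≤ S0) (s2 : S0 ≤ C * q) (s3 : |B - S0| ≤ d * S0) (η0 : 0 ≤ η) (η1 : η ≤ 2 * q ^ 2)
    (hL : N / 4 ≤ L) (u5 : β ^ 2 ≤ C * q ^ 3 * N) (hμ : μ ^ 2 ≤ C * q ^ 2)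
    (hν : ν ^ 2 ≤ C * q ^ 2 * N) (hm : (m - μ) ^ 2 ≤ d * q ^ 2)
    (e1 : a1 * B = μ) (e3 : a3 * B = β) (e2 : a2 * L = ν - a3 * μ) :
    (a1 - a2 * a3) ^ 2 * (S0 + η) ≤ d ∧ a2 ^ 2 * N ≤ 64 * C * q ^ 2 ∧
      ((a1 - a2 * a3) * (S0 + η) - m) ^ 2 ≤ 9 * d * q ^ 2 := by
  have C0 : 0 < C := by linarith
  have C2 : 1 ≤ C ^ 2 := one_le_pow₀ hC
  have C3 : 1 ≤ C ^ 3 := one_le_pow₀ hC
  have d2 : d ≤ 1 / 10 ^ 4 := by linarith [mul_le_mul_of_nonneg_right C2 hd.le]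
  have d3 : C * d ≤ 1 / 10 ^ 4 := by linarith [pw_le hC (show 1 ≤ 2 by norm_num) hd]
  have q4 : C ^ 4 * q ≤ d / 20 := by linarith [pw_le hC (show 4 ≤ 5 by norm_num) hq]
  have q1 : C * q ≤ d / 20 := by linarith [pw_le hC (show 1 ≤ 5 by norm_num) hq]
  have q0 : q ≤ d / 20 := by linarith [pw_le hC (show 0 ≤ 5 by norm_num) hq]
  obtain ⟨B3, S2, S1, i1⟩ := scalB hC hq hd d2 q1 s1 s2 s3 η0 η1
  obtain ⟨A1, A2, A23⟩ := scalA (d := C) C0 hq C0 hN (by linarith) B3 hL u5 hμ hν e1 e3 e2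
  have q2 : 0 < q ^ 2 := by positivity
  have q3 : q ^ 3 ≤ 1 := pow_le_one₀ hq.le (by linarith)
  have A4 : (a1 - a2 * a3) ^ 2 ≤ 10 * C ^ 3 := by
    have i1 : 256 * C ^ 3 * C * q ^ 3 ≤ C ^ 3 := by
      calc _ = 256 * C ^ 3 * (C * q) * q * q := by ring
        _ ≤ 256 * C ^ 3 * (1 / 10 ^ 4) * 1 * 1 := by gcongr <;> linarith
        _ ≤ _ := by linarith
    linarith [sq_nonneg (a1 + a2 * a3)]
  refine ⟨?_, A2, ?_⟩
  · calc _ ≤ (10 * C ^ 3) * (2 * C * q) := by gcongr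
      _ = 20 * (C ^ 4 * q) := by ring
      _ ≤ _ := by linarith
  · have T2 : (a1 * (S0 + η) - μ) ^ 2 ≤ d * q ^ 2 := by
      calc _ = a1 ^ 2 * (S0 + η - B) ^ 2 := by rw [← e1]; ring
        _ ≤ a1 ^ 2 * (4 * d * B) ^ 2 := by gcongr
        _ = 16 * d ^ 2 * μ ^ 2 := by rw [← e1]; ring
        _ ≤ 16 * d ^ 2 * (C * q ^ 2) := by gcongr
        _ = 16 * (C * d) * (d * q ^ 2) := by ring
        _ ≤ 16 * (1 / 10 ^ 4) * (d * q ^ 2) := by gcongr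
        _ ≤ _ := by linarith [mul_pos hd q2]
    have T3 : (a2 * a3 * (S0 + η)) ^ 2 ≤ d * q ^ 2 := by
      calc _ = (a2 * a3) ^ 2 * (S0 + η) ^ 2 := by ring
        _ ≤ (256 * C ^ 3 * C * q ^ 3) * (2 * C * q) ^ 2 := by gcongr
        _ = 1024 * (C ^ 5 * q) * (C * q) * q * q ^ 2 := by ring
        _ ≤ 1024 * d * (1 / 10 ^ 4) * 1 * q ^ 2 := by gcongr <;> linarith
        _ ≤ _ := by linarith [mul_pos hd q2]
    have e : (a1 - a2 * a3) * (S0 + η) - m =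
        (a1 * (S0 + η) - μ) - a2 * a3 * (S0 + η) - (m - μ) := by ring
    rw [e]
    generalize a1 * (S0 + η) - μ = x at *
    generalize a2 * a3 * (S0 + η) = y at *
    generalize m - μ = w at *
    linarith [sq_nonneg (x + y), sq_nonneg (x + w), sq_nonneg (y - w)]

lemma four2 {η d ε Y a x y w r ω : ℝ} (ω0 : 0 ≤ ω) (ω1 : 100 * ω ≤ η ^ 2) (h0 : 0 < η) (h1 : η ≤ 1) (hd : 0 < d) (_ : 0 < ε) (hε1 : ε ≤ 1)
    (h : 10 ^ 4 * d ≤ ε * η) (h' : 10 ^ 4 * d ≤ η ^ 2) (hY : 0 ≤ Y) (ha : 0 ≤ a) (hx : x ^ 2 ≤ (1 + 3 * d) * Y)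
    (hy : y ^ 2 ≤ d * Y) (hw : w ^ 2 ≤ ω * Y) (hr : r ^ 2 ≤ 9 * d * a) :
    (1 - η) * (x - y + w + r) ^ 2 ≤ Y + ε / 2 * a := by
  have i1 : η * (x - y + w + r) ^ 2 ≤ η * (1 + η / 2) * x ^ 2 + (η + 2) * (w - y + r) ^ 2 := by
    linarith [sq_nonneg (η * x - 2 * (w - y + r))]
  have i2 : (w - y + r) ^ 2 ≤ 3 * (ω + d) * Y + 27 * d * a := by
    linarith [sq_nonneg (w + y), sq_nonneg (w - r), sq_nonneg (y + r)]
  have i3 : (η + 2) * (w - y + r) ^ 2 ≤ 3 * (3 * (ω + d) * Y + 27 * d * a) :=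
    mul_le_mul (by linarith) i2 (sq_nonneg _) (by norm_num)
  have i4 : η * (1 + η / 2) * x ^ 2 ≤ η * (1 + η / 2) * ((1 + 3 * d) * Y) := by gcongr
  have d1 : 10 ^ 4 * d ≤ η := h.trans (mul_le_of_le_one_left h0.le hε1)
  refine le_of_mul_le_mul_left ?_ h0
  have i5 : (1 - η) * (η * (x - y + w + r) ^ 2) ≤ (1 - η) * (η * (1 + η / 2) * ((1 + 3 * d) * Y)) +
      (1 - η) * (3 * (3 * (ω + d) * Y + 27 * d * a)) := by
    rw [← mul_add]
    exact mul_le_mul_of_nonneg_left (by linarith) (by linarith)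
  have i6 : (1 - η) * (3 * (3 * (ω + d) * Y + 27 * d * a)) ≤ 3 * (3 * (ω + d) * Y + 27 * d * a) :=
    mul_le_of_le_one_left (by positivity) (by linarith)
  have i7 : (1 - η) * (1 + η / 2) * (1 + 3 * d) ≤ 1 - η / 4 := by
    have j1 : (1 - η) * (1 + η / 2) ≤ 1 - η / 2 := by nlinarith
    calc _ ≤ (1 - η / 2) * (1 + 3 * d) := by gcongr
      _ ≤ _ := by nlinarith
  have i8 : η * Y * ((1 - η) * (1 + η / 2) * (1 + 3 * d)) ≤ η * Y * (1 - η / 4) := by gcongr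
  have i9 := mul_le_mul_of_nonneg_right h' hY
  have i10 := mul_le_mul_of_nonneg_right h ha
  have i11 := mul_nonneg hd.le hY
  have i13 := mul_le_mul_of_nonneg_right ω1 hY
  have i14 := mul_nonneg ω0 hY
  have i12 := mul_nonneg hd.le ha
  linarith

/-- the deterministic step of (HA) -/
lemma detH2 {C m η : ℝ} {u : V n} {X : Mx n} (hp : Par n ε q) (hC : 1 ≤ C) (hd : 0 < d)
    (η0 : 0 < η) (η1 : η ≤ 1) (hdε : 10 ^ 4 * C ^ 2 * d ≤ ε * η) (hdη : 10 ^ 4 * d ≤ η ^ 2)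
    (hεη : 10 ^ 4 * C * ε ≤ η ^ 2) (hqd : 20 * C ^ 5 * q ≤ d) (hF : FS ε q e c τ)
    (h4 : S5 C d q m e c τ u) (hX : Xᵀ = X)
    (hXe : X *ᵥ e = c) (hT : Le (X + Tm ε q τ) (zz (gg ε q) • (1 : Mx n)))
    (hf : ∀ v, ((P3 e c τ *ᵥ u) ⬝ᵥ v) ^ 2 ≤
      (1 + 3 * d) * (v ⬝ᵥ (zz (gg ε q) • (1 : Mx n) - X) *ᵥ v)) :
    Le (X + (1 - η) • vecMulVec (u - m • e) (u - m • e)) ((2 + ε * q ^ 2) • (1 : Mx n)) := by
  obtain ⟨hx, hx1, hz0, -⟩ := Ti61.consts hp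
  have h0 := hp.e0
  have h1 := hp.e1
  have h2 := hp.q0
  have hn8 : (8 : ℝ) ≤ n := by exact_mod_cast hp.n8
  have q2 : 0 < q ^ 2 := by positivity
  have hz1 : zz (gg ε q) ≤ 2 + 2 * (ε ^ 2 * q) ^ 2 := by
    rw [Ti61.zz_eq (by unfold gg; linarith), gg, sub_sub_cancel, add_le_add_iff_left,
      div_le_iff₀ (by linarith)]
    nlinarith [sq_nonneg (ε ^ 2 * q)]
  have e4 : (ε ^ 2 * q) ^ 2 ≤ ε / 4 * q ^ 2 := by
    have : ε ^ 3 ≤ 1 / 4 := (pow_le_pow_left₀ h0.le h1 3).trans (by norm_num)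
    calc _ = ε ^ 3 * (ε * q ^ 2) := by ring
      _ ≤ 1 / 4 * (ε * q ^ 2) := by gcongr
      _ = _ := by ring
  have e5 : ε / 4 * q ^ 2 ≤ 1 * q ^ 2 := by gcongr; linarith
  have e6 : 0 < ε ^ 4 * q ^ 2 := by positivity
  obtain ⟨z, hz⟩ : ∃ z, z = zz (gg ε q) := ⟨_, rfl⟩
  have hpos := hF.pos
  rw [← hz] at hz0 hz1 hT hf hpos
  have C0 : 0 < C := by linarith
  have S00 : 0 < 2 - e ⬝ᵥ c := lt_of_lt_of_le (by positivity) h4.s1
  have εη : ε * η ≤ 1 := by nlinarith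
  have d0 : d ≤ C ^ 2 * d := by linarith [pw_le hC (show 0 ≤ 2 by norm_num) hd]
  have d1 : d ≤ 1 / 2 := by linarith
  have hB : 0 < bv e c ⬝ᵥ bv e c := by
    linarith [(abs_le.1 h4.s3).1, mul_le_mul_of_nonneg_right d1 S00.le]
  obtain ⟨a1, a2, a3, L, hL, e1, e3, e2, hu⟩ := dec hF h4.orth hB (by linarith [hp.n8])
  have T0 : 0 < τ ⬝ᵥ τ := by linarith [hF.t1]
  obtain ⟨k1, k2, k3⟩ := scalH2 (η := z - 2) hC h2 hd (by linarith) hqd (by linarith) h4.s1 h4.s2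
    h4.s3 (by linarith) (by linarith) hL h4.u5 h4.b2 h4.ut h4.hm e1 e3 e2
  intro v
  obtain ⟨A, hA⟩ : ∃ A, A = a1 - a2 * a3 := ⟨_, rfl⟩
  obtain ⟨α, hα⟩ : ∃ α, α = e ⬝ᵥ v := ⟨_, rfl⟩
  obtain ⟨f, hfe⟩ : ∃ f, f = P3 e c τ *ᵥ u := ⟨_, rfl⟩
  obtain ⟨S, hS⟩ : ∃ S, S = z - e ⬝ᵥ c := ⟨_, rfl⟩
  rw [← hA, show 2 - e ⬝ᵥ c + (z - 2) = S by rw [hS]; ring] at k1 k3
  rw [← hA] at hu
  rw [← hfe] at hu hf
  rw [← hS] at hpos
  have hs : (z • (1 : Mx n) - X)ᵀ = z • (1 : Mx n) - X := by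
    rw [transpose_sub, transpose_smul, transpose_one, hX]
  have hk : 0 < q ^ 2 / ε / (τ ⬝ᵥ τ) := by positivity
  have hT' : ∀ w : V n, q ^ 2 / ε / (τ ⬝ᵥ τ) * (τ ⬝ᵥ w) ^ 2 ≤ w ⬝ᵥ (z • (1 : Mx n) - X) *ᵥ w :=
    fun w => by
      have f2 := hT w
      rw [qf_add, Tm, Ti61.quad_vmv] at f2
      rw [qf_sub]; linarith
  have hP : Le 0 (z • (1 : Mx n) - X) := fun w => by
    rw [qf_zero]; exact le_trans (by positivity) (hT' w)
  have hvc : v ⬝ᵥ c = (e ⬝ᵥ c) * α + bv e c ⬝ᵥ v := by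
    rw [bv, R1_mulVec, sub_dotProduct, smul_dotProduct, smul_eq_mul, ← hα, dotProduct_comm]; ring
  have cs := qf_cs hs hP v e
  have f1 := hf v
  have f2 := hT' v
  have Y0 := hP v
  rw [qf_zero] at Y0
  obtain ⟨Y, hY⟩ : ∃ Y, Y = v ⬝ᵥ (z • (1 : Mx n) - X) *ᵥ v := ⟨_, rfl⟩
  rw [← hY] at cs f1 f2 Y0
  have c1 : v ⬝ᵥ (z • (1 : Mx n) - X) *ᵥ e = S * α - bv e c ⬝ᵥ v := by
    rw [qf_sub, qf_smul, qf_one, hXe, hvc, dotProduct_comm v e, ← hα, hS]; ring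
  have c2 : e ⬝ᵥ (z • (1 : Mx n) - X) *ᵥ e = S := by
    rw [qf_sub, qf_smul, qf_one, hXe, hF.unit, hS, mul_one]
  rw [c1, c2] at cs
  have g1 : (A * (S * α - bv e c ⬝ᵥ v)) ^ 2 ≤ d * Y := by
    calc _ = A ^ 2 * (S * α - bv e c ⬝ᵥ v) ^ 2 := by ring
      _ ≤ A ^ 2 * (Y * S) := by gcongr
      _ = A ^ 2 * S * Y := by ring
      _ ≤ _ := by gcongr
  have g2 : (a2 * (τ ⬝ᵥ v)) ^ 2 ≤ 64 * C * ε * Y := by
    have j1 : a2 ^ 2 * (τ ⬝ᵥ τ) ≤ 64 * C * q ^ 2 :=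
      (mul_le_mul_of_nonneg_left hF.t2 (sq_nonneg _)).trans k2
    calc _ = a2 ^ 2 * (τ ⬝ᵥ τ) * (ε / q ^ 2) * (q ^ 2 / ε / (τ ⬝ᵥ τ) * (τ ⬝ᵥ v) ^ 2) := by
          field_simp
      _ ≤ 64 * C * q ^ 2 * (ε / q ^ 2) * Y := by gcongr
      _ = _ := by field_simp
  have g3 : ((A * S - m) * α) ^ 2 ≤ 9 * d * (q ^ 2 * α ^ 2) := by
    calc _ = (A * S - m) ^ 2 * α ^ 2 := by ring
      _ ≤ 9 * d * q ^ 2 * α ^ 2 := by gcongr
      _ = _ := by ring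
  have g4 := four2 (by positivity) (by linarith [mul_pos C0 h0]) η0 η1 hd h0 (by linarith) (by linarith) hdη Y0 (by positivity) f1 g1 g2 g3
  have huv : (u - m • e) ⬝ᵥ v = f ⬝ᵥ v - A * (S * α - bv e c ⬝ᵥ v) + a2 * (τ ⬝ᵥ v) +
      (A * S - m) * α := by
    conv_lhs => rw [hu]
    simp only [add_dotProduct, sub_dotProduct, smul_dotProduct, smul_eq_mul, ← hα]; ring
  have hN : α ^ 2 ≤ v ⬝ᵥ v := by
    have := dot_self_nonneg (v - α • e)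
    simp only [sub_dotProduct, dotProduct_sub, smul_dotProduct, dotProduct_smul, smul_eq_mul,
      hF.unit, dotProduct_comm v e, ← hα] at this
    linarith
  have g5 := mul_le_mul_of_nonneg_left hN (show 0 ≤ 2 + ε * q ^ 2 - z by linarith)
  have g6 := mul_le_mul_of_nonneg_right (show ε * q ^ 2 / 2 ≤ 2 + ε * q ^ 2 - z by linarith)
    (sq_nonneg α)
  rw [qf_sub, qf_smul, qf_one] at hY
  rw [qf_add, Ti61.quad_vmv, huv, qf_smul, qf_one]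
  linarith

end M11

open M11 in
/-- **(HA), conditional form** -/
theorem haCore2 : ∃ K : ℕ, ∀ (n : ℕ) (C Cw ε d q E m η : ℝ) (e c τ u : V n) (S : Set (Mx n)),
    Par n ε q → 1 ≤ C → 0 ≤ Cw → 1100 * (1 + Cw) * q ≤ ε ^ 3 → ε ^ 3 ≤ d → 0 < η → η ≤ 1 →
    10 ^ 4 * C ^ 2 * d ≤ ε * η → 10 ^ 4 * d ≤ η ^ 2 → 10 ^ 4 * C * ε ≤ η ^ 2 →
    20 * C ^ 5 * q ≤ d → 0 ≤ E → WS ε q E Cw S →
    (∀ W ∈ S, (zz (gg ε q) • (1 : Mx n) - W)⁻¹.trace ≤ (1 + d) * n) →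
    FS ε q e c τ → S5 C d q m e c τ u →
    GOE n {W | Wm e c τ W ∈ S ∧ ¬ Le (Wm e c τ W + (1 - η) • vecMulVec (u - m • e) (u - m • e))
      ((2 + ε * q ^ 2) • (1 : Mx n))} ≤ ex (K * Real.log n + E / 2 - ε ^ 9 * q ^ 2 * n / 64) := by
  obtain ⟨K, h⟩ := evCore
  refine ⟨K, fun n C Cw ε d q E m η e c τ u S hp hC hCw hq h1 η0 η1 h2 h3 h3' h4 hE hW htr hF hS =>
    h n Cw ε d q E e c τ u S (fun X => Le (X + (1 - η) • vecMulVec (u - m • e) (u - m • e))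
      ((2 + ε * q ^ 2) • (1 : Mx n))) hp hCw hq h1 (by nlinarith) hE hW htr hF hS.unit
      fun X x1 x2 x3 x4 => detH2 hp hC (lt_of_lt_of_le (pow_pos hp.e0 3) h1) η0 η1 h2 h3 h3' h4 hF hS
        x1 x2 x3 x4⟩

end Crest.Agent.T157.Qe

end
end

-- ▼ part T157/KbHa_11

/-!
# Row 157, part A2 (helper11): (HA) as a first-moment event

`Pt {W ∈ S0, Co, XM, ¬ W + (1 - η) f₂ f₂' ≤ 2 + ε q²} ≤ poly exp (E/2 - c ε¹⁸ n t)`, where `f₂` is
the unit part of `p = tanh x` orthogonal to `x`.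
-/

set_option autoImplicit false

noncomputable section

namespace Crest.Agent.T157.Kb

open MeasureTheory Matrix Set
open scoped ENNReal
open Crest.Agent.T157.E Crest.Agent.T157.Cond Crest.Agent.T157.Tap
open Crest.Agent.T157.Qe (Le R1 bv Wm St Dv WS FS zz gg S5 Par R1_mulVec proj_R1 R1_e)
open Crest.Agent.T157.Conc (ex ex_add ex_mono)

variable {n : ℕ}

/-- unit part of `x` orthogonal to `p` -/
def u2 (x : V n) : V n := unitv (bv (ee x) x)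
/-- the slope of `x` in the frame `(e, u2)` -/
def m2 (x : V n) : ℝ := len (bv (ee x) x) / (ee x ⬝ᵥ x)
/-- unit part of `p` orthogonal to `x` -/
def f2 (x : V n) : V n := unitv (bv (unitv x) (th x))

/-- **(HA)** as a first-moment event -/
def HaStmt : Prop := ∀ K ≥ (1 : ℝ), ∀ Cw ≥ (0 : ℝ), ∃ c > (0 : ℝ), ∃ C : ℕ,
  ∀ (n : ℕ) (t ε η E : ℝ) (S0 : Set (Mx n)) (B : Set (V n × Mx n)), C ≤ n → 1 / (n : ℝ) ≤ t →
  0 < ε → 0 < η → η ≤ 1 → ε ≤ c * η ^ 2 →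
  Real.sqrt t ≤ c ^ 2 * ε ^ 9 → K ≤ (n * ε) ^ 2 * t → 0 ≤ E → MeasurableSet B →
  (∀ q > (0 : ℝ), t ≤ K * q ^ 2 → q ^ 2 ≤ K * t → WS ε q E Cw S0 ∧
    ∀ W ∈ S0, (zz (gg ε q) • (1 : Mx n) - W)⁻¹.trace ≤ (1 + ε ^ 3) * n) →
  (∀ z ∈ B, z.2 ∈ S0 ∧ Co K (c * ε ^ 9) t z.1 ∧ XM (c * ε ^ 9) z.1 ∧
    ¬ Le (z.2 + (1 - η) • vecMulVec (f2 z.1) (f2 z.1)) ((2 + ε * aS z.1 ^ 2) • (1 : Mx n))) →
  Pt t (B.indicator 1) ≤ ex (C * Real.log n + E / 2 - c * ε ^ 18 * n * t)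

namespace Ha11

lemma rem (x : ℝ) : |x - Real.tanh x - Real.tanh x ^ 3 / 3| ≤
    8 * |Real.tanh x| ^ 5 + 2 * min (x ^ 8) (x ^ 2) := by
  have h0 := abs_nonneg x
  have hp := abs_nonneg (Real.tanh x)
  have hM : 0 ≤ min (x ^ 8) (x ^ 2) := le_min (by positivity) (by positivity)
  rcases le_total |x| 1 with h | h
  · have a1 := abs_le.1 (Tay.t5 x)
    have a2 := abs_le.1 (Tay.p3 x)
    have a3 : |x| ^ 7 ≤ |x| ^ 5 := pow_le_pow_of_le_one h0 h (by norm_num)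
    have a4 : -|x| ^ 5 ≤ x ^ 5 ∧ x ^ 5 ≤ |x| ^ 5 := by rw [← abs_pow]; exact abs_le.1 le_rfl
    have a5 : |x| ≤ 3 / 2 * |Real.tanh x| := by
      have b1 := Tay.t3 x
      have b2 : |x| ^ 3 ≤ |x| ^ 1 := pow_le_pow_of_le_one h0 h (by norm_num)
      have b3 := abs_sub_abs_le_abs_sub x (Real.tanh x)
      linarith
    have a6 := pow_le_pow_left₀ h0 a5 5
    have a7 := pow_nonneg hp 5
    rw [mul_pow] at a6
    rw [abs_le]; constructor <;> linarith [a1.1, a1.2, a2.1, a2.2, a4.1, a4.2]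
  · have a1 : 1 ≤ x ^ 2 := by rw [← sq_abs]; exact one_le_pow₀ h
    have a2 : min (x ^ 8) (x ^ 2) = x ^ 2 := min_eq_right (by
      rw [show x ^ 8 = (x ^ 2) ^ 4 by ring]; exact le_self_pow₀ a1 (by norm_num))
    have a3 := abs_le.1 (Tay.t1' x)
    have a4 : |Real.tanh x ^ 3| ≤ 1 := by
      rw [abs_pow]; exact pow_le_one₀ hp (Real.abs_tanh_lt_one x).le
    have a5 : |x| ≤ x ^ 2 := by rw [← sq_abs]; exact le_self_pow₀ h (by norm_num)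
    have a6 := abs_le.1 a4
    have a7 := pow_nonneg hp 5
    rw [a2, abs_le]; constructor <;> linarith [a3.1, a3.2, a6.1, a6.2]

lemma p8 (x : ℝ) : Real.tanh x ^ 8 ≤ min (x ^ 8) (x ^ 2) := by
  have h := Tay.sq_le x
  refine le_min ?_ (le_trans ?_ h)
  · calc _ = (Real.tanh x ^ 2) ^ 4 := by ring
      _ ≤ (x ^ 2) ^ 4 := by gcongr
      _ = _ := by ring
  · calc _ = (Real.tanh x ^ 2) ^ 4 := by ring
      _ ≤ _ := pow_le_of_le_one (sq_nonneg _) (Real.tanh_sq_lt_one x).le (by norm_num)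

lemma rem' (x : ℝ) (k : ℕ) : |Real.tanh x ^ k * (x - Real.tanh x - Real.tanh x ^ 3 / 3)| ≤
    8 * |Real.tanh x| ^ (k + 5) + 2 * min (x ^ 8) (x ^ 2) := by
  have hM : 0 ≤ min (x ^ 8) (x ^ 2) := le_min (by positivity) (by positivity)
  have h1 : |Real.tanh x| ^ k ≤ 1 := pow_le_one₀ (abs_nonneg _) (Real.abs_tanh_lt_one x).le
  rw [abs_mul, abs_pow]
  calc _ ≤ |Real.tanh x| ^ k * (8 * |Real.tanh x| ^ 5 + 2 * min (x ^ 8) (x ^ 2)) :=
        mul_le_mul_of_nonneg_left (rem x) (by positivity)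
    _ = 8 * |Real.tanh x| ^ (k + 5) + |Real.tanh x| ^ k * (2 * min (x ^ 8) (x ^ 2)) := by ring
    _ ≤ _ := by
      have := mul_le_of_le_one_left (show 0 ≤ 2 * min (x ^ 8) (x ^ 2) by positivity) h1
      linarith

lemma rsq_ge (x : ℝ) : Real.tanh x ^ 6 / 9 - 7 * min (x ^ 8) (x ^ 2) ≤ (x - Real.tanh x) ^ 2 := by
  have h := (abs_le.1 (rem' x 3)).1
  rw [Even.pow_abs (show Even (3 + 5) by decide)] at h
  have h2 := p8 x
  have hM : 0 ≤ min (x ^ 8) (x ^ 2) := le_min (by positivity) (by positivity)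
  linarith [sq_nonneg (x - Real.tanh x - Real.tanh x ^ 3 / 3)]

lemma rsq_le (x : ℝ) : (x - Real.tanh x) ^ 2 ≤ Real.tanh x ^ 6 + min (x ^ 8) (x ^ 2) := by
  have h6 : 0 ≤ Real.tanh x ^ 6 := by positivity
  have h8 : 0 ≤ x ^ 8 := by positivity
  rw [← min_add_add_left]
  refine le_min ?_ ?_
  · linarith [Tay.r_sq x, (abs_le.1 (Tay.p6 x)).1]
  · linarith [sq_le_sq.2 (Tay.t1' x)]

lemma avg_le {f g : V n} (h : ∀ i, f i ≤ g i) : avg f ≤ avg g :=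
  div_le_div_of_nonneg_right (Finset.sum_le_sum fun i _ => h i) (Nat.cast_nonneg n)

lemma avg_lin (a b : ℝ) (f g : V n) : avg (fun i => a * f i + b * g i) = a * avg f + b * avg g := by
  simp only [avg, Finset.sum_add_distrib, ← Finset.mul_sum]; ring

lemma avg_abs {f g : V n} (h : ∀ i, |f i| ≤ g i) : |avg f| ≤ avg g := by
  have h1 : avg (fun i => (-1) * g i + 0 * g i) ≤ avg f :=
    avg_le fun i => by linarith [(abs_le.1 (h i)).1]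
  rw [avg_lin] at h1
  exact abs_le.2 ⟨by linarith, avg_le fun i => (abs_le.1 (h i)).2⟩

lemma dot_avg (hn : 0 < n) (f g : V n) : f ⬝ᵥ g = n * avg fun i => f i * g i := by
  have : (n : ℝ) ≠ 0 := by positivity
  rw [avg, dotProduct]; field_simp

/-- the moments of `r = x - p` -/
lemma mom {K e t : ℝ} {x : V n} (hK : 1 ≤ K) (he : e ≤ 1 / 100) (q0 : 0 < aS x)
    (hq : 20000 * K ^ 2 * aS x ≤ 1) (hc : Co K e t x) (hx : XM e x) :
    (R3 x - bS x / aS x * R4 x) ^ 2 ≤ 25000 * aS x ^ 5 ∧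
    aS x ^ 3 / 2 ≤ avg (fun i => (x i - th x i) ^ 2) - R4 x ^ 2 / aS x ∧
    avg (fun i => (x i - th x i) ^ 2) ≤ 17 * aS x ^ 3 ∧ R4 x ≤ 2 * aS x ^ 2 := by
  have p3 := hx.p3
  obtain ⟨p4, p4'⟩ := abs_le.1 hx.p4
  obtain ⟨p6, p6'⟩ := abs_le.1 hx.p6
  have e8 := hx.e8
  obtain ⟨r4, r4'⟩ := abs_le.1 hc.r4
  have a1 := hc.a1
  have d3 := avg_abs (f := fun i => 1 * (x - th x) i + (-(1 / 3)) * th x i ^ 3)
    (g := fun i => 8 * (th x i ^ 2 * |th x i| ^ 3) + 2 * min (x i ^ 8) (x i ^ 2)) fun i => by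
      have := rem (x i)
      rw [← sq_abs (th x i), ← pow_add]
      refine le_of_eq_of_le ?_ this
      congr 1; simp only [Pi.sub_apply, th]; ring
  have d4 := avg_abs (f := fun i => 1 * (th x i * (x i - th x i)) + (-(1 / 3)) * th x i ^ 4)
    (g := fun i => 8 * th x i ^ 6 + 2 * min (x i ^ 8) (x i ^ 2)) fun i => by
      have := rem' (x i) 1
      rw [Even.pow_abs (show Even (1 + 5) by decide)] at this
      refine le_of_eq_of_le ?_ this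
      congr 1; simp only [th]; ring
  have d5 := avg_mul_sq_le (fun i => th x i ^ 2) fun i => |th x i| ^ 3
  have d6 := avg_le (f := fun i => (1 / 9) * th x i ^ 6 + (-7) * min (x i ^ 8) (x i ^ 2))
    (g := fun i => (x i - th x i) ^ 2) fun i => by
      have := rsq_ge (x i)
      simp only [th]; linarith
  have d7 := avg_le (g := fun i => 1 * th x i ^ 6 + 1 * min (x i ^ 8) (x i ^ 2))
    (f := fun i => (x i - th x i) ^ 2) fun i => by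
      have := rsq_le (x i)
      simp only [th]; linarith
  rw [avg_lin] at d6 d7
  rw [avg_lin, avg_lin] at d3 d4
  simp only [← pow_mul, Even.pow_abs (show Even (3 * 2) by decide)] at d5
  have r0 := R4_nonneg x
  change |1 * R3 x + _| ≤ _ at d3
  change |1 * R4 x + _| ≤ _ at d4
  have b5 : 0 ≤ avg fun i => th x i ^ 2 * |th x i| ^ 3 :=
    div_nonneg (Finset.sum_nonneg fun i _ => by positivity) (Nat.cast_nonneg n)
  have b6 : 0 ≤ avg fun i => th x i ^ 6 :=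
    div_nonneg (Finset.sum_nonneg fun i _ => by positivity) (Nat.cast_nonneg n)
  clear hc hx
  generalize aS x = q at *
  generalize avg (fun i => th x i ^ 2 * |th x i| ^ 3) = A5 at *
  generalize avg (fun i => th x i ^ 3) = A3 at *
  generalize avg (fun i => th x i ^ 4) = A4 at *
  generalize avg (fun i => th x i ^ 6) = A6 at *
  generalize avg (fun i => min (x i ^ 8) (x i ^ 2)) = M at *
  generalize avg (fun i => (x i - th x i) ^ 2) = Q at *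
  generalize R3 x = r3 at *
  generalize R4 x = r at *
  generalize bS x = a at *
  have K2 : 1 ≤ K ^ 2 := one_le_pow₀ hK
  have q1 : q ≤ 1 / 20000 := by linarith [mul_le_mul_of_nonneg_right K2 q0.le]
  have q2 : 0 < q ^ 2 := by positivity
  have q3 : 0 < q ^ 3 := by positivity
  have q5 : 0 < q ^ 5 := by positivity
  have e3 : e * q ^ 3 ≤ 1 / 100 * q ^ 3 := by gcongr
  have e2 : e * q ^ 2 ≤ 1 / 100 * q ^ 2 := by gcongr
  have q32 : q ^ 3 ≤ 1 / 20000 * q ^ 2 := by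
    calc q ^ 3 = q * q ^ 2 := by ring
      _ ≤ _ := by gcongr
  have q65 : K ^ 2 * q ^ 6 ≤ 1 / 20000 * q ^ 5 := by
    calc _ = K ^ 2 * q * q ^ 5 := by ring
      _ ≤ _ := by gcongr; linarith
  have q65' : q ^ 6 ≤ K ^ 2 * q ^ 6 := le_mul_of_one_le_left (by positivity) K2
  refine ⟨?_, ?_, by linarith, by linarith⟩
  · have c1 : A5 ^ 2 ≤ (4 * q ^ 2) * (16 * q ^ 3) :=
      d5.trans (mul_le_mul (by linarith) (by linarith) b6 (by positivity))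
    have c2 : (r3 - A3 / 3) ^ 2 ≤ (8 * A5 + q ^ 3) ^ 2 :=
      sq_le_sq' (by linarith [(abs_le.1 d3).1]) (by linarith [(abs_le.1 d3).2])
    have c3 : (r - q ^ 2) ^ 2 ≤ (133 * q ^ 3) ^ 2 :=
      sq_le_sq' (by linarith [(abs_le.1 d4).1]) (by linarith [(abs_le.1 d4).2])
    have c4 : (a / q) ^ 2 ≤ K ^ 2 := by
      rw [div_pow, div_le_iff₀ q2, ← mul_pow, ← sq_abs]; gcongr
    have c5 : (a / q * (r - q ^ 2)) ^ 2 ≤ K ^ 2 * (133 * q ^ 3) ^ 2 := by rw [mul_pow]; gcongr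
    have e1 : r3 - a / q * r = (A3 - 3 * a * q) / 3 + (r3 - A3 / 3) - a / q * (r - q ^ 2) := by
      field_simp; ring
    rw [e1]
    generalize A3 - 3 * a * q = X at *
    generalize r3 - A3 / 3 = Y at *
    generalize a / q * (r - q ^ 2) = Z at *
    linarith [sq_nonneg (X / 3 - Y), sq_nonneg (X / 3 + Z), sq_nonneg (Y + Z),
      sq_nonneg (8 * A5 - q ^ 3)]
  · have c1 : r ^ 2 / q ≤ (101 / 100) ^ 2 * q ^ 3 := by
      rw [div_le_iff₀ q0]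
      calc r ^ 2 ≤ (101 / 100 * q ^ 2) ^ 2 := by gcongr; linarith
        _ = _ := by ring
    linarith

lemma dot_sq_le (a b : V n) : (a ⬝ᵥ b) ^ 2 ≤ (a ⬝ᵥ a) * (b ⬝ᵥ b) := by
  simpa only [dotProduct, sq] using Finset.sum_mul_sq_le_sq_mul_sq Finset.univ a b

lemma unit_sq (s : ℝ) {g : V n} (hg : 1 ≤ g ⬝ᵥ g) (v : V n) :
    (unitv (s • g) ⬝ᵥ v) ^ 2 ≤ (g ⬝ᵥ v) ^ 2 := by
  rw [unitv, smul_dotProduct, smul_dotProduct, smul_eq_mul, smul_eq_mul, mul_pow, mul_pow, inv_pow,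
    len_sq, smul_dotProduct, dotProduct_smul, smul_eq_mul, smul_eq_mul, ← mul_assoc _ (s ^ 2)]
  refine mul_le_of_le_one_left (sq_nonneg _) ?_
  rw [inv_mul_eq_div]
  refine div_le_one_of_le₀ ?_ (by rw [← mul_assoc]; exact mul_nonneg (mul_self_nonneg s) (by linarith))
  rw [← mul_assoc, ← sq]
  exact le_mul_of_one_le_right (sq_nonneg s) hg

/-- the direction `f2` against `u2 - m2 e` -/
lemma f2_le {x : V n} (q0 : 0 < aS x) (hl : 0 < len (bv (ee x) x)) (ha : 0 < ee x ⬝ᵥ x) (v : V n) :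
    (f2 x ⬝ᵥ v) ^ 2 ≤ ((u2 x - m2 x • ee x) ⬝ᵥ v) ^ 2 := by
  have he := Gn11.ee_unit q0
  have hu : u2 x ⬝ᵥ u2 x = 1 := unitv_dot fun h => hl.ne' (len_eq_zero.2 h)
  have heu : ee x ⬝ᵥ u2 x = 0 := by rw [u2, unitv, dotProduct_smul, Gn11.e_bv he, smul_zero]
  have hp : th x = len (th x) • ee x := (len_smul_unitv _).symm
  have hx : x = (ee x ⬝ᵥ x) • ee x + len (bv (ee x) x) • u2 x := by
    rw [u2, len_smul_unitv, bv, R1_mulVec]; abel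
  rw [f2, m2, bv, R1_mulVec, show unitv x = (len x)⁻¹ • x from rfl]
  have hxx := len_sq x
  generalize len (th x) = π at hp
  generalize len (bv (ee x) x) = l at *
  generalize ee x ⬝ᵥ x = α at *
  generalize ee x = e at *
  generalize u2 x = u at *
  generalize len x = L at *
  have hue : u ⬝ᵥ e = 0 := by rw [dotProduct_comm, heu]
  have e1 : L ^ 2 = α ^ 2 + l ^ 2 := by
    rw [hxx, hx]
    simp only [add_dotProduct, dotProduct_add, smul_dotProduct, dotProduct_smul, smul_eq_mul, he,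
      hu, heu, hue]
    ring
  have L0 : L ≠ 0 := fun h => by
    rw [h] at e1
    have : 0 < α ^ 2 + l ^ 2 := by positivity
    linarith
  have e2 : th x - (L⁻¹ • x ⬝ᵥ th x) • L⁻¹ • x = (-(π * α * l / L ^ 2)) • (u - (l / α) • e) := by
    rw [hp, hx]
    simp only [add_dotProduct, smul_dotProduct, dotProduct_smul, smul_eq_mul, he, hue]
    ext i
    simp only [Pi.sub_apply, Pi.add_apply, Pi.smul_apply, smul_eq_mul]
    field_simp
    linear_combination (π * e i) * e1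
  rw [e2]
  refine unit_sq _ ?_ v
  simp only [sub_dotProduct, dotProduct_sub, smul_dotProduct, dotProduct_smul, smul_eq_mul, he,
    hu, heu, hue]
  linarith [mul_self_nonneg (l / α)]

/-- the statistics of the direction `u2` -/
lemma xs {K e t : ℝ} {x : V n} (hn : 0 < n) (ht : 0 < t) (hK : 1 ≤ K) (he : e ≤ 1 / 100)
    (q0 : 0 < aS x) (hq : 20000 * K ^ 2 * aS x ≤ 1) (hc : Co K e t x) (hx : XM e x) :
    0 < len (bv (ee x) x) ∧ 0 < ee x ⬝ᵥ x ∧ (u2 x ⬝ᵥ tau x) ^ 2 ≤ 50000 * aS x ^ 2 * n ∧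
      (m2 x - u2 x ⬝ᵥ mb t x) ^ 2 ≤ aS x ^ 3 := by
  obtain ⟨m1, m2', m3, m4⟩ := mom hK he q0 hq hc hx
  have hee := Gn11.ee_unit q0
  have n0 : (0 : ℝ) < n := by exact_mod_cast hn
  have r0 := R4_nonneg x
  have hπ : len (th x) ^ 2 = n * aS x := by
    rw [len_sq, dot_avg hn, aS]; simp only [sq]
  have π0 : 0 < len (th x) := by
    refine lt_of_le_of_ne (len_nonneg _) fun h => ?_
    rw [← h] at hπ
    have : 0 < n * aS x := by positivity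
    linarith
  have a1 : th x ⬝ᵥ x = n * (aS x + R4 x) := by
    rw [dot_avg hn, aS, R4]
    simp only [avg, ← add_div, ← Finset.sum_add_distrib]
    congr 3; ext i; ring
  have a2 : x ⬝ᵥ x = n * (avg (fun i => (x i - th x i) ^ 2) + 2 * R4 x + aS x) := by
    rw [dot_avg hn, aS, R4]
    simp only [avg, Finset.mul_sum, ← add_div, mul_div_assoc', ← Finset.sum_add_distrib]
    congr 2; ext i; ring
  have a3 : x ⬝ᵥ 1 = n * (R3 x + bS x) := by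
    rw [dot_avg hn, bS, R3]
    simp only [avg, ← add_div, ← Finset.sum_add_distrib]
    congr 3; ext i; simp
  have a4 : th x ⬝ᵥ 1 = n * bS x := by
    rw [dot_avg hn, bS]; congr 2; ext i; simp
  have b1 : ee x ⬝ᵥ x = (len (th x))⁻¹ * (n * (aS x + R4 x)) := by
    rw [ee, unitv, smul_dotProduct, a1, smul_eq_mul]
  have b2 : ee x ⬝ᵥ 1 = (len (th x))⁻¹ * (n * bS x) := by
    rw [ee, unitv, smul_dotProduct, a4, smul_eq_mul]
  have b3 : len (bv (ee x) x) ^ 2 =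
      n * (avg (fun i => (x i - th x i) ^ 2) - R4 x ^ 2 / aS x) := by
    rw [len_sq, bv, (proj_R1 hee).dot_self, R1_mulVec, dotProduct_sub, dotProduct_smul,
      dotProduct_comm x (ee x), a2, b1, smul_eq_mul, ← sq, mul_pow, inv_pow, hπ]
    field_simp; ring
  have b4 : bv (ee x) x ⬝ᵥ tau x = n * (R3 x - bS x / aS x * R4 x) := by
    rw [tau, bv, bv, (proj_R1 hee).dot_self, R1_mulVec, dotProduct_sub, dotProduct_smul,
      dotProduct_comm x (ee x), a3, b1, b2, smul_eq_mul, mul_mul_mul_comm, ← sq, inv_pow, hπ]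
    field_simp; ring
  have q3 : 0 < aS x ^ 3 := by positivity
  have l2 : n * (aS x ^ 3 / 2) ≤ len (bv (ee x) x) ^ 2 := by rw [b3]; gcongr
  have l3 : len (bv (ee x) x) ^ 2 ≤ n * (17 * aS x ^ 3) := by
    rw [b3]; gcongr
    have : 0 ≤ R4 x ^ 2 / aS x := by positivity
    linarith
  have l0 : 0 < len (bv (ee x) x) := by
    refine lt_of_le_of_ne (len_nonneg _) fun h => ?_
    rw [← h] at l2
    have : 0 < n * (aS x ^ 3 / 2) := by positivity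
    linarith
  have c1 : (u2 x ⬝ᵥ tau x) ^ 2 ≤ 50000 * aS x ^ 2 * n := by
    rw [u2, unitv, smul_dotProduct, b4, smul_eq_mul, mul_pow, inv_pow, inv_mul_eq_div,
      div_le_iff₀ (by positivity), mul_pow]
    calc _ ≤ (n : ℝ) ^ 2 * (25000 * aS x ^ 5) := by gcongr
      _ = 50000 * aS x ^ 2 * n * (n * (aS x ^ 3 / 2)) := by ring
      _ ≤ _ := by gcongr
  refine ⟨l0, by rw [b1]; positivity, c1, ?_⟩
  have g0 := ga_pos ht x
  have c2 : m2 x - u2 x ⬝ᵥ mb t x = (len (th x))⁻¹ * (len (bv (ee x) x) *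
      (aS x / (aS x + R4 x) - aS x / ga t x) -
        t * (bS x - aS x) / ga t x * (u2 x ⬝ᵥ tau x)) := by
    rw [m2, mb, dotProduct_smul, dotProduct_add, dotProduct_smul, dotProduct_smul, b1,
      show u2 x ⬝ᵥ bv (ee x) x = _ from unitv_dot_self _]
    simp only [smul_eq_mul]
    have : (n : ℝ) = len (th x) ^ 2 / aS x := by rw [hπ]; field_simp
    rw [this]; field_simp; ring
  have t1 := hc.q1
  have a5 := abs_le.1 hc.a1
  have K2 : K ≤ K ^ 2 := le_self_pow₀ hK two_ne_zero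
  have c3 : (aS x / (aS x + R4 x) - aS x / ga t x) ^ 2 ≤ (2 * K * aS x) ^ 2 := by
    have d1 : aS x / (aS x + R4 x) ≤ 1 := div_le_one_of_le₀ (by linarith) (by positivity)
    have d2 : aS x / ga t x ≤ 1 := div_le_one_of_le₀ (by unfold ga; linarith) g0.le
    have k1 : aS x ^ 2 ≤ K * aS x ^ 2 := le_mul_of_one_le_left (by positivity) hK
    have d3 : 1 - 2 * K * aS x ≤ aS x / (aS x + R4 x) := by
      rw [le_div_iff₀ (by positivity)]
      have : 0 ≤ K * aS x * R4 x := by positivity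
      linarith
    have d4 : 1 - 2 * K * aS x ≤ aS x / ga t x := by
      rw [le_div_iff₀ g0, ga]
      have : 0 ≤ K * aS x * t := by positivity
      have : 0 ≤ K * aS x ^ 2 := by positivity
      linarith
    exact sq_le_sq' (by linarith) (by linarith)
  have c4 : (t * (bS x - aS x) / ga t x) ^ 2 ≤ (2 * K ^ 2 * aS x ^ 2) ^ 2 := by
    have k1 : aS x ≤ K * aS x := le_mul_of_one_le_left q0.le hK
    have d1 : t / ga t x ≤ K * aS x := by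
      rw [div_le_iff₀ g0, ga]
      have : 0 ≤ K * aS x * t := by positivity
      linarith
    have d2 : (bS x - aS x) ^ 2 ≤ (2 * K * aS x) ^ 2 := sq_le_sq' (by linarith) (by linarith)
    calc _ = (t / ga t x) ^ 2 * (bS x - aS x) ^ 2 := by ring
      _ ≤ (K * aS x) ^ 2 * (2 * K * aS x) ^ 2 := by gcongr
      _ = _ := by ring
  rw [c2, mul_pow, inv_pow, hπ, inv_mul_eq_div, div_le_iff₀ (by positivity)]
  have c5 := mul_le_mul l3 c3 (sq_nonneg _) (by positivity)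
  have c6 := mul_le_mul c4 c1 (sq_nonneg _) (by positivity)
  rw [← mul_pow] at c5 c6
  generalize len (bv (ee x) x) * (aS x / (aS x + R4 x) - aS x / ga t x) = X at *
  generalize t * (bS x - aS x) / ga t x * (u2 x ⬝ᵥ tau x) = Y at *
  have y0 : 0 ≤ K ^ 2 * aS x := by positivity
  have y1 : K ^ 2 * aS x ≤ 1 / 20000 := by linarith
  have y2 : (K ^ 2 * aS x) ^ 2 ≤ (1 / 20000) ^ 2 := by gcongr
  have z0 : 0 ≤ n * aS x ^ 4 := by positivity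
  have z1 := mul_le_mul_of_nonneg_right y1 z0
  have z2 := mul_le_mul_of_nonneg_right y2 z0
  linarith [sq_nonneg (X + Y)]

lemma le_of_dir {W A : Mx n} {f g : V n} {s : ℝ} (hs : 0 ≤ s)
    (h : ∀ v, (f ⬝ᵥ v) ^ 2 ≤ (g ⬝ᵥ v) ^ 2) (hL : Le (W + s • vecMulVec g g) A) :
    Le (W + s • vecMulVec f f) A := fun v => by
  refine le_trans ?_ (hL v)
  simp only [add_mulVec, smul_mulVec, dotProduct_add, dotProduct_smul, vmv_mulVec, smul_eq_mul,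
    dotProduct_comm v f, dotProduct_comm v g]
  have := mul_le_mul_of_nonneg_left (h v) hs
  linarith

lemma ad0 {e ε : ℝ} (he : 0 ≤ e) (hε : ε ≤ 1 / 2) (x : V n) : Ad e ε 1 (aS x ^ 2) ∅ x := by
  have := aS_nonneg x
  refine ⟨le_rfl, by norm_num, mul_le_of_le_one_left (sq_nonneg _) (by linarith),
    le_mul_of_one_le_left (sq_nonneg _) (by norm_num), ?_⟩
  rw [Finset.card_empty, Nat.cast_zero]; positivity

lemma s5_of {C δ ε q β m : ℝ} {D e c τ u b : V n} (hC : 1 ≤ C) (q0 : 0 < q) (δ0 : 0 < δ)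
    (h1 : δ ≤ ε ^ 3) (h2 : ε ^ 3 ≤ 1) (h3 : 4 * q ≤ ε ^ 3) (s : St (2 * C + 2) δ q D β e c τ)
    (heu : e ⬝ᵥ u = 0) (hu : u ⬝ᵥ u ≤ 1) (hb : b ⬝ᵥ b ≤ C * q ^ 2)
    (h4 : (u ⬝ᵥ bv e c - u ⬝ᵥ b) ^ 2 ≤ (δ / 20 * q) ^ 2)
    (h5 : (u ⬝ᵥ τ) ^ 2 ≤ 50000 * q ^ 2 * n) (h6 : (m - u ⬝ᵥ b) ^ 2 ≤ q ^ 3) :
    S5 (2 * C + 50002) (ε ^ 3) q m e c τ u := by
  have q2 : 0 < q ^ 2 := by positivity
  have s1 : q / (2 * C + 50002) ≤ 2 - e ⬝ᵥ c := le_trans (by gcongr; norm_num) s.s1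
  have s0 : 0 ≤ 2 - e ⬝ᵥ c := le_trans (by positivity) s1
  have a1 : (u ⬝ᵥ b) ^ 2 ≤ C * q ^ 2 := (dot_sq_le u b).trans
    ((mul_le_of_le_one_left (dot_self_nonneg b) hu).trans hb)
  have a2 : δ ^ 2 * q ^ 2 ≤ ε ^ 3 * q ^ 2 := by
    gcongr; exact (pow_le_of_le_one δ0.le (h1.trans h2) two_ne_zero).trans h1
  have a3 := mul_le_mul_of_nonneg_right h2 q2.le
  have a4 := mul_le_mul_of_nonneg_right h3 q2.le
  have a5 : 0 ≤ δ ^ 2 * q ^ 2 := by positivity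
  have n0 : (0 : ℝ) ≤ n := Nat.cast_nonneg n
  refine ⟨heu, hu, s1, s.s2.trans (by gcongr; norm_num), s.s3.trans (by gcongr),
    s.u5.trans (by gcongr; norm_num), ?_, h5.trans (by gcongr; linarith), ?_⟩
  · linarith [sq_nonneg (u ⬝ᵥ bv e c - 2 * (u ⬝ᵥ b))]
  · linarith [sq_nonneg (m + u ⬝ᵥ bv e c - 2 * (u ⬝ᵥ b))]

end Ha11

set_option maxHeartbeats 400000 in
open Ha11 in
theorem haStmt (hM : MargStmt) (hA : AllStmt) (hX : XdStmt) : HaStmt := by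
  intro K hK Cw hCw
  obtain ⟨t0, ht0, Ca, hA⟩ := hA
  obtain ⟨C, hC1, cx, hcx, hX⟩ := hX K hK
  obtain ⟨cg, hcg, hG⟩ := gnU C hC1
  obtain ⟨k0, hk0, hN⟩ := Qe.numU (2 * C + 2) (by linarith)
  obtain ⟨K0, hC⟩ := Qe.haCore2
  obtain ⟨C2, hC2⟩ : ∃ C2, C2 = 2 * C + 50002 := ⟨_, rfl⟩
  have C21 : 1 ≤ C2 := by linarith
  obtain ⟨Bg, B0, g1, g2, g3, g4⟩ : ∃ Bg > (0 : ℝ), 10 ^ 6 ≤ Bg ∧ 1100 * (1 + Cw) ≤ Bg ∧
      10 ^ 4 * C2 ^ 5 ≤ Bg ∧ 20000 * K ^ 2 ≤ Bg := ⟨max (max (10 ^ 6) (1100 * (1 + Cw)))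
    (max (10 ^ 4 * C2 ^ 5) (20000 * K ^ 2)), by positivity, by simp, by simp, by simp, by simp⟩
  obtain ⟨m, hm, m1, m2', m3, m4, m5, m6, m7⟩ : ∃ m > (0 : ℝ), m ≤ 1 / Bg ∧ m ≤ cx ∧ m ≤ k0 ∧
      m ≤ 1 / k0 ∧ m ≤ t0 ∧ m ≤ cg * k0 ∧ m ≤ cg * k0 ^ 2 :=
    ⟨min (min (min (1 / Bg) cx) (min k0 (1 / k0))) (min t0 (min (cg * k0) (cg * k0 ^ 2))),
      by positivity, by simp, by simp, by simp, by simp, by simp, by simp, by simp⟩
  rw [le_div_iff₀ B0] at m1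
  have m0 : m ≤ 1 / 10 ^ 6 := by linarith [mul_le_mul_of_nonneg_left g1 hm.le]
  obtain ⟨c, hc, c1, c2, c3⟩ : ∃ c > (0 : ℝ), c ≤ m ∧ K * c ≤ m ∧ C * c ≤ m := by
    have h : m / (K * C) * (K * C) = m := div_mul_cancel₀ _ (by positivity)
    have h0 : 0 < m / (K * C) := by positivity
    have h1 := mul_le_mul_of_nonneg_left hK h0.le
    have h2 := mul_le_mul_of_nonneg_left hC1 h0.le
    exact ⟨_, h0, by nlinarith, by nlinarith, by nlinarith⟩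
  refine ⟨c, hc, Ca + K0 + 21, fun n t ε η E S0 B hn ht e0 η0 η1 eη hs hne hE hB hW hz => ?_⟩
  have n0 : 0 < n := by omega
  have n1 : (21 : ℝ) ≤ n := by exact_mod_cast (by omega : 21 ≤ n)
  have t0' : 0 < t := lt_of_lt_of_le (by positivity) ht
  have η2 : η ^ 2 ≤ η := pow_le_of_le_one η0.le η1 two_ne_zero
  have e1 : ε ≤ c := eη.trans (mul_le_of_le_one_right hc.le (by linarith))
  have e2 : ε ≤ 1 := by linarith
  have e3 : ε ^ 3 ≤ ε := pow_le_of_le_one e0.le e2 (by norm_num)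
  have e93 : ε ^ 9 ≤ ε ^ 3 := pow_le_pow_of_le_one e0.le e2 (by norm_num)
  have p9 : 0 < ε ^ 9 := by positivity
  have hs1 : Real.sqrt t ≤ c * (c * ε ^ 9) := hs.trans_eq (by ring)
  have ce : c * ε ^ 9 ≤ c := mul_le_of_le_one_right hc.le (by linarith)
  have ht1 : t ≤ (c * (c * ε ^ 9)) ^ 2 := (Real.sqrt_le_left (by positivity)).1 hs1
  have ht2 : t ≤ t0 := by
    have : c * (c * ε ^ 9) ≤ c := mul_le_of_le_one_right hc.le (by linarith)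
    have := pow_le_pow_left₀ (by positivity) this 2
    linarith [mul_le_of_le_one_left hc.le (by linarith : c ≤ 1)]
  have hl : 0 ≤ Real.log n := Real.log_natCast_nonneg n
  have dv := fun z h => hX n t _ ε 1 (aS z.1 ^ 2) ∅ z.1 n0 t0' (mul_pos hc p9)
    (hs1.trans (mul_le_mul_of_nonneg_right (by linarith) (by positivity)))
    (by rw [← mul_assoc]; exact (mul_le_of_le_one_left p9.le (by linarith)).trans (by linarith))
    (by linarith) (hz z h).2.1 (hz z h).2.2.1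
    (ad0 (by positivity) (by linarith) _)
  have hq : ∀ z ∈ B, aS z.1 ≤ m * ε ^ 9 := fun z h => by
    refine (pow_le_pow_iff_left₀ (aS_nonneg _) (by positivity) two_ne_zero).1
      ((hz z h).2.1.q2.trans ((mul_le_mul_of_nonneg_left ht1 (by linarith)).trans ?_))
    have h1 : K * c * (c * c * c) ≤ m * m := mul_le_mul c2
      ((mul_le_of_le_one_left hc.le (mul_le_one₀ (by linarith) hc.le (by linarith))).trans c1)
      (by positivity) hm.le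
    calc _ = K * c * (c * c * c) * (ε ^ 9) ^ 2 := by ring
      _ ≤ m * m * (ε ^ 9) ^ 2 := by gcongr
      _ = _ := by ring
  have hR : ∀ z ∈ B, c * ε ^ 18 * n * t ≤ m * (ε ^ 18 * n * aS z.1 ^ 2) := fun z h =>
    calc _ ≤ c * ε ^ 18 * n * (K * aS z.1 ^ 2) := by gcongr; exact (hz z h).2.1.q1
      _ = K * c * (ε ^ 18 * n * aS z.1 ^ 2) := by ring
      _ ≤ _ := by gcongr
  have kε : k0 * ε ≤ 1 := by rw [mul_comm, ← le_div_iff₀ hk0]; linarith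
  have δ3 : k0 * ε ^ 9 ≤ ε ^ 3 :=
    calc _ = k0 * ε * ε ^ 8 := by ring
      _ ≤ ε ^ 8 := mul_le_of_le_one_left (by positivity) kε
      _ ≤ _ := pow_le_pow_of_le_one e0.le e2 (by norm_num)
  have Bε : Bg * ε ≤ η ^ 2 :=
    calc _ ≤ Bg * (m * η ^ 2) := by gcongr; exact eη.trans (by gcongr)
      _ = m * Bg * η ^ 2 := by ring
      _ ≤ _ := mul_le_of_le_one_left (sq_nonneg _) m1
  have p5 : ∀ j ≤ 5, 10 ^ 4 * C2 ^ j * ε ≤ η ^ 2 := fun j hj =>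
    le_trans (by gcongr; exact le_trans (by gcongr) g3) Bε
  set R := K0 * Real.log n + E / 2 - c * ε ^ 18 * n * t with hRd
  refine (Pt_le hM n0 t0' hB (b := 20 * ex R) (b' := ex R)
    (by have := Conc.ex_ne_top R; finiteness)
    (G := fun x ξ => St (2 * C + 2) (k0 * ε ^ 9) (aS x) (Dk 1 (aS x ^ 2) ∅ x) (2 * 1 * aS x)
      (ee x) (col t x ξ) (tau x) ∧ (u2 x ⬝ᵥ bv (ee x) (col t x ξ) - u2 x ⬝ᵥ mb t x) ^ 2 ≤
        (k0 * ε ^ 9 / 20 * aS x) ^ 2) (fun z h => ?_) fun z h ξ hξ => ?_).trans ?_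
  · refine (hG n t _ ε _ _ _ _ n0 t0' ⟨by positivity, by linarith⟩ ((hq z h).trans ?_) e0.le
      (dv z h).1 ((dv z h).2.mono t0'.le ?_) (unitv_dot_le _)).trans
      (mul_le_mul_right (Conc.ex_mono ?_) _)
    · rw [← mul_assoc]; gcongr
    · rw [← mul_assoc, ← mul_assoc]; exact mul_le_mul_of_nonneg_right (c3.trans m6) p9.le
    · have : m * (ε ^ 18 * n * aS z.1 ^ 2) ≤ cg * k0 ^ 2 * (ε ^ 18 * n * aS z.1 ^ 2) := by gcongr
      have h2 : 0 ≤ K0 * Real.log n := by positivity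
      linarith [hR z h]
  · have q0 := (dv z h).2.q0
    have co := (hz z h).2.1
    have Bq : Bg * aS z.1 ≤ ε ^ 3 :=
      calc _ ≤ Bg * (m * ε ^ 3) := by gcongr; exact (hq z h).trans (by gcongr)
        _ = m * Bg * ε ^ 3 := by ring
        _ ≤ _ := mul_le_of_le_one_left (by positivity) m1
    have k1 := mul_le_mul_of_nonneg_right g1 q0.le
    have k2 := mul_le_mul_of_nonneg_right g2 q0.le
    have k3 := mul_le_mul_of_nonneg_right g3 q0.le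
    have k4 := mul_le_mul_of_nonneg_right g4 q0.le
    have k5 : 0 ≤ C2 ^ 5 * aS z.1 := by positivity
    obtain ⟨x1, x2, x3, x4⟩ := xs n0 t0' hK (by linarith) q0 (by linarith) co (hz z h).2.2.1
    have heu : ee z.1 ⬝ᵥ u2 z.1 = 0 := by
      rw [u2, unitv, dotProduct_smul, Gn11.e_bv (Gn11.ee_unit q0), smul_zero]
    have s5 := s5_of hC1 q0 (by positivity) δ3 (by linarith) (by linarith) hξ.1 heu
      (unitv_dot_le _) (dv z h).2.d3 hξ.2 x3 x4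
    rw [← hC2] at s5
    have w := hW _ q0 co.q1 co.q2
    refine (measure_mono fun W hW => ?_).trans ((hC n C2 Cw ε _ _ E _ η _ _ _ _ S0
      ⟨by omega, e0, by linarith, q0, by linarith, ?_⟩ C21 hCw (by linarith) le_rfl η0 η1 ?_ ?_ ?_
      (by linarith) hE w.1 w.2 (hN n ε _ _ _ _ _ _ n0 ⟨e0, by linarith⟩
        ⟨q0, (hq z h).trans (by gcongr)⟩ (dv z h).1.lo hξ.1).1 s5).trans (Conc.ex_mono ?_))
    · exact ⟨(hz _ hW).1, fun h' => (hz _ hW).2.2.2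
        (le_of_dir (by linarith) (f2_le q0 x1 x2) h')⟩
    · refine (one_le_sq_iff₀ (by positivity)).1 (le_of_mul_le_mul_left ?_ (by linarith : 0 < K))
      linarith [mul_le_mul_of_nonneg_left co.q1 (sq_nonneg (n * ε))]
    · calc _ = ε * (10 ^ 4 * C2 ^ 2 * ε) * ε := by ring
        _ ≤ ε * η * 1 := by gcongr; exact (p5 2 (by norm_num)).trans η2
        _ = _ := mul_one _
    · linarith [p5 0 (by norm_num)]
    · linarith [p5 1 (by norm_num)]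
    · have : m * (ε ^ 18 * n * aS z.1 ^ 2) ≤ 1 / 64 * (ε ^ 9 * n * aS z.1 ^ 2) := by
        gcongr ?_ * (?_ * _ * _)
        · linarith
        · exact pow_le_pow_of_le_one e0.le e2 (by norm_num)
      linarith [hR z h]
  · have h21 : 20 * ex R + ex R ≤ ex (Real.log n + R) := by
      rw [Conc.ex_add, ← add_one_mul]
      refine mul_le_mul_left ?_ _
      rw [ex, Real.exp_log (by linarith), ENNReal.ofReal_natCast]
      exact_mod_cast (by omega : 20 + 1 ≤ n)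
    refine (mul_le_mul' (hA n t (by omega) ⟨ht, ht2⟩) h21).trans ?_
    rw [← Conc.ex_add]
    refine Conc.ex_mono ?_
    push_cast
    linarith

end Crest.Agent.T157.Kb

end
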