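import Crest.Agent.T157.KpA_12
import Crest.Agent.T157.QeA_24
import Crest.Agent.T157.KbDef_24
import Crest.Agent.T157.OtC_41

set_option autoImplicit false
set_option linter.unusedSectionVars false

/-!
Row 157, A2 section 3 (helper41): the Jacobian of the TAP map on an orbit, truncation of the
diagonal, the positivity event `P5`.
-/

noncomputable section

namespace Crest.Agent.T157.Kp

open MeasureTheory Matrix Set
open Crest.Agent.Lib.OrthPoinc Crest.Agent.T157.E Crest.Agent.T157.Tap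
open Crest.Agent.T157.Qe (Le qf_add qf_sub qf_smul qf_one qf_vmv)
open Crest.Agent.T157.Od (Op2)
open Crest.Agent.T157.Dq (Dg)
open Crest.Agent.T157.Oc (SO)

variable {n k : ℕ}

/-- the sites where `p²` is large -/
def Sl (l : ℝ) (x : V n) : Finset (Fin n) := Finset.univ.filter fun i => l * aS x ≤ th x i ^ 2
/-- the positivity event `AT_S ≥ A / 5` (the output of `Kb.AtStmt`) -/
def P5 (S : Finset (Fin n)) (x : V n) (W : Mx n) : Prop :=
  Le ((1 / 5 : ℝ) • ((1 - aS x + 1 / (1 - aS x)) • (1 : Mx n) - W)) (Kb.AT S x W)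

namespace W41

lemma DD_pos (x : V n) (i : Fin n) : 0 < DD (th x) i := by
  have h := Real.abs_tanh_lt_one (x i)
  have h2 : Real.tanh (x i) ^ 2 < 1 := by
    rw [← sq_abs]; nlinarith [abs_nonneg (Real.tanh (x i))]
  simp only [DD, th]; linarith


lemma dot_p (hn : 0 < n) (x : V n) : th x ⬝ᵥ th x = n * (1 - chi x) := by
  have : (n : ℝ) ≠ 0 := by positivity
  rw [chi, Cell.avg_DD]; field_simp; ring

lemma qf_diag (d u : V n) : u ⬝ᵥ diagonal d *ᵥ u = ∑ i, d i * u i ^ 2 :=
  Finset.sum_congr rfl fun i _ => by rw [mulVec_diagonal]; ring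

lemma chi_eq (hn : 0 < n) (x : V n) : chi x = 1 - aS x := Cell.avg_DD_th x hn

lemma cosh_DD (x : V n) (i : Fin n) : Real.cosh (x i) ^ 2 * DD (th x) i = 1 := by
  have h := (Real.cosh_pos (x i)).ne'
  have h2 := Real.cosh_sq (x i)
  simp only [DD, th, Real.tanh_eq_sinh_div_cosh]
  field_simp
  linarith

/-- the diagonal of `AT_S - A` -/
def Vs (S : Finset (Fin n)) (x : V n) : V n := fun i =>
  (if i ∈ S then 1 else Real.cosh (x i) ^ 2) - (chi x)⁻¹
/-- `AT_S - A` -/
def Bs (S : Finset (Fin n)) (x : V n) : Mx n :=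
  diagonal (Vs S x) - (2 / n : ℝ) • vecMulVec (th x) (th x)

lemma AT_eq (hn : 0 < n) (S : Finset (Fin n)) (x : V n) (W : Mx n) :
    (chi x + 1 / chi x) • (1 : Mx n) - W + Bs S x = Kb.AT S x W := by
  rw [Kb.AT, ← chi_eq hn, Bs]
  ext i j
  simp only [Vs, Matrix.add_apply, Matrix.sub_apply, Matrix.smul_apply, diagonal_apply, one_apply,
    smul_eq_mul, one_div]
  split_ifs <;> ring

/-- `det DY = det AT ∏ D` -/
theorem dt_eq (hn : 0 < n) (x : V n) (W : Mx n) :
    dt x W = (Kb.AT ∅ x W).det * ∏ i, DD (th x) i := by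
  have hd : (fun i => dd (th x) i ^ 2) = DD (th x) := funext (Cell.dd_sq (Cell.abs_th_le x))
  rw [← det_diagonal, ← det_mul, dt, Deg.DY, B1, B0, hd, Kb.AT, ← chi_eq hn]
  congr 1
  ext i j
  have h1 := cosh_DD x j
  simp only [chi, Matrix.add_apply, Matrix.sub_apply, Matrix.mul_diagonal, Matrix.smul_apply,
    diagonal_apply, one_apply, smul_eq_mul, Finset.notMem_empty, if_false]
  split_ifs with h
  · subst h; linear_combination (-1) * h1
  · ring

lemma Bs_symm (S : Finset (Fin n)) (x : V n) : (Bs S x)ᵀ = Bs S x := by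
  rw [Bs, transpose_sub, diagonal_transpose, transpose_smul, transpose_vecMulVec]

lemma Bs_le (S : Finset (Fin n)) (x : V n) : Le (Bs S x) (Bs ∅ x) := fun u => by
  simp only [Bs, qf_sub, qf_diag]
  refine sub_le_sub_right (Finset.sum_le_sum fun i _ =>
    mul_le_mul_of_nonneg_right ?_ (sq_nonneg _)) _
  simp only [Vs, Finset.notMem_empty, if_false]
  split_ifs
  · nlinarith [Real.one_le_cosh (x i)]
  · exact le_rfl

lemma rank_B (S : Finset (Fin n)) (x : V n) : (Bs ∅ x - Bs S x).rank ≤ S.card := by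
  classical
  have e : Bs ∅ x - Bs S x = diagonal fun i => Vs ∅ x i - Vs S x i := by
    rw [← diagonal_sub, Bs, Bs]; abel
  rw [e, rank_diagonal, Fintype.card_subtype]
  refine Finset.card_le_card fun i hi => ?_
  simp only [Finset.mem_filter, Finset.mem_univ, true_and] at hi
  by_contra h
  exact hi (by simp only [Vs, Finset.notMem_empty, if_false, if_neg h, sub_self])

lemma Vs_abs (hn : 0 < n) {x : V n} (h0 : 0 ≤ aS x) {l : ℝ} (hl : 1 ≤ l) (hθ : l * aS x ≤ 1 / 2)
    (i : Fin n) : |Vs (Sl l x) x i| ≤ 2 * (l * aS x) := by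
  have hq : aS x ≤ l * aS x := le_mul_of_one_le_left h0 hl
  have hc := chi_eq hn x
  have h3 : (chi x)⁻¹ ≤ 1 + 2 * aS x := by
    rw [inv_le_iff_one_le_mul₀ (by linarith), hc]; nlinarith
  have h4 : 1 ≤ (chi x)⁻¹ := (one_le_inv₀ (by linarith)).2 (by linarith)
  simp only [Vs]
  split_ifs with h
  · exact abs_le.2 ⟨by linarith, by linarith⟩
  · simp only [Sl, Finset.mem_filter, Finset.mem_univ, true_and, not_le] at h
    have h5 := cosh_DD x i
    have h6 : 1 ≤ Real.cosh (x i) ^ 2 := by nlinarith [Real.one_le_cosh (x i)]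
    have h7 : Real.cosh (x i) ^ 2 ≤ 1 + 2 * (l * aS x) := by
      refine le_of_mul_le_mul_right ?_ (DD_pos x i)
      rw [h5]
      simp only [DD]
      nlinarith [sq_nonneg (th x i)]
    exact abs_le.2 ⟨by linarith, by linarith⟩

lemma op2_diag {d : V n} {c : ℝ} (h : ∀ i, |d i| ≤ c) : Op2 (diagonal d) (c ^ 2) := fun v => by
  simp only [dotProduct, mulVec_diagonal, Finset.mul_sum]
  refine Finset.sum_le_sum fun i _ => ?_
  have h1 : d i ^ 2 ≤ c ^ 2 := by rw [← sq_abs]; exact pow_le_pow_left₀ (abs_nonneg _) (h i) 2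
  nlinarith [mul_self_nonneg (v i)]

lemma op2_pp (hn : 0 < n) (x : V n) :
    Op2 ((2 / n : ℝ) • vecMulVec (th x) (th x)) ((2 * (1 - chi x)) ^ 2) := fun v => by
  have h0 : (0 : ℝ) < n := by positivity
  have h1 := Eig.dot_sq_le (th x) v
  have h2 := dot_p hn x
  have h3 : 0 ≤ th x ⬝ᵥ th x := Eig.dot_self_nonneg _
  rw [smul_mulVec, Orb.vv_mulVec, smul_smul, smul_dotProduct, dotProduct_smul, smul_eq_mul,
    smul_eq_mul]
  have e : 1 - chi x = th x ⬝ᵥ th x / n := by rw [h2]; field_simp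
  rw [e]
  calc _ = (2 / n) ^ 2 * (th x ⬝ᵥ th x) * (th x ⬝ᵥ v) ^ 2 := by ring
    _ ≤ (2 / n) ^ 2 * (th x ⬝ᵥ th x) * ((th x ⬝ᵥ th x) * (v ⬝ᵥ v)) :=
      mul_le_mul_of_nonneg_left h1 (by positivity)
    _ = _ := by ring

lemma op2_Bs (hn : 0 < n) {x : V n} (h0 : 0 ≤ aS x) {l : ℝ} (hl : 1 ≤ l)
    (hθ : l * aS x ≤ 1 / 2) : Op2 (Bs (Sl l x) x) (16 * (l * aS x) ^ 2) := fun v => by
  have h2 := (op2_diag (Vs_abs hn h0 hl hθ)).sub (op2_pp hn x) v
  have hq : aS x ≤ l * aS x := le_mul_of_one_le_left h0 hl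
  have h3 : (2 * (1 - chi x)) ^ 2 ≤ (2 * (l * aS x)) ^ 2 := by
    rw [chi_eq hn]; exact pow_le_pow_left₀ (by linarith) (by linarith) 2
  refine h2.trans (mul_le_mul_of_nonneg_right (by linarith) (Eig.dot_self_nonneg v))

lemma op2_dg {W : Mx n} {l : V n} (h : Dg W l) {c : ℝ} (hc : ∀ i, |l i| ≤ c) : Op2 W (c ^ 2) := by
  obtain ⟨O, hO, rfl⟩ := h
  intro v
  have hO' : Oᵀ * O = 1 := mul_eq_one_comm.1 hO
  rw [← mulVec_mulVec, ← mulVec_mulVec, Op2.orth hO',
    ← Op2.orth (G := Oᵀ) (by rwa [transpose_transpose]) v]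
  exact op2_diag hc _

lemma sum_lam {X : Mx n} {l : V n} (h : Dg X l) (f : ℝ → ℝ) :
    ∑ j ∈ Finset.range n, f (Eig.lam X j) = ∑ i, f (l i) := by
  obtain ⟨O, hO, e⟩ := h
  have hX : X.IsHermitian := Eig.herm_iff.2 (by
    rw [e, transpose_mul, transpose_mul, transpose_transpose, diagonal_transpose, Matrix.mul_assoc])
  have h1 := Eig.sum_range_eq hX fun x _ => f x
  rw [Fintype.card_fin] at h1
  have h2 := hX.roots_charpoly_eq_eigenvalues
  have h3 : X.charpoly = (diagonal l).charpoly := by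
    rw [e, charpoly_mul_comm, ← Matrix.mul_assoc, mul_eq_one_comm.1 hO, Matrix.one_mul]
  rw [h3, charpoly_diagonal, Finset.prod_eq_multiset_prod] at h2
  have h5 := Polynomial.roots_multiset_prod_X_sub_C (Multiset.map l Finset.univ.val)
  rw [Multiset.map_map] at h5
  have h6 : Multiset.map l Finset.univ.val = Multiset.map hX.eigenvalues Finset.univ.val :=
    h5.symm.trans h2
  have h7 := congrArg (fun m => (Multiset.map f m).sum) h6
  simp only [Multiset.map_map] at h7
  exact h1.trans h7.symm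

end W41

/-- spectral data of the base point used by (T1) -/
def Sp1 (C q : ℝ) (W : Mx n) : Prop := ∃ a, Dg W a ∧ (∀ i, -4 ≤ a i ∧ a i ≤ 2 + q ^ 2 / 2) ∧
  ∑ i, ((1 - q + 1 / (1 - q) - a i) ^ 2)⁻¹ ≤ C * n / q


section an

variable {o : Oo.Orb n k} {μ : Measure (Mat k)} [IsProbabilityMeasure μ] {x : V n}
  {B : V n → Mx n → Cube n → Prop}

/-- an event of `W` contained in the bad set has `Pt_o`-mass at most `anE` -/
theorem P_le_anE (hμ : SOInv μ) (h : o.Ok) (mB : ∀ s, MeasurableSet {z : V n × Mx n | B z.1 z.2 s})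
    {T : Set (Mat k)} (hT : ∀ U ∈ SO k, U ∈ T → ∀ s, B x (o.Wu U) s) :
    (o.P μ).real T ≤ anE o μ x B := by
  classical
  have := Oo.Orb.P_prob hμ h
  have m1 : ∀ s, MeasurableSet {U : Mat k | B x (o.Wu U) s} := fun s =>
    (by fun_prop : Measurable fun U : Mat k => (x, o.Wu U)) (mB s)
  have m2 : MeasurableSet {U : Mat k | ∀ s, B x (o.Wu U) s} := by
    rw [Set.ofPred_forall]; exact MeasurableSet.iInter m1
  have m3 : ∀ s, Measurable fun U => o.w U s := fun s => by
    simp only [Oo.Orb.w_ph41]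
    exact (Oo.Orb.cont_ph41 s).measurable.comp (by fun_prop)
  have hp : ∀ U s, 0 ≤ prob (o.w U) s := fun U s =>
    div_nonneg (Oo.Orb.w_pos U s).le (Finset.sum_nonneg fun s _ => (Oo.Orb.w_pos U s).le)
  have h1 : ∀ U, ∑ s, prob (o.w U) s = 1 := fun U => by
    simp only [prob, ← Finset.sum_div]
    exact div_self (Oo.Orb.wt (o := o) U).pos.ne'
  have h0 : ∀ U, 0 ≤ mean (o.w U) fun s => if B x (o.Wu U) s then 1 else 0 := fun U =>
    Finset.sum_nonneg fun s _ => mul_nonneg (hp U s) (by dsimp only; split_ifs <;> norm_num)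
  have i1 : Integrable (fun U => mean (o.w U) fun s => if B x (o.Wu U) s then 1 else 0) (o.P μ) := by
    refine Integrable.of_bound (Measurable.aestronglyMeasurable ?_) 1 (ae_of_all _ fun U => ?_)
    · exact Finset.measurable_sum _ fun s _ => ((m3 s).div (Finset.measurable_sum _ fun s _ => m3 s)).mul
        (Measurable.ite (m1 s) measurable_const measurable_const)
    · rw [Real.norm_of_nonneg (h0 U)]
      exact (Finset.sum_le_sum fun s _ => mul_le_of_le_one_right (hp U s)
        (by split_ifs <;> norm_num)).trans (h1 U).le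
  calc (o.P μ).real T ≤ (o.P μ).real {U | ∀ s, B x (o.Wu U) s} :=
        ENNReal.toReal_mono (measure_ne_top _ _)
          (measure_mono_ae ((Oo.Orb.P_mem (o := o) hμ).mono fun U hU => hT U hU))
    _ = _ := (integral_indicator_one m2).symm
    _ ≤ _ := integral_mono ((integrable_const 1).indicator m2) i1 fun U => by
        by_cases hU : U ∈ {U : Mat k | ∀ s, B x (o.Wu U) s}
        · rw [indicator_of_mem hU]
          simp only [mean, if_pos (hU _), mul_one, h1, Pi.one_apply, le_refl]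
        · rw [indicator_of_notMem hU]; exact h0 U

/-- an event of `x` alone contained in the bad set does not happen -/
theorem of_anE_lt (hμ : SOInv μ) (h : o.Ok) (mB : ∀ s, MeasurableSet {z : V n × Mx n | B z.1 z.2 s})
    (h1 : anE o μ x B < 1) {X : Prop} (hX : ¬ X → ∀ U ∈ SO k, ∀ s, B x (o.Wu U) s) : X := by
  by_contra hn
  have := Oo.Orb.P_prob hμ h
  have h2 := P_le_anE (x := x) hμ h mB (T := univ) fun U hU _ => hX hn U hU
  rw [probReal_univ] at h2
  linarith

end an

end Crest.Agent.T157.Kp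
end
namespace Crest.Agent.T157.Kp.Sp1
end Crest.Agent.T157.Kp.Sp1
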