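import Crest.Agent.T157.KbArea_98
import Crest.Agent.T157.KpDef_12
import Crest.Agent.T157.KbE_24
import Crest.Agent.T157.KbHa_11
import Crest.Agent.T157.OtW_41
import Crest.Agent.T157.O0Def_21

-- ▼ part T157/KbGauge_98
section

/-!
# Row 157, part A2 (helper98): the gauge bridge between `Kp` and `Kb`
-/

set_option autoImplicit false
set_option maxHeartbeats 400000

noncomputable section

namespace Crest.Agent.T157.Kb

open MeasureTheory Matrix Set Filter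
open scoped ENNReal
open Crest.Agent.T157.E Crest.Agent.T157.Cond Crest.Agent.T157.Tap
open Crest.Agent.T157.Conc (ex)
open Crest.Agent.T157.TapPl
open Ar98

variable {n : ℕ}

/-- the gauge map -/
def gz (s : Cube n) (z : V n × Mx n) : V n × Mx n := (sv s * z.1, cj (sv s) z.2)

namespace Ga98

lemma meas_cj (σ : V n) : Measurable (cj σ) := by unfold cj; fun_prop

lemma meas_gz (s : Cube n) : Measurable (gz s) :=
  (measurable_fst.const_mul _).prodMk ((meas_cj _).comp measurable_snd)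

lemma gz_gz (s : Cube n) (z : V n × Mx n) : gz s (gz s z) = z :=
  Prod.ext ((Pl.isSign_sv s).mul_self _) (cj_cj (Pl.isSign_sv s) _)

lemma mp_vol {σ : V n} (h : Pl.IsSign σ) : MeasurePreserving (fun x : V n => σ * x) := by
  refine volume_preserving_pi (f := fun i (y : ℝ) => σ i * y) fun i => ?_
  rcases h i with e | e
  · simp only [e, one_mul]; exact MeasurePreserving.id volume
  · simpa only [e, neg_mul, one_mul] using Measure.measurePreserving_neg volume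

lemma lint_gz (s : Cube n) {G : V n × Mx n → ℝ≥0∞} (hG : Measurable G) :
    ∫⁻ x, ∫⁻ W, G (x, W) ∂GOE n = ∫⁻ x, ∫⁻ W, G (gz s (x, W)) ∂GOE n := by
  have h1 : Measurable fun x : V n => ∫⁻ W, G (x, W) ∂GOE n := hG.lintegral_prod_right'
  rw [← (mp_vol (Pl.isSign_sv s)).lintegral_comp h1]
  exact lintegral_congr fun x => ((mp_cj (Pl.isSign_sv s)).lintegral_comp
    (f := fun W => G (sv s * x, W)) (hG.comp measurable_prodMk_left)).symm

lemma jd_gz (t : ℝ) (s : Cube n) (z : V n × Mx n) :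
    ENNReal.ofReal (Kp.jd t (gz s z).2 (Ymap (gz s z).2 1 (gz s z).1) s) =
      (2 ^ n : ℝ≥0∞)⁻¹ * nuW t z := by
  have h := Pl.isSign_sv s
  have e1 : ising (cj (sv s) z.2) 0 s = Real.exp ((1 : V n) ⬝ᵥ z.2 *ᵥ 1 / 2) := by
    have := cj_mulVec h z.2 1
    have h2 := dot_sign h 1 (z.2 *ᵥ 1)
    rw [mul_one] at this h2
    rw [ising, this, h2, zero_dotProduct]; congr 1; ring
  have e2 : Kr.phi t (sv s * Ymap z.2 1 z.1 - t • sv s) =
      Kr.phi t (Ymap z.2 1 z.1 - t • (1 : V n)) := by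
    have : sv s * Ymap z.2 1 z.1 - t • sv s = sv s * (Ymap z.2 1 z.1 - t • (1 : V n)) := by
      rw [mul_sub, mul_smul_comm, mul_one]
    rw [this, Kr.phi, Kr.phi, dot_sign h]
  simp only [gz, Kp.jd, Ymap_cj h, e1, e2, nuW, ex]
  rw [show (2 ^ n : ℝ≥0∞) = ENNReal.ofReal (2 ^ n) by simp,
    ← ENNReal.ofReal_inv_of_pos (by positivity), ← ENNReal.ofReal_mul (by positivity),
    ← ENNReal.ofReal_mul (by positivity), Real.exp_sub]
  congr 1
  field_simp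

lemma meas_jd (t : ℝ) (s : Cube n) :
    Measurable fun z : V n × Mx n => ENNReal.ofReal (Kp.jd t z.2 (Ymap z.2 1 z.1) s) :=
  ((measurable_const.mul ((Ks.St0.meas_ising s).comp measurable_snd)).mul
    (measurable_const.t157_phi (cont_Y.measurable.sub measurable_const))).ennreal_ofReal

lemma chi_gz (s : Cube n) (x : V n) : Kp.chi (sv s * x) = Kp.chi x := by
  rw [Kp.chi, Kp.chi, th_sign (Pl.isSign_sv s), DD_sign (Pl.isSign_sv s)]

lemma cx_eq (x : V n) : Kp.cx x = Real.exp (n * (1 - aS x) ^ 2 / 2) := by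
  rcases Nat.eq_zero_or_pos n with rfl | hn
  · simp [Kp.cx]
  · rw [Kp.cx, Kp.chi, Cell.avg_DD_th x hn]

lemma cx_gz (s : Cube n) (x : V n) : Kp.cx (sv s * x) = Kp.cx x := by
  rw [Kp.cx, Kp.cx, chi_gz]

lemma dt_gz (s : Cube n) (x : V n) (W : Mx n) :
    Kp.dt (sv s * x) (cj (sv s) W) = (Deg.DY W 1 x).det := by
  have h := Pl.isSign_sv s
  rw [Kp.dt, Deg.det_DY, Deg.det_DY, th_sign h, B1_cj h, dd_sign h, NN_cj h, det_cj h]

lemma meas_cx : Measurable (Kp.cx : V n → ℝ) := by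
  have : (Kp.cx : V n → ℝ) = fun x => Real.exp (n * (1 - aS x) ^ 2 / 2) := funext cx_eq
  rw [this]; fun_prop

lemma cj_mem {WW : Set (Mx n)} (inv : ∀ O W : Mx n, O * Oᵀ = 1 → W ∈ WW → O * W * Oᵀ ∈ WW)
    (s : Cube n) (W : Mx n) : cj (sv s) W ∈ WW ↔ W ∈ WW := by
  have h := Pl.isSign_sv s
  have k : ∀ W ∈ WW, cj (sv s) W ∈ WW := fun W hW => by
    simpa only [diagonal_transpose, cj] using
      inv (diagonal (sv s)) W (by rw [diagonal_transpose, diag_mul_self h]) hW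
  exact ⟨fun hW => by simpa only [cj_cj h] using k _ hW, k W⟩

end Ga98

open Ga98

section
variable {F : V n → Mx n → Cube n → ℝ≥0∞}

/-- **gauge bridge** for `ν` -/
theorem gauge_nu (t : ℝ) (hF : ∀ s, Measurable fun z : V n × Mx n => F z.1 z.2 s) :
    Kp.Nu t F = (2 ^ n : ℝ≥0∞)⁻¹ * ∑ s : Cube n,
      ∫⁻ x, ∫⁻ W, nuW t (x, W) * F (sv s * x) (cj (sv s) W) s ∂GOE n := by
  have hm := fun s => (meas_jd t s).fun_mul (hF s)
  have h1 : ∀ x : V n, ∫⁻ W, ∑ s, ENNReal.ofReal (Kp.jd t W (Ymap W 1 x) s) * F x W s ∂GOE n =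
      ∑ s, ∫⁻ W, ENNReal.ofReal (Kp.jd t W (Ymap W 1 x) s) * F x W s ∂GOE n := fun x =>
    lintegral_finset_sum _ fun s _ => by
      simpa only [Function.comp_def] using (hm s).comp (measurable_prodMk_left (x := x))
  have h2 : ∀ s, Measurable fun x : V n =>
      ∫⁻ W, ENNReal.ofReal (Kp.jd t W (Ymap W 1 x) s) * F x W s ∂GOE n := fun s =>
    (hm s).lintegral_prod_right'
  simp only [Kp.Nu, h1]
  rw [lintegral_finset_sum _ fun s _ => h2 s, Finset.mul_sum]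
  refine Finset.sum_congr rfl fun s _ => (lint_gz s (hm s)).trans ?_
  rw [← lintegral_const_mul' _ _ (by simp)]
  refine lintegral_congr fun x => ?_
  rw [← lintegral_const_mul' _ _ (by simp)]
  refine lintegral_congr fun W => ?_
  rw [jd_gz, mul_assoc]; rfl

/-- **gauge bridge** for `Pt` -/
theorem gauge (t : ℝ) (hF : ∀ s, Measurable fun z : V n × Mx n => F z.1 z.2 s) :
    Kp.Pt t Kp.cx F = (2 ^ n : ℝ≥0∞)⁻¹ * ∑ s : Cube n,
      Pt t fun z => F (sv s * z.1) (cj (sv s) z.2) s := by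
  rw [Kp.Pt, gauge_nu t fun s => (meas_cx.comp measurable_fst).ennreal_ofReal.fun_mul (hF s)]
  simp only [Function.comp_apply, cx_gz]
  simp only [Pt, mul_assoc, cX, ex, cx_eq]

/-- **gauge bridge** for `KR` -/
theorem gauge_KR (t : ℝ) (hF : ∀ s, Measurable fun z : V n × Mx n => F z.1 z.2 s) :
    Kp.KR t F = (2 ^ n : ℝ≥0∞)⁻¹ * ∑ s : Cube n,
      KR t fun z => F (sv s * z.1) (cj (sv s) z.2) s := by
  rw [Kp.KR, gauge_nu t fun s => meas_abs.fun_mul (hF s)]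
  simp only [dt_gz, KR, mul_assoc]

end

/-- functions given in the gauge `s = 1` -/
theorem gauge_inv (t : ℝ) {G : V n × Mx n → ℝ≥0∞} (hG : Measurable G) :
    Kp.Pt t Kp.cx (fun x W s => G (gz s (x, W))) = Pt t G ∧
      Kp.KR t (fun x W s => G (gz s (x, W))) = KR t G := by
  have e : ∀ (s : Cube n) (z : V n × Mx n), gz s (sv s * z.1, cj (sv s) z.2) = z := gz_gz
  rw [gauge t fun s => hG.comp (meas_gz s), gauge_KR t fun s => hG.comp (meas_gz s)]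
  simp only [e, Ks.St0.avg_const, and_self]

section
variable {WW : Set (Mx n)} (mW : MeasurableSet WW)
  (inv : ∀ O W : Mx n, O * Oᵀ = 1 → W ∈ WW → O * W * Oᵀ ∈ WW)
include mW inv

/-- events -/
theorem ptE_eq (t : ℝ) {B : Set (V n × Mx n)} (hB : MeasurableSet B) :
    Kp.PtE t Kp.cx WW (fun x W s => gz s (x, W) ∈ B) =
      Pt t ({z : V n × Mx n | z.2 ∈ WW ∧ z ∈ B}.indicator 1) := by
  rw [← (gauge_inv t (measurable_one.indicator
    (s := {z : V n × Mx n | z.2 ∈ WW ∧ z ∈ B}) ((measurable_snd mW).inter hB))).1, Kp.PtE]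
  congr 1
  funext x W s
  by_cases h : W ∈ WW ∧ gz s (x, W) ∈ B
  · rw [indicator_of_mem (by exact h), indicator_of_mem (by exact ⟨(cj_mem inv s W).2 h.1, h.2⟩)]
    rfl
  · rw [indicator_of_notMem (by exact h),
      indicator_of_notMem fun k => h ⟨(cj_mem inv s W).1 k.1, k.2⟩]

theorem er_eq (t : ℝ) : Kp.Er t Kp.cx WW = Pt t ({z : V n × Mx n | z.2 ∈ WW}.indicator fun z =>
    1 + ENNReal.ofReal ((Deg.DY z.2 1 z.1).det ^ 2 / Real.exp (n * (1 - aS z.1) ^ 2 / 2) ^ 2)) := by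
  have hm : Measurable fun z : V n × Mx n => 1 + ENNReal.ofReal
      ((Deg.DY z.2 1 z.1).det ^ 2 / Real.exp (n * (1 - aS z.1) ^ 2 / 2) ^ 2) :=
    (((cont_det.measurable.pow_const 2).div (by fun_prop)).ennreal_ofReal).const_add 1
  rw [← (gauge_inv t (hm.indicator (s := {z : V n × Mx n | z.2 ∈ WW}) (measurable_snd mW))).1,
    Kp.Er]
  congr 1
  funext x W s
  by_cases h : W ∈ WW
  · rw [indicator_of_mem h, indicator_of_mem (by exact (cj_mem inv s W).2 h), Pi.one_apply, one_mul,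
      ENNReal.ofReal_add zero_le_one (by positivity), ENNReal.ofReal_one, ← cx_eq]
    have := dt_gz s x W
    simp only [gz, cx_gz, Kp.dt] at this ⊢
    rw [this]
  · rw [indicator_of_notMem h, zero_mul,
      indicator_of_notMem (by exact fun k => h ((cj_mem inv s W).1 k))]

end

lemma ee_le (x : V n) : ee x ⬝ᵥ ee x ≤ 1 := by
  rw [ee, unitv, smul_dotProduct, dotProduct_smul, ← len_sq, smul_eq_mul, smul_eq_mul]
  by_cases h : len (th x) = 0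
  · simp [h]
  · exact le_of_eq (by field_simp)

/-- the bound of `Kp.Er` -/
theorem er_le (h : ErStmt) : ∃ t0 > (0 : ℝ), ∃ C : ℕ, ∀ (n : ℕ) (t : ℝ) (WW : Set (Mx n)), C ≤ n →
    t ∈ Icc (1 / (n : ℝ)) t0 → MeasurableSet WW →
    (∀ O W : Mx n, O * Oᵀ = 1 → W ∈ WW → O * W * Oᵀ ∈ WW) → (∀ W ∈ WW, Eig.opn W ≤ 4) →
    Kp.Er t Kp.cx WW ≤ ex (C * Real.log n) := by
  obtain ⟨t0, h0, C, h⟩ := h
  refine ⟨t0, h0, C, fun n t WW hn ht mW inv hop => ?_⟩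
  rw [er_eq mW inv]
  refine h n t _ hn ht (measurable_snd mW) fun z hz => ?_
  have h1 : Eig.nrm (ee z.1) ≤ 1 := (Eig.nrm_le_iff zero_le_one).2 (by simpa using ee_le z.1)
  have h2 := (Eig.nrm_mulVec_le z.2 (ee z.1)).trans
    (mul_le_mul (hop _ hz) h1 (Eig.nrm_nonneg _) (by norm_num))
  rw [← Eig.nrm_sq]
  nlinarith [Eig.nrm_nonneg (z.2 *ᵥ ee z.1)]



end Crest.Agent.T157.Kb

end
end

-- ▼ part T157/KbB_24

/-!
# Row 157, part A2, section 2 (helper24): the one good event `G1` and its first moment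

Gauge `s = 1`; `gz s (x, W)` is the gauge image.  `T` is the constant of all first-moment events
(it depends on `L` only), `η` the precision (`ε = η³`), `H` the level.
-/

set_option autoImplicit false

noncomputable section

namespace Crest.Agent.T157.Kb

open MeasureTheory Matrix Set Filter
open scoped ENNReal
open Crest.Agent.T157.E Crest.Agent.T157.Cond Crest.Agent.T157.Tap
open Crest.Agent.T157.Qe (Le bv St WS zz gg)
open Crest.Agent.T157.Kp (Sl P5)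
open Crest.Agent.T157.Conc (ex)

variable {n : ℕ}

/-- (HA) -/
def HA (ε η : ℝ) (x : V n) (W : Mx n) : Prop :=
  Le (W + (1 - η) • vecMulVec (f2 x) (f2 x)) ((2 + ε * aS x ^ 2) • (1 : Mx n))
/-- odd moments -/
def B3 (e : ℝ) (x : V n) : Prop := (R3 x - bS x * aS x) ^ 2 ≤ e * aS x ^ 5 ∧
  (avg (fun i => th x i ^ 3) - 3 * bS x * aS x) ^ 2 ≤ e * aS x ^ 5
/-- statistics of the column `W e` -/
def Col (C δ : ℝ) (x : V n) (W : Mx n) : Prop :=
  St C δ (aS x) (Dk 1 (aS x ^ 2 / (1 - aS x)) ∅ x) (2 * 1 * aS x) (ee x) (W *ᵥ ee x) (tau x)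
/-- (TR) the trace of the resolvent at `z = χ + 1 / χ` -/
def TR (b : ℝ) (x : V n) (W : Mx n) : Prop :=
  ((zz (1 - aS x) • (1 : Mx n) - W)⁻¹.trace - n * (1 - aS x)) ^ 2 * (zz (1 - aS x) - 2) ^ 2 ≤ b
/-- threshold of the large sites -/
def lam (T t : ℝ) : ℝ := T * Real.log (1 / t)
/-- number of very large sites -/
def m1 (n : ℕ) (T H t : ℝ) : ℝ := T * (H + n * t ^ 2 + Real.log n) / Real.log n ^ 2

/-- **the good event** -/
structure G1 (L T η H t : ℝ) (x : V n) (W : Mx n) : Prop where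
  co : Co T (η ^ 30) t x
  qu : aS x ^ 2 ≤ (L / 50) ^ 2 * t
  xm : XM (η ^ 30) x
  b3 : B3 (η ^ 30) x
  c1 : ((Sl (Real.log n ^ 2) x).card : ℝ) ≤ m1 n T H t
  c2 : ((Sl (lam T t) x).card : ℝ) ≤ η ^ 30 * aS x ^ 3 * n
  pos : Pos ((1 - 2 * η ^ 3) * aS x ^ 2) (AT (Sl (lam T t) x) x W)
  p5 : P5 (Sl (lam T t) x) x W
  col : Col T (η ^ 27) x W
  ha : HA (η ^ 3) η x W
  tr : TR (T * H) x W

/-- the state evolution point -/
def Sh (ε t : ℝ) (x : V n) : Prop := |aS x ^ 2 - t| ≤ ε * t ∧ |bS x - aS x| ≤ ε * aS x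

/-- what is used about the spectral event -/
def WT (T Cw ε E t : ℝ) (S0 : Set (Mx n)) : Prop := ∀ q > (0 : ℝ), t ≤ T * q ^ 2 → q ^ 2 ≤ T * t →
  WS ε q E Cw S0 ∧ ∀ W ∈ S0, (zz (gg ε q) • (1 : Mx n) - W)⁻¹.trace ≤ (1 + ε ^ 3) * n

def ColStmt : Prop := ∀ K ≥ (1 : ℝ), ∃ C' ≥ (1 : ℝ), ∃ c > (0 : ℝ), ∃ C : ℕ, ∀ C'' ≥ C',
  ∀ (n : ℕ) (t ε : ℝ), C ≤ n → 1 / (n : ℝ) ≤ t → ε ∈ Ioc 0 c → Real.sqrt t ≤ ε ^ 21 →
  Pt t ({z : V n × Mx n | Co K (ε ^ 10) t z.1 ∧ XM (ε ^ 10) z.1 ∧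
    ¬ Col C'' (ε ^ 9) z.1 z.2}.indicator 1) ≤ ex (C * Real.log n - c * ε ^ 18 * n * t)

/-- sharp local law for the planted matrix given its column -/
def TrCoreB : Prop := ∃ C : ℝ, ∀ (n : ℕ) (g H : ℝ) (e c τ : V n), 2 ≤ n → g ∈ Ico (1 / 2 : ℝ) 1 →
  Real.log n ≤ H → 1 ≤ (n : ℝ) ^ 2 * (zz g - 2) ^ 3 → e ⬝ᵥ e = 1 →
  GOE n {W | ∃ a, Dq.Dg (Qe.Wm e c τ W) a ∧ (∀ i, a i ≤ 2 + (zz g - 2) / 2) ∧
    C * H < (∑ i, (zz g - a i)⁻¹ - n * g) ^ 2 * (zz g - 2) ^ 2} ≤ ex (-H)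

def TrPt : Prop := ∃ C1 : ℝ, ∀ K ≥ (1 : ℝ), ∃ c > (0 : ℝ), ∃ C : ℕ,
  ∀ (n : ℕ) (t ε e E Cw H : ℝ) (S0 : Set (Mx n)), C ≤ n → 1 / (n : ℝ) ≤ t → ε ∈ Ioc (0 : ℝ) 1 →
  Real.sqrt t ≤ c → K ^ 3 ≤ (n : ℝ) ^ 2 * t ^ 3 → Real.log n ≤ H → WT K Cw ε E t S0 →
  Pt t ({z : V n × Mx n | z.2 ∈ S0 ∧ Co K e t z.1 ∧ ¬ TR (C1 * H) z.1 z.2}.indicator 1) ≤
    ex (C * Real.log n - H)

def TrGlue : Prop := TrCoreB → TrPt

def MeasG : Prop := ∀ (n : ℕ) (C ε η b l m t : ℝ),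
  MeasurableSet {x : V n | B3 ε x} ∧ MeasurableSet {x : V n | Sh ε t x} ∧
  Measurable (fun x : V n => ((Sl l x).card : ℝ)) ∧
  Measurable (fun z : V n × Mx n => AT (Sl l z.1) z.1 z.2) ∧
  MeasurableSet {z : V n × Mx n | Pos (m * aS z.1 ^ 2) (AT (Sl l z.1) z.1 z.2)} ∧
  MeasurableSet {z : V n × Mx n | P5 (Sl l z.1) z.1 z.2} ∧
  MeasurableSet {z : V n × Mx n | Col C ε z.1 z.2} ∧
  MeasurableSet {z : V n × Mx n | HA ε η z.1 z.2} ∧
  MeasurableSet {z : V n × Mx n | TR b z.1 z.2} ∧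
  ∀ L H : ℝ, MeasurableSet {z : V n × Mx n | G1 L C η H t z.1 z.2}

/-- the sizes -/
structure Sz (n : ℕ) (L T c η E H t : ℝ) (N : ℕ) : Prop where
  n1 : N ≤ n
  t1 : 1 / (n : ℝ) ≤ t
  e0 : 0 < η
  e1 : η ≤ c
  t2 : Real.sqrt t ≤ η ^ 63
  n2 : T ≤ (n * η ^ 3) ^ 2 * t
  n3 : T ^ 3 ≤ (n : ℝ) ^ 2 * t ^ 3
  E0 : 0 ≤ E
  E1 : E ≤ η ^ 57 * n * t
  H0 : N * Real.log n ≤ H
  H1 : H ≤ L * n * (t * Real.sqrt t)
  H2 : H ≤ η ^ 66 * n * t
  H3 : H ≤ η ^ 33 * Real.log (1 / t) * n * (t * Real.sqrt t)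

/-- **the first moment of the bad event** -/
def BaseStmt : Prop := ∀ Cw ≥ (0 : ℝ), ∀ L ≥ (50000 : ℝ), ∃ T0 : ℝ, ∀ T ≥ T0,
  ∃ c > (0 : ℝ), ∃ N : ℕ, ∀ (n : ℕ) (t η E H : ℝ) (S0 : Set (Mx n)), Sz n L T c η E H t N →
  WT T Cw (η ^ 3) E t S0 →
  Pt t ({z : V n × Mx n | z.2 ∈ S0 ∧ ¬ G1 L T η H t z.1 z.2}.indicator 1) ≤ ex (-(9 * H)) ∧
  (H ≤ η ^ 9 * n * (t * Real.sqrt t) → Pt t ({z : V n × Mx n | z.2 ∈ S0 ∧
    ¬ (G1 L T η H t z.1 z.2 ∧ Sh (η ^ 3) t z.1)}.indicator 1) ≤ ex (-(9 * H)))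

def BaseGlue : Prop := MeasG → ColStmt → TrPt → BaseStmt

/-- **the first-moment events of the top** (crude: `η = e1`; sharp: `η = e²`) -/
def base : O0.Base where
  c p t x W s := ¬ G1 p.L p.T p.e1 (p.Hc t) t (gz s (x, W)).1 (gz s (x, W)).2
  s p e t x W s := ¬ (G1 p.L p.T (e ^ 2) (p.Hs e t) t (gz s (x, W)).1 (gz s (x, W)).2 ∧
    Sh ((e ^ 2) ^ 3) t (gz s (x, W)).1)

def TopGlue : Prop := MeasG → BaseStmt → O0.KbC base ∧ O0.KbS base

end Crest.Agent.T157.Kb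

end
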