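import Crest.Agent.T157.OoDef_9

set_option autoImplicit false
set_option linter.unusedSectionVars false

/-!
Row 157, A2, section 6 of crit19 (helper61): concentration of the covariance on ONE orbit.
Outputs: `WStmt` (levels), `G3Stmt`, `G4Stmt`, `M1Stmt`, `M2Stmt` (medians), `ConvStmt`.
Proofs: `docs/T157_A_s6.md`.
-/

noncomputable section

namespace Crest.Agent.T157.O6

open MeasureTheory Matrix Crest.Agent.Lib.OrthPoinc Filter Topology Set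
open Crest.Agent.T157.Oc Crest.Agent.T157.E Crest.Agent.T157.SL Crest.Agent.T157.Ks
open Crest.Agent.T157.Od Crest.Agent.T157.Oo

variable {n k : ℕ}

/-- the crude constant -/
def MM (R : ℝ) : ℝ := 10 ^ 7 * R ^ 8
/-- failure probability at level `H` -/
def fl (R η H : ℝ) : ℝ := Real.exp (-H) + MM R * η
/-- squared radius: total gradient `T`, one direction `A`, level `H` -/
def rad (k : ℕ) (T A H : ℝ) : ℝ := (4 * (T + 2) + 288 * (A + 1) * H) / ((k : ℝ) - 2)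
/-- failure probability of the matrix moment bound (`q = r + 1` odd) -/
def pim (n k r : ℕ) (B M η s : ℝ) : ℝ := (4 * ((k : ℝ) - 2)⁻¹ * ((r : ℝ) + 1) ^ 2) ^ (r + 1) *
  (n * B ^ (r + 1) + n * M ^ (r + 1) * η) / s ^ (2 * (r + 1))

def rC (c : Cs) : ℝ := 3 * (4 * c.t4 + 2 * (c.t3 * c.d0) + 2 * (c.e0 * c.t3'))
def rA (c : Cs) : ℝ := 3 * (4 * c.q4 + 2 * (c.q3 * c.d0) + 2 * (c.e0 * c.q3'))
def rAA (c : Cs) : ℝ := 3 * (4 * c.s2 + 2 * (c.a ^ 2 * c.s1 * c.d0) + 2 * (c.e0 * c.s1))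
def rA1 (c : Cs) : ℝ := 3 * (4 * c.s2' + 2 * (c.s1 * c.d0) + 2 * (c.e0 * c.s1'))
/-- (W): one direction, `C` and `A C A` -/
def wC (c : Cs) : ℝ := c.lam * c.v4
def wA (c : Cs) : ℝ := 3 * (c.lam * c.v4' + 8 * c.k2 ^ 2 + 8 * (c.k2 * c.k1 * c.a ^ 2))
/-- (F): total gradient and weak variance of `A C A - A` and of `(A C - 1) g` -/
def tPhi (c : Cs) : ℝ := 3 * (4 * (c.b * c.a1) + rAA c)
def uPhi (c : Cs) : ℝ :=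
  2 * (c.lam * c.N' + 32 * (2 * (c.k2 ^ 2 + c.a ^ 2) + c.a ^ 2 * (c.k2 * c.k1)))
def tX (c : Cs) : ℝ := 3 * (2 * (c.b * c.c2) + 2 * c.a1 ^ 2 + rA1 c)
/-- (m1): matrix variances of `gᵀ C g` and of `A C A - A` -/
def bC (c : Cs) : ℝ := 3 * (2 * (c.a1 * c.k1 ^ 2) + 4 * ((c.k2 * c.k1 + 1) * c.c2) + rC c)
def bPhi (c : Cs) : ℝ :=
  3 * (4 * (c.b * (c.k2 * c.k1 + 1)) + 4 * ((c.k2 ^ 2 + c.a ^ 2) * c.a1) + rA c)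
/-- one direction, `δ` and `A δ` in the cube frame -/
def gD (c : Cs) : ℝ := c.lam * c.k1
def gA (c : Cs) : ℝ := 3 * (c.lam * c.k2 + 2 * c.e0 + 2 * (c.d0 * c.a ^ 2))

/-- the standing hypotheses: good set of Haar mass `≥ 1 - η`, transfer `P ≤ K Haar + δ` -/
structure Ctx (o : Orb n k) (μ : Measure (Mat k)) (c : Cs) (R η K δ : ℝ) : Prop where
  ok : o.Ok
  inv : SOInv μ
  nn : c.Nn
  R1 : 1 ≤ R
  Rn : (n : ℝ) ≤ R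
  Ra : c.a ^ 2 ≤ R
  cr : ∀ U ∈ SO k, APt (crude c.a R) (o.w U) (o.A U) o.p
  p1 : ∀ i, |o.p i| ≤ 1
  G : μ.real (o.G c)ᶜ ≤ η
  K1 : 1 ≤ K
  δ0 : 0 ≤ δ
  tr : ∀ T, (o.P μ).real T ≤ K * μ.real T + δ
  sm : MM R * (K * η + δ) ≤ 1

/-- second moments `C + δ δᵀ` around `p`, cube frame -/
abbrev sq2 (o : Orb n k) (U : Mat k) : Mn n := sm2 (o.w U) sv o.p

/-! ### generic tools -/

/-- **(SC)** vectors: Poincare, (HD), transfer of the mean to `ν` -/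
def ScStmt : Prop :=
  ∀ (k : ℕ) (μ ν : Measure (Mat k)) [IsProbabilityMeasure μ] [IsProbabilityMeasure ν] (κ : Type)
    [Fintype κ] (x : Mat k → κ → ℝ) (D : Fin k × Fin k → Mat k → κ → ℝ) (G : Set (Mat k))
    (T A M F η K δ H : ℝ), SOInv μ → 2 < k → (∀ᵐ U ∂ν, U ∈ SO k) → RDV x D → μ.real Gᶜ ≤ η →
    0 ≤ K → (∀ S, ν.real S ≤ K * μ.real S + δ) → 0 ≤ T → 0 ≤ A → 0 ≤ M → M * η ≤ 1 → 0 ≤ H →
    (∀ U ∈ SO k, U ∈ G → ∑ i, ∑ a, D a U i ^ 2 ≤ T) →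
    (∀ U ∈ SO k, U ∈ G → ∀ v, ∑ a, (v ⬝ᵥ D a U) ^ 2 ≤ A * (v ⬝ᵥ v)) →
    (∀ U ∈ SO k, ∑ i, ∑ a, D a U i ^ 2 ≤ M) → (∀ U ∈ SO k, ∑ i, x U i ^ 2 ≤ F) →
    μ.real {U | 4 * rad k T A H + 8 * F * (K * (Real.exp (-H) + M * η) + δ) <
        ∑ i, (x U i - EV ν x i) ^ 2} ≤ Real.exp (-H) + M * η ∧
      ∫ U, ∑ i, (x U i - EV ν x i) ^ 2 ∂ν ≤
        rad k T A H + 4 * F * (K * (Real.exp (-H) + M * η) + δ)

/-- **(OP)** symmetric matrices: (MM), transfer of the mean to `ν` -/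
def OpStmt : Prop :=
  ∀ (n k : ℕ) (μ ν : Measure (Mat k)) [IsProbabilityMeasure μ] [IsProbabilityMeasure ν]
    (X : Mat k → Mn n) (D : Fin k × Fin k → Mat k → Mn n) (G : Set (Mat k)) (B M F η K δ s : ℝ)
    (r : ℕ), SOInv μ → 2 < k → (∀ᵐ U ∂ν, U ∈ SO k) → RDM X D → (∀ U ∈ SO k, (X U)ᵀ = X U) →
    μ.real Gᶜ ≤ η → 0 ≤ K → (∀ S, ν.real S ≤ K * μ.real S + δ) → 0 ≤ B → 0 ≤ M → 0 < s → Even r →
    (∀ U ∈ SO k, U ∈ G → ∀ v, ∑ a, D a U *ᵥ v ⬝ᵥ D a U *ᵥ v ≤ B * (v ⬝ᵥ v)) →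
    (∀ U ∈ SO k, ∀ v, ∑ a, D a U *ᵥ v ⬝ᵥ D a U *ᵥ v ≤ M * (v ⬝ᵥ v)) →
    (∀ U ∈ SO k, OpLe (X U) F) →
    μ.real {U | ¬ OpLe (X U - EM ν X) (2 * s + 2 * F * (K * pim n k r B M η s + δ))} ≤
      pim n k r B M η s

/-! ### outputs -/

/-- **(W)**: from a Haar median to the level `H`, for (g1) and (g2) -/
def WStmt : Prop :=
  ∀ (n k : ℕ) (o : Orb n k) (μ : Measure (Mat k)) [IsProbabilityMeasure μ] (c : Cs)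
    (R η K δ m x κ H : ℝ), Ctx o μ c R η K δ → 0 < m → 0 < x → 1 < κ →
    (36 * κ ^ 2 * (wC c + 1) * H ≤ ((k : ℝ) - 2) * x ^ 2 →
      μ.real {U | ¬ CB (o.w U) sv m} ≤ 1 / 2 →
      μ.real {U | ¬ CB (o.w U) sv (κ * m + x)} ≤ fl R η H) ∧
    (36 * κ ^ 2 * (wA c + 1) * H ≤ ((k : ℝ) - 2) * x ^ 2 →
      μ.real {U | ¬ CB (o.w U) (fA (o.A U) sv) m} ≤ 1 / 2 →
      μ.real {U | ¬ CB (o.w U) (fA (o.A U) sv) (κ * m + x)} ≤ fl R η H)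

/-- **(F)** for (g4); input (M3), Frobenius form -/
def G4Stmt : Prop :=
  ∀ (n k : ℕ) (o : Orb n k) (μ : Measure (Mat k)) [IsProbabilityMeasure μ] (c : Cs)
    (R η K δ H m : ℝ), Ctx o μ c R η K δ → 0 ≤ H → MM R * (K * fl R η H + δ) ≤ 1 →
    fr (EM (o.P μ) fun U => o.A U * sq2 o U * o.A U - o.A U) ≤ m →
    μ.real {U | 8 * rad k (tPhi c) (uPhi c) H + 4 * m + 4 * (c.e0 + 1) ^ 2 + 1 <
      fr (o.A U * o.C U * o.A U - o.A U)} ≤ fl R η H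


/-- **(m1)** medians by (MM); inputs (M1) and (M3), operator form -/
def M1Stmt : Prop :=
  ∀ (n k : ℕ) (o : Orb n k) (μ : Measure (Mat k)) [IsProbabilityMeasure μ] (c : Cs)
    (R η K δ s m ε : ℝ) (r : ℕ), Ctx o μ c R η K δ → 0 < s → Even r →
    (MM R * (K * pim n k r (bC c) (MM R) η s + δ) ≤ ε →
      (∀ v, v ⬝ᵥ (EM (o.P μ) fun U => (o.g U)ᵀ * sq2 o U * o.g U) *ᵥ v ≤ m * (v ⬝ᵥ v)) →
      μ.real {U | ¬ CB (o.w U) sv (m + 2 * s + ε)} ≤ pim n k r (bC c) (MM R) η s) ∧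
    (MM R * (K * pim n k r (bPhi c) (MM R) η s + δ) ≤ 1 →
      (∀ v, v ⬝ᵥ (EM (o.P μ) fun U => o.A U * sq2 o U * o.A U - o.A U) *ᵥ v ≤ m * (v ⬝ᵥ v)) →
      μ.real {U | ¬ CB (o.w U) (fA (o.A U) sv) (c.a + m + 2 * s + 1)} ≤
        pim n k r (bPhi c) (MM R) η s)

/-! ### (m2) -/

/-- `D = 1 - p²` -/
def Dm (p : Vn n) : Mn n := diagonal fun i => 1 - p i ^ 2
/-- `Δ = D + l` -/
def Dl (p : Vn n) (l : ℝ) : Vn n := fun i => 1 - p i ^ 2 + l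
def Sq (p : Vn n) (l : ℝ) : Mn n := diagonal fun i => √(Dl p l i)
def Cl (w : Cube n → ℝ) (l : ℝ) : Mn n := covMat w sv + l • (1 : Mn n)
/-- `Δ^{1/2} ((C + l)⁻¹ - A) Δ^{1/2}` -/
def Rt (w : Cube n → ℝ) (A : Mn n) (p : Vn n) (l : ℝ) : Mn n := Sq p l * ((Cl w l)⁻¹ - A) * Sq p l
def dRt (w : Cube n → ℝ) (A : Mn n) (p : Vn n) (l : ℝ) (θ : Mn n) : Mn n :=
  Sq p l * (-((Cl w l)⁻¹ * c3 w sv (hq A θ p sv) * (Cl w l)⁻¹) - (θ * A - A * θ)) * Sq p l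
def qd (d v : Vn n) : ℝ := ∑ i, d i * v i ^ 2
/-- `γ Δ ≤ C + l ≤ Γ Δ` -/
def Sand (w : Cube n → ℝ) (p : Vn n) (l γ Γ : ℝ) : Prop :=
  ∀ v, γ * qd (Dl p l) v ≤ v ⬝ᵥ Cl w l *ᵥ v ∧ v ⬝ᵥ Cl w l *ᵥ v ≤ Γ * qd (Dl p l) v
/-- **(UP)**, one more a priori bound: Poincare inequality for linear functions -/
def UPt (w : Cube n → ℝ) (Γ l : ℝ) : Prop :=
  ∀ v : Vn n, var w (fun s => v ⬝ᵥ sv s) ≤ Γ * dir w (fun s => v ⬝ᵥ sv s) + l * (v ⬝ᵥ v)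
/-- **(P)** for `X = A + diag vt - B0` (`vt` a truncation of `1 / D`, `B0 = 1/χ + 2 p pᵀ / n`) -/
def Pos (A B0 : Mn n) (vt : Vn n) (l0 : ℝ) : Prop :=
  ∀ v, l0 * (v ⬝ᵥ v) ≤ v ⬝ᵥ (A + diagonal vt - B0) *ᵥ v ∧
    v ⬝ᵥ A *ᵥ v / 5 ≤ v ⬝ᵥ (A + diagonal vt - B0) *ᵥ v
/-- the error of (M4), centred: `D - D Cov(A ŝ, ŝ) - (1 - D B0) Cov(ŝ)` under the joint law -/
def Er4 (o : Orb n k) (ν : Measure (Mat k)) (B0 : Mn n) : Mn n :=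
  Dm o.p - Dm o.p * (EM ν (fun U => o.A U * sq2 o U) -
      vecMulVec (EV ν fun U => o.A U *ᵥ o.d U) (EV ν o.d)) -
    (1 - Dm o.p * B0) * (EM ν (sq2 o) - vecMulVec (EV ν o.d) (EV ν o.d))
/-- the same for the Gibbs covariance -/
def ErC (o : Orb n k) (ν : Measure (Mat k)) (B0 : Mn n) : Mn n :=
  Dm o.p - Dm o.p * EM ν (fun U => o.A U * o.C U) - (1 - Dm o.p * B0) * EM ν o.C
/-- the Cramer-Rao constant -/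
def c0 : ℝ := Real.exp 20
/-- matrix variance of `Rt` -/
def bR (n : ℕ) (a r l γ : ℝ) : ℝ := 5 * (16 * (a ^ 2 * n * l / γ) + r / (l * γ) ^ 2)



def MRdStmt : Prop :=
  ∀ (n k : ℕ) (o : Orb n k) (l : ℝ), o.Ok → 0 < l →
    RDM (fun U => Rt (o.w U) (o.A U) o.p l) fun a U => dRt (o.w U) (o.A U) o.p l (o.th a U)

def MGradStmt : Prop :=
  ∀ (n : ℕ) (κ : Type) [Fintype κ] (θ : κ → Mn n) (w : Cube n → ℝ) (A : Mn n) (p : Vn n)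
    (l γ a r : ℝ), Fam θ → Wt w → Aᵀ = A → Op2 A (a ^ 2) → (∀ i, |p i| ≤ 1) → 0 < l → l ≤ 1 → 0 < γ →
    0 ≤ r → (∀ v, γ * qd (Dl p l) v ≤ v ⬝ᵥ Cl w l *ᵥ v) →
    (∀ v, RB w sv p A sv (sg fun s => v ⬝ᵥ sv s) ≤ r * (v ⬝ᵥ v)) →
    ∀ v, ∑ b, dRt w A p l (θ b) *ᵥ v ⬝ᵥ dRt w A p l (θ b) *ᵥ v ≤ bR n a r l γ * (v ⬝ᵥ v)

def MMeanStmt : Prop :=
  ∀ (n k : ℕ) (o : Orb n k) (ν : Measure (Mat k)) [IsProbabilityMeasure ν] (G : Set (Mat k))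
    (B0 : Mn n) (a R l γ Γ k2 s e ε s1 : ℝ), o.Ok → (∀ᵐ U ∂ν, U ∈ SO k) → 0 < a → 1 ≤ R → a ^ 2 ≤ R →
    (∀ U ∈ SO k, APt (crude a R) (o.w U) (o.A U) o.p) → (∀ i, |o.p i| ≤ 1) → 0 < l → l ≤ 1 →
    l⁻¹ ≤ R → 0 < γ → γ ≤ 1 → 0 ≤ Γ → 0 ≤ k2 → 0 ≤ s → B0ᵀ = B0 → Op2 B0 9 →
    MM R * ν.real Gᶜ ≤ ε → ε ≤ 1 →
    (∀ U ∈ SO k, U ∈ G →
      OpLe (Rt (o.w U) (o.A U) o.p l - EM ν fun V => Rt (o.w V) (o.A V) o.p l) s ∧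
        Sand (o.w U) o.p l γ Γ ∧ CB (o.w U) (fA (o.A U) sv) k2) →
    Op2 (ErC o ν B0) (e ^ 2) → 0 ≤ s1 →
    12 / γ * (e ^ 2 / l ^ 2 + l * (37 + k2 + 2 * a ^ 2) + Γ * s ^ 2 + ε) ≤ s1 ^ 2 →
    OpLe ((EM ν fun V => Rt (o.w V) (o.A V) o.p l) - (1 - Sq o.p l * B0 * Sq o.p l)) s1

def MEndStmt : Prop :=
  ∀ (n : ℕ) (w : Cube n → ℝ) (A B0 : Mn n) (p vt : Vn n) (l l0 a s : ℝ), Wt w → Aᵀ = A → B0ᵀ = B0 →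
    0 ≤ a → Op2 A (a ^ 2) → (∀ v, 0 ≤ v ⬝ᵥ A *ᵥ v) → (∀ i, |p i| ≤ 1) → 0 < l → 0 ≤ s → s ≤ 1 →
    (∀ i, 0 ≤ vt i ∧ vt i ≤ 3 ∧ vt i * (1 - p i ^ 2) ≤ 1) → Pos A B0 vt l0 → 9 * l + 3 * s ≤ l0 / 2 →
    OpLe (Rt w A p l - (1 - Sq p l * B0 * Sq p l)) s →
    CB w sv (l0 - (9 * l + 3 * s))⁻¹ ∧ CB w (fA A sv) (10 * a)

/-- the fluctuations of the centre in the cube frame: sup norm, and (M4) for `C` -/
def CovStmt : Prop :=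
  ∀ (n k : ℕ) (o : Orb n k) (μ : Measure (Mat k)) [IsProbabilityMeasure μ] (c : Cs)
    (R η K δ H ε : ℝ), Ctx o μ c R η K δ → 0 ≤ H → MM R * (K * fl R η H + δ) ≤ ε →
    (∀ l, 0 < l → (∀ i, |EV (o.P μ) o.d i| ≤ l / 4) → 4 * rad k (gD c) (gD c) H + ε ≤ l ^ 2 / 16 →
      μ.real {U | ¬ ∀ i, |o.d U i| ≤ l / 2} ≤ n * fl R η H) ∧
    ∀ (B0 : Mn n) (e : ℝ), Op2 B0 9 → 0 ≤ e → Op2 (Er4 o (o.P μ) B0) (e ^ 2) →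
      Op2 (ErC o (o.P μ) B0) ((e + 5 * (rad k (gD c) (gD c) H + rad k (gA c) (gA c) H + 2 * ε)) ^ 2)

/-- the hypotheses of (m2) -/
structure M2H (o : Orb n k) (μ : Measure (Mat k)) (c : Cs) (R η K δ : ℝ) (B0 : Mn n) (vt : Vn n)
    (l l0 Γ H ε e s s1 : ℝ) (r : ℕ) : Prop where
  ctx : Ctx o μ c R η K δ
  W3 : Op2 o.W 9
  psd : ∀ v, 0 ≤ v ⬝ᵥ (o.z • (1 : Mn n) - o.W) *ᵥ v
  lp : 0 < l
  lR : l⁻¹ ≤ R
  l1 : l0 ≤ 1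
  Γ1 : 1 ≤ Γ
  Bs : B0ᵀ = B0
  B3 : Op2 B0 9
  hvt : ∀ i, 0 ≤ vt i ∧ vt i ≤ 3 ∧ vt i * (1 - o.p i ^ 2) ≤ 1
  H0 : 0 ≤ H
  e0 : 0 ≤ e
  s0 : 0 < s
  s10 : 0 ≤ s1
  ev : Even r
  up : μ.real {U | ¬ UPt (o.w U) Γ l} ≤ η
  pos : μ.real {U | ¬ Pos (o.A U) B0 vt l0} ≤ 1 / 4
  m6 : ∀ i, |EV (o.P μ) o.d i| ≤ l / 4
  m4 : Op2 (Er4 o (o.P μ) B0) (e ^ 2)
  small : MM R * (K * (2 * η + (n + 1) * fl R η H +
    pim n k r (bR n c.a (rC c) l (c0 * Γ)⁻¹) (MM R) (2 * η + n * fl R η H) s) + δ) ≤ ε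
  sup : 4 * rad k (gD c) (gD c) H + ε ≤ l ^ 2 / 16
  mean : 12 * (c0 * Γ) * ((e + 5 * (rad k (gD c) (gD c) H + rad k (gA c) (gA c) H + 2 * ε)) ^ 2 / l ^ 2 +
    l * (37 + c.k2 + 2 * c.a ^ 2) + (Γ + 2) * (2 * s + ε) ^ 2 + ε) ≤ s1 ^ 2
  err : 9 * l + 3 * (2 * s + ε + s1) ≤ l0 / 2


/-- change of the spectral parameter (`ζ = z - 2`, or `2 - z`), and (g5) -/
def ConvStmt : Prop :=
  ∀ (n : ℕ) (w : Cube n → ℝ) (A : Mn n) (p y : Vn n) (ζ : ℝ), Wt w → Aᵀ = A →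
    (∀ k1 k2, CB w sv k1 → CB w (fA A sv) k2 →
      CB w (fA (A - ζ • (1 : Mn n)) sv) (2 * k2 + 2 * (ζ ^ 2 * k1))) ∧
    fr ((A - ζ • (1 : Mn n)) * covMat w sv - 1) ≤
      2 * fr (A * covMat w sv - 1) + 2 * (ζ ^ 2 * fr (covMat w sv)) ∧
    fr ((A - ζ • (1 : Mn n)) * covMat w sv * (A - ζ • (1 : Mn n)) - (A - ζ • (1 : Mn n))) ≤
      3 * (fr (A * covMat w sv * A - A) + 3 * (ζ ^ 2 * (2 * fr (A * covMat w sv - 1) + n)) +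
        ζ ^ 4 * fr (covMat w sv)) ∧
    ((A - ζ • (1 : Mn n)) *ᵥ meanV w sv - y) ⬝ᵥ ((A - ζ • (1 : Mn n)) *ᵥ meanV w sv - y) ≤
      3 * (A *ᵥ (meanV w sv - p) ⬝ᵥ A *ᵥ (meanV w sv - p) + (y - A *ᵥ p) ⬝ᵥ (y - A *ᵥ p) +
        ζ ^ 2 * (meanV w sv ⬝ᵥ meanV w sv)) ∧
    meanV w sv ⬝ᵥ meanV w sv ≤ 2 * (p ⬝ᵥ p + (meanV w sv - p) ⬝ᵥ (meanV w sv - p)) ∧
    T2 w (fA A sv) sv (1 : Mn n) = fr (A * covMat w sv - 1) ∧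
    T2 w (fA A sv) (fA A sv) A = fr (A * covMat w sv * A - A)

def M1Glue : Prop := OpStmt → M1Stmt
def CovGlue : Prop := ScStmt → CovStmt

/-- continuous functions are integrable for every law carried by `SO k` -/
theorem int_of {ν : Measure (Mat k)} [IsFiniteMeasure ν] (hν : ∀ᵐ U ∂ν, U ∈ SO k) {f : Mat k → ℝ}
    (hf : ContinuousOn f (SO k)) : Integrable f ν := by
  have h := hf.integrableOn_compact (μ := ν) isCompact_SO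
  rwa [IntegrableOn, Measure.restrict_eq_self_of_ae_mem hν] at h

/-- a measurable good set inside a good set, with the same defect -/
theorem exists_good (μ : Measure (Mat k)) (G : Set (Mat k)) :
    ∃ G', MeasurableSet G' ∧ G' ⊆ G ∧ μ.real G'ᶜ = μ.real Gᶜ :=
  ⟨(toMeasurable μ Gᶜ)ᶜ, (measurableSet_toMeasurable _ _).compl,
    compl_subset_comm.1 (subset_toMeasurable _ _), by
      simp only [compl_compl, Measure.real, measure_toMeasurable]⟩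

end Crest.Agent.T157.O6
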