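import Crest.Agent.T157.OgDef_9
import Crest.Agent.T157.NumT_27
import Crest.Agent.T157.O6Def_61
import Crest.Agent.T157.OoA_9
import Crest.Agent.T157.OgT_9
import Crest.Agent.T157.OgA_9
import Crest.Agent.T157.NumO_27

-- ▼ part T157/OgNW_11
section

set_option autoImplicit false

/-!
Row 157, A2 (helper11): the numbers of (W), (m1), (F) (`Og.NW`, `Og.NM`).
-/

noncomputable section

namespace Crest.Agent.T157.Og

open Real Set
open Crest.Agent.T157.Oo Crest.Agent.T157.O6 Crest.Agent.T157.O0 Crest.Agent.T157.Nm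

namespace NW11

/-- the atoms -/
structure At (p : Pm) (t ε H l s x b η : ℝ) : Prop where
  en : Eb (p.n : ℝ) l
  et : Eb t (-s)
  ee : Eb ε (-x)
  eb : Eb p.B0 b
  eh : Eb H η
  ub : Ub (p.Bt t) b
  ro : Lb (ro p) (l - 1)
  lg : Ub (lg p) (p.cv * l)

/-- the linear relations between the exponents -/
structure Lin (p : Pm) (l s x b η : ℝ) : Prop where
  b1 : 10 ^ 6 ≤ b
  b2 : 10 ^ 4 * b ≤ p.cv * l
  x0 : 0 ≤ x
  x1 : x ≤ p.cv * l
  h1 : η ≤ b - 4 * x + l - 3 / 2 * s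
  h2 : η ≤ l - 1000 * b + 2
  s0 : 0 ≤ s
  sl : s ≤ 2 / 3 * l
  l1 : p.cv * l ≤ p.k3 * l / 100
  l2 : p.k3 * l ≤ p.k2 * l / 100
  l3 : p.k2 * l ≤ p.k4 * l / 100
  l4 : p.k4 * l ≤ p.ch * l / 100
  l5 : p.ch * l ≤ l / 1000
  s1 : 0 ≤ p.k3 * s
  s2 : p.k3 * s ≤ s / 1000
  s3 : p.k3 * s ≤ p.k3 * l
  k1 : p.k3 * (p.k4 * l) ≤ p.k3 * l / 1000


theorem sc {p : Pm} {t ε H : ℝ} (h : LH p t ε H) :
    ∃ l s x b η, At p t ε H l s x b η ∧ Lin p l s x b η := by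
  have o := h.ord
  have ok := o.ok
  have ⟨k30, k20, k40, d0, ch0, cv0, t00, f0⟩ : 0 < p.k3 ∧ 0 < p.k2 ∧ 0 < p.k4 ∧ 0 < p.d ∧
    0 < p.ch ∧ 0 < p.cv ∧ 0 < p.t0 ∧ 0 < p.ef :=
    ⟨ok.k3.1, ok.k2.1, ok.k4.1, ok.d.1, ok.ch.1, ok.cv, ok.t0.1, ok.ef⟩
  have ⟨c6, c5, c4, c3, c2⟩ := And.intro ok.ch.2 <| And.intro ok.d.2 <| And.intro ok.k4.2 <|
    And.intro ok.k2.2 ok.k3.2
  have ⟨hL, hC, hK, hB, hB0, hB2⟩ := And.intro ok.L <| And.intro ok.C <| And.intro ok.K <|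
    And.intro ok.B <| And.intro ok.B0 ok.B2
  have A1 : (1 : ℝ) ≤ p.A := by exact_mod_cast ok.A
  have cv1 : p.cv ≤ p.k3 / 100 := (le_mul_of_one_le_left cv0.le A1).trans ok.cv'
  have LK : p.L ≤ p.K := by
    have h1 : p.L ≤ p.L ^ 10 := le_self_pow₀ (by linarith) (by norm_num)
    have h2 : p.C ≤ p.C ^ 10 := le_self_pow₀ hC (by norm_num)
    linarith [o.C, o.K]
  have EL : Eb p.L (log p.L) := Eb.log (by linarith)
  have EC : Eb p.C (log p.C) := Eb.log (by linarith)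
  have EK : Eb p.K (log p.K) := Eb.log (by linarith)
  have EB : Eb p.B (log p.B) := Eb.log (by linarith)
  have EB0 : Eb p.B0 (log p.B0) := Eb.log (by linarith)
  have EB2 : Eb p.B2 (log p.B2) := Eb.log (by linarith)
  have Et0 : Eb p.t0 (log p.t0) := Eb.log t00
  have Ef : Eb p.ef (log p.ef) := Eb.log f0
  have a0 : 1 ≤ log p.C := by
    rw [le_log_iff_exp_le (by linarith)]
    have h1 : 1 ≤ p.L ^ 10 := one_le_pow₀ (by linarith)
    linarith [exp_one_lt_d9, o.C]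
  have a1 := (EC.pow.le_iff EK).1 o.K
  have a2 := (EK.pow.le_iff EB).1 o.B
  have a3 := ((Et0.mul EB.pow).le_iff Eb.one).1 o.t0
  have a4 := (Eb.one.le_iff (EB0.mul Et0.pow)).1 o.B0
  have a5 := ((Ef.mul EB0.pow).le_iff Eb.one).1 o.ef
  have a6 := (Eb.one.le_iff (EB2.mul Ef.pow)).1 o.B2
  have l1 : 1 ≤ log p.n := le_trans (one_le_pow₀ (by linarith)) o.n1
  have n1 : (1 : ℝ) < p.n := (log_pos_iff (Nat.cast_nonneg _)).1 (by linarith)
  have En : Eb (p.n : ℝ) (log p.n) := Eb.log (by linarith)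
  have El : Eb (log p.n) (log (log p.n)) := Eb.log (by linarith)
  have a7 := (EB2.pow.le_iff El).1 o.n1
  have a8 := (El.pow.le_iff En.rpow).1 o.n3
  have a9 := (EL.le_iff EB0).1 (by linarith)
  have Elo : Eb p.lo (p.d * log p.n - 2 / 3 * log p.n) := En.rpow.div En.rpow
  have t0 : 0 < t := Elo.pos.trans_le h.lo
  have Et : Eb t (- -log t) := by rw [neg_neg]; exact Eb.log t0
  have Ee : Eb ε (- -log ε) := by rw [neg_neg]; exact Eb.log h.e0
  have EM : Eb (p.M t) (log p.n + 3 / 2 * - -log t) := En.mul Et.rpow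
  have H0 : 0 < H := lt_of_lt_of_le (lt_min (mul_pos (pow_pos h.e0 _) EM.pos) (by positivity)) h.H0
  have EH := Eb.log H0
  have b1 := (Elo.le_iff Et).1 h.lo
  have b2 := (Et.le_iff Et0).1 h.hi
  have b3 := (Ee.le_iff Eb.one).1 h.e1
  have b4 := (En.rpow.le_iff Ee).1 h.en
  have b5 := (EH.le_iff ((EL.mul Ee.pow).mul EM)).1 h.H1
  have b6 := exp_le_exp.1 (EH.lb.trans (h.H2.trans (((Ub.ofNat 2).mul Ef.ub).mul En.ub).2))
  have n8 : (8 : ℝ) ≤ p.n := by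
    have := log_le_sub_one_of_pos (show (0 : ℝ) < p.n by linarith)
    have h1 : p.B2 ≤ p.B2 ^ 100 := le_self_pow₀ (by linarith) (by norm_num)
    linarith [o.n1]
  push_cast at a1 a2 a3 a4 a5 a6 a7 a8 b5
  refine ⟨log p.n, -log t, -log ε, log p.B0, log H, ⟨En, Et, Ee, EB0, EH, ?_,
    Lb.sub (by linarith) En.lb, El.ub.mono (by linarith)⟩, ?_⟩
  · unfold Pm.Bt; split_ifs
    exacts [EB0.ub.of_le (by linarith) hB0, EB0.ub]
  generalize log p.n = l at *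
  generalize -log t = s at *
  have l0 : 0 ≤ l := by linarith
  have s0 : 0 ≤ s := by linarith
  have dl := mul_nonneg d0.le l0
  have m : ∀ {x y z : ℝ}, 0 ≤ z → x ≤ y / 100 → x * z ≤ y * z / 100 := fun hz h => by
    linarith [mul_le_mul_of_nonneg_right h hz]
  have q1 : p.k4 * l ≤ l / 1000 := by
    linarith [mul_le_mul_of_nonneg_right (show p.k4 ≤ 1 / 1000 by linarith) l0]
  exact ⟨by linarith, by linarith, by linarith, by linarith, by linarith, by linarith, s0,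
    by linarith, m l0 cv1, m l0 c2, m l0 c3, m l0 (by linarith),
    by linarith [mul_le_mul_of_nonneg_right c6 l0], by positivity,
    by linarith [mul_le_mul_of_nonneg_right (show p.k3 ≤ 1 / 1000 by linarith) s0],
    mul_le_mul_of_nonneg_left (by linarith) k30.le,
    by linarith [mul_le_mul_of_nonneg_left q1 k30.le]⟩

/-- the three regimes: exponents `κ, α, μ` of `kk, al, max t t*` -/
theorem At.regimes {p : Pm} {t ε H l s x b η : ℝ} (h : At p t ε H l s x b η)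
    (L : Lin p l s x b η) : ∃ κ α μ, Eb (p.kk t) κ ∧ Eb (p.al t) α ∧ Eb (max t p.ts) μ ∧
    ((p.tss ≤ t ∧ κ = 0 ∧ α = 1 / 3 * -s ∧ μ = -s) ∨
     (t < p.tss ∧ p.ts ≤ t ∧ p.ch * l ≤ s ∧ s ≤ l / 2 - p.k4 * l ∧ κ = p.k2 * l ∧
        α = 1 / 3 * (-p.ch * l) ∧ μ = -s) ∨
     (t < p.ts ∧ l / 2 - p.k4 * l ≤ s ∧
        κ = p.k2 * l + (1 + p.k3) * ((p.k4 - 1 / 2) * l - -s) ∧ α = 1 / 3 * (-p.ch * l) ∧
        μ = (p.k4 - 1 / 2) * l)) := by
  have E1 : Eb p.ts ((p.k4 - 1 / 2) * l) := h.en.rpow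
  have E2 : Eb p.tss (-p.ch * l) := h.en.rpow
  have t0 := h.et.pos
  rcases le_or_gt p.tss t with h3 | h3
  · have a := (E2.le_iff h.et).1 h3
    have hs : p.ts ≤ t := (E1.le_iff h.et).2 (by
      linarith [L.l1, L.l2, L.l3, L.l4, L.l5, L.b1, L.b2])
    refine ⟨_, _, _, ?_, ?_, ?_, Or.inl ⟨h3, rfl, rfl, rfl⟩⟩
    · rw [Pm.kk, if_pos h3]; exact Eb.one
    · rw [Pm.al, max_eq_left h3]; exact h.et.rpow
    · rw [max_eq_left hs]; exact h.et
  · have a := (h.et.lt_iff E2).1 h3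
    have e : Eb (p.al t) (1 / 3 * (-p.ch * l)) := by rw [Pm.al, max_eq_right h3.le]; exact E2.rpow
    rcases le_or_gt p.ts t with hs | hs
    · have a' := (E1.le_iff h.et).1 hs
      refine ⟨_, _, _, ?_, e, ?_, Or.inr (Or.inl ⟨h3, hs, by linarith, by linarith, rfl, rfl, rfl⟩)⟩
      · rw [Pm.kk, if_neg h3.not_ge, max_eq_left ((div_le_one t0).2 hs), one_rpow, mul_one]
        exact h.en.rpow
      · rw [max_eq_left hs]; exact h.et
    · have a' := (h.et.lt_iff E1).1 hs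
      refine ⟨_, _, _, ?_, e, ?_, Or.inr (Or.inr ⟨hs, by linarith, rfl, rfl, rfl⟩)⟩
      · rw [Pm.kk, if_neg h3.not_ge, max_eq_right ((one_le_div t0).2 hs.le)]
        exact h.en.rpow.mul (E1.div h.et).rpow
      · rw [max_eq_right hs.le]; exact E1

end NW11

open NW11

set_option maxHeartbeats 1000000 in
theorem nW : NW := by
  intro p t ε H h
  obtain ⟨l, s, x, b, η, a, L⟩ := sc h
  obtain ⟨κ, α, μ, _, _, _, hr⟩ := a.regimes L
  obtain ⟨_, _, _, _, _, _, _, _⟩ := a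
  obtain ⟨_, _, _, _, _, _, _, _, _, _, _, _, _, _, _, _, _⟩ := L
  clear h
  simp only [wC, wA, c1, Cs.ctr, Cs.lam, Pm.cq]
  refine ⟨?_, fun hs => ?_⟩
  · rcases hr with ⟨-, rfl, rfl, rfl⟩ | ⟨-, -, _, _, rfl, rfl, rfl⟩ | ⟨-, _, rfl, rfl, rfl⟩ <;> num
  · rcases hr with ⟨-, rfl, rfl, rfl⟩ | ⟨-, -, _, _, rfl, rfl, rfl⟩ | ⟨h, -⟩
    · num
    · num
    · exact absurd hs h.not_ge

set_option maxHeartbeats 1000000 in
theorem nM : NM := by
  intro p t ε H h h3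
  obtain ⟨l, s, x, b, η, a, L⟩ := sc h
  obtain ⟨κ, α, μ, _, _, _, hr⟩ := a.regimes L
  obtain ⟨_, _, _, _, _, _, _, _⟩ := a
  obtain ⟨_, _, _, _, _, _, _, _, _, _, _, _, _, _, _, _, _⟩ := L
  clear h
  simp only [bC, bPhi, tPhi, uPhi, rC, rA, rAA, c1, Cs.ctr, Cs.lam, Pm.cq, Pm.s1]
  refine ⟨?_, fun hs => ?_⟩
  · rcases hr with ⟨h, -⟩ | ⟨-, -, _, _, rfl, rfl, rfl⟩ | ⟨-, _, rfl, rfl, rfl⟩
    · exact absurd h h3.not_ge
    · num
    · num
  · rcases hr with ⟨h, -⟩ | ⟨-, -, _, _, rfl, rfl, rfl⟩ | ⟨h, -⟩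
    · exact absurd h h3.not_ge
    · constructor <;> num
    · exact absurd hs h.not_ge

end Crest.Agent.T157.Og

end
end

-- ▼ part T157/OgNH_66
section

/-!
# Row 157, A2 (helper66): the numbers above `t**` (`Og.NH`, `Og.NF`)

A calculus of orders in the unit `v = n ^ (1 / 200000)`: `O v a x` is `0 ≤ x ≤ v ^ a`, `Lb v a x` is
`v ^ a ≤ x`; the tactic `ordo` computes the exponents.
-/

set_option autoImplicit false

noncomputable section

namespace Crest.Agent.T157.Og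

open Crest.Agent.T157.Oo Crest.Agent.T157.O6 Crest.Agent.T157.O0
open Crest.Agent.T157.O6m (bT)

namespace N66

/-- upper order -/
structure O (v : ℝ) (a : ℤ) (x : ℝ) : Prop where
  nn : 0 ≤ x
  le : x ≤ v ^ a
/-- lower order -/
structure Lb (v : ℝ) (a : ℤ) (x : ℝ) : Prop where
  le : v ^ a ≤ x
/-- the unit is large -/
structure Bg (v : ℝ) : Prop where
  le : 10 ^ 10 ≤ v

section cal
variable {v x y : ℝ} {a b : ℤ}

lemma Bg.one (h : Bg v) : 1 ≤ v := le_trans (by norm_num) h.le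
lemma Bg.pos (h : Bg v) : 0 < v := one_pos.trans_le h.one
lemma Bg.mono (h : Bg v) (e : a ≤ b) : v ^ a ≤ v ^ b := zpow_le_zpow_right₀ h.one e
lemma Lb.pos (h : Bg v) (k : Lb v a x) : 0 < x := (zpow_pos h.pos a).trans_le k.le

lemma O.mul (h : Bg v) (i : O v a x) (j : O v b y) : O v (a + b) (x * y) :=
  ⟨mul_nonneg i.nn j.nn, by
    rw [zpow_add₀ h.pos.ne']; exact mul_le_mul i.le j.le j.nn (zpow_pos h.pos a).le⟩
lemma O.add (h : Bg v) (i : O v a x) (j : O v b y) : O v (max a b + 1) (x + y) :=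
  ⟨add_nonneg i.nn j.nn, by
    have h1 := i.le.trans (h.mono (le_max_left a b))
    have h2 := j.le.trans (h.mono (le_max_right a b))
    have h3 := zpow_pos h.pos (max a b)
    rw [zpow_add_one₀ h.pos.ne']
    nlinarith [h.le]⟩
lemma O.pow (k : ℕ) (i : O v a x) : O v (a * k) (x ^ k) :=
  ⟨pow_nonneg i.nn k, by rw [zpow_mul, zpow_natCast]; exact pow_le_pow_left₀ i.nn i.le k⟩
lemma O.div (h : Bg v) (i : O v a x) (j : Lb v b y) : O v (a - b) (x / y) :=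
  ⟨div_nonneg i.nn (j.pos h).le, by
    rw [zpow_sub₀ h.pos.ne']; exact div_le_div₀ (zpow_pos h.pos a).le i.le (zpow_pos h.pos b) j.le⟩
lemma O.of (i : 0 ≤ x) (j : x ≤ v) : O v 1 x := ⟨i, by rwa [zpow_one]⟩
lemma O.num (h : Bg v) (i : 0 ≤ x) (j : x ≤ 10 ^ 10) : O v 1 x := .of i (j.trans h.le)
lemma Lb.mul (h : Bg v) (i : Lb v a x) (j : Lb v b y) : Lb v (a + b) (x * y) :=
  ⟨by rw [zpow_add₀ h.pos.ne']; exact mul_le_mul i.le j.le (zpow_pos h.pos b).le (i.pos h).le⟩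
lemma Lb.pow (h : Bg v) (k : ℕ) (i : Lb v a x) : Lb v (a * k) (x ^ k) :=
  ⟨by rw [zpow_mul, zpow_natCast]; exact pow_le_pow_left₀ (zpow_pos h.pos a).le i.le k⟩
lemma Lb.div (h : Bg v) (i : Lb v a x) (j : O v b y) (k : 0 < y) : Lb v (a - b) (x / y) :=
  ⟨by rw [zpow_sub₀ h.pos.ne']; exact div_le_div₀ (i.pos h).le i.le k j.le⟩
lemma Lb.num (i : 1 ≤ x) : Lb v 0 x := ⟨by rwa [zpow_zero]⟩
/-- comparison -/
lemma fin (h : Bg v) (i : O v a x) (j : Lb v b y) (e : a ≤ b) : x ≤ y :=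
  i.le.trans ((h.mono e).trans j.le)
lemma O.mono (h : Bg v) (i : O v a x) (e : a ≤ b) : O v b x := ⟨i.nn, i.le.trans (h.mono e)⟩

end cal

/-- computes upper and lower orders -/
macro "ordo" h:term : tactic => `(tactic| repeat' first
  | with_reducible assumption
  | with_reducible apply O.add $h
  | with_reducible apply O.mul $h
  | with_reducible apply O.div $h
  | with_reducible apply O.pow
  | with_reducible apply Lb.mul $h
  | with_reducible apply Lb.div $h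
  | with_reducible apply Lb.pow $h
  | exact O.num $h (by norm_num) (by norm_num)
  | exact Lb.num (by norm_num)
  | positivity)

/-- `x ≤ y` by orders -/
macro "ordle" h:term : tactic => `(tactic| (apply fin $h; ordo $h; rotate_left; ordo $h; omega))

/-- the unit -/
def vv (p : Pm) : ℝ := (p.n : ℝ) ^ (1 / 200000 : ℝ)

/-- the facts that are used -/
structure Fc (p : Pm) (t ε H : ℝ) : Prop where
  bg : Bg (vv p)
  n1 : 1 ≤ (p.n : ℝ)
  C : 10 ^ 10 ≤ p.C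
  tC : t * p.C ^ 120 ≤ 1
  oC : O (vv p) 1 p.C
  oB0 : O (vv p) 1 p.B0
  oBt : O (vv p) 1 (p.Bt t)
  olg : O (vv p) 1 (lg p)
  lgam : Lb (vv p) (-1) (gam p)
  lt : Lb (vv p) (-200) t
  t1 : t ≤ 1
  tk : Lb (vv p) (-400) (t ^ (1 + p.k3))
  lε : Lb (vv p) (-1) ε
  lro : Lb (vv p) 199999 (ro p)
  oH : O (vv p) 200001 H
  kk : p.kk t = 1

lemma vv_zpow (p : Pm) (a : ℤ) : vv p ^ a = (p.n : ℝ) ^ ((a : ℝ) / 200000) := by
  rw [vv, ← Real.rpow_intCast, ← Real.rpow_mul p.n.cast_nonneg]; congr 1; ring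

lemma o_rpow (p : Pm) (a : ℤ) {r : ℝ} (h : r = a / 200000) : O (vv p) a ((p.n : ℝ) ^ r) :=
  ⟨Real.rpow_nonneg p.n.cast_nonneg r, by rw [vv_zpow, h]⟩
lemma l_rpow (p : Pm) (a : ℤ) {r : ℝ} (h : r = a / 200000) : Lb (vv p) a ((p.n : ℝ) ^ r) :=
  ⟨by rw [vv_zpow, h]⟩
lemma n_eq (p : Pm) : vv p ^ (200000 : ℤ) = p.n := by rw [vv_zpow]; norm_num

lemma fc {p : Pm} {t ε H : ℝ} (h : LH p t ε H) (ht : p.tss ≤ t) : Fc p t ε H := by
  obtain ⟨⟨ok, hC, hK, hA, -, hB, ht0, -, -, hef, hB2, n1, n2, n3⟩, -, hi, e0, -, -, en, H0, -, H2⟩ := h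
  have C10 : (10 : ℝ) ^ 10 ≤ p.C :=
    le_trans (le_mul_of_one_le_right (by norm_num) (one_le_pow₀ (by linarith [ok.L]))) hC
  have sp : ∀ {x : ℝ} {k : ℕ}, 1 ≤ x → k ≠ 0 → x ≤ x ^ k := fun hx hk => le_self_pow₀ hx hk
  have CK : p.C ≤ p.K := (sp ok.C (by norm_num)).trans hK
  have CB : p.C ≤ p.B := CK.trans ok.B
  have B0 : p.C ≤ p.B0 := CB.trans ok.B0
  have B02 : p.B0 ≤ p.B2 := ok.B2
  have Bg' : p.B2 ≤ lg p := (sp (by linarith) (by norm_num)).trans n1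
  have hn : (1 : ℝ) ≤ p.n := by
    rcases Nat.eq_zero_or_pos p.n with e | e
    · rw [lg, e] at Bg'; simp at Bg'; linarith
    · exact_mod_cast e
  have cv : p.cv ≤ 1 / 200000 := by
    have : (100 : ℝ) ≤ p.A := by exact_mod_cast hA
    nlinarith [ok.cv, ok.cv', ok.k3.2, ok.k2.2, ok.k4.2, ok.d.2, ok.ch.2]
  have gv : lg p ≤ vv p :=
    (sp (by linarith) (by norm_num)).trans (n3.trans (Real.rpow_le_rpow_of_exponent_le hn cv))
  have bg : Bg (vv p) := ⟨by linarith⟩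
  have t1 : t ≤ 1 := by linarith [ok.t0.2]
  have tl : Lb (vv p) (-200) t := ⟨by
    rw [vv_zpow]
    exact (Real.rpow_le_rpow_of_exponent_le hn (by push_cast; linarith [ok.ch.2])).trans ht⟩
  have tp := tl.pos bg
  have ef1 : p.ef ≤ 1 := ok.ef'.trans (pow_le_one₀ ok.t0.1.le (by linarith [ok.t0.2]))
  have B2' : 2 * p.B0 ≤ p.B2 := by
    have h1 : 1 ≤ p.B2 * p.ef :=
      hB2.trans (mul_le_mul_of_nonneg_left (pow_le_of_le_one ok.ef.le ef1 (by norm_num)) (by linarith))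
    have h2 : p.B0 ^ 2 ≤ p.B0 ^ 1000 := pow_le_pow_right₀ (by linarith) (by norm_num)
    have h3 : 0 ≤ p.B0 ^ 1000 := pow_nonneg (by linarith) _
    have h4 := mul_le_mul_of_nonneg_left h1 h3
    have h5 := mul_le_mul_of_nonneg_left hef (show 0 ≤ p.B2 by linarith)
    nlinarith
  have nv : vv p ≤ p.n := by
    rw [← n_eq p]; simpa only [zpow_one] using bg.mono (show (1 : ℤ) ≤ 200000 by norm_num)
  have k3 : p.k3 ≤ 1 := by linarith [ok.k3.2, ok.k2.2, ok.k4.2, ok.d.2, ok.ch.2]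
  refine ⟨bg, hn, C10, ?_, .of (by linarith) (by linarith), .of (by linarith) (by linarith), ?_,
    .of (by linarith) gv, ⟨?_⟩, tl, t1, ⟨?_⟩, ⟨?_⟩, ⟨?_⟩, ⟨?_, ?_⟩, if_pos ht⟩
  · refine le_trans (mul_le_mul hi ?_ (pow_nonneg (by linarith) _) ok.t0.1.le) ht0
    exact (pow_le_pow_left₀ (by linarith) CB _).trans (pow_le_pow_right₀ (by linarith) (by norm_num))
  · rw [Pm.Bt]
    split_ifs <;> exact .of (by linarith) (by linarith [ok.B0])
  · rw [zpow_neg_one, Og.gam, Real.exp_neg]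
    exact inv_anti₀ (Real.exp_pos _) ((Real.exp_le_exp.2 B2').trans (n2.trans gv))
  · refine (tl.pow bg 2).le.trans ?_
    rw [← Real.rpow_natCast]
    exact Real.rpow_le_rpow_of_exponent_ge tp t1 (by push_cast; linarith)
  · rw [vv_zpow]
    exact (Real.rpow_le_rpow_of_exponent_le hn (by push_cast; linarith)).trans en
  · rw [show (199999 : ℤ) = 200000 - 1 by norm_num, zpow_sub_one₀ bg.pos.ne', n_eq, Og.ro,
      ← div_eq_mul_inv, div_le_iff₀ bg.pos]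
    nlinarith [bg.le]
  · refine le_trans (le_min ?_ ?_) H0
    · rw [Pm.M]; positivity
    · have := ok.ef; positivity
  · rw [show (200001 : ℤ) = 200000 + 1 by norm_num, zpow_add_one₀ bg.pos.ne', n_eq]
    nlinarith [bg.le]

end N66

open N66

/-- **task 868** -/
theorem nH : NH := fun p t ε H h ht => by
  obtain ⟨bg, -, C, -, oC, oB0, oBt, olg, gam, lt, -, tk, lε, ro, -, kk⟩ := fc h ht
  have n0 : O (vv p) 200000 p.n := ⟨p.n.cast_nonneg, (n_eq p).ge⟩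
  have n1 : Lb (vv p) 200000 p.n := ⟨(n_eq p).le⟩
  have l0 : O (vv p) (-20000) (ll p) := o_rpow p _ (by norm_num)
  have l1 : Lb (vv p) (-20000) (ll p) := l_rpow p _ (by norm_num)
  have e0 : O (vv p) (-40000) (e4 p) := o_rpow p _ (by norm_num)
  have e1 : Lb (vv p) (-40000) (e4 p) := l_rpow p _ (by norm_num)
  have s0 : O (vv p) (-2000) (sm p) := o_rpow p _ (by norm_num)
  have s1 : Lb (vv p) (-2000) (sm p) := l_rpow p _ (by norm_num)
  have a1 := l_rpow p 20000 (r := 1 / 10) (by norm_num)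
  have b0 := o_rpow p 11000 (r := 11 / 200) (by norm_num)
  have b1 := l_rpow p 11000 (r := 11 / 200) (by norm_num)
  have c0 := o_rpow p (-9000) (r := -(9 / 200)) (by norm_num)
  have c1' := l_rpow p (-9000) (r := -(9 / 200)) (by norm_num)
  have d0 := o_rpow p 12000 (r := 3 / 50) (by norm_num)
  have d1 := l_rpow p 12000 (r := 3 / 50) (by norm_num)
  have f0 := o_rpow p (-2500) (r := -(1 / 80)) (by norm_num)
  have f1 := l_rpow p (-2500) (r := -(1 / 80)) (by norm_num)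
  have C0 : 0 < p.C := by linarith
  simp only [gD, gA, bT, bR, rC, Cs.lam, c1, Cs.ctr, Pm.cq, kk]
  refine ⟨?_, ?_, ?_, ?_, ?_, ?_, ?_, ?_, ?_⟩ <;> ordle bg

/-- **task 868** -/
theorem nF : NF := fun p t H h ht => by
  obtain ⟨bg, hn, C, tC, oC, oB0, oBt, -, -, lt, t1, tk, -, ro, oH, kk⟩ := fc h ht
  have tp := lt.pos bg
  have n0 : O (vv p) 200000 p.n := ⟨p.n.cast_nonneg, (n_eq p).ge⟩
  have n1 : Lb (vv p) 200000 p.n := ⟨(n_eq p).le⟩
  have l0 : O (vv p) (-20000) (ll p) := o_rpow p _ (by norm_num)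
  have s0 : O (vv p) (-2000) (sm p) := o_rpow p _ (by norm_num)
  have lC : Lb (vv p) 0 p.C := .num (by linarith)
  have ov : O (vv p) 0 (t ^ (9 / 20 : ℝ)) :=
    ⟨by positivity, by rw [zpow_zero]; exact Real.rpow_le_one tp.le t1 (by norm_num)⟩
  have l3 : Lb (vv p) (-200) (t ^ (1 / 3 : ℝ)) :=
    ⟨lt.le.trans (Real.self_le_rpow_of_le_one tp.le t1 (by norm_num))⟩
  obtain ⟨τ, hτ, rfl⟩ : ∃ τ : ℝ, 0 < τ ∧ t = τ ^ 60 :=
    ⟨t ^ ((60 : ℕ) : ℝ)⁻¹, by positivity, (Real.rpow_inv_natCast_pow tp.le (by norm_num)).symm⟩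
  have rp : ∀ (r : ℝ) (k : ℕ), 60 * r = k → (τ ^ 60) ^ r = τ ^ k := fun r k e => by
    rw [← Real.rpow_natCast, ← Real.rpow_mul hτ.le, ← Real.rpow_natCast τ k, ← e]; norm_num
  have τ1 : τ ≤ 1 := (pow_le_one_iff_of_nonneg hτ.le (by norm_num)).1 t1
  have τC : τ * p.C ^ 2 ≤ 1 := (pow_le_one_iff_of_nonneg (by positivity) (n := 60) (by norm_num)).1
    (by rw [mul_pow, ← pow_mul p.C]; exact tC)
  have τC' : p.C * τ ≤ 1 / 10 ^ 10 := by
    rw [le_div_iff₀ (by norm_num)]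
    nlinarith [mul_le_mul_of_nonneg_left C (show 0 ≤ p.C * τ by positivity)]
  have pw : ∀ k : ℕ, k ≠ 0 → p.C * τ ^ k ≤ 1 / 10 ^ 10 := fun k hk =>
    (mul_le_mul_of_nonneg_left (pow_le_of_le_one hτ.le τ1 hk) oC.nn).trans τC'
  have hM : p.M (τ ^ 60) = p.n * τ ^ 90 := by rw [Pm.M, rp _ 90 (by norm_num)]
  have hs : √(τ ^ 60) = τ ^ 30 := by rw [Real.sqrt_eq_rpow, rp _ 30 (by norm_num)]
  have a1 : ∀ n m l β k1 k2 a c2 Γ s2 v : ℝ, Ba26.alB n m l β k1 k2 a c2 Γ s2 v =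
      2 * m * (k1 * k2 + 1) + 8 * v ^ 2 * c2 + Ba26.alB n 0 l β k1 k2 a 0 Γ s2 v := by
    intros; unfold Ba26.alB; ring
  have a2 : ∀ n m l β k1 k2 a c2 Γ s2 v v2 : ℝ, Ba26.bB n m l β k1 k2 a c2 Γ s2 v v2 =
      4 * m * (k2 * k2 + a ^ 2) + 16 * v2 + 32 * v ^ 4 * c2 +
        Ba26.bB n 0 l β k1 k2 a 0 Γ s2 v 0 := by
    intros; unfold Ba26.bB; ring
  refine ⟨?_, ?_, ?_⟩
  · rw [a1, ← add_halves (_ / 16 : ℝ)]
    refine add_le_add ?_ (by unfold Ba26.alB Ba26.φ; ordle bg)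
    rw [hM, hs, rp _ 27 (by norm_num), rp _ 20 (by norm_num)]
    have e : 2 * (p.n * τ ^ 90) * (2 * p.C / τ ^ 60 * 60 + 1) +
        8 * (12 * τ ^ 27) ^ 2 * (100 * (p.C * p.n / τ ^ 30)) =
        p.n * τ ^ 20 * (240 * (p.C * τ ^ 10) + 2 * τ ^ 70 + 115200 * (p.C * τ ^ 4)) := by
      field_simp; ring
    have : τ ^ 70 ≤ p.C * τ ^ 70 := le_mul_of_one_le_left (by positivity) (by linarith)
    rw [e, div_div, div_eq_mul_one_div]
    exact mul_le_mul_of_nonneg_left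
      (by linarith [pw 10 (by norm_num), pw 70 (by norm_num), pw 4 (by norm_num)]) (by positivity)
  · rw [a2, show 2000 * p.C * p.n * τ ^ 60 = p.n * τ ^ 60 * (1999 * p.C) + p.C * p.n * τ ^ 60 by ring]
    refine add_le_add ?_ (by unfold Ba26.bB Ba26.φ; ordle bg)
    rw [hM, hs, rp _ 27 (by norm_num)]
    have e : 4 * (p.n * τ ^ 90) * (60 * 60 + 6 ^ 2) + 16 * (100 * p.C * p.n * τ ^ 60) +
        32 * (12 * τ ^ 27) ^ 4 * (100 * (p.C * p.n / τ ^ 30)) =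
        p.n * τ ^ 60 * (14544 * τ ^ 30 + 1600 * p.C + 66355200 * (p.C * τ ^ 18)) := by
      field_simp; ring
    rw [e]
    exact mul_le_mul_of_nonneg_left
      (by linarith [pw 18 (by norm_num), pow_le_one₀ (n := 30) hτ.le τ1]) (by positivity)
  · simp only [Cs.gX1U, Cs.gPhiU, Cs.lam, c1, Cs.ctr, Pm.cq, kk]
    generalize τ ^ 60 = t at *
    ordle bg

end Crest.Agent.T157.Og

end
end

-- ▼ part T157/O6v_73
section

set_option autoImplicit false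

/-!
Row 157, A2, section 6 (helper73): change of the spectral parameter (`O6.ConvStmt`).
-/

noncomputable section

namespace Crest.Agent.T157.O6

open MeasureTheory Matrix Crest.Agent.Lib.OrthPoinc Filter Topology Set
open Crest.Agent.T157.Oc Crest.Agent.T157.E Crest.Agent.T157.SL Crest.Agent.T157.Ks
open Crest.Agent.T157.Od Crest.Agent.T157.Oo

namespace V73

variable {n : ℕ}

theorem fr_two (M N : Mn n) (ζ : ℝ) : fr (M - ζ • N) ≤ 2 * fr M + 2 * (ζ ^ 2 * fr N) := by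
  simp only [fr, Finset.mul_sum, ← Finset.sum_add_distrib]
  refine Finset.sum_le_sum fun i _ => Finset.sum_le_sum fun j _ => ?_
  simp only [Matrix.sub_apply, Matrix.smul_apply, smul_eq_mul]
  nlinarith [sq_nonneg (M i j + ζ * N i j)]

theorem fr_three (M N P : Mn n) : fr (M + N + P) ≤ 3 * (fr M + fr N + fr P) := by
  simp only [fr, Finset.mul_sum, ← Finset.sum_add_distrib]
  refine Finset.sum_le_sum fun i _ => Finset.sum_le_sum fun j _ => ?_
  simp only [Matrix.add_apply]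
  nlinarith [sq_nonneg (M i j - N i j), sq_nonneg (M i j - P i j), sq_nonneg (N i j - P i j)]

theorem fr_smul (c : ℝ) (M : Mn n) : fr (c • M) = c ^ 2 * fr M := by
  simp only [fr, Finset.mul_sum, Matrix.smul_apply, smul_eq_mul, mul_pow]

theorem dot_three (a b c : Vn n) (ζ : ℝ) :
    (a - b - ζ • c) ⬝ᵥ (a - b - ζ • c) ≤ 3 * (a ⬝ᵥ a + b ⬝ᵥ b + ζ ^ 2 * (c ⬝ᵥ c)) := by
  simp only [dotProduct, Finset.mul_sum, ← Finset.sum_add_distrib]
  refine Finset.sum_le_sum fun i _ => ?_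
  simp only [Pi.sub_apply, Pi.smul_apply, smul_eq_mul]
  nlinarith [sq_nonneg (a i + b i), sq_nonneg (a i + ζ * c i), sq_nonneg (b i - ζ * c i)]

theorem main : ConvStmt := by
  intro n w A p y ζ hw hA
  have hC := covMat_transpose w (sv : Cube n → Fin n → ℝ)
  refine ⟨fun k1 k2 c1 c2 => CB_iff.2 fun v => ?_, ?_, ?_, ?_, ?_, (fr_AC hA _).symm,
    (fr_ACA hA _).symm⟩
  · have e : (fun x : Cube n => v ⬝ᵥ fA (A - ζ • (1 : Mn n)) sv x) =
        fun x => v ⬝ᵥ fA A sv x + ((-ζ) • v) ⬝ᵥ sv x := by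
      funext x
      simp only [fA, sub_mulVec, smul_mulVec, one_mulVec, dotProduct_sub, dotProduct_smul,
        smul_dotProduct, smul_eq_mul]
      ring
    have h1 := var_add_le hw (fun x => v ⬝ᵥ fA A sv x) (fun x => ((-ζ) • v) ⬝ᵥ sv x) one_pos
    have h2 := c2.var_le v
    have h3 := c1.var_le ((-ζ) • v)
    have h4 : ((-ζ) • v) ⬝ᵥ ((-ζ) • v) = ζ ^ 2 * (v ⬝ᵥ v) := by
      simp only [smul_dotProduct, dotProduct_smul, smul_eq_mul]; ring
    rw [h4] at h3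
    rw [e]
    simp only [inv_one] at h1
    linarith
  · have e : (A - ζ • (1 : Mn n)) * covMat w sv - 1 = (A * covMat w sv - 1) - ζ • covMat w sv := by
      rw [Matrix.sub_mul, Matrix.smul_mul, Matrix.one_mul]; abel
    rw [e]
    exact fr_two _ _ _
  · generalize covMat w (sv : Cube n → Fin n → ℝ) = C at *
    have e : (A - ζ • (1 : Mn n)) * C * (A - ζ • (1 : Mn n)) - (A - ζ • (1 : Mn n)) =
        (A * C * A - A) + (-ζ) • ((A * C - 1) + (A * C - 1)ᵀ + 1) + (ζ ^ 2) • C := by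
      simp only [transpose_sub, transpose_mul, transpose_one, hA, hC, Matrix.sub_mul,
        Matrix.mul_sub, Matrix.smul_mul, Matrix.mul_smul, Matrix.one_mul, Matrix.mul_one]
      module
    have h1 := fr_three (A * C - 1) (A * C - 1)ᵀ 1
    rw [fr_transpose, fr_one] at h1
    have h2 := mul_le_mul_of_nonneg_left h1 (sq_nonneg ζ)
    rw [e]
    refine (fr_three _ _ _).trans ?_
    have h4 : (ζ ^ 2) ^ 2 = ζ ^ 4 := by ring
    rw [fr_smul, fr_smul, neg_sq, h4]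
    linarith
  · have e : (A - ζ • (1 : Mn n)) *ᵥ meanV w sv - y =
        A *ᵥ (meanV w sv - p) - (y - A *ᵥ p) - ζ • meanV w sv := by
      rw [sub_mulVec, smul_mulVec, one_mulVec, mulVec_sub]; abel
    rw [e]
    exact dot_three _ _ _ _
  · generalize meanV w (sv : Cube n → Fin n → ℝ) = m
    simp only [dotProduct, Finset.mul_sum, ← Finset.sum_add_distrib]
    refine Finset.sum_le_sum fun i _ => ?_
    simp only [Pi.sub_apply]
    nlinarith [sq_nonneg (m i - 2 * p i)]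

end V73

theorem convStmt : ConvStmt := V73.main

end Crest.Agent.T157.O6

end
end

-- ▼ part T157/OgCv_89
section

set_option autoImplicit false
set_option linter.unusedSectionVars false

/-!
Row 157, A2 (helper89): the deterministic leaves `Og.ApL` and `Og.ConvL` of the orbit step.
-/

noncomputable section

namespace Crest.Agent.T157.Og

open MeasureTheory Matrix Crest.Agent.Lib.OrthPoinc Filter Topology Set
open Crest.Agent.T157.Oc Crest.Agent.T157.E Crest.Agent.T157.SL Crest.Agent.T157.Ks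
open Crest.Agent.T157.Od Crest.Agent.T157.Oo Crest.Agent.T157.O6 Crest.Agent.T157.O0
open Crest.Agent.T157.Oa (Gs Gd AQ fld Az)

namespace C89

/-- the numbers used below -/
structure Nm (p : Pm) (t : ℝ) : Prop where
  L : 100 ≤ p.L
  LC : p.L ^ 4 ≤ p.C
  C : 10 ^ 10 ≤ p.C
  K : p.C ^ 3 ≤ p.K
  KB : p.K ≤ p.B
  BB : p.B ≤ p.B0
  K0 : p.K0 ≤ p.B0
  tp : 0 < t
  t1 : t ≤ 1
  n1 : (1 : ℝ) ≤ p.n
  q : p.C ^ 3 * √t ≤ 1
  r : √t ≤ t ^ (1 / 3 : ℝ)
  M : p.M t = p.n * (t * √t)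
  Mm : p.M t ≤ p.M (max t p.ts)
  B4 : p.B0 ^ 4 ≤ p.M t
  e0 : p.B0 ^ 4 * p.kk t ≤ p.M (max t p.ts)
  kk : 1 ≤ p.kk t
  nk : 1 ≤ (p.n : ℝ) ^ p.k2
  t2 : p.t2 ≤ p.t0 / 2

variable {p : Pm} {t ε H : ℝ}

theorem M_mono (p : Pm) {s t : ℝ} (h0 : 0 ≤ s) (h : s ≤ t) : p.M s ≤ p.M t :=
  mul_le_mul_of_nonneg_left (Real.rpow_le_rpow h0 h (by norm_num)) (Nat.cast_nonneg _)

theorem M_rpow (p : Pm) (hn : (0 : ℝ) < p.n) (a : ℝ) :
    p.M ((p.n : ℝ) ^ a) = (p.n : ℝ) ^ (1 + a * (3 / 2)) := by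
  rw [Pm.M, ← Real.rpow_mul hn.le, Real.rpow_add hn, Real.rpow_one]

theorem nm (h : LH p t ε H) : Nm p t := by
  have o := h.ord
  have k := o.ok
  have L1 : (1 : ℝ) ≤ p.L := by linarith [k.L]
  have L10 : (1 : ℝ) ≤ p.L ^ 10 := one_le_pow₀ L1
  have C10 : (10 : ℝ) ^ 10 ≤ p.C := by linarith [o.C]
  have C1 := k.C
  have K3 : p.C ^ 3 ≤ p.K := (pow_le_pow_right₀ C1 (by norm_num)).trans o.K
  have B1 : 1 ≤ p.B := k.K.trans k.B
  have B01 : 1 ≤ p.B0 := B1.trans k.B0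
  have B21 : 1 ≤ p.B2 := B01.trans k.B2
  have lg1 : 1 ≤ Real.log p.n := (one_le_pow₀ B21).trans o.n1
  have n1 : (1 : ℝ) ≤ p.n := by
    by_contra hc
    linarith [Real.log_nonpos (Nat.cast_nonneg p.n) (not_le.1 hc).le]
  have n0 : (0 : ℝ) < p.n := by linarith
  have elo : p.lo = (p.n : ℝ) ^ (p.d - 2 / 3) := by rw [Pm.lo, Real.rpow_sub n0]
  have lo0 : 0 < p.lo := elo ▸ Real.rpow_pos_of_pos n0 _
  have tp : 0 < t := lo0.trans_le h.lo
  have t1 : t ≤ 1 := by linarith [h.hi, k.t0.2]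
  have A1 : (1 : ℝ) ≤ p.A := by exact_mod_cast k.A
  have cv : p.cv ≤ p.k3 / 100 := le_trans (le_mul_of_one_le_left k.cv.le A1) k.cv'
  have B4 : p.B0 ^ 4 ≤ (p.n : ℝ) ^ p.cv :=
    calc p.B0 ^ 4 ≤ p.B2 ^ 4 := pow_le_pow_left₀ (by linarith) k.B2 4
      _ ≤ p.B2 ^ 100 := pow_le_pow_right₀ B21 (by norm_num)
      _ ≤ Real.log p.n := o.n1
      _ ≤ Real.log p.n ^ 100 := le_self_pow₀ lg1 (by norm_num)
      _ ≤ _ := o.n3
  obtain ⟨a1, a2⟩ := k.ch
  obtain ⟨a3, a4⟩ := k.d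
  obtain ⟨a5, a6⟩ := k.k4
  obtain ⟨a7, a8⟩ := k.k2
  obtain ⟨a9, a10⟩ := k.k3
  have nk : 1 ≤ (p.n : ℝ) ^ p.k2 := Real.one_le_rpow n1 a7.le
  have kk5 : p.kk t ≤ (p.n : ℝ) ^ (1 / 5 : ℝ) := by
    unfold Pm.kk
    split_ifs
    · exact Real.one_le_rpow n1 (by norm_num)
    · have b1 : p.ts / t ≤ (p.n : ℝ) ^ (1 / 6 : ℝ) := by
        refine (div_le_div_of_nonneg_left (Real.rpow_nonneg n0.le _) lo0 h.lo).trans ?_
        rw [elo, ← Real.rpow_sub n0]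
        exact Real.rpow_le_rpow_of_exponent_le n1 (by linarith)
      have b2 : max 1 (p.ts / t) ≤ (p.n : ℝ) ^ (1 / 6 : ℝ) :=
        max_le (Real.one_le_rpow n1 (by norm_num)) b1
      refine (mul_le_mul_of_nonneg_left (Real.rpow_le_rpow (by positivity) b2 (by linarith))
        (by linarith)).trans ?_
      rw [← Real.rpow_mul n0.le, ← Real.rpow_add n0]
      exact Real.rpow_le_rpow_of_exponent_le n1 (by linarith)
  have kk1 : 1 ≤ p.kk t := by
    unfold Pm.kk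
    split_ifs
    · exact le_rfl
    · exact one_le_mul_of_one_le_of_one_le nk (Real.one_le_rpow (le_max_left _ _) (by linarith))
  refine ⟨k.L, ?_, C10, K3, k.B, k.B0, k.B0', tp, t1, n1, ?_, ?_, ?_, M_mono p tp.le (le_max_left _ _),
    ?_, ?_, kk1, nk, ?_⟩
  · have : p.L ^ 4 ≤ p.L ^ 10 := pow_le_pow_right₀ L1 (by norm_num)
    linarith [o.C]
  · have b1 : (p.C ^ 3) ^ 2 ≤ p.B ^ 1000 :=
      (pow_le_pow_left₀ (by positivity) (K3.trans k.B) 2).trans (pow_le_pow_right₀ B1 (by norm_num))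
    have b2 : (p.C ^ 3 * √t) ^ 2 ≤ 1 := by
      rw [mul_pow, Real.sq_sqrt tp.le, mul_comm]
      exact (mul_le_mul h.hi b1 (by positivity) k.t0.1.le).trans o.t0
    exact (sq_le_one_iff₀ (by positivity)).1 b2
  · rw [Real.sqrt_eq_rpow]
    exact Real.rpow_le_rpow_of_exponent_ge tp t1 (by norm_num)
  · rw [Pm.M, Real.sqrt_eq_rpow, show (3 / 2 : ℝ) = 1 + 1 / 2 by norm_num, Real.rpow_add tp,
      Real.rpow_one]
  · refine B4.trans (le_trans ?_ (M_mono p lo0.le h.lo))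
    rw [elo, M_rpow p n0]
    exact Real.rpow_le_rpow_of_exponent_le n1 (by linarith)
  · refine (mul_le_mul B4 kk5 (by linarith) (by positivity)).trans
      (le_trans ?_ (M_mono p (Real.rpow_nonneg n0.le _) (le_max_right t p.ts)))
    rw [M_rpow p n0, ← Real.rpow_add n0]
    exact Real.rpow_le_rpow_of_exponent_le n1 (by linarith)
  · have t0 := k.t0.1
    have b1 : p.ef / (2 * p.L) ≤ (p.t0 / 2) ^ (2 : ℝ) := by
      rw [Real.rpow_two, div_le_iff₀ (by linarith)]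
      nlinarith [k.ef', k.L, sq_nonneg p.t0]
    refine (Real.rpow_le_rpow (div_nonneg k.ef.le (by linarith)) b1 (by norm_num)).trans ?_
    rw [← Real.rpow_mul (by linarith)]
    refine (Real.rpow_le_rpow_of_exponent_ge (z := 1) (by linarith) (by linarith [k.t0.2])
      (by norm_num)).trans_eq (Real.rpow_one _)

variable {n k : ℕ}

theorem two_le {o : Orb n k} {x : Vn n} (h : Kp.At o x) : 2 ≤ o.z := by
  have hn : 0 < n := by have := h.dim; omega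
  have : Nonempty (Fin n) := ⟨⟨0, hn⟩⟩
  have c0 : 0 < Kp.chi x := div_pos (Finset.sum_pos (fun i _ => sub_pos.2 (Real.tanh_sq_lt_one _))
    Finset.univ_nonempty) (by exact_mod_cast hn)
  rw [h.z, ← sub_nonneg, show Kp.chi x + 1 / Kp.chi x - 2 = (Kp.chi x - 1) ^ 2 / Kp.chi x by
    field_simp; ring]
  positivity



end C89

open C89

/-- the a priori event gives the list `c0` -/
theorem apL : ApL := by
  intro p t ε H k o x U hL hF hU hA
  obtain ⟨hq, h2, h0⟩ := hA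
  have N := nm hL
  have hG := AQ.orb hF.pt.ok hU hq ⟨two_le hF.pt, hF.z⟩ hF.P hF.Ψ
  have acc : ∀ M, Acc M (o.Wu U) (ising (o.Wu U) (o.y U)) → o.d U ⬝ᵥ o.d U ≤ M := fun M h => by
    have := h x (by rw [Oa.fld_ising, Orb.y, hF.pt.h, hF.pt.p, Tap.Ymap, one_mul, Kp.chi]; abel)
    rwa [← Oa.meanV_congr (Oa.prob_orb hF.pt.ok U), ← hF.pt.p] at this
  have a36 : o.A U *ᵥ o.d U ⬝ᵥ o.A U *ᵥ o.d U ≤ 6 ^ 2 * (o.d U ⬝ᵥ o.d U) := hG.2.a _
  have C1 : 1 ≤ p.C := by linarith [N.C]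
  have CK : p.C ≤ p.K := (le_self_pow₀ C1 (by norm_num)).trans N.K
  unfold c0
  split_ifs with h1 h3
  · have eB : p.Bt t = p.B := if_pos (h1.trans_le N.t2)
    have d0 : o.d U ⬝ᵥ o.d U ≤ 2 * (p.Bt t * p.n * √t + p.L / 50 * p.n * √t) := hG.2.d0
    have e0 : o.A U *ᵥ o.d U ⬝ᵥ o.A U *ᵥ o.d U ≤ 4 * (p.Bt t * p.M (max t p.ts) +
      (p.L ^ 2 * t / 100) ^ 2 * (p.Bt t * p.n * √t)) + 2 * (p.C * p.M t) := hG.2.e0
    rw [eB] at d0 e0
    have LB : p.L ≤ p.B := (le_self_pow₀ (by linarith [N.L]) (by norm_num)).trans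
      (N.LC.trans (CK.trans N.KB))
    have nq : 0 ≤ p.n * √t := by positivity
    have M0 : 0 ≤ p.M t := by rw [N.M]; have := N.tp; positivity
    have B0 : 0 ≤ p.B := by linarith [N.L]
    have ct : p.L ^ 4 * t ≤ 1 := by
      have b1 : t ≤ √t := by
        rw [Real.le_sqrt N.tp.le N.tp.le]; nlinarith [N.tp, N.t1]
      exact (mul_le_mul (N.LC.trans (le_self_pow₀ C1 (by norm_num))) b1 N.tp.le
        (by positivity)).trans N.q
    have b2 : (p.L ^ 2 * t / 100) ^ 2 * (p.B * p.n * √t) ≤ p.B * p.M t / 10000 := by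
      rw [N.M]
      have := mul_le_mul_of_nonneg_right ct (show 0 ≤ p.B * (p.n * (t * √t)) by
        have := N.tp; positivity)
      linarith
    have b3 := mul_le_mul_of_nonneg_left N.Mm B0
    have b4 := mul_le_mul_of_nonneg_right (CK.trans N.KB) M0
    have b5 := mul_nonneg B0 M0
    refine ⟨hU, hG.2.ctr (d0.trans ?_) (e0.trans (by linarith))⟩
    nlinarith [mul_le_mul_of_nonneg_right LB nq, mul_nonneg B0 nq]
  · have := acc _ (h2 (not_lt.1 h1))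
    exact ⟨hU, hG.2.ctr this (by linarith)⟩
  · have d0 := acc _ (h0 (not_lt.1 h3))
    have B36 : 36 ≤ p.B0 := by linarith [N.C, N.KB, N.BB]
    have b1 : 36 * p.B0 ≤ p.B0 ^ 4 := by
      have : p.B0 ^ 2 ≤ p.B0 ^ 4 := pow_le_pow_right₀ (by linarith) (by norm_num)
      nlinarith
    have b2 : p.B0 ^ 4 ≤ p.B0 ^ 4 / t := le_div_self (by positivity) N.tp N.t1
    have b3 : p.B0 ^ 4 ≤ p.B0 ^ 4 * p.kk t := le_mul_of_one_le_right (by positivity) N.kk
    exact ⟨hU, hG.2.ctr (d := p.B0 ^ 4 / t) (e := p.B0 ^ 4 * p.kk t) (by linarith [N.K0])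
      (by linarith [N.K0])⟩


end Crest.Agent.T157.Og
end
end

-- ▼ part T157/OgCv_61
section

set_option autoImplicit false
set_option linter.unusedSectionVars false

/-!
Row 157, A2 (helper61): `Og.convL : ConvL`, from the new bounds to `Good`.
-/

noncomputable section

namespace Crest.Agent.T157.Og

open MeasureTheory Matrix Crest.Agent.Lib.OrthPoinc Filter Topology Set
open Crest.Agent.T157.Oc Crest.Agent.T157.E Crest.Agent.T157.SL Crest.Agent.T157.Ks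
open Crest.Agent.T157.Od Crest.Agent.T157.Oo Crest.Agent.T157.O6 Crest.Agent.T157.O0

namespace Cv61

variable {n : ℕ}

/-- `‖C‖_F² ≤ κ n` -/
theorem fr_C_le {w : Cube n → ℝ} (hw : Wt w) {κ : ℝ} (κ0 : 0 ≤ κ) (h : CB w sv κ) :
    fr (covMat w sv) ≤ κ * n := by
  have h1 : ∀ j : Fin n, ∑ i, covMat w sv i j ^ 2 ≤ κ := fun j => by
    have h2 := Ba26.psd_sq (covMat_transpose w sv) (hw.covMat_quad_nonneg sv) h κ0 (Pi.single j 1)
    have h3 : Pi.single j 1 ⬝ᵥ covMat w sv *ᵥ Pi.single j 1 ≤ 1 := by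
      rw [covMat_quad, ← var_eq_cov]
      refine (hw.var_le_mean _ 0).trans (hw.mean_le fun x => ?_)
      have : sv x j ^ 2 = 1 := spin_sq _
      simp [this]
    have h4 : covMat w sv *ᵥ Pi.single j 1 ⬝ᵥ covMat w sv *ᵥ Pi.single j 1 =
        ∑ i, covMat w sv i j ^ 2 := by simp [dotProduct, sq]
    rw [h4] at h2
    exact h2.trans (mul_le_of_le_one_right κ0 h3)
  rw [fr, Finset.sum_comm]
  refine (Finset.sum_le_sum fun j _ => h1 j).trans (le_of_eq ?_)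
  simp [mul_comm]

theorem op2_two {W : Mn n} (h : Op2 W 9) : Op2 ((2 : ℝ) • (1 : Mn n) - W) (5 ^ 2) := fun v => by
  have h1 := h v
  have h2 := dot_self_nonneg ((3 : ℝ) • v + W *ᵥ v)
  simp only [sub_mulVec, smul_mulVec, one_mulVec, sub_dotProduct, dotProduct_sub, add_dotProduct,
    dotProduct_add, smul_dotProduct, dotProduct_smul, smul_eq_mul, dotProduct_comm (W *ᵥ v) v] at *
  linarith

theorem two_le_z {k : ℕ} {o : Orb n k} {x : Vn n} (h : Kp.At o x) : 2 ≤ o.z := by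
  have hn : 0 < n := by have := h.dim; omega
  have h1 : 0 < Kp.chi x := by
    have : Nonempty (Fin n) := ⟨⟨0, hn⟩⟩
    refine div_pos (Finset.sum_pos (fun i _ => ?_) Finset.univ_nonempty) (by exact_mod_cast hn)
    have := Real.tanh_sq_lt_one (x i)
    simp only [Tap.DD, Tap.th]; linarith
  rw [h.z, ← sub_nonneg, show Kp.chi x + 1 / Kp.chi x - 2 = (1 - Kp.chi x) ^ 2 / Kp.chi x by
    field_simp; ring]
  positivity

end Cv61

open Cv61 in
theorem convL : ConvL := by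
  intro p t H k o x U h fx hU b1 b2 b3 b4
  have ho := fx.pt.ok
  have O := h.ord
  have t0 := h.t0
  have N0 := O.N0
  have Cb := O.Cb
  have L1 := O.L1
  have B1 := O.B1
  have hw := Orb.wt (o := o) U
  have e : o.A U - (o.z - 2) • (1 : Mn p.n) = Oa.Az 2 (o.Wu U) := by
    rw [Orb.A, AU, sub_smul, Oa.Az]; abel
  obtain ⟨c2, c3, c4, c5, c6, -⟩ :=
    convStmt p.n (o.w U) (o.A U) o.p (o.y U) (o.z - 2) hw (Orb.A_symm ho U)
  rw [e] at c2 c3 c4 c5
  have ey : o.y U - o.A U *ᵥ o.p = -(o.z • o.p - o.h) := by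
    simp only [Orb.y, Orb.A, AU, sub_mulVec, smul_mulVec, one_mulVec]; abel
  rw [ey, neg_dotProduct, dotProduct_neg, neg_neg] at c5
  have cr : APt (crude 5 (25 * p.n)) (o.w U) (Oa.Az 2 (o.Wu U)) 0 := by
    refine APt.crude hw ?_ (fun v => ?_) (by linarith [O.N1]) (by linarith) (by norm_num) (by simp)
    · rw [← e, transpose_sub, Orb.A_symm ho U, transpose_smul, transpose_one]
    · exact Orb.op2_A (o := { o with z := 2 }) ⟨ho.iso, ho.symm, ho.ep, ho.eh, ho.two⟩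
        (op2_two fx.W9) hU.1 v
  -- numbers
  have LC : p.L ^ 5 ≤ p.C := (pow_le_pow_right₀ L1 (by norm_num)).trans O.LC
  have L4 : p.L ^ 4 ≤ p.C := (pow_le_pow_right₀ L1 (by norm_num)).trans O.LC
  have CB' : p.C ≤ p.B := O.CK.trans O.KB
  have C1 : 1 ≤ p.C := O.ok.C
  have K2 : 10 ^ 5 * p.C ≤ p.K :=
    le_trans (by nlinarith) ((pow_le_pow_right₀ C1 (by norm_num : 2 ≤ 10)).trans O.K)
  have tB : t * p.B ^ 3 ≤ 1 :=
    (mul_le_mul_of_nonneg_left (pow_le_pow_right₀ B1 (by norm_num)) t0.le).trans h.tB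
  have ζ2 : (o.z - 2) ^ 2 ≤ p.B * t ^ 2 / 10 ^ 4 := by
    calc _ ≤ (p.L ^ 2 * t / 100) ^ 2 :=
          pow_le_pow_left₀ (by linarith [two_le_z fx.pt]) (by linarith [fx.z]) 2
      _ = p.L ^ 4 * t ^ 2 / 10 ^ 4 := by ring
      _ ≤ _ := by gcongr; linarith
  have B2 : t * p.B ^ 2 ≤ 1 :=
    (mul_le_mul_of_nonneg_left (pow_le_pow_right₀ B1 (by norm_num)) t0.le).trans tB
  have ζk : (o.z - 2) ^ 2 * (2 * p.C / t) ≤ t * p.B ^ 2 / 5000 :=
    calc _ ≤ p.B * t ^ 2 / 10 ^ 4 * (2 * p.B / t) := by gcongr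
      _ = _ := by field_simp; ring
  have fC : (o.z - 2) ^ 2 * fr (o.C U) ≤ t * p.B ^ 2 / 5000 * p.n :=
    calc _ ≤ (o.z - 2) ^ 2 * (2 * p.C / t * p.n) :=
          mul_le_mul_of_nonneg_left (fr_C_le hw (by positivity) b1) (sq_nonneg _)
      _ ≤ _ := by rw [← mul_assoc]; gcongr
  have sq0 : 0 < √t := Real.sqrt_pos.2 t0
  have M0 : p.B0 ^ 4 ≤ p.M t := by
    obtain ⟨a1, a2, a3, a4, a5, -⟩ := O.ex
    refine le_trans ?_ h.M_ge
    exact (le_of_eq (one_mul _).symm).trans ((O.cstB0 (by norm_num) (by norm_num)).trans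
      (O.rp_le (by linarith)))
  have g6 : meanV (o.w U) sv ⬝ᵥ meanV (o.w U) sv ≤ p.L / 10 * p.n * √t := by
    have a1 : o.d U ⬝ᵥ o.d U ≤ p.B0 ^ 4 / t := hU.2.d0
    have a2 : p.B0 ^ 4 / t ≤ p.n * √t := by
      rw [div_le_iff₀ t0]; rw [h.M_eq] at M0; linarith
    have a3 : 100 * (p.n * √t) ≤ p.L * (p.n * √t) := by gcongr; exact O.ok.L
    have := fx.P
    have a4 : 0 ≤ p.n * √t := by positivity
    linarith
  refine Oa.Gd.congr (Oa.prob_orb ho U) ⟨b1.mono ?_, ?_, ?_, ?_, ?_, g6⟩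
  · exact div_le_div_of_nonneg_right (by linarith) t0.le
  · simp only [Pm.gc]
    split_ifs with h1 h2
    · exact (c2 _ _ b1 (b3 h1).1).mono (by linarith)
    · have := O.rp_one O.ok.k2.1.le
      exact (c2 _ _ b1 (b2 h2 (not_le.1 h1))).mono (by linarith)
    · exact cr.k2
  · simp only [Pm.gc]
    split_ifs with h1
    · have a1 : t * p.B ^ 2 ≤ t ^ (1 / 3 : ℝ) := by
        have a2 := h.tB' (a := 2 / 3) (j := 2) (by norm_num)
        have a3 : t = t ^ (1 / 3 : ℝ) * t ^ (2 / 3 : ℝ) := by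
          rw [← Real.rpow_add t0]; norm_num
        calc _ = t ^ (1 / 3 : ℝ) * (t ^ (2 / 3 : ℝ) * p.B ^ 2) := by rw [← mul_assoc, ← a3]
          _ ≤ _ := mul_le_of_le_one_right (by positivity) a2
      have a4 := mul_le_mul_of_nonneg_right a1 N0.le
      have a5 : 0 ≤ t * p.B ^ 2 * p.n := by positivity
      linarith [(b3 h1).2]
    · exact cr.a1
  · simp only [Pm.gc]
    split_ifs with h1
    · have a1 : fr (o.A U * o.C U - 1) ≤ p.B * p.n := by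
        rcases le_or_gt p.tss t with h2 | h2
        · have a2 : t ^ (1 / 3 : ℝ) ≤ 1 := Real.rpow_le_one t0.le h.t1 (by norm_num)
          nlinarith [(b3 h2).2]
        · have a2 : fr (o.A U * o.C U - 1) ≤ p.Bt t * p.n * p.al t := hU.2.a1
          rw [h.Bt_lo (h2.trans_le (O.tss_t2.trans O.t2_t0))] at a2
          exact a2.trans (mul_le_of_le_one_right (by positivity) h.al1)
      have a2 : (o.z - 2) ^ 2 * (2 * fr (o.A U * o.C U - 1) + p.n) ≤ p.n * t :=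
        calc _ ≤ p.B * t ^ 2 / 10 ^ 4 * (3 * (p.B * p.n)) :=
              mul_le_mul ζ2 (by nlinarith) (by linarith [fr_nonneg (U := o.A U * o.C U - 1)])
                (by positivity)
          _ = p.n * t * (3 * (t * p.B ^ 2) / 10 ^ 4) := by ring
          _ ≤ _ := mul_le_of_le_one_right (by positivity) (by linarith)
      have a3 : (o.z - 2) ^ 4 * fr (o.C U) ≤ p.n * t :=
        calc _ = (o.z - 2) ^ 2 * ((o.z - 2) ^ 2 * fr (o.C U)) := by ring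
          _ ≤ p.B * t ^ 2 / 10 ^ 4 * (t * p.B ^ 2 / 5000 * p.n) :=
              mul_le_mul ζ2 fC (mul_nonneg (sq_nonneg _) fr_nonneg) (by positivity)
          _ = p.n * t * (t * p.B ^ 3 * t / (5 * 10 ^ 7)) := by ring
          _ ≤ _ := mul_le_of_le_one_right (by positivity) (by nlinarith [h.t1])
      have a4 := b4 h1
      have a5 : 10 ^ 5 * p.C * (p.n * t) ≤ p.K * (p.n * t) := by gcongr
      have a6 : 1 * (p.n * t) ≤ p.C * (p.n * t) := by gcongr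
      have a7 : 0 ≤ p.n * t := by positivity
      linarith
    · exact cr.b
  · rw [Oa.fld_congr (Oa.prob_orb ho U), Oa.fld_ising]
    have a1 : o.A U *ᵥ o.d U ⬝ᵥ o.A U *ᵥ o.d U ≤ p.B0 ^ 4 * p.kk t := hU.2.e0
    have a2 : p.M t ≤ p.M (max t p.ts) := by
      unfold Pm.M; gcongr; exact le_max_left _ _
    have a3 : p.B0 ^ 4 * p.kk t ≤ p.M (max t p.ts) := by
      obtain ⟨b1, b2, b3, b4, b5, b6, b7, -⟩ := O.ex
      calc _ ≤ (p.n : ℝ) ^ p.cv * (p.n : ℝ) ^ (1 / 6 - p.d / 2) :=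
            mul_le_mul ((le_of_eq (one_mul _).symm).trans (O.cstB0 (by norm_num) (by norm_num)))
              h.kk_le (by linarith [h.kk1]) (by positivity)
        _ ≤ (p.n : ℝ) ^ (1 : ℝ) * (p.n : ℝ) ^ ((p.k4 - 1 / 2) * (3 / 2)) := by
            rw [O.rp_add, O.rp_add]; exact O.rp_le (by linarith)
        _ = p.M p.ts := by rw [Pm.M, Pm.ts, O.rp_rp, Real.rpow_one]
        _ ≤ _ := by
            have : 0 ≤ p.ts := (O.rp_pos _).le
            unfold Pm.M; gcongr; exact le_max_right _ _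
    have a4 : (o.z - 2) ^ 2 * (meanV (o.w U) sv ⬝ᵥ meanV (o.w U) sv) ≤ p.M t :=
      calc _ ≤ p.B * t ^ 2 / 10 ^ 4 * (p.B / 10 * p.n * √t) :=
            mul_le_mul ζ2 (g6.trans (by gcongr; linarith [O.LC'])) (dot_self_nonneg _) (by positivity)
        _ = p.n * (t * √t) * (t * p.B ^ 2 / 10 ^ 5) := by ring
        _ ≤ _ := by rw [h.M_eq]; exact mul_le_of_le_one_right (by positivity) (by linarith)
    have a5 := fx.Ψ
    have a6 : 0 ≤ p.M t := by rw [h.M_eq]; positivity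
    have a7 : p.C * p.M t ≤ p.C * p.M (max t p.ts) := by gcongr
    have a8 : 10 ^ 5 * p.C * p.M (max t p.ts) ≤ p.K * p.M (max t p.ts) := by gcongr; linarith
    have a9 : 1 * p.M (max t p.ts) ≤ p.C * p.M (max t p.ts) := by gcongr; linarith
    simp only [Pm.gc]
    linarith

end Crest.Agent.T157.Og
end
end

-- ▼ part T157/OoB_9
section

set_option autoImplicit false
set_option linter.unusedSectionVars false

/-!
Row 157, A2 (helper9): the total gradient of the centre without `N`; updates of the a priori list.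
-/

noncomputable section

namespace Crest.Agent.T157.Od

open Matrix Crest.Agent.T157.E Crest.Agent.T157.SL Crest.Agent.T157.Ks

variable {Ω ι κ : Type*} [Fintype Ω] [Fintype ι] [DecidableEq ι] [Fintype κ] {θ : κ → Matrix ι ι ℝ}
  {w : Ω → ℝ} {σ : Ω → ι → ℝ} {p : ι → ℝ} {A : Matrix ι ι ℝ}

/-- centre, `δ` in the `x`-frame: total gradient by `|κ₃(A·, ·, ·)|_F²` -/
theorem Fam.dDel_total' (h : Fam θ) (hw : Wt w) (hA : Aᵀ = A) :
    ∑ i, ∑ a, dDel w σ p A (θ a) i ^ 2 ≤ 3 * (4 * T3 w (fA A σ) σ σ +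
      2 * (fr (A * covMat w σ - 1) * ((meanV w σ - p) ⬝ᵥ (meanV w σ - p))) +
      2 * ((A *ᵥ (meanV w σ - p) ⬝ᵥ A *ᵥ (meanV w σ - p)) * fr (covMat w σ))) := by
  have h0 : ∀ i, ∑ a, cov w (fun x => (Pi.single i 1 : ι → ℝ) ⬝ᵥ σ x) (Qf w σ A (θ a)) ^ 2 ≤
      4 * ∑ j, ∑ l, cum3 w (fun x => σ x i) (fun x => fA A σ x j) (fun x => σ x l) ^ 2 := by
    intro i
    simp only [cov_Qf hw, single_dot]
    exact h.bd4 _
  have h1 := Finset.sum_le_sum fun i (_ : i ∈ Finset.univ) =>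
    sum_sq3_le _ _ _ (h0 i) (h.dot ((A * covMat w σ - 1) *ᵥ Pi.single i 1) (meanV w σ - p))
      (h.dot (A *ᵥ (meanV w σ - p)) (covMat w σ *ᵥ Pi.single i 1))
  simp only [← dot_dDel hw hA] at h1
  simp only [single_dot, ← Finset.mul_sum, Finset.sum_add_distrib,
    ← Finset.sum_mul, sum_single_dot] at h1
  rw [T3_comm]
  exact h1

end Crest.Agent.T157.Od

namespace Crest.Agent.T157.Oo

open MeasureTheory Matrix Crest.Agent.Lib.OrthPoinc Filter Topology Set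
open Crest.Agent.T157.Oc Crest.Agent.T157.E Crest.Agent.T157.SL Crest.Agent.T157.Ks
open Crest.Agent.T157.Od

variable {n k : ℕ} {c : Cs} {w : Cube n → ℝ} {A : Mn n} {p : Vn n}

def Cs.gDel' (c : Cs) : ℝ := 3 * (4 * c.s1' + 2 * (c.a1 * c.d0) + 2 * (c.e0 * c.c2))

theorem APt.gDel' {κ : Type*} [Fintype κ] {θ : κ → Mn n} (h : APt c w A p) (hc : c.Nn) (hw : Wt w)
    (hA : Aᵀ = A) (hθ : Fam θ) : ∑ i, ∑ a, dDel w sv p A (θ a) i ^ 2 ≤ c.gDel' := by
  refine (hθ.dDel_total' hw hA).trans ?_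
  have b1 := mul_le_mul h.a1 h.d0 (dot_self_nonneg _) hc.a1
  have b2 := mul_le_mul h.e0 h.c2 fr_nonneg hc.e0
  unfold Cs.gDel'; linarith [h.s1']

theorem Orb.gDelx' {o : Orb n k} {U : Mat k} (h : o.Ok) (hc : c.Nn) (hU : U ∈ o.G c) :
    ∑ i, ∑ a, ((o.g U)ᵀ *ᵥ dDel (o.w U) sv o.p (o.A U) (o.th a U)) i ^ 2 ≤ c.gDel' := by
  refine le_of_eq_of_le ?_ (hU.2.gDel' hc (Orb.wt U) (Orb.A_symm h U) (Orb.fam h hU.1))
  rw [Finset.sum_comm, Finset.sum_comm (s := (Finset.univ : Finset (Fin n)))]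
  refine Finset.sum_congr rfl fun a _ => ?_
  simpa only [dotProduct, ← sq] using Op2.orth (G := (o.g U)ᵀ)
    (by rw [transpose_transpose]; exact emb_orth h.iso hU.1) (dDel (o.w U) sv o.p (o.A U) (o.th a U))







end Crest.Agent.T157.Oo
end
namespace Crest.Agent.T157.Oo.Cs.Nn
end Crest.Agent.T157.Oo.Cs.Nn
end

-- ▼ part T157/O5A_99
section

set_option autoImplicit false
set_option linter.unusedSectionVars false

/-!
Row 157, A2, section 5 (helper99): self-bounded concentration of a vector on `SO(k)` whose mean is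
only known under a tilted law (`sb`), and the centre (`Orb.centre`).
-/

noncomputable section

namespace Crest.Agent.T157.O5

open MeasureTheory Matrix Crest.Agent.Lib.OrthPoinc Filter Topology Set
open Crest.Agent.T157.Oc Crest.Agent.T157.E Crest.Agent.T157.SL Crest.Agent.T157.Ks
open Crest.Agent.T157.Od Crest.Agent.T157.Oo

variable {k : ℕ}

theorem sq_split {κ : Type*} [Fintype κ] (x y : κ → ℝ) :
    x ⬝ᵥ x ≤ 2 * ∑ i, (x i - y i) ^ 2 + 2 * (y ⬝ᵥ y) := by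
  simp only [dotProduct, Finset.mul_sum, ← Finset.sum_add_distrib]
  exact Finset.sum_le_sum fun i _ => by nlinarith [sq_nonneg (x i - 2 * y i)]

theorem sq_sub_le {κ : Type*} [Fintype κ] (x y : κ → ℝ) :
    ∑ i, (x i - y i) ^ 2 ≤ 2 * (x ⬝ᵥ x) + 2 * (y ⬝ᵥ y) := by
  simp only [dotProduct, Finset.mul_sum, ← Finset.sum_add_distrib]
  exact Finset.sum_le_sum fun i _ => by nlinarith [sq_nonneg (x i + y i)]

theorem dir_tot {κ L : Type*} [Fintype κ] [Fintype L] (D : L → κ → ℝ) (v : κ → ℝ) :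
    ∑ a, (v ⬝ᵥ D a) ^ 2 ≤ (∑ i, ∑ a, D a i ^ 2) * (v ⬝ᵥ v) := by
  rw [Finset.sum_comm, Finset.sum_mul]
  refine Finset.sum_le_sum fun a _ => ?_
  have := Finset.sum_mul_sq_le_sq_mul_sq Finset.univ v (D a)
  simp only [dotProduct, ← sq]
  linarith

/-- the failure probability of `sb` -/
def fl (H M A0 γ : ℝ) : ℝ := Real.exp (-H) + M / A0 * γ

/-- the squared radius of `sb` -/
def rad (k : ℕ) (ζ T0 A0 M M' H K η γ : ℝ) : ℝ :=
  7 * (ζ + (12 * (T0 + M * γ) + 600 * (H * A0)) / ((k : ℝ) - 2) + 4 * M' * (K * fl H M A0 γ + η))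

set_option maxHeartbeats 1000000 in
/-- **SB**: self-bounded gradients on `G`, mean known under a law `ν ≤ K μ + η`. -/
theorem sb {κ : Type*} [Fintype κ] {μ ν : Measure (Mat k)} [IsProbabilityMeasure μ]
    [IsProbabilityMeasure ν] (hμ : SOInv μ) (hn : 2 < k) (hν : ∀ᵐ U ∂ν, U ∈ SO k)
    {z : Mat k → κ → ℝ} {D : Fin k × Fin k → Mat k → κ → ℝ} (hz : RDV z D) {G : Set (Mat k)}
    (hGm : MeasurableSet G) {T0 T1 A0 A1 M M' H K η γ ζ : ℝ} (T00 : 0 ≤ T0) (T10 : 0 ≤ T1)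
    (A00 : 0 < A0) (A10 : 0 ≤ A1) (M0 : 0 ≤ M) (M0' : 0 ≤ M') (H0 : 0 < H) (K0 : 0 ≤ K)
    (hT : ∀ U ∈ SO k, U ∈ G → ∑ i, ∑ a, D a U i ^ 2 ≤ T0 + T1 * (z U ⬝ᵥ z U))
    (hA : ∀ U ∈ SO k, U ∈ G → ∀ v, ∑ a, (v ⬝ᵥ D a U) ^ 2 ≤ (A0 + A1 * (z U ⬝ᵥ z U)) * (v ⬝ᵥ v))
    (hM : ∀ U ∈ SO k, ∑ i, ∑ a, D a U i ^ 2 ≤ M) (hM' : ∀ U ∈ SO k, z U ⬝ᵥ z U ≤ M')
    (hγ : μ.real Gᶜ ≤ γ) (tr : ∀ T, ν.real T ≤ K * μ.real T + η) (hζ : EV ν z ⬝ᵥ EV ν z ≤ ζ)
    (s1 : 1000 * T1 ≤ (k : ℝ) - 2) (s2 : 40000 * (H * A1) ≤ (k : ℝ) - 2) :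
    μ.real {U | rad k ζ T0 A0 M M' H K η γ < z U ⬝ᵥ z U} ≤ fl H M A0 γ ∧
      ∫ U, z U ⬝ᵥ z U ∂μ ≤ rad k ζ T0 A0 M M' H K η γ := by
  have hρ : (0 : ℝ) < (k : ℝ) - 2 := by
    have : (2 : ℝ) < k := by exact_mod_cast hn
    linarith
  set ρ : ℝ := (k : ℝ) - 2 with hρe
  set x0 := EV μ z with hx0
  set s := x0 ⬝ᵥ x0 with hs
  have s0 : 0 ≤ s := dot_self_nonneg _
  have γ0 : 0 ≤ γ := measureReal_nonneg.trans hγ
  have cz : ContinuousOn (fun U => z U ⬝ᵥ z U) (SO k) := (hz.dot hz).c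
  have cd : ContinuousOn (fun U => ∑ i, (z U i - x0 i) ^ 2) (SO k) :=
    continuousOn_finsetSum _ fun i _ => ((hz i).c.sub continuousOn_const).pow 2
  have ct : ContinuousOn (fun U => ∑ i, ∑ a, D a U i ^ 2) (SO k) :=
    continuousOn_finsetSum _ fun i _ => (hz i).cD
  set V := ∫ U, ∑ i, (z U i - x0 i) ^ 2 ∂μ with hV
  set I := ∫ U, ∑ i, ∑ a, D a U i ^ 2 ∂μ with hI
  set Z := ∫ U, z U ⬝ᵥ z U ∂μ with hZ
  have Z0 : 0 ≤ Z := integral_nonneg fun U => dot_self_nonneg _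
  have p1 : V ≤ ρ⁻¹ * I := by
    have i1 : ∀ i, Integrable (fun U => (z U i - ∫ V, z V i ∂μ) ^ 2) μ := fun i =>
      integrable_of hμ (((hz i).c.sub continuousOn_const).pow 2)
    have h2 := Finset.sum_le_sum fun i (_ : i ∈ Finset.univ) => (hz i).poincare hμ hn
    rw [← Finset.mul_sum, ← integral_finsetSum _ fun i _ => integrable_of hμ (hz i).cD,
      ← integral_finsetSum _ fun i _ => i1 i] at h2
    exact h2
  have p2 : I ≤ T0 + M * γ + T1 * Z := by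
    have h1 := int_le_good hμ (f := fun U => ∑ i, ∑ a, D a U i ^ 2 - T1 * (z U ⬝ᵥ z U)) (M := M)
      (ct.sub (continuousOn_const.mul cz)) hGm T00 (fun U hU h => by linarith [hT U hU h])
      fun U hU => by linarith [hM U hU, mul_nonneg T10 (dot_self_nonneg (z U))]
    rw [integral_sub (integrable_of hμ ct) ((integrable_of hμ cz).const_mul _), integral_const_mul] at h1
    linarith [mul_le_mul_of_nonneg_left hγ M0]
  have p3 : Z ≤ 2 * V + 2 * s := by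
    have h1 := integral_mono (μ := μ) (g := fun U => 2 * ∑ i, (z U i - x0 i) ^ 2 + 2 * s)
      (integrable_of hμ cz) (((integrable_of hμ cd).const_mul 2).add (integrable_const (2 * s)))
      fun U => sq_split (z U) x0
    rw [integral_add ((integrable_of hμ cd).const_mul 2) (integrable_const _), integral_const_mul,
      integral_const, probReal_univ, one_smul] at h1
    exact h1
  have med0 : ∀ c : ℝ, 0 < c → 2 * (ρ⁻¹ * I) ≤ c ^ 2 →
      μ.real {U | c ^ 2 < ∑ i, (z U i - x0 i) ^ 2} ≤ 1 / 2 := fun c c0 h =>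
    norm_med hμ hn (x := fun i U => z U i) (D := fun i a U => D a U i) hz c0 h
  have sM : s ≤ M' := by
    have h1 := ev_near hμ.mem (x := z) (fun i => (hz i).c) 0 le_rfl (M := M') fun U hU => by
      simpa only [Pi.zero_apply, sub_zero, dotProduct, sq] using hM' U hU
    have h2 := mul_le_of_le_one_right M0' (measureReal_le_one (μ := μ)
      (s := {U | 0 < ∑ i, (z U i - (0 : κ → ℝ) i) ^ 2}))
    have h3 : s = ∑ i, (EV μ z i - (0 : κ → ℝ) i) ^ 2 := by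
      simp only [Pi.zero_apply, sub_zero, hs, dotProduct, sq, hx0]
    rw [h3]
    exact h1.trans (by rw [zero_add]; exact h2)
  clear_value V I Z x0
  obtain ⟨τ, hτ⟩ : ∃ τ, τ = (T0 + M * γ) / ρ := ⟨_, rfl⟩
  obtain ⟨α, hα⟩ : ∃ α, α = H * A0 / ρ := ⟨_, rfl⟩
  have τ0 : 0 ≤ τ := by rw [hτ]; positivity
  have α0 : 0 < α := by rw [hα]; positivity
  have p4 : ρ⁻¹ * I ≤ τ + Z / 1000 := by
    have h1 : ρ⁻¹ * (T1 * Z) ≤ Z / 1000 := by
      rw [inv_mul_le_iff₀ hρ]; nlinarith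
    have h2 := mul_le_mul_of_nonneg_left p2 (inv_pos.2 hρ).le
    rw [mul_add, ← div_eq_inv_mul (T0 + M * γ)] at h2
    linarith
  obtain ⟨c, c0, hc⟩ : ∃ c : ℝ, 0 < c ∧ c ^ 2 = 4 * τ + s / 200 + α :=
    ⟨√_, Real.sqrt_pos.2 (by positivity), Real.sq_sqrt (by positivity)⟩
  have med := med0 c c0 (by linarith)
  obtain ⟨A, hAe⟩ : ∃ A, A = 2 * (A0 + A1 * (2 * s + 4 * c ^ 2)) := ⟨_, rfl⟩
  have hA1 : 0 ≤ A1 * (2 * s + 4 * c ^ 2) := by positivity
  have hA0 : A0 ≤ A := by linarith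
  have Apos : 0 < A := A00.trans_le hA0
  obtain ⟨y, y0, hy⟩ : ∃ y : ℝ, 0 < y ∧ y ^ 2 = 36 * H * A / ρ :=
    ⟨√_, Real.sqrt_pos.2 (by positivity), Real.sq_sqrt (by positivity)⟩
  have e1 : H * A1 / ρ ≤ 1 / 40000 := by rw [div_le_iff₀ hρ]; linarith
  have e0 : 0 ≤ H * A1 / ρ := by positivity
  have r1 : (c + 2 * y) ^ 2 ≤ 2 * c ^ 2 + 8 * y ^ 2 := by nlinarith [sq_nonneg (c - 2 * y)]
  have y1 : A1 * y ^ 2 ≤ A / 1000 := by
    have : A1 * y ^ 2 = 36 * (H * A1 / ρ) * A := by rw [hy]; ring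
    rw [this]
    nlinarith [mul_le_mul_of_nonneg_right e1 Apos.le]
  have y2 : y ^ 2 ≤ 72 * α + 72 / 40000 * (2 * s + 4 * c ^ 2) := by
    have : y ^ 2 = 72 * α + 72 * (H * A1 / ρ) * (2 * s + 4 * c ^ 2) := by rw [hy, hAe, hα]; ring
    have h2 : 0 ≤ 2 * s + 4 * c ^ 2 := by positivity
    linarith [mul_le_mul_of_nonneg_right e1 h2]
  have hd := vec_hd hμ hn hz x0 hGm Apos M0 c0.le y0
    (fun U hU h h' v => (hA U hU h v).trans (mul_le_mul_of_nonneg_right (by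
      have h1 := mul_le_mul_of_nonneg_left ((sq_split (z U) x0).trans
        (show _ ≤ 2 * s + 4 * c ^ 2 + 16 * y ^ 2 by linarith)) A10
      linarith) (dot_self_nonneg v)))
    (fun U hU v => (dir_tot _ v).trans (mul_le_mul_of_nonneg_right (hM U hU) (dot_self_nonneg v))) med
  have e2 : ρ * y ^ 2 / (36 * A) = H := by rw [hy]; field_simp
  have hd' : μ.real {U | (c + 2 * y) ^ 2 ≤ ∑ i, (z U i - x0 i) ^ 2} ≤ fl H M A0 γ := by
    refine hd.trans ?_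
    rw [e2, fl]
    gcongr
  have br := ev_near hν (x := z) (fun i => (hz i).c) x0 (sq_nonneg (c + 2 * y)) (M := 4 * M')
    fun U hU => by linarith [sq_sub_le (z U) x0, hM' U hU]
  have b1 : ν.real {U | (c + 2 * y) ^ 2 < ∑ i, (z U i - x0 i) ^ 2} ≤ K * fl H M A0 γ + η :=
    (tr _).trans (add_le_add (mul_le_mul_of_nonneg_left (le_trans (real_mono_SO hμ fun U _ hU => by
      simp only [Set.mem_ofPred_eq] at hU ⊢
      exact hU.le) hd') K0) le_rfl)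
  have b2 := mul_le_mul_of_nonneg_left b1 (show 0 ≤ 4 * M' by positivity)
  have b3 : 0 ≤ 4 * M' * (K * fl H M A0 γ + η) := le_trans (by positivity) b2
  have b4 := sq_split x0 (EV ν z)
  have b5 : ∑ i, (x0 i - EV ν z i) ^ 2 = ∑ i, (EV ν z i - x0 i) ^ 2 :=
    Finset.sum_congr rfl fun i _ => by ring
  have ζ0 : 0 ≤ ζ := (dot_self_nonneg _).trans hζ
  have e3 : rad k ζ T0 A0 M M' H K η γ =
      7 * (ζ + (12 * τ + 600 * α) + 4 * M' * (K * fl H M A0 γ + η)) := by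
    rw [rad, hτ, hα]; ring
  rw [e3]
  refine ⟨le_trans (measureReal_mono fun U hU => ?_) hd', by linarith⟩
  have h1 := sq_split (z U) x0
  simp only [Set.mem_ofPred_eq] at hU ⊢
  linarith

/-! ### the centre -/

variable {n : ℕ} {o : Orb n k} {μ : Measure (Mat k)} [IsProbabilityMeasure μ] {c : Cs}
  {R η K δ ω H m1 m2 : ℝ}

/-- the squared radius of the centre step: a bound for `|δ|² + ω |A δ|²` -/
def R2 (k : ℕ) (c : Cs) (ω H m1 m2 : ℝ) : ℝ :=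
  7 * (m1 + ω * m2 + (12 * (12 * c.s1' + 12 * (ω * c.s1) + 1) +
    600 * (H * (48 * (c.k1 * c.N) + 72 * (ω * (c.k2 * c.N)) + 1))) / ((k : ℝ) - 2) + 1)

/-- the smallness conditions of the centre step for the weight `ω` -/
structure Sm (k : ℕ) (c : Cs) (R ω H : ℝ) : Prop where
  ω0 : 0 < ω
  ωR : ω ≤ R
  H0 : 0 < H
  t1 : 6000 * (c.a1 + ω * c.b) ≤ (k : ℝ) - 2
  t2 : 6000 * (c.c2 + ω * c.a1) ≤ ω * ((k : ℝ) - 2)
  u1 : 80000 * (H * (12 * (c.k1 * c.k2) + 4 + ω * (18 * c.k2 ^ 2 + 6 * c.a ^ 2))) ≤ (k : ℝ) - 2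
  u2 : 80000 * (H * (12 * c.k1 ^ 2 + ω * (18 * (c.k1 * c.k2) + 6))) ≤ ω * ((k : ℝ) - 2)

theorem dot_elim (x y u v : Vn n) : Sum.elim x y ⬝ᵥ Sum.elim u v = x ⬝ᵥ u + y ⬝ᵥ v := by
  simp only [dotProduct, Fintype.sum_sum_type, Sum.elim_inl, Sum.elim_inr]

/-- **the centre**: inputs are the `Pt_o`-means of `gᵀ δ` and `A δ` only -/
theorem centre (h : O6.Ctx o μ c R η K δ) (s : Sm k c R ω H)
    (sm : O6.MM R * (K * O6.fl R η H + δ) ≤ 1)
    (h1 : (EV (o.P μ) fun U => (o.g U)ᵀ *ᵥ o.d U) ⬝ᵥ (EV (o.P μ) fun U => (o.g U)ᵀ *ᵥ o.d U) ≤ m1)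
    (h2 : (EV (o.P μ) fun U => o.A U *ᵥ o.d U) ⬝ᵥ (EV (o.P μ) fun U => o.A U *ᵥ o.d U) ≤ m2) :
    μ.real {U | R2 k c ω H m1 m2 < o.d U ⬝ᵥ o.d U + ω * (o.A U *ᵥ o.d U ⬝ᵥ o.A U *ᵥ o.d U)} ≤
        O6.fl R η H ∧
      ∫ U, o.d U ⬝ᵥ o.d U + ω * (o.A U *ᵥ o.d U ⬝ᵥ o.A U *ᵥ o.d U) ∂μ ≤ R2 k c ω H m1 m2 := by
  have := Orb.P_prob h.inv h.ok
  have hρ : (0 : ℝ) < (k : ℝ) - 2 := by
    have : (2 : ℝ) < k := by exact_mod_cast h.ok.two
    linarith
  have ω0 := s.ω0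
  have H0 := s.H0
  have R1 := h.R1
  have ωR := s.ωR
  obtain ⟨q, hq⟩ : ∃ q : ℝ, q * q = ω := ⟨√ω, Real.mul_self_sqrt ω0.le⟩
  have qd : ∀ v : Vn n, (q • v) ⬝ᵥ (q • v) = ω * (v ⬝ᵥ v) := fun v => by
    rw [smul_dotProduct, dotProduct_smul, smul_eq_mul, smul_eq_mul, ← mul_assoc, hq]
  let z : Mat k → Fin n ⊕ Fin n → ℝ := fun U => Sum.elim ((o.g U)ᵀ *ᵥ o.d U) (q • (o.A U *ᵥ o.d U))
  let D : Fin k × Fin k → Mat k → Fin n ⊕ Fin n → ℝ := fun a U =>
    Sum.elim ((o.g U)ᵀ *ᵥ dDel (o.w U) sv o.p (o.A U) (o.th a U))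
      (q • dAd (o.w U) sv o.p (o.A U) (o.th a U))
  have hz : RDV z D := fun i => by
    cases i with
    | inl i => exact rd_delx h.ok.iso h.ok.symm Orb.wt0 o.z i
    | inr i => exact (rd_Ad h.ok.iso h.ok.symm Orb.wt0 o.z i).const_mul q
  have ez : ∀ U ∈ SO k, z U ⬝ᵥ z U =
      o.d U ⬝ᵥ o.d U + ω * (o.A U *ᵥ o.d U ⬝ᵥ o.A U *ᵥ o.d U) := fun U hU => by
    rw [dot_elim, qd, Op2.orth (by rw [transpose_transpose]; exact emb_orth h.ok.iso hU)]
  have tot : ∀ c' : Cs, c'.Nn → ∀ U ∈ o.G c', ∑ i, ∑ a, D a U i ^ 2 ≤ c'.gDel' + ω * c'.gAd :=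
    fun c' hc U hU => by
      have b1 := Orb.gDelx' h.ok hc hU
      have b2 := mul_le_mul_of_nonneg_left
        (hU.2.gAd hc (Orb.wt U) (Orb.A_symm h.ok U) (Orb.fam h.ok hU.1)) ω0.le
      rw [Fintype.sum_sum_type]
      refine add_le_add b1 (le_of_eq_of_le ?_ b2)
      simp only [D, Sum.elim_inr, Pi.smul_apply, smul_eq_mul, mul_pow, sq q, hq, Finset.mul_sum]
  have up : ∀ U ∈ o.G c, U ∈ o.G (c.ctr (o.d U ⬝ᵥ o.d U) (o.A U *ᵥ o.d U ⬝ᵥ o.A U *ᵥ o.d U)) :=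
    fun U hU => ⟨hU.1, hU.2.ctr le_rfl le_rfl⟩
  have upn : ∀ U, (c.ctr (o.d U ⬝ᵥ o.d U) (o.A U *ᵥ o.d U ⬝ᵥ o.A U *ᵥ o.d U)).Nn :=
    fun U => h.nn.ctr (dot_self_nonneg _) (dot_self_nonneg _)
  have n1 := h.nn.k1
  have n2 := h.nn.k2
  have n3 := h.nn.N
  have n4 := h.nn.s1
  have n5 := h.nn.s1'
  have η0 : 0 ≤ η := measureReal_nonneg.trans h.G
  have R2' : R ≤ R ^ 2 := by nlinarith
  have R8 : R ^ 4 ≤ R ^ 8 := pow_le_pow_right₀ R1 (by norm_num)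
  have R4 : R ^ 2 ≤ R ^ 4 := pow_le_pow_right₀ R1 (by norm_num)
  have R3 : R ^ 3 ≤ R ^ 4 := pow_le_pow_right₀ R1 (by norm_num)
  have M0 : 0 ≤ O6.MM R := by unfold O6.MM; positivity
  have A1 : 1 ≤ 48 * (c.k1 * c.N) + 72 * (ω * (c.k2 * c.N)) + 1 := by
    have : 0 ≤ 48 * (c.k1 * c.N) + 72 * (ω * (c.k2 * c.N)) := by positivity
    linarith
  obtain ⟨r1, r2⟩ := sb (ν := o.P μ) (T0 := 12 * c.s1' + 12 * (ω * c.s1)) (T1 := ((k : ℝ) - 2) / 1000)
    (A0 := 48 * (c.k1 * c.N) + 72 * (ω * (c.k2 * c.N)) + 1) (A1 := ((k : ℝ) - 2) / (40000 * H))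
    (M := O6.MM R) (M' := O6.MM R / 4) (ζ := m1 + ω * m2) h.inv h.ok.two (Orb.P_mem h.inv) hz
    (Orb.measurableSet_G (o := o) (c := c)) (by positivity) (by positivity) (by positivity)
    (by positivity) M0 (by positivity) H0 (zero_le_one.trans h.K1)
    (fun U hU hG => (tot _ (upn U) U (up U hG)).trans (by
      rw [ez U hU]
      have b1 := mul_le_mul_of_nonneg_right s.t1 (dot_self_nonneg (o.d U))
      have b2 := mul_le_mul_of_nonneg_right s.t2 (dot_self_nonneg (o.A U *ᵥ o.d U))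
      simp only [Cs.gDel', Cs.gAd, Cs.ctr]
      linarith))
    (fun U hU hG v => by
      have b1 := Orb.gDelxU h.ok (upn U) (up U hG) fun i => v (Sum.inl i)
      have b2 := (up U hG).2.gAdU (upn U) (Orb.wt U) (Orb.A_symm h.ok U) (Orb.fam h.ok hU)
        fun i => v (Sum.inr i)
      have e : v = Sum.elim (fun i => v (Sum.inl i)) fun i => v (Sum.inr i) := by
        ext i; cases i <;> rfl
      rw [ez U hU, e]
      generalize (fun i => v (Sum.inl i)) = v1 at *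
      generalize (fun i => v (Sum.inr i)) = v2 at *
      have b3 : ∑ a, (q * (v2 ⬝ᵥ dAd (o.w U) sv o.p (o.A U) (o.th a U))) ^ 2 ≤ _ :=
        le_of_eq_of_le (by simp only [mul_pow, sq q, hq, Finset.mul_sum])
          (mul_le_mul_of_nonneg_left b2 ω0.le)
      have b4 := sum_sq2_le _ _ b1 b3
      simp only [D, dot_elim, dotProduct_smul, smul_eq_mul]
      refine b4.trans ?_
      simp only [Cs.gDelU, Cs.gAdU, Cs.lam, Cs.ctr]
      have Y0 := dot_self_nonneg (o.d U)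
      have X0 := dot_self_nonneg (o.A U *ᵥ o.d U)
      have a0 := dot_self_nonneg v1
      have b0 := dot_self_nonneg v2
      generalize o.d U ⬝ᵥ o.d U = Y at *
      generalize o.A U *ᵥ o.d U ⬝ᵥ o.A U *ᵥ o.d U = X at *
      generalize v1 ⬝ᵥ v1 = a at *
      generalize v2 ⬝ᵥ v2 = b at *
      have u1 : 2 * (12 * (c.k1 * c.k2) + 4 + ω * (18 * c.k2 ^ 2 + 6 * c.a ^ 2)) ≤
          ((k : ℝ) - 2) / (40000 * H) := by
        rw [le_div_iff₀ (by positivity)]; linarith [s.u1]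
      have u2 : 2 * (12 * c.k1 ^ 2 + ω * (18 * (c.k1 * c.k2) + 6)) ≤
          ω * (((k : ℝ) - 2) / (40000 * H)) := by
        rw [← mul_div_assoc, le_div_iff₀ (by positivity)]; linarith [s.u2]
      generalize ((k : ℝ) - 2) / (40000 * H) = L at *
      have g1 : 0 ≤ 2 * (3 * (4 * c.N + 2 * (c.k2 * Y) + 2 * (X * c.k1)) * c.k1 + 2 * Y) := by positivity
      have g2 : 0 ≤ ω * (3 * (3 * (4 * c.N + 2 * (c.k2 * Y) + 2 * (X * c.k1)) * c.k2 + 2 * X +
          2 * (Y * c.a ^ 2))) := by positivity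
      have g3 : 2 * (2 * (3 * (4 * c.N + 2 * (c.k2 * Y) + 2 * (X * c.k1)) * c.k1 + 2 * Y) +
          ω * (3 * (3 * (4 * c.N + 2 * (c.k2 * Y) + 2 * (X * c.k1)) * c.k2 + 2 * X +
          2 * (Y * c.a ^ 2)))) ≤ 48 * (c.k1 * c.N) + 72 * (ω * (c.k2 * c.N)) + 1 + L * (Y + ω * X) := by
        linarith [mul_le_mul_of_nonneg_right u1 Y0, mul_le_mul_of_nonneg_right u2 X0]
      linarith [mul_le_mul_of_nonneg_right g3 (add_nonneg a0 b0), mul_nonneg g1 b0, mul_nonneg g2 a0])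
    (fun U hU => (tot _ (crude_nn h.nn.a (by linarith)) U ⟨hU, h.cr U hU⟩).trans (by
      simp only [Cs.gDel', Cs.gAd, crude, O6.MM]
      have b1 := mul_le_mul_of_nonneg_right ωR (show 0 ≤ R ^ 3 by positivity)
      have b2 : 0 ≤ R ^ 8 := by positivity
      linarith))
    (fun U hU => by
      have b1 : o.d U ⬝ᵥ o.d U ≤ 4 * R := (h.cr U hU).d0
      have b2 : o.A U *ᵥ o.d U ⬝ᵥ o.A U *ᵥ o.d U ≤ 4 * R := (h.cr U hU).e0
      have b3 := mul_le_mul ωR b2 (dot_self_nonneg _) (by linarith)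
      have b4 : 0 ≤ R ^ 8 := by positivity
      rw [ez U hU, O6.MM]
      linarith)
    h.G h.tr
    (by
      have e : EV (o.P μ) z = Sum.elim (EV (o.P μ) fun U => (o.g U)ᵀ *ᵥ o.d U)
          (q • EV (o.P μ) fun U => o.A U *ᵥ o.d U) := by
        ext i
        cases i with
        | inl i => rfl
        | inr i => exact integral_const_mul q _
      rw [e, dot_elim, qd]
      exact add_le_add h1 (mul_le_mul_of_nonneg_left h2 ω0.le))
    (by linarith) (by field_simp; exact le_rfl)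
  have f1 : fl H (O6.MM R) (48 * (c.k1 * c.N) + 72 * (ω * (c.k2 * c.N)) + 1) η ≤ O6.fl R η H :=
    add_le_add le_rfl (mul_le_mul_of_nonneg_right (div_le_self M0 A1) η0)
  have f2 : rad k (m1 + ω * m2) (12 * c.s1' + 12 * (ω * c.s1))
      (48 * (c.k1 * c.N) + 72 * (ω * (c.k2 * c.N)) + 1) (O6.MM R) (O6.MM R / 4) H K δ η ≤
      R2 k c ω H m1 m2 := by
    have b1 : O6.MM R * η ≤ 1 := le_trans (mul_le_mul_of_nonneg_left (by
      nlinarith [h.K1, h.δ0]) M0) h.sm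
    have b2 := mul_le_mul_of_nonneg_left (add_le_add (mul_le_mul_of_nonneg_left f1
      (zero_le_one.trans h.K1)) (le_refl δ)) M0
    unfold rad R2
    gcongr
    linarith
  refine ⟨le_trans (real_mono_SO h.inv fun U hU hU' => ?_) (r1.trans f1), le_trans (le_of_eq ?_)
    (r2.trans f2)⟩
  · simp only [Set.mem_ofPred_eq] at hU' ⊢
    rw [ez U hU]; exact f2.trans_lt hU'
  · refine integral_congr_ae ?_
    filter_upwards [h.inv.mem] with U hU using (ez U hU).symm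


section Out

variable (h : O6.Ctx o μ c R η K δ) (sm : O6.MM R * (K * O6.fl R η H + δ) ≤ 1)
  (h1 : (EV (o.P μ) fun U => (o.g U)ᵀ *ᵥ o.d U) ⬝ᵥ (EV (o.P μ) fun U => (o.g U)ᵀ *ᵥ o.d U) ≤ m1)
  (h2 : (EV (o.P μ) fun U => o.A U *ᵥ o.d U) ⬝ᵥ (EV (o.P μ) fun U => o.A U *ᵥ o.d U) ≤ m2)
include h sm h1 h2


/-- one weight -/
theorem centre_G {D E : ℝ} (s : Sm k c R ω H) (hD : R2 k c ω H m1 m2 ≤ D)
    (hE : R2 k c ω H m1 m2 ≤ ω * E) : μ.real (o.G (c.ctr D E))ᶜ ≤ η + O6.fl R η H := by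
  have a1 := (centre h s sm h1 h2).1
  have b : μ.real (o.G (c.ctr D E))ᶜ ≤ μ.real ((o.G c)ᶜ ∪
      {U | R2 k c ω H m1 m2 < o.d U ⬝ᵥ o.d U + ω * (o.A U *ᵥ o.d U ⬝ᵥ o.A U *ᵥ o.d U)}) :=
    measureReal_mono fun U hU => by
      by_contra hc
      simp only [Set.mem_union, Set.mem_compl_iff, Set.mem_ofPred_eq, not_or, not_not, not_lt] at hc
      have Y0 := dot_self_nonneg (o.d U)
      have X0 := mul_nonneg s.ω0.le (dot_self_nonneg (o.A U *ᵥ o.d U))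
      exact hU ⟨hc.1.1, hc.1.2.ctr (by linarith [hc.2])
        (le_of_mul_le_mul_left (by linarith [hc.2]) s.ω0)⟩
  linarith [h.G, b.trans (measureReal_union_le _ _)]

end Out

end Crest.Agent.T157.O5
end
end

-- ▼ part T157/OgCt_56

set_option autoImplicit false
set_option linter.unusedSectionVars false

/-!
Row 157, A2 (helper56): section 5 with its numbers (`Og.CtrL`), from `O5.centre_G` with the weight
`ω = (B ^ 10 t kk)⁻¹`.
-/

noncomputable section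

namespace Crest.Agent.T157.Og

open MeasureTheory Matrix Crest.Agent.Lib.OrthPoinc Filter Topology Set
open Crest.Agent.T157.Oc Crest.Agent.T157.E Crest.Agent.T157.SL Crest.Agent.T157.Ks
open Crest.Agent.T157.Od Crest.Agent.T157.Oo Crest.Agent.T157.O6 Crest.Agent.T157.O0
open Crest.Agent.T157.Nm

namespace Ct56

/-- Jensen: (M1) bounds the mean of `gᵀ δ` -/
theorem mean_le {n k : ℕ} {o : Orb n k} {μ : Measure (Mat k)} [IsProbabilityMeasure μ]
    (hμ : SOInv μ) (h : o.Ok) {m : ℝ} (m0 : 0 ≤ m)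
    (hm : ∀ v, v ⬝ᵥ (EM (o.P μ) fun U => (o.g U)ᵀ * sm2 (o.w U) sv o.p * o.g U) *ᵥ v ≤ m * (v ⬝ᵥ v)) :
    (EV (o.P μ) fun U => (o.g U)ᵀ *ᵥ o.d U) ⬝ᵥ (EV (o.P μ) fun U => (o.g U)ᵀ *ᵥ o.d U) ≤ m := by
  have := Orb.P_prob hμ h
  have hν := Orb.P_mem (o := o) hμ
  have cx : Continuous fun U => (o.g U)ᵀ *ᵥ o.d U := Orb.c_g.matrix_transpose.matrix_mulVec Orb.c_d
  have cX : Continuous fun U => (o.g U)ᵀ * sm2 (o.w U) sv o.p * o.g U :=
    (Orb.c_g.matrix_transpose.mul (Orb.c_C.add (Orb.c_d.matrix_vecMulVec Orb.c_d))).mul Orb.c_g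
  obtain ⟨y, hy⟩ : ∃ y, y = EV (o.P μ) fun U => (o.g U)ᵀ *ᵥ o.d U := ⟨_, rfl⟩
  have i1 : ∀ i, Integrable (fun U => y i * ((o.g U)ᵀ *ᵥ o.d U) i) (o.P μ) := fun i =>
    (Oo.int_of hν ((continuous_apply i).comp cx).continuousOn).const_mul _
  have e1 : ∫ U, y ⬝ᵥ (o.g U)ᵀ *ᵥ o.d U ∂o.P μ = y ⬝ᵥ y := by
    simp only [dotProduct]
    rw [integral_finsetSum _ fun i _ => i1 i]
    simp only [integral_const_mul, hy, EV]
  have h1 := hm y
  rw [dot_EM hν fun i j => (cX.matrix_elem i j).continuousOn] at h1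
  have j1 : Integrable (fun U => y ⬝ᵥ (o.g U)ᵀ *ᵥ o.d U) (o.P μ) := integrable_finsetSum _ fun i _ => i1 i
  have h2 := integral_mono ((j1.const_mul (2 * (y ⬝ᵥ y))).sub (integrable_const ((y ⬝ᵥ y) ^ 2)))
    (Oo.int_of hν (continuous_const.dotProduct (cX.matrix_mulVec continuous_const)).continuousOn)
    (g := fun U => y ⬝ᵥ ((o.g U)ᵀ * sm2 (o.w U) sv o.p * o.g U) *ᵥ y) fun U => by
      have := (Orb.wt (o := o) U).covMat_quad_nonneg sv (o.g U *ᵥ y)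
      simp only [Pi.sub_apply, ← mulVec_mulVec, dot_tp, sm2, add_mulVec, dotProduct_add, vecMulVec_mulVec,
        dotProduct_smul, op_smul_eq_smul, smul_eq_mul]
      rw [dotProduct_comm (meanV _ _ - _)]
      nlinarith [sq_nonneg (y ⬝ᵥ y - o.g U *ᵥ y ⬝ᵥ o.d U)]
  simp only [Pi.sub_apply] at h2
  rw [integral_sub (j1.const_mul _) (integrable_const _), integral_const_mul, e1, integral_const,
    probReal_univ, one_smul] at h2
  rw [← hy]
  rcases (dot_self_nonneg y).eq_or_lt with h0 | h0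
  · linarith
  · nlinarith

/-- the weight -/
def om (p : Pm) (t : ℝ) : ℝ := (p.B ^ 10 * t * p.kk t)⁻¹

set_option maxHeartbeats 4000000 in
/-- the numbers -/
theorem nums {p : Pm} {t ε H : ℝ} (lh : LH p t ε H) (ht : t < p.t0 / 2) :
    om p t ≤ RR p ∧ 6000 * ((p.cq t).a1 + om p t * (p.cq t).b) ≤ ro p ∧
    6000 * ((p.cq t).c2 + om p t * (p.cq t).a1) ≤ om p t * ro p ∧
    80000 * (3 * H * (12 * ((p.cq t).k1 * (p.cq t).k2) + 4 + om p t * (18 * (p.cq t).k2 ^ 2 + 6 * 6 ^ 2))) ≤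
      ro p ∧
    80000 * (3 * H * (12 * (p.cq t).k1 ^ 2 + om p t * (18 * ((p.cq t).k1 * (p.cq t).k2) + 6))) ≤
      om p t * ro p ∧
    7 * (p.C / t + om p t * p.C + (12 * (12 * (p.cq t).s1' + 12 * (om p t * (p.cq t).s1) + 1) +
      600 * (3 * H * (48 * ((p.cq t).k1 * (p.cq t).N) + 72 * (om p t * ((p.cq t).k2 * (p.cq t).N)) + 1))) /
        ro p + 1) ≤ p.B0 ^ 4 / (p.B ^ 10 * t) := by
  obtain ⟨a, L, h, -⟩ := lh_tab lh
  obtain ⟨κ, α, μ, _, _, _, hr⟩ := h.regimes L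
  have := h.Bt_lo ht
  nm_lh L, h
  clear lh
  simp only [om, RR, Pm.cq, Pm.s1]
  refine ⟨?_, ?_, ?_, ?_, ?_, ?_⟩ <;>
    rcases hr with ⟨-, -, _, rfl, rfl, rfl⟩ | ⟨-, -, _, _, rfl, rfl, rfl⟩ | ⟨-, -, _, rfl, rfl, rfl⟩ <;> num

end Ct56

open Ct56

theorem ctrL : CtrL := by
  intro p t ε H η k o μ _ x h ht hμ f m1 m2 hG hη tr
  have o1 := h.ord
  have N0 := o1.N0
  have N1 := o1.N1
  have Nb := o1.Nb
  have H0 := h.H_pos
  have t0 := h.t0
  have k1 := h.kk1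
  have B1 := o1.B1
  have η0 : 0 ≤ η := measureReal_nonneg.trans hG
  obtain ⟨d, e, hc⟩ : ∃ d e, c0 p t = (p.cq t).ctr d e := by
    unfold c0 c1; split_ifs <;> exact ⟨_, _, rfl⟩
  set w := p.th t * H with hw
  set a := Real.exp (w / 8) with ha
  have ea : ∀ j : ℕ, Real.exp (j * (w / 8)) = a ^ j := fun j => Real.exp_nat_mul _ _
  have wH : 32 * w ≤ H := by nlinarith [h.th_le]
  have wd : (p.n : ℝ) ^ p.d ≤ w := h.thH
  have w0 : 0 < w := (o1.rp_pos _).trans_le wd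
  have aN : (p.n : ℝ) ^ 20 ≤ a := by
    rw [← Real.exp_log N0, ← Real.exp_nat_mul]
    refine Real.exp_le_exp.2 ?_
    have := h.lg_d (j := 2) (by norm_num)
    change ((20 : ℕ) : ℝ) * lg p ≤ _
    push_cast
    nlinarith [o1.lgb]
  have a0 : 0 < a := Real.exp_pos _
  have a1 : 1 ≤ a := Real.one_le_exp (by linarith)
  have x1 : ∀ y : ℝ, y ≤ -(w / 4) → Real.exp y * a ^ 2 ≤ 1 := fun y hy => by
    rw [← ea, ← Real.exp_add]; exact Real.exp_le_one_iff.2 (by push_cast; linarith)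
  have e1 : η * a ^ 2 ≤ 1 := (mul_le_mul_of_nonneg_right hη (by positivity)).trans (x1 _ le_rfl)
  have e2 := x1 (-(3 * H)) (by linarith)
  have M1 := o1.MM_le
  have M0 : 0 ≤ MM (RR p) := by unfold MM RR; positivity
  have n9 : 1 ≤ (p.n : ℝ) ^ 9 := one_le_pow₀ N1.le
  have E0 := Real.exp_pos (-(3 * H))
  have fl1 : fl (RR p) η (3 * H) ≤ (p.n : ℝ) ^ 9 * (Real.exp (-(3 * H)) + η) := by
    unfold fl; nlinarith [mul_le_mul_of_nonneg_right M1 η0]
  have s0 : ∀ y, 0 ≤ y → y ≤ (p.n : ℝ) ^ 9 * (Real.exp (-(3 * H)) + η) → MM (RR p) * (a * y + η) ≤ 1 := by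
    intro y y0 hy
    have b1 : η ≤ a * ((p.n : ℝ) ^ 9 * (Real.exp (-(3 * H)) + η)) :=
      le_trans (by nlinarith) (le_mul_of_one_le_left (by positivity) a1)
    have b2 : 4 * (p.n : ℝ) ^ 18 ≤ a := le_trans (by
      calc 4 * (p.n : ℝ) ^ 18 ≤ p.n * (p.n : ℝ) ^ 18 := by gcongr; linarith
        _ = (p.n : ℝ) ^ 19 := by ring
        _ ≤ _ := pow_le_pow_right₀ N1.le (by norm_num)) aN
    refine le_of_mul_le_mul_right (a := a) ?_ a0
    calc _ ≤ (p.n : ℝ) ^ 9 * (a * ((p.n : ℝ) ^ 9 * (Real.exp (-(3 * H)) + η)) +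
          a * ((p.n : ℝ) ^ 9 * (Real.exp (-(3 * H)) + η))) * a := by gcongr
      _ = 2 * (p.n : ℝ) ^ 18 * (Real.exp (-(3 * H)) * a ^ 2 + η * a ^ 2) := by ring
      _ ≤ 2 * (p.n : ℝ) ^ 18 * (1 + 1) := by gcongr
      _ ≤ _ := by linarith
  have X : Ctx o μ (c0 p t) (RR p) η a η := by
    refine ⟨f.pt.ok, hμ, h.c0_nn, ?_, ?_, ?_, fun U hU => ?_, f.p1, hG, a1, η0, tr,
      s0 η η0 (by nlinarith)⟩
    · unfold RR; linarith
    · unfold RR; linarith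
    · rw [hc]; show (6 : ℝ) ^ 2 ≤ RR p
      unfold RR; linarith
    · rw [hc]; exact (f.cr h hU).2
  obtain ⟨u1, u2, u3, u4, u5, u6⟩ := nums h ht
  rw [← f.ro] at u2 u3 u4 u5 u6
  have ω0 : 0 < om p t := by unfold om; positivity
  have C0 : 0 ≤ p.C := by linarith [o1.Cb]
  rw [hc] at X
  have := O5.centre_G (m2 := p.C) (D := p.B0 ^ 4 / t) (E := p.B0 ^ 4 * p.kk t) X
    (s0 _ (add_nonneg E0.le (mul_nonneg M0 η0)) fl1) (mean_le hμ f.pt.ok (by positivity) m1)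
    (by simpa only [M2, dotProduct, sq] using m2) ⟨ω0, u1, by positivity, u2, u3, u4, u5⟩
    (u6.trans (div_le_div_of_nonneg_left (by positivity) t0
      (le_mul_of_one_le_left t0.le (one_le_pow₀ B1))))
    (u6.trans_eq (by unfold om; field_simp))
  refine this.trans ?_
  have b3 : 2 * (p.n : ℝ) ^ 9 ≤ (p.n : ℝ) ^ 12 := by
    calc 2 * (p.n : ℝ) ^ 9 ≤ p.n * (p.n : ℝ) ^ 9 := by gcongr; linarith
      _ = (p.n : ℝ) ^ 10 := by ring
      _ ≤ _ := pow_le_pow_right₀ N1.le (by norm_num)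
  nlinarith [mul_le_mul_of_nonneg_right b3 (add_nonneg E0.le η0)]

end Crest.Agent.T157.Og

end
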