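import Crest.Agent.T157.O6mA_17

set_option autoImplicit false
set_option linter.unusedSectionVars false

/-!
Row 157, A2, section 6 (helper17): the statements of (m2), route without (UP) and (M6).
-/

noncomputable section

namespace Crest.Agent.T157.O6m

open MeasureTheory Matrix Crest.Agent.Lib.OrthPoinc
open Crest.Agent.T157.Oc Crest.Agent.T157.E Crest.Agent.T157.SL Crest.Agent.T157.Ks
open Crest.Agent.T157.Od Crest.Agent.T157.Oo Crest.Agent.T157.O6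

variable {n k : ℕ}

/-- matrix variance of `Δ^{-1/2} (C + l) Δ^{-1/2}` -/
def bT (n : ℕ) (c : Cs) (l : ℝ) : ℝ :=
  3 * (rC c / l ^ 2 + 4 * (c.k1 ^ 2 * c.k2 * (2 * n + c.d0 / l ^ 2) / l))

/-- **(w1)** the sup norm of `A δ`; input (M2) -/
def W1Stmt : Prop :=
  ∀ (n k : ℕ) (o : Orb n k) (μ : Measure (Mat k)) [IsProbabilityMeasure μ] (c : Cs)
    (R η K δ s m : ℝ) (r : ℕ), Ctx o μ c R η K δ → 0 < s → Even r →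
    MM R * (K * pim n k r (gA c) (MM R) η s + δ) ≤ 1 →
    (∀ i, |EV (o.P μ) (fun U => o.A U *ᵥ o.d U) i| ≤ m) →
    μ.real {U | ¬ ∀ i, |(o.A U *ᵥ o.d U) i| ≤ m + 2 * s + 1} ≤ pim n k r (gA c) (MM R) η s

/-- **(w2)** `C + l ≤ Γ Δ`; input (M4) -/
def W2Stmt : Prop :=
  ∀ (n k : ℕ) (o : Orb n k) (μ : Measure (Mat k)) [IsProbabilityMeasure μ] (c : Cs)
    (R η K δ l s e g : ℝ) (B0 : Mn n) (r : ℕ), Ctx o μ c R η K δ → 0 < l → l ≤ 1 → l⁻¹ ≤ R → 0 < s →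
    Even r → Op2 B0 9 → 0 ≤ e → Op2 (ErC o (o.P μ) B0) (e ^ 2) → 0 ≤ g →
    3 * (11 + c.k2 * c.k1 + 9 * c.k1 ^ 2) ≤ l * g ^ 2 →
    MM R * (K * pim n k r (bT n c l) (MM R) η s + δ) ≤ 1 →
    μ.real {U | ¬ ∀ v, v ⬝ᵥ Cl (o.w U) l *ᵥ v ≤ (g + e / l + 2 * s + 2) * qd (Dl o.p l) v} ≤
      pim n k r (bT n c l) (MM R) η s

/-- the hypotheses of (m2); `e` is the error of (M4) after `CovStmt`, `m` the bound (M2) -/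
structure MH (o : Orb n k) (μ : Measure (Mat k)) (c : Cs) (R η K δ : ℝ) (B0 : Mn n) (x : Vn n)
    (l b m γ g Γ e ε π s sa sb s1 : ℝ) (r : ℕ) : Prop where
  ctx : Ctx o μ c R η K δ
  W3 : Op2 o.W 9
  px : ∀ i, o.p i = Real.tanh (x i)
  hb : ∀ i, |o.h i - x i - o.z * o.p i| + |o.z| ≤ b
  lp : 0 < l
  l1 : l ≤ 1
  lR : l⁻¹ ≤ R
  Bs : B0ᵀ = B0
  B3 : Op2 B0 9
  ev : Even r
  s0 : 0 < s
  sa0 : 0 < sa
  sb0 : 0 < sb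
  s10 : 0 ≤ s1
  e0 : 0 ≤ e
  g0 : 0 ≤ g
  γ0 : 0 < γ
  γ1 : γ ≤ 1
  m2 : ∀ i, |EV (o.P μ) (fun U => o.A U *ᵥ o.d U) i| ≤ m
  m4 : Op2 (ErC o (o.P μ) B0) (e ^ 2)
  hγ : γ ≤ Real.exp (-(14 + c.k2 + 2 * (m + 2 * sa + 1) + 2 * b))
  hg : 3 * (11 + c.k2 * c.k1 + 9 * c.k1 ^ 2) ≤ l * g ^ 2
  hΓ : g + e / l + 2 * sb + 2 ≤ Γ
  hπ : η + pim n k r (gA c) (MM R) η sa + pim n k r (bT n c l) (MM R) η sb +
    pim n k r (bR n c.a (rC c) l γ) (MM R) (η + pim n k r (gA c) (MM R) η sa) s ≤ π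
  small : MM R * (K * π + δ) ≤ ε
  ε1 : ε ≤ 1
  mean : 12 / γ * (e ^ 2 / l ^ 2 + l * (37 + c.k2 + 2 * c.a ^ 2) + Γ * (2 * s + ε) ^ 2 + ε) ≤ s1 ^ 2



end Crest.Agent.T157.O6m
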