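import Crest.Agent.T157.O0Def_21
import Crest.Agent.T157.O6mDef_17
import Crest.Agent.T157.O5D_26

set_option autoImplicit false
set_option linter.unusedSectionVars false

/-!
Row 157, A2 (helper9): the orbit step.  Words, the exact inputs from sections 2 and 4 (`In1`, `In2`),
the numerical leaves (`N…`) and the probabilistic leaves (`…L`).
-/

noncomputable section

namespace Crest.Agent.T157.Og

open MeasureTheory Matrix Crest.Agent.Lib.OrthPoinc Filter Topology Set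
open Crest.Agent.T157.Oc Crest.Agent.T157.E Crest.Agent.T157.SL Crest.Agent.T157.Ks
open Crest.Agent.T157.Od Crest.Agent.T157.Oo Crest.Agent.T157.O6 Crest.Agent.T157.O0
open Crest.Agent.T157.O6m (bT)

/-! ### order of the constants, levels -/

/-- explicit relations between the constants; every numerical leaf follows from them -/
structure Ord (p : Pm) : Prop where
  ok : p.Ok
  C : 10 ^ 10 * p.L ^ 10 ≤ p.C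
  K : p.C ^ 10 ≤ p.K
  A : 100 ≤ p.A
  e1 : p.e1 * p.K ^ 10 ≤ 1
  B : p.K ^ 10 ≤ p.B
  t0 : p.t0 * p.B ^ 1000 ≤ 1
  B0 : 1 ≤ p.B0 * p.t0 ^ 10
  K0 : p.K0 ^ 10 ≤ p.B0
  ef : p.ef * p.B0 ^ 1000 ≤ 1
  B2 : 1 ≤ p.B2 * p.ef ^ 10
  n1 : p.B2 ^ 100 ≤ Real.log p.n
  n2 : Real.exp p.B2 ≤ Real.log p.n
  n3 : Real.log p.n ^ 100 ≤ (p.n : ℝ) ^ p.cv

/-- a level `H` at the precision `ε` (crude: `ε = 1`, sharp: `ε = e`) -/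
structure LH (p : Pm) (t ε H : ℝ) : Prop where
  ord : Ord p
  lo : p.lo ≤ t
  hi : t ≤ p.t0
  e0 : 0 < ε
  e1 : ε ≤ 1
  et : t ^ p.cv ≤ ε
  en : (p.n : ℝ) ^ (-p.cv) ≤ ε
  H0 : min (ε ^ p.A * p.M t) (p.ef * p.n / 2) ≤ H
  H1 : H ≤ p.L * ε ^ 4 * p.M t
  H2 : H ≤ 2 * p.ef * p.n

variable (p : Pm)

/-- the a priori list after the centre step -/
def c1 (t : ℝ) : Cs := (p.cq t).ctr (p.B0 ^ 4 / t) (p.B0 ^ 4 * p.kk t)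
/-- the a priori list before the centre step -/
def c0 (t : ℝ) : Cs :=
  if t < p.t2 then (p.cq t).ctr (4 * p.B * p.n * √t) (8 * p.B * p.M (max t p.ts))
  else if t < p.t0 / 2 then (p.cq t).ctr p.B2 (36 * p.B2) else c1 p t
/-- `k - 2` -/
def ro : ℝ := (p.n : ℝ) - 4
/-- crude constant -/
def RR : ℝ := 36 * (p.n : ℝ)
/-- `log n` -/
def lg : ℝ := Real.log p.n
/-- superpolynomially small -/
def ty : ℝ := Real.exp (-((p.n : ℝ) ^ p.d / 64))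
/-- polynomially small -/
def dl : ℝ := ((p.n : ℝ) ^ 20)⁻¹
/-- regularisation of (m2) -/
def ll : ℝ := (p.n : ℝ) ^ (-(1 / 10) : ℝ)
/-- error of (M4) -/
def e4 : ℝ := (p.n : ℝ) ^ (-(1 / 5) : ℝ)
/-- error of (m2) -/
def sm : ℝ := (p.n : ℝ) ^ (-(1 / 100) : ℝ)

/-- the numbers of (T2): loss `v`, level `H` -/
def T2N (ρ : ℝ) (c : Cs) (H v : ℝ) : Prop := c.a * (c.k1 + c.d0) ≤ ρ / 128 ∧
  1 + 2 * √((2 * H + 8 + 48 * (c.gZ / ρ)) * (c.gZ / ρ)) +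
    16 * (c.a * (c.k1 + c.d0) / ρ) * (2 * H + 8 + 48 * (c.gZ / ρ)) ≤ v

/-! ### inputs from sections 2 and 4 -/

variable {p} {k : ℕ}

/-- `1 / χ + 2 p pᵀ / n` -/
def Bz (o : Orb p.n k) (x : Vn p.n) : Mn p.n :=
  (Kp.chi x)⁻¹ • (1 : Mn p.n) + (2 / (p.n : ℝ)) • vecMulVec o.p o.p

/-- facts on `(x, W)`, constant along the orbit -/
structure Fx (t : ℝ) (o : Orb p.n k) (x : Vn p.n) : Prop where
  pt : Kp.At o x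
  z : o.z ≤ 2 + p.L ^ 2 * t / 100
  P : o.p ⬝ᵥ o.p ≤ p.L / 50 * p.n * √t
  Ψ : (o.z • o.p - o.h) ⬝ᵥ (o.z • o.p - o.h) ≤ p.C * p.M t
  W9 : Op2 o.W 9
  psd : ∀ v, 0 ≤ v ⬝ᵥ (o.z • (1 : Mn p.n) - o.W) *ᵥ v

/-- (M1) with the constant `m` -/
def M1 (o : Orb p.n k) (μ : Measure (Mat k)) (m : ℝ) : Prop :=
  ∀ v, v ⬝ᵥ (EM (o.P μ) fun U => (o.g U)ᵀ * sq2 o U * o.g U) *ᵥ v ≤ m * (v ⬝ᵥ v)
/-- (M2) -/
def M2 (o : Orb p.n k) (μ : Measure (Mat k)) (m : ℝ) : Prop :=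
  ∑ i, EV (o.P μ) (fun U => o.A U *ᵥ o.d U) i ^ 2 ≤ m
/-- an admissible truncation of `1 / D` -/
def Vt (o : Orb p.n k) (vt : Vn p.n) : Prop := ∀ i, 0 ≤ vt i ∧ vt i ≤ 3 ∧ vt i * (1 - o.p i ^ 2) ≤ 1

/-- **inputs of both statements**: `κ = C` (crude), `κ = 1 + e / 4` (sharp) -/
structure In1 (t κ H : ℝ) (o : Orb p.n k) (μ : Measure (Mat k)) (x : Vn p.n) : Prop where
  fx : Fx t o x
  m1 : t < p.tss → M1 o μ (κ / t)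
  m1' : t < p.t0 / 2 → M1 o μ (p.C / t)
  m2 : M2 o μ p.C
  m4 : p.tss ≤ t → (o.P μ).real (o.G (c1 p t))ᶜ ≤ dl p → Op2 (Er4 o (o.P μ) (Bz o x)) (e4 p ^ 2)
  pos : p.tss ≤ t → ∃ vt, Vt o vt ∧
    (o.P μ).real {U | ¬ O6.Pos (o.A U) (Bz o x) vt (t / κ)} ≤ Real.exp (-H)

/-- (M3), both forms -/
def M3 (t : ℝ) (o : Orb p.n k) (μ : Measure (Mat k)) : Prop :=
  (∀ v, v ⬝ᵥ (EM (o.P μ) fun U => o.A U * sq2 o U * o.A U - o.A U) *ᵥ v ≤ p.C * (v ⬝ᵥ v)) ∧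
    fr (EM (o.P μ) fun U => o.A U * sq2 o U * o.A U - o.A U) ≤ p.C * p.n * t

/-- the site data and the trace bound used for (g3), (g4) above `t**` -/
structure St (t : ℝ) (o : Orb p.n k) : Prop where
  T : ∃ T : Finset (Fin p.n), (T.card : ℝ) ≤ p.M t ∧ ∀ i ∉ T, o.p i ^ 2 ≤ t ^ (9 / 20 : ℝ)
  p4 : ∑ i, o.p i ^ 4 ≤ p.C * p.n * t
  tr : ∃ G : Mn p.n, (o.z • (1 : Mn p.n) - o.W) * G = 1 ∧ fr G ≤ p.C * p.n / √t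

/-- **inputs of the crude statement only** -/
structure In2 (t : ℝ) (o : Orb p.n k) (μ : Measure (Mat k)) : Prop where
  m3 : p.ts ≤ t → t < p.tss → M3 t o μ
  st : p.tss ≤ t → St t o

/-- sections 2 and 4, crude -/
def InC (β : Base) : Prop := ∀ᶠ p in FF, ∀ t ∈ Icc p.lo p.t0,
  ∀ (x : Vn p.n) (k : ℕ) (μ : Measure (Mat k)) [IsProbabilityMeasure μ] (o : Orb p.n k), SOInv μ →
    Kp.At o x → o.W ∈ p.Wt p.e1 t → Kp.anE o μ x (β.c p t) ≤ Real.exp (-(5 * p.Hc t)) →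
    In1 t p.C (p.Hc t) o μ x ∧ In2 t o μ
/-- sections 2 and 4, sharp -/
def InS (β : Base) : Prop := ∀ᶠ p in FF, ∀ t ∈ Icc p.lo p.t0, ∀ e, p.Er e t →
  ∀ (x : Vn p.n) (k : ℕ) (μ : Measure (Mat k)) [IsProbabilityMeasure μ] (o : Orb p.n k), SOInv μ →
    Kp.At o x → o.W ∈ p.Wt e t → Kp.anE o μ x (β.s p e t) ≤ Real.exp (-(5 * p.Hs e t)) →
    In1 t (1 + e / 4) (p.Hs e t) o μ x
/-- section 3, (T1), crude -/
def T1C (β : Base) : Prop := ∀ᶠ p in FF, ∀ t ∈ Icc p.lo p.t0,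
  ∀ (x : Vn p.n) (k : ℕ) (μ : Measure (Mat k)) [IsProbabilityMeasure μ] (o : Orb p.n k), SOInv μ →
    Kp.At o x → o.W ∈ p.Wt p.e1 t → Kp.anE o μ x (β.c p t) ≤ Real.exp (-(5 * p.Hc t)) →
    Kp.T1out o μ x (Real.exp (p.th t * p.Hc t / 2)) (Real.exp (-(4 * p.Hc t)))
/-- section 3, (T1), sharp -/
def T1S (β : Base) : Prop := ∀ᶠ p in FF, ∀ t ∈ Icc p.lo p.t0, ∀ e, p.Er e t →
  ∀ (x : Vn p.n) (k : ℕ) (μ : Measure (Mat k)) [IsProbabilityMeasure μ] (o : Orb p.n k), SOInv μ →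
    Kp.At o x → o.W ∈ p.Wt e t → Kp.anE o μ x (β.s p e t) ≤ Real.exp (-(5 * p.Hs e t)) →
    Kp.T1out o μ x (Real.exp (p.th t * p.Hs e t / 2)) (Real.exp (-(4 * p.Hs e t)))

/-! ### numerical leaves -/

/-- first (T2): loss `θ H / 8` at the level `3 H` -/
def NT1 : Prop := ∀ (p : Pm) (t ε H : ℝ), LH p t ε H →
  T2N (ro p) (c0 p t) (3 * H) (p.th t * H / 8)
/-- second (T2): loss `log n` at the level `21 log n` -/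
def NT2 : Prop := ∀ (p : Pm) (t ε H : ℝ), LH p t ε H → T2N (ro p) (c1 p t) (21 * lg p) (lg p)
/-- (W) for `C` (`x = ε / (8 t)`) and for `A C A` (`x = kk / 20`) -/
def NW : Prop := ∀ (p : Pm) (t ε H : ℝ), LH p t ε H →
  432 * (wC (c1 p t) + 1) * H ≤ ro p * (ε / (8 * t)) ^ 2 ∧
  (p.ts ≤ t → 432 * (wA (c1 p t) + 1) * H ≤ ro p * (p.kk t / 20) ^ 2)
/-- (m1): matrix variances; (F): radius -/
def NM : Prop := ∀ (p : Pm) (t ε H : ℝ), LH p t ε H → t < p.tss →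
  bC (c1 p t) * lg p ^ 3 ≤ ro p * (ε / (32 * t)) ^ 2 ∧
  (p.ts ≤ t → bPhi (c1 p t) * lg p ^ 3 ≤ ro p * (p.kk t / 40) ^ 2 ∧
    8 * ((4 * (tPhi (c1 p t) + 2) + 288 * (uPhi (c1 p t) + 1) * (3 * H)) / ro p) +
      4 * ((c1 p t).e0 + 1) ^ 2 + 1 ≤ p.n * t)
/-- Cramer-Rao constant of (m2) -/
def gam (p : Pm) : ℝ := Real.exp (-(2 * p.B0))
/-- the numbers of (m2); `sa = 1`, `g = sb = n ^ (11 / 200)`, `Γ = n ^ (3 / 50)`, `s = n ^ (-9 / 200)`,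
`s1 = n ^ (-1 / 80)`, `e = 2 e4`, `ε = 1 / n` -/
def NH : Prop := ∀ (p : Pm) (t ε H : ℝ), LH p t ε H → p.tss ≤ t →
  5 * ((4 * (gD (c1 p t) + 2) + 288 * (gD (c1 p t) + 1) * (21 * lg p)) / ro p +
    (4 * (gA (c1 p t) + 2) + 288 * (gA (c1 p t) + 1) * (21 * lg p)) / ro p + 2 / p.n) ≤ e4 p ∧
  gA (c1 p t) * lg p ^ 3 ≤ (p.n : ℝ) ^ (1 / 10 : ℝ) ∧
  bT p.n (c1 p t) (ll p) * lg p ^ 3 ≤ ro p * ((p.n : ℝ) ^ (11 / 200 : ℝ)) ^ 2 ∧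
  bR p.n 6 (rC (c1 p t)) (ll p) (gam p) * lg p ^ 3 ≤ ro p * ((p.n : ℝ) ^ (-(9 / 200) : ℝ)) ^ 2 ∧
  3 * (11 + (c1 p t).k2 * (c1 p t).k1 + 9 * (c1 p t).k1 ^ 2) ≤
    ll p * ((p.n : ℝ) ^ (11 / 200 : ℝ)) ^ 2 ∧
  (p.n : ℝ) ^ (11 / 200 : ℝ) + 2 * e4 p / ll p + 2 * (p.n : ℝ) ^ (11 / 200 : ℝ) + 2 ≤
    (p.n : ℝ) ^ (3 / 50 : ℝ) ∧
  12 / gam p * ((2 * e4 p) ^ 2 / ll p ^ 2 + ll p * (37 + (c1 p t).k2 + 2 * 6 ^ 2) +
    (p.n : ℝ) ^ (3 / 50 : ℝ) * (2 * (p.n : ℝ) ^ (-(9 / 200) : ℝ) + 1 / p.n) ^ 2 + 1 / p.n) ≤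
      ((p.n : ℝ) ^ (-(1 / 80) : ℝ)) ^ 2 ∧
  2 * (p.n : ℝ) ^ (-(9 / 200) : ℝ) + 1 / p.n + (p.n : ℝ) ^ (-(1 / 80) : ℝ) ≤ sm p ∧
  9 * ll p + 3 * sm p ≤ ε * t / (16 * p.C)
/-- the numbers of (g3), (g4) above `t**` -/
def NF : Prop := ∀ (p : Pm) (t H : ℝ), LH p t 1 H → p.tss ≤ t →
  Ba26.alB p.n (p.M t) (ll p) 2 (2 * p.C / t) 60 6 (100 * (p.C * p.n / √t)) (12 * p.C / t) (sm p ^ 2)
    (12 * t ^ (9 / 20 : ℝ)) ≤ p.n * t ^ (1 / 3 : ℝ) / 16 ∧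
  Ba26.bB p.n (p.M t) (ll p) 2 (2 * p.C / t) 60 6 (100 * (p.C * p.n / √t)) (12 * p.C / t) (sm p ^ 2)
    (12 * t ^ (9 / 20 : ℝ)) (100 * p.C * p.n * t) ≤ 2000 * p.C * p.n * t ∧
  36 * ((c1 p t).gX1U + (c1 p t).gPhiU + 1) * (3 * H) ≤ ro p * (p.n * t / 64)

/-! ### probabilistic leaves -/

/-- the context after the second (T2) -/
structure Cx (t ε H η : ℝ) (o : Orb p.n k) (μ : Measure (Mat k)) (x : Vn p.n) : Prop where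
  lh : LH p t ε H
  fx : Fx t o x
  ctx : Ctx o μ (c1 p t) (RR p) η p.n (dl p)
  ty : η ≤ ty p

/-- the a priori event gives the list `c0` -/
def ApL : Prop := ∀ (p : Pm) (t ε H : ℝ) (k : ℕ) (o : Orb p.n k) (x : Vn p.n) (U : Mat k),
  LH p t ε H → Fx t o x → U ∈ SO k → (o.Wu U, o.y U) ∈ p.AP t → U ∈ o.G (c0 p t)

/-- **section 5** with its numbers -/
def CtrL : Prop := ∀ (p : Pm) (t ε H η : ℝ) (k : ℕ) (o : Orb p.n k) (μ : Measure (Mat k))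
  [IsProbabilityMeasure μ] (x : Vn p.n), LH p t ε H → t < p.t0 / 2 → SOInv μ → Fx t o x →
  M1 o μ (p.C / t) → M2 o μ p.C → μ.real (o.G (c0 p t))ᶜ ≤ η → η ≤ Real.exp (-(p.th t * H / 4)) →
  (∀ T, (o.P μ).real T ≤ Real.exp (p.th t * H / 8) * μ.real T + η) →
  μ.real (o.G (c1 p t))ᶜ ≤ (p.n : ℝ) ^ 12 * (Real.exp (-(3 * H)) + η)

/-- (g1) below `t**` -/
def LoL : Prop := ∀ (p : Pm) (t ε H η κ : ℝ) (k : ℕ) (o : Orb p.n k) (μ : Measure (Mat k))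
  [IsProbabilityMeasure μ] (x : Vn p.n), Cx t ε H η o μ x → t < p.tss → 1 ≤ κ → M1 o μ (κ / t) →
  μ.real {U | ¬ CB (o.w U) sv (κ * (1 + ε / 2) / t)} ≤ fl (RR p) η (3 * H)

/-- (g2), (g4) on `[t*, t**)` -/
def MidL : Prop := ∀ (p : Pm) (t ε H η : ℝ) (k : ℕ) (o : Orb p.n k) (μ : Measure (Mat k))
  [IsProbabilityMeasure μ] (x : Vn p.n), Cx t ε H η o μ x → p.ts ≤ t → t < p.tss → M3 t o μ →
  μ.real {U | ¬ CB (o.w U) (fA (o.A U) sv) ((p.n : ℝ) ^ p.k2 / 4)} ≤ fl (RR p) η (3 * H) ∧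
  μ.real {U | 5 * p.C * p.n * t < fr (o.A U * o.C U * o.A U - o.A U)} ≤ fl (RR p) η (3 * H)

/-- the event of (m2) -/
structure Em (κ t : ℝ) (o : Orb p.n k) (x vt : Vn p.n) (U : Mat k) : Prop where
  pos : O6.Pos (o.A U) (Bz o x) vt (t / κ)
  op : OpLe (Rt (o.w U) (o.A U) o.p (ll p) - (1 - Sq o.p (ll p) * Bz o x * Sq o.p (ll p))) (sm p)

/-- (m2) above `t**` -/
def HiM : Prop := ∀ (p : Pm) (t ε H η κ : ℝ) (k : ℕ) (o : Orb p.n k) (μ : Measure (Mat k))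
  [IsProbabilityMeasure μ] (x vt : Vn p.n), Cx t ε H η o μ x → p.tss ≤ t → M2 o μ p.C →
  Op2 (Er4 o (o.P μ) (Bz o x)) (e4 p ^ 2) →
  μ.real {U | ¬ O6.Pos (o.A U) (Bz o x) vt (t / κ)} ≤ 1 / 4 → μ.real {U | ¬ Em κ t o x vt U} ≤ 1 / 2

/-- (g1), (g2) above `t**` -/
def HiW : Prop := ∀ (p : Pm) (t ε H η κ : ℝ) (k : ℕ) (o : Orb p.n k) (μ : Measure (Mat k))
  [IsProbabilityMeasure μ] (x vt : Vn p.n), Cx t ε H η o μ x → p.tss ≤ t → 1 ≤ κ → κ ≤ p.C →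
  Vt o vt → μ.real {U | ¬ Em κ t o x vt U} ≤ 1 / 2 →
  μ.real {U | ¬ CB (o.w U) sv (κ * (1 + ε / 2) / t)} ≤ fl (RR p) η (3 * H) ∧
  μ.real {U | ¬ CB (o.w U) (fA (o.A U) sv) 100} ≤ fl (RR p) η (3 * H)

/-- (g3), (g4) above `t**` -/
def HiF : Prop := ∀ (p : Pm) (t H η : ℝ) (k : ℕ) (o : Orb p.n k) (μ : Measure (Mat k))
  [IsProbabilityMeasure μ] (x vt : Vn p.n), Cx t 1 H η o μ x → p.tss ≤ t → Vt o vt → St t o →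
  μ.real {U | ¬ Em p.C t o x vt U} ≤ 1 / 2 →
  μ.real {U | p.n * t ^ (1 / 3 : ℝ) / 4 < fr (o.A U * o.C U - 1)} ≤ fl (RR p) η (3 * H) ∧
  μ.real {U | 5000 * p.C * p.n * t < fr (o.A U * o.C U * o.A U - o.A U)} ≤ fl (RR p) η (3 * H)

/-- from the new bounds to `Good` (deterministic) -/
def ConvL : Prop := ∀ (p : Pm) (t H : ℝ) (k : ℕ) (o : Orb p.n k) (x : Vn p.n) (U : Mat k),
  LH p t 1 H → Fx t o x → U ∈ o.G (c1 p t) → CB (o.w U) sv (2 * p.C / t) →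
  (p.ts ≤ t → t < p.tss → CB (o.w U) (fA (o.A U) sv) ((p.n : ℝ) ^ p.k2 / 4)) →
  (p.tss ≤ t → CB (o.w U) (fA (o.A U) sv) 100 ∧
    fr (o.A U * o.C U - 1) ≤ p.n * t ^ (1 / 3 : ℝ) / 4) →
  (p.ts ≤ t → fr (o.A U * o.C U * o.A U - o.A U) ≤ 5000 * p.C * p.n * t) →
  (o.Wu U, o.y U) ∈ p.Gc t

def HiWGlue : Prop := NW → NH → HiW
def HiFGlue : Prop := NH → NF → HiF

/-- the assembly -/
def OgGlue : Prop := NT1 → NT2 → ApL → CtrL → LoL → MidL → HiM → HiW → HiF → ConvL →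
  ∀ β : Base, (InC β → T1C β → OrbC β) ∧ (InS β → T1S β → OrbS β)

end Crest.Agent.T157.Og
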