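import Crest.Agent.T157.NumO_27
import Crest.Agent.T157.O6Def_61
import Crest.Agent.T157.OoA_9
import Crest.Agent.T157.O6mDef_17
import Crest.Agent.T157.GlueB_34
import Crest.Agent.T157.O5D_26
import Crest.Agent.T157.OgDef_9
import Crest.Agent.T157.O6mA_17

-- ▼ part T157/OgNT_27
section

set_option autoImplicit false

/-!
Row 157, A2 (helper27): the numbers of (T2).
-/

noncomputable section

namespace Crest.Agent.T157.Og

open Set Real
open Crest.Agent.T157.O0 Crest.Agent.T157.Nm Crest.Agent.T157.Oo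

set_option maxHeartbeats 4000000 in
theorem nT2 : NT2 := by
  intro p t ε H lh
  obtain ⟨a, L, h, -⟩ := lh_tab lh
  obtain ⟨κ, α, μ, _, _, _, hr⟩ := h.regimes L
  obtain ⟨β, _, _, _⟩ := h.Bt L
  nm_lh L, h
  simp only [T2N, c1, Cs.ctr, Cs.gZ, Pm.cq]
  rcases hr with ⟨-, -, _, rfl, rfl, rfl⟩ | ⟨-, -, _, _, rfl, rfl, rfl⟩ | ⟨-, -, _, rfl, rfl, rfl⟩ <;>
    constructor <;> num

set_option maxHeartbeats 4000000 in
theorem nT1 : NT1 := by
  intro p t ε H lh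
  obtain ⟨a, L, h, hη⟩ := lh_tab lh
  obtain ⟨κ, α, μ, _, _, hμ, hr⟩ := h.regimes L
  have := h.Mx hμ
  unfold c0
  split_ifs with h2 h0
  · have h1 := h.lt_t2 h2
    have := h.Bt_lo (not_le.1 fun h0 => by
      linarith [h.base h0, L.τ1, L.f, L.b0, L.s0, L.b, L.cK, L.cC, L.cL] : t < p.t0 / 2)
    obtain ⟨_, _⟩ := h.th_lo h2
    nm_lh L, h
    have : a.l - 3 / 2 * a.s - p.A * a.x - 1 ≤ a.η := by rcases hη with _ | _ <;> linarith
    simp only [T2N, Cs.ctr, Cs.gZ, Pm.cq]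
    rcases hr with ⟨-, -, _, rfl, rfl, rfl⟩ | ⟨-, -, _, _, rfl, rfl, rfl⟩ | ⟨-, -, _, rfl, rfl, rfl⟩ <;>
    constructor <;> num
  · have := h.Bt_lo h0
    have := h.t2_iff.1 (not_lt.1 h2)
    obtain ⟨_, _⟩ := h.th_hi (not_lt.1 h2)
    nm_lh L, h
    simp only [T2N, Cs.ctr, Cs.gZ, Pm.cq]
    rcases hη with _ | _ <;>
    rcases hr with ⟨-, -, _, rfl, rfl, rfl⟩ | ⟨-, -, _, _, rfl, rfl, rfl⟩ | ⟨-, -, _, rfl, rfl, rfl⟩ <;>
    constructor <;> num
  · have := h.Bt_hi (not_lt.1 h0)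
    have := h.t2_iff.1 (not_lt.1 h2)
    obtain ⟨_, _⟩ := h.th_hi (not_lt.1 h2)
    nm_lh L, h
    simp only [T2N, c1, Cs.ctr, Cs.gZ, Pm.cq]
    rcases hη with _ | _ <;>
    rcases hr with ⟨-, -, _, rfl, rfl, rfl⟩ | ⟨-, -, _, _, rfl, rfl, rfl⟩ | ⟨-, -, _, rfl, rfl, rfl⟩ <;>
    constructor <;> num

end Crest.Agent.T157.Og

end
end

-- ▼ part T157/O6o_27
section

set_option autoImplicit false
set_option linter.unusedSectionVars false

/-!
Row 157, A2, section 6 (helper27): `OpStmt`, `M1Glue`, `M1Stmt`.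
-/

noncomputable section

namespace Crest.Agent.T157.O6

open MeasureTheory Matrix Crest.Agent.Lib.OrthPoinc Filter Topology Set
open Crest.Agent.T157.Oc Crest.Agent.T157.E Crest.Agent.T157.SL Crest.Agent.T157.Ks
open Crest.Agent.T157.Od Crest.Agent.T157.Oo

namespace Op27

variable {n k : ℕ}

theorem opLe_sub {X Y : Mn n} {a b : ℝ} (hX : OpLe X a) (hY : OpLe Y b) : OpLe (X - Y) (a + b) :=
  fun u hu => by
    rw [sub_mulVec, dotProduct_sub]
    exact (abs_sub _ _).trans (add_le_add (hX u hu) (hY u hu))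

theorem opLe_EM {ν : Measure (Mat k)} [IsProbabilityMeasure ν] (hν : ∀ᵐ U ∂ν, U ∈ SO k)
    {X : Mat k → Mn n} (hX : ∀ i j, ContinuousOn (fun U => X U i j) (SO k)) {F : ℝ}
    (hF : ∀ U ∈ SO k, OpLe (X U) F) : OpLe (EM ν X) F := fun u hu => by
  rw [dot_EM hν hX]
  have := norm_integral_le_of_norm_le_const (μ := ν) (f := fun U => u ⬝ᵥ X U *ᵥ u) (C := F)
    (hν.mono fun U hU => hF U hU u hu)
  simpa using this

/-- homogeneous form of `OpLe` -/
theorem opLe_form {X : Mn n} {a : ℝ} (h : OpLe X a) (v : Vn n) : |v ⬝ᵥ X *ᵥ v| ≤ a * (v ⬝ᵥ v) := by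
  rcases (dot_self_nonneg v).eq_or_lt with h0 | h0
  · have : v = 0 := dotProduct_self_eq_zero.1 h0.symm
    simp [this]
  · have hs := Real.sqrt_pos.2 h0
    have e := Real.mul_self_sqrt h0.le
    have h1 := h ((√(v ⬝ᵥ v))⁻¹ • v) (by
      rw [smul_dotProduct, dotProduct_smul, smul_eq_mul, smul_eq_mul]
      field_simp
      rw [sq, e])
    rw [mulVec_smul, smul_dotProduct, dotProduct_smul, smul_eq_mul, smul_eq_mul, ← mul_assoc, ← mul_inv,
      e, abs_mul, abs_of_pos (inv_pos.2 h0), inv_mul_le_iff₀ h0] at h1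
    linarith

theorem opLe_of_op2 {X : Mn n} {a : ℝ} (ha : 0 ≤ a) (h : Op2 X (a ^ 2)) : OpLe X a := fun u hu => by
  have h1 := h u
  have h2 := Finset.sum_mul_sq_le_sq_mul_sq Finset.univ u (X *ᵥ u)
  simp only [sq] at h2
  change (u ⬝ᵥ X *ᵥ u) * (u ⬝ᵥ X *ᵥ u) ≤ (u ⬝ᵥ u) * (X *ᵥ u ⬝ᵥ X *ᵥ u) at h2
  rw [hu] at h1 h2
  exact abs_le_of_sq_le_sq (by nlinarith) ha

theorem quad_fA {w : Cube n → ℝ} {A : Mn n} (hA : Aᵀ = A) (v : Vn n) :
    v ⬝ᵥ covMat w (fA A sv) *ᵥ v = v ⬝ᵥ (A * covMat w sv * A) *ᵥ v := by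
  rw [covMat_quad, dot_fA hA, ← covMat_quad, ← mulVec_mulVec, ← mulVec_mulVec, symm_dot hA v]

theorem crude_gCx {a R : ℝ} (R1 : 1 ≤ R) : (crude a R).gCx ≤ MM R := by
  have h2 : 1 ≤ R ^ 2 := one_le_pow₀ R1
  have h4 : R ^ 4 ≤ R ^ 8 := pow_le_pow_right₀ R1 (by norm_num)
  have h3 : R ^ 2 ≤ R ^ 4 := pow_le_pow_right₀ R1 (by norm_num)
  simp only [Cs.gCx, crude, MM]
  nlinarith

theorem crude_gPhiO {a R : ℝ} (R1 : 1 ≤ R) (ha : a ^ 2 ≤ R) : (crude a R).gPhiO ≤ MM R := by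
  have h2 : 1 ≤ R ^ 2 := one_le_pow₀ R1
  have h4 : R ^ 4 ≤ R ^ 8 := pow_le_pow_right₀ R1 (by norm_num)
  have h3 : R ^ 2 ≤ R ^ 4 := pow_le_pow_right₀ R1 (by norm_num)
  have h5 : R ^ 3 ≤ R ^ 4 := pow_le_pow_right₀ R1 (by norm_num)
  have h6 : a ^ 2 * R ^ 2 ≤ R * R ^ 2 := by gcongr
  simp only [Cs.gPhiO, crude, MM]
  nlinarith

theorem le_MM {R : ℝ} (R1 : 1 ≤ R) : 4 * R ≤ MM R := by
  have h4 : R ^ 1 ≤ R ^ 8 := pow_le_pow_right₀ R1 (by norm_num)
  simp only [MM]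
  nlinarith

/-- comparison of the forms of two means -/
theorem form_EM_le {ν : Measure (Mat k)} [IsProbabilityMeasure ν] (hν : ∀ᵐ U ∂ν, U ∈ SO k)
    {X Y : Mat k → Mn n} (hX : ∀ i j, ContinuousOn (fun U => X U i j) (SO k))
    (hY : ∀ i j, ContinuousOn (fun U => Y U i j) (SO k)) (v : Vn n)
    (h : ∀ U ∈ SO k, v ⬝ᵥ X U *ᵥ v ≤ v ⬝ᵥ Y U *ᵥ v) : v ⬝ᵥ EM ν X *ᵥ v ≤ v ⬝ᵥ EM ν Y *ᵥ v := by
  have hc : ∀ {Z : Mat k → Mn n}, (∀ i j, ContinuousOn (fun U => Z U i j) (SO k)) →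
      ContinuousOn (fun U => v ⬝ᵥ Z U *ᵥ v) (SO k) := fun hZ => by
    simp only [dotProduct, mulVec]
    exact continuousOn_finsetSum _ fun i _ => continuousOn_const.mul
      (continuousOn_finsetSum _ fun j _ => (hZ i j).mul continuousOn_const)
  rw [dot_EM hν hX, dot_EM hν hY]
  exact integral_mono_ae (Oo.int_of hν (hc hX)) (Oo.int_of hν (hc hY)) (hν.mono h)

theorem form_sm2 (w : Cube n → ℝ) (p v : Vn n) : v ⬝ᵥ covMat w sv *ᵥ v ≤ v ⬝ᵥ sm2 w sv p *ᵥ v := by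
  rw [sm2, add_mulVec, dotProduct_add, vecMulVec_mulVec, dotProduct_smul, dotProduct_comm v (_ - p)]
  simp only [MulOpposite.smul_eq_mul_unop, MulOpposite.unop_op]
  nlinarith [mul_self_nonneg ((meanV w sv - p) ⬝ᵥ v)]

theorem c_sq2 (o : Orb n k) : Continuous (sq2 o) :=
  Orb.c_C.add (continuous_pi fun i => continuous_pi fun j =>
    ((continuous_apply i).comp Orb.c_d).mul ((continuous_apply j).comp Orb.c_d))

theorem cOn {X : Mat k → Mn n} (h : Continuous X) (i j : Fin n) :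
    ContinuousOn (fun U => X U i j) (SO k) := (h.matrix_elem i j).continuousOn

theorem pim_nn {n k r : ℕ} {B M η s : ℝ} (hk : 2 < k) (hB : 0 ≤ B) (hM : 0 ≤ M) (hη : 0 ≤ η)
    (hs : 0 < s) : 0 ≤ pim n k r B M η s := by
  have : (0 : ℝ) < (k : ℝ) - 2 := by
    have : (2 : ℝ) < k := by exact_mod_cast hk
    linarith
  unfold pim; positivity

end Op27

open Op27

theorem opStmt : OpStmt := by
  intro n k μ ν _ _ X D G B M F η K δ s r hμ hk hν hX sX hG K0 tr B0 M0 hs hr h1 h2 h3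
  obtain ⟨G', m', sub, e'⟩ := exists_good μ G
  have hρ0 : (0 : ℝ) < (k : ℝ) - 2 := by
    have : (2 : ℝ) < k := by exact_mod_cast hk
    linarith
  have a1 : μ.real {U | ¬ OpLe (X U - EM μ X) s} ≤ pim n k r B M η s := by
    refine (mm_op hμ hk hX sX m' B0 hs (fun U hU h => h1 U hU (sub h)) h2 hr).trans ?_
    rw [pim, Fintype.card_fin, e']
    gcongr
  have hc : ∀ i j, ContinuousOn (fun U => X U i j) (SO k) := fun i j => (hX i j).c
  have a2 := opLe_EM hμ.mem hc h3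
  have a3 := em_near_op hν hc (EM μ X) hs.le fun U hU => opLe_sub (h3 U hU) a2
  refine le_trans (real_mono_SO hμ fun U hU h => ?_) a1
  simp only [Set.mem_ofPred_eq] at h ⊢
  intro h'
  refine h fun u hu => ?_
  have F0 : 0 ≤ F := (abs_nonneg _).trans (h3 U hU u hu)
  have a4 := opLe_sub h' a3 u hu
  rw [sub_sub_sub_cancel_right] at a4
  have a5 := (tr {U | ¬ OpLe (X U - EM μ X) s}).trans
    (add_le_add (mul_le_mul_of_nonneg_left a1 K0) le_rfl)
  have a6 := mul_le_mul_of_nonneg_left a5 (add_nonneg F0 F0)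
  linarith

theorem m1Glue : M1Glue := by
  intro hOp n k o μ _ c R η K δ s m ε r h hs hr
  have := Orb.P_prob h.inv h.ok
  have hP := Orb.P_mem (o := o) h.inv
  have R0 : 0 ≤ R := zero_le_one.trans h.R1
  have hcr := crude_nn h.nn.a R0
  have hM := le_MM h.R1
  have K0 : 0 ≤ K := zero_le_one.trans h.K1
  have η0 : 0 ≤ η := measureReal_nonneg.trans h.G
  have nn := h.nn
  constructor
  · intro hε hm
    have e : c.gCx = bC c := by simp only [Cs.gCx, bC, rC]; ring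
    have B0 : 0 ≤ bC c := by
      have := nn.a1; have := nn.k1; have := nn.k2; have := nn.c2; have := nn.t4; have := nn.t3
      have := nn.d0; have := nn.e0; have := nn.t3'
      unfold bC rC; positivity
    have rd := rd_Cx (p := o.p) (σ := sv) h.ok.iso h.ok.symm (Orb.wt0 (o := o)) o.z
    have q : ∀ U (Z : Mn n) v, v ⬝ᵥ ((o.g U)ᵀ * Z * o.g U) *ᵥ v = o.g U *ᵥ v ⬝ᵥ Z *ᵥ (o.g U *ᵥ v) :=
      fun U Z v => by rw [← mulVec_mulVec, ← mulVec_mulVec, dot_tp]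
    have a1 := hOp n k μ (o.P μ) _ _ (o.G c) (bC c) (MM R) R η K δ s r h.inv h.ok.two hP rd
      (fun U _ => by simp only [transpose_mul, transpose_transpose, covMat_transpose, Matrix.mul_assoc])
      h.G K0 h.tr B0 (by linarith) hs hr
      (fun U _ hU v => e ▸ Orb.gCxx h.ok h.nn hU v)
      (fun U hU v => (Orb.gCxx h.ok hcr ⟨hU, h.cr U hU⟩ v).trans
        (mul_le_mul_of_nonneg_right (crude_gCx h.R1) (dot_self_nonneg v)))
      (fun U hU u hu => by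
        rw [q, abs_of_nonneg ((Orb.wt U).covMat_quad_nonneg _ _)]
        refine ((h.cr U hU).k1 _).trans ?_
        rw [Op2.orth (emb_orth' h.ok.iso hU), hu, mul_one]; rfl)
    refine le_trans (real_mono_SO h.inv fun U hU h0 => ?_) a1
    simp only [Set.mem_ofPred_eq] at h0 ⊢
    intro h'
    refine h0 fun v => ?_
    have g1 := emb_orth h.ok.iso hU
    have b1 := (le_abs_self _).trans (opLe_form h' ((o.g U)ᵀ *ᵥ v))
    have b2 := form_EM_le hP (fun i j => (rd i j).c)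
      (cOn ((Orb.c_g.matrix_transpose.mul (c_sq2 o)).mul Orb.c_g)) ((o.g U)ᵀ *ᵥ v)
      fun V _ => by
        change _ ⬝ᵥ ((o.g V)ᵀ * _ * o.g V) *ᵥ _ ≤ _ ⬝ᵥ ((o.g V)ᵀ * sq2 o V * o.g V) *ᵥ _
        rw [q, q]; exact form_sm2 _ _ _
    have b3 := hm ((o.g U)ᵀ *ᵥ v)
    have b4 : (o.g U)ᵀ *ᵥ v ⬝ᵥ (o.g U)ᵀ *ᵥ v = v ⬝ᵥ v := Op2.orth (by rwa [transpose_transpose]) v
    rw [sub_mulVec, dotProduct_sub, q, mulVec_mulVec, g1, one_mulVec, b4] at b1
    rw [b4] at b3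
    have p0 := pim_nn (n := n) (r := r) (M := MM R) h.ok.two B0 (by linarith) η0 hs
    have b5 : 2 * R * (K * pim n k r (bC c) (MM R) η s + δ) ≤ ε :=
      (mul_le_mul_of_nonneg_right (by linarith) (add_nonneg (mul_nonneg K0 p0) h.δ0)).trans hε
    have b6 := mul_le_mul_of_nonneg_right b5 (dot_self_nonneg v)
    have b7 := b2.trans b3
    linarith
  · intro hε hm
    have e : c.gPhiO = bPhi c := by simp only [Cs.gPhiO, bPhi, rA]; ring
    have B0 : 0 ≤ bPhi c := by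
      have := nn.a1; have := nn.k1; have := nn.k2; have := nn.b; have := nn.q4; have := nn.q3
      have := nn.d0; have := nn.e0; have := nn.q3'
      unfold bPhi rA; positivity
    have rd := rd_Phi (p := o.p) (σ := sv) h.ok.iso h.ok.symm (Orb.wt0 (o := o)) o.z
    have aR : c.a ≤ R := by nlinarith [h.Ra, h.R1, sq_nonneg (c.a - 1)]
    have a1 := hOp n k μ (o.P μ) _ _ (o.G c) (bPhi c) (MM R) (R + c.a) η K δ s r h.inv h.ok.two hP rd
      (fun U _ => by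
        simp only [transpose_sub, transpose_mul, covMat_transpose, Matrix.mul_assoc,
          AU_symm h.ok.symm])
      h.G K0 h.tr B0 (by linarith) hs hr
      (fun U _ hU v => e ▸ hU.2.gPhiO h.nn (Orb.wt U) (Orb.A_symm h.ok U) (Orb.fam h.ok hU.1) v)
      (fun U hU v => ((h.cr U hU).gPhiO hcr (Orb.wt U) (Orb.A_symm h.ok U) (Orb.fam h.ok hU) v).trans
        (mul_le_mul_of_nonneg_right (crude_gPhiO h.R1 h.Ra) (dot_self_nonneg v)))
      (fun U hU => opLe_sub (opLe_of_op2 R0 (by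
        rw [sq]; exact op2_ACA (Orb.wt U) (Orb.A_symm h.ok U) R0 (h.cr U hU).k2))
        (opLe_of_op2 nn.a.le (h.cr U hU).a))
    refine le_trans (real_mono_SO h.inv fun U hU h0 => ?_) a1
    simp only [Set.mem_ofPred_eq] at h0 ⊢
    intro h'
    refine h0 fun v => ?_
    have b1 := (le_abs_self _).trans (opLe_form h' v)
    have q : ∀ V (Z : Mn n), v ⬝ᵥ (o.A V * Z * o.A V - o.A V) *ᵥ v =
        o.A V *ᵥ v ⬝ᵥ Z *ᵥ (o.A V *ᵥ v) - v ⬝ᵥ o.A V *ᵥ v := fun V Z => by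
      rw [sub_mulVec, dotProduct_sub, ← mulVec_mulVec, ← mulVec_mulVec, symm_dot (Orb.A_symm h.ok V) v]
    have b2 := form_EM_le hP (fun i j => (rd i j).c)
      (cOn (((Orb.c_A.mul (c_sq2 o)).mul Orb.c_A).sub Orb.c_A)) v
      fun V _ => by
        change _ ⬝ᵥ (o.A V * _ * o.A V - o.A V) *ᵥ _ ≤ _ ⬝ᵥ (o.A V * sq2 o V * o.A V - o.A V) *ᵥ _
        rw [q, q]; exact sub_le_sub_right (form_sm2 _ _ _) _
    have b3 := hm v
    have b4 := (le_abs_self _).trans (opLe_form (opLe_of_op2 nn.a.le (h.cr U hU).a) v)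
    rw [sub_mulVec, dotProduct_sub, sub_mulVec, dotProduct_sub, ← quad_fA (Orb.A_symm h.ok U)] at b1
    have p0 := pim_nn (n := n) (r := r) (M := MM R) h.ok.two B0 (by linarith) η0 hs
    have b5 : 2 * (R + c.a) * (K * pim n k r (bPhi c) (MM R) η s + δ) ≤ 1 :=
      (mul_le_mul_of_nonneg_right (by linarith) (add_nonneg (mul_nonneg K0 p0) h.δ0)).trans hε
    have b6 := mul_le_mul_of_nonneg_right b5 (dot_self_nonneg v)
    have b7 := b2.trans b3
    linarith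

theorem m1Stmt : M1Stmt := m1Glue opStmt

end Crest.Agent.T157.O6
end
end

-- ▼ part T157/O6w_20
section

set_option autoImplicit false
set_option linter.unusedSectionVars false

/-! Row 157, A2, section 6 (W): from a Haar median to the level `H` (helper20). -/

noncomputable section

namespace Crest.Agent.T157.O6

open MeasureTheory Matrix Crest.Agent.Lib.OrthPoinc Filter Topology Set
open Crest.Agent.T157.Oc Crest.Agent.T157.E Crest.Agent.T157.SL Crest.Agent.T157.Ks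
open Crest.Agent.T157.Od Crest.Agent.T157.Oo

variable {n k : ℕ}

namespace W20

/-- for a positive matrix `OpLe` is the upper form bound -/
theorem opLe_iff {X : Mn n} (h0 : ∀ v, 0 ≤ v ⬝ᵥ X *ᵥ v) (c : ℝ) :
    OpLe X c ↔ ∀ v, v ⬝ᵥ X *ᵥ v ≤ c * (v ⬝ᵥ v) := by
  refine ⟨fun h v => ?_, fun h u hu => by
    rw [abs_of_nonneg (h0 u)]; simpa only [hu, mul_one] using h u⟩
  rcases (dot_self_nonneg v).eq_or_lt with hv | hv
  · rw [dotProduct_self_eq_zero.1 hv.symm]; simp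
  · have hs : √(v ⬝ᵥ v) * √(v ⬝ᵥ v) = v ⬝ᵥ v := Real.mul_self_sqrt hv.le
    have hp : 0 < √(v ⬝ᵥ v) := Real.sqrt_pos.2 hv
    have := (le_abs_self _).trans (h ((√(v ⬝ᵥ v))⁻¹ • v) (by
      rw [smul_dotProduct, dotProduct_smul, smul_eq_mul, smul_eq_mul, ← mul_assoc, ← mul_inv, hs,
        inv_mul_cancel₀ hv.ne']))
    rw [mulVec_smul, smul_dotProduct, dotProduct_smul, smul_eq_mul, smul_eq_mul, ← mul_assoc,
      ← mul_inv, hs, inv_mul_le_iff₀ hv] at this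
    linarith

theorem cb_iff {w : Cube n → ℝ} (hw : Wt w) (c : ℝ) : CB w sv c ↔ OpLe (covMat w sv) c :=
  (opLe_iff (Wt.covMat_quad_nonneg hw sv) c).symm

theorem quad_fA {w : Cube n → ℝ} {A : Mn n} (hA : Aᵀ = A) (v : Vn n) :
    v ⬝ᵥ (A * covMat w sv * A) *ᵥ v = v ⬝ᵥ covMat w (fA A sv) *ᵥ v := by
  rw [← mulVec_mulVec, ← mulVec_mulVec, symm_dot hA, covMat_quad, covMat_quad, dot_fA hA]

theorem cbA_iff {w : Cube n → ℝ} (hw : Wt w) {A : Mn n} (hA : Aᵀ = A) (c : ℝ) :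
    CB w (fA A sv) c ↔ OpLe (A * covMat w sv * A) c := by
  rw [opLe_iff fun v => by rw [quad_fA hA]; exact Wt.covMat_quad_nonneg hw _ v]
  simp only [quad_fA hA]; rfl

theorem core {μ : Measure (Mat k)} [IsProbabilityMeasure μ] (hμ : SOInv μ) (hk : 2 < k)
    {X : Mat k → Mn n} {D : Fin k × Fin k → Mat k → Mn n} (hX : RDM X D)
    (sX : ∀ U ∈ SO k, (X U)ᵀ = X U) {G : Set (Mat k)} (hGm : MeasurableSet G) {T M η m x κ H : ℝ}
    (hT : 0 ≤ T) (hM0 : 0 ≤ M) (hη : μ.real Gᶜ ≤ η) (hm : 0 < m) (hx : 0 < x) (hκ : 1 < κ)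
    (hG : ∀ U ∈ G, ∀ v : Vn n, v ⬝ᵥ v = 1 → ∑ a, (v ⬝ᵥ D a U *ᵥ v) ^ 2 ≤ T)
    (hM : ∀ U ∈ SO k, ∀ v : Vn n, v ⬝ᵥ v = 1 → ∑ a, (v ⬝ᵥ D a U *ᵥ v) ^ 2 ≤ M)
    (hH : 36 * κ ^ 2 * (T + 1) * H ≤ ((k : ℝ) - 2) * x ^ 2)
    (h : μ.real {U | ¬ OpLe (X U) m} ≤ 1 / 2) :
    μ.real {U | ¬ OpLe (X U) (κ * m + x)} ≤ Real.exp (-H) + M * η := by
  obtain ⟨N, hN⟩ := pow_unbounded_of_one_lt ((Fintype.card (Fin n) : ℝ) + 1) hκ
  have hr : (Fintype.card (Fin n) : ℝ) + 1 ≤ κ ^ (2 * N + 1 + 1) :=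
    hN.le.trans (pow_le_pow_right₀ hκ.le (by omega))
  refine (op_hd hμ hk hX sX (r := 2 * N + 1) ⟨N + 1, by ring⟩ (by linarith) hr hGm (A := T + 1)
    (by linarith) hM0 hm hx (fun U _ hU _ v hv => (hG U hU v hv).trans (by linarith)) hM h).trans
    (add_le_add (Real.exp_le_exp.2 (neg_le_neg ?_)) ?_)
  · rw [le_div_iff₀ (by positivity)]; linarith
  · exact mul_le_mul (div_le_self hM0 (by linarith)) hη measureReal_nonneg hM0

end W20

open W20 in
theorem wStmt : WStmt := by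
  intro n k o μ _ c R η K δ m x κ H h hm hx hκ
  have R1 := h.R1
  have hR0 : 0 ≤ R := by linarith
  have cn := crude_nn h.nn.a hR0
  have M0 : 0 ≤ MM R := by unfold MM; positivity
  have p2 : R ^ 2 ≤ R ^ 8 := pow_le_pow_right₀ R1 (by norm_num)
  have p3 : R ^ 3 ≤ R ^ 8 := pow_le_pow_right₀ R1 (by norm_num)
  have p4 : R ^ 4 ≤ R ^ 8 := pow_le_pow_right₀ R1 (by norm_num)
  constructor
  · intro hH hmed
    simp only [cb_iff (Orb.wt _)] at hmed ⊢
    refine core h.inv h.ok.two (rd_C h.ok.iso h.ok.symm Orb.wt0 o.z)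
      (fun U _ => covMat_transpose _ _) Orb.measurableSet_G (T := wC c)
      (mul_nonneg h.nn.lam h.nn.v4) M0 h.G hm hx hκ
      (fun U hU v hv => hU.2.gC h.nn (Orb.wt U) (Orb.A_symm h.ok U) (Orb.fam h.ok hU.1) v hv)
      (fun U hU v hv => ((h.cr U hU).gC cn (Orb.wt U) (Orb.A_symm h.ok U) (Orb.fam h.ok hU) v hv).trans
        ?_) hH hmed
    simp only [Cs.gC, Cs.lam, crude, MM]
    nlinarith [pow_nonneg hR0 8]
  · intro hH hmed
    simp only [cbA_iff (Orb.wt _) (Orb.A_symm h.ok _)] at hmed ⊢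
    have := h.nn.lam; have := h.nn.v4'; have := h.nn.k1; have := h.nn.k2
    refine core h.inv h.ok.two (rd_ACA h.ok.iso h.ok.symm Orb.wt0 o.z)
      (fun U _ => by
        rw [transpose_mul, transpose_mul, AU_symm h.ok.symm, covMat_transpose, Matrix.mul_assoc])
      Orb.measurableSet_G (T := wA c) (by unfold wA; positivity) M0 h.G hm hx hκ
      (fun U hU v hv => (hU.2.gACA h.nn (Orb.wt U) (Orb.A_symm h.ok U) (Orb.fam h.ok hU.1) v hv).trans_eq
        (by rw [Cs.gACA, wA, sq c.k2]))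
      (fun U hU v hv => ((h.cr U hU).gACA cn (Orb.wt U) (Orb.A_symm h.ok U) (Orb.fam h.ok hU) v hv).trans
        ?_) hH hmed
    simp only [Cs.gACA, Cs.lam, crude, MM]
    nlinarith [pow_nonneg hR0 8, mul_le_mul_of_nonneg_left h.Ra (mul_nonneg hR0 hR0)]

end Crest.Agent.T157.O6
end
end

-- ▼ part T157/O6mB_17
section

set_option autoImplicit false
set_option linter.unusedSectionVars false

/-!
Row 157, A2, section 6 (helper17): the mean of `Rt` (`MMeanStmt`).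
-/

noncomputable section

namespace Crest.Agent.T157.O6m

open MeasureTheory Matrix Crest.Agent.Lib.OrthPoinc
open Crest.Agent.T157.Oc Crest.Agent.T157.E Crest.Agent.T157.SL Crest.Agent.T157.Ks
open Crest.Agent.T157.Od Crest.Agent.T157.Oo Crest.Agent.T157.O6 Crest.Agent.T157.Ba26

variable {n k : ℕ} {w : Cube n → ℝ} {p : Vn n} {l γ : ℝ}

/-- the affine expression which is averaged -/
def Φ (T B0 : Mn n) (p : Vn n) (l : ℝ) (X1 X2 : Mn n) : Mn n :=
  T * Si p l * (X1 + l • (1 : Mn n)) - Si p l * (Dm p - Dm p * X2 - (1 - Dm p * B0) * X1) -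
    l • (Si p l * B0 * (X1 + l • (1 : Mn n)))

theorem dot_mul (P X : Mn n) (u y : Vn n) : u ⬝ᵥ (P * X) *ᵥ y = Pᵀ *ᵥ u ⬝ᵥ X *ᵥ y := by
  rw [← mulVec_mulVec, dotProduct_mulVec u P, ← mulVec_transpose]

theorem Φ_aff (T B0 : Mn n) (u y : Vn n) : ∃ (x1 x2 : Vn n) (α : ℝ), ∀ X1 X2 : Mn n,
    u ⬝ᵥ Φ T B0 p l X1 X2 *ᵥ y = x1 ⬝ᵥ X1 *ᵥ y + x2 ⬝ᵥ X2 *ᵥ y + α := by
  refine ⟨(T * Si p l + Si p l * (1 - Dm p * B0) - l • (Si p l * B0))ᵀ *ᵥ u, (Si p l * Dm p)ᵀ *ᵥ u,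
    u ⬝ᵥ (l • (T * Si p l) - Si p l * Dm p - l • l • (Si p l * B0)) *ᵥ y, fun X1 X2 => ?_⟩
  rw [← dot_mul, ← dot_mul, ← dotProduct_add, ← dotProduct_add, ← add_mulVec, ← add_mulVec, Φ]
  congr 2
  simp only [Matrix.mul_add, Matrix.add_mul, Matrix.mul_sub, Matrix.sub_mul, Matrix.mul_assoc,
    smul_mul_assoc, mul_smul_comm, Matrix.one_mul, Matrix.mul_one, smul_add]
  abel

theorem Φ_pt (hw : Wt w) (hp : ∀ i, |p i| ≤ 1) (hl : 0 < l) (A B0 Rb : Mn n) :
    Φ (Rb - (1 - Sq p l * B0 * Sq p l)) B0 p l (covMat w sv) (A * covMat w sv) =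
      -((Rt w A p l - Rb) * Si p l * Cl w l) - l • (Si p l * A * covMat w sv) - l • (Sq p l * A) +
        l • (Si p l * Dm p * B0) := by
  have e0 : ∀ X : Mn n, Sq p l * (Si p l * X) = X := fun X => by
    rw [← Matrix.mul_assoc, Sq_Si hp hl, Matrix.one_mul]
  have e1 : (Rt w A p l - (1 - Sq p l * B0 * Sq p l)) * Si p l * Cl w l =
      Sq p l - Sq p l * A * Cl w l - Si p l * Cl w l + Sq p l * B0 * Cl w l := by
    simp only [Rt, Matrix.mul_sub, Matrix.sub_mul, Matrix.mul_assoc, e0, J_Cl hw hl, Matrix.one_mul,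
      Matrix.mul_one]
    abel
  have e2 : Sq p l = Si p l * (Dm p + l • (1 : Mn n)) := by
    rw [← Sq_Sq hp hl, ← Matrix.mul_assoc, Si_Sq hp hl, Matrix.one_mul]
  have e3 : Rb - (1 - Sq p l * B0 * Sq p l) =
      -(Rt w A p l - Rb) + (Rt w A p l - (1 - Sq p l * B0 * Sq p l)) := by abel
  rw [Φ, e3, Matrix.add_mul, Matrix.add_mul]
  change _ + _ * Si p l * Cl w l - _ - _ = _
  rw [e1]
  generalize Rt w A p l - Rb = Y
  rw [e2, Cl]
  simp only [Matrix.mul_add, Matrix.add_mul, Matrix.mul_sub, Matrix.sub_mul, Matrix.mul_assoc,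
    smul_mul_assoc, mul_smul_comm, Matrix.one_mul, Matrix.mul_one, smul_add, Matrix.neg_mul]
  module

theorem am_l (hl : 0 < l) {t b X : ℝ} (ht : 0 < t) {x y : Vn n} (hx : x ⬝ᵥ x ≤ l * b)
    (hy : l * (y ⬝ᵥ y) ≤ X) : x ⬝ᵥ y ≤ b / (2 * t) + t / 2 * X := by
  have h1 := dot_le_amgm (mul_pos ht hl) x y
  have h2 : x ⬝ᵥ x / (2 * (t * l)) ≤ b / (2 * t) := by
    rw [div_le_div_iff₀ (by positivity) (by positivity)]; nlinarith
  nlinarith

theorem pt_le (hw : Wt w) (hp : ∀ i, |p i| ≤ 1) (hl : 0 < l) (h1 : l ≤ 1) {A B0 Rb : Mn n}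
    {a Γ k2 s t : ℝ} (hA : Aᵀ = A) (hB : B0ᵀ = B0) (hR : Rbᵀ = Rb) (ha : Op2 A (a ^ 2)) (hB9 : Op2 B0 9)
    (Γ0 : 0 ≤ Γ) (k0 : 0 ≤ k2) (ht : 0 < t) (hY : Op2 (Rt w A p l - Rb) s)
    (hΓ : ∀ v, v ⬝ᵥ Cl w l *ᵥ v ≤ Γ * qd (Dl p l) v) (hk : CB w (fA A sv) k2) {u : Vn n}
    (hu : u ⬝ᵥ u = 1) (y : Vn n) :
    u ⬝ᵥ Φ (Rb - (1 - Sq p l * B0 * Sq p l)) B0 p l (covMat w sv) (A * covMat w sv) *ᵥ y -
      2 * t * (y ⬝ᵥ Cl w l *ᵥ y) ≤ (Γ * s + l * k2 + 2 * (l * a ^ 2) + 9 * l) / (2 * t) := by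
  have Yt : (Rt w A p l - Rb)ᵀ = Rt w A p l - Rb := by rw [transpose_sub, Rt_t hA, hR]
  rw [Φ_pt hw hp hl]
  generalize Rt w A p l - Rb = Y at *
  have hX := Cl_ge (l := l) hw y
  have C0 := hw.covMat_quad_nonneg sv
  have b1 := psd_am Cl_t (fun v => (mul_nonneg hl.le (dnn v)).trans (Cl_ge hw v)) ht
    (-(Si p l *ᵥ (Y *ᵥ u))) y
  have b2 := psd_am (covMat_transpose w sv) C0 ht (-(l • A *ᵥ (Si p l *ᵥ u))) y
  have b3 := am_l hl ht (x := -(l • A *ᵥ (Sq p l *ᵥ u))) (b := 2 * (l * a ^ 2)) (by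
    have := mul_le_mul_of_nonneg_left ((ha _).trans (mul_le_mul_of_nonneg_left (op_Sq hp hl h1 u)
      (sq_nonneg a))) (mul_nonneg hl.le hl.le)
    simp only [neg_dotProduct, dotProduct_neg, neg_neg, smul_dotProduct, dotProduct_smul, smul_eq_mul]
    rw [hu] at this; linarith) hX
  have b4 := am_l hl ht (x := l • B0 *ᵥ ((Dm p * Si p l) *ᵥ u)) (b := 9 * l) (by
    have := mul_le_mul_of_nonneg_left ((hB9 _).trans (mul_le_mul_of_nonneg_left (op_DSi hp hl u)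
      (by norm_num))) (mul_nonneg hl.le hl.le)
    simp only [smul_dotProduct, dotProduct_smul, smul_eq_mul]
    rw [hu] at this; linarith) hX
  have c1 : Si p l *ᵥ (Y *ᵥ u) ⬝ᵥ Cl w l *ᵥ (Si p l *ᵥ (Y *ᵥ u)) ≤ Γ * s := by
    refine (hΓ _).trans (mul_le_mul_of_nonneg_left ?_ Γ0)
    rw [qd_Si hp hl]; simpa only [hu, mul_one] using hY u
  have c2 : l * (l * (A *ᵥ (Si p l *ᵥ u) ⬝ᵥ covMat w sv *ᵥ (A *ᵥ (Si p l *ᵥ u)))) ≤ l * k2 := by
    refine mul_le_mul_of_nonneg_left ?_ hl.le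
    rw [← covA w hA]
    have := mul_le_mul_of_nonneg_left ((hk _).trans (mul_le_mul_of_nonneg_left (op_Si hp hl u) k0)) hl.le
    refine this.trans (le_of_eq ?_)
    rw [hu]; field_simp
  have c3 : y ⬝ᵥ covMat w sv *ᵥ y ≤ y ⬝ᵥ Cl w l *ᵥ y := by
    rw [Cl_quad]; linarith [mul_nonneg hl.le (dnn y)]
  simp only [neg_dotProduct, dotProduct_neg, neg_neg, smul_dotProduct, dotProduct_smul, smul_eq_mul,
    mulVec_neg, mulVec_smul, mul_neg] at b1 b2 b3 b4
  simp only [add_mulVec, sub_mulVec, neg_mulVec, smul_mulVec, dotProduct_add, dotProduct_sub,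
    dotProduct_neg, dotProduct_smul, smul_eq_mul]
  have e1 : u ⬝ᵥ (Y * Si p l * Cl w l) *ᵥ y = Si p l *ᵥ (Y *ᵥ u) ⬝ᵥ Cl w l *ᵥ y := by
    rw [dot_mul, transpose_mul, Si_t, Yt, ← mulVec_mulVec]
  have e2 : u ⬝ᵥ (Si p l * A * covMat w sv) *ᵥ y = A *ᵥ (Si p l *ᵥ u) ⬝ᵥ covMat w sv *ᵥ y := by
    rw [dot_mul, transpose_mul, Si_t, hA, ← mulVec_mulVec]
  have e3 : u ⬝ᵥ (Sq p l * A) *ᵥ y = A *ᵥ (Sq p l *ᵥ u) ⬝ᵥ y := by
    rw [dot_mul, Sq_t, symm_dot hA]
  have e4 : u ⬝ᵥ (Si p l * Dm p * B0) *ᵥ y = B0 *ᵥ ((Dm p * Si p l) *ᵥ u) ⬝ᵥ y := by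
    rw [dot_mul, transpose_mul, Si_t, Dm_t, symm_dot hB]
  rw [e1, e2, e3, e4]
  have d1 := div_le_div_of_nonneg_right c1 (show 0 ≤ 2 * t by positivity)
  have d2 := div_le_div_of_nonneg_right c2 (show 0 ≤ 2 * t by positivity)
  have d3 := mul_le_mul_of_nonneg_left c3 (show 0 ≤ t / 2 by positivity)
  simp only [add_div]
  linarith

theorem EM_t {ν : Measure (Mat k)} (hν : ∀ᵐ U ∂ν, U ∈ SO k) {X : Mat k → Mn n}
    (h : ∀ U ∈ SO k, (X U)ᵀ = X U) : (EM ν X)ᵀ = EM ν X := by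
  ext i j
  exact integral_congr_ae (hν.mono fun U hU => congrFun (congrFun (h U hU) i) j)

theorem Rt_crude (hw : Wt w) (hp : ∀ i, |p i| ≤ 1) (hl : 0 < l) (h1 : l ≤ 1) {A : Mn n} {a R : ℝ}
    (a0 : 0 ≤ a) (ha : Op2 A (a ^ 2)) (aR : a ≤ R) (lR : l⁻¹ ≤ R) : OpLe (Rt w A p l) (4 * R) := by
  intro u hu
  obtain ⟨b1, b2⟩ := op_JS hp hl (Cl_J hw hl) (half_pos hl) (Cl_ge hw) (low_crude hp hl hw h1) u
  have b3 := abs_le.1 (abs_quad ha a0 (Sq p l *ᵥ u))
  have b4 := mul_le_mul_of_nonneg_left (op_Sq hp hl h1 u) a0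
  have b5 := mul_nonneg hl.le (dnn ((Cl w l)⁻¹ *ᵥ (Sq p l *ᵥ u)))
  have e : (l / 2)⁻¹ = 2 * l⁻¹ := by field_simp
  rw [hu, e] at b1
  rw [hu] at b4
  rw [Rt, dot_mul3, Sq_t, sub_mulVec, dotProduct_sub, abs_le]
  constructor <;> linarith

theorem Cl_crude (hp : ∀ i, |p i| ≤ 1) (hl : 0 < l) (h1 : l ≤ 1) {R : ℝ} (R1 : 1 ≤ R) (lR : l⁻¹ ≤ R)
    (hc : CB w sv R) (v : Vn n) : v ⬝ᵥ Cl w l *ᵥ v ≤ 2 * R ^ 2 * qd (Dl p l) v := by
  have b1 := op_Si hp hl (Sq p l *ᵥ v)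
  rw [mulVec_mulVec, Si_Sq hp hl, one_mulVec, Sq_dot hp hl] at b1
  have q0 : 0 ≤ qd (Dl p l) v := by rw [← Sq_dot hp hl]; exact dnn _
  have b2 := b1.trans (mul_le_mul_of_nonneg_right lR q0)
  rw [Cl_quad]
  nlinarith [hc v, mul_le_mul_of_nonneg_right (h1.trans R1) (dnn v),
    mul_le_mul_of_nonneg_left b2 (show 0 ≤ R by linarith)]

theorem mMeanStmt : MMeanStmt := by
  intro n k o ν _ G B0 a R l γ Γ k2 s e ε s1 ho hν a0 R1 aR hcr hp hl h1 lR γ0 γ1 Γ0 k0 s0 hB hB9 hε ε1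
    hG hE s10 hs
  set Rb := EM ν fun V => Rt (o.w V) (o.A V) o.p l with hRb
  set T := Rb - (1 - Sq o.p l * B0 * Sq o.p l) with hT
  have Rbt : Rbᵀ = Rb := EM_t hν fun U _ => Rt_t (Orb.A_symm ho U)
  have aR' : a ≤ R := by nlinarith
  have cR : ∀ U ∈ SO k, OpLe (Rt (o.w U) (o.A U) o.p l) (4 * R) := fun U hU =>
    Rt_crude (Orb.wt U) hp hl h1 a0.le (hcr U hU).a aR' lR
  have cRb : OpLe Rb (4 * R) := Op27.opLe_EM hν (fun i j => (mRdStmt n k o l ho hl i j).c) cR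
  have cC := Op27.cOn (Orb.c_C (o := o))
  have kAC : Continuous fun U => o.A U * o.C U := Orb.c_A.mul Orb.c_C
  have cAC := Op27.cOn kAC
  have cd : ∀ {X : Mat k → Mn n}, Continuous X → ∀ x y : Vn n, Continuous fun U => x ⬝ᵥ X U *ᵥ y :=
    fun h x y => continuous_const.dotProduct (h.matrix_mulVec continuous_const)
  have β0 : 0 ≤ ν.real Gᶜ := measureReal_nonneg
  have R8 : R ^ 4 ≤ R ^ 8 := pow_le_pow_right₀ R1 (by norm_num)
  have R4 : R ≤ R ^ 4 := le_self_pow₀ R1 (by norm_num)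
  have β1 : ν.real Gᶜ ≤ 1 / 2 := by unfold MM at hε; nlinarith
  set M := EM ν o.C + l • (1 : Mn n) with hM
  have Mq : ∀ v, v ⬝ᵥ M *ᵥ v = ∫ U, v ⬝ᵥ Cl (o.w U) l *ᵥ v ∂ν := fun v => by
    simp only [Cl_quad]
    rw [integral_add (Oo.int_of hν (cd Orb.c_C v v).continuousOn) (integrable_const _), ← dot_EM hν cC]
    simp [hM, add_mulVec, smul_mulVec]
  have cCl : ∀ v : Vn n, Continuous fun U => v ⬝ᵥ Cl (o.w U) l *ᵥ v := fun v =>
    cd (Orb.c_C.add continuous_const) v v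
  have M0 : ∀ v, l * (v ⬝ᵥ v) ≤ v ⬝ᵥ M *ᵥ v := fun v => by
    have := integral_mono (μ := ν) (integrable_const (l * (v ⬝ᵥ v))) (Oo.int_of hν (cCl v).continuousOn)
      fun U => Cl_ge (Orb.wt U) v
    rw [Mq]; simpa using this
  have M1 : ∀ v, γ / 2 * qd (Dl o.p l) v ≤ v ⬝ᵥ M *ᵥ v := fun v => by
    have q0 : 0 ≤ γ * qd (Dl o.p l) v := by rw [← Sq_dot hp hl]; exact mul_nonneg γ0.le (dnn _)
    have := int_le_bad hν (f := fun U => γ * qd (Dl o.p l) v - v ⬝ᵥ Cl (o.w U) l *ᵥ v)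
      (continuous_const.sub (cCl v)).continuousOn le_rfl Gᶜ (M := γ * qd (Dl o.p l) v)
      (fun U hU h => sub_nonpos.2 ((hG U hU (not_not.1 h)).2.1 v).1)
      (fun U _ => by linarith [Cl_ge (l := l) (Orb.wt (o := o) U) v, mul_nonneg hl.le (dnn v)])
    rw [integral_sub (integrable_const _) (Oo.int_of hν (cCl v).continuousOn), ← Mq] at this
    simp only [integral_const, probReal_univ, one_smul] at this
    nlinarith [mul_le_mul_of_nonneg_left β1 q0]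
  have Mt : Mᵀ = M := by
    rw [hM, transpose_add, EM_t hν fun U _ => covMat_transpose _ _, transpose_smul, transpose_one]
  have MJ : M * M⁻¹ = 1 := mul_nonsing_inv _ (isUnit_iff_ne_zero.2 (det_pos_of Mt hl M0).ne')
  have Q0 : 0 < e ^ 2 / l ^ 2 + l * (37 + k2 + 2 * a ^ 2) + Γ * s ^ 2 + ε := by
    have : 0 ≤ ε := le_trans (by unfold MM; positivity) hε
    positivity
  have s1p : 0 < s1 := s10.lt_of_ne fun h => by
    rw [← h] at hs
    have := mul_pos (div_pos (by norm_num : (0 : ℝ) < 12) γ0) Q0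
    linarith
  have key : ∀ u v : Vn n, u ⬝ᵥ u = 1 → v ⬝ᵥ v = 1 → u ⬝ᵥ T *ᵥ v ≤ s1 := fun u v hu hv => by
    obtain ⟨X1, X2⟩ := op_JS hp hl MJ (half_pos γ0) M0 M1 v
    set y := M⁻¹ *ᵥ (Sq o.p l *ᵥ v) with hy
    have My : M *ᵥ y = Sq o.p l *ᵥ v := by rw [hy, mulVec_mulVec, MJ, one_mulVec]
    have ht : 0 < γ * s1 / 12 := by positivity
    set t := γ * s1 / 12 with htd
    obtain ⟨x1, x2, α, hα⟩ := Φ_aff (p := o.p) (l := l) T B0 u y
    have hf := int_le_bad hν (f := fun U => u ⬝ᵥ Φ T B0 o.p l (o.C U) (o.A U * o.C U) *ᵥ y -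
        2 * t * (y ⬝ᵥ Cl (o.w U) l *ᵥ y)) (B := (Γ * s ^ 2 + l * k2 + 2 * (l * a ^ 2) + 9 * l) / (2 * t))
      (M := MM R / (2 * t)) (by
        simp only [hα]
        exact ((((cd Orb.c_C x1 y).add (cd kAC x2 y)).add continuous_const).sub
          (continuous_const.mul (cCl y))).continuousOn) (by positivity) Gᶜ
      (fun U hU h => by
        obtain ⟨g1, g2, g3⟩ := hG U hU (not_not.1 h)
        exact pt_le (Orb.wt U) hp hl h1 (Orb.A_symm ho U) hB Rbt (hcr U hU).a hB9 Γ0 k0 ht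
          (op_of_opLe (by rw [transpose_sub, Rt_t (Orb.A_symm ho U), Rbt]) g1 s0) (fun v => (g2 v).2)
          g3 hu y)
      (fun U hU => by
        refine (pt_le (Orb.wt U) hp hl h1 (Orb.A_symm ho U) hB Rbt (hcr U hU).a hB9 (by positivity)
          (show 0 ≤ R by linarith) ht
          (op_of_opLe (by rw [transpose_sub, Rt_t (Orb.A_symm ho U), Rbt])
            (Op27.opLe_sub (cR U hU) cRb) (by linarith)) (Cl_crude hp hl h1 R1 lR (hcr U hU).k1)
          (hcr U hU).k2 hu y).trans (div_le_div_of_nonneg_right ?_ (by positivity))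
        have q1 := mul_le_mul_of_nonneg_right h1 (show 0 ≤ R by linarith)
        have q2 := mul_le_mul_of_nonneg_right h1 (sq_nonneg a)
        have q3 : 2 * R ^ 2 * (4 * R + 4 * R) ^ 2 = 128 * R ^ 4 := by ring
        change 2 * R ^ 2 * (4 * R + 4 * R) ^ 2 + l * R + 2 * (l * a ^ 2) + 9 * l ≤ 10 ^ 7 * R ^ 8
        linarith)
    have i1 := Oo.int_of hν (cd (Orb.c_C (o := o)) x1 y).continuousOn
    have i2 := Oo.int_of hν (cd kAC x2 y).continuousOn
    simp only [hα] at hf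
    have i3 : Integrable (fun U => x1 ⬝ᵥ o.C U *ᵥ y + x2 ⬝ᵥ (o.A U * o.C U) *ᵥ y) ν := i1.add i2
    have i4 : Integrable (fun U => x1 ⬝ᵥ o.C U *ᵥ y + x2 ⬝ᵥ (o.A U * o.C U) *ᵥ y + α) ν :=
      i3.add (integrable_const _)
    rw [integral_sub i4 ((Oo.int_of hν (cCl y).continuousOn).const_mul _),
      integral_add i3 (integrable_const _), integral_add i1 i2, integral_const_mul, ← Mq, ← dot_EM hν cC, ← dot_EM hν cAC] at hf
    simp only [integral_const, probReal_univ, one_smul] at hf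
    rw [← hα, Φ, ← hM, My, dotProduct_comm y] at hf
    change u ⬝ᵥ (_ - Si o.p l * ErC o ν B0 - _) *ᵥ y - _ ≤ _ at hf
    have e1 : (T * Si o.p l * M) *ᵥ y = T *ᵥ v := by
      rw [← mulVec_mulVec, My, mulVec_mulVec, Matrix.mul_assoc, Si_Sq hp hl, Matrix.mul_one]
    have e2 : u ⬝ᵥ (Si o.p l * ErC o ν B0) *ᵥ y = (ErC o ν B0)ᵀ *ᵥ (Si o.p l *ᵥ u) ⬝ᵥ y := by
      rw [dot_mul, Si_t, dotProduct_mulVec, ← mulVec_transpose]
    have e3 : u ⬝ᵥ (Si o.p l * B0 * M) *ᵥ y = B0 *ᵥ (Si o.p l *ᵥ u) ⬝ᵥ Sq o.p l *ᵥ v := by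
      rw [dot_mul, My, transpose_mul, Si_t, hB, ← mulVec_mulVec]
    simp only [sub_mulVec, smul_mulVec, dotProduct_sub, dotProduct_smul, smul_eq_mul, e1, e2, e3] at hf
    have oSi := op_Si hp hl u
    rw [hu, mul_one] at oSi
    have b1 := am_l hl ht (x := (ErC o ν B0)ᵀ *ᵥ (Si o.p l *ᵥ u)) (b := e ^ 2 / l ^ 2)
      (((op_tp hE (sq_nonneg e) _).trans (mul_le_mul_of_nonneg_left oSi (sq_nonneg e))).trans
        (le_of_eq (by field_simp))) X2
    have b2 := am_l (l := γ⁻¹) (inv_pos.2 γ0) (x := Sq o.p l *ᵥ v) (y := l • B0 *ᵥ (Si o.p l *ᵥ u))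
      (b := 2 * γ) (X := 9 * l / γ) (show 0 < γ / t * γ by positivity) (by
        have := op_Sq hp hl h1 v
        rw [hv] at this
        exact this.trans (le_of_eq (by field_simp))) (by
        have := mul_le_mul_of_nonneg_left ((hB9 _).trans (mul_le_mul_of_nonneg_left oSi (by norm_num)))
          (mul_nonneg hl.le hl.le)
        simp only [smul_dotProduct, dotProduct_smul, smul_eq_mul, ← mul_assoc]
        rw [mul_assoc, mul_assoc, ← mul_assoc l, inv_mul_eq_div]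
        exact div_le_div_of_nonneg_right (this.trans (le_of_eq (by field_simp))) γ0.le)
    rw [dotProduct_smul, smul_eq_mul, dotProduct_comm] at b2
    have e4 : 2 * γ / (2 * (γ / t * γ)) = s1 / 12 := by rw [htd]; field_simp
    have e5 : γ / t * γ / 2 * (9 * l / γ) ≤ 9 * l / (2 * t) := by
      rw [show γ / t * γ / 2 * (9 * l / γ) = γ * (9 * l / (2 * t)) by field_simp]
      exact mul_le_of_le_one_left (by positivity) γ1
    have e6 : t * (Sq o.p l *ᵥ v ⬝ᵥ y) ≤ s1 / 6 := by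
      refine (mul_le_mul_of_nonneg_left X1 ht.le).trans (le_of_eq ?_)
      rw [hv, htd]; field_simp; norm_num
    have e7 : (e ^ 2 / l ^ 2 + l * (37 + k2 + 2 * a ^ 2) + Γ * s ^ 2 + ε) / (2 * t) ≤ s1 / 2 := by
      rw [div_le_iff₀ (by positivity), htd]
      rw [div_mul_eq_mul_div, div_le_iff₀ γ0] at hs
      nlinarith
    have e8 : MM R / (2 * t) * ν.real Gᶜ ≤ ε / (2 * t) := by
      rw [div_mul_eq_mul_div]; exact div_le_div_of_nonneg_right hε (by positivity)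
    have e9 : 0 ≤ l / (2 * t) := by positivity
    have e10 : (e ^ 2 / l ^ 2 + l * (37 + k2 + 2 * a ^ 2) + Γ * s ^ 2 + ε) / (2 * t) =
        e ^ 2 / l ^ 2 / (2 * t) + (Γ * s ^ 2 + l * k2 + 2 * (l * a ^ 2) + 9 * l) / (2 * t) +
          9 * l / (2 * t) + ε / (2 * t) + 19 * (l / (2 * t)) := by ring
    linarith
  intro u hu
  have h2 := key (-u) u (by simpa using hu) hu
  rw [neg_dotProduct] at h2
  exact abs_le.2 ⟨by linarith, key u u hu hu⟩

end Crest.Agent.T157.O6m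
end
end

-- ▼ part T157/O6c_56
section

/-!
Row 157, A2, section 6 (helper56): the weighted lower bound of the covariance of an Ising weight
(Hubbard-Stratonovich: a mixture of product measures).
-/

set_option autoImplicit false

noncomputable section

namespace Crest.Agent.T157.O6c

open MeasureTheory Set Real Matrix
open Crest.ProbabilityR.SpinGlassDynamics
open Crest.Agent.T157.E Crest.Agent.T157.SL Crest.Agent.T157.Ks Crest.Agent.T157.Od
open Crest.Agent.T157.Oo Crest.Agent.Lib.OrthPoinc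
open Crest.Agent.T157.Eig (opn)

variable {n : ℕ}

theorem sech_nonneg (x : ℝ) : 0 ≤ 1 - tanh x ^ 2 := sub_nonneg.2 (tanh_sq_lt_one x).le

theorem sech_ge (a b : ℝ) : exp (-(2 * |b - a|)) * (1 - tanh b ^ 2) ≤ 1 - tanh a ^ 2 := by
  have e : ∀ x : ℝ, 1 - tanh x ^ 2 = 1 / cosh x ^ 2 := fun x => by
    have := (cosh_pos x).ne'
    rw [tanh_eq_sinh_div_cosh]; field_simp; exact cosh_sq_sub_sinh_sq x
  have h : cosh a ≤ exp |b - a| * cosh b := by
    rw [cosh_eq, cosh_eq, ← mul_div_assoc, mul_add, ← exp_add, ← exp_add]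
    have h1 := le_abs_self (b - a)
    have h2 := neg_abs_le (b - a)
    gcongr <;> linarith
  rw [exp_neg, inv_mul_le_iff₀ (exp_pos _), e, e, mul_one_div,
    div_le_div_iff₀ (pow_pos (cosh_pos b) 2) (pow_pos (cosh_pos a) 2), one_mul,
    two_mul, exp_add, ← sq, ← mul_pow]
  exact pow_le_pow_left₀ (cosh_pos a).le h 2

/-- tangent line form -/
theorem sech_lin (a b c u : ℝ) (h : |b - a| ≤ u) :
    exp (-(2 * c)) * (1 - tanh b ^ 2) * (1 + 2 * c - 2 * u) ≤ 1 - tanh a ^ 2 := by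
  refine le_trans ?_ (sech_ge a b)
  rw [mul_right_comm]
  refine mul_le_mul_of_nonneg_right ?_ (sech_nonneg b)
  rw [show -(2 * |b - a|) = -(2 * c) + (2 * c - 2 * |b - a|) by ring, exp_add]
  exact mul_le_mul_of_nonneg_left (by linarith [add_one_le_exp (2 * c - 2 * |b - a|)])
    (exp_pos _).le

/-- flip of one spin -/
def fl (i : Fin n) (s : Cube n) : Cube n := Function.update s i (!s i)

theorem fl_fl (i : Fin n) (s : Cube n) : fl i (fl i s) = s := by simp [fl]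

theorem sv_fl (i j : Fin n) (s : Cube n) : sv (fl i s) j = if j = i then -sv s j else sv s j := by
  by_cases h : j = i
  · subst h; simp [sv, fl, spin_not]
  · simp [sv, fl, h]

/-- the centred spin is orthogonal to the functions of the other spins -/
theorem prod_orth (y : Vn n) (i : Fin n) {F : Cube n → ℝ} (hF : ∀ s, F (fl i s) = F s) :
    mean (ising 0 y) (fun s => F s * (sv s i - tanh (y i))) = 0 := by
  rw [mean_eq_div, div_eq_zero_iff]
  left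
  have h := Equiv.sum_comp (Function.Involutive.toPerm (fl i) (fl_fl i))
    fun s => ising 0 y s * (F s * (sv s i - tanh (y i)))
  have e : ∀ s, ising 0 y (fl i s) * (F (fl i s) * (sv (fl i s) i - tanh (y i))) =
      -(ising 0 y s * (F s * (sv s i - tanh (y i)))) := fun s => by
    have e1 : y ⬝ᵥ sv (fl i s) = y ⬝ᵥ sv s - 2 * (y i * sv s i) := by
      have : ∀ j, y j * sv (fl i s) j = y j * sv s j - if j = i then 2 * (y j * sv s j) else 0 :=
        fun j => by rw [sv_fl]; split_ifs <;> ring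
      simp [dotProduct, this]
    have e2 : exp (-(2 * (y i * sv s i))) * (-sv s i - tanh (y i)) = -(sv s i - tanh (y i)) := by
      have c := (cosh_pos (y i)).ne'
      have p := (exp_pos (y i)).ne'
      rw [tanh_eq_sinh_div_cosh, sv]
      cases s i <;> simp only [spin, if_true, Bool.false_eq_true, if_false, mul_one, mul_neg,
        neg_neg, two_mul, Real.exp_neg, exp_add] <;> field_simp <;>
        rw [sinh_eq, cosh_eq, Real.exp_neg] <;>
        field_simp <;> ring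
    rw [hF, sv_fl, if_pos rfl]
    simp only [ising, zero_mulVec, dotProduct_zero, mul_zero, zero_add, e1, sub_eq_add_neg (y ⬝ᵥ _),
      exp_add]
    linear_combination exp (y ⬝ᵥ sv s) * F s * e2
  have h2 := (Finset.sum_congr rfl fun s (_ : s ∈ Finset.univ) => e s).symm.trans h
  rw [Finset.sum_neg_distrib] at h2
  linarith

theorem var_prod (y v : Vn n) :
    var (ising 0 y) (fun s => v ⬝ᵥ sv s) = ∑ i, v i ^ 2 * (1 - tanh (y i) ^ 2) := by
  have hw := Glue.wt_ising (0 : Mn n) y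
  have e0 : ∀ i, mean (ising 0 y) (fun s => sv s i) = tanh (y i) := fun i => by
    have := prod_orth y i (F := fun _ => 1) fun _ => rfl
    simp only [one_mul, mean_sub, hw.mean_const] at this
    linarith
  have e1 : ∀ i j, cov (ising 0 y) (fun s => sv s j) (fun s => sv s i) =
      if j = i then 1 - tanh (y i) ^ 2 else 0 := fun i j => by
    rw [hw.cov_eq', e0]
    split_ifs with h
    · subst h
      simp only [mul_sub, sv, spin_mul_self, mean_sub, hw.mean_const, mean_mul_const]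
      rw [show mean (ising 0 y) (fun s => spin (s j)) = _ from e0 j, sq]
    · exact prod_orth y i fun s => by rw [sv_fl, if_neg h]
  rw [var_eq_cov]
  nth_rewrite 2 [show (fun s : Cube n => v ⬝ᵥ sv s) = fun s => ∑ i, v i * sv s i from rfl]
  rw [cov_sum]
  refine Finset.sum_congr rfl fun i _ => ?_
  rw [cov_const_mul, cov_comm, show (fun s : Cube n => v ⬝ᵥ sv s) = fun s => ∑ i, v i * sv s i
    from rfl, cov_sum]
  simp only [cov_const_mul, e1, mul_ite, mul_zero, Finset.sum_ite_eq, Finset.mem_univ, if_true]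
  ring

/-- **(CR)**: `C ≥ e^{-(4a+1)} diag E (1 - tanh² ((W s + y)_i))` -/
theorem cr0 {W : Mn n} (hW : Wᵀ = W) {a : ℝ} (ha : opn W ≤ a) (y v : Vn n) :
    exp (-(4 * a + 1)) * ∑ i, v i ^ 2 * mean (ising W y) (fun s => 1 - tanh ((W *ᵥ sv s + y) i) ^ 2) ≤
      var (ising W y) fun s => v ⬝ᵥ sv s := by
  obtain ⟨Q, hQ, hQQ⟩ := Glue.exists_root hW ha
  have a0 : 0 ≤ a := (Eig.opn_nonneg W).trans ha
  have hw := Glue.wt_ising W y
  refine le_trans ?_ (ex_var_le (φ := fun s => Q *ᵥ sv s) hw zero_le_one _)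
  set κ : Cube n → Fin n → ℝ := fun s i =>
    v i ^ 2 * (exp (-(2 * (2 * a + 1 / 2))) * (1 - tanh ((W *ᵥ sv s + y) i) ^ 2)) with hκ
  have κ0 : ∀ s i, 0 ≤ κ s i := fun s i =>
    mul_nonneg (sq_nonneg _) (mul_nonneg (exp_pos _).le (sech_nonneg _))
  have i2 : ∀ i, Integrable (fun z : Vn n => (Q i ⬝ᵥ z) ^ 2) (Gs (Fin n)) := fun i => by
    simpa only [sq] using ((mg_dot (Q i)).mul (mg_dot (Q i))).int
  have i3 : ∀ s i, Integrable (fun z : Vn n => κ s i * (1 + 2 * a - (Q i ⬝ᵥ z) ^ 2)) (Gs (Fin n)) :=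
    fun s i => ((integrable_const _).sub (i2 i)).const_mul _
  have q : ∀ i, Q i ⬝ᵥ Q i ≤ 2 * a := fun i => by
    have := Glue.Q_sq_le hQ hQQ ha (Pi.single i 1)
    rw [mulVec_single_one, show Q.col i = Q i from funext fun j => congrFun (congrFun hQ i) j] at this
    simpa using this
  rw [ex, slE_eq_mean, Finset.mul_sum]
  simp only [← mean_const_mul, ← mean_sum]
  refine hw.mean_mono fun s => le_trans ?_ (integral_mono
    (integrable_finsetSum Finset.univ fun i _ => i3 s i)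
    (SInt.of_mg (φ := fun s => Q *ᵥ sv s) (s := 1) (fun _ => (eg_var hw _).mg (mem_univ 1)) s)
    fun z => ?_)
  · rw [integral_finsetSum _ fun i _ => i3 s i]
    refine Finset.sum_le_sum fun i _ => ?_
    rw [integral_const_mul, integral_sub (integrable_const _) (i2 i), int_dot_sq, integral_const,
      probReal_univ, one_smul]
    refine le_of_eq_of_le (b := κ s i * 1) ?_ (mul_le_mul_of_nonneg_left (by linarith [q i]) (κ0 s i))
    rw [hκ, show 2 * (2 * a + 1 / 2) = 4 * a + 1 by ring]; ring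
  · have e := Glue.prob_post_hs hQ hQQ y (Q *ᵥ sv s + z) 1
    rw [sub_self, zero_smul] at e
    simp only [pw, one_smul, sqrt_one, GoeT.var_congr_prob e, var_prod]
    refine Finset.sum_le_sum fun i _ => ?_
    rw [hκ, mul_assoc]
    refine mul_le_mul_of_nonneg_left (le_of_eq_of_le (by ring) (sech_lin _ ((W *ᵥ sv s + y) i)
      (2 * a + 1 / 2) (a + ((Q i ⬝ᵥ z) ^ 2 + 1) / 2) ?_)) (sq_nonneg _)
    have e1 : (W *ᵥ sv s + y) i - (y + Q *ᵥ (Q *ᵥ sv s + z)) i = -(a * sv s i + Q i ⬝ᵥ z) := by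
      rw [mulVec_add, mulVec_mulVec, hQQ, add_mulVec, smul_mulVec, one_mulVec]
      simp only [Pi.add_apply, Pi.smul_apply, smul_eq_mul]
      change _ = -(a * sv s i + (Q *ᵥ z) i)
      ring
    rw [e1, abs_neg]
    refine (abs_add_le _ _).trans (add_le_add ?_ ?_)
    · rw [abs_mul, sv, abs_spin, mul_one, abs_of_nonneg a0]
    · nlinarith [sq_nonneg (|Q i ⬝ᵥ z| - 1), sq_abs (Q i ⬝ᵥ z)]

/-- Jensen against a fixed field -/
theorem mean_sech {w : Cube n → ℝ} (hw : Wt w) (F : Cube n → ℝ) (x : ℝ) {c : ℝ}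
    (h : mean w (fun s => |F s - x|) ≤ c) :
    exp (-(2 * c)) * (1 - tanh x ^ 2) ≤ mean w fun s => 1 - tanh (F s) ^ 2 := by
  refine le_trans ?_ (hw.mean_mono fun s => sech_lin (F s) x c |F s - x| (abs_sub_comm _ _).le)
  rw [mean_const_mul, mean_sub, hw.mean_const, mean_const_mul]
  exact le_mul_of_one_le_right (mul_nonneg (exp_pos _).le (sech_nonneg x)) (by linarith)

/-- **(CR)** against a fixed field `x` -/
theorem cr {W : Mn n} (hW : Wᵀ = W) {a c : ℝ} (ha : opn W ≤ a) (y x v : Vn n)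
    (h : ∀ i, mean (ising W y) (fun s => |(W *ᵥ sv s + y) i - x i|) ≤ c) :
    exp (-(4 * a + 1 + 2 * c)) * ∑ i, (1 - tanh (x i) ^ 2) * v i ^ 2 ≤
      v ⬝ᵥ covMat (ising W y) sv *ᵥ v := by
  rw [covMat_quad, ← var_eq_cov]
  refine le_trans ?_ (cr0 hW ha y v)
  rw [neg_add _ (2 * c), exp_add, mul_assoc, Finset.mul_sum]
  refine mul_le_mul_of_nonneg_left (Finset.sum_le_sum fun i _ => ?_) (exp_pos _).le
  rw [← mul_assoc, mul_comm]
  exact mul_le_mul_of_nonneg_left (mean_sech (Glue.wt_ising W y) _ _ (h i)) (sq_nonneg _)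

/-- `E |f - x| ≤ |E f - x| + √(Var f)` -/
theorem mean_abs_le {Ω : Type*} [Fintype Ω] {w : Ω → ℝ} (hw : Wt w) (f : Ω → ℝ) {K : ℝ}
    (hK : var w f ≤ K) : mean w (fun s => |f s|) ≤ |mean w f| + (K + 1) / 2 := by
  refine (hw.mean_mono (g := fun s => |mean w f| + ((f s - mean w f) ^ 2 + 1) / 2) fun s => ?_).trans ?_
  · have := abs_add_le (mean w f) (f s - mean w f)
    rw [add_sub_cancel] at this
    nlinarith [sq_nonneg (|f s - mean w f| - 1), sq_abs (f s - mean w f)]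
  · rw [mean_add, hw.mean_const, mean_div_const, mean_add, hw.mean_const]
    change _ + (var w f + 1) / 2 ≤ _
    linarith

/-- **(CR) on an orbit**: `C ≥ c diag (1 - tanh² x)` -/
theorem cr_orb {k : ℕ} {o : Orb n k} (h : o.Ok) {U : Mat k} {a k2 e b : ℝ} {x : Vn n} (a0 : 0 ≤ a)
    (ha : Op2 (o.Wu U) (a ^ 2)) (hk : CB (o.w U) (fA (o.A U) sv) k2)
    (he : ∀ i, |(o.A U *ᵥ o.d U) i| ≤ e) (hb : ∀ i, |o.h i - x i - o.z * o.p i| + |o.z| ≤ b) (v : Vn n) :
    exp (-(4 * a + 2 + k2 + 2 * e + 2 * b)) * ∑ i, (1 - tanh (x i) ^ 2) * v i ^ 2 ≤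
      v ⬝ᵥ o.C U *ᵥ v := by
  have hw := Orb.wt (o := o) U
  have ep : prob (o.w U) = prob (ising (o.Wu U) (o.y U)) := by
    rw [show o.w U = fun s => ising (o.Wu U) (o.y U) s * exp (o.p ⬝ᵥ o.Wu U *ᵥ o.p / 2) from
      funext fun s => (Orb.w_eq h U s).trans (mul_comm _ _)]
    exact prob_smul _ (exp_pos _).ne'
  rw [Orb.C, GoeT.covMat_congr_prob ep,
    show 4 * a + 2 + k2 + 2 * e + 2 * b = 4 * a + 1 + 2 * (e + (k2 + 1) / 2 + b) by ring]
  refine cr (WU_symm h.symm U) (Eig.opn_le_of_sq a0 ha) _ _ _ fun i => ?_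
  rw [← GoeT.mean_congr_prob ep]
  have e1 : ∀ s, |(o.Wu U *ᵥ sv s + o.y U) i - x i| ≤ |(o.A U *ᵥ (sv s - o.p)) i| + b := fun s => by
    have : (o.Wu U *ᵥ sv s + o.y U) i - x i =
        -(o.A U *ᵥ (sv s - o.p)) i + ((o.h i - x i - o.z * o.p i) + o.z * sv s i) := by
      simp only [Orb.y, Orb.A, AU, Orb.Wu, sub_mulVec, mulVec_sub, smul_mulVec, one_mulVec,
        Pi.add_apply, Pi.sub_apply, Pi.smul_apply, smul_eq_mul]
      ring
    rw [this]
    refine (abs_add_le _ _).trans (add_le_add (abs_neg _).le ((abs_add_le _ _).trans ?_))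
    rw [abs_mul, sv, abs_spin, mul_one]; exact hb i
  refine (hw.mean_mono e1).trans ?_
  rw [mean_add, hw.mean_const]
  refine add_le_add ((mean_abs_le hw _ (K := k2) ?_).trans (add_le_add (le_of_eq_of_le ?_ (he i))
    le_rfl)) le_rfl
  · have := hk.var_le (Pi.single i 1)
    simp only [single_one_dotProduct, Pi.single_eq_same, mul_one] at this
    refine le_of_eq_of_le ?_ this
    simp only [mulVec_sub, Pi.sub_apply, var, mean_sub, hw.mean_const, sub_sub_sub_cancel_right]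
  · congr 1
    simp only [Orb.d, mulVec_sub, Pi.sub_apply, mean_sub, hw.mean_const]
    congr 1
    simp only [mulVec, dotProduct, mean_sum, mean_const_mul, meanV]

end Crest.Agent.T157.O6c

end
end

-- ▼ part T157/O6mC_17
section

set_option autoImplicit false
set_option linter.unusedSectionVars false

/-!
Row 157, A2, section 6 (helper17): assembly of (m2) from (w1), (w2).
-/

noncomputable section

namespace Crest.Agent.T157.O6m

open MeasureTheory Matrix Crest.Agent.Lib.OrthPoinc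
open Crest.Agent.T157.Oc Crest.Agent.T157.E Crest.Agent.T157.SL Crest.Agent.T157.Ks
open Crest.Agent.T157.Od Crest.Agent.T157.Oo Crest.Agent.T157.O6 Crest.Agent.T157.Ba26

variable {n k : ℕ}

theorem real_or {μ : Measure (Mat k)} [IsProbabilityMeasure μ] {S S1 S2 : Set (Mat k)} {a b : ℝ}
    (h : S ⊆ S1 ∪ S2) (h1 : μ.real S1 ≤ a) (h2 : μ.real S2 ≤ b) : μ.real S ≤ a + b :=
  (measureReal_mono h).trans ((measureReal_union_le _ _).trans (add_le_add h1 h2))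

theorem rb_C {c : Cs} {w : Cube n → ℝ} {A : Mn n} {p : Vn n} (h : APt c w A p) (hc : c.Nn) (v : Vn n) :
    RB w sv p A sv (sg fun s => v ⬝ᵥ sv s) ≤ rC c * (v ⬝ᵥ v) :=
  (h.rb_le hc (h.t4 v) (h.t3 v) (h.t3' v)).trans (le_of_eq (by unfold rC; ring))

theorem rC_nn {c : Cs} (hc : c.Nn) : 0 ≤ rC c := by
  have := hc.t4; have := hc.t3; have := hc.t3'; have := hc.d0; have := hc.e0
  unfold rC; positivity

theorem crude_bR {a R l : ℝ} (R1 : 1 ≤ R) (hn : (n : ℝ) ≤ R) (ha : a ^ 2 ≤ R) (hl : 0 < l)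
    (lR : l⁻¹ ≤ R) : bR n a (rC (crude a R)) l (l / 2) ≤ MM R := by
  have e : bR n a (rC (crude a R)) l (l / 2) = 160 * (a ^ 2 * n) + 1044480 * R ^ 4 * l⁻¹ ^ 4 := by
    simp only [bR, rC, crude]; field_simp; ring
  have h1 : a ^ 2 * n ≤ R * R := mul_le_mul ha hn (Nat.cast_nonneg _) (by linarith)
  have h2 : l⁻¹ ^ 4 ≤ R ^ 4 := pow_le_pow_left₀ (by positivity) lR 4
  have h3 : R ^ 2 ≤ R ^ 8 := pow_le_pow_right₀ R1 (by norm_num)
  have h4 := mul_le_mul_of_nonneg_left h2 (show 0 ≤ R ^ 4 by positivity)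
  rw [e, MM]; nlinarith

theorem op2_Wu {o : Orb n k} (h : o.Ok) {a : ℝ} (ha : Op2 o.W a) {U : Mat k} (hU : U ∈ SO k) :
    Op2 (o.Wu U) a := fun v => by
  simp only [Orb.Wu, WU, ← mulVec_mulVec]
  rw [Op2.orth (emb_orth' h.iso hU)]
  refine (ha _).trans (le_of_eq ?_)
  rw [Op2.orth (by rw [transpose_transpose]; exact emb_orth h.iso hU)]


/-- the form bound behind (g2) -/
theorem mEnd_form {w : Cube n → ℝ} {A B0 : Mn n} {p vt : Vn n} {l l0 s : ℝ} (hw : Wt w) (hA : Aᵀ = A)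
    (A0 : ∀ v, 0 ≤ v ⬝ᵥ A *ᵥ v) (hp : ∀ i, |p i| ≤ 1) (hl : 0 < l) (s0 : 0 ≤ s) (s1 : s ≤ 1)
    (hv : ∀ i, 0 ≤ vt i ∧ vt i ≤ 3 ∧ vt i * (1 - p i ^ 2) ≤ 1) (hP : Pos A B0 vt l0)
    (he : 9 * l + 3 * s ≤ l0 / 2) (h : OpLe (Rt w A p l - (1 - Sq p l * B0 * Sq p l)) s) (v : Vn n) :
    A *ᵥ v ⬝ᵥ covMat w sv *ᵥ (A *ᵥ v) ≤ 10 * (v ⬝ᵥ A *ᵥ v) := by
  have h0 := Cl_quad (w := w) (l := l) (A *ᵥ v)
  have h1 := J_ge hp hl s0 s1 hv h (Cl w l *ᵥ (A *ᵥ v))
  have h2 := hP (Cl w l *ᵥ (A *ᵥ v))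
  have h3 := psd_am hA A0 (a := 1 / 10) (by norm_num) v (Cl w l *ᵥ (A *ᵥ v))
  rw [mulVec_mulVec _ (Cl w l)⁻¹, J_Cl hw hl, one_mulVec, dotProduct_comm _ (A *ᵥ v)] at h1
  rw [symm_dot hA, show (2 * (1 / 10) : ℝ) = 1 / 5 by norm_num, div_div_eq_mul_div, div_one] at h3
  have h5 := mul_le_mul_of_nonneg_right he (dnn (Cl w l *ᵥ (A *ᵥ v)))
  linarith [h2.1, h2.2, mul_nonneg hl.le (dnn (A *ᵥ v))]

/-- the event of (m2) -/
structure EvM (o : Orb n k) (c : Cs) (B0 : Mn n) (l k1 γ Γ s : ℝ) (U : Mat k) : Prop where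
  G : U ∈ o.G c
  c1 : CB (o.w U) sv k1
  c2 : CB (o.w U) (fA (o.A U) sv) (10 * c.a)
  form : ∀ v, o.A U *ᵥ v ⬝ᵥ o.C U *ᵥ (o.A U *ᵥ v) ≤ 10 * (v ⬝ᵥ o.A U *ᵥ v)
  sand : Sand (o.w U) o.p l γ Γ
  op : Op2 (Rt (o.w U) (o.A U) o.p l - (1 - Sq o.p l * B0 * Sq o.p l)) (s ^ 2)

/-- the event of (BA) -/
theorem EvM.ev {o : Orb n k} {c : Cs} {e : Vn n} {l k1 γ Γ s β χi c2 : ℝ} {U : Mat k}
    (h : EvM o c (χi • (1 : Mn n) + β • vecMulVec e e) l k1 γ Γ s U) (hc : fr (o.C U) ≤ c2) :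
    Ba26.Ev o (Dl o.p l) e l β χi k1 (10 * c.a) c2 Γ (s ^ 2) U :=
  ⟨h.c1, h.c2, hc, fun u => (h.sand u).2, h.op⟩




end Crest.Agent.T157.O6m
end
end

-- ▼ part T157/O6mD_17
section

set_option autoImplicit false
set_option linter.unusedSectionVars false

/-!
Row 157, A2, section 6 (helper17): (w1), (w2) and (m2) without hypotheses.
-/

noncomputable section

namespace Crest.Agent.T157.O6m

open MeasureTheory Matrix Crest.Agent.Lib.OrthPoinc
open Crest.Agent.T157.Oc Crest.Agent.T157.E Crest.Agent.T157.SL Crest.Agent.T157.Ks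
open Crest.Agent.T157.Od Crest.Agent.T157.Oo Crest.Agent.T157.O6 Crest.Agent.T157.Ba26

variable {n k : ℕ}

theorem rd_diag {x : Mat k → Vn n} {D : Fin k × Fin k → Mat k → Vn n} (h : RDV x D) :
    RDM (fun U => diagonal (x U)) fun a U => diagonal (D a U) := fun i j => by
  by_cases e : i = j
  · subst e; simpa only [diagonal_apply_eq] using h i
  · simpa only [diagonal_apply_ne _ e] using RD.const (n := k) 0

theorem sum_diag {κ : Type*} [Fintype κ] {D : κ → Vn n} {B : ℝ}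
    (h : ∀ v, ∑ a, (v ⬝ᵥ D a) ^ 2 ≤ B * (v ⬝ᵥ v)) (v : Vn n) :
    ∑ a, diagonal (D a) *ᵥ v ⬝ᵥ diagonal (D a) *ᵥ v ≤ B * (v ⬝ᵥ v) := by
  simp only [dotProduct, mulVec_diagonal, Finset.mul_sum]
  rw [Finset.sum_comm]
  refine Finset.sum_le_sum fun i _ => ?_
  have := h (Pi.single i 1)
  simp only [single_dot, Pi.single_eq_same, mul_one] at this
  have e : ∑ a, D a i * v i * (D a i * v i) = (∑ a, D a i ^ 2) * (v i * v i) := by
    rw [Finset.sum_mul]; exact Finset.sum_congr rfl fun a _ => by ring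
  rw [e]; exact mul_le_mul_of_nonneg_right this (mul_self_nonneg _)

theorem MM8 {R : ℝ} (R1 : 1 ≤ R) (j : ℕ) (hj : j ≤ 8) : 10 ^ 7 * R ^ j ≤ MM R :=
  mul_le_mul_of_nonneg_left (pow_le_pow_right₀ R1 hj) (by norm_num)

theorem w1Stmt_17 : W1Stmt := by
  intro n k o μ _ c R η K δ s m r X hs hr sm hm
  have ho := X.ok
  have hc := X.nn
  have := Orb.P_prob X.inv ho
  have R1 := X.R1
  have R0 : 0 ≤ R := by linarith
  have M0 : 0 ≤ MM R := by unfold MM; positivity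
  have K0 : 0 ≤ K := by linarith [X.K1]
  have η0 : 0 ≤ η := measureReal_nonneg.trans X.G
  have gA0 : 0 ≤ gA c := by
    have := hc.lam; have := hc.k2; have := hc.e0; have := hc.d0
    unfold gA; positivity
  have cr : (crude c.a R).gAdU ≤ MM R := by
    have h1 := MM8 R1 3 (by norm_num)
    have h2 : R ^ 2 ≤ R ^ 3 := pow_le_pow_right₀ R1 (by norm_num)
    have h3 := mul_le_mul_of_nonneg_left X.Ra R0
    simp only [Cs.gAdU, Cs.lam, crude]
    nlinarith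
  have a := opStmt n k μ (o.P μ) _ _ (o.G c) (gA c) (MM R) (2 * R) η K δ s r X.inv ho.two
    (Orb.P_mem X.inv) (rd_diag (rd_Ad (p := o.p) (σ := sv) ho.iso ho.symm Orb.wt0 o.z))
    (fun U _ => diagonal_transpose _) X.G K0 X.tr gA0 M0 hs hr
    (fun U hU hG => sum_diag (hG.2.gAdU hc (Orb.wt U) (Orb.A_symm ho U) (Orb.fam ho hU)))
    (fun U hU => sum_diag fun v => ((X.cr U hU).gAdU (crude_nn hc.a R0) (Orb.wt U) (Orb.A_symm ho U)
      (Orb.fam ho hU) v).trans (mul_le_mul_of_nonneg_right cr (dnn v)))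
    (fun U hU => opLe_of (op_diag fun i => by
      have h1 := (X.cr U hU).e0
      have h2 := Finset.single_le_sum (f := fun j => (o.A U *ᵥ o.d U) j * (o.A U *ᵥ o.d U) j)
        (fun j _ => mul_self_nonneg _) (Finset.mem_univ i)
      have h3 : (o.A U *ᵥ o.d U) i ^ 2 ≤ 4 * R := by rw [sq]; exact h2.trans h1
      exact h3.trans (by nlinarith)) (by linarith))
  refine le_trans (measureReal_mono ?_) a
  intro U hU h
  refine hU fun i => ?_
  have h1 := h (Pi.single i 1) (by simp)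
  simp only [single_dot, mulVec_single_one, col_apply, Matrix.sub_apply, EM, of_apply,
    diagonal_apply_eq] at h1
  have h2 := abs_le.1 (hm i)
  have p0 := Op27.pim_nn (n := n) (r := r) ho.two gA0 M0 η0 hs
  have h3 := mul_le_mul_of_nonneg_right (Op27.le_MM R1) (add_nonneg (mul_nonneg K0 p0) X.δ0)
  have h4 := abs_le.1 h1
  unfold EV at h2
  rw [abs_le]; constructor <;> linarith [h4.1, h4.2, h2.1, h2.2]

variable {w : Cube n → ℝ} {p : Vn n} {l : ℝ}

theorem C_diag (hw : Wt w) (i : Fin n) : var w (fun s => sv s i) = 1 - meanV w sv i ^ 2 := by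
  have h := mean_sq_eq hw fun s => sv s i
  have e : (fun s : Cube n => sv s i ^ 2) = fun _ => 1 := funext fun s => spin_sq _
  rw [e, hw.mean_const] at h
  unfold meanV; linarith

theorem tau_le (hw : Wt w) (hp : ∀ i, |p i| ≤ 1) (hl : 0 < l) :
    ∑ i, (Dl p l i)⁻¹ * var w (fun s => sv s i) ≤
      2 * n + (meanV w sv - p) ⬝ᵥ (meanV w sv - p) / l ^ 2 := by
  have e : 2 * (n : ℝ) = ∑ _i : Fin n, (2 : ℝ) := by simp [mul_comm]
  rw [e, dotProduct, Finset.sum_div, ← Finset.sum_add_distrib]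
  refine Finset.sum_le_sum fun i _ => ?_
  have v0 := hw.var_nonneg fun s => sv s i
  rw [C_diag hw] at v0 ⊢
  rw [inv_mul_le_iff₀ (Dl_pos hp hl i), Pi.sub_apply]
  have h1 := Dl_ge (l := l) hp i
  have h2 := D_nn hp i
  have m1 := abs_le.1 ((sq_le_one_iff_abs_le_one (meanV w sv i)).1 (by linarith))
  have p1 := abs_le.1 (hp i)
  set m := meanV w sv i
  have h3 : l * ((m - p i) * (m - p i) / l ^ 2) ≤ Dl p l i * ((m - p i) * (m - p i) / l ^ 2) :=
    mul_le_mul_of_nonneg_right h1 (div_nonneg (mul_self_nonneg _) (sq_nonneg _))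
  have h4 : (p i - m) * (p i + m) ≤ l + l * ((m - p i) * (m - p i) / l ^ 2) := by
    have : l * ((m - p i) * (m - p i) / l ^ 2) = (m - p i) ^ 2 / l := by field_simp
    rw [this, add_div' _ _ _ hl.ne', le_div_iff₀ hl]
    have h5 : (p i + m) ^ 2 ≤ 4 := by nlinarith
    nlinarith [sq_nonneg ((p i - m) - l * (p i + m) / 2), mul_le_mul_of_nonneg_left h5 (sq_nonneg l)]
  have h6 : Dl p l i = 1 - p i ^ 2 + l := rfl
  nlinarith

theorem fr_Si (hp : ∀ i, |p i| ≤ 1) (hl : 0 < l) {M : Mn n} {f : Vn n} {a : ℝ}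
    (h : ∀ i, M *ᵥ Pi.single i 1 ⬝ᵥ M *ᵥ Pi.single i 1 ≤ a * f i) :
    fr (Si p l * Mᵀ) ≤ a * ∑ i, (Dl p l i)⁻¹ * f i := by
  rw [fr, Finset.mul_sum]
  refine Finset.sum_le_sum fun i _ => ?_
  have h1 := mul_le_mul_of_nonneg_left (h i) (inv_pos.2 (Dl_pos hp hl i)).le
  refine le_trans (le_of_eq ?_) (h1.trans (le_of_eq (by ring)))
  simp only [Si, diagonal_mul, transpose_apply, mulVec_single_one, dotProduct, col_apply, Finset.mul_sum,
    mul_pow, inv_pow, Real.sq_sqrt (Dl_pos hp hl i).le, sq (M _ _)]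

theorem dot3_le (x1 x2 x3 : Vn n) :
    (x1 + x2 + x3) ⬝ᵥ (x1 + x2 + x3) ≤ 3 * (x1 ⬝ᵥ x1 + x2 ⬝ᵥ x2 + x3 ⬝ᵥ x3) := by
  simp only [dotProduct, ← Finset.sum_add_distrib, Finset.mul_sum, Pi.add_apply]
  refine Finset.sum_le_sum fun i _ => ?_
  nlinarith [sq_nonneg (x1 i - x2 i), sq_nonneg (x1 i - x3 i), sq_nonneg (x2 i - x3 i)]

theorem grad_T {κ : Type*} [Fintype κ] {θ : κ → Mn n} {c : Cs} {A : Mn n} (h : APt c w A p) (hc : c.Nn)
    (hw : Wt w) (hA : Aᵀ = A) (hθ : Fam θ) (hp : ∀ i, |p i| ≤ 1) (hl : 0 < l) (v : Vn n) :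
    ∑ a, (Si p l * c3 w sv (hq A (θ a) p sv) * Si p l) *ᵥ v ⬝ᵥ
      (Si p l * c3 w sv (hq A (θ a) p sv) * Si p l) *ᵥ v ≤ bT n c l * (v ⬝ᵥ v) := by
  have oS := op_Si hp hl
  have l0 : 0 ≤ l⁻¹ := by positivity
  have k1 := hc.k1
  have k2 := hc.k2
  have hτ := (tau_le hw hp hl).trans (add_le_add_right (div_le_div_of_nonneg_right h.d0 (sq_nonneg l)) _)
  have es : ∀ i : Fin n, (fun s : Cube n => (Pi.single i 1 : Vn n) ⬝ᵥ sv s) = fun s => sv s i :=
    fun i => funext fun s => single_dot i _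
  have f1 : fr (Si p l * covMat w sv * A) ≤ c.k2 * (2 * n + c.d0 / l ^ 2) := by
    have := fr_Si hp hl (M := A * covMat w sv) (f := fun i => var w fun s => sv s i) (a := c.k2) fun i => by
      rw [← mulVec_mulVec, ← covV_lin, ← covV_fA, es]; exact h.k2.covV_le hw k2 _
    rw [transpose_mul, hA, covMat_transpose, ← Matrix.mul_assoc] at this
    exact this.trans (mul_le_mul_of_nonneg_left hτ k2)
  have f2 : fr (Si p l * covMat w sv) ≤ c.k1 * (2 * n + c.d0 / l ^ 2) := by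
    have := fr_Si hp hl (M := covMat w sv) (f := fun i => var w fun s => sv s i) (a := c.k1) fun i => by
      rw [← covV_lin, es]; exact h.k1.covV_le hw k1 _
    rw [covMat_transpose] at this
    exact this.trans (mul_le_mul_of_nonneg_left hτ k1)
  have b1 := sum_Rmm3 hθ hw hA (rC_nn hc) (rb_C h hc) oS l0 oS v
  have b2 := fam_op hθ f1 (op_mul (op2_C hw k1 h.k1) oS (by positivity)) v
  have b3 := fam_op hθ f2 (op_mul (op2_AC hw h.k1 k2 h.k2) oS (by positivity)) v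
  have e : ∀ a, (Si p l * c3 w sv (hq A (θ a) p sv) * Si p l) *ᵥ v =
      (Si p l * Rmm w sv p A (θ a) * Si p l) *ᵥ v +
        (Si p l * covMat w sv * A * θ a * (covMat w sv * Si p l)) *ᵥ v +
        -((Si p l * covMat w sv * θ a * (A * covMat w sv * Si p l)) *ᵥ v) := fun a => by
    simp only [← neg_mulVec, ← add_mulVec]
    congr 1
    rw [Rmm]; noncomm_ring
  simp only [e]
  refine (Finset.sum_le_sum fun a _ => dot3_le _ _ _).trans ?_
  simp only [neg_dotProduct, dotProduct_neg, neg_neg, ← Finset.mul_sum, Finset.sum_add_distrib]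
  have e5 : bT n c l * (v ⬝ᵥ v) = 3 * (l⁻¹ * rC c * l⁻¹ * (v ⬝ᵥ v) +
      2 * (c.k2 * (2 * n + c.d0 / l ^ 2) * (c.k1 * c.k1 * l⁻¹)) * (v ⬝ᵥ v) +
      2 * (c.k1 * (2 * n + c.d0 / l ^ 2) * (c.k2 * c.k1 * l⁻¹)) * (v ⬝ᵥ v)) := by
    unfold bT; field_simp; ring
  rw [e5]; linarith

theorem crude_bT {a R : ℝ} (R1 : 1 ≤ R) (hn : (n : ℝ) ≤ R) (hl : 0 < l) (lR : l⁻¹ ≤ R) :
    bT n (crude a R) l ≤ MM R := by
  have e : bT n (crude a R) l =
      156672 * (R ^ 4 * l⁻¹ ^ 2) + 24 * (R ^ 3 * (n * l⁻¹)) + 48 * (R ^ 4 * l⁻¹ ^ 3) := by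
    simp only [bT, rC, crude]; field_simp; ring
  have l0 : 0 ≤ l⁻¹ := by positivity
  have h1 : R ^ 4 * l⁻¹ ^ 2 ≤ R ^ 4 * R ^ 2 := by gcongr
  have h2 : R ^ 3 * (n * l⁻¹) ≤ R ^ 3 * (R * R) := by gcongr
  have h3 : R ^ 4 * l⁻¹ ^ 3 ≤ R ^ 4 * R ^ 3 := by gcongr
  have h4 : R ^ 6 ≤ R ^ 8 := pow_le_pow_right₀ R1 (by norm_num)
  have h5 : R ^ 5 ≤ R ^ 8 := pow_le_pow_right₀ R1 (by norm_num)
  have h6 : R ^ 7 ≤ R ^ 8 := pow_le_pow_right₀ R1 (by norm_num)
  have h7 : 0 ≤ R ^ 8 := by positivity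
  rw [e, MM]; nlinarith

/-- Jensen for operator norms, with a bad set -/
theorem op_EM {ν : Measure (Mat k)} [IsProbabilityMeasure ν] (hν : ∀ᵐ U ∂ν, U ∈ SO k) {F : Mat k → Mn n}
    (hF : Continuous F) {a M : ℝ} (a0 : 0 ≤ a) (G : Set (Mat k)) (hG : ∀ U ∈ SO k, U ∈ G → Op2 (F U) a)
    (hM : ∀ U ∈ SO k, Op2 (F U) M) : Op2 (EM ν F) (a + M * ν.real Gᶜ) := fun v => by
  have c1 : Continuous fun U => F U *ᵥ v := hF.matrix_mulVec continuous_const
  have h1 := int_le_bad hν (c1.dotProduct c1).continuousOn (mul_nonneg a0 (dnn v)) Gᶜ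
    (fun U hU h => hG U hU (not_not.1 h) v) fun U hU => hM U hU v
  have i1 := Oo.int_of hν (c1.dotProduct c1).continuousOn
  have h2 := integral_mono (μ := ν) (f := fun U => EM ν F *ᵥ v ⬝ᵥ F U *ᵥ v)
    (g := fun U => EM ν F *ᵥ v ⬝ᵥ EM ν F *ᵥ v / (2 * 1) + 1 / 2 * (F U *ᵥ v ⬝ᵥ F U *ᵥ v))
    (Oo.int_of hν (continuous_const.dotProduct c1).continuousOn)
    ((integrable_const _).add (i1.const_mul _)) fun U => dot_le_amgm one_pos _ _
  rw [← dot_EM hν (Op27.cOn hF), integral_add (integrable_const _) (i1.const_mul _),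
    integral_const_mul] at h2
  simp only [integral_const, probReal_univ, one_smul, mul_one] at h2
  linarith

theorem w2Stmt : W2Stmt := by
  intro n k o μ _ c R η K δ l s e g B0 r X hl h1 lR hs hr B3 e0 hE g0 hg sm
  have ho := X.ok
  have hc := X.nn
  have hp := X.p1
  have := Orb.P_prob X.inv ho
  have hν := Orb.P_mem (o := o) X.inv
  have R1 := X.R1
  have R0 : 0 ≤ R := by linarith
  have M0 : 0 ≤ MM R := by unfold MM; positivity
  have K0 : 0 ≤ K := by linarith [X.K1]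
  have η0 : 0 ≤ η := measureReal_nonneg.trans X.G
  have k1 := hc.k1
  have k2 := hc.k2
  have bT0 : 0 ≤ bT n c l := by
    have := rC_nn hc; have := hc.d0
    unfold bT; positivity
  have q : ∀ (U : Mat k) (v : Vn n), v ⬝ᵥ (Si o.p l * Cl (o.w U) l * Si o.p l) *ᵥ v =
      Si o.p l *ᵥ v ⬝ᵥ Cl (o.w U) l *ᵥ (Si o.p l *ᵥ v) := fun U v => by rw [dot_mul3, Si_t]
  have rd1 : RDM (fun U => Cl (o.w U) l) fun a U => c3 (o.w U) sv (hq (o.A U) (o.th a U) o.p sv) :=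
    ((rd_C ho.iso ho.symm Orb.wt0 o.z).add (RDM.const (l • (1 : Mn n)))).congr (fun _ _ => rfl)
      fun _ _ _ => add_zero _
  have rd2 : RDM (fun U => Si o.p l * Cl (o.w U) l * Si o.p l) fun a U =>
      Si o.p l * c3 (o.w U) sv (hq (o.A U) (o.th a U) o.p sv) * Si o.p l :=
    (((RDM.const (Si o.p l)).mul rd1).mul (RDM.const (Si o.p l))).congr (fun _ _ => rfl)
      fun a U _ => by simp only [Matrix.zero_mul, Matrix.mul_zero, zero_add, add_zero]
  have a := opStmt n k μ (o.P μ) _ _ (o.G c) (bT n c l) (MM R) (2 * R ^ 2) η K δ s r X.inv ho.two hν rd2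
    (fun U _ => by simp only [transpose_mul, Si_t, Cl_t, Matrix.mul_assoc]) X.G K0 X.tr bT0 M0 hs hr
    (fun U hU hG => grad_T hG.2 hc (Orb.wt U) (Orb.A_symm ho U) (Orb.fam ho hU) hp hl)
    (fun U hU v => (grad_T (X.cr U hU) (crude_nn hc.a R0) (Orb.wt U) (Orb.A_symm ho U) (Orb.fam ho hU)
      hp hl v).trans (mul_le_mul_of_nonneg_right (crude_bT R1 X.Rn hl lR) (dnn v)))
    (fun U hU u hu => by
      have b1 := Cl_crude hp hl h1 R1 lR (X.cr U hU).k1 (Si o.p l *ᵥ u)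
      rw [qd_Si hp hl, hu, mul_one] at b1
      rw [q, abs_of_nonneg ((mul_nonneg hl.le (dnn _)).trans (Cl_ge (Orb.wt U) _))]
      exact b1)
  have β : R * R * (o.P μ).real (o.G c)ᶜ ≤ 1 := by
    have b1 := (X.tr (o.G c)ᶜ).trans (add_le_add_left (mul_le_mul_of_nonneg_left X.G K0) δ)
    have b2 : R * R ≤ MM R := by nlinarith [MM8 R1 2 (by norm_num)]
    exact (mul_le_mul b2 b1 measureReal_nonneg M0).trans X.sm
  have o1 := op_mono (op_EM hν Orb.c_C (mul_nonneg k1 k1) (o.G c)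
    (fun U _ hG => op2_C (Orb.wt U) k1 hG.2.k1) fun U hU => op2_C (Orb.wt U) R0 (X.cr U hU).k1)
    (add_le_add_right β _)
  have o2 := op_mono (op_EM hν (F := fun U => o.A U * o.C U) (Orb.c_A.mul Orb.c_C) (mul_nonneg k2 k1)
    (o.G c) (fun U _ hG => op2_AC (Orb.wt U) hG.2.k1 k2 hG.2.k2)
    fun U hU => op2_AC (Orb.wt U) (X.cr U hU).k1 R0 (X.cr U hU).k2) (add_le_add_right β _)
  have mean : ∀ u : Vn n, u ⬝ᵥ u = 1 →
      u ⬝ᵥ (EM (o.P μ) fun U => Si o.p l * Cl (o.w U) l * Si o.p l) *ᵥ u ≤ g + e / l + 1 := fun u hu => by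
    have oS := op_Si hp hl u
    rw [hu, mul_one] at oS
    rw [dot_EM hν fun i j => (rd2 i j).c]
    simp only [q, Cl_quad]
    rw [integral_add (Oo.int_of hν (continuous_const.dotProduct
      (Orb.c_C.matrix_mulVec continuous_const)).continuousOn) (integrable_const _),
      ← dot_EM hν (Op27.cOn Orb.c_C)]
    simp only [integral_const, probReal_univ, one_smul]
    set y := Si o.p l *ᵥ u with hy
    have e1 : EM (o.P μ) o.C = Dm o.p * (1 + -EM (o.P μ) (fun U => o.A U * o.C U) + B0 * EM (o.P μ) o.C) -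
        ErC o (o.P μ) B0 := by rw [ErC]; noncomm_ring
    have b0 : l * (y ⬝ᵥ y) ≤ 1 := by
      rw [← le_inv_mul_iff₀ hl, mul_one]; exact oS
    have b1 := (abs_le.1 (abs_quad hE e0 y)).1
    have b2 : e * (y ⬝ᵥ y) ≤ e / l := mul_le_mul_of_nonneg_left oS e0
    have b3 := dot3_le y (-(EM (o.P μ) (fun U => o.A U * o.C U) *ᵥ y)) (B0 *ᵥ (EM (o.P μ) o.C *ᵥ y))
    have b4 := (B3 _).trans (mul_le_mul_of_nonneg_left (o1 y) (by norm_num))
    have b5 := o2 y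
    have b6 := op_DSi hp hl u
    rw [hu, mul_one, ← mulVec_mulVec, ← hy] at b6
    simp only [neg_dotProduct, dotProduct_neg, neg_neg] at b3
    have b7 := cs (Dm o.p *ᵥ y) (y + -(EM (o.P μ) (fun U => o.A U * o.C U) *ᵥ y) +
      B0 *ᵥ (EM (o.P μ) o.C *ᵥ y))
    have b8 : 3 * (11 + c.k2 * c.k1 + 9 * c.k1 ^ 2) * (y ⬝ᵥ y) ≤ g ^ 2 := by
      nlinarith [mul_le_mul_of_nonneg_right hg (dnn y), mul_le_mul_of_nonneg_left b0 (sq_nonneg g)]
    have b9 := (abs_le_of_sq_le_sq' ((b7.trans (mul_le_of_le_one_left (dnn _) b6)).trans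
      (show _ ≤ g ^ 2 by nlinarith)) g0).2
    have e2 : y ⬝ᵥ EM (o.P μ) o.C *ᵥ y = Dm o.p *ᵥ y ⬝ᵥ (y + -(EM (o.P μ) (fun U => o.A U * o.C U) *ᵥ y) +
        B0 *ᵥ (EM (o.P μ) o.C *ᵥ y)) - y ⬝ᵥ ErC o (o.P μ) B0 *ᵥ y := by
      conv_lhs => rw [e1]
      simp only [sub_mulVec, dotProduct_sub, ← mulVec_mulVec, symm_dot Dm_t, add_mulVec, neg_mulVec,
        one_mulVec]
    linarith
  refine le_trans (measureReal_mono ?_) a
  intro U hU h
  refine hU fun v => ?_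
  have p0 := Op27.pim_nn (n := n) (r := r) ho.two bT0 M0 η0 hs
  have b2 : 2 * (2 * R ^ 2) ≤ MM R := by nlinarith [MM8 R1 2 (by norm_num)]
  have h3 := mul_le_mul_of_nonneg_right b2 (add_nonneg (mul_nonneg K0 p0) X.δ0)
  have key : OpLe (Si o.p l * Cl (o.w U) l * Si o.p l) (g + e / l + 2 * s + 2) := fun u hu => by
    have h4 := (abs_le.1 (h u hu)).2
    rw [sub_mulVec, dotProduct_sub] at h4
    rw [abs_of_nonneg (by rw [q]; exact (mul_nonneg hl.le (dnn _)).trans (Cl_ge (Orb.wt U) _))]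
    linarith [mean u hu]
  have := (abs_le.1 (opLe_hom key (Sq o.p l *ᵥ v))).2
  rwa [q, mulVec_mulVec, Si_Sq hp hl, one_mulVec, Sq_dot hp hl] at this


end Crest.Agent.T157.O6m
end
end

-- ▼ part T157/O6u_6
section

set_option autoImplicit false
set_option linter.unusedSectionVars false

/-!
Row 157, A2, section 6 (helper6): the fluctuations of the centre in the cube frame (`CovGlue`).
-/

noncomputable section

namespace Crest.Agent.T157.O6.Cov6

open MeasureTheory Matrix Crest.Agent.Lib.OrthPoinc Filter Topology Set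
open Crest.Agent.T157.Oc Crest.Agent.T157.E Crest.Agent.T157.SL Crest.Agent.T157.Ks
open Crest.Agent.T157.Od Crest.Agent.T157.Oo

variable {n k : ℕ}

/-- the additive form of an operator bound -/
def Bl (M : Mn n) (a : ℝ) : Prop := ∀ u w, 2 * (u ⬝ᵥ M *ᵥ w) ≤ a * (u ⬝ᵥ u + w ⬝ᵥ w)

variable {M N : Mn n} {a b : ℝ}

lemma Bl.add (h : Bl M a) (h' : Bl N b) : Bl (M + N) (a + b) := fun u w => by
  rw [add_mulVec, dotProduct_add]; linarith [h u w, h' u w]

lemma Bl.neg (h : Bl M a) : Bl (-M) a := fun u w => by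
  have := h (-u) w
  rwa [neg_dotProduct, neg_dotProduct, dotProduct_neg, neg_neg, ← dotProduct_neg, ← neg_mulVec] at this

lemma Bl.mono (h : Bl M a) (hab : a ≤ b) : Bl M b := fun u w =>
  (h u w).trans (mul_le_mul_of_nonneg_right hab (add_nonneg (dot_self_nonneg _) (dot_self_nonneg _)))

lemma cs (u w : Vn n) : (u ⬝ᵥ w) ^ 2 ≤ (u ⬝ᵥ u) * (w ⬝ᵥ w) := by
  simpa only [dotProduct, sq] using Finset.sum_mul_sq_le_sq_mul_sq Finset.univ u w

lemma bl_of (h : Op2 M (a ^ 2)) (ha : 0 ≤ a) : Bl M a := fun u w => by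
  have h1 := (cs u (M *ᵥ w)).trans (mul_le_mul_of_nonneg_left (h w) (dot_self_nonneg u))
  have := dot_self_nonneg u
  have := dot_self_nonneg w
  refine le_of_sq_le_sq' (by positivity) ?_
  nlinarith [mul_nonneg (sq_nonneg a) (sq_nonneg (u ⬝ᵥ u - w ⬝ᵥ w))]
where le_of_sq_le_sq' {x y : ℝ} (hy : 0 ≤ y) (h : x ^ 2 ≤ y ^ 2) : x ≤ y := (abs_le_of_sq_le_sq' h hy).2

lemma Bl.op2 (h : Bl M a) (ha : 0 ≤ a) : Op2 M (a ^ 2) := fun w => by
  have h0 := dot_self_nonneg (M *ᵥ w)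
  rcases ha.eq_or_lt with rfl | ha
  · have := h (M *ᵥ w) w
    linarith
  · have := h (M *ᵥ w) (a • w)
    simp only [mulVec_smul, dotProduct_smul, smul_dotProduct, smul_eq_mul] at this
    refine le_of_mul_le_mul_left ?_ ha
    linarith

lemma op2_mul (h : Op2 M a) (h' : Op2 N b) (ha : 0 ≤ a) : Op2 (M * N) (a * b) := fun w => by
  rw [← mulVec_mulVec, mul_assoc]
  exact (h _).trans (mul_le_mul_of_nonneg_left (h' w) ha)

lemma Bl.mul_left (h : Bl N b) (hb : 0 ≤ b) (hM : Op2 M (a ^ 2)) (ha : 0 ≤ a) : Bl (M * N) (a * b) :=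
  bl_of (by rw [mul_pow]; exact op2_mul hM (h.op2 hb) (sq_nonneg a)) (mul_nonneg ha hb)

lemma op2_Dm {p : Vn n} (hp : ∀ i, |p i| ≤ 1) : Op2 (Dm p) (1 ^ 2) := fun v => by
  simp only [Dm, dotProduct, mulVec_diagonal, Finset.mul_sum]
  refine Finset.sum_le_sum fun i _ => ?_
  have h1 : p i ^ 2 ≤ 1 := (sq_le_one_iff_abs_le_one _).2 (hp i)
  have h2 : (1 - p i ^ 2) ^ 2 ≤ 1 := by nlinarith [sq_nonneg (p i)]
  nlinarith [mul_le_mul_of_nonneg_right h2 (sq_nonneg (v i))]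

section cov

variable {ν : Measure (Mat k)} [IsProbabilityMeasure ν] (hν : ∀ᵐ U ∂ν, U ∈ SO k)
  {x y : Mat k → Vn n} (hx : ∀ i, ContinuousOn (fun U => x U i) (SO k))
  (hy : ∀ i, ContinuousOn (fun U => y U i) (SO k))

/-- the variance of `u·x` -/
def Vr (ν : Measure (Mat k)) (x : Mat k → Vn n) (u : Vn n) : ℝ :=
  ∫ U, (u ⬝ᵥ x U - ∫ V, u ⬝ᵥ x V ∂ν) ^ 2 ∂ν

/-- the covariance matrix -/
def Cv (ν : Measure (Mat k)) (x y : Mat k → Vn n) : Mn n :=
  EM ν (fun U => vecMulVec (x U) (y U)) - vecMulVec (EV ν x) (EV ν y)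

include hx in
lemma c_dot (u : Vn n) : ContinuousOn (fun U => u ⬝ᵥ x U) (SO k) :=
  continuousOn_finsetSum _ fun i _ => continuousOn_const.mul (hx i)

include hν hx in
lemma dot_EV (u : Vn n) : u ⬝ᵥ EV ν x = ∫ U, u ⬝ᵥ x U ∂ν := by
  simp only [dotProduct, EV]
  rw [integral_finsetSum _ fun i _ => (int_of hν (hx i)).const_mul _]
  simp only [integral_const_mul]

lemma dot_vmv (u w x y : Vn n) : u ⬝ᵥ vecMulVec x y *ᵥ w = (u ⬝ᵥ x) * (w ⬝ᵥ y) := by
  rw [vecMulVec_mulVec, dotProduct_comm w]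
  simp [mul_comm]

include hν hx hy in
lemma dot_Cv (u w : Vn n) : 2 * (u ⬝ᵥ Cv ν x y *ᵥ w) ≤ Vr ν x u + Vr ν y w := by
  have cf := c_dot hx u
  have cg := c_dot hy w
  rw [Cv, sub_mulVec, dotProduct_sub, dot_EM hν (F := fun U => vecMulVec (x U) (y U))
    fun i j => (hx i).mul (hy j), dot_vmv, dot_EV hν hx, dot_EV hν hy, Vr, Vr]
  simp only [dot_vmv]
  set α := ∫ U, u ⬝ᵥ x U ∂ν with hα
  set β := ∫ U, w ⬝ᵥ y U ∂ν with hβ
  have i1 := (int_of hν cf).const_mul (2 * β)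
  have i2 := (int_of hν cg).const_mul (2 * α)
  have i3 : Integrable (fun U => 2 * ((u ⬝ᵥ x U) * (w ⬝ᵥ y U))) ν := (int_of hν (cf.mul cg)).const_mul 2
  have i4 : Integrable (fun U => (u ⬝ᵥ x U - α) ^ 2) ν := int_of hν ((cf.sub continuousOn_const).pow 2)
  have i5 : Integrable (fun U => (w ⬝ᵥ y U - β) ^ 2) ν := int_of hν ((cg.sub continuousOn_const).pow 2)
  have i6 : Integrable (fun U => 2 * β * (u ⬝ᵥ x U) + 2 * α * (w ⬝ᵥ y U)) ν := i1.add i2
  have i7 : Integrable (fun U => 2 * ((u ⬝ᵥ x U) * (w ⬝ᵥ y U)) -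
      (2 * β * (u ⬝ᵥ x U) + 2 * α * (w ⬝ᵥ y U))) ν := i3.sub i6
  have h := integral_mono (μ := ν) (f := fun U => 2 * ((u ⬝ᵥ x U) * (w ⬝ᵥ y U)) -
      (2 * β * (u ⬝ᵥ x U) + 2 * α * (w ⬝ᵥ y U)) + 2 * α * β)
    (g := fun U => (u ⬝ᵥ x U - α) ^ 2 + (w ⬝ᵥ y U - β) ^ 2) (i7.add (integrable_const _))
    (i4.add i5) fun U => by
      simp only
      nlinarith [sq_nonneg ((u ⬝ᵥ x U - α) - (w ⬝ᵥ y U - β))]
  rw [integral_add i7 (integrable_const _), integral_sub i3 i6, integral_add i1 i2, integral_add i4 i5,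
    integral_const_mul, integral_const_mul, integral_const_mul, integral_const, probReal_univ,
    one_smul, ← hα, ← hβ] at h
  linarith

lemma Vr_scale {V : ℝ} (h : ∀ u, u ⬝ᵥ u = 1 → Vr ν x u ≤ V) (u : Vn n) : Vr ν x u ≤ V * (u ⬝ᵥ u) := by
  rcases (dot_self_nonneg u).eq_or_lt with h0 | h0
  · obtain rfl := dotProduct_self_eq_zero.1 h0.symm
    simp [Vr]
  have s0 := Real.sqrt_pos.2 h0
  have s2 := Real.mul_self_sqrt h0.le
  set s := √(u ⬝ᵥ u)
  have h1 := h (s⁻¹ • u) (by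
    rw [smul_dotProduct, dotProduct_smul, ← s2, smul_eq_mul, smul_eq_mul]; field_simp)
  simp only [Vr, smul_dotProduct, smul_eq_mul, integral_const_mul, ← mul_sub, mul_pow] at h1
  rw [inv_pow, inv_mul_le_iff₀ (by positivity), sq, s2, mul_comm] at h1
  exact h1

end cov

variable {o : Orb n k} {μ : Measure (Mat k)} [IsProbabilityMeasure μ] {c : Cs} {R η K δ H ε : ℝ}

lemma MM_ge (hR : 1 ≤ R) : 768 * R ^ 3 ≤ MM R := by
  have := pow_le_pow_right₀ hR (show 3 ≤ 8 by norm_num)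
  have : 0 ≤ R ^ 8 := by positivity
  unfold MM; linarith

/-- one direction of a vector on the orbit -/
lemma dir (hS : ScStmt) (h : Ctx o μ c R η K δ) (H0 : 0 ≤ H) (hε : MM R * (K * fl R η H + δ) ≤ ε)
    {X : Mat k → Vn n} {D : Fin k × Fin k → Mat k → Vn n} (hX : RDV X D) {T : ℝ} (T0 : 0 ≤ T)
    (hG : ∀ U ∈ o.G c, ∀ u, ∑ a, (u ⬝ᵥ D a U) ^ 2 ≤ T * (u ⬝ᵥ u))
    (hM : ∀ U ∈ SO k, ∀ u, ∑ a, (u ⬝ᵥ D a U) ^ 2 ≤ 768 * R ^ 3 * (u ⬝ᵥ u))
    (hF : ∀ U ∈ SO k, X U ⬝ᵥ X U ≤ 4 * R) (u : Vn n) (hu : u ⬝ᵥ u = 1) :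
    μ.real {U | 4 * rad k T T H + ε < (u ⬝ᵥ X U - ∫ V, u ⬝ᵥ X V ∂o.P μ) ^ 2} ≤ fl R η H ∧
      Vr (o.P μ) X u ≤ rad k T T H + ε := by
  have := Orb.P_prob h.inv h.ok
  have R1 := h.R1
  have M0 : 0 ≤ MM R := by unfold MM; positivity
  have η0 : 0 ≤ η := measureReal_nonneg.trans h.G
  have K1 := h.K1
  have δ0 := h.δ0
  have f0 : 0 ≤ K * fl R η H + δ := by unfold fl; positivity
  have e1 : 8 * (4 * R) * (K * fl R η H + δ) ≤ ε := by
    refine le_trans (mul_le_mul_of_nonneg_right ?_ f0) hε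
    have := pow_le_pow_right₀ R1 (show 1 ≤ 3 by norm_num)
    linarith [MM_ge R1]
  have key := hS k μ (o.P μ) Unit (fun U _ => u ⬝ᵥ X U) (fun a U _ => u ⬝ᵥ D a U) (o.G c) T T (MM R)
    (4 * R) η K δ H h.inv h.ok.two (Orb.P_mem h.inv)
    (fun _ => ((RDV.const u).dot hX).congr (fun _ _ => rfl) fun _ _ _ => by simp) h.G (by linarith)
    h.tr T0 T0 M0 (le_trans (mul_le_mul_of_nonneg_left (by nlinarith) M0) h.sm) H0
    (fun U _ hU => by simpa [hu] using hG U hU u)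
    (fun U _ hU v => by
      have := mul_le_mul_of_nonneg_left (hG U hU u) (sq_nonneg (v ()))
      simp only [dotProduct, Finset.univ_unique, Finset.sum_singleton, mul_pow, ← Finset.mul_sum] at this ⊢
      simp only [dotProduct] at hu
      rw [hu] at this
      linarith)
    (fun U hU => by simpa [hu] using (hM U hU u).trans (by rw [hu, mul_one]; exact MM_ge R1))
    (fun U hU => by simpa [hu] using (cs u (X U)).trans (by rw [hu, one_mul]; exact hF U hU))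
  simp only [Finset.univ_unique, Finset.sum_singleton, EV] at key
  refine ⟨(measureReal_mono fun U hU => ?_).trans key.1, key.2.trans ?_⟩
  · exact lt_of_le_of_lt (add_le_add le_rfl e1) hU
  · have : 0 ≤ R * (K * fl R η H + δ) := by positivity
    unfold fl at *
    linarith

lemma gD_le {c : Cs} (hc : c.Nn) (h : o.Ok) {U : Mat k} (hU : U ∈ SO k)
    (hA : APt c (o.w U) (o.A U) o.p) (u : Vn n) :
    ∑ a, (u ⬝ᵥ covV (o.w U) (hq (o.A U) (o.th a U) o.p sv) sv) ^ 2 ≤ gD c * (u ⬝ᵥ u) := by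
  simp only [covV_dot, cov_comm _ (hq _ _ _ _)]
  refine ((Orb.fam h hU).key (Orb.wt U) hc.N hA.nb hc.k1 hA.k1 hc.k2 hA.k2 _).trans ?_
  rw [gD, mul_assoc]
  exact mul_le_mul (hA.lam_le hc) (hA.k1.var_le u) ((Orb.wt U).var_nonneg _) hc.lam

theorem cov (hS : ScStmt) : CovStmt := by
  intro n k o μ _ c R η K δ H ε h H0 hε
  have := Orb.P_prob h.inv h.ok
  have hν := Orb.P_mem (o := o) h.inv
  have hc := h.nn
  have R1 := h.R1
  have cn := crude_nn hc.a (show 0 ≤ R by linarith)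
  have gD0 : 0 ≤ gD c := mul_nonneg hc.lam hc.k1
  have gA0 : 0 ≤ gA c := by
    have := hc.lam; have := hc.k2; have := hc.e0; have := hc.d0
    unfold gA; positivity
  have rd := rd_del (p := o.p) (σ := sv) h.ok.iso h.ok.symm (Orb.wt0 (o := o)) o.z
  have rA := rd_Ad (p := o.p) (σ := sv) h.ok.iso h.ok.symm (Orb.wt0 (o := o)) o.z
  have rC := rd_C (p := o.p) (σ := sv) h.ok.iso h.ok.symm (Orb.wt0 (o := o)) o.z
  have rAC := (rd_AU (W := o.W) (z := o.z) h.ok.iso).mul rC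
  have R3 : R ≤ R ^ 3 := by simpa using pow_le_pow_right₀ R1 (show 1 ≤ 3 by norm_num)
  have R2 : R ^ 2 ≤ R ^ 3 := pow_le_pow_right₀ R1 (by norm_num)
  have hd := dir hS h H0 hε rd gD0 (fun U hU => gD_le hc h.ok hU.1 hU.2)
    (fun U hU u => (gD_le cn h.ok hU (h.cr U hU) u).trans (mul_le_mul_of_nonneg_right (by
      simp only [gD, Cs.lam, crude]; nlinarith) (dot_self_nonneg u))) fun U hU => (h.cr U hU).d0
  have hA := dir hS h H0 hε rA gA0
    (fun U hU => hU.2.gAdU hc (Orb.wt U) (Orb.A_symm h.ok U) (Orb.fam h.ok hU.1))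
    (fun U hU u => ((h.cr U hU).gAdU cn (Orb.wt U) (Orb.A_symm h.ok U) (Orb.fam h.ok hU) u).trans
      (mul_le_mul_of_nonneg_right (by
        have := mul_le_mul_of_nonneg_left h.Ra (show 0 ≤ R by linarith)
        simp only [Cs.gAdU, Cs.lam, crude]; nlinarith) (dot_self_nonneg u)))
    fun U hU => (h.cr U hU).e0
  refine ⟨fun l l0 hm hl => ?_, fun B0 e hB e0 hE => ?_⟩
  · have h1 : μ.real {U | ¬ ∀ i, |o.d U i| ≤ l / 2} ≤ μ.real (⋃ i, {U | 4 * rad k (gD c) (gD c) H + ε <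
        ((Pi.single i 1 : Vn n) ⬝ᵥ o.d U - ∫ V, (Pi.single i 1 : Vn n) ⬝ᵥ o.d V ∂o.P μ) ^ 2}) := by
      refine measureReal_mono fun U hU => ?_
      obtain ⟨i, hi⟩ := not_forall.1 hU
      refine mem_iUnion.2 ⟨i, hl.trans_lt ?_⟩
      simp only [single_dot]
      have h2 : l / 4 < |o.d U i - EV (o.P μ) o.d i| := by
        linarith [abs_sub_abs_le_abs_sub (o.d U i) (EV (o.P μ) o.d i), hm i, not_le.1 hi]
      have h3 := pow_lt_pow_left₀ h2 (by positivity) two_ne_zero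
      rw [sq_abs] at h3
      exact lt_of_eq_of_lt (by ring) h3
    refine h1.trans ((measureReal_iUnion_fintype_le _).trans ?_)
    refine (Finset.sum_le_sum fun i _ => (hd _ (by simp)).1).trans ?_
    simp
  · set VD := rad k (gD c) (gD c) H + ε with hVD
    set VA := rad k (gA c) (gA c) H + ε with hVA
    have vD := Vr_scale fun u hu => (hd u hu).2
    have vA := Vr_scale fun u hu => (hA u hu).2
    have k2 : (0 : ℝ) < (k : ℝ) - 2 := by
      have : (2 : ℝ) < k := by exact_mod_cast h.ok.two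
      linarith
    have ε0 : 0 ≤ ε := by
      have η0 : 0 ≤ η := measureReal_nonneg.trans h.G
      have := h.K1
      have := h.δ0
      refine le_trans ?_ hε
      unfold fl MM; positivity
    have D0 : 0 ≤ VD := by rw [hVD]; unfold rad; positivity
    have A0 : 0 ≤ VA := by rw [hVA]; unfold rad; positivity
    have b1 : Bl (Cv (o.P μ) (fun U => o.A U *ᵥ o.d U) o.d) (VA + VD) := fun u w =>
      (dot_Cv hν (fun i => (rA i).c) (fun i => (rd i).c) u w).trans (by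
        nlinarith [vA u, vD w, mul_nonneg A0 (dot_self_nonneg w), mul_nonneg D0 (dot_self_nonneg u)])
    have b2 : Bl (Cv (o.P μ) o.d o.d) VD := fun u w =>
      (dot_Cv hν (fun i => (rd i).c) (fun i => (rd i).c) u w).trans (by linarith [vD u, vD w])
    have oD := op2_Dm h.p1
    have b3 : Bl (1 + -(Dm o.p * B0)) (1 + 1 * 3) := (bl_of (by simpa using Op2.one) zero_le_one).add
      ((bl_of (a := 3) (by rw [show (3 : ℝ) ^ 2 = 9 by norm_num]; exact hB) (by norm_num)).mul_left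
        (by norm_num) oD zero_le_one).neg
    have b4 := ((bl_of hE e0).add (b1.mul_left (by positivity) oD zero_le_one)).add
      (b2.mul_left D0 (b3.op2 (by norm_num)) (by norm_num))
    have e1 : EM (o.P μ) (fun U => o.A U * sq2 o U) = EM (o.P μ) (fun U => o.A U * o.C U) +
        EM (o.P μ) fun U => vecMulVec (o.A U *ᵥ o.d U) (o.d U) := by
      simp only [sq2, sm2, Matrix.mul_add, mul_vecMulVec]
      ext i j
      exact integral_add (int_of hν (rAC i j).c) (int_of hν ((rA i).c.mul (rd j).c))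
    have e2 : EM (o.P μ) (sq2 o) = EM (o.P μ) o.C + EM (o.P μ) fun U => vecMulVec (o.d U) (o.d U) := by
      ext i j
      exact integral_add (int_of hν (rC i j).c) (int_of hν ((rd i).c.mul (rd j).c))
    have e3 : ErC o (o.P μ) B0 = Er4 o (o.P μ) B0 + Dm o.p * Cv (o.P μ) (fun U => o.A U *ᵥ o.d U) o.d +
        (1 + -(Dm o.p * B0)) * Cv (o.P μ) o.d o.d := by
      rw [ErC, Er4, e1, e2, Cv, Cv, ← sub_eq_add_neg]
      simp only [Matrix.mul_add, Matrix.mul_sub]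
      abel
    rw [e3]
    refine (b4.mono ?_).op2 ?_
    · rw [hVA, hVD] at *; linarith
    · rw [hVA, hVD] at *; linarith

end Crest.Agent.T157.O6.Cov6

namespace Crest.Agent.T157.O6

theorem covGlue : CovGlue := Cov6.cov

end Crest.Agent.T157.O6
end
end

-- ▼ part T157/OgHiW_64
section

set_option autoImplicit false

/-!
Row 157, A2 (helper64): (g1), (g2) above `t**` from the event of (m2).
-/

noncomputable section

namespace Crest.Agent.T157.Og

open MeasureTheory Matrix Crest.Agent.Lib.OrthPoinc Filter Topology Set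
open Crest.Agent.T157.Oc Crest.Agent.T157.E Crest.Agent.T157.SL Crest.Agent.T157.Ks
open Crest.Agent.T157.Od Crest.Agent.T157.Oo Crest.Agent.T157.O6 Crest.Agent.T157.O0

namespace HiW64

variable {p : Pm} {t ε H : ℝ}

lemma n_gt (h : LH p t ε H) : (1 : ℝ) < p.n := by
  have h1 := (Real.exp_pos _).trans_le h.ord.n2
  by_contra hn
  exact absurd (Real.log_nonpos (Nat.cast_nonneg _) (not_lt.1 hn)) (not_le.2 h1)

lemma t_pos (h : LH p t ε H) : 0 < t :=
  have := n_gt h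
  lt_of_lt_of_le (by unfold Pm.lo; positivity) h.lo

lemma ts_le (h : LH p t ε H) : p.ts ≤ p.tss := by
  have o := h.ord.ok
  refine Real.rpow_le_rpow_of_exponent_le (n_gt h).le ?_
  linarith [o.ch.2, o.d.2, o.k4.2, o.ch.1]

lemma H_nn (h : LH p t ε H) : 0 ≤ H := by
  have := n_gt h
  have := t_pos h
  have := h.e0
  have := h.ord.ok.ef
  exact le_trans (le_min (by unfold Pm.M; positivity) (by positivity)) h.H0

lemma psd {n k : ℕ} {o : Orb n k} (ho : o.Ok) (h : ∀ v, 0 ≤ v ⬝ᵥ (o.z • (1 : Mn n) - o.W) *ᵥ v)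
    {U : Mat k} (hU : U ∈ SO k) (v : Vn n) : 0 ≤ v ⬝ᵥ o.A U *ᵥ v := by
  rw [Orb.A, AU_eq ho.iso hU, ← mulVec_mulVec, ← mulVec_mulVec, dotProduct_mulVec, ← mulVec_transpose]
  exact h _

end HiW64

open HiW64 in
theorem hiWGlue : HiWGlue := by
  intro nw nh p t ε H η κ k o μ _ x vt X ht k1 kC hv hE
  have L := X.lh
  have n1 := n_gt L
  have t0 := t_pos L
  have H0 := H_nn L
  have e0 := L.e0
  have e1 := L.e1
  have ho := X.ctx.ok
  obtain ⟨w1, w2⟩ := nw p t ε H L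
  have w3 := w2 ((ts_le L).trans ht)
  have h9 := (nh p t ε H L ht).2.2.2.2.2.2.2.2
  have l0 : 0 < ll p := Real.rpow_pos_of_pos (by linarith) _
  have s0 : 0 ≤ sm p := Real.rpow_nonneg (by linarith) _
  have s1 : sm p ≤ 1 := Real.rpow_le_one_of_one_le_of_nonpos n1.le (by norm_num)
  have κ0 : 0 < κ := by linarith
  have h10 : 9 * ll p + 3 * sm p ≤ ε / 16 * (t / κ) := h9.trans (by
    rw [div_mul_div_comm]; gcongr)
  have tk : 0 < t / κ := div_pos t0 κ0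
  have key : ∀ U ∈ SO k, Em κ t o x vt U →
      CB (o.w U) sv (κ * (1 + ε / 8) / t) ∧ CB (o.w U) (fA (o.A U) sv) 60 := fun U hU hm => by
    obtain ⟨c1, c2⟩ := O6m.mEndStmt p.n (o.w U) (o.A U) (Bz o x) o.p vt (ll p) (t / κ) 6 (sm p)
      (Orb.wt U) (Orb.A_symm ho U) (by simp [Bz, transpose_vecMulVec]) (by norm_num)
      (X.ctx.cr U hU).a (psd ho X.fx.psd hU) X.ctx.p1 l0 s0 s1 hv hm.pos (by nlinarith) hm.op
    refine ⟨c1.mono ?_, c2.mono (by norm_num)⟩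
    have : (1 - ε / 16) * (t / κ) ≤ t / κ - (9 * ll p + 3 * sm p) := by linarith
    refine (inv_anti₀ (mul_pos (by linarith) tk) this).trans ?_
    rw [inv_le_iff_one_le_mul₀ (mul_pos (by linarith) tk)]
    have : κ * (1 + ε / 8) / t * ((1 - ε / 16) * (t / κ)) = (1 + ε / 8) * (1 - ε / 16) := by
      field_simp
    rw [this]; nlinarith
  have hk : (k : ℝ) - 2 = ro p := by rw [ro, ← X.fx.pt.dim]; push_cast; ring
  have c := X.ctx.nn
  have wc : 0 ≤ (wC (c1 p t) + 1) * H := by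
    have := c.lam; have := c.v4
    unfold wC; positivity
  have wa : 0 ≤ (wA (c1 p t) + 1) * H := by
    have := c.lam; have := c.v4'; have := c.k1; have := c.k2
    unfold wA; positivity
  constructor
  · refine le_trans (measureReal_mono fun U hU hc => hU (CB.mono hc ?_))
      ((wStmt _ _ o μ _ _ _ _ _ (κ * (1 + ε / 8) / t) (ε / (8 * t)) (1 + ε / 8) (3 * H) X.ctx
        (by positivity) (by positivity) (by linarith)).1 ?_
        (le_trans (real_mono_SO X.ctx.inv fun U hU h hm => h (key U hU hm).1) hE))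
    · have : (1 + ε / 8) * (κ * (1 + ε / 8) / t) + ε / (8 * t) =
          (κ * (1 + ε / 8) ^ 2 + ε / 8) / t := by field_simp
      rw [this]
      refine div_le_div_of_nonneg_right ?_ t0.le
      nlinarith [mul_nonneg κ0.le (mul_nonneg e0.le (sub_nonneg.2 e1))]
    · rw [hk]
      have : (1 + ε / 8) ^ 2 ≤ 4 := by nlinarith
      nlinarith
  · refine le_trans (measureReal_mono fun U hU hc => hU (CB.mono hc (by norm_num)))
      ((wStmt _ _ o μ _ _ _ _ _ 60 (1 / 20) (3 / 2) (3 * H) X.ctx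
        (by norm_num) (by norm_num) (by norm_num)).2 ?_
        (le_trans (real_mono_SO X.ctx.inv fun U hU h hm => h (key U hU hm).2) hE))
    rw [hk]
    rw [Pm.kk, if_pos ht] at w3
    nlinarith

end Crest.Agent.T157.Og
end
end

-- ▼ part T157/OgEv_26
section

set_option autoImplicit false
set_option linter.unusedSectionVars false

/-!
Row 157, A2 (helper26): the event `Ba26.Ev` from the weighted resolvent identity and (P), with
`C + l ≤ (12 / l0) Δ` and `|C|_F² ≤ 100 |A⁻¹|_F²`.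
-/

noncomputable section

namespace Crest.Agent.T157.Ba26

open MeasureTheory Matrix Crest.Agent.Lib.OrthPoinc
open Crest.Agent.T157.Oc Crest.Agent.T157.E Crest.Agent.T157.SL Crest.Agent.T157.Ks
open Crest.Agent.T157.Od Crest.Agent.T157.Oo Crest.Agent.T157.O6 Crest.Agent.T157.O6m

variable {n k : ℕ}

/-- `0 ≤ C ≤ c G` gives `|C|_F ≤ c |G|_F` -/
theorem fr_le_of_form {C G : Mn n} {c : ℝ} (hC : Cᵀ = C) (h0 : ∀ u, 0 ≤ u ⬝ᵥ C *ᵥ u)
    (h : ∀ u, u ⬝ᵥ C *ᵥ u ≤ c * (u ⬝ᵥ G *ᵥ u)) : fr C ≤ c ^ 2 * fr G := by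
  have hp : C.PosSemidef := PosSemidef.of_dotProduct_mulVec_nonneg (by
    rw [IsHermitian, conjTranspose_eq_transpose_of_trivial, hC]) fun x => by simpa using h0 x
  obtain ⟨m, v, hv⟩ := posSemidef_iff_eq_sum_vecMulVec.1 hp
  have key : ∀ X : Mn n, ∑ j, ∑ l, C j l * X j l = ∑ i, v i ⬝ᵥ X *ᵥ v i := fun X => by
    simp only [hv, Matrix.sum_apply, vecMulVec_apply, Finset.sum_mul, dotProduct, mulVec,
      Finset.mul_sum, Pi.star_apply, star_trivial]
    rw [Finset.sum_comm (γ := Fin m)]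
    refine Finset.sum_congr rfl fun j _ => ?_
    rw [Finset.sum_comm]
    exact Finset.sum_congr rfl fun _ _ => Finset.sum_congr rfl fun _ _ => by ring
  have h1 : fr C ≤ c * ∑ j, ∑ l, C j l * G j l := by
    rw [key, Finset.mul_sum]
    refine le_trans (le_of_eq ?_) (Finset.sum_le_sum fun i _ => h (v i))
    rw [← key]; simp only [fr, sq]
  have h2 : 2 * (c * ∑ j, ∑ l, C j l * G j l) ≤ fr C + c ^ 2 * fr G := by
    simp only [fr, Finset.mul_sum, ← Finset.sum_add_distrib]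
    exact Finset.sum_le_sum fun j _ => Finset.sum_le_sum fun l _ => by
      nlinarith [sq_nonneg (C j l - c * G j l)]
  linarith

/-- `C + l ≤ (12 / l0) Δ` -/
theorem Cl_le {w : Cube n → ℝ} {A B0 : Mn n} {p vt : Vn n} {l l0 s : ℝ} (hw : Wt w)
    (hp : ∀ i, |p i| ≤ 1) (hl : 0 < l) (s0 : 0 ≤ s)
    (hv : ∀ i, 0 ≤ vt i ∧ vt i ≤ 3 ∧ vt i * (1 - p i ^ 2) ≤ 1) (hP : Pos A B0 vt l0)
    (he : 9 * l + 3 * s ≤ l0 / 4) (l3 : l0 ≤ 3)
    (h : OpLe (Rt w A p l - (1 - Sq p l * B0 * Sq p l)) s) (u : Vn n) :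
    u ⬝ᵥ Cl w l *ᵥ u ≤ 12 / l0 * qd (Dl p l) u := by
  have l0p : 0 < l0 := by linarith
  have e : Sq p l * (Cl w l)⁻¹ * Sq p l * (Si p l * Cl w l * Si p l) = 1 := by
    rw [Matrix.mul_assoc, ← Matrix.mul_assoc (Sq p l) (Si p l * Cl w l),
      ← Matrix.mul_assoc (Sq p l) (Si p l), Sq_Si hp hl, Matrix.one_mul, ← Matrix.mul_assoc,
      Matrix.mul_assoc (Sq p l), J_Cl hw hl, Matrix.mul_one, Sq_Si hp hl]
  have h1 := inv_le e (show 0 < l0 / 12 by positivity) (fun x => ?_) (Sq p l *ᵥ u)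
  · rw [Sq_dot hp hl, dot_mul3, Si_t, mulVec_mulVec, Si_Sq hp hl, one_mulVec, inv_div] at h1
    exact h1
  · have h2 := (abs_le.1 (opLe_hom h x)).1
    have h3 := (hP (Sq p l *ᵥ x)).1
    have h4 : l0 / 12 * (x ⬝ᵥ x) ≤ l0 * qd (Dl p l) x + (1 - s) * (x ⬝ᵥ x) -
        Sq p l *ᵥ x ⬝ᵥ diagonal vt *ᵥ (Sq p l *ᵥ x) := by
      simp only [Sq, qd, dotProduct, mulVec_diagonal, Finset.mul_sum, ← Finset.sum_sub_distrib,
        ← Finset.sum_add_distrib]
      refine Finset.sum_le_sum fun i _ => ?_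
      have d0 := Dl_pos hp hl i
      have e2 : √(Dl p l i) * x i * (vt i * (√(Dl p l i) * x i)) = vt i * Dl p l i * x i ^ 2 := by
        linear_combination vt i * x i ^ 2 * Real.mul_self_sqrt d0.le
      obtain ⟨v0, v3, v1⟩ := hv i
      have key : l0 / 12 ≤ l0 * Dl p l i + (1 - s) - vt i * Dl p l i := by
        rcases le_total (Dl p l i) (1 / 6) with h3 | h3
        · nlinarith [mul_le_mul_of_nonneg_right v3 d0.le, mul_pos l0p d0]
        · have : vt i * Dl p l i = vt i * (1 - p i ^ 2) + vt i * l := by unfold Dl; ring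
          nlinarith [mul_le_mul_of_nonneg_left h3 l0p.le, mul_le_mul_of_nonneg_right v3 hl.le]
      rw [e2]
      nlinarith [mul_le_mul_of_nonneg_right key (sq_nonneg (x i))]
    rw [Sq_dot hp hl] at h3
    simp only [Rt, sub_mulVec, add_mulVec, dotProduct_sub, dotProduct_add, dot_mul3, Sq_t,
      one_mulVec] at h2 h3 ⊢
    linarith

/-- **the event of (BA)** from the resolvent identity and (P) -/
theorem ev_of {o : Orb n k} (ho : o.Ok) {U : Mat k} {e vt : Vn n} {G : Mn n} {l l0 s a g2 β χi : ℝ}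
    (a0 : 0 ≤ a) (ha : Op2 (o.A U) (a ^ 2)) (A0 : ∀ v, 0 ≤ v ⬝ᵥ o.A U *ᵥ v) (hp : ∀ i, |o.p i| ≤ 1)
    (hl : 0 < l) (s0 : 0 ≤ s) (hv : ∀ i, 0 ≤ vt i ∧ vt i ≤ 3 ∧ vt i * (1 - o.p i ^ 2) ≤ 1)
    (hP : Pos (o.A U) (χi • (1 : Mn n) + β • vecMulVec e e) vt l0) (he : 9 * l + 3 * s ≤ l0 / 4)
    (l3 : l0 ≤ 3) (hG : o.A U * G = 1) (hg : fr G ≤ g2)
    (h : OpLe (Rt (o.w U) (o.A U) o.p l -
      (1 - Sq o.p l * (χi • (1 : Mn n) + β • vecMulVec e e) * Sq o.p l)) s) :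
    Ev o (Dl o.p l) e l β χi (l0 - (9 * l + 3 * s))⁻¹ (10 * a) (100 * g2) (12 / l0) (s ^ 2) U := by
  have hA := Orb.A_symm ho U
  have Bs : (χi • (1 : Mn n) + β • vecMulVec e e)ᵀ = χi • (1 : Mn n) + β • vecMulVec e e := by
    simp only [transpose_add, transpose_smul, transpose_one, transpose_vecMulVec]
  have s1 : s ≤ 1 := by linarith
  have he' : 9 * l + 3 * s ≤ l0 / 2 := by linarith
  obtain ⟨e1, e2⟩ := mEndStmt n (o.w U) (o.A U) _ o.p vt l l0 a s (Orb.wt U) hA Bs a0 ha A0 hp hl s0 s1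
    hv hP he' h
  have e3 := op_of_opLe (by
    simp only [transpose_sub, Rt_t hA, transpose_one, transpose_mul, Sq_t, Bs, Matrix.mul_assoc]) h s0
  refine ⟨e1, e2, ?_, Cl_le (Orb.wt U) hp hl s0 hv hP he l3 h, e3⟩
  have := fr_le_of_form (C := o.C U) (G := G) (c := 10) (covMat_transpose _ _) (C_nonneg U) fun u => by
    have h1 := mEnd_form (Orb.wt U) hA A0 hp hl s0 s1 hv hP he' h (G *ᵥ u)
    rw [mulVec_mulVec, hG, one_mulVec, dotProduct_comm (G *ᵥ u)] at h1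
    exact h1
  linarith

/-- the same on the orbit, from the base point `z - W` and its inverse `G0` -/
theorem ev_orb {o : Orb n k} (ho : o.Ok) {c : Cs} (hc : c.Nn) {U : Mat k} (hU : U ∈ o.G c)
    {e vt : Vn n} {G0 : Mn n} {l l0 s g2 β χi : ℝ}
    (A0 : ∀ v, 0 ≤ v ⬝ᵥ (o.z • (1 : Mn n) - o.W) *ᵥ v) (hp : ∀ i, |o.p i| ≤ 1)
    (hl : 0 < l) (s0 : 0 ≤ s) (hv : ∀ i, 0 ≤ vt i ∧ vt i ≤ 3 ∧ vt i * (1 - o.p i ^ 2) ≤ 1)
    (hP : Pos (o.A U) (χi • (1 : Mn n) + β • vecMulVec e e) vt l0) (he : 9 * l + 3 * s ≤ l0 / 4)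
    (l3 : l0 ≤ 3) (hG : (o.z • (1 : Mn n) - o.W) * G0 = 1) (hg : fr G0 ≤ g2)
    (h : OpLe (Rt (o.w U) (o.A U) o.p l -
      (1 - Sq o.p l * (χi • (1 : Mn n) + β • vecMulVec e e) * Sq o.p l)) s) :
    Ev o (Dl o.p l) e l β χi (l0 - (9 * l + 3 * s))⁻¹ (10 * c.a) (100 * g2) (12 / l0) (s ^ 2) U := by
  have g1 := emb_orth ho.iso hU.1
  have g2 := emb_orth' ho.iso hU.1
  refine ev_of ho (G := emb o.E U * G0 * (emb o.E U)ᵀ) hc.a.le hU.2.a (fun v => ?_) hp hl s0 hv hP he l3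
    ?_ ?_ h
  · rw [Orb.A, AU_eq ho.iso hU.1, dot_mul3]; exact A0 _
  · rw [Orb.A, AU_eq ho.iso hU.1]
    simp only [Matrix.mul_assoc]
    rw [← Matrix.mul_assoc (emb o.E U)ᵀ, g2, Matrix.one_mul, ← Matrix.mul_assoc _ G0, hG,
      Matrix.one_mul, g1]
  · rw [fr_orth_right (by rw [transpose_transpose]; exact g2), fr_orth_left g2]; exact hg

end Crest.Agent.T157.Ba26
end
end

-- ▼ part T157/OgHf_15

set_option autoImplicit false
set_option linter.unusedSectionVars false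

/-!
Row 157, A2 (helper15): (g3), (g4) above `t**`.
-/

noncomputable section

namespace Crest.Agent.T157.Og

open MeasureTheory Matrix Crest.Agent.Lib.OrthPoinc Filter Topology Set
open Crest.Agent.T157.Oc Crest.Agent.T157.E Crest.Agent.T157.SL Crest.Agent.T157.Ks
open Crest.Agent.T157.Od Crest.Agent.T157.Oo Crest.Agent.T157.O6 Crest.Agent.T157.O0

namespace Hf15

theorem site {P q l w : ℝ} (P0 : 0 ≤ P) (q0 : 0 ≤ q) (l0 : 0 ≤ l) (hP : P ≤ w) (hq : q ≤ w)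
    (hw : w ≤ 1 / 2) : ((1 - P + l)⁻¹ - (1 - q)⁻¹) ^ 2 ≤ 16 * (P + l + q) ^ 2 := by
  have h1 : 1 / 2 ≤ 1 - P + l := by linarith
  have h2 : 1 / 2 ≤ 1 - q := by linarith
  have h3 : 1 / 4 ≤ (1 - P + l) * (1 - q) := by nlinarith
  have h4 : (P - l - q) ^ 2 ≤ (P + l + q) ^ 2 := by nlinarith [mul_nonneg P0 l0, mul_nonneg P0 q0]
  rw [inv_sub_inv (by linarith) (by linarith), div_pow, div_le_iff₀ (by positivity),
    show 1 - q - (1 - P + l) = P - l - q by ring]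
  have h5 : 1 / 16 ≤ ((1 - P + l) * (1 - q)) ^ 2 := by nlinarith
  nlinarith [sq_nonneg (P + l + q)]

theorem three {P q l L C t : ℝ} (h1 : l ^ 2 ≤ t) (h2 : q ^ 2 ≤ L * t) (h3 : (1 + L) * t ≤ C * t) :
    16 * (P ^ 2 + l + q) ^ 2 ≤ 48 * P ^ 4 + 48 * (C * t) := by
  nlinarith [sq_nonneg (P ^ 2 - l), sq_nonneg (P ^ 2 - q), sq_nonneg (l - q)]

theorem crude_le {R : ℝ} (h : 1 ≤ R) : (crude 6 R).gX1U ≤ MM R ∧ (crude 6 R).gPhiU ≤ MM R := by
  have h1 : 1 ≤ R ^ 8 := one_le_pow₀ h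
  have h2 : R ^ 2 ≤ R ^ 8 := pow_le_pow_right₀ h (by norm_num)
  have h4 : R ^ 4 ≤ R ^ 8 := pow_le_pow_right₀ h (by norm_num)
  simp only [Cs.gX1U, Cs.gPhiU, Cs.lam, crude, MM]
  constructor <;> nlinarith

/-- the small numbers -/
theorem nums {p : Pm} (h : Ord p) {t : ℝ} (t0 : 0 < t) (ht : t ≤ p.t0) :
    p.L / 50 * √t ≤ t ^ (9 / 20 : ℝ) ∧ t ^ (9 / 20 : ℝ) ≤ 1 / 2 ∧ t ≤ t ^ (9 / 20 : ℝ) ∧
      t ≤ t ^ (1 / 3 : ℝ) ∧ 1 + p.L ^ 2 ≤ p.C := by
  have hL := h.ok.L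
  have t1 : t ≤ 1 := by linarith [h.ok.t0.2]
  have L1 : 1 ≤ p.L := by linarith
  have c1 : 1 + p.L ^ 2 ≤ p.C := by
    have : p.L ^ 2 ≤ p.L ^ 10 := pow_le_pow_right₀ L1 (by norm_num)
    nlinarith [h.C]
  have b1 : p.L ≤ p.B := by
    have := le_self_pow₀ h.ok.C (n := 10) (by norm_num)
    nlinarith [h.K, h.ok.B]
  have b2 : p.L ^ 20 * t ≤ 1 := by
    have : p.L ^ 20 ≤ p.B ^ 1000 :=
      (pow_le_pow_left₀ (by linarith) b1 20).trans (pow_le_pow_right₀ (by linarith) (by norm_num))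
    exact (mul_le_mul this ht t0.le (by positivity)).trans ((mul_comm _ _).trans_le h.t0)
  obtain ⟨u, u0, rfl⟩ : ∃ u : ℝ, 0 < u ∧ t = u ^ 20 := ⟨t ^ ((20 : ℕ) : ℝ)⁻¹, by positivity,
    (Real.rpow_inv_natCast_pow t0.le (by norm_num)).symm⟩
  have e1 : √(u ^ 20) = u ^ 10 := by
    rw [show u ^ 20 = (u ^ 10) ^ 2 by ring, Real.sqrt_sq (by positivity)]
  have e2 : (u ^ 20) ^ (9 / 20 : ℝ) = u ^ 9 := by
    rw [← Real.rpow_natCast, ← Real.rpow_mul u0.le, ← Real.rpow_natCast]; norm_num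
  have b3 : p.L * u ≤ 1 := by
    rw [← mul_pow] at b2
    exact (pow_le_one_iff_of_nonneg (by positivity) (by norm_num)).1 b2
  have u1 : u ≤ 1 / 2 := by nlinarith
  refine ⟨?_, ?_, Real.self_le_rpow_of_le_one t0.le t1 (by norm_num),
    Real.self_le_rpow_of_le_one t0.le t1 (by norm_num), c1⟩
  · rw [e1, e2]
    nlinarith [pow_pos u0 9]
  · rw [e2]
    exact (pow_le_of_le_one u0.le (by linarith) (by norm_num)).trans u1

end Hf15

open Hf15

theorem hiFGlue : HiFGlue := fun hH hF p t H η k o μ _ x vt X ht hv hS hm => by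
  obtain ⟨lh, fx, ctx, -⟩ := X
  have hn : (0 : ℝ) < p.n := by have := ctx.R1; unfold RR at this; linarith
  have t0 : 0 < t := (Real.rpow_pos_of_pos hn _).trans_le ht
  have C1 := lh.ord.ok.C
  have t1 : t ≤ 1 / 100 := lh.hi.trans lh.ord.ok.t0.2
  obtain ⟨n1, n2, n3, n4, n5⟩ := nums lh.ord t0 lh.hi
  obtain ⟨f1, f2, f3⟩ := hF p t H lh ht
  have e9 := (hH p t 1 H lh ht).2.2.2.2.2.2.2.2
  rw [one_mul, mul_comm 16, ← div_div] at e9
  have l0 : 0 < ll p := Real.rpow_pos_of_pos hn _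
  have s0 : 0 < sm p := Real.rpow_pos_of_pos hn _
  have τ0 : 0 < t / p.C := by positivity
  have τ1 : t / p.C ≤ t := div_le_self t0.le C1
  obtain ⟨T, hT, hT'⟩ := hS.T
  obtain ⟨G, hG, hG'⟩ := hS.tr
  set q : ℝ := o.p ⬝ᵥ o.p / p.n with hq
  have q0 : 0 ≤ q := div_nonneg (Ba26.dnn _) hn.le
  have q1 : q ≤ p.L / 50 * √t := by rw [hq, div_le_iff₀ hn]; linarith [fx.P]
  have hχ : Kp.chi x = 1 - q := by
    rw [hq, fx.pt.p]
    simp only [Kp.chi, Tap.avg, Tap.DD, Finset.sum_sub_distrib, dotProduct, sq]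
    simp; field_simp
  have sq : (√(p.n : ℝ))⁻¹ * (√(p.n : ℝ))⁻¹ = (p.n : ℝ)⁻¹ := by
    rw [← mul_inv, Real.mul_self_sqrt hn.le]
  have hB : Bz o x = (1 - q)⁻¹ • (1 : Mn p.n) +
      (2 : ℝ) • vecMulVec ((√(p.n : ℝ))⁻¹ • o.p) ((√(p.n : ℝ))⁻¹ • o.p) := by
    rw [Bz, hχ, smul_vecMulVec, vecMulVec_smul, smul_smul, smul_smul, mul_assoc, sq, div_eq_mul_inv]
  have hc0 : (crude 6 (RR p)).Nn := crude_nn (by norm_num) (by linarith [ctx.R1])
  have h0 : ∀ U ∈ SO k, U ∈ o.G (crude 6 (RR p)) := fun U hU => ⟨hU, ctx.cr U hU⟩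
  have hs := fun i hi => site (sq_nonneg (o.p i)) q0 l0.le (hT' i hi) (q1.trans n1) n2
  have g1 : 0 ≤ (c1 p t).gX1U := by
    have := ctx.nn.lam; have := ctx.nn.N; have := ctx.nn.k1; have := ctx.nn.k2
    unfold Cs.gX1U; positivity
  have g2 : 0 ≤ (c1 p t).gPhiU := by
    have := ctx.nn.lam; have := ctx.nn.N'; have := ctx.nn.k1; have := ctx.nn.k2
    unfold Cs.gPhiU; positivity
  have M0 : 0 ≤ MM (RR p) := by unfold MM; positivity
  have y2 : √(p.n * t / 64) ^ 2 = p.n * t / 64 := Real.sq_sqrt (by positivity)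
  have hk : (k : ℝ) - 2 = ro p := by
    rw [ro, ← fx.pt.dim]; push_cast; ring
  have key := Ba26.g34 (μ := μ) (De := Dl o.p (ll p)) (e := (√(p.n : ℝ))⁻¹ • o.p) (T := T)
    (χi := (1 - q)⁻¹) (B := (c1 p t).gX1U + (c1 p t).gPhiU + 1) (H := 3 * H) (y := √(p.n * t / 64))
    ctx.inv ctx.ok ctx.nn hc0 h0 (by positivity) (by norm_num) l0
    (fun i => O6m.Dl_pos ctx.p1 l0 i) (by positivity) ?_ (sq_nonneg _) hT
    (fun i hi => by have := hT' i hi; unfold Dl; linarith) (fun i hi => (hs i hi).trans ?_) ?_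
    (le_trans (real_mono_SO (B := {U | ¬ Em p.C t o x vt U}) ctx.inv fun U hU hx hE => hx ?_) hm)
    (by positivity) f1 (by positivity) f2
    (by linarith) (by linarith) (by linarith) M0 (crude_le ctx.R1).1 (crude_le ctx.R1).2
    (by positivity) (by rw [hk, y2]; exact f3)
  · have e : Real.exp (-(3 * H)) + MM (RR p) / ((c1 p t).gX1U + (c1 p t).gPhiU + 1) *
        μ.real (o.G (c1 p t))ᶜ ≤ fl (RR p) η (3 * H) :=
      add_le_add_right (mul_le_mul (div_le_self M0 (by linarith)) ctx.G measureReal_nonneg M0) _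
    rw [y2] at key
    have a1 := mul_le_mul_of_nonneg_left n4 hn.le
    have a2 := mul_le_mul_of_nonneg_right C1 (mul_pos hn t0).le
    refine ⟨(measureReal_mono fun U hU => ?_).trans (key.1.trans e),
      (measureReal_mono fun U hU => ?_).trans (key.2.trans e)⟩ <;>
    simp only [mem_ofPred_eq] at hU ⊢ <;> linarith [mul_pos hn t0]
  · rw [smul_dotProduct, dotProduct_smul, smul_eq_mul, smul_eq_mul, ← mul_assoc, sq, ← div_eq_inv_mul]
    linarith
  · have := hT' i hi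
    have h1 : o.p i ^ 2 + ll p + q ≤ 3 * t ^ (9 / 20 : ℝ) := by linarith
    have h2 := pow_le_pow_left₀ (by positivity) h1 2
    linarith
  · have h1 : ll p ^ 2 ≤ t :=
      (pow_le_of_le_one l0.le (by linarith) (by norm_num)).trans (by linarith)
    have h2 : q ^ 2 ≤ p.L ^ 2 * t := by
      have := pow_le_pow_left₀ q0 q1 2
      rw [mul_pow, Real.sq_sqrt t0.le] at this
      linarith [mul_nonneg (sq_nonneg p.L) t0.le]
    calc _ ≤ ∑ i, (48 * o.p i ^ 4 + 48 * (p.C * t)) := Finset.sum_le_sum fun i _ => by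
          have := mul_le_mul_of_nonneg_right n5 t0.le
          split_ifs with hi
          · positivity
          · exact (hs i hi).trans (three h1 h2 this)
      _ ≤ _ := by
          rw [Finset.sum_add_distrib, ← Finset.mul_sum, Finset.sum_const, Finset.card_univ,
            Fintype.card_fin, nsmul_eq_mul]
          linarith [hS.p4, mul_pos (mul_pos (one_pos.trans_le C1) hn) t0]
  · obtain ⟨hP, hO⟩ := hE
    rw [hB] at hP hO
    obtain ⟨a1, a2, a3, a4, a5⟩ := Ba26.ev_orb ctx.ok hc0 (h0 U hU) fx.psd ctx.p1 l0 s0.le hv hP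
      (by linarith) (by linarith) hG hG' hO
    refine ⟨a1.mono ?_, a2.mono (by norm_num [crude]), a3, ?_, a5⟩
    · rw [show 2 * p.C / t = (t / p.C / 2)⁻¹ by field_simp]
      exact inv_anti₀ (by positivity) (by linarith)
    · rwa [show 12 * p.C / t = 12 / (t / p.C) by field_simp]

end Crest.Agent.T157.Og

end
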