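import Crest.Agent.T157.OgDef_9
import Crest.Agent.T157.OgHf_15_Mg
import Crest.Agent.T157.O6s_61

-- ▼ part T157/OgLo_5
section

set_option autoImplicit false
set_option linter.unusedSectionVars false

/-!
Row 157, A2 (helper5): the orbit step below `t**` (`LoL`, `MidL`).
-/

noncomputable section

namespace Crest.Agent.T157.Og

open MeasureTheory Matrix Crest.Agent.Lib.OrthPoinc Filter Topology Set Real
open Crest.Agent.T157.Oc Crest.Agent.T157.E Crest.Agent.T157.SL Crest.Agent.T157.Ks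
open Crest.Agent.T157.Od Crest.Agent.T157.Oo Crest.Agent.T157.O6 Crest.Agent.T157.O0

namespace Lo5

/-- the matrix moment bound with `q ≈ log n` -/
theorem pim_le {n k : ℕ} {B M η s l : ℝ} (hk : k + 2 = n) (hn : exp l = n) (hl : 10 ^ 12 ≤ l)
    (B0 : 0 ≤ B) (hB : B * l ^ 3 ≤ ((n : ℝ) - 4) * s ^ 2) (hs : 1 ≤ n * s ^ 2) (M0 : 0 ≤ M)
    (hM : M ≤ exp (9 * l)) (η0 : 0 ≤ η) (hη : η ≤ exp (-l ^ 3)) :
    ∃ r, Even r ∧ pim n k r B M η s ≤ 2 * exp (-(22 * l)) := by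
  obtain ⟨r, he, r1, r2⟩ : ∃ r : ℕ, Even r ∧ l ≤ r + 1 ∧ (r : ℝ) + 1 ≤ 2 * l :=
    ⟨2 * ⌈l / 2⌉₊, even_two_mul _, by push_cast; linarith [Nat.le_ceil (l / 2)], by
      push_cast; linarith [Nat.ceil_lt_add_one (show 0 ≤ l / 2 by linarith)]⟩
  refine ⟨r, he, ?_⟩
  have l0 : 0 < l := by linarith
  have n1 : 16 * l ^ 2 ≤ n := by
    have := Real.pow_div_factorial_le_exp l l0.le 3
    rw [hn] at this
    norm_num [Nat.factorial] at this
    nlinarith [sq_nonneg l]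
  have n5 : (5 : ℝ) ≤ n := by nlinarith
  have s0 : 0 < s ^ 2 := (sq_nonneg s).lt_of_ne fun h => by rw [← h] at hs; linarith
  have ek : (k : ℝ) - 2 = n - 4 := by rw [← hk]; push_cast; ring
  have ρ0 : (0 : ℝ) < n - 4 := by linarith
  set a := 4 * ((n : ℝ) - 4)⁻¹ * ((r : ℝ) + 1) ^ 2 / s ^ 2 with ha
  have a0 : 0 ≤ a := by positivity
  have e : pim n k r B M η s = n * (a * B) ^ (r + 1) + n * ((a * M) ^ (r + 1) * η) := by
    rw [pim, ek, pow_mul, ha]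
    simp only [mul_pow, div_pow]
    ring
  have q2 : ((r : ℝ) + 1) ^ 2 ≤ (2 * l) ^ 2 := by gcongr
  have a1 : a * (((n : ℝ) - 4) * s ^ 2) ≤ 16 * l ^ 2 := by
    rw [ha, div_mul_eq_mul_div, ← mul_assoc, mul_div_assoc, div_self s0.ne', mul_one, mul_right_comm,
      inv_mul_cancel_right₀ ρ0.ne']
    linarith
  have h1 : a * B ≤ exp (-24) := by
    have b1 : a * B * l ^ 3 ≤ 16 * l ^ 2 := by
      rw [mul_assoc]; exact (mul_le_mul_of_nonneg_left hB a0).trans a1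
    have b2 : exp 24 ≤ (11 / 4) ^ 24 := by
      rw [show (24 : ℝ) = (24 : ℕ) * 1 by norm_num, exp_nat_mul]
      exact pow_le_pow_left₀ (exp_pos _).le (by linarith [exp_one_lt_d9]) _
    rw [Real.exp_neg, ← one_div, le_div_iff₀ (exp_pos _)]
    have b3 : a * B * l ≤ 16 := le_of_mul_le_mul_right (by nlinarith) (pow_pos l0 2)
    exact (mul_le_mul_of_nonneg_left (show exp 24 ≤ l / 16 by linarith) (mul_nonneg a0 B0)).trans
      (by linarith)
  have h2 : a * M ≤ exp (11 * l) := by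
    have b1 : a ≤ n * n := by
      have : a * s ^ 2 ≤ n := by nlinarith [mul_nonneg a0 s0.le]
      nlinarith
    rw [show 11 * l = l + l + 9 * l by ring, exp_add, exp_add, hn]
    gcongr
  have h3 : (a * B) ^ (r + 1) ≤ exp (-(23 * l)) :=
    (pow_le_pow_left₀ (by positivity) h1 _).trans (by
      rw [← exp_nat_mul]; push_cast; exact exp_le_exp.2 (by linarith))
  have h4 : (a * M) ^ (r + 1) * η ≤ exp (-(23 * l)) :=
    (mul_le_mul (pow_le_pow_left₀ (by positivity) h2 _) hη η0 (by positivity)).trans (by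
      rw [← exp_nat_mul, ← exp_add]; push_cast
      exact exp_le_exp.2 (by nlinarith [mul_le_mul_of_nonneg_right r2 l0.le, sq_nonneg l]))
  have h5 : n * exp (-(23 * l)) = exp (-(22 * l)) := by rw [← hn, ← exp_add]; congr 1; ring
  rw [e]
  nlinarith [mul_le_mul_of_nonneg_left h3 (show (0 : ℝ) ≤ n by linarith),
    mul_le_mul_of_nonneg_left h4 (show (0 : ℝ) ≤ n by linarith)]

variable {p : Pm} {t ε H η : ℝ}

theorem C_le (h : Ord p) : 10 ^ 12 ≤ p.C ∧ p.C ≤ p.B2 := by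
  have o := h.ok
  have a1 : (100 : ℝ) ^ 10 ≤ p.L ^ 10 := pow_le_pow_left₀ (by norm_num) o.L _
  have a2 : p.C ≤ p.C ^ 10 := le_self_pow₀ o.C (by norm_num)
  exact ⟨by linarith [h.C], by linarith [h.K, o.B, o.B0, o.B2]⟩

theorem B2_le (h : Ord p) : p.B2 ≤ lg p :=
  (le_self_pow₀ (by linarith [(C_le h).1, (C_le h).2]) (by norm_num)).trans h.n1

theorem l_ge (h : Ord p) : 10 ^ 12 ≤ lg p := by linarith [(C_le h).1, (C_le h).2, B2_le h]

theorem n_gt (h : Ord p) : (1 : ℝ) < p.n := by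
  by_contra h1
  linarith [log_nonpos p.n.cast_nonneg (not_lt.1 h1), show 10 ^ 12 ≤ log p.n from l_ge h]

theorem exp_l (h : Ord p) : exp (lg p) = p.n := exp_log (by linarith [n_gt h])

theorem cv_le (h : Ord p) : p.A * p.cv ≤ p.k2 / 100 ∧ p.cv ≤ p.k2 ∧ p.k2 ≤ p.d ∧ p.d ≤ 1 / 10 := by
  have o := h.ok
  have a1 : (1 : ℝ) ≤ p.A := by exact_mod_cast o.A
  have := o.cv
  have := o.cv'
  have := le_mul_of_one_le_left o.cv.le a1
  refine ⟨?_, ?_, ?_, ?_⟩ <;> linarith [o.k3.1, o.k3.2, o.k2.2, o.k4.2, o.d.2, o.ch.2, o.k4.1, o.d.1]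

theorem pow_le (h : Ord p) {c : ℝ} (hc : p.cv ≤ c) : lg p ^ 100 ≤ (p.n : ℝ) ^ c :=
  h.n3.trans (rpow_le_rpow_of_exponent_le (n_gt h).le hc)

theorem l4 (h : Ord p) : 64 * lg p ^ 3 ≤ lg p ^ 100 := by
  have := l_ge h
  calc 64 * lg p ^ 3 ≤ lg p * lg p ^ 3 := by gcongr; linarith
    _ = lg p ^ 4 := by ring
    _ ≤ _ := pow_le_pow_right₀ (by linarith) (by norm_num)

theorem n_ge (h : Ord p) : lg p ^ 100 ≤ p.n := by
  simpa using pow_le h (c := 1) (by linarith [cv_le h])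

theorem ty_le (h : Ord p) : ty p ≤ exp (-lg p ^ 3) :=
  exp_le_exp.2 (by linarith [l4 h, pow_le h (c := p.d) (by linarith [cv_le h])])

theorem MM_le (h : Ord p) : MM (RR p) ≤ exp (9 * lg p) := by
  rw [show 9 * lg p = (9 : ℕ) * lg p by norm_num, exp_nat_mul, exp_l h, MM, RR, mul_pow, pow_succ' _ 8,
    ← mul_assoc]
  have := l_ge h
  have a : (10 ^ 12 : ℝ) ^ 3 ≤ lg p ^ 3 := by gcongr
  exact mul_le_mul_of_nonneg_right (by linarith [l4 h, n_ge h]) (by positivity)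

theorem MM_nn : 0 ≤ MM (RR p) := by unfold MM RR; positivity

theorem small (h : Ord p) {x : ℝ} (hx : x ≤ 2 * exp (-(22 * lg p))) :
    MM (RR p) * (p.n * x + dl p) ≤ 1 / p.n ∧ x ≤ 1 / 2 := by
  have n1 := n_gt h
  have e : ∀ j : ℕ, exp (-(j * lg p)) = ((p.n : ℝ) ^ j)⁻¹ := fun j => by
    rw [Real.exp_neg, exp_nat_mul, exp_l h]
  have n3 : (4 : ℝ) ≤ p.n := by
    have := l_ge h
    have a : (10 ^ 12 : ℝ) ^ 3 ≤ lg p ^ 3 := by gcongr
    linarith [l4 h, n_ge h]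
  have m := MM_le h
  rw [show 9 * lg p = (9 : ℕ) * lg p by norm_num, exp_nat_mul, exp_l h] at m
  rw [show 22 * lg p = (22 : ℕ) * lg p by norm_num, e] at hx
  have n0 : (0 : ℝ) < p.n := by linarith
  constructor
  · calc _ ≤ MM (RR p) * (p.n * (2 * ((p.n : ℝ) ^ 22)⁻¹) + dl p) :=
          mul_le_mul_of_nonneg_left (by gcongr) MM_nn
      _ ≤ (p.n : ℝ) ^ 9 * (p.n * (2 * ((p.n : ℝ) ^ 22)⁻¹) + ((p.n : ℝ) ^ 20)⁻¹) := by
          unfold dl; gcongr
      _ = (2 + p.n) / p.n ^ 11 / p.n := by field_simp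
      _ ≤ _ := by
          refine div_le_div_of_nonneg_right ((div_le_one (by positivity)).2 ?_) n0.le
          nlinarith [pow_le_pow_right₀ n1.le (show 2 ≤ 11 by norm_num)]
  · have : (4 : ℝ) ≤ p.n ^ 22 := n3.trans (le_self_pow₀ n1.le (by norm_num))
    linarith [inv_anti₀ (by norm_num) this]

theorem t_pos (h : LH p t ε H) : 0 < t := lt_of_lt_of_le (by
  have := n_gt h.ord; unfold Pm.lo; positivity) h.lo

theorem H_ge (h : LH p t ε H) : 22 * lg p ≤ H := by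
  have o := h.ord
  have n1 := n_gt o
  have n0 : (0 : ℝ) < p.n := by linarith
  have l1 := l_ge o
  have l3 : lg p ^ 2 ≤ lg p ^ 3 := pow_le_pow_right₀ (by linarith) (by norm_num)
  refine le_trans (le_min ?_ ?_) h.H0
  · have a1 : ((p.n : ℝ) ^ (-p.cv)) ^ p.A ≤ ε ^ p.A := pow_le_pow_left₀ (by positivity) h.en _
    have a2 : p.M p.lo ≤ p.M t := by
      have := h.lo
      unfold Pm.M; gcongr; unfold Pm.lo; positivity
    have a3 : p.M p.lo = (p.n : ℝ) ^ (3 / 2 * p.d) := by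
      rw [Pm.M, Pm.lo, ← rpow_sub n0, ← rpow_mul n0.le, ← rpow_one_add' n0.le]
      · congr 1; ring
      · nlinarith [o.ok.d.1]
    have a4 := mul_le_mul a1 (a3.ge.trans a2) (by positivity) (pow_nonneg h.e0.le _)
    rw [← rpow_mul_natCast n0.le, ← rpow_add n0] at a4
    have a5 := pow_le o (c := -p.cv * p.A + 3 / 2 * p.d) (by linarith [cv_le o, o.ok.d.1])
    nlinarith [l4 o]
  · have f0 := o.ok.ef
    have f1 : p.ef ≤ 1 := by nlinarith [o.ok.ef', o.ok.t0.1, o.ok.t0.2]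
    have a1 : 1 ≤ lg p * p.ef := o.B2.trans (mul_le_mul (B2_le o)
      (pow_le_of_le_one f0.le f1 (by norm_num)) (by positivity) (by linarith))
    have a2 := mul_le_mul_of_nonneg_left ((l4 o).trans (n_ge o)) f0.le
    nlinarith [mul_le_mul_of_nonneg_right a1 (sq_nonneg (lg p))]

theorem fl_le (h : LH p t ε H) (hη : η ≤ ty p) : fl (RR p) η (3 * H) ≤ 2 * exp (-(22 * lg p)) := by
  have o := h.ord
  have l1 := l_ge o
  have a1 : exp (-(3 * H)) ≤ exp (-(22 * lg p)) := exp_le_exp.2 (by linarith [H_ge h])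
  have a2 : MM (RR p) * η ≤ exp (-(22 * lg p)) :=
    (mul_le_mul_of_nonneg_left (hη.trans (ty_le o)) MM_nn).trans
      ((mul_le_mul_of_nonneg_right (MM_le o) (exp_pos _).le).trans (by
        rw [← exp_add]; exact exp_le_exp.2 (by nlinarith [sq_nonneg (lg p)])))
  rw [fl]; linarith

theorem e_ge (h : LH p t ε H) : 1 ≤ p.n * ε ^ 2 := by
  have n1 := n_gt h.ord
  have n0 : (0 : ℝ) < p.n := by linarith
  have a1 := pow_le_pow_left₀ (by positivity) h.en 2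
  rw [← rpow_mul_natCast n0.le] at a1
  refine le_trans ?_ (mul_le_mul_of_nonneg_left a1 n0.le)
  rw [← rpow_one_add' n0.le (by push_cast; linarith [cv_le h.ord])]
  exact one_le_rpow n1.le (by push_cast; linarith [cv_le h.ord])

theorem ro_eq {k : ℕ} (hk : k + 2 = p.n) : (k : ℝ) - 2 = ro p := by
  rw [ro, ← hk]; push_cast; ring

variable {c : Cs}

theorem rC_nn (h : c.Nn) : 0 ≤ rC c := by
  have := h.t4; have := h.t3; have := h.d0; have := h.e0; have := h.t3'; unfold rC; positivity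
theorem rA_nn (h : c.Nn) : 0 ≤ rA c := by
  have := h.q4; have := h.q3; have := h.d0; have := h.e0; have := h.q3'; unfold rA; positivity
theorem bC_nn (h : c.Nn) : 0 ≤ bC c := by
  have := rC_nn h; have := h.a1; have := h.k1; have := h.k2; have := h.c2; unfold bC; positivity
theorem bPhi_nn (h : c.Nn) : 0 ≤ bPhi c := by
  have := rA_nn h; have := h.a1; have := h.k1; have := h.k2; have := h.b; unfold bPhi; positivity
theorem wC_nn (h : c.Nn) : 0 ≤ wC c := mul_nonneg h.lam h.v4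

end Lo5

open Lo5

theorem loL (hW : NW) (hM : NM) : LoL := fun p t ε H η κ k o μ _ x cx ht κ1 m1 => by
  have h := cx.lh
  have t0 := t_pos h
  have t1 : t ≤ 1 / 100 := h.hi.trans h.ord.ok.t0.2
  have e0 := h.e0
  have e1 := h.e1
  have n1 := n_gt h.ord
  have H0 : 0 ≤ H := by linarith [H_ge h, l_ge h.ord]
  have hk := cx.fx.pt.dim
  have s1 : ε ≤ ε / (32 * t) := by rw [le_div_iff₀ (by positivity)]; nlinarith
  obtain ⟨r, hr, hp⟩ := pim_le hk (exp_l h.ord) (l_ge h.ord) (bC_nn cx.ctx.nn) (hM p t ε H h ht).1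
    ((e_ge h).trans (by gcongr)) MM_nn (MM_le h.ord) (measureReal_nonneg.trans cx.ctx.G)
    (cx.ty.trans (ty_le h.ord))
  obtain ⟨a1, a2⟩ := small h.ord hp
  have a3 : 1 / (p.n : ℝ) ≤ ε / (32 * t) := le_trans (by
    rw [div_le_iff₀ (by linarith)]; nlinarith [e_ge h, mul_nonneg e0.le (sub_nonneg.2 e1)]) s1
  have a4 := ((m1Stmt _ k o μ _ _ η _ _ _ (κ / t) _ r cx.ctx (by positivity) hr).1 (a1.trans a3)
    m1).trans a2
  have a5 := (wStmt _ k o μ _ _ η _ _ _ (ε / (8 * t)) (1 + ε / 8) (3 * H) cx.ctx (by positivity)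
    (by positivity) (by linarith)).1 (by
      rw [ro_eq hk]
      refine le_trans ?_ (hW p t ε H h).1
      have := mul_nonneg (add_nonneg (wC_nn cx.ctx.nn) zero_le_one) H0
      nlinarith [mul_le_mul_of_nonneg_right (show (1 + ε / 8) ^ 2 ≤ 4 by nlinarith) this]) a4
  refine le_trans (measureReal_mono fun U hU hc => hU (CB.mono hc ?_)) a5
  rw [le_div_iff₀ t0]
  field_simp
  nlinarith [mul_nonneg e0.le (sub_nonneg.2 κ1), mul_nonneg e0.le (sub_nonneg.2 e1)]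

theorem midL (hW : NW) (hM : NM) : MidL := fun p t ε H η k o μ _ x cx hs ht m3 => by
  have h := cx.lh
  have t0 := t_pos h
  have n1 := n_gt h.ord
  have l1 := l_ge h.ord
  have H0 : 0 ≤ H := by linarith [H_ge h]
  have hk := cx.fx.pt.dim
  have ek : p.kk t = (p.n : ℝ) ^ p.k2 := by
    rw [Pm.kk, if_neg ht.not_ge, max_eq_left ((div_le_one t0).2 hs), one_rpow, mul_one]
  have k1 : 40 * (7 + p.C) ≤ p.kk t := by
    have := pow_le h.ord (c := p.k2) (cv_le h.ord).2.1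
    have := le_self_pow₀ (show 1 ≤ lg p by linarith) (show 3 ≠ 0 by norm_num)
    linarith [l4 h.ord, (C_le h.ord).2, B2_le h.ord]
  have C1 := h.ord.ok.C
  obtain ⟨b1, b2⟩ := (hM p t ε H h ht).2 hs
  constructor
  · obtain ⟨r, hr, hp⟩ := pim_le hk (exp_l h.ord) l1 (bPhi_nn cx.ctx.nn) b1
      (one_le_mul_of_one_le_of_one_le n1.le (one_le_pow₀ (by linarith))) MM_nn (MM_le h.ord)
      (measureReal_nonneg.trans cx.ctx.G) (cx.ty.trans (ty_le h.ord))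
    obtain ⟨a1, a2⟩ := small h.ord hp
    have a4 := ((m1Stmt _ k o μ _ _ η _ _ _ p.C 0 r cx.ctx (by linarith) hr).2
      (a1.trans ((div_le_one (by linarith)).2 n1.le)) m3.1).trans a2
    have a6 : (c1 p t).a = 6 := rfl
    have a5 := (wStmt _ k o μ _ _ η _ _ _ (p.kk t / 20) 2 (3 * H) cx.ctx (by linarith)
      (by linarith) (by linarith)).2 (by
        rw [ro_eq hk]
        exact le_trans (le_of_eq (by ring)) ((hW p t ε H h).2 hs)) a4
    exact le_trans (measureReal_mono fun U hU hc => hU (CB.mono hc (by linarith))) a5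
  · have a1 := g4Stmt _ k o μ _ _ η _ _ (3 * H) _ cx.ctx (by linarith)
      ((small h.ord (fl_le h cx.ty)).1.trans ((div_le_one (by linarith)).2 n1.le)) m3.2
    refine le_trans (measureReal_mono fun U hU => ?_) a1
    refine lt_of_le_of_lt ?_ (mem_ofPred_eq ▸ hU :)
    rw [rad, ro_eq hk]
    nlinarith [mul_nonneg (show (0 : ℝ) ≤ p.n by linarith) t0.le]


end Crest.Agent.T157.Og
end
end

-- ▼ part T157/O6mE_17
section

set_option autoImplicit false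
set_option linter.unusedSectionVars false

/-!
Row 157, A2, section 6 (helper17): (m2) with a separate moment for (w1), and with all numbers fixed.
-/

noncomputable section

namespace Crest.Agent.T157.O6m

open MeasureTheory Matrix Crest.Agent.Lib.OrthPoinc
open Crest.Agent.T157.Oc Crest.Agent.T157.E Crest.Agent.T157.SL Crest.Agent.T157.Ks
open Crest.Agent.T157.Od Crest.Agent.T157.Oo Crest.Agent.T157.O6 Crest.Agent.T157.Ba26

variable {n k : ℕ}

/-- the hypotheses of (m2), moments `ra` for (w1) and `r` -/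
structure MH2 (o : Orb n k) (μ : Measure (Mat k)) (c : Cs) (R η K δ : ℝ) (B0 : Mn n) (x : Vn n)
    (l b m γ g Γ e ε π s sa sb s1 : ℝ) (ra r : ℕ) : Prop where
  ctx : Ctx o μ c R η K δ
  W3 : Op2 o.W 9
  px : ∀ i, o.p i = Real.tanh (x i)
  hb : ∀ i, |o.h i - x i - o.z * o.p i| + |o.z| ≤ b
  lp : 0 < l
  l1 : l ≤ 1
  lR : l⁻¹ ≤ R
  Bs : B0ᵀ = B0
  B3 : Op2 B0 9
  eva : Even ra
  ev : Even r
  s0 : 0 < s
  sa0 : 0 < sa
  sb0 : 0 < sb
  s10 : 0 ≤ s1
  e0 : 0 ≤ e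
  g0 : 0 ≤ g
  γ0 : 0 < γ
  γ1 : γ ≤ 1
  m2 : ∀ i, |EV (o.P μ) (fun U => o.A U *ᵥ o.d U) i| ≤ m
  m4 : Op2 (ErC o (o.P μ) B0) (e ^ 2)
  hγ : γ ≤ Real.exp (-(14 + c.k2 + 2 * (m + 2 * sa + 1) + 2 * b))
  hg : 3 * (11 + c.k2 * c.k1 + 9 * c.k1 ^ 2) ≤ l * g ^ 2
  hΓ : g + e / l + 2 * sb + 2 ≤ Γ
  hπ : η + pim n k ra (gA c) (MM R) η sa + pim n k r (bT n c l) (MM R) η sb +
    pim n k r (bR n c.a (rC c) l γ) (MM R) (η + pim n k ra (gA c) (MM R) η sa) s ≤ π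
  small : MM R * (K * π + δ) ≤ ε
  ε1 : ε ≤ 1
  mean : 12 / γ * (e ^ 2 / l ^ 2 + l * (37 + c.k2 + 2 * c.a ^ 2) + Γ * (2 * s + ε) ^ 2 + ε) ≤ s1 ^ 2

theorem m2core {o : Orb n k} {μ : Measure (Mat k)} [IsProbabilityMeasure μ] {c : Cs} {R η K δ : ℝ}
    {B0 : Mn n} {x : Vn n} {l b m γ g Γ e ε π s sa sb s1 : ℝ} {ra r : ℕ}
    (h : MH2 o μ c R η K δ B0 x l b m γ g Γ e ε π s sa sb s1 ra r) :
    μ.real {U | ¬ (U ∈ o.G c ∧ Sand (o.w U) o.p l γ Γ ∧
      OpLe (Rt (o.w U) (o.A U) o.p l - (1 - Sq o.p l * B0 * Sq o.p l)) (2 * s + ε + s1))} ≤ π := by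
  have X := h.ctx
  have ho := X.ok
  have hc := X.nn
  have := Orb.P_prob X.inv ho
  have hν := Orb.P_mem (o := o) X.inv
  have η0 : 0 ≤ η := measureReal_nonneg.trans X.G
  have R0 : 0 ≤ R := by linarith [X.R1]
  have M0 : 0 ≤ MM R := by unfold MM; positivity
  have K0 : 0 ≤ K := by linarith [X.K1]
  have gA0 : 0 ≤ gA c := by
    have := hc.lam; have := hc.k2; have := hc.e0; have := hc.d0
    unfold gA; positivity
  have bT0 : 0 ≤ bT n c l := by
    have := rC_nn hc; have := hc.k2; have := hc.d0; have := h.lp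
    unfold bT; positivity
  have bR0 : 0 ≤ bR n c.a (rC c) l γ := by
    have := rC_nn hc; have := h.lp; have := h.γ0
    unfold bR; positivity
  have p1 := Op27.pim_nn (n := n) (r := ra) ho.two gA0 M0 η0 h.sa0
  have p2 := Op27.pim_nn (n := n) (r := r) ho.two bT0 M0 η0 h.sb0
  have p3 := Op27.pim_nn (n := n) (r := r) ho.two bR0 M0 (add_nonneg η0 p1) h.s0
  have hπ := h.hπ
  have sm : ∀ q, q ≤ π → MM R * (K * q + δ) ≤ ε := fun q hq =>
    (mul_le_mul_of_nonneg_left (by linarith [mul_le_mul_of_nonneg_left hq K0]) M0).trans h.small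
  have a1 := w1Stmt_17 n k o μ c R η K δ sa m ra X h.sa0 h.eva ((sm _ (by linarith)).trans h.ε1) h.m2
  have a2 := w2Stmt n k o μ c R η K δ l sb e g B0 r X h.lp h.l1 h.lR h.sb0 h.ev h.B3 h.e0 h.m4 h.g0 h.hg
    ((sm _ (by linarith)).trans h.ε1)
  set G1 : Set (Mat k) := {U | U ∈ o.G c ∧ ∀ v, γ * qd (Dl o.p l) v ≤ v ⬝ᵥ Cl (o.w U) l *ᵥ v} with hG1
  have b1 : μ.real G1ᶜ ≤ η + pim n k ra (gA c) (MM R) η sa := by
    refine real_or (fun U hU => ?_) X.G a1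
    by_contra hn
    simp only [Set.mem_union, Set.mem_compl_iff, Set.mem_ofPred_eq, not_or, not_not] at hn
    refine hU ⟨hn.1, fun v => ?_⟩
    have c1 := O6c.cr_orb ho (a := 3) (by norm_num) (op2_Wu ho (op_mono h.W3 (by norm_num)) hn.1.1)
      hn.1.2.k2 hn.2 h.hb v
    have c2 : qd (Dl o.p l) v = ∑ i, (1 - Real.tanh (x i) ^ 2) * v i ^ 2 + l * (v ⬝ᵥ v) := by
      simp only [qd, Dl, h.px, dotProduct, Finset.mul_sum, ← Finset.sum_add_distrib]
      exact Finset.sum_congr rfl fun i _ => by ring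
    have c3 : 0 ≤ ∑ i, (1 - Real.tanh (x i) ^ 2) * v i ^ 2 := Finset.sum_nonneg fun i _ =>
      mul_nonneg (h.px i ▸ D_nn X.p1 i) (sq_nonneg _)
    have c4 := mul_le_mul_of_nonneg_right h.hγ c3
    have c5 := mul_le_mul_of_nonneg_right h.γ1 (mul_nonneg h.lp.le (dnn v))
    rw [show (4 * 3 + 2 : ℝ) = 14 by norm_num] at c1
    rw [c2, Cl_quad]; linarith
  have aR : c.a ≤ R := by nlinarith [X.Ra, X.R1, hc.a]
  have a3 := opStmt n k μ (o.P μ) _ _ G1 (bR n c.a (rC c) l γ) (MM R) (4 * R) _ K δ s r X.inv ho.two hν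
    (mRdStmt n k o l ho h.lp) (fun U _ => Rt_t (Orb.A_symm ho U)) b1 K0 X.tr bR0 M0 h.s0 h.ev
    (fun U hU hG => mGradStmt n _ _ _ _ _ l γ c.a (rC c) (Orb.fam ho hU) (Orb.wt U) (Orb.A_symm ho U)
      hG.1.2.a X.p1 h.lp h.l1 h.γ0 (rC_nn hc) hG.2 (rb_C hG.1.2 hc))
    (fun U hU v => (mGradStmt n _ _ _ _ _ l (l / 2) c.a (rC (crude c.a R)) (Orb.fam ho hU) (Orb.wt U)
      (Orb.A_symm ho U) (X.cr U hU).a X.p1 h.lp h.l1 (half_pos h.lp) (rC_nn (crude_nn hc.a R0))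
      (low_crude X.p1 h.lp (Orb.wt U) h.l1) (rb_C (X.cr U hU) (crude_nn hc.a R0)) v).trans
      (mul_le_mul_of_nonneg_right (crude_bR X.R1 X.Rn X.Ra h.lp h.lR) (dnn v)))
    (fun U hU => Rt_crude (Orb.wt U) X.p1 h.lp h.l1 hc.a.le (X.cr U hU).a aR h.lR)
  set Rb := EM (o.P μ) fun U => Rt (o.w U) (o.A U) o.p l with hRb
  set G3 : Set (Mat k) := {U | U ∈ o.G c ∧ Sand (o.w U) o.p l γ Γ ∧
    OpLe (Rt (o.w U) (o.A U) o.p l - Rb) (2 * s + ε)} with hG3
  have b3 : μ.real G3ᶜ ≤ π := by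
    refine le_trans (real_or (fun U hU => ?_) (real_or subset_rfl b1 a2) a3) hπ
    by_contra hn
    simp only [Set.mem_union, Set.mem_compl_iff, Set.mem_ofPred_eq, not_or, not_not] at hn
    obtain ⟨⟨n1, n2⟩, n3⟩ := hn
    refine hU ⟨n1.1, fun v => ⟨n1.2 v, (n2 v).trans (mul_le_mul_of_nonneg_right h.hΓ ?_)⟩,
      fun u hu => (n3 u hu).trans ?_⟩
    · rw [← Sq_dot X.p1 h.lp]; exact dnn _
    · have q1 := sm (pim n k r (bR n c.a (rC c) l γ) (MM R) (η + pim n k ra (gA c) (MM R) η sa) s)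
        (by linarith)
      have q2 : 2 * (4 * R) ≤ MM R := by
        have : R ≤ R ^ 8 := le_self_pow₀ X.R1 (by norm_num)
        unfold MM; linarith
      linarith [mul_le_mul_of_nonneg_right q2 (add_nonneg (mul_nonneg K0 p3) X.δ0)]
  have ε0 : 0 ≤ ε := le_trans (mul_nonneg M0 (by simpa using X.δ0)) (sm 0 (by linarith))
  have Γ0 : 0 ≤ Γ := le_trans (by have := h.g0; have := h.e0; have := h.lp; have := h.sb0; positivity) h.hΓ
  have a4 := mMeanStmt n k o (o.P μ) G3 B0 c.a R l γ Γ c.k2 (2 * s + ε) e ε s1 ho hν hc.a X.R1 X.Ra X.cr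
    X.p1 h.lp h.l1 h.lR h.γ0 h.γ1 Γ0 hc.k2 (by linarith [h.s0]) h.Bs h.B3
    ((mul_le_mul_of_nonneg_left ((X.tr _).trans (by linarith [mul_le_mul_of_nonneg_left b3 K0])) M0).trans
      h.small) h.ε1 (fun U _ hU => ⟨hU.2.2, hU.2.1, hU.1.2.k2⟩) h.m4 h.s10 h.mean
  refine le_trans (measureReal_mono ?_) b3
  intro U hU hG
  refine hU ⟨hG.1, hG.2.1, fun u hu => ?_⟩
  have q1 := abs_le.1 (hG.2.2 u hu)
  have q2 := abs_le.1 (a4 u hu)
  simp only [sub_mulVec, dotProduct_sub] at q1 q2 ⊢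
  rw [abs_le]; constructor <;> linarith [q1.1, q1.2, q2.1, q2.2]

/-! ### numbers -/

section Num

variable {u x y : ℝ} {a b : ℤ}

theorem zp_mul (hu : 1 ≤ u) (hx : x ≤ u ^ a) (hy : y ≤ u ^ b) (y0 : 0 ≤ y) : x * y ≤ u ^ (a + b) := by
  rw [zpow_add₀ (by linarith)]; exact mul_le_mul hx hy y0 (by positivity)

theorem zp_le (hu : 1 ≤ u) (h : a ≤ b) : u ^ a ≤ u ^ b := zpow_le_zpow_right₀ hu h

theorem zp_c (hu : 1 ≤ u) {c : ℝ} (hc : c ≤ u) (h : a + 1 ≤ b) : c * u ^ a ≤ u ^ b :=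
  (zp_mul hu (a := 1) (by simpa using hc) le_rfl (by positivity)).trans (zp_le hu (by linarith))

theorem zp_pow (hx : x ≤ u ^ a) (x0 : 0 ≤ x) (q : ℕ) : x ^ q ≤ u ^ (a * q) := by
  rw [_root_.zpow_mul, _root_.zpow_natCast]; exact pow_le_pow_left₀ x0 hx q



end Num


end Crest.Agent.T157.O6m
end
end

-- ▼ part T157/OgHiM_17

set_option autoImplicit false
set_option linter.unusedSectionVars false

/-!
Row 157, A2 (helper17): (m2) above `t**` in the words of the orbit step (`Og.HiM`).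
-/

noncomputable section

namespace Crest.Agent.T157.O6m

open MeasureTheory Matrix Crest.Agent.Lib.OrthPoinc
open Crest.Agent.T157.Oc Crest.Agent.T157.E Crest.Agent.T157.SL Crest.Agent.T157.Ks
open Crest.Agent.T157.Od Crest.Agent.T157.Oo Crest.Agent.T157.O6 Crest.Agent.T157.Ba26

variable {n k : ℕ}

section Num

variable {u : ℝ} {a b : ℤ}

/-- the failure probability in powers of `u`, `n = u ^ N` -/
theorem pim_zq {r : ℕ} {B M η : ℝ} {N c d e f : ℤ} (hu : 10 ≤ u) (N1 : 1 ≤ N) (hn : (n : ℝ) = u ^ N)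
    (hk : k + 2 = n) (B0 : 0 ≤ B) (M0 : 0 ≤ M) (η0 : 0 ≤ η)
    (hB : 8 * ((r : ℝ) + 1) ^ 2 * B ≤ u ^ a) (hM : 8 * ((r : ℝ) + 1) ^ 2 * M ≤ u ^ b) (hη : η ≤ u ^ c)
    (h1 : N + (a - N - 2 * d) * (r + 1 : ℕ) ≤ e) (h2 : N + (b - N - 2 * d) * (r + 1 : ℕ) + c ≤ e)
    (h3 : e + 1 ≤ f) : pim n k r B M η (u ^ d) ≤ u ^ f := by
  have u1 : 1 ≤ u := by linarith
  have u0 : 0 < u := by linarith
  have hN : (10 : ℝ) ≤ n := by rw [hn]; exact hu.trans (by simpa using zp_le u1 N1)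
  have hk' : (k : ℝ) - 2 = n - 4 := by rw [← hk]; push_cast; ring
  have k0 : 4 * ((k : ℝ) - 2)⁻¹ ≤ 8 * u ^ (-N) := by
    rw [hk', _root_.zpow_neg, ← hn, ← div_eq_mul_inv, ← div_eq_mul_inv,
      div_le_div_iff₀ (by linarith) (by linarith)]
    linarith
  have k1 : 0 ≤ 4 * ((k : ℝ) - 2)⁻¹ := by
    rw [hk']; exact mul_nonneg (by norm_num) (inv_nonneg.2 (by linarith))
  have key : ∀ {Z : ℝ} {j : ℤ}, 0 ≤ Z → 8 * ((r : ℝ) + 1) ^ 2 * Z ≤ u ^ j →
      (4 * ((k : ℝ) - 2)⁻¹ * ((r : ℝ) + 1) ^ 2 * Z / (u ^ d) ^ 2) ^ (r + 1) ≤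
        u ^ ((j - N - 2 * d) * (r + 1 : ℕ)) := fun {Z j} Z0 hZ => by
    refine zp_pow ?_ (by positivity) _
    rw [div_le_iff₀ (by positivity), ← _root_.zpow_natCast (u ^ d), ← _root_.zpow_mul, ← zpow_add₀ u0.ne']
    have := zp_mul u1 (le_refl (u ^ (-N))) hZ (by positivity)
    refine le_trans ?_ (this.trans (zp_le u1 (by push_cast; linarith)))
    nlinarith [mul_le_mul_of_nonneg_right k0 (show 0 ≤ ((r : ℝ) + 1) ^ 2 * Z by positivity)]
  have e1 : pim n k r B M η (u ^ d) =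
      n * (4 * ((k : ℝ) - 2)⁻¹ * ((r : ℝ) + 1) ^ 2 * B / (u ^ d) ^ 2) ^ (r + 1) +
        n * (4 * ((k : ℝ) - 2)⁻¹ * ((r : ℝ) + 1) ^ 2 * M / (u ^ d) ^ 2) ^ (r + 1) * η := by
    simp only [pim, div_pow, mul_pow _ B, mul_pow _ M, pow_mul]; ring
  have b1 := (zp_mul u1 hn.le (key B0 hB) (by positivity)).trans (zp_le u1 h1)
  have b2 := (zp_mul u1 (zp_mul u1 hn.le (key M0 hM) (by positivity)) hη η0).trans (zp_le u1 h2)
  have b3 := zp_c u1 (c := 2) (by linarith) h3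
  rw [e1]; linarith

theorem exp_neg_le' (j : ℕ) (j0 : 0 < j) (hu : 4 * (j : ℝ) ^ 2 ≤ u) : Real.exp (-u) ≤ u ^ (-(j : ℤ)) := by
  have j1 : (0 : ℝ) < j := by exact_mod_cast j0
  have u0 : 0 < u := lt_of_lt_of_le (by positivity) hu
  have h1 : u ≤ (u / (2 * j)) ^ 2 := by
    rw [div_pow, le_div_iff₀ (by positivity)]; nlinarith
  have h2 : u / (2 * j) ≤ Real.exp (u / (2 * j)) := by linarith [Real.add_one_le_exp (u / (2 * j))]
  have h3 : u ^ j ≤ Real.exp u := by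
    refine (pow_le_pow_left₀ u0.le (h1.trans (pow_le_pow_left₀ (by positivity) h2 2)) j).trans_eq ?_
    rw [← pow_mul, ← Real.exp_nat_mul]; congr 1; push_cast; field_simp
  rw [Real.exp_neg, _root_.zpow_neg, _root_.zpow_natCast]
  exact inv_anti₀ (by positivity) h3

theorem zp_add {x y : ℝ} (hu : 2 ≤ u) {c : ℤ} (hx : x ≤ u ^ a) (hy : y ≤ u ^ b) (h1 : a + 1 ≤ c)
    (h2 : b + 1 ≤ c) : x + y ≤ u ^ c := by
  have u1 : 1 ≤ u := by linarith
  have b1 := hx.trans (zp_le u1 (show a ≤ c - 1 by linarith))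
  have b2 := hy.trans (zp_le u1 (show b ≤ c - 1 by linarith))
  have b3 := zp_c u1 hu (show c - 1 + 1 ≤ c by linarith)
  linarith

theorem zp_div {x : ℝ} (hu : 0 < u) (hx : x ≤ u ^ a) : x / u ^ b ≤ u ^ (a - b) := by
  rw [zpow_sub₀ hu.ne']; exact div_le_div_of_nonneg_right hx (by positivity)

theorem zp_sq (a : ℤ) : (u ^ a) ^ 2 = u ^ (a * 2) := by
  rw [_root_.zpow_mul]; norm_cast

end Num

/-- **(m2), `n = u ^ 1000`, `l = n ^ (-1/10)`, `e = n ^ (-1/5)`** -/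
theorem m2e {o : Orb n k} {μ : Measure (Mat k)} [IsProbabilityMeasure μ] {c : Cs} {R η K δ : ℝ}
    {B0 : Mn n} {x : Vn n} {b m u : ℝ} (hu : 10 ^ 12 ≤ u) (hn : (n : ℝ) = u ^ (1000 : ℤ)) (hk : k + 2 = n)
    (X : Ctx o μ c R η K δ) (hR : R ≤ 36 * n) (hK : K ≤ n) (η1 : η ≤ u ^ (-300000000 : ℤ))
    (δ1 : δ ≤ u ^ (-20000 : ℤ)) (ha : c.a ≤ 6) (k1 : c.k1 ≤ u ^ (2 : ℤ)) (gD1 : gD c ≤ u ^ (4 : ℤ))
    (gA1 : gA c ≤ u ^ (4 : ℤ)) (rC1 : rC c ≤ u ^ (4 : ℤ)) (d1 : c.d0 ≤ u ^ (2 : ℤ))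
    (hγ : Real.exp (20 + c.k2 + 2 * m + 2 * b) ≤ u) (W3 : Op2 o.W 9)
    (px : ∀ i, o.p i = Real.tanh (x i)) (hb : ∀ i, |o.h i - x i - o.z * o.p i| + |o.z| ≤ b)
    (Bs : B0ᵀ = B0) (B3 : Op2 B0 9) (m0 : 0 ≤ m) (b0 : 0 ≤ b)
    (m2 : ∀ i, |EV (o.P μ) (fun U => o.A U *ᵥ o.d U) i| ≤ m)
    (m4 : Op2 (Er4 o (o.P μ) B0) ((u ^ (-200 : ℤ)) ^ 2)) :
    μ.real {U | ¬ OpLe (Rt (o.w U) (o.A U) o.p (u ^ (-100 : ℤ)) -
      (1 - Sq o.p (u ^ (-100 : ℤ)) * B0 * Sq o.p (u ^ (-100 : ℤ)))) (u ^ (-10 : ℤ))} ≤ 1 / 4 := by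
  have u1 : 1 ≤ u := by linarith
  have u2 : 2 ≤ u := by linarith
  have u0 : 0 < u := by linarith
  have hc := X.nn
  have zp : ∀ a : ℤ, 0 < u ^ a := fun a => zpow_pos u0 a
  have η0 : 0 ≤ η := measureReal_nonneg.trans X.G
  have R0 : 0 ≤ R := by linarith [X.R1]
  have K0 : 0 ≤ K := by linarith [X.K1]
  have M0 : 0 ≤ MM R := by unfold MM; positivity
  have K1 : K ≤ u ^ (1000 : ℤ) := hn ▸ hK
  have one : ∀ {y : ℝ}, y ≤ u → y ≤ u ^ (1 : ℤ) := fun h => by simpa using h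
  have cm : ∀ {y z : ℝ} {a : ℤ}, y ≤ u → z ≤ u ^ a → 0 ≤ z → y * z ≤ u ^ (1 + a) := fun h1 h2 h3 =>
    zp_mul u1 (one h1) h2 h3
  have M1 : MM R ≤ u ^ (8002 : ℤ) := by
    have h1 : R ^ 8 ≤ (36 * (n : ℝ)) ^ 8 := pow_le_pow_left₀ R0 hR 8
    have h2 := cm (y := 10 ^ 10) (by linarith) (cm (y := 10 ^ 10) (by linarith)
      (zp_pow hn.le (Nat.cast_nonneg _) 8) (by positivity)) (by positivity)
    have h3 : 0 ≤ (n : ℝ) ^ 8 := by positivity
    rw [mul_pow] at h1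
    refine le_trans ?_ (h2.trans (zp_le u1 (by norm_num)))
    rw [MM]; linarith
  have k2 : c.k2 ≤ u := by linarith [Real.add_one_le_exp (20 + c.k2 + 2 * m + 2 * b)]
  have sm : ∀ {q : ℝ}, 0 ≤ q → q ≤ u ^ (-9200 : ℤ) → MM R * (K * q + δ) ≤ u ^ (-196 : ℤ) := fun {q} q0 hq =>
    (zp_mul u1 M1 (zp_add u2 (c := -8199) (zp_mul u1 K1 hq q0) δ1 (by norm_num) (by norm_num))
      (add_nonneg (mul_nonneg K0 q0) X.δ0)).trans (zp_le u1 (by norm_num))
  have gA0 : 0 ≤ gA c := by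
    have := hc.lam; have := hc.k2; have := hc.e0; have := hc.d0
    unfold gA; positivity
  have gD0 : 0 ≤ gD c := mul_nonneg hc.lam hc.k1
  have fl1 : fl R η u ≤ u ^ (-9999 : ℤ) :=
    zp_add u2 (exp_neg_le' 10000 (by norm_num) (by norm_num; linarith)) (zp_mul u1 M1 η1 η0)
      (by norm_num) (by norm_num)
  have fl0 : 0 ≤ fl R η u := by unfold fl; positivity
  have hk' : (k : ℝ) - 2 = n - 4 := by rw [← hk]; push_cast; ring
  have hN : u ≤ n := by rw [hn]; simpa using zp_le u1 (show (1 : ℤ) ≤ 1000 by norm_num)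
  have le1 : ∀ a : ℤ, 0 ≤ a → 1 ≤ u ^ a := fun a h => by simpa using zp_le u1 h
  have lt1 : ∀ a : ℤ, a ≤ 0 → u ^ a ≤ 1 := fun a h => by simpa using zp_le u1 h
  have rd : ∀ {T : ℝ}, 0 ≤ T → T ≤ u ^ (4 : ℤ) → 0 ≤ rad k T T u ∧ rad k T T u ≤ u ^ (-900 : ℤ) :=
    fun {T} T0 hT => by
    refine ⟨div_nonneg (by positivity) (by linarith), ?_⟩
    have h1 := le1 4 (by norm_num)
    have h2 : 4 * (T + 2) ≤ u ^ (1 + 4 : ℤ) :=
      le_trans (by linarith) (cm (y := 12) (by linarith) le_rfl (zp 4).le)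
    have h3 : 288 * (T + 1) ≤ u ^ (1 + 4 : ℤ) :=
      le_trans (by linarith) (cm (y := 576) (by linarith) le_rfl (zp 4).le)
    have h4 := zp_add u2 (c := 7) h2 (zp_mul u1 h3 (one le_rfl) u0.le) (by norm_num) (by norm_num)
    have h5 := zp_c u1 u2 (show (999 : ℤ) + 1 ≤ 1000 by norm_num)
    have h6 : u ^ (999 : ℤ) ≤ n - 4 := by linarith
    rw [rad, hk']
    exact (div_le_div_of_nonneg_left (by positivity) (zp _) h6).trans
      ((zp_div u0 h4).trans (zp_le u1 (by norm_num)))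
  have sm' : MM R * (K * fl R η u + δ) ≤ u ^ (-900 : ℤ) :=
    (zp_mul u1 M1 (zp_add u2 (c := -8998) (zp_mul u1 K1 fl1 fl0) δ1 (by norm_num) (by norm_num))
      (add_nonneg (mul_nonneg K0 fl0) X.δ0)).trans (zp_le u1 (by norm_num))
  have m5 : Op2 (ErC o (o.P μ) B0) ((u ^ (-199 : ℤ)) ^ 2) := by
    have h1 := (covGlue scStmt n k o μ c R η K δ u _ X u0.le sm').2 B0 _ B3 (zp _).le m4
    refine op_mono h1 (pow_le_pow_left₀ ?_ ?_ 2)
    · have := (rd gD0 gD1).1; have := (rd gA0 gA1).1; have := zp (-900); have := zp (-200); positivity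
    · have h2 := zp_c u1 (c := 20) (a := -900) (b := -200) (by linarith) (by norm_num)
      have h3 := zp_c u1 (c := 2) (a := -200) (b := -199) (by linarith) (by norm_num)
      linarith [(rd gD0 gD1).2, (rd gA0 gA1).2]
  have a2 : c.a ^ 2 ≤ 36 := by nlinarith [hc.a]
  have r0 := rC_nn hc
  have k10 := hc.k1
  have k20 := hc.k2
  have d0 := hc.d0
  have bT0 : 0 ≤ bT n c (u ^ (-100 : ℤ)) := by unfold bT; positivity
  have bR0 : 0 ≤ bR n c.a (rC c) (u ^ (-100 : ℤ)) (u ^ (-1 : ℤ)) := by unfold bR; positivity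
  have bT1 : bT n c (u ^ (-100 : ℤ)) ≤ 39 * u ^ (1105 : ℤ) := by
    have h1 := (zp_div (b := -100 * 2) u0 rC1).trans (zp_le u1 (show _ ≤ (1105 : ℤ) by norm_num))
    have h2 := (zp_div (b := -100 * 2) u0 d1).trans (zp_le u1 (show _ ≤ (1000 : ℤ) by norm_num))
    have h3 : 2 * (n : ℝ) + c.d0 / u ^ (-100 * 2 : ℤ) ≤ 3 * u ^ (1000 : ℤ) := by linarith
    have h4 := zp_mul u1 (zp_pow k1 k10 2) (one k2) k20
    have h5 := (zp_div (b := -100) u0 (zp_mul u1 h4 (le_refl (u ^ (1000 : ℤ))) (zp _).le)).trans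
      (zp_le u1 (show _ ≤ (1105 : ℤ) by norm_num))
    have h6 := div_le_div_of_nonneg_right (mul_le_mul_of_nonneg_left h3
      (show 0 ≤ c.k1 ^ 2 * c.k2 by positivity)) (zp (-100)).le
    rw [show c.k1 ^ 2 * c.k2 * (3 * u ^ (1000 : ℤ)) / u ^ (-100 : ℤ) =
      3 * (c.k1 ^ 2 * c.k2 * u ^ (1000 : ℤ) / u ^ (-100 : ℤ)) by ring] at h6
    rw [bT, zp_sq]; linarith
  have bR1 : bR n c.a (rC c) (u ^ (-100 : ℤ)) (u ^ (-1 : ℤ)) ≤ 2885 * u ^ (901 : ℤ) := by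
    have h1 := (zp_div (b := (-100 + -1) * 2) u0 rC1).trans (zp_le u1 (show _ ≤ (901 : ℤ) by norm_num))
    have h2 := (zp_div (b := -1) u0 (zp_mul u1 hn.le (le_refl (u ^ (-100 : ℤ))) (zp _).le)).trans
      (zp_le u1 (show _ ≤ (901 : ℤ) by norm_num))
    have h3 := mul_le_mul a2 h2 (by positivity) (by norm_num)
    rw [bR, ← zpow_add₀ u0.ne', zp_sq, mul_assoc (c.a ^ 2), mul_div_assoc]; linarith
  have u10 : (10 : ℝ) ≤ u := by linarith
  have pa := pim_zq (r := 36500) (d := 0) (e := -36300000) (f := -36299999) u10 (by norm_num) hn hk gA0 M0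
    η0 (cm (by norm_num; linarith) gA1 gA0) (cm (by norm_num; linarith) M1 M0) η1 (by norm_num)
    (by norm_num) (by norm_num)
  rw [_root_.zpow_zero] at pa
  have pa0 := Op27.pim_nn (n := n) (r := 36500) X.ok.two gA0 M0 η0 one_pos
  have pa' := zp_add u2 (c := -36299998) η1 pa (by norm_num) (by norm_num)
  have pb := pim_zq (r := 5100) (a := 1106) (d := 54) (e := -9202) (f := -9201) u10 (by norm_num) hn hk bT0
    M0 η0 (le_trans (by push_cast; linarith)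
      (zp_c u1 (c := 8 * 5101 ^ 2 * 39) (a := 1105) (by linarith) (by norm_num)))
    (cm (by norm_num; linarith) M1 M0) η1 (by norm_num) (by norm_num) (by norm_num)
  have pr := pim_zq (r := 5100) (a := 902) (d := -48) (e := -9202) (f := -9201) u10 (by norm_num) hn hk bR0
    M0 (add_nonneg η0 pa0) (le_trans (by push_cast; linarith)
      (zp_c u1 (c := 8 * 5101 ^ 2 * 2885) (a := 901) (by linarith) (by norm_num)))
    (cm (by norm_num; linarith) M1 M0) pa' (by norm_num) (by norm_num) (by norm_num)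
  have H : MH2 o μ c R η K δ B0 x (u ^ (-100 : ℤ)) b m (u ^ (-1 : ℤ)) (u ^ (53 : ℤ)) (u ^ (55 : ℤ))
      (u ^ (-199 : ℤ)) (u ^ (-196 : ℤ)) (u ^ (-9200 : ℤ)) (u ^ (-48 : ℤ)) 1 (u ^ (54 : ℤ)) (u ^ (-19 : ℤ))
      36500 5100 := by
    refine ⟨X, W3, px, hb, zp _, lt1 _ (by norm_num), ?_, Bs, B3, by decide, by decide,
      zp _, one_pos, zp _, (zp _).le, (zp _).le, (zp _).le, zp _, lt1 _ (by norm_num), m2, m5, ?_, ?_, ?_,
      ?_, sm (zp _).le le_rfl, lt1 _ (by norm_num), ?_⟩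
    · rw [← _root_.zpow_neg]; exact (zp_le u1 (by norm_num)).trans (hn ▸ X.Rn)
    · rw [Real.exp_neg, _root_.zpow_neg_one]
      refine inv_anti₀ (Real.exp_pos _) (le_trans (le_of_eq ?_) hγ)
      congr 1; ring
    · have h1 := (zp_mul u1 (one k2) k1 k10).trans (zp_le u1 (show _ ≤ (4 : ℤ) by norm_num))
      have h2 := (zp_pow k1 k10 2).trans (zp_le u1 (show _ ≤ (4 : ℤ) by norm_num))
      have h3 := le1 4 (by norm_num)
      have h4 := zp_c u1 (c := 63) (a := 4) (b := -100 + 53 * 2) (by linarith) (by norm_num)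
      rw [zp_sq, ← zpow_add₀ u0.ne']; linarith
    · have h1 := (zp_div (b := -100) u0 (le_refl (u ^ (-199 : ℤ)))).trans
        (zp_le u1 (show _ ≤ (54 : ℤ) by norm_num))
      have h2 := zp_le u1 (show (53 : ℤ) ≤ 54 by norm_num)
      have h3 := le1 54 (by norm_num)
      have h4 := zp_c u1 (c := 6) (a := 54) (b := 55) (by linarith) (by norm_num)
      linarith
    · have h1 := pa'.trans (zp_le u1 (show _ ≤ (-9201 : ℤ) by norm_num))
      have h3 := zp_c u1 (c := 3) (a := -9201) (b := -9200) (by linarith) (by norm_num)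
      linarith
    · have h0 : 2 * u ^ (-48 : ℤ) + u ^ (-196 : ℤ) ≤ 3 * u ^ (-48 : ℤ) := by
        linarith [zp_le u1 (show (-196 : ℤ) ≤ -48 by norm_num)]
      have h1 : u ^ (55 : ℤ) * (2 * u ^ (-48 : ℤ) + u ^ (-196 : ℤ)) ^ 2 ≤ 9 * u ^ (-41 : ℤ) := by
        refine (mul_le_mul_of_nonneg_left (pow_le_pow_left₀ (by positivity) h0 2) (zp _).le).trans_eq ?_
        rw [mul_pow, zp_sq, mul_left_comm, ← zpow_add₀ u0.ne']; norm_num
      have h2 : (u ^ (-199 : ℤ)) ^ 2 / (u ^ (-100 : ℤ)) ^ 2 ≤ u ^ (-41 : ℤ) := by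
        rw [zp_sq, zp_sq]; exact (zp_div u0 le_rfl).trans (zp_le u1 (by norm_num))
      have h3 : u ^ (-100 : ℤ) * (37 + c.k2 + 2 * c.a ^ 2) ≤ u ^ (-41 : ℤ) :=
        (zp_mul u1 le_rfl (zp_add u2 (c := 3) (zp_add u2 (c := 2) (one (by linarith)) (one k2) (by norm_num)
          (by norm_num)) (one (by linarith)) (by norm_num) (by norm_num)) (by positivity)).trans
          (zp_le u1 (by norm_num))
      have h5 := zp_le u1 (show (-196 : ℤ) ≤ -41 by norm_num)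
      refine (mul_le_mul_of_nonneg_left (show _ ≤ 12 * u ^ (-41 : ℤ) by linarith) (by positivity)).trans ?_
      rw [zp_sq, show 12 / u ^ (-1 : ℤ) * (12 * u ^ (-41 : ℤ)) = 144 * (u ^ (-41 : ℤ) / u ^ (-1 : ℤ)) by ring,
        ← zpow_sub₀ u0.ne']
      exact zp_c u1 (by linarith) (by norm_num)
  refine le_trans (measureReal_mono ?_) ((m2core H).trans ?_)
  · intro U hU hG
    refine hU fun v hv => (hG.2.2 v hv).trans ?_
    have h1 := zp_le u1 (show (-196 : ℤ) ≤ -19 by norm_num)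
    have h2 := zp_le u1 (show (-48 : ℤ) ≤ -19 by norm_num)
    have h3 := zp_c u1 (c := 4) (a := -19) (b := -10) (by linarith) (by norm_num)
    linarith
  · have h3 := zp_c u1 (c := 4) (a := -9200) (b := 0) (by linarith) (by norm_num)
    rw [_root_.zpow_zero] at h3; linarith

end Crest.Agent.T157.O6m

namespace Crest.Agent.T157.Og

open MeasureTheory Matrix Crest.Agent.Lib.OrthPoinc
open Crest.Agent.T157.Oc Crest.Agent.T157.E Crest.Agent.T157.SL Crest.Agent.T157.Ks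
open Crest.Agent.T157.Od Crest.Agent.T157.Oo Crest.Agent.T157.O6 Crest.Agent.T157.O0
open Crest.Agent.T157.O6m Crest.Agent.T157.Ba26

theorem hiM : HiM := by
  intro p t ε H η κ k o μ _ x vt h ht hM2 hE hP
  have O := h.lh.ord
  have ok := O.ok
  have at' := h.fx.pt
  set b := p.B0 with hb
  have L1 : 1 ≤ p.L ^ 10 := one_le_pow₀ (by linarith [ok.L])
  have LC : p.L ≤ p.C := by
    have : p.L ≤ p.L ^ 10 := le_self_pow₀ (by linarith [ok.L]) (by norm_num)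
    linarith [O.C]
  have CB' : p.C ≤ p.B := ((le_self_pow₀ ok.C (by norm_num)).trans O.K).trans ok.B
  have Cb : p.C ≤ b := CB'.trans ok.B0
  have b10 : 10 ^ 10 ≤ b := by linarith [O.C]
  have b1 : 1 ≤ b := by linarith
  have bl : b ^ 100 ≤ Real.log p.n := (pow_le_pow_left₀ (by linarith) ok.B2 100).trans O.n1
  have l10 : 10 ^ 10 ≤ Real.log p.n := b10.trans ((le_self_pow₀ b1 (by norm_num)).trans bl)
  have n1 : (1 : ℝ) < p.n := (Real.log_pos_iff (Nat.cast_nonneg _)).1 (by linarith)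
  have n0 : (0 : ℝ) < p.n := by linarith
  set u := (p.n : ℝ) ^ (1 / 1000 : ℝ) with hu
  have zu : ∀ a : ℤ, u ^ a = (p.n : ℝ) ^ ((a : ℝ) / 1000) := fun a => by
    rw [hu, ← Real.rpow_intCast, ← Real.rpow_mul n0.le]; congr 1; ring
  have cvd : p.cv ≤ p.d ∧ p.cv ≤ 1 / 1000 := by
    have hA : (1 : ℝ) ≤ p.A := by exact_mod_cast ok.A
    have := mul_le_mul_of_nonneg_right hA ok.cv.le
    constructor <;> linarith [ok.cv', ok.k3.2, ok.k2.2, ok.k4.2, ok.d.2, ok.ch.2, ok.k3.1, ok.k2.1,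
      ok.k4.1, ok.d.1]
  have lu : Real.log p.n ^ 100 ≤ u := O.n3.trans (Real.rpow_le_rpow_of_exponent_le n1.le cvd.2)
  have lp : ∀ j : ℕ, j ≤ 100 → Real.log p.n ^ j ≤ Real.log p.n ^ 100 := fun j hj =>
    pow_le_pow_right₀ (by linarith) hj
  have l2 : 10 ^ 10 * Real.log p.n ≤ Real.log p.n ^ 100 := le_trans (by nlinarith) (lp 2 (by norm_num))
  have u12 : 10 ^ 12 ≤ u := by linarith
  have u0 : 0 < u := by linarith
  have u1 : 1 ≤ u := by linarith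
  have b7 : 300 * b ^ 6 ≤ u := by
    have h1 : 300 * b ^ 6 ≤ b * b ^ 6 := by gcongr; linarith
    have h2 : b ^ 7 ≤ b ^ 100 := pow_le_pow_right₀ b1 (by norm_num)
    linarith
  have t0 : 0 < t := (Real.rpow_pos_of_pos n0 _).trans_le ht
  have t1 : t ≤ 1 := by linarith [h.lh.hi, ok.t0.2]
  have τ1 : 1 ≤ t⁻¹ := (one_le_inv₀ t0).2 t1
  have τu : t⁻¹ ≤ u := by
    rw [inv_le_comm₀ t0 u0, hu, ← Real.rpow_neg n0.le]
    exact (Real.rpow_le_rpow_of_exponent_le n1.le (by linarith [ok.ch.2])).trans ht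
  have kk : p.kk t = 1 := if_pos ht
  have Bt : 0 ≤ p.Bt t ∧ p.Bt t ≤ b := by
    unfold Pm.Bt; split_ifs
    · exact ⟨by linarith [ok.C], ok.B0⟩
    · exact ⟨by linarith, le_rfl⟩
  have hN : (t ^ (1 + p.k3))⁻¹ ≤ t⁻¹ ^ 2 := by
    rw [inv_pow, ← Real.rpow_two]
    exact inv_anti₀ (by positivity) (Real.rpow_le_rpow_of_exponent_ge t0 t1
      (by linarith [ok.k3.2, ok.k2.2, ok.k4.2, ok.d.2, ok.ch.2]))
  have e1 : (c1 p t).k1 = p.Bt t * t⁻¹ := div_eq_mul_inv _ _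
  have e2 : (c1 p t).k2 = b := by simp only [c1, Cs.ctr, Pm.cq, kk, mul_one, hb]
  have e3 : (c1 p t).d0 = b ^ 4 * t⁻¹ := div_eq_mul_inv _ _
  have e4' : (c1 p t).e0 = b ^ 4 := by simp only [c1, Cs.ctr, kk, mul_one, hb]
  have e5 : (c1 p t).N = b * (t ^ (1 + p.k3))⁻¹ := by
    simp only [c1, Cs.ctr, Pm.cq, kk, mul_one, hb, div_eq_mul_inv]
  have e6 : rC (c1 p t) = 12 * (b * t⁻¹ ^ 3) + 12 * (b ^ 5 * t⁻¹ ^ 3) := by
    simp only [rC, c1, Cs.ctr, Pm.cq, kk, mul_one, hb]; field_simp; ring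
  have e7 : (c1 p t).a = 6 := rfl
  generalize t⁻¹ = τ at *
  have τ0 : 0 ≤ τ := by linarith
  have Bt1 := Bt.1
  have Bt2 := Bt.2
  have pb : ∀ i j : ℕ, i ≤ j → b ^ i ≤ b ^ j := fun i j h => pow_le_pow_right₀ b1 h
  have k1 : (c1 p t).k1 ≤ b * τ := by rw [e1]; gcongr
  have τ2 : τ ≤ τ ^ 2 := le_self_pow₀ τ1 (by norm_num)
  have lam : (c1 p t).lam ≤ 24 * (b ^ 5 * τ ^ 2) := by
    have h1 : b * (t ^ (1 + p.k3))⁻¹ ≤ b ^ 5 * τ ^ 2 :=
      mul_le_mul (by simpa using pb 1 5 (by norm_num)) hN (by positivity) (by positivity)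
    have h2 : b ^ 5 * τ ≤ b ^ 5 * τ ^ 2 := by gcongr
    have h3 : b ^ 4 * (c1 p t).k1 ≤ b ^ 4 * (b * τ) := by gcongr
    rw [Cs.lam, e2, e3, e4', e5]; linarith
  have fin : ∀ {y : ℝ} (j : ℕ), y ≤ 300 * b ^ 6 * τ ^ j → y ≤ u ^ ((j : ℤ) + 1) := fun {y} j hy => by
    have : 300 * b ^ 6 * τ ^ j ≤ u * u ^ j := by gcongr
    rw [zpow_add₀ u0.ne', _root_.zpow_natCast, _root_.zpow_one]; linarith
  have q6 : ∀ i j : ℕ, i ≤ 6 → b ^ i * τ ^ j ≤ b ^ 6 * τ ^ j := fun i j h =>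
    mul_le_mul_of_nonneg_right (pb i 6 h) (by positivity)
  have q0 : ∀ j : ℕ, 0 ≤ b ^ 6 * τ ^ j := fun j => by positivity
  have τ3 : τ ^ 2 ≤ τ ^ 3 := pow_le_pow_right₀ τ1 (by norm_num)
  have hc := h.ctx.nn
  have chi : Kp.chi x = 1 - o.p ⬝ᵥ o.p / p.n := by
    simp only [Kp.chi, Tap.avg, Tap.DD, at'.p, dotProduct, Finset.sum_sub_distrib, sq]
    simp; field_simp
  have pp : o.p ⬝ᵥ o.p ≤ p.n / 50 := by
    have h1 : p.B ^ 2 ≤ p.B ^ 1000 := pow_le_pow_right₀ (by linarith [ok.C]) (by norm_num)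
    have h2 : p.L ^ 2 ≤ p.B ^ 2 := pow_le_pow_left₀ (by linarith [ok.L]) (by linarith) 2
    have h3 : p.L ^ 2 * t ≤ 1 :=
      (mul_le_mul (h2.trans h1) h.lh.hi t0.le (pow_nonneg (by linarith [ok.C]) _)).trans (by linarith [O.t0])
    have h4 : p.L * √t ≤ 1 := by
      refine (abs_le_of_sq_le_sq' ?_ zero_le_one).2
      rwa [mul_pow, Real.sq_sqrt t0.le, one_pow]
    nlinarith [h.fx.P]
  have χ1 : 49 / 50 ≤ Kp.chi x ∧ Kp.chi x ≤ 1 := by
    have h1 : o.p ⬝ᵥ o.p / p.n ≤ 1 / 50 := by rw [div_le_iff₀ n0]; linarith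
    have h2 : 0 ≤ o.p ⬝ᵥ o.p / p.n := div_nonneg (dnn _) n0.le
    constructor <;> linarith
  have χ0 : 0 < Kp.chi x := by linarith [χ1.1]
  have χi : (Kp.chi x)⁻¹ ≤ 2 := by rw [inv_le_comm₀ χ0 two_pos]; linarith [χ1.1]
  have χj : 0 < (Kp.chi x)⁻¹ := inv_pos.2 χ0
  have Bs : (Bz o x)ᵀ = Bz o x := by
    simp only [Bz, transpose_add, transpose_smul, transpose_one, transpose_vecMulVec]
  have Bq : ∀ v, v ⬝ᵥ Bz o x *ᵥ v = (Kp.chi x)⁻¹ * (v ⬝ᵥ v) + 2 / p.n * (o.p ⬝ᵥ v) ^ 2 := fun v => by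
    simp only [Bz, add_mulVec, smul_mulVec, one_mulVec, dotProduct_add, dotProduct_smul, smul_eq_mul,
      Cov6.dot_vmv, dotProduct_comm v o.p, sq]
  have B3 : Op2 (Bz o x) 9 := op_mono (psd_op (μ := 3) Bs (fun v => by
      rw [Bq]; have := dnn v; positivity) (fun v => by
      have h1 := (O6m.cs o.p v).trans (mul_le_mul_of_nonneg_right pp (dnn v))
      have h2 := mul_le_mul_of_nonneg_left h1 (show 0 ≤ 2 / (p.n : ℝ) by positivity)
      rw [show 2 / (p.n : ℝ) * (p.n / 50 * (v ⬝ᵥ v)) = 1 / 25 * (v ⬝ᵥ v) by field_simp; ring] at h2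
      rw [Bq]; linarith [mul_le_mul_of_nonneg_right χi (dnn v), dnn v]) (by norm_num)) (by norm_num)
  have a := m2e (b := 6) (m := p.C) u12 (by rw [zu]; norm_num) at'.dim h.ctx le_rfl le_rfl
    (h.ty.trans (by
      rw [zu, ty, Real.rpow_def_of_pos n0 (_ / _)]
      refine Real.exp_le_exp.2 ?_
      have := O.n3.trans (Real.rpow_le_rpow_of_exponent_le n1.le cvd.1)
      push_cast; linarith))
    (by rw [zu, dl, ← Real.rpow_natCast, ← Real.rpow_neg n0.le]; norm_num) e7.le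
    (fin 1 (by linarith [q6 1 1 (by norm_num), q0 1]))
    (fin 3 (by
      have := mul_le_mul lam k1 hc.k1 (by positivity)
      rw [gD]; linarith [q0 3]))
    (fin 3 (by
      have h1 := mul_le_mul_of_nonneg_right lam (show 0 ≤ b by linarith)
      have h2 : b ^ 6 * τ ^ 2 ≤ b ^ 6 * τ ^ 3 := by gcongr
      have h3 : b ^ 4 * τ ≤ b ^ 4 * τ ^ 3 := by gcongr; linarith
      have h4 : b ^ 4 * 1 ≤ b ^ 4 * τ := by gcongr
      rw [gA, e2, e3, e4', e7]; linarith [q6 4 3 (by norm_num), q0 3]))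
    (fin 3 (by rw [e6]; linarith [q6 1 3 (by norm_num), q6 5 3 (by norm_num), q0 3]))
    (fin 1 (by rw [e3]; linarith [q6 4 1 (by norm_num), q0 1]))
    (by
      have h1 : Real.exp (20 + (c1 p t).k2 + 2 * p.C + 2 * 6) ≤ Real.exp p.B2 ^ 4 := by
        rw [← Real.exp_nat_mul, e2]
        exact Real.exp_le_exp.2 (by push_cast; linarith [ok.B2])
      exact h1.trans ((pow_le_pow_left₀ (Real.exp_pos _).le O.n2 4).trans ((lp 4 (by norm_num)).trans lu)))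
    h.fx.W9 (fun i => by rw [at'.p]; rfl)
    (fun i => by
      have h1 : o.h i - x i - o.z * o.p i = -((Kp.chi x)⁻¹ * o.p i) := by
        rw [at'.h, at'.z, at'.p]; simp only [Pi.add_apply, Pi.smul_apply, smul_eq_mul]; ring
      have h2 := mul_le_mul χi (h.ctx.p1 i) (abs_nonneg _) zero_le_two
      rw [h1, abs_neg, abs_mul, abs_of_pos χj, at'.z, one_div, abs_of_pos (add_pos χ0 χj)]
      linarith [χ1.2])
    Bs B3 (by linarith [ok.C]) (by norm_num)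
    (fun i => by
      have h1 := (Finset.single_le_sum (f := fun i => EV (o.P μ) (fun U => o.A U *ᵥ o.d U) i ^ 2)
        (fun j _ => sq_nonneg _) (Finset.mem_univ i)).trans hM2
      exact abs_le_of_sq_le_sq (h1.trans (by nlinarith [ok.C])) (by linarith [ok.C]))
    (by rw [zu, show (((-200 : ℤ) : ℝ) / 1000) = -(1 / 5) by norm_num]; exact hE)
  have el : u ^ (-100 : ℤ) = ll p := by rw [zu, ll]; norm_num
  have es : u ^ (-10 : ℤ) = sm p := by rw [zu, sm]; norm_num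
  rw [el, es] at a
  refine (real_or (fun U hU => ?_) hP a).trans (by norm_num)
  by_contra hn
  simp only [Set.mem_union, Set.mem_ofPred_eq, not_or, not_not] at hn
  exact hU ⟨hn.1, hn.2⟩


end Crest.Agent.T157.Og
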