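import Crest.Agent.T157.OgA_9
import Crest.Agent.T157.OgHf_15_Mg
import Crest.Agent.T157.OgCt_56_Mg
import Crest.Agent.T157.OgHiM_17_Mg
import Crest.Agent.T157.O4cA_4
import Crest.Agent.T157.O4cDef_4
import Crest.Agent.T157.O4mB_53
import Crest.Agent.T157.MjC_84
import Crest.Agent.T157.KbMg_67
import Crest.Agent.T157.KbGood_27

-- ▼ part T157/OgAll_9
section

set_option autoImplicit false

/-!
Row 157, A2 (helper9): the orbit step from the inputs of sections 2, 3 and 4.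
-/

noncomputable section

namespace Crest.Agent.T157.Og

open Crest.Agent.T157.O0

theorem orb_all (β : Base) : (InC β → T1C β → OrbC β) ∧ (InS β → T1S β → OrbS β) :=
  ogGlue nT1 nT2 apL ctrL (loL nW nM) (midL nW nM) hiM (hiWGlue nW nH) (hiFGlue nH nF) convL β

/-- **the crude orbit step** -/
theorem orbC_of {β : Base} (h : InC β) (h1 : T1C β) : OrbC β := (orb_all β).1 h h1

/-- **the sharp orbit step** -/
theorem orbS_of {β : Base} (h : InS β) (h1 : T1S β) : OrbS β := (orb_all β).2 h h1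

end Crest.Agent.T157.Og
end
end

-- ▼ part T157/O4cB_4
section

set_option autoImplicit false
set_option linter.unusedSectionVars false

/-!
Row 157, A2 section 4 (helper4): the residual of the cube identity.
-/

noncomputable section

namespace Crest.Agent.T157.O4c

open Matrix Real Set
open Crest.Agent.T157.Oo Crest.Agent.T157.Mj Crest.Agent.T157.E

variable {n k : ℕ}

/-- weighted overlap -/
def Wt (x a b : Vn n) : ℝ := ∑ i, |a i| * |b i| * mx (x i)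

theorem Wt_nonneg (x a b : Vn n) : 0 ≤ Wt x a b :=
  Finset.sum_nonneg fun i _ => by have := mx_nonneg (x i); positivity

theorem Wt_comm (x a b : Vn n) : Wt x a b = Wt x b a := by simp only [Wt, mul_comm (|a _|)]
theorem Dq_comm (x a b : Vn n) : Dq x a b = Dq x b a := by simp only [Dq, mul_comm (a _)]

theorem Wt_add (x a a' b : Vn n) (α β : ℝ) :
    Wt x (α • a + β • a') b ≤ |α| * Wt x a b + |β| * Wt x a' b := by
  simp only [Wt, Finset.mul_sum, ← Finset.sum_add_distrib]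
  refine Finset.sum_le_sum fun i _ => ?_
  have h1 : |(α • a + β • a') i| ≤ |α| * |a i| + |β| * |a' i| := ad (abs_mul _ _).le (abs_mul _ _).le
  have := mul_le_mul_of_nonneg_right h1 (mul_nonneg (abs_nonneg (b i)) (mx_nonneg (x i)))
  linarith

theorem Dq_add (x a a' b : Vn n) (α β : ℝ) :
    Dq x (α • a + β • a') b = α * Dq x a b + β * Dq x a' b := by
  simp only [Dq, Finset.mul_sum, ← Finset.sum_add_distrib]
  exact Finset.sum_congr rfl fun i _ => by simp only [Pi.add_apply, Pi.smul_apply, smul_eq_mul]; ring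

theorem Dq_sub (x a b : Vn n) : |Dq x a b - a ⬝ᵥ b| ≤ Wt x a b := by
  rw [Dq, dotProduct, ← Finset.sum_sub_distrib]
  refine (Finset.abs_sum_le_sum_abs _ _).trans (Finset.sum_le_sum fun i _ => ?_)
  rw [show (1 - tanh (x i) ^ 2) * (a i * b i) - a i * b i = -(a i * b i * tanh (x i) ^ 2) by ring, abs_neg]
  exact am (abs_mul _ _).le ((abs_of_nonneg (sq_nonneg _)).trans_le (th_sq_le _))

theorem lin {x c y y' f1 f2 : Vn n} {δ u1 u2 : ℝ} (h0 : 0 ≤ δ) (hδ : δ ≤ 1 / 2)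
    (hy : ∀ i, |y i - x i| ≤ δ * |x i|) (hy' : ∀ i, |y' i - x i| ≤ δ * |x i|)
    (e : ∀ i, y i - y' i = u1 * f1 i + u2 * f2 i) :
    |∑ i, c i * tanh (y i) - ∑ i, c i * tanh (y' i) - (u1 * Dq x c f1 + u2 * Dq x c f2)| ≤
      3 * δ * (|u1| * Wt x c f1 + |u2| * Wt x c f2) := by
  simp only [Dq, Wt, Finset.mul_sum, ← Finset.sum_add_distrib, ← Finset.sum_sub_distrib]
  refine (Finset.abs_sum_le_sum_abs _ _).trans (Finset.sum_le_sum fun i _ => ?_)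
  have h1 := s2 hδ (hy i) (hy' i) h0
  rw [e i] at h1
  have h2 : |u1 * f1 i + u2 * f2 i| ≤ |u1| * |f1 i| + |u2| * |f2 i| := ad (abs_mul _ _).le (abs_mul _ _).le
  have h3 := am (le_refl |c i|) (h1.trans (mul_le_mul_of_nonneg_left h2
    (by have := mx_nonneg (x i); positivity)))
  exact le_trans (le_of_eq (by congr 1; ring)) (h3.trans_eq (by ring))

theorem lin2 {x c y f1 f2 : Vn n} {δ : ℝ} (u1 u2 : ℝ) (h0 : 0 ≤ δ) (hδ : δ ≤ 1 / 2)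
    (hy : ∀ i, |y i - x i| ≤ δ * |x i|) :
    |∑ i, c i * (1 - tanh (y i) ^ 2) * (u1 * f1 i + u2 * f2 i) - (u1 * Dq x c f1 + u2 * Dq x c f2)| ≤
      3 * δ * (|u1| * Wt x c f1 + |u2| * Wt x c f2) := by
  simp only [Dq, Wt, Finset.mul_sum, ← Finset.sum_add_distrib, ← Finset.sum_sub_distrib]
  refine (Finset.abs_sum_le_sum_abs _ _).trans (Finset.sum_le_sum fun i _ => ?_)
  have h2 : |u1 * f1 i + u2 * f2 i| ≤ |u1| * |f1 i| + |u2| * |f2 i| := ad (abs_mul _ _).le (abs_mul _ _).le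
  have h3 := am (am (le_refl |c i|) (s1 hδ (hy i) h0)) h2
  exact le_trans (le_of_eq (by congr 1; ring)) (h3.trans_eq (by ring))

/-- a vector of the basis dual to `f1, f2` for the form `D` -/
structure Du (x f1 f2 : Vn n) (κ η : ℝ) (f c : Vn n) (i1 i2 α β σ : ℝ) : Prop where
  hf : f = i1 • f1 + i2 • f2
  hc : c = α • f1 + β • f2
  d1 : α * Dq x f1 f1 + β * Dq x f1 f2 = i1
  d2 : α * Dq x f1 f2 + β * Dq x f2 f2 = i2
  a : |α| ≤ 2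
  b : |β| ≤ 2 * σ
  ks : κ ≤ σ
  s1 : σ ≤ 1
  key : |i2 - Dq x f1 f2 * i1 - β| ≤ 4 * η * σ
  j1 : |i1| ≤ 1
  j2 : |i2| ≤ σ

namespace Hx

variable {o : Oo.Orb n k} {x f1 f2 : Vn n} {χ X κ η C : ℝ} (H : Hx o x f1 f2 χ X κ η C)
include H

theorem e0 : 0 < η := H.k0.trans_le H.ke

theorem W1 {b : Vn n} (hb : b ⬝ᵥ b = 1) : Wt x f1 b ≤ κ := by
  refine abs_le_of_sq_le_sq' ?_ H.k0.le |>.2
  have := Finset.sum_mul_sq_le_sq_mul_sq Finset.univ (fun i => |f1 i| * mx (x i)) fun i => |b i|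
  simp only [mul_pow, sq_abs, ← dot_self_eq_sq, hb, mul_one] at this
  refine le_trans (le_of_eq ?_) (this.trans H.m6)
  congr 1
  exact Finset.sum_congr rfl fun i _ => by ring

theorem W2 : Wt x f2 f2 ≤ 1 := by
  rw [← H.n2, dotProduct]
  refine Finset.sum_le_sum fun i _ => ?_
  rw [abs_mul_abs_self]
  exact mul_le_of_le_one_right (mul_self_nonneg _) (mx_le _)

theorem be_le : |Dq x f1 f2| ≤ κ := by
  have := (Dq_sub x f1 f2).trans (H.W1 H.n2)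
  rwa [H.o12, sub_zero] at this

theorem D11 : |Dq x f1 f1 - 1| ≤ κ := H.n1 ▸ (Dq_sub x f1 f1).trans (H.W1 H.n1)

theorem D22 : |Dq x f2 f2 - 1| ≤ η := by
  have : Dq x f2 f2 - 1 = -∑ i, f2 i ^ 2 * tanh (x i) ^ 2 := by
    rw [← H.n2, Dq, dotProduct, ← Finset.sum_sub_distrib, ← Finset.sum_neg_distrib]
    exact Finset.sum_congr rfl fun i _ => by ring
  rw [this, abs_neg, abs_of_nonneg (Finset.sum_nonneg fun i _ => by positivity)]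
  exact H.m2

theorem f1_le (i : Fin n) : |f1 i| ≤ η * κ * |x i| := by
  rw [H.hx, abs_mul, abs_of_pos H.X0, ← mul_assoc]
  exact le_mul_of_one_le_left (abs_nonneg _) H.big

theorem f2_le (i : Fin n) : |f2 i| ≤ C * η * |x i| := by
  refine le_of_mul_le_mul_left ((H.f2 i).trans ?_) H.k0
  exact (mul_le_mul_of_nonneg_left (H.f1_le i) (by linarith [H.C1])).trans_eq (by ring)

theorem hp (i : Fin n) : o.p i = tanh (x i) := by obtain ⟨_, _, _, f⟩ := H.fr; exact f.hp i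

theorem Qvec (v : Vn n) : Qm o *ᵥ v = (f1 ⬝ᵥ v) • f1 + (f2 ⬝ᵥ v) • f2 := by
  rw [H.hq, add_mulVec, Orb.vv_mulVec, Orb.vv_mulVec]

theorem Qii (i : Fin n) : Qm o i i = f1 i ^ 2 + f2 i ^ 2 := by
  simp only [H.hq, Matrix.add_apply, vecMulVec_apply, sq]

theorem Qsq (v : Vn n) : Qm o *ᵥ v ⬝ᵥ Qm o *ᵥ v = (f1 ⬝ᵥ v) ^ 2 + (f2 ⬝ᵥ v) ^ 2 := by
  rw [dot_Q, Q_Q H.ok, H.Qvec, add_dotProduct, smul_dotProduct, smul_dotProduct]; simp [sq]

theorem p_sq : o.p ⬝ᵥ o.p = (f1 ⬝ᵥ o.p) ^ 2 + (f2 ⬝ᵥ o.p) ^ 2 := by rw [← H.Qsq, Q_p H.ok]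

theorem x_eq : x = X • f1 := funext H.hx

theorem p1_le : |f1 ⬝ᵥ o.p| ≤ X := by
  refine abs_le_of_sq_le_sq ?_ H.X0.le
  have h1 : o.p ⬝ᵥ o.p ≤ x ⬝ᵥ x := by
    rw [dot_self_eq_sq, dot_self_eq_sq]
    exact Finset.sum_le_sum fun i _ => by rw [H.hp]; exact sq_le_sq.2 (abs_th _)
  rw [H.x_eq, smul_dotProduct, dotProduct_smul, H.n1, H.p_sq] at h1
  simp only [smul_eq_mul] at h1
  nlinarith [sq_nonneg (f2 ⬝ᵥ o.p)]

theorem p2_le : |f2 ⬝ᵥ o.p| ≤ κ * X := by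
  refine abs_le_of_sq_le_sq ?_ (mul_pos H.k0 H.X0).le
  have h1 : f2 ⬝ᵥ o.p = f2 ⬝ᵥ (o.p - x) := by
    rw [dotProduct_sub, H.x_eq, dotProduct_smul, dotProduct_comm f2 f1, H.o12]; simp
  have h2 : (o.p - x) ⬝ᵥ (o.p - x) ≤ X ^ 2 * ∑ i, f1 i ^ 2 * mx (x i) ^ 2 := by
    rw [dot_self_eq_sq, Finset.mul_sum]
    refine Finset.sum_le_sum fun i _ => ?_
    have := pow_le_pow_left₀ (abs_nonneg _) (th_sub (x i)) 2
    rw [sq_abs, mul_pow, sq_abs, ← H.hp] at this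
    refine this.trans_eq ?_
    rw [← mul_assoc, ← mul_pow X, ← H.hx]
  have h3 := dot_sq_le f2 (o.p - x)
  rw [H.n2, one_mul] at h3
  rw [h1, mul_pow, mul_comm]
  exact h3.trans (h2.trans (mul_le_mul_of_nonneg_left H.m6 (sq_nonneg X)))

theorem exists_du (sm : 1000 * η ≤ 1) : (∃ c α β, Du x f1 f2 κ η f1 c 1 0 α β κ) ∧
    ∃ c α β, Du x f1 f2 κ η f2 c 0 1 α β 1 := by
  have h1 := abs_le.1 H.D11
  have h2 := abs_le.1 H.D22
  have h3 := H.be_le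
  have k0 := H.k0
  have ke := H.ke
  have h4 : Dq x f1 f2 ^ 2 ≤ η := by
    have := pow_le_pow_left₀ (abs_nonneg _) h3 2
    rw [sq_abs] at this; nlinarith
  obtain ⟨d, hd⟩ : ∃ d, d = Dq x f1 f1 * Dq x f2 f2 - Dq x f1 f2 ^ 2 := ⟨_, rfl⟩
  have h5 : |d - 1| ≤ 7 / 2 * η := by
    have : d - 1 = (Dq x f1 f1 - 1) * (Dq x f2 f2 - 1) + (Dq x f1 f1 - 1) + (Dq x f2 f2 - 1) -
      Dq x f1 f2 ^ 2 := by rw [hd]; ring
    rw [this]
    refine (asb (ad (ad (am H.D11 H.D22) H.D11) H.D22) ((abs_of_nonneg (sq_nonneg _)).trans_le h4)).trans ?_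
    nlinarith
  have h6 := abs_le.1 h5
  have h7 : |d⁻¹| ≤ 100 / 99 := (ai (c := 99 / 100) (by norm_num) (by linarith)).trans_eq (by norm_num)
  have d0 : d ≠ 0 := by linarith
  have a1 : |Dq x f1 f1| ≤ 3 / 2 := abs_le.2 ⟨by linarith, by linarith⟩
  have a2 : |Dq x f2 f2| ≤ 3 / 2 := abs_le.2 ⟨by linarith, by linarith⟩
  have a3 : |-(Dq x f1 f2 * d⁻¹)| ≤ 2 * κ := by rw [abs_neg]; exact (am h3 h7).trans (by linarith)
  refine ⟨⟨_, Dq x f2 f2 * d⁻¹, -(Dq x f1 f2 * d⁻¹), by simp, rfl, ?_, by ring,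
    (am a2 h7).trans (by norm_num), a3, le_rfl, by linarith, ?_, by simp, by simpa using k0.le⟩,
    ⟨_, -(Dq x f1 f2 * d⁻¹), Dq x f1 f1 * d⁻¹, by simp, rfl, by ring, ?_, a3.trans (by linarith),
    (am a1 h7).trans (by norm_num), by linarith, le_rfl, ?_, by simp, by simp⟩⟩
  · field_simp; rw [hd]; ring
  · have : 0 - Dq x f1 f2 * 1 - -(Dq x f1 f2 * d⁻¹) = -(Dq x f1 f2 * ((d - 1) * d⁻¹)) := by
      field_simp; ring
    rw [this, abs_neg]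
    exact (am h3 (am h5 h7)).trans (by nlinarith [mul_pos H.e0 k0])
  · field_simp; rw [hd]; ring
  · have : 1 - Dq x f1 f2 * 0 - Dq x f1 f1 * d⁻¹ =
        (Dq x f1 f1 * (Dq x f2 f2 - 1) - Dq x f1 f2 ^ 2) * d⁻¹ := by field_simp; rw [hd]; ring
    rw [this]
    exact (am (asb (am a1 H.D22) ((abs_of_nonneg (sq_nonneg _)).trans_le h4)) h7).trans (by linarith)

variable {f c : Vn n} {i1 i2 α β σ : ℝ} (D : Du x f1 f2 κ η f c i1 i2 α β σ)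
include D

theorem s0 : 0 < σ := H.k0.trans_le D.ks

theorem Wc1 : Wt x c f1 ≤ 4 * κ := by
  have h1 := Wt_add x f1 f2 f1 α β
  rw [← D.hc, Wt_comm x f2] at h1
  have h2 := mul_le_mul D.a (H.W1 H.n1) (Wt_nonneg _ _ _) two_pos.le
  have h3 := mul_le_mul (D.b.trans (by linarith [D.s1] : 2 * σ ≤ 2)) (H.W1 H.n2) (Wt_nonneg _ _ _) two_pos.le
  linarith

theorem Wc2 : Wt x c f2 ≤ 4 * σ := by
  have h1 := Wt_add x f1 f2 f2 α β
  rw [← D.hc] at h1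
  have h2 := mul_le_mul D.a (H.W1 H.n2) (Wt_nonneg _ _ _) two_pos.le
  have h3 := mul_le_mul D.b H.W2 (Wt_nonneg _ _ _) (by linarith [H.s0 D])
  linarith [D.ks]

theorem Dc1 : Dq x c f1 = i1 := by rw [D.hc, Dq_add, Dq_comm x f2, D.d1]
theorem Dc2 : Dq x c f2 = i2 := by rw [D.hc, Dq_add, D.d2]

theorem c_le (i : Fin n) : |c i| ≤ 4 * C * η * σ * |x i| := by
  have h1 := ad (am D.a (H.f1_le i)) (am D.b (H.f2_le i))
  rw [show α * f1 i + β * f2 i = c i by rw [D.hc]; rfl] at h1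
  have h2 : η * κ * |x i| ≤ C * η * σ * |x i| := by
    have := H.e0; have := H.s0 D
    calc η * κ * |x i| ≤ η * σ * |x i| := by gcongr; exact D.ks
      _ = 1 * η * σ * |x i| := by ring
      _ ≤ _ := by gcongr; exact H.C1
  linarith

theorem c_sq : c ⬝ᵥ c ≤ 8 := by
  have h1 := pow_le_pow_left₀ (abs_nonneg _) D.a 2
  have h2 := pow_le_pow_left₀ (abs_nonneg _) (D.b.trans (by linarith [D.s1] : 2 * σ ≤ 2)) 2
  rw [sq_abs] at h1 h2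
  simp only [D.hc, add_dotProduct, dotProduct_add, smul_dotProduct, dotProduct_smul, smul_eq_mul,
    H.n1, H.n2, H.o12, dotProduct_comm f2 f1]
  nlinarith

/-- **(R)** -/
theorem res (sm : 1000 * C * η ≤ 1) {a b d1 d2 kk L1 L2 : ℝ} {y : Vn n} (ha : |a| ≤ η * X)
    (hb : |b| ≤ η * κ * X) (hd1 : |d1| ≤ η * κ * X) (hd2 : |d2| ≤ η * κ * X)
    (hk : kk = (n - 3) / (n - ((f1 ⬝ᵥ o.p + a) ^ 2 + (f2 ⬝ᵥ o.p + b) ^ 2)))
    (h1 : L1 = kk * (f1 ⬝ᵥ o.p + a) - f1 ⬝ᵥ o.p / χ + Dq x f1 f2 * (Dq x f1 f2 * a - b) + d1)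
    (h2 : L2 = kk * (f2 ⬝ᵥ o.p + b) - f2 ⬝ᵥ o.p / χ - Dq x f1 f2 * a + d2)
    (hy : ∀ i, |y i - x i - (L1 * f1 i + L2 * f2 i)| ≤ 52 * Qm o i i) :
    (∀ i, |y i - x i| ≤ 110 * C * η * |x i|) ∧
    |α * (f1 ⬝ᵥ o.p + a) + β * (f2 ⬝ᵥ o.p + b) - ∑ i, c i * tanh (y i) + (i1 * d1 + i2 * d2)| ≤
      8000 * C * η * σ * (κ * |a| + |b| + |d1| + |d2| + 1) := by
  have k0 := H.k0; have ke := H.ke; have e0 := H.e0; have C1 := H.C1; have X0 := H.X0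
  have s0 := H.s0 D; have ks := D.ks; have big := H.big; have be := H.be_le
  have sm' : 1000 * η ≤ 1 := by nlinarith
  obtain ⟨u, hu⟩ : ∃ u, u = (f1 ⬝ᵥ o.p + a) / (χ + ((f1 ⬝ᵥ o.p) ^ 2 - (f1 ⬝ᵥ o.p + a) ^ 2) / n) -
    f1 ⬝ᵥ o.p / χ := ⟨_, rfl⟩
  obtain ⟨t1, t2, t3⟩ := scal X0 k0 ke sm' H.Xn big H.p1_le H.p2_le ha hb (H.p_sq ▸ H.chi) hu hk
  have xp := H.xp (f1 ⬝ᵥ o.p + a) (by rwa [add_sub_cancel_left])
  rw [← hu, add_sub_cancel_left] at xp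
  obtain ⟨A, hA⟩ : ∃ A, A = κ * |a| := ⟨_, rfl⟩
  have A0 : 0 ≤ A := by rw [hA]; positivity
  have AX : A ≤ η * κ * X := by rw [hA]; nlinarith [mul_le_mul_of_nonneg_left ha k0.le]
  have b0 := abs_nonneg b; have d10 := abs_nonneg d1; have d20 := abs_nonneg d2
  have u1 : |u| ≤ 101 / 100 * |a| := by
    have := ad t1 (le_refl |a|); rw [sub_add_cancel] at this; nlinarith [abs_nonneg a]
  have u2 : |Dq x f1 f2 * u| ≤ 101 / 100 * A := (am be u1).trans_eq (by rw [hA]; ring)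
  have u3 : |Dq x f1 f2 * (u - a)| ≤ 10 * η * A := (am be t1).trans (by
    rw [hA]; nlinarith [mul_le_mul_of_nonneg_right ke (mul_nonneg k0.le (abs_nonneg a))])
  have g1 : |b - Dq x f1 f2 * u| ≤ |b| + 101 / 100 * A := asb le_rfl u2
  obtain ⟨r1, hr1⟩ : ∃ r, r = kk * (f1 ⬝ᵥ o.p + a) - f1 ⬝ᵥ o.p / χ - u -
    Dq x f1 f2 * (Dq x f1 f2 * (u - a)) := ⟨_, rfl⟩
  obtain ⟨r2, hr2⟩ : ∃ r, r = kk * (f2 ⬝ᵥ o.p + b) - f2 ⬝ᵥ o.p / χ - b + Dq x f1 f2 * (u - a) := ⟨_, rfl⟩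
  have g2 : |r1| ≤ 20 * η * κ * (A + |b| + 1) := by
    rw [hr1]; refine (asb t2 (am be u3)).trans ?_
    nlinarith [mul_nonneg (mul_pos e0 k0).le A0]
  have g3 : |r2| ≤ 30 * η * (A + |b| + 1) := by
    rw [hr2]; refine (ad t3 u3).trans ?_
    rw [← hA]; nlinarith [mul_nonneg e0.le b0]
  have l1 : L1 - u = -(Dq x f1 f2 * (b - Dq x f1 f2 * u)) + r1 + d1 := by rw [h1, hr1]; ring
  have l2 : L2 = b - Dq x f1 f2 * u + r2 + d2 := by rw [h2, hr2]; ring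
  have ek : η * κ ≤ 1 / 1000 * (1 / 1000) := mul_le_mul (by linarith) (by linarith) k0.le (by norm_num)
  have m1 : |L1 - u| ≤ (A + |b| + 1) / 10 + |d1| := by
    rw [l1]; refine (ad (ad ((abs_neg _).trans_le (am be g1)) g2) le_rfl).trans ?_
    nlinarith
  have m2 : |L2| ≤ 21 / 20 * (A + |b|) + 1 / 20 + |d2| := by
    rw [l2]; refine (ad (ad g1 g3) le_rfl).trans ?_
    nlinarith
  have kX : η * κ * X ≤ η * X / 1000 := by nlinarith [mul_pos e0 X0]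
  have m3 : |L1| ≤ 2 * η * X := by
    have := ad m1 u1; rw [sub_add_cancel] at this; linarith
  have m4 : |L2| ≤ 4 * η * X * κ := by linarith
  have xi : ∀ i, X * |f1 i| = |x i| := fun i => by rw [H.hx, abs_mul, abs_of_pos X0]
  have Ce : ∀ i, η * |x i| ≤ C * η * |x i| := fun i => by
    nlinarith [mul_nonneg e0.le (abs_nonneg (x i))]
  have n1 : ∀ i, |L1 * f1 i + L2 * f2 i| ≤ 6 * C * η * |x i| := fun i => by
    refine (ad (am m3 le_rfl) (am m4 le_rfl)).trans ?_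
    have := mul_le_mul_of_nonneg_left (H.f2 i) (by positivity : 0 ≤ 4 * η * X)
    have h3 := Ce i
    rw [← xi i] at h3 ⊢; linarith
  have n2 : ∀ i, Qm o i i ≤ 2 * C * η * |x i| := fun i => by
    have q1 := Qii_le H.ok i
    rw [H.Qii, ← sq_abs, ← sq_abs (f2 i)] at q1 ⊢
    have a1 := H.f1_le i; have a2 := H.f2_le i
    have a3 : η * κ * |x i| ≤ η * |x i| := by
      nlinarith [mul_nonneg e0.le (abs_nonneg (x i))]
    have a4 : |f1 i| ≤ 1 := by nlinarith [sq_nonneg |f2 i|, abs_nonneg (f1 i)]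
    have a5 : |f2 i| ≤ 1 := by nlinarith [sq_nonneg |f1 i|, abs_nonneg (f2 i)]
    nlinarith [Ce i, abs_nonneg (f1 i), abs_nonneg (f2 i)]
  have y1 : ∀ i, |y i - x i| ≤ 110 * C * η * |x i| := fun i => by
    have := ad (hy i) (n1 i); rw [sub_add_cancel] at this; linarith [n2 i]
  refine ⟨y1, ?_⟩
  have δ0 : 0 ≤ 110 * C * η := by positivity
  have δ1 : 110 * C * η ≤ 1 / 2 := by linarith
  have y2 : ∀ i, |x i + (L1 * f1 i + L2 * f2 i) - x i| ≤ 110 * C * η * |x i| := fun i => by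
    rw [add_sub_cancel_left]; nlinarith [n1 i, mul_nonneg (mul_nonneg (zero_le_one.trans C1) e0.le) (abs_nonneg (x i))]
  have y3 : ∀ i, |(X + u) * f1 i - x i| ≤ 110 * C * η * |x i| := fun i => by
    rw [add_mul, ← H.hx, add_sub_cancel_left]
    refine (am (u1.trans (by linarith : _ ≤ 2 * η * X)) le_rfl).trans ?_
    have h3 := Ce i
    rw [← xi i] at h3 ⊢
    nlinarith [mul_nonneg (mul_nonneg (zero_le_one.trans C1) e0.le) (mul_nonneg X0.le (abs_nonneg (f1 i)))]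
  have y4 : ∀ i, |x i - x i| ≤ 110 * C * η * |x i| := fun i => by rw [sub_self, abs_zero]; positivity
  have S1 : |∑ i, c i * tanh (y i) - ∑ i, c i * tanh (x i + (L1 * f1 i + L2 * f2 i))| ≤
      416 * C * η * σ := by
    obtain ⟨_, _, _, F⟩ := H.fr
    rw [← Finset.sum_sub_distrib]
    refine (Finset.abs_sum_le_sum_abs _ _).trans ((Finset.sum_le_sum
      (g := fun i => 208 * C * η * σ * Qm o i i) fun i _ => ?_).trans_eq ?_)
    · have a1 := (s3 δ1 (y1 i) (y2 i)).trans ((le_of_eq (by congr 1; ring)).trans (hy i))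
      rw [← mul_sub]
      refine (am (H.c_le D i) le_rfl).trans ?_
      have := mul_le_mul_of_nonneg_left a1 (by positivity : 0 ≤ 4 * C * η * σ)
      linarith
    · rw [← Finset.mul_sum, F.trQ H.ok]; ring
  have S2 := lin (c := c) (y := fun i => x i + (L1 * f1 i + L2 * f2 i)) (y' := fun i => (X + u) * f1 i)
    (f1 := f1) (f2 := f2) (u1 := L1 - u) (u2 := L2) δ0 δ1 y2 y3 fun i => by rw [H.hx]; ring
  have S3 := lin (c := f2) (y := fun i => (X + u) * f1 i) (y' := x) (f1 := f1) (f2 := f2)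
    (u1 := u) (u2 := 0) δ0 δ1 y3 y4 fun i => by rw [H.hx]; ring
  have p2 : ∑ i, f2 i * tanh (x i) = f2 ⬝ᵥ o.p := Finset.sum_congr rfl fun i _ => by rw [H.hp]
  have S4 : ∑ i, c i * tanh ((X + u) * f1 i) =
      α * ∑ i, f1 i * tanh ((X + u) * f1 i) + β * ∑ i, f2 i * tanh ((X + u) * f1 i) := by
    simp only [D.hc, Finset.mul_sum, ← Finset.sum_add_distrib]
    exact Finset.sum_congr rfl fun i _ => by simp only [Pi.add_apply, Pi.smul_apply, smul_eq_mul]; ring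
  rw [H.Dc1 D, H.Dc2 D, S4] at S2
  rw [p2, abs_zero, zero_mul, zero_mul, add_zero, add_zero, Dq_comm, Wt_comm] at S3
  generalize ∑ i, c i * tanh (y i) = Y at *
  generalize ∑ i, c i * tanh (x i + (L1 * f1 i + L2 * f2 i)) = Y' at *
  generalize ∑ i, f1 i * tanh ((X + u) * f1 i) = K1 at *
  generalize ∑ i, f2 i * tanh ((X + u) * f1 i) = K2 at *
  have e : α * (f1 ⬝ᵥ o.p + a) + β * (f2 ⬝ᵥ o.p + b) - Y + (i1 * d1 + i2 * d2) =
      -((Y - Y') + (Y' - (α * K1 + β * K2) - ((L1 - u) * i1 + L2 * i2)) + α * (K1 - (f1 ⬝ᵥ o.p + a)) +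
        β * (K2 - f2 ⬝ᵥ o.p - u * Dq x f1 f2) +
        ((i2 - Dq x f1 f2 * i1 - β) * (b - Dq x f1 f2 * u) + i1 * r1 + i2 * r2)) := by
    rw [l1, l2]; ring
  obtain ⟨Z, hZ⟩ : ∃ Z, Z = A + |b| + |d1| + |d2| + 1 := ⟨_, rfl⟩
  have T2 : |L1 - u| * Wt x c f1 + |L2| * Wt x c f2 ≤ 2 * Z * (4 * σ) + 2 * Z * (4 * σ) :=
    add_le_add (mul_le_mul (by linarith) ((H.Wc1 D).trans (by linarith)) (Wt_nonneg _ _ _) (by linarith))
      (mul_le_mul (by linarith) (H.Wc2 D) (Wt_nonneg _ _ _) (by linarith))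
  have T3 : |u| * Wt x f1 f2 ≤ 2 * Z :=
    (mul_le_mul u1 (H.W1 H.n2) (Wt_nonneg _ _ _) (by positivity)).trans (by linarith)
  have T4 : η * κ ^ 2 * |a| ≤ η * σ * Z := by
    calc η * κ ^ 2 * |a| = η * κ * A := by rw [hA]; ring
      _ ≤ _ := by gcongr; linarith
  have T5 : 20 * η * κ * (A + |b| + 1) ≤ 20 * η * σ * Z := by gcongr; linarith
  have T6 : 30 * η * (A + |b| + 1) ≤ 30 * η * Z := by gcongr; linarith
  rw [e, abs_neg, ← hA, ← hZ]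
  refine (ad (ad (ad (ad S1 (S2.trans (mul_le_mul_of_nonneg_left T2 (by linarith)))) (am D.a (xp.trans T4)))
    (am D.b (S3.trans (mul_le_mul_of_nonneg_left T3 (by linarith)))))
    (ad (ad (am D.key (g1.trans (by linarith : _ ≤ 2 * Z))) (am D.j1 (g2.trans T5)))
      (am D.j2 (g3.trans T6)))).trans ?_
  have Z1 : 1 ≤ Z := by linarith
  have v1 : C * η * σ ≤ C * η * σ * Z := le_mul_of_one_le_right (by positivity) Z1
  have v2 : η * σ * Z ≤ C * η * σ * Z := by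
    calc η * σ * Z = 1 * η * σ * Z := by ring
      _ ≤ _ := by gcongr
  linarith [mul_pos (mul_pos e0 s0) (zero_lt_one.trans_le Z1)]

end Hx

end Crest.Agent.T157.O4c
end
end

-- ▼ part T157/O4cB_42
section

set_option autoImplicit false
set_option linter.unusedSectionVars false

/-!
Row 157, A2 section 4 (helper42): the tangent field of (M1), its bounds, and the sphere step.
-/

noncomputable section

namespace Crest.Agent.T157.O4c.B42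

open MeasureTheory Matrix Crest.Agent.Lib.OrthPoinc Real
open Crest.Agent.T157.Oc Crest.Agent.T157.E Crest.Agent.T157.Od Crest.Agent.T157.Oo
open Crest.Agent.T157.Mj Crest.Agent.T157.M4

variable {n k : ℕ}

/-! ### words -/

def Yv (G : Mn n) (p ξ : Vn n) : Vn n := G *ᵥ (ξ + p + p)
def Sv (G : Mn n) (p ξ : Vn n) : ℝ := (ξ + p) ⬝ᵥ G *ᵥ (ξ + p + p)
def th (a S : ℝ) : ℝ := S / (S ^ 2 + a ^ 2)
def th1 (a S : ℝ) : ℝ := (a ^ 2 - S ^ 2) / (S ^ 2 + a ^ 2) ^ 2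
def ph1 (a S : ℝ) : ℝ := 2 * S * a ^ 2 / (S ^ 2 + a ^ 2) ^ 2
/-- `G v · (ξ + p)` -/
def uv (G : Mn n) (p v ξ : Vn n) : ℝ := G *ᵥ v ⬝ᵥ (ξ + p)
/-- the tangent field -/
def Uv (G : Mn n) (p : Vn n) (a : ℝ) (v ξ : Vn n) : Vn n :=
  th a (Sv G p ξ) • (Sv G p ξ • G *ᵥ v - uv G p v ξ • Yv G p ξ)
/-- the `G`-norm -/
def nG (G : Mn n) (u : Vn n) : ℝ := √(u ⬝ᵥ G *ᵥ u)
/-- the gradient of `Sv` -/
def dS (G : Mn n) (p ξ : Vn n) : Vn n := G *ᵥ (ξ + p + p) + G *ᵥ (ξ + p)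

/-- `0 ≤ G ≤ γ` -/
structure PG (G : Mn n) (γ : ℝ) : Prop where
  symm : Gᵀ = G
  pos : 0 < γ
  le : ∀ u, G *ᵥ u ⬝ᵥ G *ᵥ u ≤ γ * (u ⬝ᵥ G *ᵥ u)

theorem PG.of_hw {o : Oo.Orb n k} {x f1 f2 : Vn n} {G : Mn n} {χ κ η C g T0 τ : ℝ}
    (h : Hw o x f1 f2 G χ κ η C g T0 τ) : PG G g⁻¹ := by
  refine ⟨h.symm, inv_pos.2 h.g0, fun u => ?_⟩
  have h1 := h.co (G *ᵥ u)
  rw [mulVec_mulVec, h.inv, one_mulVec, dotProduct_comm _ u] at h1
  rwa [← div_eq_inv_mul, le_div_iff₀' h.g0]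

/-! ### scalar bounds -/

theorem hd_th {a : ℝ} (ha : 0 < a) (S : ℝ) : HasDerivAt (th a) (th1 a S) S := by
  have h0 : S ^ 2 + a ^ 2 ≠ 0 := by positivity
  have h := (hasDerivAt_id' S).div (((hasDerivAt_id' S).pow 2).add_const (a ^ 2)) h0
  refine (h.congr_deriv ?_).congr_of_eventuallyEq (Filter.Eventually.of_forall fun _ => rfl)
  simp only [th1, Pi.pow_apply]
  field_simp
  ring

theorem hd_ph {a : ℝ} (ha : 0 < a) (S : ℝ) : HasDerivAt (fun S => th a S * S) (ph1 a S) S := by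
  have h0 : S ^ 2 + a ^ 2 ≠ 0 := by positivity
  refine ((hd_th ha S).mul (hasDerivAt_id' S)).congr_deriv ?_
  simp only [th1, th, ph1]
  field_simp
  ring

theorem cont_th {a : ℝ} (ha : 0 < a) : Continuous (th a) := by
  unfold th; exact continuous_id.div (by fun_prop) fun S => by positivity
theorem cont_th1 {a : ℝ} (ha : 0 < a) : Continuous (th1 a) := by
  unfold th1; exact Continuous.div (by fun_prop) (by fun_prop) fun S => by positivity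
theorem cont_ph1 {a : ℝ} (ha : 0 < a) : Continuous (ph1 a) := by
  unfold ph1; exact Continuous.div (by fun_prop) (by fun_prop) fun S => by positivity

theorem thS {a : ℝ} (ha : 0 < a) (S : ℝ) : 0 ≤ th a S * S ∧ th a S * S ≤ 1 := by
  have h0 : 0 < S ^ 2 + a ^ 2 := by positivity
  rw [th, div_mul_eq_mul_div, ← sq]
  exact ⟨by positivity, (div_le_one h0).2 (by nlinarith)⟩

theorem le_of_sq {x L : ℝ} (hL : 0 ≤ L) (h : x ^ 2 ≤ L ^ 2) : x ≤ L :=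
  (le_abs_self x).trans (abs_le_of_sq_le_sq h hL)

/-- all scalar bounds, `m = 2 |S| + P` -/
theorem sc {a S P L μ : ℝ} (ha : 0 < a) (hP : 0 ≤ P) (hL : 0 ≤ L) (hL2 : (1 + P / a) ^ 3 ≤ L ^ 2 * a)
    (hμ : 0 ≤ μ) (hm : μ ^ 2 = 2 * |S| + P) :
    |th a S| * μ ≤ L ∧ |ph1 a S| * μ ≤ 2 * L ∧ |th1 a S| * μ ^ 3 ≤ 3 * L ∧
      |th a S| * μ ^ 2 ≤ 2 + P / a := by
  obtain ⟨r, rfl⟩ : ∃ r, S = a * r := ⟨S / a, by field_simp⟩
  obtain ⟨c, rfl⟩ : ∃ c, P = a * c := ⟨P / a, by field_simp⟩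
  have hc : 0 ≤ c := nonneg_of_mul_nonneg_right hP ha |> fun h => by
    by_contra h'; push Not at h'; nlinarith
  rw [mul_div_cancel_left₀ _ ha.ne'] at hL2 ⊢
  obtain ⟨ρ, hρ, e⟩ : ∃ ρ, 0 ≤ ρ ∧ |r| = ρ := ⟨_, abs_nonneg r, rfl⟩
  have e2 : r ^ 2 = ρ ^ 2 := by rw [← e, sq_abs]
  rw [abs_mul, abs_of_pos ha, e] at hm
  have hD : 0 < 1 + ρ ^ 2 := by positivity
  have t0 : |th a (a * r)| = ρ / (a * (1 + ρ ^ 2)) := by
    rw [th, abs_div, abs_mul, abs_of_pos ha, e, mul_pow, e2, abs_of_pos (by positivity)]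
    field_simp; ring
  have t1 : |ph1 a (a * r)| = 2 * ρ / (a * (1 + ρ ^ 2) ^ 2) := by
    rw [ph1, abs_div, abs_mul, abs_mul, abs_mul, abs_of_pos ha, e, mul_pow, e2,
      abs_of_pos (a := (a ^ 2 * ρ ^ 2 + a ^ 2) ^ 2) (by positivity), abs_of_pos (sq_pos_of_pos ha), abs_two]
    field_simp; ring
  have t2 : |th1 a (a * r)| ≤ 1 / (a ^ 2 * (1 + ρ ^ 2)) := by
    rw [th1, abs_div, mul_pow, e2, abs_of_pos (a := (a ^ 2 * ρ ^ 2 + a ^ 2) ^ 2) (by positivity),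
      div_le_div_iff₀ (by positivity) (by positivity)]
    have : |a ^ 2 - a ^ 2 * ρ ^ 2| ≤ a ^ 2 * (1 + ρ ^ 2) :=
      abs_le.2 ⟨by nlinarith [sq_nonneg a, sq_nonneg (a * ρ)], by nlinarith [sq_nonneg (a * ρ)]⟩
    calc _ ≤ a ^ 2 * (1 + ρ ^ 2) * (a ^ 2 * (1 + ρ ^ 2)) := by gcongr
      _ = _ := by ring
  have h13 : 1 + c ≤ (1 + c) ^ 3 := le_self_pow₀ (by linarith) (by norm_num)
  have hA : ρ ^ 2 * (2 * ρ + c) ≤ (1 + c) * (1 + ρ ^ 2) ^ 2 := by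
    nlinarith [sq_nonneg (ρ ^ 2 - ρ), sq_nonneg ρ, mul_nonneg hc (sq_nonneg (ρ ^ 2)),
      mul_nonneg hc (sq_nonneg ρ)]
  have b0 : ρ / (a * (1 + ρ ^ 2)) * μ ≤ L := by
    refine le_of_sq hL ?_
    rw [mul_pow, hm, div_pow, div_mul_eq_mul_div, div_le_iff₀ (by positivity)]
    calc ρ ^ 2 * (2 * (a * ρ) + a * c) = a * (ρ ^ 2 * (2 * ρ + c)) := by ring
      _ ≤ a * ((L ^ 2 * a) * (1 + ρ ^ 2) ^ 2) :=
        mul_le_mul_of_nonneg_left (hA.trans (mul_le_mul_of_nonneg_right (h13.trans hL2) (by positivity))) ha.le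
      _ = _ := by ring
  refine ⟨t0 ▸ b0, ?_, ?_, ?_⟩
  · rw [t1]
    have : 2 * ρ / (a * (1 + ρ ^ 2) ^ 2) ≤ 2 * (ρ / (a * (1 + ρ ^ 2))) := by
      rw [mul_div_assoc]; gcongr; nlinarith [sq_nonneg ρ]
    nlinarith [mul_le_mul_of_nonneg_right this hμ]
  · refine (mul_le_mul_of_nonneg_right t2 (by positivity)).trans (le_of_sq (by positivity) ?_)
    have h1 : 2 * ρ + c ≤ (1 + c) * (1 + 2 * ρ) := by nlinarith [mul_nonneg hc hρ]
    have h2 : (1 + 2 * ρ) ^ 3 ≤ 9 * (1 + ρ ^ 2) ^ 2 := by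
      nlinarith [sq_nonneg (ρ ^ 2 - ρ), sq_nonneg (ρ - 1), sq_nonneg (3 * ρ ^ 2 - 2 * ρ), sq_nonneg ρ,
        sq_nonneg (2 * ρ - 1)]
    have h3 : (2 * ρ + c) ^ 3 ≤ L ^ 2 * a * (9 * (1 + ρ ^ 2) ^ 2) :=
      (pow_le_pow_left₀ (by positivity) h1 3).trans (by rw [mul_pow]; gcongr)
    rw [mul_pow, ← pow_mul, show 3 * 2 = 2 * 3 from rfl, pow_mul, hm, div_pow, div_mul_eq_mul_div,
      div_le_iff₀ (by positivity)]
    calc 1 ^ 2 * (2 * (a * ρ) + a * c) ^ 3 = a ^ 3 * (2 * ρ + c) ^ 3 := by ring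
      _ ≤ a ^ 3 * (L ^ 2 * a * (9 * (1 + ρ ^ 2) ^ 2)) := by gcongr
      _ = _ := by ring
  · rw [t0, hm, div_mul_eq_mul_div, div_le_iff₀ (by positivity)]
    have : ρ * (2 * ρ + c) ≤ (2 + c) * (1 + ρ ^ 2) := by
      nlinarith [mul_nonneg hc (sq_nonneg (ρ - 1)), mul_nonneg hc hρ]
    nlinarith [mul_le_mul_of_nonneg_left this ha.le]

/-! ### the `G`-norm -/

theorem nG_nn (G : Mn n) (u : Vn n) : 0 ≤ nG G u := sqrt_nonneg _

namespace PG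

variable {G : Mn n} {γ : ℝ} (h : PG G γ)
include h

theorem nn (u : Vn n) : 0 ≤ u ⬝ᵥ G *ᵥ u :=
  nonneg_of_mul_nonneg_right ((dsq _).trans (h.le u)) h.pos |> fun _ =>
    (mul_nonneg_iff_of_pos_left h.pos).1 ((dsq _).trans (h.le u))
theorem nG_sq (u : Vn n) : nG G u ^ 2 = u ⬝ᵥ G *ᵥ u := sq_sqrt (h.nn u)
theorem sw (u v : Vn n) : u ⬝ᵥ G *ᵥ v = G *ᵥ u ⬝ᵥ v := symm_dot h.symm u v
theorem cs2 (u v : Vn n) : (u ⬝ᵥ G *ᵥ v) ^ 2 ≤ (u ⬝ᵥ G *ᵥ u) * (v ⬝ᵥ G *ᵥ v) := by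
  have h1 : ∀ t : ℝ, 0 ≤ u ⬝ᵥ G *ᵥ u * (t * t) + 2 * (u ⬝ᵥ G *ᵥ v) * t + v ⬝ᵥ G *ᵥ v := fun t => by
    have := h.nn (t • u + v)
    simp only [mulVec_add, mulVec_smul, add_dotProduct, dotProduct_add, smul_dotProduct,
      dotProduct_smul, smul_eq_mul] at this
    rw [h.sw v u, dotProduct_comm (G *ᵥ v) u] at this
    linarith
  have := discrim_le_zero h1
  rw [discrim] at this
  linarith
theorem cs (u v : Vn n) : |u ⬝ᵥ G *ᵥ v| ≤ nG G u * nG G v :=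
  abs_le_of_sq_le_sq (by rw [mul_pow, h.nG_sq, h.nG_sq]; exact h.cs2 u v)
    (mul_nonneg (nG_nn _ _) (nG_nn _ _))
theorem cs' (u v : Vn n) : |G *ᵥ u ⬝ᵥ v| ≤ nG G u * nG G v := h.sw u v ▸ h.cs u v
theorem up (u : Vn n) : u ⬝ᵥ G *ᵥ u ≤ γ * (u ⬝ᵥ u) := by
  have h1 := M4.cs u (G *ᵥ u)
  have h2 := mul_le_mul_of_nonneg_left (h.le u) (dsq u)
  rcases (h.nn u).eq_or_lt with e | e
  · rw [← e]; exact mul_nonneg h.pos.le (dsq u)
  · exact le_of_mul_le_mul_right (by nlinarith) e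
theorem eu (u : Vn n) : G *ᵥ u ⬝ᵥ G *ᵥ u ≤ (√γ * nG G u) ^ 2 := by
  rw [mul_pow, sq_sqrt h.pos.le, h.nG_sq]; exact h.le u

theorem xm (p ξ : Vn n) : nG G (ξ + p) ^ 2 ≤ 2 * |Sv G p ξ| + p ⬝ᵥ G *ᵥ p ∧
    nG G (ξ + p + p) ^ 2 ≤ 2 * |Sv G p ξ| + p ⬝ᵥ G *ᵥ p := by
  rw [h.nG_sq, h.nG_sq]
  have h1 := h.nn (ξ + p + p)
  have h2 := h.nn (ξ + p)
  have h3 := le_abs_self (Sv G p ξ)
  have e := h.sw p ξ
  rw [dotProduct_comm _ ξ] at e
  simp only [Sv, mulVec_add, add_dotProduct, dotProduct_add, e] at h1 h2 h3 ⊢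
  constructor <;> linarith

/-- the scalar bounds at a point -/
theorem pt {a L : ℝ} (ha : 0 < a) (hL : 0 ≤ L) {p : Vn n}
    (hL2 : (1 + p ⬝ᵥ G *ᵥ p / a) ^ 3 ≤ L ^ 2 * a) (ξ : Vn n) : ∃ μ, 0 ≤ μ ∧ nG G (ξ + p) ≤ μ ∧
    nG G (ξ + p + p) ≤ μ ∧ |th a (Sv G p ξ)| * μ ≤ L ∧ |ph1 a (Sv G p ξ)| * μ ≤ 2 * L ∧
    |th1 a (Sv G p ξ)| * μ ^ 3 ≤ 3 * L ∧ |th a (Sv G p ξ)| * μ ^ 2 ≤ 2 + p ⬝ᵥ G *ᵥ p / a := by
  have h0 : 0 ≤ 2 * |Sv G p ξ| + p ⬝ᵥ G *ᵥ p := add_nonneg (by positivity) (h.nn p)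
  exact ⟨√_, sqrt_nonneg _, le_sqrt_of_sq_le (h.xm p ξ).1, le_sqrt_of_sq_le (h.xm p ξ).2,
    sc ha (h.nn p) hL hL2 (sqrt_nonneg _) (sq_sqrt h0)⟩

end PG

/-! ### the field -/

/-- **(u0)** -/
theorem u0 (G : Mn n) (p : Vn n) (a : ℝ) (v ξ : Vn n) : Uv G p a v ξ ⬝ᵥ (ξ + p) = 0 := by
  simp only [Uv, smul_dotProduct, sub_dotProduct, smul_eq_mul, uv, Yv, Sv,
    dotProduct_comm (G *ᵥ (ξ + p + p))]
  ring

theorem dot_U (G : Mn n) (p : Vn n) (a : ℝ) (v ξ z : Vn n) : z ⬝ᵥ Uv G p a v ξ =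
    th a (Sv G p ξ) * Sv G p ξ * (z ⬝ᵥ G *ᵥ v) -
      th a (Sv G p ξ) * uv G p v ξ * (z ⬝ᵥ G *ᵥ (ξ + p + p)) := by
  simp only [Uv, dotProduct_smul, dotProduct_sub, smul_eq_mul, Yv]; ring

theorem abs3 {x y z X Y Z : ℝ} (hx : |x| ≤ X) (hy : |y| ≤ Y) (hz : |z| ≤ Z) :
    |x * y * z| ≤ X * Y * Z := by
  rw [abs_mul, abs_mul]
  have := (abs_nonneg _).trans hx; have := (abs_nonneg _).trans hy
  gcongr

section
variable {G : Mn n} {γ a L : ℝ} {p : Vn n} (h : PG G γ) (ha : 0 < a)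
include h ha

/-- **(u1)** -/
theorem u1 (v ξ z : Vn n) :
    |z ⬝ᵥ Uv G p a v ξ| ≤ (3 + p ⬝ᵥ G *ᵥ p / a) * (nG G v * nG G z) := by
  have hc := div_nonneg (h.nn p) ha.le
  obtain ⟨μ, h0, h1, h2, -, -, -, h6⟩ := h.pt ha (sqrt_nonneg ((1 + p ⬝ᵥ G *ᵥ p / a) ^ 3 / a)) (p := p)
    (by rw [sq_sqrt (by positivity), div_mul_cancel₀ _ ha.ne']) ξ
  have hv := nG_nn G v; have hz := nG_nn G z
  have b1 : |th a (Sv G p ξ) * Sv G p ξ * (z ⬝ᵥ G *ᵥ v)| ≤ 1 * (nG G z * nG G v) := by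
    rw [abs_mul, abs_of_nonneg (thS ha _).1]
    exact mul_le_mul (thS ha _).2 (h.cs z v) (abs_nonneg _) zero_le_one
  have b2 := abs3 (le_refl |th a (Sv G p ξ)|) ((h.cs' v (ξ + p)).trans (mul_le_mul_of_nonneg_left h1 hv))
    ((h.cs z (ξ + p + p)).trans (mul_le_mul_of_nonneg_left h2 hz))
  rw [dot_U]
  refine (abs_sub _ _).trans ?_
  unfold uv
  nlinarith [mul_le_mul_of_nonneg_right h6 (mul_nonneg hv hz)]

theorem hd_S (ξ d : Vn n) (t : ℝ) :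
    HasDerivAt (fun t : ℝ => Sv G p (ξ + t • d)) (dS G p (ξ + t • d) ⬝ᵥ d) t := by
  have e : ∀ t : ℝ, Sv G p (ξ + t • d) = Sv G p ξ + t * (dS G p ξ ⬝ᵥ d) + t ^ 2 * (d ⬝ᵥ G *ᵥ d) := fun t => by
    have e1 := h.sw ξ d
    have e2 := h.sw p d
    simp only [Sv, dS, mulVec_add, mulVec_smul, add_dotProduct, dotProduct_add, smul_dotProduct,
      dotProduct_smul, smul_eq_mul, e1, e2, dotProduct_comm d (G *ᵥ ξ), dotProduct_comm d (G *ᵥ p)]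
    ring
  simp only [e]
  refine ((((hasDerivAt_id' t).mul_const _).const_add _).add
    (((hasDerivAt_id' t).pow 2).mul_const _)).congr_deriv ?_
  simp only [dS, mulVec_add, mulVec_smul, add_dotProduct, smul_dotProduct, smul_eq_mul,
    dotProduct_comm d (G *ᵥ d)]
  norm_num
  ring

variable (hL : 0 ≤ L) (hL2 : (1 + p ⬝ᵥ G *ᵥ p / a) ^ 3 ≤ L ^ 2 * a)
include hL hL2

/-- **(u2)** -/
theorem u2 (v ξ ξ' z : Vn n) :
    |z ⬝ᵥ (Uv G p a v ξ' - Uv G p a v ξ)| ≤ 12 * L * (nG G v * nG G z * nG G (ξ' - ξ)) := by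
  obtain ⟨d, rfl⟩ : ∃ d, ξ' = ξ + d := ⟨ξ' - ξ, by abel⟩
  rw [add_sub_cancel_left]
  have lin : ∀ (w c : Vn n) (t : ℝ), HasDerivAt (fun t : ℝ => w ⬝ᵥ (ξ + t • d + c)) (w ⬝ᵥ d) t := fun w c t => by
    simp only [dotProduct_add, dotProduct_smul, smul_eq_mul]
    simpa using (((hasDerivAt_id' t).mul_const (w ⬝ᵥ d)).const_add (w ⬝ᵥ ξ)).add_const (w ⬝ᵥ c)
  have hd : ∀ t : ℝ, HasDerivAt (fun t : ℝ => z ⬝ᵥ Uv G p a v (ξ + t • d)) _ t := fun t => by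
    have e : ∀ y : Vn n, z ⬝ᵥ G *ᵥ (y + p + p) = G *ᵥ z ⬝ᵥ (y + (p + p)) := fun y => by
      rw [h.sw, add_assoc]
    simp only [dot_U, uv, e]
    exact ((((hd_ph ha _).comp t (hd_S h ha ξ d t)).mul_const (z ⬝ᵥ G *ᵥ v)).sub
      ((((hd_th ha _).comp t (hd_S h ha ξ d t)).mul (lin (G *ᵥ v) p t)).mul (lin (G *ᵥ z) (p + p) t)))
  have hv := nG_nn G v; have hz := nG_nn G z; have hd0 := nG_nn G d
  have key := norm_image_sub_le_of_norm_deriv_le_segment_01' (C := 12 * L * (nG G v * nG G z * nG G d))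
    (fun t _ => (hd t).hasDerivWithinAt) fun t _ => ?_
  · simpa only [one_smul, zero_smul, add_zero, Real.norm_eq_abs, dotProduct_sub] using key
  · simp only [Function.comp, Real.norm_eq_abs, Pi.mul_apply]
    generalize ξ + t • d = y
    obtain ⟨μ, h0, h1, h2, h3, h4, h5, -⟩ := h.pt ha hL hL2 y
    have a1 : |dS G p y ⬝ᵥ d| ≤ 2 * μ * nG G d := by
      rw [dS, add_dotProduct]
      refine (abs_add_le _ _).trans ?_
      nlinarith [h.cs' (y + p + p) d, h.cs' (y + p) d, mul_le_mul_of_nonneg_right h1 hd0,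
        mul_le_mul_of_nonneg_right h2 hd0]
    have a2 : |G *ᵥ v ⬝ᵥ (y + p)| ≤ nG G v * μ := (h.cs' _ _).trans (by gcongr)
    have a3 : |G *ᵥ z ⬝ᵥ (y + (p + p))| ≤ nG G z * μ := by
      rw [← add_assoc]; exact (h.cs' _ _).trans (by gcongr)
    have b1 := abs3 (le_refl |ph1 a (Sv G p y)|) a1 (h.cs z v)
    have b2 := abs3 ((abs_mul (th1 a (Sv G p y)) _).trans_le
      (mul_le_mul_of_nonneg_left a1 (abs_nonneg _))) a2 a3
    have b3 := abs3 (le_refl |th a (Sv G p y)|) (h.cs' v d) a3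
    have b4 := abs3 (le_refl |th a (Sv G p y)|) a2 (h.cs' z d)
    have hN : 0 ≤ nG G v * nG G z * nG G d := by positivity
    have c3 := mul_le_mul_of_nonneg_right h3 hN
    have c4 := mul_le_mul_of_nonneg_right h4 hN
    have c5 := mul_le_mul_of_nonneg_right h5 hN
    rw [abs_le] at b1 b2 b3 b4 ⊢
    constructor <;> linarith [b1.1, b1.2, b2.1, b2.2, b3.1, b3.2, b4.1, b4.2]

end

/-! ### integration by parts on the sphere in the polar model -/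

/-- `F` is a `C¹` function on `ℝⁿ` with gradient `D`, seen along the orbit -/
structure NG (o : Oo.Orb n k) (F : Vn n → ℝ) (D : Vn n → Vn n) : Prop where
  cF : Continuous F
  cD : Continuous D
  sg : ∀ (z : Vn n) (σ : Fin k → ℝ), SG σ (fun U => F (z + o.E *ᵥ Orb.xi σ U))
    fun U => o.Eᵀ *ᵥ D (z + o.E *ᵥ Orb.xi σ U)

namespace NG

variable {o : Oo.Orb n k} {F F' : Vn n → ℝ} {D D' : Vn n → Vn n}

theorem congr (h : NG o F D) (h1 : ∀ ξ, F ξ = F' ξ) (h2 : ∀ ξ, D ξ = D' ξ) : NG o F' D' := by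
  rw [← funext h1, ← funext h2]; exact h
theorem const (c : ℝ) : NG o (fun _ => c) fun _ => 0 :=
  ⟨continuous_const, continuous_const, fun _ _ => (SG.const c).congr (fun _ => rfl) fun _ => by simp⟩
theorem add (h : NG o F D) (h' : NG o F' D') : NG o (fun ξ => F ξ + F' ξ) fun ξ => D ξ + D' ξ :=
  ⟨h.cF.add h'.cF, h.cD.add h'.cD, fun z σ => ((h.sg z σ).add (h'.sg z σ)).congr (fun _ => rfl)
    fun _ => (mulVec_add _ _ _).symm⟩
theorem mul (h : NG o F D) (h' : NG o F' D') :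
    NG o (fun ξ => F ξ * F' ξ) fun ξ => F' ξ • D ξ + F ξ • D' ξ :=
  ⟨h.cF.mul h'.cF, (h'.cF.smul h.cD).add (h.cF.smul h'.cD), fun z σ =>
    ((h.sg z σ).mul (h'.sg z σ)).congr (fun _ => rfl) fun _ => by simp only [mulVec_add, mulVec_smul]⟩
theorem lin (w c : Vn n) : NG o (fun ξ => w ⬝ᵥ (ξ + c)) fun _ => w :=
  ⟨by fun_prop, continuous_const, fun z σ => ((SG.const (w ⬝ᵥ (z + c))).add (SG.lin (o.Eᵀ *ᵥ w))).congr
    (fun U => by
      simp only [dotProduct_add, dotProduct_comm w (o.E *ᵥ _), dot_E, dotProduct_comm (o.Eᵀ *ᵥ w)]; ring)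
    fun _ => zero_add _⟩
theorem comp (h : NG o F D) {φ φ' : ℝ → ℝ} (hφ : ∀ x, HasDerivAt φ (φ' x) x) (hφ' : Continuous φ') :
    NG o (fun ξ => φ (F ξ)) fun ξ => φ' (F ξ) • D ξ :=
  ⟨(continuous_iff_continuousAt.2 fun x => (hφ x).continuousAt).comp h.cF, (hφ'.comp h.cF).smul h.cD,
    fun z σ => (RD.comp (h.sg z σ) (S := Set.univ) (fun _ _ => trivial) (fun x _ => hφ x)
      hφ'.continuousOn).congr (fun _ _ => rfl) fun _ _ _ => by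
        simp only [mulVec_smul, smul_dotProduct, smul_eq_mul]⟩
theorem quad {M : Mn n} (hM : Mᵀ = M) : NG o (fun ξ => ξ ⬝ᵥ M *ᵥ ξ) fun ξ => (2 : ℝ) • M *ᵥ ξ := by
  refine ⟨by fun_prop, by fun_prop, fun z σ => ?_⟩
  have hB : (o.Eᵀ * M * o.E)ᵀ = o.Eᵀ * M * o.E := by
    rw [transpose_mul, transpose_mul, transpose_transpose, hM, Matrix.mul_assoc]
  refine (((SG.const (z ⬝ᵥ M *ᵥ z)).add (SG.lin ((2 : ℝ) • o.Eᵀ *ᵥ (M *ᵥ z)))).add (SG.quad hB)).congr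
    (fun U => ?_) fun U => ?_
  · generalize Orb.xi σ U = x
    rw [← mulVec_mulVec, ← mulVec_mulVec, ← dot_E, smul_dotProduct, dotProduct_comm (o.Eᵀ *ᵥ _), ← dot_E]
    simp only [mulVec_add, add_dotProduct, dotProduct_add, symm_dot hM z (o.E *ᵥ x),
      dotProduct_comm (M *ᵥ z), smul_eq_mul]
    ring
  · simp only [mulVec_add, mulVec_smul, zero_add, smul_add, mulVec_mulVec, Matrix.mul_assoc]

end NG

/-- the integrand of the sphere identity for the field `P (M ξ + w)` -/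
def In (o : Oo.Orb n k) (M : Mn n) (w : Vn n) (F : Vn n → ℝ) (D : Vn n → Vn n) (s : Cube n)
    (ξ : Vn n) : ℝ :=
  ((cc o s ξ - (k - 1) / R2 o s) * ((M *ᵥ ξ + w) ⬝ᵥ Pm o *ᵥ ξ) -
      Pm o *ᵥ ξ ⬝ᵥ M *ᵥ (Pm o *ᵥ ξ) / R2 o s + (Pm o * M).trace -
      Pm o *ᵥ (M *ᵥ ξ + w) ⬝ᵥ A0 o *ᵥ ξ) * F ξ +
    (Pm o *ᵥ (M *ᵥ ξ + w) ⬝ᵥ D ξ - ((M *ᵥ ξ + w) ⬝ᵥ Pm o *ᵥ ξ) * (D ξ ⬝ᵥ Pm o *ᵥ ξ) / R2 o s)

variable {o : Oo.Orb n k} {μ : Measure (Mat k)} [IsProbabilityMeasure μ] (hμ : SOInv μ) (h : o.Ok)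
  {F : Vn n → ℝ} {D : Vn n → Vn n}

theorem cont_In (hF : NG o F D) (M : Mn n) (w : Vn n) (s : Cube n) : Continuous (In o M w F D s) := by
  have := hF.cF; have := hF.cD
  unfold In; fun_prop

include hμ h

theorem sph0 (hF : NG o F D) (M : Mn n) (w : Vn n) {s : Cube n} (hs : 0 < R2 o s) :
    ∫ U, wx o s (xp o s (om o U)) * In o M w F D s (xp o s (om o U)) ∂μ = 0 := by
  have hw : NG o (wx o s) fun ξ => wx o s ξ • o.W *ᵥ ξ :=
    (((NG.const (o.h ⬝ᵥ sv s)).add ((NG.const (1 / 2)).mul (NG.quad h.symm))).comp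
      Real.hasDerivAt_exp Real.continuous_exp).congr (fun ξ => by rw [wx]; congr 1; ring) fun ξ => by
        rw [wx, div_eq_inv_mul (ξ ⬝ᵥ o.W *ᵥ ξ)]; simp [smul_smul]
  have h1 := ((hF.mul hw).sg (Qm o *ᵥ sh o s) (√(R2 o s) • e0 k)).ibp hμ (o.Eᵀ * M * o.E)
    (o.Eᵀ *ᵥ (M *ᵥ (Qm o *ᵥ sh o s) + w))
  have h0 : (√(R2 o s) • e0 k) ⬝ᵥ (√(R2 o s) • e0 k) = R2 o s := by
    rw [smul_dotProduct, dotProduct_smul, e0_dot h, smul_eq_mul, smul_eq_mul, mul_one,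
      Real.mul_self_sqrt (R2_nonneg s)]
  refine (mul_eq_zero.1 (?_ : R2 o s * _ = 0)).resolve_left hs.ne'
  rw [← integral_const_mul, ← h1]
  refine integral_congr_ae ((Orb.ae_SO hμ).mono fun U hU => ?_)
  have h2 : xp o s (om o U) = Qm o *ᵥ sh o s + o.E *ᵥ Orb.xi (√(R2 o s) • e0 k) U := by
    simp only [xp, om, Orb.xi, mulVec_smul]
  have h3 : Orb.xi (√(R2 o s) • e0 k) U ⬝ᵥ Orb.xi (√(R2 o s) • e0 k) U = R2 o s := by
    rw [Orb.dot_xi _ hU, h0]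
  simp only [h0]
  rw [← h2]
  generalize Orb.xi (√(R2 o s) • e0 k) U = x at h2 h3
  have hP : Pm o *ᵥ xp o s (om o U) = o.E *ᵥ x := by rw [h2, mulVec_add, P_Q h, zero_add, P_E h]
  have hE : o.Eᵀ *ᵥ xp o s (om o U) = x := by rw [h2, mulVec_add, Et_Q h, zero_add, Et_E h]
  have hV : (o.Eᵀ * M * o.E) *ᵥ x + o.Eᵀ *ᵥ (M *ᵥ (Qm o *ᵥ sh o s) + w) =
      o.Eᵀ *ᵥ (M *ᵥ xp o s (om o U) + w) := by
    rw [h2, ← mulVec_mulVec, ← mulVec_mulVec]; simp only [mulVec_add]; abel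
  have hW : o.W *ᵥ xp o s (om o U) = o.z • xp o s (om o U) - A0 o *ᵥ xp o s (om o U) := by
    rw [A0, sub_mulVec, smul_mulVec, one_mulVec, sub_sub_cancel]
  have hT : (o.Eᵀ * M * o.E).trace = (Pm o * M).trace := by
    rw [trace_mul_comm, ← Matrix.mul_assoc, Pm]
  have hM : x ⬝ᵥ (o.Eᵀ * M * o.E) *ᵥ x = o.E *ᵥ x ⬝ᵥ M *ᵥ (o.E *ᵥ x) := by
    rw [dot_E, mulVec_mulVec, mulVec_mulVec]
  have hx : ∀ y : Vn n, o.Eᵀ *ᵥ y ⬝ᵥ x = y ⬝ᵥ o.E *ᵥ x := fun y => by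
    rw [dotProduct_comm y, dot_E, dotProduct_comm]
  rw [hV, hT, hM, hW, In, cc, hP]
  generalize xp o s (om o U) = ξ at hE hP
  generalize M *ᵥ ξ + w = V
  have h4 : Pm o *ᵥ V ⬝ᵥ ξ = V ⬝ᵥ o.E *ᵥ x := by rw [← dot_P, hP]
  have h5 : ξ ⬝ᵥ o.E *ᵥ x = R2 o s := by rw [← hx, hE, h3]
  simp only [Et_dot, hx, dotProduct_add, add_dotProduct, dotProduct_smul, smul_dotProduct,
    dotProduct_sub, sub_dotProduct, smul_eq_mul, h4, h5]
  field_simp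
  ring

/-- **the sphere identity in the polar model** -/
theorem sph (hF : NG o F D) (M : Mn n) (w : Vn n) {φ : Cube n → ℝ} (hφ : ∀ s, φ s = 0 ∨ 0 < R2 o s) :
    pe o μ (fun s ω => φ s * In o M w F D s (xp o s ω)) = 0 := by
  rw [pe, integral_finsetSum _ fun s _ => intg hμ (by have := cont_In hF M w s; fun_prop),
    Finset.sum_eq_zero, zero_div]
  intro s _
  rcases hφ s with e | e
  · simp [e]
  · simp only [mul_left_comm _ (φ s)]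
    rw [integral_const_mul, sph0 hμ h hF M w e, mul_zero]

/-! ### the sphere step -/

omit hμ h in
theorem ng_S {G : Mn n} (hG : Gᵀ = G) (p : Vn n) : NG o (Sv G p) (dS G p) :=
  (((NG.quad hG).add (NG.lin ((3 : ℝ) • G *ᵥ p) 0)).add (NG.const (2 * (p ⬝ᵥ G *ᵥ p)))).congr
    (fun ξ => by
      simp only [Sv, mulVec_add, add_dotProduct, dotProduct_add, add_zero, smul_dotProduct, smul_eq_mul,
        symm_dot hG p ξ, dotProduct_comm ξ (G *ᵥ p)]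
      ring) fun ξ => by
      simp only [dS, mulVec_add, add_zero]; ext i; simp; ring

/-- the main terms of the sphere step -/
def Sp (o : Oo.Orb n k) (G : Mn n) (a : ℝ) (v : Vn n) (s : Cube n) (ξ : Vn n) : ℝ :=
  (v ⬝ᵥ ξ) * (Pm o *ᵥ Uv G o.p a v ξ ⬝ᵥ A0 o *ᵥ ξ) -
    (v ⬝ᵥ ξ) * ((cc o s ξ - (k - 1) / R2 o s) * (Pm o *ᵥ Uv G o.p a v ξ ⬝ᵥ ξ)) -
    Pm o *ᵥ Uv G o.p a v ξ ⬝ᵥ v + (v ⬝ᵥ ξ) * (th a (Sv G o.p ξ) * uv G o.p v ξ * G.trace) +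
    (Pm o *ᵥ ξ ⬝ᵥ v) * (Pm o *ᵥ Uv G o.p a v ξ ⬝ᵥ ξ) / R2 o s

/-- the error of the sphere step -/
def Er (o : Oo.Orb n k) (G : Mn n) (a : ℝ) (v : Vn n) (s : Cube n) (ξ : Vn n) : ℝ :=
  th a (Sv G o.p ξ) * uv G o.p v ξ * (Pm o *ᵥ ξ ⬝ᵥ G *ᵥ (Pm o *ᵥ ξ) / R2 o s) +
    th a (Sv G o.p ξ) * uv G o.p v ξ * (Qm o * G).trace +
    ph1 a (Sv G o.p ξ) * (Pm o *ᵥ (G *ᵥ v) ⬝ᵥ dS G o.p ξ) -
    th1 a (Sv G o.p ξ) * uv G o.p v ξ * (Pm o *ᵥ Yv G o.p ξ ⬝ᵥ dS G o.p ξ) -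
    th a (Sv G o.p ξ) * (Pm o *ᵥ Yv G o.p ξ ⬝ᵥ G *ᵥ v) -
    ph1 a (Sv G o.p ξ) * ((G *ᵥ v ⬝ᵥ Pm o *ᵥ ξ) * (dS G o.p ξ ⬝ᵥ Pm o *ᵥ ξ) / R2 o s) +
    th1 a (Sv G o.p ξ) * uv G o.p v ξ * ((Yv G o.p ξ ⬝ᵥ Pm o *ᵥ ξ) * (dS G o.p ξ ⬝ᵥ Pm o *ᵥ ξ) / R2 o s) +
    th a (Sv G o.p ξ) * ((Yv G o.p ξ ⬝ᵥ Pm o *ᵥ ξ) * (G *ᵥ v ⬝ᵥ Pm o *ᵥ ξ) / R2 o s)

section
variable {G : Mn n} {γ a L : ℝ} (ha : 0 < a)
include ha

omit hμ h in
theorem cont_Uv (p v : Vn n) : Continuous (Uv G p a v) := by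
  have := cont_th ha
  unfold Uv uv Yv Sv; fun_prop
omit hμ h in
theorem cont_Sp (v : Vn n) (s : Cube n) : Continuous (Sp o G a v s) := by
  have := cont_th ha; have := cont_Uv (G := G) ha o.p v
  unfold Sp uv Sv; fun_prop
omit hμ h in
theorem cont_Er (v : Vn n) (s : Cube n) : Continuous (Er o G a v s) := by
  have := cont_th ha; have := cont_th1 ha; have := cont_ph1 ha
  unfold Er uv Yv dS Sv; fun_prop

/-- **(sp)** -/
theorem sp (hG : Gᵀ = G) (v : Vn n) {φ : Cube n → ℝ} (hφ : ∀ s, φ s = 0 ∨ 0 < R2 o s) :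
    pe o μ (fun s ω => φ s * Sp o G a v s (xp o s ω)) =
      pe o μ fun s ω => φ s * ((v ⬝ᵥ xp o s ω) * Er o G a v s (xp o s ω)) := by
  have n1 := (NG.lin (o := o) v 0).mul ((ng_S hG o.p).comp (hd_ph ha) (cont_ph1 ha))
  have n2 := (NG.lin (o := o) v 0).mul (((ng_S hG o.p).comp (hd_th ha) (cont_th1 ha)).mul
    (NG.lin (G *ᵥ v) o.p))
  have e1 := sph hμ h n1 0 (G *ᵥ v) hφ
  have e2 := sph hμ h n2 G (G *ᵥ (o.p + o.p)) hφ
  have c1 := cont_In n1 0 (G *ᵥ v)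
  have c2 := cont_In n2 G (G *ᵥ (o.p + o.p))
  have c3 := cont_Er (o := o) (G := G) ha v
  rw [← add_zero (pe o μ fun s ω => φ s * ((v ⬝ᵥ xp o s ω) * Er o G a v s (xp o s ω))), ← sub_self (0 : ℝ)]
  nth_rewrite 1 [← e2]
  rw [← e1, ← pe_sub hμ (fun s => by have := c2 s; fun_prop) (fun s => by have := c1 s; fun_prop),
    ← pe_add hμ (fun s => by have := c3 s; fun_prop) (fun s => by have := c1 s; have := c2 s; fun_prop)]
  refine pe_congr hμ h fun s ω _ => ?_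
  generalize xp o s ω = ξ
  have hY : G *ᵥ ξ + G *ᵥ (o.p + o.p) = Yv G o.p ξ := by rw [Yv, add_assoc, mulVec_add G ξ]
  have hT : (Pm o * G).trace = G.trace - (Qm o * G).trace := by
    rw [Qm, Pm, Matrix.sub_mul, Matrix.one_mul, trace_sub, sub_sub_cancel]
  simp only [Sp, Er, In, hY, hT, Uv, uv, zero_mulVec, zero_add, add_zero, Matrix.mul_zero, trace_zero,
    dotProduct_zero, mulVec_smul, mulVec_sub, smul_dotProduct, sub_dotProduct, dotProduct_add,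
    add_dotProduct, dotProduct_smul, smul_eq_mul, ← dot_P (G *ᵥ v) ξ, ← dot_P (Yv G o.p ξ) ξ,
    dotProduct_comm (Pm o *ᵥ ξ) v]
  ring

omit hμ in
/-- **the error of the sphere step** -/
theorem er_le (hG : PG G γ) (hL : 0 ≤ L) (hL2 : (1 + o.p ⬝ᵥ G *ᵥ o.p / a) ^ 3 ≤ L ^ 2 * a)
    (hQ : |(Qm o * G).trace| ≤ 2 * γ) (v : Vn n) {s : Cube n} (hs : 0 < R2 o s) {ω : Vn n}
    (hω : Sph o ω) : |Er o G a v s (xp o s ω)| ≤ 25 * γ * L * nG G v := by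
  have hη : Pm o *ᵥ xp o s ω ⬝ᵥ Pm o *ᵥ xp o s ω = √(R2 o s) ^ 2 := by
    rw [P_xp h hω, smul_dotProduct, dotProduct_smul, hω.one, smul_eq_mul, smul_eq_mul, mul_one, sq]
  rw [Er]
  generalize xp o s ω = ξ at hη
  obtain ⟨m, h0, h1, h2, h3, h4, h5, -⟩ := hG.pt ha hL hL2 ξ
  have hv := nG_nn G v
  have hg := hG.pos
  obtain ⟨r, hr, rfl⟩ : ∃ r, 0 < r ∧ γ = r ^ 2 := ⟨√γ, sqrt_pos.2 hg, (sq_sqrt hg.le).symm⟩
  have eu : ∀ u b, nG G u ≤ b → G *ᵥ u ⬝ᵥ G *ᵥ u ≤ (r * b) ^ 2 := fun u b hb =>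
    (hG.eu u).trans (by rw [sqrt_sq hr.le]; have := nG_nn G u; gcongr)
  have w1 := eu v _ le_rfl
  have w2 : Yv G o.p ξ ⬝ᵥ Yv G o.p ξ ≤ (r * m) ^ 2 := eu _ _ h2
  have w3 : dS G o.p ξ ⬝ᵥ dS G o.p ξ ≤ (r * m + r * m) ^ 2 := by
    have := (abs_le.1 (abs_dot_le (by positivity) (by positivity) (eu _ _ h2) (eu _ _ h1))).2
    have := eu _ _ h2; have := eu _ _ h1
    rw [dS, add_dotProduct, dotProduct_add, dotProduct_add, dotProduct_comm (G *ᵥ (ξ + o.p))]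
    linarith
  have hR := sqrt_pos.2 hs
  have pp : ∀ {u w : Vn n} {x y : ℝ}, 0 ≤ x → 0 ≤ y → u ⬝ᵥ u ≤ x ^ 2 → w ⬝ᵥ w ≤ y ^ 2 →
      |Pm o *ᵥ u ⬝ᵥ w| ≤ x * y := fun hx hy hu hw => abs_dot_le hx hy ((P_le h _).trans hu) hw
  have rr : ∀ {u w : Vn n} {x y : ℝ}, 0 ≤ x → 0 ≤ y → u ⬝ᵥ u ≤ x ^ 2 → w ⬝ᵥ w ≤ y ^ 2 →
      |(u ⬝ᵥ Pm o *ᵥ ξ) * (w ⬝ᵥ Pm o *ᵥ ξ) / R2 o s| ≤ x * y := fun {u w x y} hx hy hu hw => by
    rw [abs_div, abs_of_pos hs, div_le_iff₀ hs, abs_mul]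
    calc _ ≤ x * √(R2 o s) * (y * √(R2 o s)) := mul_le_mul (abs_dot_le hx hR.le hu hη.le)
          (abs_dot_le hy hR.le hw hη.le) (abs_nonneg _) (by positivity)
      _ = x * y * √(R2 o s) ^ 2 := by ring
      _ = _ := by rw [sq_sqrt hs.le]
  have hu : |uv G o.p v ξ| ≤ nG G v * m := (hG.cs' _ _).trans (by gcongr)
  have q0 : |Pm o *ᵥ ξ ⬝ᵥ G *ᵥ (Pm o *ᵥ ξ) / R2 o s| ≤ r ^ 2 := by
    rw [abs_div, abs_of_pos hs, div_le_iff₀ hs, abs_of_nonneg (hG.nn _)]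
    exact (hG.up _).trans (by rw [hη, sq_sqrt hs.le])
  have ab2 : ∀ {x y Y : ℝ}, |y| ≤ Y → |x * y| ≤ |x| * Y := fun hy =>
    (abs_mul _ _).trans_le (mul_le_mul_of_nonneg_left hy (abs_nonneg _))
  have b1 := abs_le.1 (abs3 (le_refl |th a (Sv G o.p ξ)|) hu q0)
  have b2 := abs_le.1 (abs3 (le_refl |th a (Sv G o.p ξ)|) hu hQ)
  have b3 := abs_le.1 (ab2 (x := ph1 a (Sv G o.p ξ)) (pp (by positivity) (by positivity) w1 w3))
  have b4 := abs_le.1 (abs3 (le_refl |th1 a (Sv G o.p ξ)|) hu (pp (by positivity) (by positivity) w2 w3))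
  have b5 := abs_le.1 (ab2 (x := th a (Sv G o.p ξ)) (pp (by positivity) (by positivity) w2 w1))
  have b6 := abs_le.1 (ab2 (x := ph1 a (Sv G o.p ξ)) (rr (by positivity) (by positivity) w1 w3))
  have b7 := abs_le.1 (abs3 (le_refl |th1 a (Sv G o.p ξ)|) hu (rr (by positivity) (by positivity) w2 w3))
  have b8 := abs_le.1 (ab2 (x := th a (Sv G o.p ξ)) (rr (by positivity) (by positivity) w2 w1))
  have hN : 0 ≤ r ^ 2 * nG G v := by positivity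
  have c3 := mul_le_mul_of_nonneg_right h3 hN
  have c4 := mul_le_mul_of_nonneg_right h4 hN
  have c5 := mul_le_mul_of_nonneg_right h5 hN
  rw [abs_le]
  constructor <;> linarith [b1.1, b1.2, b2.1, b2.2, b3.1, b3.2, b4.1, b4.2, b5.1, b5.2, b6.1, b6.2,
    b7.1, b7.2, b8.1, b8.2]

end

omit hμ h in
theorem trQ_le {G : Mn n} {γ : ℝ} (hG : PG G γ) {f1 f2 : Vn n}
    (hq : Qm o = vecMulVec f1 f1 + vecMulVec f2 f2) (h1 : f1 ⬝ᵥ f1 = 1) (h2 : f2 ⬝ᵥ f2 = 1) :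
    |(Qm o * G).trace| ≤ 2 * γ := by
  have e : ∀ f : Vn n, (vecMulVec f f * G).trace = f ⬝ᵥ G *ᵥ f := fun f => by
    rw [trace_mul_comm, mul_vecMulVec, trace_vecMulVec, dotProduct_comm]
  have a1 := hG.up f1; have a2 := hG.up f2; have a3 := hG.nn f1; have a4 := hG.nn f2
  rw [h1] at a1; rw [h2] at a2
  rw [hq, Matrix.add_mul, trace_add, e, e, abs_of_nonneg (by linarith)]
  linarith

end Crest.Agent.T157.O4c.B42
end
end

-- ▼ part T157/O4cCu_4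
section

set_option autoImplicit false
set_option linter.unusedSectionVars false

/-!
Row 157, A2 section 4 (helper4): the statement of the cube step of (M1).
-/

noncomputable section

namespace Crest.Agent.T157.O4c

open MeasureTheory Matrix Crest.Agent.Lib.OrthPoinc Real
open Crest.Agent.T157.Oc Crest.Agent.T157.E Crest.Agent.T157.Od Crest.Agent.T157.Oo
open Crest.Agent.T157.Mj Crest.Agent.T157.O4c.B42

variable {n k : ℕ}

/-- truncation -/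
def ph (o : Oo.Orb n k) (s : Cube n) : ℝ := if 4 * Z2 o s ≤ n then 1 else 0

/-- the terms produced by the cube -/
def Xi (o : Oo.Orb n k) (x f1 f2 : Vn n) (G : Mn n) (a : ℝ) (v : Vn n) (s : Cube n) (ξ : Vn n) : ℝ :=
  (v ⬝ᵥ ξ) * (Qm o *ᵥ Uv G o.p a v ξ ⬝ᵥ De o x f1 f2 s ξ) + Qm o *ᵥ Uv G o.p a v ξ ⬝ᵥ v -
    (Pm o *ᵥ ξ ⬝ᵥ v) * (Qm o *ᵥ Uv G o.p a v ξ ⬝ᵥ sv s) / R2 o s

/-- **the cube step** -/
def CuStmt : Prop := ∃ K : ℝ, 1 ≤ K ∧ ∀ (n k : ℕ) (o : Oo.Orb n k) (μ : Measure (Mat k))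
  [IsProbabilityMeasure μ] (x f1 f2 : Vn n) (G : Mn n) (χ X κ η C g T0 τ δ a L ka : ℝ)
  (Bd : Cube n → Vn n → ℝ), SOInv μ → Hx o x f1 f2 χ X κ η C → Hw o x f1 f2 G χ κ η C g T0 τ →
  K * C * η ≤ 1 → 0 < a → 0 ≤ L → (1 + o.p ⬝ᵥ G *ᵥ o.p / a) ^ 3 ≤ L ^ 2 * a → CF Bd →
  (∀ s ξ, 0 ≤ Bd s ξ) →
  (∀ s ω, Sph o ω → ¬ Gd o x f1 f2 G X κ η T0 s (xp o s ω) → 1 ≤ Bd s (xp o s ω)) →
  pe o μ (fun s ω => Bd s (xp o s ω)) ≤ δ → 0 ≤ ka →
  (∀ u, pe o μ (fun s ω => (u ⬝ᵥ xp o s ω) ^ 2) ≤ ka * (u ⬝ᵥ G *ᵥ u)) →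
  ∀ v, |pe o μ fun s ω => ph o s * Xi o x f1 f2 G a v s (xp o s ω)| ≤
    K * (((3 + o.p ⬝ᵥ G *ᵥ o.p / a) * C ^ 3 * η + L / g) * (1 + ka + n ^ 3 * δ) +
      (3 + o.p ⬝ᵥ G *ᵥ o.p / a) * C * n ^ 3 * δ) * (v ⬝ᵥ G *ᵥ v)

def ClGlue : Prop := CuStmt → M1Core

end Crest.Agent.T157.O4c
end
end

-- ▼ part T157/O4cC_4
section

set_option autoImplicit false
set_option linter.unusedSectionVars false

/-!
Row 157, A2 section 4 (helper4): the cube step, pointwise part.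
-/

noncomputable section

namespace Crest.Agent.T157.O4c

open MeasureTheory Matrix Crest.Agent.Lib.OrthPoinc Real
open Crest.Agent.T157.Oc Crest.Agent.T157.E Crest.Agent.T157.Od Crest.Agent.T157.Oo
open Crest.Agent.T157.Mj Crest.Agent.T157.O4c.B42 Crest.Agent.T157.SL

variable {n k : ℕ} {o : Oo.Orb n k}

/-- the integrand of Stein's identity in the direction `c` -/
def Ps (o : Oo.Orb n k) (c : Vn n) (F : Cube n → Vn n → ℝ) (s : Cube n) (ω : Vn n) : ℝ :=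
  ∑ i, c i * ((sv s i - Ti o s ω i) * F s ω - (1 - Ti o s ω i ^ 2) * dI i F s ω)

theorem pe_Ps (μ : Measure (Mat k)) (c : Vn n) (F : Cube n → Vn n → ℝ) : pe o μ (Ps o c F) = 0 := by
  have : ∀ ω, ∑ s, wx o s (Mj.xp o s ω) * Ps o c F s ω = 0 := fun ω => by
    simp only [Ps, Finset.mul_sum]
    rw [Finset.sum_comm]
    refine Finset.sum_eq_zero fun i _ => ?_
    simp only [mul_left_comm _ (c i), ← Finset.mul_sum, stein0, mul_zero]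
  simp only [pe, this, integral_zero, zero_div]

theorem cf_Ps (c : Vn n) {F : Cube n → Vn n → ℝ} (hF : CF F) : CF (Ps o c F) := fun s => by
  have := hF s
  have := fun i => hF.dI i s
  unfold Ps; fun_prop

theorem abs_sv (s : Cube n) (i : Fin n) : |sv s i| = 1 := by
  rw [← sq_eq_sq₀ (abs_nonneg _) zero_le_one, sq_abs, sq, sv_sq]; simp

theorem abs_dI {F : Cube n → Vn n → ℝ} {s : Cube n} {ω : Vn n} {i : Fin n} {B : ℝ}
    (h : |F s ω - F (fl i s) ω| ≤ 2 * B) : |dI i F s ω| ≤ B := by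
  rw [Mj.dI, abs_div, abs_mul, abs_sv, abs_two]; linarith

theorem Ps_crude {c : Vn n} (hc : ∀ i, |c i| ≤ 3) {F : Cube n → Vn n → ℝ} {ω : Vn n} {B : ℝ}
    (hB : ∀ s, |F s ω| ≤ B) (s : Cube n) : |Ps o c F s ω| ≤ 9 * n * B := by
  refine (Finset.abs_sum_le_sum_abs _ _).trans ((Finset.sum_le_sum (g := fun _ => 9 * B)
    fun i _ => ?_).trans_eq (by simp; ring))
  refine (am (hc i) (asb (am (asb (abs_sv s i).le (abs_tanh_lt_one _).le) (hB s)) (am (D_abs _)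
    (abs_dI (B := B) ((asb (hB _) (hB _)).trans_eq (by ring)))))).trans_eq (by ring)

theorem adot {u v : Vn n} {x y : ℝ} (hx : 0 ≤ x) (hy : 0 ≤ y) (hu : u ⬝ᵥ u ≤ x ^ 2)
    (hv : v ⬝ᵥ v ≤ y ^ 2) : |u ⬝ᵥ v| ≤ x * y := M4.abs_dot_le hx hy hu hv

theorem xp_crude (h : o.Ok) (hp : o.p ⬝ᵥ o.p ≤ n) {ω : Vn n} (hω : Sph o ω) (s : Cube n) :
    Mj.xp o s ω ⬝ᵥ Mj.xp o s ω ≤ 4 * n := by
  have := dot_sub_le (Qm o *ᵥ sv s) o.p
  rw [← Z2] at this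
  rw [xp_sq hω, Qsh h]
  linarith [R2_add h s, R2_nonneg (o := o) s]

namespace Hx

variable {x f1 f2 : Vn n} {χ X κ η C : ℝ} (H : Hx o x f1 f2 χ X κ η C)
include H

theorem Q1 : Qm o *ᵥ f1 = f1 := by rw [H.Qvec, H.n1, dotProduct_comm, H.o12]; simp
theorem Q2 : Qm o *ᵥ f2 = f2 := by rw [H.Qvec, H.n2, H.o12]; simp
theorem Qdot (u v : Vn n) : Qm o *ᵥ u ⬝ᵥ v = (f1 ⬝ᵥ u) * (f1 ⬝ᵥ v) + (f2 ⬝ᵥ u) * (f2 ⬝ᵥ v) := by
  rw [H.Qvec, add_dotProduct, smul_dotProduct, smul_dotProduct]; rfl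
theorem Qi (u : Vn n) (i : Fin n) : (Qm o *ᵥ u) i = (f1 ⬝ᵥ u) * f1 i + (f2 ⬝ᵥ u) * f2 i := by
  rw [H.Qvec]; rfl
theorem B1 (y : Vn n) : f1 ⬝ᵥ Bp x f1 f2 *ᵥ y = Dq x f1 f2 * (Dq x f1 f2 * (f1 ⬝ᵥ y) - f2 ⬝ᵥ y) := by
  simp only [Bp, sub_mulVec, Orb.vv_mulVec, dotProduct_sub, sub_dotProduct, dotProduct_smul,
    smul_dotProduct, smul_eq_mul, H.n1, H.o12]
  ring
theorem B2 (y : Vn n) : f2 ⬝ᵥ Bp x f1 f2 *ᵥ y = -(Dq x f1 f2 * (f1 ⬝ᵥ y)) := by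
  simp only [Bp, sub_mulVec, Orb.vv_mulVec, dotProduct_sub, sub_dotProduct, dotProduct_smul,
    smul_dotProduct, smul_eq_mul, H.n2, H.o12, dotProduct_comm f2 f1]
  ring
theorem opA : Op2 (A0 o) 36 := by obtain ⟨_, _, _, F⟩ := H.fr; exact F.opA H.ok
theorem trQ : ∑ i, Qm o i i = 2 := by obtain ⟨_, _, _, F⟩ := H.fr; exact F.trQ H.ok
theorem p_le : o.p ⬝ᵥ o.p ≤ n := by
  obtain ⟨_, _, _, F⟩ := H.fr
  rw [F.p_sq H.ok]; nlinarith [F.pn, sq_nonneg ‹ℝ›]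
theorem zeta {f : Vn n} (hf : Qm o *ᵥ f = f) {ω : Vn n} (hω : Sph o ω) (s : Cube n) :
    f ⬝ᵥ sv s = f ⬝ᵥ o.p + f ⬝ᵥ Mj.xp o s ω := by
  have : f ⬝ᵥ Mj.xp o s ω = f ⬝ᵥ sh o s := by rw [← hf, ← dot_Q, Q_xp H.ok hω, dot_Q]
  rw [this, sh, dotProduct_sub]; ring
theorem De_eq {f : Vn n} (hf : Qm o *ᵥ f = f) (s : Cube n) (ξ : Vn n) : f ⬝ᵥ De o x f1 f2 s ξ =
    (cc o s ξ - (k - 1) / R2 o s) * (f ⬝ᵥ sv s) - (f ⬝ᵥ A0 o *ᵥ ξ + f ⬝ᵥ Bp x f1 f2 *ᵥ ξ) := by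
  rw [De, dotProduct_sub, dotProduct_smul, dot_Q, dot_Q, hf, add_mulVec, dotProduct_add, smul_eq_mul]
theorem Gv_dot {f : Vn n} (hf : Qm o *ᵥ f = f) (s : Cube n) (ξ : Vn n) : f ⬝ᵥ Gv o χ s ξ =
    (k - 1) / R2 o s * (f ⬝ᵥ sv s) - f ⬝ᵥ o.p / χ + f ⬝ᵥ Bp x f1 f2 *ᵥ ξ + f ⬝ᵥ De o x f1 f2 s ξ := by
  rw [H.De_eq hf, Gv, dotProduct_sub, dotProduct_sub, dotProduct_smul, dotProduct_smul, dot_Q, dot_Q, hf]
  simp only [smul_eq_mul]; ring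

variable (sm : 1000 * C * η ≤ 1)
include sm

theorem sm1 : 1000 * η ≤ 1 := by nlinarith [H.C1, H.e0]
theorem kn : 1 ≤ (η * κ) ^ 2 * n := by
  have h1 := pow_le_pow_left₀ zero_le_one H.big 2
  have h2 : X ^ 2 ≤ n := H.Xn.trans (mul_le_of_le_one_left (Nat.cast_nonneg n) (by linarith [H.ke, H.sm1 sm]))
  rw [one_pow, mul_pow] at h1
  exact h1.trans (mul_le_mul_of_nonneg_left h2 (sq_nonneg _))
theorem kn' : 1 ≤ κ ^ 2 * n := by
  refine (H.kn sm).trans (mul_le_mul_of_nonneg_right ?_ (Nat.cast_nonneg n))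
  exact pow_le_pow_left₀ (mul_pos H.e0 H.k0).le (mul_le_of_le_one_left H.k0.le (by linarith [H.sm1 sm])) 2
theorem n_ge : (1000 : ℝ) ≤ n := by
  have h1 : κ ^ 2 ≤ 1 / 1000 := by nlinarith [H.k0, H.ke, H.sm1 sm]
  nlinarith [H.kn' sm, mul_le_mul_of_nonneg_right h1 (Nat.cast_nonneg (α := ℝ) n)]

theorem M_le {f : Vn n} (hf : f = f1 ∨ f = f2) {y : Vn n} {r : ℝ} (hr : 0 ≤ r) (hy : y ⬝ᵥ y ≤ r ^ 2) :
    |f ⬝ᵥ A0 o *ᵥ y + f ⬝ᵥ Bp x f1 f2 *ᵥ y| ≤ 7 * r := by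
  have y1 := adot zero_le_one hr (H.n1.trans (one_pow 2).symm).le hy
  have y2 := adot zero_le_one hr (H.n2.trans (one_pow 2).symm).le hy
  have hA : A0 o *ᵥ y ⬝ᵥ A0 o *ᵥ y ≤ (6 * r) ^ 2 := by nlinarith [H.opA y]
  have be : |Dq x f1 f2| ≤ 1 / 2 := H.be_le.trans (by linarith [H.ke, H.sm1 sm])
  rcases hf with rfl | rfl
  · rw [H.B1]
    exact (ad (adot zero_le_one (by linarith) (H.n1.trans (one_pow 2).symm).le hA)
      (am be (asb (am be y1) y2))).trans (by linarith)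
  · rw [H.B2]
    exact (ad (adot zero_le_one (by linarith) (H.n2.trans (one_pow 2).symm).le hA)
      ((abs_neg _).trans_le (am be y1))).trans (by linarith)

theorem M_form (y : Vn n) : y ⬝ᵥ (A0 o + Bp x f1 f2) *ᵥ y ≤ 9 * (y ⬝ᵥ y) := by
  have h0 := dot_self_nonneg y
  have h1 : |y ⬝ᵥ A0 o *ᵥ y| ≤ 6 * (y ⬝ᵥ y) := abs_le_of_sq_le_sq ((dot_sq_le _ _).trans (by
    nlinarith [mul_le_mul_of_nonneg_left (H.opA y) h0])) (by linarith)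
  have h2 := Q_le H.ok y
  have be := abs_le.1 (H.be_le.trans (by linarith [H.ke, H.sm1 sm] : κ ≤ 1 / 2))
  rw [H.Qsq] at h2
  have h3 : y ⬝ᵥ Bp x f1 f2 *ᵥ y = (f2 ⬝ᵥ y - Dq x f1 f2 * (f1 ⬝ᵥ y)) ^ 2 - (f2 ⬝ᵥ y) ^ 2 := by
    simp only [Bp, sub_mulVec, Orb.vv_mulVec, sub_dotProduct, smul_dotProduct, smul_eq_mul,
      dotProduct_comm y]
    ring
  have h4 : (Dq x f1 f2 * (f1 ⬝ᵥ y)) ^ 2 ≤ (f1 ⬝ᵥ y) ^ 2 := by
    rw [mul_pow]; exact mul_le_of_le_one_left (sq_nonneg _) (by nlinarith)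
  rw [add_mulVec, dotProduct_add, h3]
  nlinarith [le_abs_self (y ⬝ᵥ A0 o *ᵥ y), sq_nonneg (f2 ⬝ᵥ y + Dq x f1 f2 * (f1 ⬝ᵥ y))]

section T

variable {s : Cube n} (hs : 4 * Z2 o s ≤ n) {ω : Vn n} (hω : Sph o ω) {f : Vn n}
  (hf : f = f1 ∨ f = f2)
include hs

omit sm in
theorem R_ge : 3 * (n : ℝ) ≤ 4 * R2 o s := by linarith [R2_add H.ok s]

omit sm in
theorem kk_le : |((k : ℝ) - 1) / R2 o s| ≤ 2 := by
  have h1 := H.R_ge hs
  have h2 : (k : ℝ) + 2 = n := by exact_mod_cast H.dim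
  have h3 : (2 : ℝ) < k := by exact_mod_cast H.ok.two
  rw [abs_of_nonneg (div_nonneg (by linarith) (R2_nonneg s)), div_le_iff₀ (by linarith)]
  linarith

include hf

omit sm hs in
theorem Qf : Qm o *ᵥ f = f := by rcases hf with rfl | rfl; exacts [H.Q1, H.Q2]
omit sm hs in
theorem f_sq : f ⬝ᵥ f ≤ 1 ^ 2 := by rcases hf with rfl | rfl; exacts [by rw [H.n1, one_pow], by rw [H.n2, one_pow]]

omit sm in
theorem z_sq : (f ⬝ᵥ sv s) ^ 2 ≤ n / 4 := by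
  have := H.Qsq (sv s)
  rw [← Z2] at this
  rcases hf with e | e <;> rw [e] <;> nlinarith [sq_nonneg (f1 ⬝ᵥ sv s), sq_nonneg (f2 ⬝ᵥ sv s)]

include hω

omit sm hf in
theorem c_le' : |cc o s (Mj.xp o s ω)| ≤ 10 := by
  obtain ⟨_, _, _, F⟩ := H.fr
  exact abs_le_of_sq_le_sq ((F.cp_sq H.ok hs hω).trans (by norm_num)) (by norm_num)

theorem De_le : |f ⬝ᵥ De o x f1 f2 s (Mj.xp o s ω)| ≤ 30 * n := by
  have n1 := H.n_ge sm
  have h1 : |f ⬝ᵥ sv s| ≤ n := abs_le_of_sq_le_sq ((H.z_sq hs hf).trans (by nlinarith)) (by linarith)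
  have h2 := H.M_le sm hf (r := 2 * n) (by linarith) ((xp_crude H.ok H.p_le hω s).trans (by nlinarith))
  rw [H.De_eq (H.Qf hf)]
  exact (asb (am (asb (H.c_le' hs hω) (H.kk_le hs)) h1) h2).trans (by linarith)

theorem dDe (i : Fin n) (hs' : 4 * Z2 o (fl i s) ≤ n) {a : ℝ} (a0 : 0 ≤ a) (ha : Qm o i i = a ^ 2) :
    |f ⬝ᵥ De o x f1 f2 s (Mj.xp o s ω) - f ⬝ᵥ De o x f1 f2 (fl i s) (Mj.xp o (fl i s) ω)| ≤ 2 * (57 * a) := by
  obtain ⟨_, _, _, F⟩ := H.fr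
  have n1 := H.n_ge sm
  have h1 := H.M_le sm hf (r := 8 * a) (by linarith) ((F.dxp H.ok hs hω i).trans (by rw [ha]; nlinarith))
  have h2 : |f ⬝ᵥ sv s - f ⬝ᵥ sv (fl i s)| ≤ 2 * a := by
    have : |f i| ≤ a := abs_le_of_sq_le_sq (by
      rw [← ha, H.Qii]; rcases hf with e | e <;> rw [e] <;> nlinarith [sq_nonneg (f1 i), sq_nonneg (f2 i)]) a0
    rw [sv_fl, dotProduct_sub, sub_sub_cancel, dotProduct_smul, dotProduct_comm, single_dot, smul_eq_mul]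
    exact (am (am abs_two.le (abs_sv s i).le) this).trans_eq (by ring)
  have z' := H.z_sq hs' hf
  have h3 : |(cc o s (Mj.xp o s ω) - cc o (fl i s) (Mj.xp o (fl i s) ω)) * (f ⬝ᵥ sv (fl i s))| ≤ 29 * a := by
    refine abs_le_of_sq_le_sq ?_ (by linarith)
    have := F.dc H.ok hs hω i hs'
    rw [ha] at this
    rw [mul_pow]
    nlinarith [mul_le_mul_of_nonneg_left z' (sq_nonneg (cp o s ω - cp o (fl i s) ω)), sq_nonneg a]
  have r1 := H.R_ge hs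
  have r2 := H.R_ge hs'
  have h4 : |(((k : ℝ) - 1) / R2 o s - (k - 1) / R2 o (fl i s)) * (f ⬝ᵥ sv (fl i s))| ≤ 4 * a := by
    obtain ⟨m, m0, hm⟩ : ∃ m : ℝ, 0 ≤ m ∧ m ^ 2 = n / 4 := ⟨√(n / 4), sqrt_nonneg _, sq_sqrt (by linarith)⟩
    have m1 : 1 ≤ m := by nlinarith
    have b1 : |f ⬝ᵥ sv (fl i s)| ≤ m := abs_le_of_sq_le_sq (hm ▸ z') m0
    have b2 : |(Qm o *ᵥ sv s) i| ≤ a * m := abs_le_of_sq_le_sq ((Qi_sq H.ok i _).trans (by
      rw [← Z2, ha, mul_pow, hm]; exact mul_le_mul_of_nonneg_left (by linarith) (sq_nonneg a))) (by positivity)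
    have b3 : |Qm o i i| ≤ a * m := by
      have := Qii_le H.ok i
      rw [ha] at this ⊢
      rw [abs_of_nonneg (sq_nonneg a)]; nlinarith
    have b4 : |(k : ℝ) - 1| ≤ n := by
      have h2 : (k : ℝ) + 2 = n := by exact_mod_cast H.dim
      exact abs_le.2 ⟨by linarith, by linarith⟩
    have e : (((k : ℝ) - 1) / R2 o s - (k - 1) / R2 o (fl i s)) = (k - 1) *
        (4 * sv s i * (Qm o *ᵥ sv s) i - 4 * Qm o i i) * (R2 o s)⁻¹ * (R2 o (fl i s))⁻¹ := by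
      have : R2 o s ≠ 0 := by linarith
      have : R2 o (fl i s) ≠ 0 := by linarith
      rw [show 4 * sv s i * (Qm o *ᵥ sv s) i - 4 * Qm o i i = R2 o (fl i s) - R2 o s by
        linarith [R2_add H.ok s, R2_add H.ok (fl i s), Z2_fl H.ok i s]]
      field_simp
    have four : |(4 : ℝ)| ≤ 4 := by norm_num
    rw [e]
    refine (am (am (am (am b4 (asb (am (am four (abs_sv s i).le) b2) (am four b3)))
      (ai (c := 3 * m ^ 2) (by positivity) (by linarith))) (ai (c := 3 * m ^ 2) (by positivity)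
        (by linarith))) b1).trans ?_
    rw [show (n : ℝ) = 4 * m ^ 2 by linarith]
    field_simp
    nlinarith
  rw [H.De_eq (H.Qf hf), H.De_eq (H.Qf hf)]
  simp only [mulVec_sub, dotProduct_sub] at h1
  refine le_trans (le_of_eq ?_) ((asb (asb (ad (am (asb (H.c_le' hs hω) (H.kk_le hs)) h2) h3) h4) h1).trans
    (by linarith))
  congr 1; ring

/-- the linear functional `N` -/
def NN (o : Oo.Orb n k) (v f : Vn n) (s : Cube n) (ξ : Vn n) : ℝ :=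
  f ⬝ᵥ v - (Pm o *ᵥ ξ ⬝ᵥ v) * (f ⬝ᵥ sv s) / R2 o s

theorem NN_le {v : Vn n} {V : ℝ} (V0 : 0 ≤ V) (hv : v ⬝ᵥ v ≤ V ^ 2) :
    |NN o v f s (Mj.xp o s ω)| ≤ 2 * V := by
  have n1 := H.n_ge sm
  have r1 := H.R_ge hs
  have R0 : 0 < R2 o s := by linarith
  have h1 : |f ⬝ᵥ sv s| ≤ √(R2 o s) := abs_le_sqrt (by linarith [H.z_sq hs hf])
  have h2 := adot zero_le_one V0 (hω.one.trans (one_pow 2).symm).le hv
  rw [NN, P_xp H.ok hω, smul_dotProduct, smul_eq_mul, div_eq_mul_inv]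
  refine (asb (adot zero_le_one V0 (H.f_sq hf) hv) (am (am (am (abs_of_nonneg (sqrt_nonneg _)).le h2) h1)
    (abs_of_pos (inv_pos.2 R0)).le)).trans_eq ?_
  have := Real.mul_self_sqrt R0.le
  field_simp
  linear_combination V * this

omit hf in
theorem dI_f {v : Vn n} {V : ℝ} (V0 : 0 ≤ V) (hv : v ⬝ᵥ v ≤ V ^ 2) (i : Fin n) :
    |dI i (fun s ω => v ⬝ᵥ Mj.xp o s ω) s ω - (NN o v f1 s (Mj.xp o s ω) * f1 i + NN o v f2 s (Mj.xp o s ω) * f2 i)| ≤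
      14 * η * κ * V * Qm o i i := by
  obtain ⟨_, _, _, F⟩ := H.fr
  have n1 := H.n_ge sm
  have r1 := H.R_ge hs
  have R0 : 0 < R2 o s := by linarith
  have hd := F.dR H.ok hs i
  have a := Real.mul_self_sqrt R0.le
  have a' := Real.mul_self_sqrt (R2_nonneg (o := o) (fl i s))
  have hR := Real.sqrt_pos.2 R0
  have hσ := sv_sq i s
  have e3 : R2 o (fl i s) - R2 o s = 4 * sv s i * (Qm o *ᵥ sv s) i - 4 * Qm o i i := by
    linarith [R2_add H.ok s, R2_add H.ok (fl i s), Z2_fl H.ok i s]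
  have h2 := adot zero_le_one V0 (hω.one.trans (one_pow 2).symm).le hv
  have h3 : |(√(R2 o s))⁻¹| ≤ 2 * η * κ := by
    have k0 := H.k0; have e0 := H.e0
    rw [abs_of_pos (inv_pos.2 hR), inv_le_iff_one_le_mul₀ hR]
    refine (abs_le_of_sq_le_sq' ?_ (by positivity)).2
    rw [mul_pow, sq_sqrt R0.le]
    nlinarith [H.kn sm, mul_le_mul_of_nonneg_left r1 (sq_nonneg (η * κ)), sq_nonneg (η * κ)]
  have q0 := Qii_nonneg H.ok i
  have h4 : |4 * Qm o i i + (√(R2 o (fl i s)) - √(R2 o s)) ^ 2| ≤ 26 * Qm o i i := by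
    rw [abs_of_nonneg (by positivity)]; linarith
  have h5 := mul_nonneg (mul_nonneg (mul_pos H.e0 H.k0).le V0) q0
  have h6 : |(4 : ℝ)⁻¹| ≤ 1 / 4 := by norm_num [abs_of_pos]
  refine le_trans (le_of_eq ?_) ((am (am (am (am (abs_sv s i).le h4) h3) h2) h6).trans (by linarith))
  congr 1
  rw [H.Qi] at e3
  simp only [Mj.dI, NN, xp_fl H.ok i s, P_xp H.ok hω, dotProduct_add, dotProduct_sub, dotProduct_smul,
    smul_dotProduct, smul_eq_mul, dotProduct_comm v (uq o i), uq_dot, H.Qi, dotProduct_comm v ω]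
  generalize √(R2 o (fl i s)) = R' at *
  generalize √(R2 o s) = R at *
  rw [← a] at e3 ⊢
  rw [← a'] at e3
  field_simp
  linear_combination (-2 * (ω ⬝ᵥ v) * sv s i) * e3 + (8 * R * ((f1 ⬝ᵥ v) * f1 i + (f2 ⬝ᵥ v) * f2 i) -
    8 * (ω ⬝ᵥ v) * ((f1 ⬝ᵥ sv s) * f1 i + (f2 ⬝ᵥ sv s) * f2 i)) * hσ

end T

end Hx

end Crest.Agent.T157.O4c
end
end

-- ▼ part T157/O4cD_4
section

set_option autoImplicit false
set_option linter.unusedSectionVars false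

/-!
Row 157, A2 section 4 (helper4): the cube step on the good event.
-/

noncomputable section

namespace Crest.Agent.T157.O4c

open MeasureTheory Matrix Crest.Agent.Lib.OrthPoinc Real
open Crest.Agent.T157.Oc Crest.Agent.T157.E Crest.Agent.T157.Od Crest.Agent.T157.Oo
open Crest.Agent.T157.Mj Crest.Agent.T157.O4c.B42 Crest.Agent.T157.SL

variable {n k : ℕ} {o : Oo.Orb n k}

/-- the size of a point -/
def Zz (o : Oo.Orb n k) (x f1 f2 : Vn n) (κ : ℝ) (s : Cube n) (ξ : Vn n) : ℝ :=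
  κ * |f1 ⬝ᵥ ξ| + |f2 ⬝ᵥ ξ| + |f1 ⬝ᵥ De o x f1 f2 s ξ| + |f2 ⬝ᵥ De o x f1 f2 s ξ| + 1

theorem ph_one {s : Cube n} (hs : 4 * Z2 o s ≤ n) : ph o s = 1 := if_pos hs

theorem dI_mul (i : Fin n) (F U : Cube n → Vn n → ℝ) (s : Cube n) (ω : Vn n) :
    Mj.dI i (fun s ω => F s ω * U s ω) s ω = U s ω * Mj.dI i F s ω + F (fl i s) ω * Mj.dI i U s ω := by
  simp only [Mj.dI]; ring

namespace Hx

variable {x f1 f2 : Vn n} {χ X κ η C : ℝ} (H : Hx o x f1 f2 χ X κ η C)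
  {f c : Vn n} {i1 i2 α β σ : ℝ}
include H

theorem sum_c (D : Du x f1 f2 κ η f c i1 i2 α β σ) {t d : Vn n} {B l : ℝ} (B0 : 0 ≤ B) (l0 : 0 ≤ l)
    (ht : ∀ i, |t i| ≤ B) (hd : ∀ i a, 0 ≤ a → Qm o i i = a ^ 2 → |d i| ≤ l * a) :
    |∑ i, c i * (t i * d i)| ≤ 4 * (B * l) := by
  have h1 : (fun i => t i * d i) ⬝ᵥ (fun i => t i * d i) ≤ (B * l) ^ 2 * 2 := by
    rw [← H.trQ, Finset.mul_sum]
    refine Finset.sum_le_sum fun i _ => ?_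
    have q := Qii_nonneg H.ok i
    have := pow_le_pow_left₀ (abs_nonneg _) (am (ht i) (hd i _ (sqrt_nonneg _) (sq_sqrt q).symm)) 2
    rw [sq_abs, ← mul_assoc, mul_pow (B * l), sq_sqrt q, sq] at this
    exact this
  refine abs_le_of_sq_le_sq ((dot_sq_le c fun i => t i * d i).trans ?_) (by positivity)
  nlinarith [mul_le_mul (H.c_sq D) h1 (dot_self_nonneg _) (by norm_num)]

theorem c3 (D : Du x f1 f2 κ η f c i1 i2 α β σ) (i : Fin n) : |c i| ≤ 3 := by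
  refine abs_le_of_sq_le_sq ?_ (by norm_num)
  have := H.c_sq D
  rw [dot_self_eq_sq] at this
  linarith [Finset.single_le_sum (f := fun i => c i ^ 2) (fun i _ => sq_nonneg _) (Finset.mem_univ i)]

variable (sm : 1000 * C * η ≤ 1) {G : Mn n} {T0 : ℝ} {s : Cube n} {ω : Vn n} (hω : Sph o ω)
  (gd : Gd o x f1 f2 G X κ η T0 s (Mj.xp o s ω))
include sm hω gd

theorem gd_z : 4 * Z2 o s ≤ n ∧ ∀ i, 4 * Z2 o (fl i s) ≤ n := by
  have e := H.Qsq (sv s)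
  rw [← Z2, H.zeta H.Q1 hω, H.zeta H.Q2 hω] at e
  have e1 := H.sm1 sm
  have X0 := H.X0
  have e0 := H.e0
  have k0 := H.k0
  have k1 := H.ke
  have n1 := H.n_ge sm
  have h1 := pow_le_pow_left₀ (abs_nonneg _) ((ad H.p1_le gd.z1).trans (by nlinarith : _ ≤ 2 * X)) 2
  have h2 := pow_le_pow_left₀ (abs_nonneg _) ((ad H.p2_le gd.z2).trans (by
    nlinarith [mul_pos k0 X0] : _ ≤ X)) 2
  rw [sq_abs] at h1 h2
  have h3 : 200 * Z2 o s ≤ n := by nlinarith [H.Xn]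
  exact ⟨by linarith [Z2_nonneg (o := o) s], fun i => by linarith [Z2_fl_le H.ok i s]⟩

variable (D : Du x f1 f2 κ η f c i1 i2 α β σ)
include D

theorem gd_res : (∀ i, |bi o s ω i - x i| ≤ 110 * C * η * |x i|) ∧
    |c ⬝ᵥ sv s - ∑ i, c i * Ti o s ω i + f ⬝ᵥ De o x f1 f2 s (Mj.xp o s ω)| ≤
      8000 * C * η * σ * Zz o x f1 f2 κ s (Mj.xp o s ω) := by
  obtain ⟨_, _, _, F⟩ := H.fr
  have hs := (H.gd_z sm hω gd).1
  have e := H.Qsq (sv s)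
  rw [← Z2, H.zeta H.Q1 hω, H.zeta H.Q2 hω] at e
  have h2 : (k : ℝ) + 2 = n := by exact_mod_cast H.dim
  have QG : Qm o *ᵥ Gv o χ s (Mj.xp o s ω) = Gv o χ s (Mj.xp o s ω) := by
    simp only [Gv, mulVec_sub, mulVec_smul, Q_Q H.ok, Q_p H.ok]
  have := H.res D sm gd.z1 gd.z2 gd.d1 gd.d2 (kk := (k - 1) / R2 o s) (y := bi o s ω)
    (L1 := f1 ⬝ᵥ Gv o χ s (Mj.xp o s ω)) (L2 := f2 ⬝ᵥ Gv o χ s (Mj.xp o s ω))
    (by congr 1 <;> linarith [R2_add H.ok s]) (by rw [H.Gv_dot H.Q1, H.zeta H.Q1 hω, H.B1])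
    (by rw [H.Gv_dot H.Q2, H.zeta H.Q2 hω, H.B2]; ring)
    (fun i => by have := F.field H.ok hs hω i; rwa [← QG, H.Qi] at this)
  refine ⟨this.1, le_trans (le_of_eq ?_) this.2⟩
  have e1 : c ⬝ᵥ sv s = α * (f1 ⬝ᵥ o.p + f1 ⬝ᵥ Mj.xp o s ω) + β * (f2 ⬝ᵥ o.p + f2 ⬝ᵥ Mj.xp o s ω) := by
    rw [D.hc, add_dotProduct, smul_dotProduct, smul_dotProduct, H.zeta H.Q1 hω, H.zeta H.Q2 hω]; rfl
  rw [e1, D.hf, add_dotProduct, smul_dotProduct, smul_dotProduct]; rfl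

theorem Ps_gd (F : Cube n → Vn n → ℝ) : |Ps o c F s ω + F s ω * (f ⬝ᵥ De o x f1 f2 s (Mj.xp o s ω)) +
    ∑ i, c i * ((1 - Ti o s ω i ^ 2) * Mj.dI i F s ω)| ≤
      8000 * C * η * σ * Zz o x f1 f2 κ s (Mj.xp o s ω) * |F s ω| := by
  refine le_trans (le_of_eq ?_) (am (H.gd_res sm hω gd D).2 (le_refl |F s ω|))
  have : Ps o c F s ω = (c ⬝ᵥ sv s - ∑ i, c i * Ti o s ω i) * F s ω -
      ∑ i, c i * ((1 - Ti o s ω i ^ 2) * Mj.dI i F s ω) := by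
    simp only [Ps, dotProduct, Finset.sum_mul, ← Finset.sum_sub_distrib]
    exact Finset.sum_congr rfl fun i _ => by ring
  rw [this]; congr 1; ring

theorem main {v : Vn n} {V : ℝ} (V0 : 0 ≤ V) (hv : v ⬝ᵥ v ≤ V ^ 2) {U : Cube n → Vn n → ℝ} {l : ℝ}
    (l0 : 0 ≤ l) (hU : ∀ i a, 0 ≤ a → Qm o i i = a ^ 2 → |U s ω - U (fl i s) ω| ≤ 2 * (l * a)) :
    |Ps o c (fun s ω => (v ⬝ᵥ Mj.xp o s ω) * U s ω) s ω + U s ω * ((v ⬝ᵥ Mj.xp o s ω) *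
      (f ⬝ᵥ De o x f1 f2 s (Mj.xp o s ω)) + NN o v f s (Mj.xp o s ω))| ≤
    |U s ω| * σ * (C * η * (8000 * Zz o x f1 f2 κ s (Mj.xp o s ω) * |v ⬝ᵥ Mj.xp o s ω| + 5400 * V)) +
      4 * ((|v ⬝ᵥ Mj.xp o s ω| + 8 * V) * l) := by
  obtain ⟨_, _, _, F⟩ := H.fr
  have hs := (H.gd_z sm hω gd).1
  have e0 := H.e0
  have k0 := H.k0
  have C1 := H.C1
  have s0 := H.s0 D
  have A := H.Ps_gd sm hω gd D fun s ω => (v ⬝ᵥ Mj.xp o s ω) * U s ω
  have B := lin2 (c := c) (f1 := f1) (f2 := f2) (NN o v f1 s (Mj.xp o s ω)) (NN o v f2 s (Mj.xp o s ω))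
    (by positivity) (by linarith) (H.gd_res sm hω gd D).1
  rw [H.Dc1 D, H.Dc2 D] at B
  replace B := B.trans (mul_le_mul_of_nonneg_left (add_le_add
    (mul_le_mul (H.NN_le sm hs hω (.inl rfl) V0 hv) ((H.Wc1 D).trans (by linarith [D.ks] : _ ≤ 4 * σ))
      (Wt_nonneg _ _ _) (by linarith))
    (mul_le_mul (H.NN_le sm hs hω (.inr rfl) V0 hv) (H.Wc2 D) (Wt_nonneg _ _ _) (by linarith)))
    (by positivity))
  have E := H.sum_c D (t := fun i => 1 - Ti o s ω i ^ 2) (d := fun i => Mj.dI i (fun s ω => v ⬝ᵥ Mj.xp o s ω) s ω -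
    (NN o v f1 s (Mj.xp o s ω) * f1 i + NN o v f2 s (Mj.xp o s ω) * f2 i)) (l := 14 * (C * η * σ * V))
    zero_le_one (by positivity) (fun i => D_abs _) fun i a a0 ha => (H.dI_f sm hs hω V0 hv i).trans (by
      have := Qii_le H.ok i
      rw [ha] at this ⊢
      calc 14 * η * κ * V * a ^ 2 = 14 * (1 * η * κ * V) * (a * a) := by ring
        _ ≤ 14 * (C * η * σ * V) * (1 * a) := by gcongr; exacts [D.ks, by nlinarith]
        _ = _ := by ring)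
  have Fq := H.sum_c D (t := fun i => (1 - Ti o s ω i ^ 2) * (v ⬝ᵥ Mj.xp o (fl i s) ω))
    (d := fun i => Mj.dI i U s ω) (B := |v ⬝ᵥ Mj.xp o s ω| + 8 * V) (by positivity) l0 (fun i => by
      have := adot V0 (by norm_num : (0 : ℝ) ≤ 8) hv ((F.dxp H.ok hs hω i).trans (by
        linarith [Qii_le H.ok i]))
      rw [dotProduct_sub] at this
      refine (am (D_abs _) ?_).trans_eq (one_mul _)
      have h := asb (le_refl |v ⬝ᵥ Mj.xp o s ω|) this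
      rwa [sub_sub_cancel, mul_comm] at h) fun i a a0 ha => abs_dI (hU i a a0 ha)
  have eN : NN o v f s (Mj.xp o s ω) = NN o v f1 s (Mj.xp o s ω) * i1 + NN o v f2 s (Mj.xp o s ω) * i2 := by
    rw [D.hf]; simp only [NN, add_dotProduct, smul_dotProduct, smul_eq_mul]; ring
  refine le_trans (le_of_eq ?_) ((asb (asb (asb A (am (le_refl |U s ω|) E)) (am (le_refl |U s ω|) B))
    Fq).trans ?_)
  · congr 1
    rw [eN]
    have : ∑ i, c i * ((1 - Ti o s ω i ^ 2) * Mj.dI i (fun s ω => (v ⬝ᵥ Mj.xp o s ω) * U s ω) s ω) =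
        U s ω * ∑ i, c i * ((1 - Ti o s ω i ^ 2) * (Mj.dI i (fun s ω => v ⬝ᵥ Mj.xp o s ω) s ω -
          (NN o v f1 s (Mj.xp o s ω) * f1 i + NN o v f2 s (Mj.xp o s ω) * f2 i))) +
        U s ω * ∑ i, c i * (1 - tanh (bi o s ω i) ^ 2) *
          (NN o v f1 s (Mj.xp o s ω) * f1 i + NN o v f2 s (Mj.xp o s ω) * f2 i) +
        ∑ i, c i * ((1 - Ti o s ω i ^ 2) * (v ⬝ᵥ Mj.xp o (fl i s) ω) * Mj.dI i U s ω) := by
      simp only [Finset.mul_sum, ← Finset.sum_add_distrib]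
      exact Finset.sum_congr rfl fun i _ => by rw [dI_mul, Ti]; ring
    rw [this]; ring
  · rw [abs_mul]
    nlinarith [mul_nonneg (abs_nonneg (U s ω)) (by positivity : 0 ≤ C * η * σ * V)]

theorem de_gd (hf : f = f1 ∨ f = f2) :
    |Ps o c (fun s ω => ph o s * (f ⬝ᵥ De o x f1 f2 s (Mj.xp o s ω))) s ω +
      (f ⬝ᵥ De o x f1 f2 s (Mj.xp o s ω)) ^ 2| ≤
    8000 * C * η * (Zz o x f1 f2 κ s (Mj.xp o s ω) * |f ⬝ᵥ De o x f1 f2 s (Mj.xp o s ω)|) + 228 := by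
  obtain ⟨hs, hs'⟩ := H.gd_z sm hω gd
  have A := H.Ps_gd sm hω gd D fun s ω => ph o s * (f ⬝ᵥ De o x f1 f2 s (Mj.xp o s ω))
  have E := H.sum_c D (t := fun i => 1 - Ti o s ω i ^ 2) (d := fun i => Mj.dI i
    (fun s ω => ph o s * (f ⬝ᵥ De o x f1 f2 s (Mj.xp o s ω))) s ω) (l := 57) zero_le_one (by norm_num)
    (fun i => D_abs _) fun i a a0 ha => abs_dI (by
      simp only [ph_one hs, ph_one (hs' i), one_mul]; exact H.dDe sm hs hω hf i (hs' i) a0 ha)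
  simp only [ph_one hs, one_mul] at A
  refine le_trans (le_of_eq (by congr 1; ring)) ((asb A E).trans ?_)
  have e0 := H.e0
  have k0 := H.k0
  have C1 := H.C1
  have : 0 ≤ C * η * (Zz o x f1 f2 κ s (Mj.xp o s ω) * |f ⬝ᵥ De o x f1 f2 s (Mj.xp o s ω)|) := by
    unfold Zz; positivity
  nlinarith [mul_le_mul_of_nonneg_left D.s1 this]

end Hx

end Crest.Agent.T157.O4c
end
end

-- ▼ part T157/O4cE_4
section

set_option autoImplicit false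
set_option linter.unusedSectionVars false

/-!
Row 157, A2 section 4 (helper4): the cube step of (M1).
-/

noncomputable section

namespace Crest.Agent.T157.O4c

open MeasureTheory Matrix Crest.Agent.Lib.OrthPoinc Real
open Crest.Agent.T157.Oc Crest.Agent.T157.E Crest.Agent.T157.Od Crest.Agent.T157.Oo
open Crest.Agent.T157.Mj Crest.Agent.T157.O4c.B42 Crest.Agent.T157.SL

variable {n k : ℕ} {o : Oo.Orb n k}

@[fun_prop] theorem cont_De (x f1 f2 : Vn n) (s : Cube n) : Continuous (De o x f1 f2 s) := by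
  unfold De; fun_prop

def Fd (o : Oo.Orb n k) (x f1 f2 f : Vn n) (s : Cube n) (ω : Vn n) : ℝ :=
  ph o s * (f ⬝ᵥ De o x f1 f2 s (Mj.xp o s ω))
def Zq (o : Oo.Orb n k) (x f1 f2 : Vn n) (κ : ℝ) (s : Cube n) (ω : Vn n) : ℝ :=
  κ ^ 2 * (f1 ⬝ᵥ Mj.xp o s ω) ^ 2 + (f2 ⬝ᵥ Mj.xp o s ω) ^ 2 + (Fd o x f1 f2 f1 s ω ^ 2 + Fd o x f1 f2 f2 s ω ^ 2) + 1

@[fun_prop] theorem cont_Fd (x f1 f2 f : Vn n) (s : Cube n) : Continuous (Fd o x f1 f2 f s) := by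
  unfold Fd; fun_prop
@[fun_prop] theorem cont_Zq (x f1 f2 : Vn n) (κ : ℝ) (s : Cube n) : Continuous (Zq o x f1 f2 κ s) := by
  unfold Zq; fun_prop

theorem nG_le {G : Mn n} {γ : ℝ} (h : PG G γ) {u : Vn n} {y : ℝ} (hy : 0 ≤ y) (hu : u ⬝ᵥ u ≤ y ^ 2) :
    nG G u ≤ √γ * y := by
  refine le_of_sq (by positivity) ?_
  rw [h.nG_sq, mul_pow, sq_sqrt h.pos.le]
  exact (h.up u).trans (mul_le_mul_of_nonneg_left hu h.pos.le)

theorem sc_de {A B x y P1 P2 e : ℝ} (A0 : 0 ≤ A) (B0 : 0 ≤ B) (e1 : e ≤ 1 / 10)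
    (h1 : |P1 + x ^ 2| ≤ e * ((A + B + |x| + |y| + 1) * |x|) + 228)
    (h2 : |P2 + y ^ 2| ≤ e * ((A + B + |x| + |y| + 1) * |y|) + 228) :
    x ^ 2 + y ^ 2 ≤ -2 * P1 + -2 * P2 + (A ^ 2 + B ^ 2 + 913) := by
  have a1 := mul_le_mul_of_nonneg_right e1 (by positivity : 0 ≤ (A + B + |x| + |y| + 1) * |x|)
  have a2 := mul_le_mul_of_nonneg_right e1 (by positivity : 0 ≤ (A + B + |x| + |y| + 1) * |y|)
  have a3 := (abs_le.1 h1).2
  have a4 := (abs_le.1 h2).2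
  rw [← sq_abs x, ← sq_abs y] at *
  nlinarith [sq_nonneg (A - |x|), sq_nonneg (A - |y|), sq_nonneg (B - |x|), sq_nonneg (B - |y|),
    sq_nonneg (|x| - 1), sq_nonneg (|y| - 1), sq_nonneg (|x| - |y|)]

theorem sc_main {u c e Z Y w ν l : ℝ} (c0 : 0 ≤ c) (e0 : 0 ≤ e) (l0 : 0 ≤ l) (ν0 : 0 ≤ ν) (Z0 : 0 ≤ Z)
    (hu : u ≤ c * ν) (hZ : Z ^ 2 ≤ 5 * Y) (Y1 : 1 ≤ Y) :
    u * (e * (8000 * Z * |w| + 5400 * (3 * ν))) + 4 * ((|w| + 8 * (3 * ν)) * (48 * (l * ν))) ≤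
      40000 * (c * e) * (w ^ 2 + ν ^ 2 * Y) + 4800 * l * (w ^ 2 + ν ^ 2) := by
  have a1 := mul_le_mul_of_nonneg_right hu (by positivity : 0 ≤ e * (8000 * Z * |w| + 5400 * (3 * ν)))
  have a2 : ν * (8000 * Z * |w| + 5400 * (3 * ν)) ≤ 40000 * (w ^ 2 + ν ^ 2 * Y) := by
    rw [← sq_abs w]
    nlinarith [sq_nonneg (ν * Z - |w|), mul_le_mul_of_nonneg_left hZ (sq_nonneg ν),
      mul_le_mul_of_nonneg_left Y1 (sq_nonneg ν), sq_nonneg |w|, sq_nonneg ν]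
  have a3 : 192 * ((|w| + 24 * ν) * ν) ≤ 4800 * (w ^ 2 + ν ^ 2) := by
    rw [← sq_abs w]; nlinarith [sq_nonneg (ν - |w|), sq_nonneg |w|, sq_nonneg ν]
  nlinarith [mul_le_mul_of_nonneg_left a2 (mul_nonneg c0 e0), mul_le_mul_of_nonneg_left a3 l0]

namespace Hx

variable {x f1 f2 : Vn n} {G : Mn n} {χ X κ η C g T0 τ : ℝ} (H : Hx o x f1 f2 χ X κ η C)
  (W : Hw o x f1 f2 G χ κ η C g T0 τ) (sm : 80000 * C * η ≤ 1)
include H sm

theorem sm0 : 1000 * C * η ≤ 1 := by nlinarith [mul_pos (zero_lt_one.trans_le H.C1) H.e0]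

theorem Fd_le {f : Vn n} (hf : f = f1 ∨ f = f2) {ω : Vn n} (hω : Sph o ω) (s : Cube n) :
    |Fd o x f1 f2 f s ω| ≤ 30 * n := by
  unfold Fd ph
  split_ifs with hs
  · rw [one_mul]; exact H.De_le (H.sm0 sm) hs hω hf
  · rw [zero_mul, abs_zero]; positivity

include W

theorem v9 (v : Vn n) : v ⬝ᵥ v ≤ (3 * nG G v) ^ 2 := by
  have pg := PG.of_hw W
  have h1 := pg.cs2 v ((A0 o + Bp x f1 f2) *ᵥ v)
  rw [mulVec_mulVec, mul_eq_one_comm.1 W.inv, one_mulVec, dotProduct_comm (_ *ᵥ v) v] at h1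
  have h2 := H.M_form (H.sm0 sm) v
  rw [mul_pow, pg.nG_sq]
  rcases (dot_self_nonneg v).eq_or_lt with e | e
  · rw [← e]; exact mul_nonneg (by norm_num) (pg.nn v)
  · exact le_of_mul_le_mul_right (by nlinarith [mul_le_mul_of_nonneg_left h2 (pg.nn v)]) e

theorem kG : κ ^ 2 * (f1 ⬝ᵥ G *ᵥ f1) ≤ C := by
  have h1 := (PG.of_hw W).up f1
  rw [H.n1, mul_one] at h1
  refine (mul_le_mul_of_nonneg_left h1 (sq_nonneg κ)).trans ?_
  rw [← div_eq_mul_inv, div_le_iff₀ W.g0]; exact W.kg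

theorem nG_crude {f : Vn n} (hf : f = f1 ∨ f = f2) : nG G f ≤ C * n := by
  have C1 := H.C1
  have n1 := H.n_ge (H.sm0 sm)
  have pg := PG.of_hw W
  have a : (1 : ℝ) ≤ C * n := by nlinarith
  refine le_of_sq (by linarith) (le_trans ?_ (by nlinarith : C * n ≤ (C * n) ^ 2))
  rw [pg.nG_sq]
  rcases hf with e | e <;> rw [e]
  · nlinarith [mul_le_mul_of_nonneg_left (H.kn' (H.sm0 sm)) (pg.nn f1),
      mul_le_mul_of_nonneg_right (H.kG W sm) (Nat.cast_nonneg (α := ℝ) n)]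
  · nlinarith [W.G2]

variable {Bd : Cube n → Vn n → ℝ} (B0 : ∀ s ξ, 0 ≤ Bd s ξ)
  (B1 : ∀ s ω, Sph o ω → ¬ Gd o x f1 f2 G X κ η T0 s (Mj.xp o s ω) → 1 ≤ Bd s (Mj.xp o s ω))
  {c1 c2 : Vn n} {α1 β1 α2 β2 : ℝ} (D1 : Du x f1 f2 κ η f1 c1 1 0 α1 β1 κ)
  (D2 : Du x f1 f2 κ η f2 c2 0 1 α2 β2 1)
include B0 B1 D1 D2

theorem pw_de (s : Cube n) {ω : Vn n} (hω : Sph o ω) : Fd o x f1 f2 f1 s ω ^ 2 + Fd o x f1 f2 f2 s ω ^ 2 ≤
    -2 * Ps o c1 (Fd o x f1 f2 f1) s ω + -2 * Ps o c2 (Fd o x f1 f2 f2) s ω +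
      (κ ^ 2 * (f1 ⬝ᵥ Mj.xp o s ω) ^ 2 + (f2 ⬝ᵥ Mj.xp o s ω) ^ 2 + 913 + 3000 * n ^ 3 * Bd s (Mj.xp o s ω)) := by
  have s0 := H.sm0 sm
  have n1 := H.n_ge s0
  have := B0 s (Mj.xp o s ω)
  by_cases gd : Gd o x f1 f2 G X κ η T0 s (Mj.xp o s ω)
  · have h := sc_de (mul_nonneg H.k0.le (abs_nonneg _)) (abs_nonneg _) (by linarith)
      (H.de_gd s0 hω gd D1 (.inl rfl)) (H.de_gd s0 hω gd D2 (.inr rfl))
    rw [mul_pow, sq_abs, sq_abs] at h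
    simp only [Fd, ph_one (H.gd_z s0 hω gd).1, one_mul]
    exact h.trans (add_le_add le_rfl (le_add_of_nonneg_right (by positivity)))
  · have a1 := H.Fd_le sm (.inl rfl) hω
    have a2 := H.Fd_le sm (.inr rfl) hω
    have b1 := (abs_le.1 (Ps_crude (o := o) (H.c3 D1) a1 s)).2
    have b2 := (abs_le.1 (Ps_crude (o := o) (H.c3 D2) a2 s)).2
    have a3 := pow_le_pow_left₀ (abs_nonneg _) (a1 s) 2
    have a4 := pow_le_pow_left₀ (abs_nonneg _) (a2 s) 2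
    rw [sq_abs] at a3 a4
    have a5 := mul_le_mul_of_nonneg_left (B1 s ω hω gd) (by positivity : (0 : ℝ) ≤ 3000 * n ^ 3)
    have : 0 ≤ κ ^ 2 * (f1 ⬝ᵥ Mj.xp o s ω) ^ 2 + (f2 ⬝ᵥ Mj.xp o s ω) ^ 2 := by positivity
    nlinarith [mul_le_mul_of_nonneg_left (by linarith : (1 : ℝ) ≤ n) (sq_nonneg (n : ℝ))]

variable {a L : ℝ} (ha : 0 < a) (hL : 0 ≤ L) (hL2 : (1 + o.p ⬝ᵥ G *ᵥ o.p / a) ^ 3 ≤ L ^ 2 * a) (v : Vn n)
include ha hL hL2

theorem pw (s : Cube n) {ω : Vn n} (hω : Sph o ω) :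
    |ph o s * Xi o x f1 f2 G a v s (Mj.xp o s ω) +
      Ps o c1 (fun s ω => (v ⬝ᵥ Mj.xp o s ω) * (f1 ⬝ᵥ Uv G o.p a v (Mj.xp o s ω))) s ω +
      Ps o c2 (fun s ω => (v ⬝ᵥ Mj.xp o s ω) * (f2 ⬝ᵥ Uv G o.p a v (Mj.xp o s ω))) s ω| ≤
    (80000 * ((3 + o.p ⬝ᵥ G *ᵥ o.p / a) * C ^ 2 * η) + 9600 * (L / g)) * (v ⬝ᵥ Mj.xp o s ω) ^ 2 +
      80000 * ((3 + o.p ⬝ᵥ G *ᵥ o.p / a) * C ^ 2 * η) * (v ⬝ᵥ G *ᵥ v) * Zq o x f1 f2 κ s ω +
      9600 * (L / g) * (v ⬝ᵥ G *ᵥ v) +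
      500 * ((3 + o.p ⬝ᵥ G *ᵥ o.p / a) * C * n ^ 3) * (v ⬝ᵥ G *ᵥ v) * Bd s (Mj.xp o s ω) := by
  obtain ⟨_, _, _, F⟩ := H.fr
  have pg := PG.of_hw W
  have s0 := H.sm0 sm
  have n1 := H.n_ge s0
  have C1 := H.C1
  have e0 := H.e0
  have k0 := H.k0
  have g0 := W.g0
  have b0 := B0 s (Mj.xp o s ω)
  have c0 : 0 ≤ 3 + o.p ⬝ᵥ G *ᵥ o.p / a := by have := div_nonneg (pg.nn o.p) ha.le; linarith
  have ν0 := nG_nn G v
  have hv := H.v9 W sm v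
  have Y1 : 1 ≤ Zq o x f1 f2 κ s ω := le_add_of_nonneg_left (by positivity)
  have eX : Xi o x f1 f2 G a v s (Mj.xp o s ω) = (f1 ⬝ᵥ Uv G o.p a v (Mj.xp o s ω)) * ((v ⬝ᵥ Mj.xp o s ω) *
      (f1 ⬝ᵥ De o x f1 f2 s (Mj.xp o s ω)) + NN o v f1 s (Mj.xp o s ω)) + (f2 ⬝ᵥ Uv G o.p a v (Mj.xp o s ω)) *
      ((v ⬝ᵥ Mj.xp o s ω) * (f2 ⬝ᵥ De o x f1 f2 s (Mj.xp o s ω)) + NN o v f2 s (Mj.xp o s ω)) := by
    simp only [Xi, H.Qdot, NN]; ring
  rw [← pg.nG_sq v]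
  generalize hc : 3 + o.p ⬝ᵥ G *ᵥ o.p / a = cp at *
  by_cases gd : Gd o x f1 f2 G X κ η T0 s (Mj.xp o s ω)
  · have hs := (H.gd_z s0 hω gd).1
    have hU : ∀ f, (f = f1 ∨ f = f2) → ∀ i b, 0 ≤ b → Qm o i i = b ^ 2 →
        |f ⬝ᵥ Uv G o.p a v (Mj.xp o s ω) - f ⬝ᵥ Uv G o.p a v (Mj.xp o (fl i s) ω)| ≤
          2 * (48 * (L / g * nG G v) * b) := fun f hf i b b0 hb => by
      rw [← dotProduct_sub]
      refine (u2 pg ha hL hL2 v _ _ f).trans ((mul_le_mul_of_nonneg_left (mul_le_mul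
        (mul_le_mul_of_nonneg_left (nG_le pg zero_le_one (H.f_sq hf)) ν0) (nG_le pg (y := 8 * b) (by linarith)
          ((F.dxp H.ok hs hω i).trans (by rw [hb]; nlinarith))) (nG_nn _ _) (by positivity))
            (by positivity)).trans_eq ?_)
      linear_combination 96 * L * nG G v * b * Real.mul_self_sqrt (inv_pos.2 g0).le
    have hZ : Zz o x f1 f2 κ s (Mj.xp o s ω) ^ 2 ≤ 5 * Zq o x f1 f2 κ s ω := by
      simp only [Zz, Zq, Fd, ph_one hs, one_mul]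
      rw [← sq_abs (f1 ⬝ᵥ Mj.xp o s ω), ← sq_abs (f2 ⬝ᵥ Mj.xp o s ω), ← sq_abs (f1 ⬝ᵥ De o x f1 f2 s _),
        ← sq_abs (f2 ⬝ᵥ De o x f1 f2 s _), ← mul_pow]
      generalize κ * |f1 ⬝ᵥ Mj.xp o s ω| = p
      generalize |f2 ⬝ᵥ Mj.xp o s ω| = q
      generalize |f1 ⬝ᵥ De o x f1 f2 s _| = r
      generalize |f2 ⬝ᵥ De o x f1 f2 s _| = t
      nlinarith [sq_nonneg (p - q), sq_nonneg (p - r), sq_nonneg (p - t), sq_nonneg (p - 1), sq_nonneg (q - r),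
        sq_nonneg (q - t), sq_nonneg (q - 1), sq_nonneg (r - t), sq_nonneg (r - 1), sq_nonneg (t - 1)]
    have uσ : ∀ f σ, 0 ≤ σ → σ ^ 2 * (f ⬝ᵥ G *ᵥ f) ≤ C → |f ⬝ᵥ Uv G o.p a v (Mj.xp o s ω)| * σ ≤ cp * C * nG G v :=
      fun f σ σ0 h => by
        have a1 : σ * nG G f ≤ C := le_of_sq (by linarith) (by rw [mul_pow, pg.nG_sq]; nlinarith)
        have a2 := mul_le_mul_of_nonneg_right (hc ▸ u1 pg ha v (Mj.xp o s ω) f) σ0
        nlinarith [mul_le_mul_of_nonneg_left a1 (mul_nonneg c0 ν0)]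
    have sc := fun u hu => sc_main (u := u) (c := cp * C) (e := C * η) (l := L / g) (w := v ⬝ᵥ Mj.xp o s ω)
      (by positivity) (by positivity) (by positivity) ν0 (by unfold Zz; positivity) hu hZ Y1
    have m1 := (H.main s0 hω gd D1 (by linarith) hv (U := fun s ω => f1 ⬝ᵥ Uv G o.p a v (Mj.xp o s ω))
      (by positivity) (hU f1 (.inl rfl))).trans (sc _ (uσ f1 κ k0.le (H.kG W sm)))
    have m2 := (H.main s0 hω gd D2 (by linarith) hv (U := fun s ω => f2 ⬝ᵥ Uv G o.p a v (Mj.xp o s ω))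
      (by positivity) (hU f2 (.inr rfl))).trans (sc _ (uσ f2 1 zero_le_one (by linarith [W.G2])))
    rw [ph_one hs, one_mul, eX]
    refine le_trans (le_of_eq (by congr 1; ring)) ((ad m1 m2).trans ?_)
    have : 0 ≤ 500 * (cp * C * n ^ 3) * nG G v ^ 2 * Bd s (Mj.xp o s ω) := by positivity
    linarith
  · have w1 : ∀ s, |v ⬝ᵥ Mj.xp o s ω| ≤ 3 * nG G v * (2 * n) := fun s =>
      adot (by linarith) (by linarith) hv ((xp_crude H.ok H.p_le hω s).trans (by nlinarith))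
    have u1' : ∀ f, (f = f1 ∨ f = f2) → ∀ s, |f ⬝ᵥ Uv G o.p a v (Mj.xp o s ω)| ≤ cp * (nG G v * (C * n)) :=
      fun f hf s => (hc ▸ u1 pg ha v (Mj.xp o s ω) f).trans (by gcongr; exact H.nG_crude W sm hf)
    have b1 := Ps_crude (o := o) (H.c3 D1) (F := fun s ω => (v ⬝ᵥ Mj.xp o s ω) * (f1 ⬝ᵥ Uv G o.p a v (Mj.xp o s ω)))
      (fun s => am (w1 s) (u1' f1 (.inl rfl) s)) s
    have b2 := Ps_crude (o := o) (H.c3 D2) (F := fun s ω => (v ⬝ᵥ Mj.xp o s ω) * (f2 ⬝ᵥ Uv G o.p a v (Mj.xp o s ω)))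
      (fun s => am (w1 s) (u1' f2 (.inr rfl) s)) s
    have b3 : |ph o s * Xi o x f1 f2 G a v s (Mj.xp o s ω)| ≤ 372 * (cp * C * n ^ 3 * nG G v ^ 2) := by
      unfold ph
      split_ifs with hs
      · have t := fun f hf => am (u1' f hf s) (ad (am (w1 s) (H.De_le s0 hs hω hf))
          (H.NN_le s0 hs hω hf (by linarith) hv))
        rw [one_mul, eX]
        refine (ad (t f1 (.inl rfl)) (t f2 (.inr rfl))).trans ?_
        nlinarith [mul_le_mul_of_nonneg_left (by nlinarith : (1 : ℝ) ≤ n ^ 2)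
          (by positivity : 0 ≤ cp * C * n * nG G v ^ 2)]
      · rw [zero_mul, abs_zero]; positivity
    have a5 := mul_le_mul_of_nonneg_left (B1 s ω hω gd)
      (by positivity : (0 : ℝ) ≤ 500 * (cp * C * n ^ 3) * nG G v ^ 2)
    refine (ad (ad b3 b1) b2).trans (le_trans ?_ (le_add_of_nonneg_left (by positivity)))
    have : 0 ≤ cp * C * n ^ 3 * nG G v ^ 2 := by positivity
    linarith

end Hx

/-- **the cube step** -/
theorem cuStmt : CuStmt := by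
  refine ⟨300000000, by norm_num, fun n k o μ _ x f1 f2 G χ X κ η C g T0 τ δ a L ka Bd hμ H W hK ha hL hL2 cB B0 B1
    hδ ka0 hka v => ?_⟩
  have C1 := H.C1
  have e0 := H.e0
  have g0 := W.g0
  have sm : 80000 * C * η ≤ 1 := by nlinarith [mul_pos (zero_lt_one.trans_le C1) e0]
  obtain ⟨⟨c1, α1, β1, D1⟩, c2, α2, β2, D2⟩ := H.exists_du (H.sm1 (H.sm0 sm))
  have pg := PG.of_hw W
  have cU := cont_Uv (G := G) ha o.p v
  have cB' : ∀ s, Continuous (Bd s) := cB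
  have P := pfP hμ H.ok
  have δ0 : 0 ≤ δ := (P.nonneg (fun s => by fun_prop) fun s ω _ => B0 s _).trans hδ
  have p1 := cf_Ps (o := o) c1 (cont_Fd (o := o) x f1 f2 f1)
  have p2 := cf_Ps (o := o) c2 (cont_Fd (o := o) x f1 f2 f2)
  have q1 := cf_Ps (o := o) c1 (F := fun s ω => (v ⬝ᵥ xp o s ω) * (f1 ⬝ᵥ Uv G o.p a v (xp o s ω))) fun s => by
    fun_prop
  have q2 := cf_Ps (o := o) c2 (F := fun s ω => (v ⬝ᵥ xp o s ω) * (f2 ⬝ᵥ Uv G o.p a v (xp o s ω))) fun s => by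
    fun_prop
  have cX : ∀ s, Continuous fun ω => ph o s * Xi o x f1 f2 G a v s (xp o s ω) := fun s => by
    unfold Xi; fun_prop
  unfold CF at p1 p2 q1 q2
  have k1 := (mul_le_mul_of_nonneg_left (hka f1) (sq_nonneg κ)).trans (by
    nlinarith [mul_le_mul_of_nonneg_left (H.kG W sm) ka0] : _ ≤ C * ka)
  have k2 := (hka f2).trans (by nlinarith [mul_le_mul_of_nonneg_left W.G2 ka0] : _ ≤ C * ka)
  have hD := P.mono (fun s => by fun_prop) (fun s => by fun_prop) fun s ω hω => H.pw_de W sm B0 B1 D1 D2 s hω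
  have hZ : pe o μ (Zq o x f1 f2 κ) ≤ 3000 * C * (1 + ka + n ^ 3 * δ) := by
    unfold Zq
    repeat rw [P.add (fun s => by fun_prop) fun s => by fun_prop] at hD
    repeat rw [P.add (fun s => by fun_prop) fun s => by fun_prop]
    simp only [P.mul, P.one, pe_Ps] at hD ⊢
    have : 0 ≤ (n : ℝ) ^ 3 * δ := by positivity
    nlinarith [mul_le_mul_of_nonneg_left hδ (by positivity : (0 : ℝ) ≤ n ^ 3), mul_nonneg (sub_nonneg.2 C1) this,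
      mul_nonneg (zero_le_one.trans C1) ka0]
  have h := pe_abs_le hμ H.ok (fun s => by fun_prop) (fun s => by fun_prop)
    fun s ω hω => H.pw W sm B0 B1 D1 D2 ha hL hL2 v s hω
  repeat rw [P.add (fun s => by fun_prop) fun s => by fun_prop] at h
  simp only [P.mul, P.one, pe_Ps, add_zero] at h
  have c0 : 0 ≤ 3 + o.p ⬝ᵥ G *ᵥ o.p / a := by have := div_nonneg (pg.nn o.p) ha.le; linarith
  have γ0 := pg.nn v
  have hw := hka v
  generalize 3 + o.p ⬝ᵥ G *ᵥ o.p / a = cp at *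
  generalize v ⬝ᵥ G *ᵥ v = γ at *
  have l0 : 0 ≤ L / g := by positivity
  generalize L / g = l at *
  refine h.trans ((add_le_add (add_le_add (add_le_add (mul_le_mul_of_nonneg_left hw (by positivity))
    (mul_le_mul_of_nonneg_left hZ (by positivity))) le_rfl) (mul_le_mul_of_nonneg_left hδ (by positivity))).trans ?_)
  have a1 : 0 ≤ cp * C ^ 2 * η * γ * ka := by positivity
  have a2 := mul_le_mul_of_nonneg_left C1 a1
  have : 0 ≤ cp * C ^ 3 * η * γ := by positivity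
  have : 0 ≤ cp * C ^ 3 * η * γ * (n ^ 3 * δ) := by positivity
  have : 0 ≤ l * γ := by positivity
  have : 0 ≤ l * γ * ka := by positivity
  have : 0 ≤ l * γ * (n ^ 3 * δ) := by positivity
  have : 0 ≤ cp * C * n ^ 3 * δ * γ := by positivity
  linarith

end Crest.Agent.T157.O4c
end
end

-- ▼ part T157/O4dDef_42
section

set_option autoImplicit false
set_option linter.unusedSectionVars false

/-!
Row 157, A2 section 4 (helper42): the cube step of (M1), words and leaves.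
-/

noncomputable section

namespace Crest.Agent.T157.O4c.B42

open MeasureTheory Matrix Crest.Agent.Lib.OrthPoinc Real
open Crest.Agent.T157.Oc Crest.Agent.T157.E Crest.Agent.T157.Od Crest.Agent.T157.Oo
open Crest.Agent.T157.Mj Crest.Agent.T157.M4

variable {n k : ℕ}


/-- **(S)** facts on `x` -/
structure Sx (o : Oo.Orb n k) (x f1 f2 : Vn n) (X κ η : ℝ) : Prop where
  d1 : 1 / 2 ≤ Dq x f1 f1 ∧ Dq x f1 f1 ≤ 1
  be : |Dq x f1 f2| ≤ κ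
  s1 : ∑ i, |f1 i| * Qm o i i ≤ 10 * η * κ
  s2 : ∑ i, |f2 i| * Qm o i i ≤ 10 * √η
  pX : o.p ⬝ᵥ o.p ≤ X ^ 2
  Xn : X ≤ η * κ ^ 2 * n
  kn : 1 ≤ κ ^ 3 * n

def SxStmt : Prop := ∀ (n k : ℕ) (o : Oo.Orb n k) (x f1 f2 : Vn n) (χ X κ η C : ℝ),
  Hx o x f1 f2 χ X κ η C → 1000 * C ^ 2 * η ≤ 1 → Sx o x f1 f2 X κ η





end Crest.Agent.T157.O4c.B42
end
end

-- ▼ part T157/O4dC_42
section

set_option autoImplicit false
set_option linter.unusedSectionVars false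

/-!
Row 157, A2 section 4 (helper42): deterministic bounds for the cube step of (M1).
-/

noncomputable section

namespace Crest.Agent.T157.O4c.B42

open MeasureTheory Matrix Crest.Agent.Lib.OrthPoinc Real
open Crest.Agent.T157.Oc Crest.Agent.T157.E Crest.Agent.T157.Od Crest.Agent.T157.Oo
open Crest.Agent.T157.Mj Crest.Agent.T157.M4

variable {n k : ℕ}

/-- `c - (k - 1) / R²` -/
def kp (o : Oo.Orb n k) (s : Cube n) (ξ : Vn n) : ℝ := cc o s ξ - (k - 1) / R2 o s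

theorem add_le {u v : Vn n} {a b : ℝ} (ha : 0 ≤ a) (hb : 0 ≤ b) (hu : u ⬝ᵥ u ≤ a ^ 2)
    (hv : v ⬝ᵥ v ≤ b ^ 2) : (u + v) ⬝ᵥ (u + v) ≤ (a + b) ^ 2 := by
  have := (abs_le.1 (abs_dot_le ha hb hu hv)).2
  simp only [add_dotProduct, dotProduct_add, dotProduct_comm v u]
  linarith
theorem abs_sv (s : Cube n) (i : Fin n) : |sv s i| = 1 := by
  have := sv_sq i s
  rw [← sq, ← sq_abs] at this
  nlinarith [abs_nonneg (sv s i)]

/-- the standing hypotheses -/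
structure Cx (o : Oo.Orb n k) (x f1 f2 : Vn n) (G : Mn n) (χ X κ η C g T0 τ : ℝ) : Prop where
  hx : Hx o x f1 f2 χ X κ η C
  hw : Hw o x f1 f2 G χ κ η C g T0 τ
  hs : Sx o x f1 f2 X κ η
  he : 1000 * C ^ 2 * η ≤ 1

namespace Cx

variable {o : Oo.Orb n k} {x f1 f2 : Vn n} {G : Mn n} {χ X κ η C g T0 τ : ℝ}
  (h : Cx o x f1 f2 G χ X κ η C g T0 τ)
include h

theorem ok : o.Ok := h.hx.ok
theorem pg : PG G g⁻¹ := PG.of_hw h.hw
theorem e0 : 0 < η := h.hx.k0.trans_le h.hx.ke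
theorem e1 : η ≤ 1 / 1000 := by
  have := h.he; have := h.e0; have := one_le_pow₀ (n := 2) h.hx.C1; nlinarith
theorem k1 : κ ≤ 1 / 1000 := h.hx.ke.trans h.e1
theorem n1 : (1000 : ℝ) ≤ n := by
  have h1 := h.hs.kn; have := h.k1; have := h.hx.k0
  have h2 : κ ^ 3 ≤ 1 / 1000 := (pow_le_of_le_one (by linarith) (by linarith) (by norm_num)).trans h.k1
  nlinarith [mul_le_mul_of_nonneg_right h2 (Nat.cast_nonneg (α := ℝ) n)]
theorem Qvec (v : Vn n) : Qm o *ᵥ v = (f1 ⬝ᵥ v) • f1 + (f2 ⬝ᵥ v) • f2 := by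
  rw [h.hx.hq, add_mulVec, vecMulVec_mulVec, vecMulVec_mulVec]
  ext i; simp [mul_comm]
theorem two (a b : ℝ) : (a • f1 + b • f2) ⬝ᵥ (a • f1 + b • f2) = a ^ 2 + b ^ 2 := by
  simp only [add_dotProduct, dotProduct_add, smul_dotProduct, dotProduct_smul, smul_eq_mul, h.hx.n1,
    h.hx.n2, h.hx.o12, dotProduct_comm f2 f1]
  ring
theorem Bvec (y : Vn n) : Bp x f1 f2 *ᵥ y = (-(Dq x f1 f2 * (f2 ⬝ᵥ y - Dq x f1 f2 * (f1 ⬝ᵥ y)))) • f1 +
    (-(Dq x f1 f2 * (f1 ⬝ᵥ y))) • f2 := by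
  rw [Bp, sub_mulVec, vecMulVec_mulVec, vecMulVec_mulVec, sub_dotProduct, smul_dotProduct]
  ext i; simp; ring
theorem PB (y : Vn n) : Pm o *ᵥ (Bp x f1 f2 *ᵥ y) = 0 := by
  have q : ∀ a b : ℝ, Qm o *ᵥ (a • f1 + b • f2) = a • f1 + b • f2 := fun a b => by
    rw [h.Qvec]
    simp only [dotProduct_add, dotProduct_smul, smul_eq_mul, h.hx.n1, h.hx.n2, h.hx.o12,
      dotProduct_comm f2 f1, mul_one, mul_zero, add_zero, zero_add]
  rw [h.Bvec, ← q, P_Q h.ok]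
theorem f1le {y : Vn n} {b : ℝ} (hb : 0 ≤ b) (hy : y ⬝ᵥ y ≤ b ^ 2) : |f1 ⬝ᵥ y| ≤ b ∧ |f2 ⬝ᵥ y| ≤ b := by
  have a1 := abs_dot_le zero_le_one hb (u := f1) (by rw [h.hx.n1]; norm_num) hy
  have a2 := abs_dot_le zero_le_one hb (u := f2) (by rw [h.hx.n2]; norm_num) hy
  rw [one_mul] at a1 a2; exact ⟨a1, a2⟩
theorem opA {y : Vn n} {b : ℝ} (hy : y ⬝ᵥ y ≤ b ^ 2) : A0 o *ᵥ y ⬝ᵥ A0 o *ᵥ y ≤ (6 * b) ^ 2 := by
  obtain ⟨_, _, _, f⟩ := h.hx.fr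
  have := f.opA h.ok y; nlinarith
theorem opH {y : Vn n} {b : ℝ} (hb : 0 ≤ b) (hy : y ⬝ᵥ y ≤ b ^ 2) :
    (A0 o + Bp x f1 f2) *ᵥ y ⬝ᵥ (A0 o + Bp x f1 f2) *ᵥ y ≤ (9 * b) ^ 2 := by
  obtain ⟨a1, a2⟩ := h.f1le hb hy
  have hβ : |Dq x f1 f2| ≤ 1 := h.hs.be.trans (by linarith [h.k1])
  have a3 : |Dq x f1 f2 * (f1 ⬝ᵥ y)| ≤ b := by rw [abs_mul]; nlinarith [abs_nonneg (f1 ⬝ᵥ y)]
  have a4 : |Dq x f1 f2 * (f2 ⬝ᵥ y - Dq x f1 f2 * (f1 ⬝ᵥ y))| ≤ 2 * b := by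
    have := abs_sub (f2 ⬝ᵥ y) (Dq x f1 f2 * (f1 ⬝ᵥ y))
    rw [abs_mul]; nlinarith [abs_nonneg (f2 ⬝ᵥ y - Dq x f1 f2 * (f1 ⬝ᵥ y))]
  have hB : Bp x f1 f2 *ᵥ y ⬝ᵥ Bp x f1 f2 *ᵥ y ≤ (3 * b) ^ 2 := by
    rw [h.Bvec, h.two, neg_sq, neg_sq]
    nlinarith [sq_le_sq' (abs_le.1 a3).1 (abs_le.1 a3).2, sq_le_sq' (abs_le.1 a4).1 (abs_le.1 a4).2]
  rw [add_mulVec]
  exact (add_le (by positivity) (by positivity) (h.opA hy) hB).trans_eq (by ring)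
theorem GH (y : Vn n) : G *ᵥ ((A0 o + Bp x f1 f2) *ᵥ y) = y := by
  rw [mulVec_mulVec, mul_eq_one_comm.1 h.hw.inv, one_mulVec]
theorem v9 (v : Vn n) : v ⬝ᵥ v ≤ (3 * nG G v) ^ 2 := by
  have h1 := h.pg.cs2 v ((A0 o + Bp x f1 f2) *ᵥ v)
  have h0 := sqrt_nonneg (v ⬝ᵥ v)
  have h2 := (abs_le.1 (abs_dot_le (by positivity) h0 (h.opH h0 (sq_sqrt (dsq v)).ge)
    (sq_sqrt (dsq v)).ge)).2
  rw [h.GH] at h1
  rw [mul_assoc, mul_self_sqrt (dsq v)] at h2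
  rw [mul_pow, h.pg.nG_sq]
  rcases (dsq v).eq_or_lt with e | e
  · rw [← e]; exact mul_nonneg (by norm_num) (h.pg.nn v)
  · exact le_of_mul_le_mul_right (by nlinarith [mul_le_mul_of_nonneg_left h2 (h.pg.nn v)]) e
theorem pabs (i : Fin n) : |o.p i| ≤ 1 := by
  obtain ⟨_, _, _, f⟩ := h.hx.fr
  rw [f.hp]; exact (abs_tanh_lt_one _).le
theorem sq_n {u : Vn n} {b : ℝ} (hu : ∀ i, |u i| ≤ b) : u ⬝ᵥ u ≤ (b * √n) ^ 2 := by
  rw [dot_self_eq_sq, mul_pow, sq_sqrt (Nat.cast_nonneg n)]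
  refine (Finset.sum_le_sum (g := fun _ => b ^ 2) fun i _ =>
    sq_le_sq' (abs_le.1 (hu i)).1 (abs_le.1 (hu i)).2).trans (by simp [mul_comm])
theorem sh_abs (s : Cube n) (i : Fin n) : |sh o s i| ≤ 2 := by
  have := abs_sub (sv s i) (o.p i)
  rw [abs_sv] at this
  exact this.trans (by linarith [h.pabs i])

variable {s : Cube n} {ω : Vn n} (hω : Mj.Sph o ω)
include hω

theorem xp_le : xp o s ω ⬝ᵥ xp o s ω ≤ (2 * √n) ^ 2 := by
  have h1 := pyth h.ok (sh o s)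
  rw [P_sh h.ok, dot_P, P_P h.ok, ← R2_eq] at h1
  rw [xp_sq hω, add_comm, ← h1]
  exact h.sq_n (h.sh_abs s)
theorem Q_xt : Qm o *ᵥ (xp o s ω + o.p) = Qm o *ᵥ sv s := by
  rw [mulVec_add, Q_xp h.ok hω, Qsh h.ok, Q_p h.ok, sub_add_cancel]
theorem xt_sq : (xp o s ω + o.p + o.p) ⬝ᵥ xp o s ω = n * χ := by
  have h1 := pyth h.ok (xp o s ω + o.p)
  rw [h.Q_xt hω, mulVec_add, P_p h.ok, add_zero, P_xp h.ok hω, smul_dotProduct, dotProduct_smul, hω.one,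
    smul_eq_mul, smul_eq_mul, mul_one, mul_self_sqrt (R2_nonneg s), ← Z2, R2_add h.ok] at h1
  rw [h.hx.chi, ← h1]
  simp only [add_dotProduct, dotProduct_add, dotProduct_comm o.p (xp o s ω)]; ring
theorem PU (a : ℝ) (v : Vn n) : Pm o *ᵥ Uv G o.p a v (xp o s ω) ⬝ᵥ xp o s ω =
    -(Qm o *ᵥ Uv G o.p a v (xp o s ω) ⬝ᵥ Qm o *ᵥ sv s) := by
  have h1 := u0 G o.p a v (xp o s ω)
  rw [← Pm_add_Qm (o := o) (xp o s ω + o.p), dotProduct_add, h.Q_xt hω, mulVec_add, P_p h.ok, add_zero,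
    dot_P] at h1
  rw [← dot_Q, Q_Q h.ok]; linarith


section
variable (hs : 4 * Z2 o s ≤ n)
include hs



end

end Cx

end Crest.Agent.T157.O4c.B42
end
end

-- ▼ part T157/O4dS_15
section

set_option autoImplicit false
set_option linter.unusedSectionVars false

/-!
Row 157, A2 section 4 (helper15): the facts on `x` used in the cube step of (M1).
-/

noncomputable section

namespace Crest.Agent.T157.O4c.B42

open MeasureTheory Matrix Crest.Agent.Lib.OrthPoinc Real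
open Crest.Agent.T157.Oc Crest.Agent.T157.E Crest.Agent.T157.Od Crest.Agent.T157.Oo
open Crest.Agent.T157.Mj

namespace S15

theorem th_x (x : ℝ) : tanh x ^ 2 ≤ x ^ 2 := sq_le_sq.2 (abs_th x)

theorem th_mx (x : ℝ) : tanh x ^ 2 ≤ mx x := le_min (th_x x) (tanh_sq_lt_one x).le

theorem th_lo {x : ℝ} (h : 1 ≤ |x|) : 1 ≤ 2 * tanh x ^ 2 := by
  have h1 : |x| ≤ |sinh x| := by rw [abs_sinh]; exact self_le_sinh_iff.2 (abs_nonneg x)
  have h2 : 1 ≤ sinh x ^ 2 := by rw [← sq_abs]; nlinarith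
  rw [tanh_eq_sinh_div_cosh, div_pow, cosh_sq', ← mul_div_assoc, le_div_iff₀ (by positivity)]
  linarith

theorem amgm {a b m t κ : ℝ} (hκ : 0 < κ) (t0 : 0 ≤ t) (ht : t ≤ m) :
    |t * (a * b)| ≤ (a ^ 2 * m ^ 2 / κ + κ * b ^ 2) / 2 := by
  rw [abs_mul, abs_of_nonneg t0, abs_mul, ← sq_abs a, ← sq_abs b, div_add' _ _ _ hκ.ne', div_div,
    le_div_iff₀ (by positivity)]
  nlinarith [sq_nonneg (|a| * m - κ * |b|), mul_le_mul_of_nonneg_right ht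
    (by positivity : 0 ≤ |a| * |b| * κ)]

end S15

open S15

theorem sxStmt : SxStmt := fun n k o x f1 f2 χ X κ η C h hη => by
  obtain ⟨_, _, _, F⟩ := h.fr
  have k0 := h.k0
  have X0 := h.X0
  have e0 : 0 < η := k0.trans_le h.ke
  have C2 : 1 ≤ C ^ 2 := one_le_pow₀ h.C1
  have e1 : η ≤ 1 / 1000 := by nlinarith
  have n1 : ∑ i, f1 i ^ 2 = 1 := by simpa only [dotProduct, sq] using h.n1
  have n2 : ∑ i, f2 i ^ 2 = 1 := by simpa only [dotProduct, sq] using h.n2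
  have hD : ∀ b : Vn n, ∑ i, b i ^ 2 = 1 → |Dq x f1 b - f1 ⬝ᵥ b| ≤ κ := fun b hb => by
    rw [Dq, dotProduct, ← Finset.sum_sub_distrib]
    refine (Finset.abs_sum_le_sum_abs _ _).trans ((Finset.sum_le_sum fun i _ =>
      (le_of_eq ?_).trans (amgm (a := f1 i) (b := b i) k0 (sq_nonneg _) (th_mx (x i)))).trans ?_)
    · rw [← abs_neg]; congr 1; ring
    · rw [← Finset.sum_div, Finset.sum_add_distrib, ← Finset.sum_div, ← Finset.mul_sum, hb]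
      have : (∑ i, f1 i ^ 2 * mx (x i) ^ 2) / κ ≤ κ := by rw [div_le_iff₀ k0]; linarith [h.m6]
      linarith
  have hQ : ∀ i, Qm o i i = f1 i ^ 2 + f2 i ^ 2 := fun i => by
    simp only [h.hq, Matrix.add_apply, vecMulVec_apply, sq]
  have lo : ∀ i, |x i| ≤ 1 → |f1 i| ≤ η * κ := fun i hi => by
    rw [h.hx, abs_mul, abs_of_pos X0] at hi
    exact le_of_mul_le_mul_left ((hi.trans h.big).trans_eq (mul_comm _ _)) X0
  have hi1 : ∀ i, 1 ≤ |x i| → mx (x i) = 1 := fun i hi =>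
    min_eq_right (by rw [← sq_abs]; nlinarith)
  have hi2 : ∀ i, 1 ≤ |x i| → |f1 i| ≤ κ := fun i hi => by
    have := (Finset.single_le_sum (f := fun i => f1 i ^ 2 * mx (x i) ^ 2) (fun _ _ => by positivity)
      (Finset.mem_univ i)).trans h.m6
    rw [hi1 i hi, one_pow, mul_one] at this
    exact abs_le_of_sq_le_sq' this k0.le |> abs_le.2
  have se : √η ^ 2 = η := sq_sqrt e0.le
  have s0 : 0 < √η := sqrt_pos.2 e0
  have hi3 : ∀ i, |f2 i| ≤ 2 * √η := fun i => by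
    refine abs_le.2 (abs_le_of_sq_le_sq' ?_ (by positivity))
    rw [mul_pow, se]
    rcases le_total |x i| 1 with hi | hi
    · have h1 : |f2 i| ≤ C * η := le_of_mul_le_mul_left ((h.f2 i).trans
        ((mul_le_mul_of_nonneg_left (lo i hi) (by linarith [h.C1])).trans_eq (by ring))) k0
      have h2 := pow_le_pow_left₀ (abs_nonneg _) h1 2
      rw [sq_abs] at h2
      nlinarith
    · have := (Finset.single_le_sum (f := fun i => f2 i ^ 2 * tanh (x i) ^ 2)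
        (fun _ _ => by positivity) (Finset.mem_univ i)).trans h.m2
      nlinarith [mul_le_mul_of_nonneg_left (th_lo hi) (sq_nonneg (f2 i))]
  have d1 := abs_le.1 (hD f1 n1)
  have d2 := hD f2 n2
  rw [h.o12, sub_zero] at d2
  rw [h.n1] at d1
  have b1 : 1 ≤ (η * κ * X) ^ 2 := one_le_pow₀ h.big
  have b2 := mul_le_mul_of_nonneg_left h.Xn (by positivity : 0 ≤ η * κ)
  refine ⟨⟨by linarith [h.ke], ?_⟩, d2, ?_, ?_, ?_, ?_, ?_⟩
  · rw [← h.n1]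
    exact Finset.sum_le_sum fun i _ =>
      mul_le_of_le_one_left (mul_self_nonneg _) (by linarith [sq_nonneg (tanh (x i))])
  · calc _ ≤ ∑ i, (η * κ * (f1 i ^ 2 + f2 i ^ 2) + κ * (f1 i ^ 2 * mx (x i) ^ 2 +
          2 * (f2 i ^ 2 * tanh (x i) ^ 2))) := Finset.sum_le_sum fun i _ => by
          rw [hQ]
          rcases le_total |x i| 1 with hi | hi
          · exact le_add_of_le_of_nonneg (mul_le_mul_of_nonneg_right (lo i hi) (by positivity))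
              (by positivity)
          · refine le_add_of_nonneg_of_le (by positivity)
              (mul_le_mul (hi2 i hi) ?_ (by positivity) k0.le)
            rw [hi1 i hi]
            linarith [mul_le_mul_of_nonneg_left (th_lo hi) (sq_nonneg (f2 i))]
      _ ≤ _ := by
          simp only [Finset.sum_add_distrib, ← Finset.mul_sum, n1, n2]
          have : κ ^ 2 ≤ η := by nlinarith [h.ke]
          nlinarith [h.m6, h.m2, mul_pos e0 k0]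
  · calc _ ≤ ∑ i, 2 * √η * (f1 i ^ 2 + f2 i ^ 2) := Finset.sum_le_sum fun i _ => by
          rw [hQ]; exact mul_le_mul_of_nonneg_right (hi3 i) (by positivity)
      _ ≤ _ := by
          simp only [Finset.sum_add_distrib, ← Finset.mul_sum, n1, n2]
          linarith
  · calc _ ≤ ∑ i, X ^ 2 * f1 i ^ 2 := Finset.sum_le_sum fun i _ => by
          rw [F.hp, ← sq, ← mul_pow, ← h.hx]; exact th_x _
      _ = _ := by rw [← Finset.mul_sum, n1, mul_one]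
  · nlinarith [mul_le_mul_of_nonneg_right h.big X0.le]
  · have b3 := mul_le_mul_of_nonneg_left b2 (by positivity : 0 ≤ η * κ)
    have b4 : η ^ 2 * (κ ^ 3 * n) ≤ κ ^ 3 * n :=
      mul_le_of_le_one_left (by positivity) (pow_le_one₀ e0.le (by linarith))
    linarith

end Crest.Agent.T157.O4c.B42

end
end

-- ▼ part T157/O4cCl_42
section

set_option autoImplicit false
set_option linter.unusedSectionVars false

/-!
Row 157, A2 section 4 (helper42): closing of (M1).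
-/

noncomputable section

namespace Crest.Agent.T157.O4c.B42

open MeasureTheory Matrix Crest.Agent.Lib.OrthPoinc Real
open Crest.Agent.T157.Oc Crest.Agent.T157.E Crest.Agent.T157.Od Crest.Agent.T157.Oo
open Crest.Agent.T157.Mj Crest.Agent.T157.M4

variable {n k : ℕ}

theorem boot {α : Type*} {e q : α → ℝ} (hq : ∀ u, 0 ≤ q u) {A ρ B : ℝ} (hA : 0 ≤ A) (hρ : 0 ≤ ρ)
    (hρ1 : ρ < 1) (hB : A + ρ * B ≤ B) (h0 : ∃ ka, 0 ≤ ka ∧ ∀ u, e u ≤ ka * q u)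
    (h1 : ∀ ka, 0 ≤ ka → (∀ u, e u ≤ ka * q u) → ∀ u, e u ≤ (A + ρ * ka) * q u) (u : α) :
    e u ≤ B * q u := by
  set T : Set ℝ := {ka | 0 ≤ ka ∧ ∀ u, e u ≤ ka * q u}
  have hb : BddBelow T := ⟨0, fun _ h => h.1⟩
  have a0 : 0 ≤ sInf T := le_csInf h0 fun _ h => h.1
  have a1 : ∀ u, e u ≤ sInf T * q u := fun u => by
    rcases (hq u).eq_or_lt with z | z
    · obtain ⟨ka, -, h⟩ := h0
      simpa [← z] using h u
    · exact (div_le_iff₀ z).1 (le_csInf h0 fun _ h => (div_le_iff₀ z).2 (h.2 u))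
  have a2 : sInf T ≤ A + ρ * sInf T := csInf_le hb ⟨by positivity, h1 _ a0 a1⟩
  exact (a1 u).trans (mul_le_mul_of_nonneg_right
    (le_of_mul_le_mul_left (a := 1 - ρ) (by linarith) (by linarith)) (hq u))

/-- the main terms -/
def Wv (o : Oo.Orb n k) (G : Mn n) (χ a : ℝ) (v ξ : Vn n) : ℝ :=
  th a (Sv G o.p ξ) * Sv G o.p ξ * (v ⬝ᵥ ξ) ^ 2 -
    (v ⬝ᵥ ξ) * (th a (Sv G o.p ξ) * uv G o.p v ξ) * (n * χ - G.trace) - v ⬝ᵥ Uv G o.p a v ξ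

namespace Cx

variable {o : Oo.Orb n k} {x f1 f2 : Vn n} {G : Mn n} {χ X κ η C g T0 τ : ℝ}
  (h : Cx o x f1 f2 G χ X κ η C g T0 τ)
include h

theorem T0p : 0 < T0 := by
  have := h.hw.T1
  by_contra h'; push Not at h'
  nlinarith [mul_nonneg_of_nonpos_of_nonpos h' (neg_nonpos.2 (sq_nonneg (η * g)))]
theorem g9 : g ≤ 9 := by
  have h1 := h.hw.co f1
  have h2 := (abs_le.1 (abs_dot_le zero_le_one (by norm_num) (u := f1) (by rw [h.hx.n1]; norm_num)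
    (h.opH zero_le_one (y := f1) (by rw [h.hx.n1]; norm_num)))).2
  rw [h.hx.n1] at h1; linarith
theorem tr_le : |n * χ - G.trace| ≤ n + n * g⁻¹ := by
  obtain ⟨_, _, _, f⟩ := h.hx.fr
  have e : ∀ i, G i i = Pi.single i 1 ⬝ᵥ G *ᵥ Pi.single i 1 := fun i => by simp
  have h1 : 0 ≤ G.trace := Finset.sum_nonneg fun i _ => (h.pg.nn _).trans_eq (e i).symm
  have h2 : G.trace ≤ n * g⁻¹ := (Finset.sum_le_sum (g := fun _ => g⁻¹) fun i _ =>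
    (e i).trans_le ((h.pg.up _).trans_eq (by simp))).trans (by simp)
  have hn := h.n1
  rw [abs_le]; constructor <;> nlinarith [f.lo, f.hi]

variable {s : Cube n} {ω : Vn n} (hω : Mj.Sph o ω)
include hω

theorem sp_xi (a : ℝ) (v : Vn n) : Sp o G a v s (xp o s ω) - Xi o x f1 f2 G a v s (xp o s ω) =
    Wv o G χ a v (xp o s ω) := by
  have h1 := h.PU (s := s) hω a v
  have h2 := h.xt_sq (s := s) hω
  have h3 : ∀ u w : Vn n, Qm o *ᵥ u ⬝ᵥ Qm o *ᵥ w = Qm o *ᵥ u ⬝ᵥ w := fun u w => by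
    rw [dot_Q, Q_Q h.ok]
  rw [Sp, Xi, Wv, De, h1, dotProduct_sub, dotProduct_smul, h3, h3]
  generalize xp o s ω = ξ at h2
  have h4 : Pm o *ᵥ Uv G o.p a v ξ ⬝ᵥ A0 o *ᵥ ξ = Pm o *ᵥ Uv G o.p a v ξ ⬝ᵥ (A0 o + Bp x f1 f2) *ᵥ ξ := by
    rw [add_mulVec, dotProduct_add, ← dot_P _ (Bp x f1 f2 *ᵥ ξ), h.PB, dotProduct_zero, add_zero]
  have h5 : ∀ w, Pm o *ᵥ Uv G o.p a v ξ ⬝ᵥ w = w ⬝ᵥ Uv G o.p a v ξ - Qm o *ᵥ Uv G o.p a v ξ ⬝ᵥ w :=
    fun w => by rw [Qm_vec, sub_dotProduct, dotProduct_comm w, sub_sub_cancel]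
  have h6 : (A0 o + Bp x f1 f2) *ᵥ ξ ⬝ᵥ Uv G o.p a v ξ = th a (Sv G o.p ξ) * Sv G o.p ξ * (v ⬝ᵥ ξ) -
      th a (Sv G o.p ξ) * uv G o.p v ξ * (n * χ) := by
    rw [dot_U, h.pg.sw, h.pg.sw ((A0 o + Bp x f1 f2) *ᵥ ξ), h.GH, dotProduct_comm ξ, dotProduct_comm ξ, h2]
  rw [h4, h5, h5 v, h6, smul_eq_mul]
  ring

theorem good4 (hg : Gd o x f1 f2 G X κ η T0 s (xp o s ω)) : 4 * Z2 o s ≤ n := by
  have e1 := h.e1; have k1 := h.k1; have e0 := h.e0; have k0 := h.hx.k0; have X0 := h.hx.X0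
  have a1 : |f1 ⬝ᵥ xp o s ω| ≤ X / 2 := hg.z1.trans (by nlinarith)
  have a2 : |f2 ⬝ᵥ xp o s ω| ≤ X / 2 := hg.z2.trans
    ((mul_le_mul_of_nonneg_right (show η * κ ≤ 1 / 2 by nlinarith) X0.le).trans_eq (by ring))
  have a3 : Qm o *ᵥ xp o s ω ⬝ᵥ Qm o *ᵥ xp o s ω ≤ X ^ 2 := by
    rw [h.Qvec, h.two]
    nlinarith [sq_le_sq' (abs_le.1 a1).1 (abs_le.1 a1).2, sq_le_sq' (abs_le.1 a2).1 (abs_le.1 a2).2]
  have a4 := add_le X0.le X0.le a3 h.hs.pX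
  have a5 := h.Q_xt (s := s) hω
  rw [mulVec_add, Q_p h.ok] at a5
  rw [a5, ← Z2] at a4
  nlinarith [h.hx.Xn, h.n1]

/-- the inequality on the good event -/
theorem pt_good {ε a : ℝ} (hε : 0 < ε) (ha : 0 < a) (ha2 : a ^ 2 = ε / 16 * T0 ^ 2)
    (hg : Gd o x f1 f2 G X κ η T0 s (xp o s ω)) (v : Vn n) :
    (1 - ε / 8) * (v ⬝ᵥ xp o s ω) ^ 2 ≤ Wv o G χ a v (xp o s ω) +
      (1 + 12 * C * τ ^ 2 / ε) * (v ⬝ᵥ G *ᵥ v) + (8 * T0)⁻¹ * (G *ᵥ v ⬝ᵥ xp o s ω) ^ 2 := by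
  have hS : T0 ≤ Sv G o.p (xp o s ω) := hg.tt
  have hT := h.T0p
  have hx := (h.pg.xm o.p (xp o s ω)).1
  have hu := h.pg.cs2 v (xp o s ω + o.p)
  rw [h.pg.nG_sq] at hx
  rw [h.pg.sw v, ← uv] at hu
  rw [Wv, dot_U, h.pg.sw v (xp o s ω + o.p + o.p)]
  have e1 : uv G o.p v (xp o s ω) = G *ᵥ v ⬝ᵥ xp o s ω + G *ᵥ v ⬝ᵥ o.p := dotProduct_add _ _ _
  have e2 : G *ᵥ v ⬝ᵥ (xp o s ω + o.p + o.p) = uv G o.p v (xp o s ω) + G *ᵥ v ⬝ᵥ o.p := dotProduct_add _ _ _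
  have hN := h.pg.nn v
  have hp := h.hw.pG
  have hC := h.hx.C1
  have htr := h.hw.tr
  have t1 := (thS ha (Sv G o.p (xp o s ω))).2
  rw [e2]
  generalize Sv G o.p (xp o s ω) = S at *
  generalize uv G o.p v (xp o s ω) = u at *
  generalize v ⬝ᵥ xp o s ω = f at *
  generalize v ⬝ᵥ G *ᵥ v = N at *
  generalize n * χ - G.trace = D at *
  have S0 : 0 < S := hT.trans_le hS
  have t0 : 0 ≤ th a S := by rw [th]; positivity
  have t2 : 1 - ε / 16 ≤ th a S * S := by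
    rw [th, div_mul_eq_mul_div, le_div_iff₀ (by positivity)]
    have : T0 ^ 2 ≤ S ^ 2 := by gcongr
    nlinarith [mul_le_mul_of_nonneg_left this hε.le, mul_nonneg hε.le (sq_nonneg a)]
  have t3 : th a S ≤ T0⁻¹ := by
    rw [inv_eq_one_div, le_div_iff₀ hT]; nlinarith [mul_le_mul_of_nonneg_left hS t0]
  rw [abs_of_pos S0] at hx
  have t4 : (th a S * u * D) ^ 2 ≤ 3 * C * τ ^ 2 * N := by
    have b1 : u ^ 2 ≤ N * (3 * C * S) := hu.trans (mul_le_mul_of_nonneg_left (by nlinarith) hN)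
    have b2 : th a S * T0 ≤ 1 := by nlinarith [mul_le_mul_of_nonneg_left hS t0]
    calc (th a S * u * D) ^ 2 = th a S ^ 2 * u ^ 2 * D ^ 2 := by ring
      _ ≤ th a S ^ 2 * (N * (3 * C * S)) * (τ ^ 2 * T0) := by gcongr
      _ = 3 * C * τ ^ 2 * N * ((th a S * S) * (th a S * T0)) := by ring
      _ ≤ 3 * C * τ ^ 2 * N * (1 * 1) := by gcongr
      _ = _ := by ring
  have t5 : f * (th a S * u) * D ≤ ε / 16 * f ^ 2 + 12 * C * τ ^ 2 / ε * N := by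
    have : 12 * C * τ ^ 2 / ε * N = 4 / ε * (3 * C * τ ^ 2 * N) := by ring
    have b : 4 / ε * (th a S * u * D) ^ 2 ≤ 4 / ε * (3 * C * τ ^ 2 * N) := by gcongr
    have c : 0 ≤ 4 / ε * (th a S * u * D - ε / 8 * f) ^ 2 := by positivity
    have d : 4 / ε * (th a S * u * D - ε / 8 * f) ^ 2 =
        4 / ε * (th a S * u * D) ^ 2 - f * (th a S * u) * D + ε / 16 * f ^ 2 := by field_simp; ring
    linarith
  have t6 : -(th a S * u * (u + G *ᵥ v ⬝ᵥ o.p)) ≤ (8 * T0)⁻¹ * (G *ᵥ v ⬝ᵥ xp o s ω) ^ 2 := by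
    have b : -(u * (u + G *ᵥ v ⬝ᵥ o.p)) ≤ 8⁻¹ * (G *ᵥ v ⬝ᵥ xp o s ω) ^ 2 := by
      rw [e1]; nlinarith [sq_nonneg (3 * (G *ᵥ v ⬝ᵥ xp o s ω) + 4 * (G *ᵥ v ⬝ᵥ o.p))]
    have c := mul_le_mul_of_nonneg_left b t0
    have d := mul_le_mul_of_nonneg_right t3 (sq_nonneg (G *ᵥ v ⬝ᵥ xp o s ω))
    rw [mul_inv]; nlinarith
  nlinarith [mul_le_mul_of_nonneg_right t2 (sq_nonneg f), mul_le_mul_of_nonneg_right t1 hN]

theorem f_sq (v : Vn n) : (v ⬝ᵥ xp o s ω) ^ 2 ≤ 36 * n * (v ⬝ᵥ G *ᵥ v) := by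
  refine (M4.cs _ _).trans ((mul_le_mul (h.v9 v) (h.xp_le hω) (dsq _) (sq_nonneg _)).trans_eq ?_)
  rw [mul_pow, mul_pow, h.pg.nG_sq, sq_sqrt (Nat.cast_nonneg n)]; ring

/-- the crude inequality -/
theorem pt_bad {a L : ℝ} (ha : 0 < a) (hL : 0 ≤ L) (hL2 : (1 + o.p ⬝ᵥ G *ᵥ o.p / a) ^ 3 ≤ L ^ 2 * a)
    (hl : L * g⁻¹ ≤ 1) (v : Vn n) :
    -((60 * n ^ 2 + 3 + o.p ⬝ᵥ G *ᵥ o.p / a) * (v ⬝ᵥ G *ᵥ v)) ≤ Wv o G χ a v (xp o s ω) := by
  obtain ⟨m, m0, h1, -, h3, -⟩ := h.pg.pt ha hL hL2 (xp o s ω)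
  have hv := nG_nn G v
  have hn := h.n1
  have g0 := h.hw.g0
  have a1 : |v ⬝ᵥ xp o s ω| ≤ 3 * nG G v * (2 * n) :=
    (abs_dot_le (by positivity) (by positivity) (h.v9 v) (h.xp_le hω)).trans (by
      gcongr; exact sqrt_le_self_iff.2 (Or.inr (by linarith)))
  have a2 : |th a (Sv G o.p (xp o s ω)) * uv G o.p v (xp o s ω)| ≤ L * nG G v := by
    have : |uv G o.p v (xp o s ω)| ≤ nG G v * m := (h.pg.cs' _ _).trans (by gcongr)
    rw [abs_mul]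
    nlinarith [mul_le_mul_of_nonneg_left this (abs_nonneg (th a (Sv G o.p (xp o s ω)))),
      mul_le_mul_of_nonneg_right h3 hv]
  have a3 : L ≤ 9 := by
    rw [← div_eq_mul_inv, div_le_one g0] at hl; exact hl.trans h.g9
  have a4 := (abs_le.1 (abs3 a1 a2 h.tr_le)).2
  have a5 := (abs_le.1 (u1 h.pg ha (p := o.p) v (xp o s ω) v)).2
  have a6 := mul_nonneg (thS ha (Sv G o.p (xp o s ω))).1 (sq_nonneg (v ⬝ᵥ xp o s ω))
  have a7 : 3 * nG G v * (2 * n) * (L * nG G v) * (n + n * g⁻¹) =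
      6 * n ^ 2 * nG G v ^ 2 * (L + L * g⁻¹) := by ring
  have a8 : 6 * n ^ 2 * nG G v ^ 2 * (L + L * g⁻¹) ≤ 6 * n ^ 2 * nG G v ^ 2 * 10 := by
    gcongr; linarith
  rw [Wv, ← h.pg.nG_sq v]
  linarith

end Cx

theorem nm1 {n δ : ℝ} (hn : 1000 ≤ n) (δ0 : 0 ≤ δ) : 100 * n ^ 2 * δ ≤ n ^ 3 * δ := by
  gcongr ?_ * _; nlinarith [sq_nonneg n]
theorem nm2 {g t η : ℝ} (g0 : 0 < g) (t0 : 0 < t) (e0 : 0 < η) (e1 : η ≤ 1 / 1000)
    (h : 1 ≤ (η * g) ^ 2 * t ^ 2) : (8 * t ^ 2)⁻¹ * g⁻¹ ^ 2 ≤ η := by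
  have : (8 * t ^ 2)⁻¹ * g⁻¹ ^ 2 = 1 / (8 * (g * t) ^ 2) := by field_simp
  rw [this, div_le_iff₀ (by positivity)]
  nlinarith [mul_nonneg (mul_nonneg e0.le (sq_nonneg (g * t))) (sub_nonneg.2 e1),
    mul_nonneg e0.le (sq_nonneg (g * t))]
theorem nm3 {e K y : ℝ} (e0 : 0 < e) (e1 : e ≤ 1) (K1 : 1 ≤ K) (hy : 0 ≤ y) :
    1 + e / 20 + 12 * y + e / 20 * (1 + e + 10 ^ 4 * K * y) ≤ (1 + e + 10 ^ 4 * K * y) * (1 - e / 8) := by
  have a1 := mul_le_mul_of_nonneg_right K1 hy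
  have a2 := mul_le_mul_of_nonneg_right e1 (mul_nonneg (by linarith : 0 ≤ K) hy)
  nlinarith
theorem nm4 {ι y : ℝ} (ι0 : 0 < ι) (ι1 : ι ≤ 1) (hy : y ≤ (ι ^ 2) ^ 2 / 10 ^ 4) : y / ι ≤ ι ^ 2 / 10 ^ 4 := by
  rw [div_le_iff₀ ι0]
  have : ι ^ 2 ≤ ι := by nlinarith
  nlinarith [mul_le_mul_of_nonneg_left this (sq_nonneg ι)]
theorem nm5 {l f a y : ℝ} (hl : 0 ≤ l) (h : y ≤ 1 * |f| * (25 * l * a)) : y ≤ 13 * l * (f ^ 2 + a ^ 2) := by
  rw [← sq_abs f]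
  nlinarith [mul_nonneg hl (sq_nonneg (|f| - a)), mul_nonneg hl (sq_nonneg |f|), mul_nonneg hl (sq_nonneg a)]

set_option maxHeartbeats 1000000 in
theorem clGlue : ClGlue := by
  rintro ⟨K, K1, hK⟩
  refine ⟨10 ^ 4 * K, ?_⟩
  intro n k o μ _ x f1 f2 G χ X κ η C g T0 τ ε δ Bd hμ hx hw e0 e1 hη hδ cB B0 hB hBδ
  have C1 := hx.C1
  have η0 : 0 < η := hx.k0.trans_le hx.ke
  have hε2 : ε ^ 2 ≤ ε := by nlinarith
  have hC4 : C ^ 2 ≤ C ^ 4 := pow_le_pow_right₀ C1 (by norm_num)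
  have hC2 : C ≤ C ^ 2 := le_self_pow₀ C1 (by norm_num)
  have hC1 : 1 ≤ C ^ 2 := C1.trans hC2
  have b1 : K * (C ^ 4 * η) ≤ ε ^ 2 / 10 ^ 4 := by rw [le_div_iff₀ (by norm_num)]; linarith
  have b1' : C ^ 4 * η ≤ ε ^ 2 / 10 ^ 4 := (le_mul_of_one_le_left (by positivity) K1).trans b1
  have b2 : C ^ 2 * η ≤ C ^ 4 * η := by gcongr
  have he : 1000 * C ^ 2 * η ≤ 1 := by linarith
  have h : Cx o x f1 f2 G χ X κ η C g T0 τ := ⟨hx, hw, sxStmt _ _ _ _ _ _ _ _ _ _ _ hx he, he⟩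
  have hn := h.n1
  have g0 := hw.g0
  have cBd : CF fun s ω => Bd s (xp o s ω) := fun s => (cB s).comp (cont_xp s)
  have δ0 : 0 ≤ δ := (pe_nonneg hμ h.ok cBd fun _ _ _ => B0 _ _).trans hBδ
  have b3 : K * (C ^ 2 * (n ^ 3 * δ)) ≤ ε ^ 2 / 10 ^ 4 := by rw [le_div_iff₀ (by norm_num)]; linarith
  have b3' : C ^ 2 * (n ^ 3 * δ) ≤ ε ^ 2 / 10 ^ 4 := (le_mul_of_one_le_left (by positivity) K1).trans b3
  obtain ⟨ι, ι0, rfl⟩ : ∃ ι, 0 < ι ∧ ε = ι ^ 2 := ⟨_, sqrt_pos.2 e0, (sq_sqrt e0.le).symm⟩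
  obtain ⟨t, t0, rfl⟩ : ∃ t, 0 < t ∧ T0 = t ^ 2 := ⟨_, sqrt_pos.2 h.T0p, (sq_sqrt h.T0p.le).symm⟩
  have ι1 : ι ≤ 1 := by nlinarith
  have ha : 0 < ι * t ^ 2 / 4 := by positivity
  set c := o.p ⬝ᵥ G *ᵥ o.p / (ι * t ^ 2 / 4) with hc
  have c0 : 0 ≤ c := div_nonneg (h.pg.nn _) ha.le
  have cι : 1 ≤ C / ι := (one_le_div ι0).2 (ι1.trans C1)
  have c1 : c ≤ 4 * (C / ι) := by
    rw [hc, div_le_iff₀ ha]
    exact hw.pG.trans_eq (by field_simp)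
  have hL : 0 ≤ 23 * C ^ 2 / (ι ^ 2 * t) := by positivity
  have hL2 : (1 + c) ^ 3 ≤ (23 * C ^ 2 / (ι ^ 2 * t)) ^ 2 * (ι * t ^ 2 / 4) := by
    refine (pow_le_pow_left₀ (by linarith) (by linarith : 1 + c ≤ 5 * (C / ι)) 3).trans ?_
    have : (23 * C ^ 2 / (ι ^ 2 * t)) ^ 2 * (ι * t ^ 2 / 4) = 529 / 4 * C * (C / ι) ^ 3 := by
      field_simp; ring
    rw [this, mul_pow]; gcongr; linarith
  have gt : 1 ≤ η * g * t := le_of_sq (by positivity) (by rw [one_pow, mul_pow]; exact hw.T1)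
  have l1 : K * (23 * C ^ 2 / (ι ^ 2 * t) * g⁻¹) ≤ 23 * ι ^ 2 / 10 ^ 4 := by
    have e : 23 * C ^ 2 / (ι ^ 2 * t) * g⁻¹ = 23 * C ^ 2 / ι ^ 2 / (g * t) := by field_simp
    have a1 : 23 * C ^ 2 / ι ^ 2 / (g * t) ≤ 23 * (C ^ 4 * η) / ι ^ 2 := by
      rw [div_le_iff₀ (by positivity)]
      calc _ = 23 * C ^ 2 / ι ^ 2 * 1 := (mul_one _).symm
        _ ≤ 23 * C ^ 4 / ι ^ 2 * (η * g * t) := by gcongr
        _ = _ := by ring
    rw [e]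
    calc _ ≤ K * (23 * (C ^ 4 * η) / ι ^ 2) := by gcongr
      _ = 23 * (K * (C ^ 4 * η)) / ι ^ 2 := by ring
      _ ≤ 23 * ((ι ^ 2) ^ 2 / 10 ^ 4) / ι ^ 2 := by gcongr
      _ = _ := by field_simp
  set L := 23 * C ^ 2 / (ι ^ 2 * t)
  have l2 : L * g⁻¹ ≤ 23 * ι ^ 2 / 10 ^ 4 := (le_mul_of_one_le_left (by positivity) K1).trans l1
  have d1 := nm4 ι0 ι1 b1
  have d2 := nm4 ι0 ι1 b3
  have m1 : K * ((3 + c) * C ^ 3 * η) ≤ 7 * ι ^ 2 / 10 ^ 4 := by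
    calc _ ≤ K * (7 * (C / ι) * C ^ 3 * η) := by gcongr; linarith
      _ = 7 * (K * (C ^ 4 * η) / ι) := by ring
      _ ≤ _ := by linarith
  have m2 : K * ((3 + c) * C * n ^ 3 * δ) ≤ 7 * ι ^ 2 / 10 ^ 4 := by
    calc _ ≤ K * (7 * (C / ι) * C * n ^ 3 * δ) := by gcongr; linarith
      _ = 7 * (K * (C ^ 2 * (n ^ 3 * δ)) / ι) := by ring
      _ ≤ _ := by linarith
  have m3 : (n : ℝ) ^ 3 * δ ≤ ι ^ 2 / 10 ^ 4 :=
    ((le_mul_of_one_le_left (by positivity) hC1).trans b3').trans (by linarith)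
  have m4 : (100 * n ^ 2 + 3 + c) * δ ≤ 8 * ι ^ 2 / 10 ^ 4 := by
    have a1 := nm1 hn δ0
    have a2 : (3 + c) * δ ≤ K * ((3 + c) * C * n ^ 3 * δ) := by
      have : 1 ≤ K * C * n ^ 3 := one_le_mul_of_one_le_of_one_le (one_le_mul_of_one_le_of_one_le K1 C1)
        (one_le_pow₀ (by linarith))
      linarith [mul_le_mul_of_nonneg_right this (mul_nonneg (by linarith : 0 ≤ 3 + c) δ0)]
    linarith
  have m5 : (8 * t ^ 2)⁻¹ * g⁻¹ ^ 2 ≤ ι ^ 2 / 10 ^ 4 := by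
    have a1 := nm2 g0 t0 η0 h.e1 hw.T1
    have a2 : η ≤ C ^ 2 * η := le_mul_of_one_le_left η0.le hC1
    linarith
  have hτ : 0 ≤ C * τ ^ 2 / ι ^ 2 := by positivity
  have hφ : ∀ s, ph o s = 0 ∨ 0 < R2 o s := fun s => by
    unfold ph; split_ifs with hs
    · right; linarith [R2_add h.ok s]
    · left; rfl
  refine boot (e := fun v => pe o μ fun s ω => (v ⬝ᵥ xp o s ω) ^ 2) (q := fun v => v ⬝ᵥ G *ᵥ v) h.pg.nn
    (A := (1 + ι ^ 2 / 20 + 12 * (C * τ ^ 2 / ι ^ 2)) / (1 - ι ^ 2 / 8))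
    (ρ := ι ^ 2 / 20 / (1 - ι ^ 2 / 8)) (div_nonneg (by positivity) (by linarith))
    (div_nonneg (by positivity) (by linarith)) ((div_lt_one (by linarith)).2 (by linarith)) ?_
    ⟨36 * n, by positivity, fun v => (pfP hμ h.ok).le_const (fun s => by fun_prop)
      fun s ω hω => h.f_sq hω v⟩ fun ka ka0 hka v => ?_
  · rw [div_mul_eq_mul_div, ← add_div, div_le_iff₀ (by linarith)]
    have e : 10 ^ 4 * K * C * τ ^ 2 / ι ^ 2 = 10 ^ 4 * K * (C * τ ^ 2 / ι ^ 2) := by ring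
    rw [e]; exact nm3 e0 e1 K1 hτ
  have hN := h.pg.nn v
  have q0 : K * C * η ≤ 1 := by
    linarith [mul_le_mul_of_nonneg_left (mul_le_mul_of_nonneg_right (hC2.trans hC4) η0.le)
      (by linarith : 0 ≤ K)]
  have q1 := (abs_le.1 (hK n k o μ x f1 f2 G χ X κ η C g _ τ δ _ L ka Bd hμ hx hw q0 ha hL hL2 cB B0 hB
    hBδ ka0 hka v)).1
  have cS := cont_Sp (o := o) (G := G) ha v
  have cE := cont_Er (o := o) (G := G) ha v
  have cU := cont_Uv (G := G) ha o.p v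
  have cX : ∀ s, Continuous (Xi o x f1 f2 G (ι * t ^ 2 / 4) v s) := fun s => by
    unfold Xi De; fun_prop
  have P := pfP hμ h.ok
  have q2 : pe o μ (fun s ω => ph o s * Sp o G (ι * t ^ 2 / 4) v s (xp o s ω)) ≤
      13 * (L * g⁻¹) * (ka * (v ⬝ᵥ G *ᵥ v) + v ⬝ᵥ G *ᵥ v) := by
    rw [sp hμ h.ok ha hw.symm v hφ]
    refine (P.le_mul (G := fun s ω => (v ⬝ᵥ xp o s ω) ^ 2 + v ⬝ᵥ G *ᵥ v) (c := 13 * (L * g⁻¹))
      (fun s => by have := cE s; fun_prop) (fun s => by fun_prop) fun s ω hω => ?_).trans ?_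
    · rcases hφ s with e | e
      · rw [e, zero_mul]; positivity
      · have a1 := er_le h.ok ha h.pg hL hL2 (trQ_le h.pg hx.hq hx.n1 hx.n2) v e hω
        have a2 : |ph o s| ≤ 1 := by unfold ph; split_ifs <;> simp
        have a3 := (abs_le.1 (abs3 a2 (le_refl |v ⬝ᵥ xp o s ω|) a1)).2
        rw [← h.pg.nG_sq v]
        exact nm5 (by positivity) (by linarith)
    · rw [P.add (fun s => by fun_prop) (fun s => by fun_prop), P.one]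
      gcongr; exact hka v
  have q3 : pe o μ (fun s ω => (G *ᵥ v ⬝ᵥ xp o s ω) ^ 2) ≤ ka * (g⁻¹ ^ 2 * (v ⬝ᵥ G *ᵥ v)) :=
    (hka _).trans (mul_le_mul_of_nonneg_left ((h.pg.up _).trans ((mul_le_mul_of_nonneg_left (h.pg.le v)
      h.pg.pos.le).trans_eq (by ring))) ka0)
  have q4 : (1 - ι ^ 2 / 8) * pe o μ (fun s ω => (v ⬝ᵥ xp o s ω) ^ 2) ≤
      pe o μ (fun s ω => ph o s * Sp o G (ι * t ^ 2 / 4) v s (xp o s ω)) -
        pe o μ (fun s ω => ph o s * Xi o x f1 f2 G (ι * t ^ 2 / 4) v s (xp o s ω)) +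
        (1 + 12 * C * τ ^ 2 / ι ^ 2) * (v ⬝ᵥ G *ᵥ v) +
        (8 * t ^ 2)⁻¹ * pe o μ (fun s ω => (G *ᵥ v ⬝ᵥ xp o s ω) ^ 2) +
        (100 * n ^ 2 + 3 + c) * (v ⬝ᵥ G *ᵥ v) * pe o μ fun s ω => Bd s (xp o s ω) := by
    rw [← P.mul, ← P.mul, ← P.mul, ← P.one ((1 + 12 * C * τ ^ 2 / ι ^ 2) * (v ⬝ᵥ G *ᵥ v)),
      ← P.sub (fun s => by have := cS s; fun_prop) (fun s => by have := cX s; fun_prop),
      ← P.add (fun s => by have := cS s; have := cX s; fun_prop) (fun s => by fun_prop),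
      ← P.add (fun s => by have := cS s; have := cX s; fun_prop) (fun s => by fun_prop),
      ← P.add (fun s => by have := cS s; have := cX s; fun_prop) (fun s => by have : Continuous (Bd s) := cB s; fun_prop)]
    refine P.mono (fun s => by fun_prop)
      (fun s => by have := cS s; have := cX s; have : Continuous (Bd s) := cB s; fun_prop) fun s ω hω => ?_
    rw [← mul_sub, h.sp_xi hω]
    have z1 : 0 ≤ (100 * n ^ 2 + 3 + c) * (v ⬝ᵥ G *ᵥ v) := by positivity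
    by_cases hg : Gd o x f1 f2 G X κ η (t ^ 2) s (xp o s ω)
    · rw [ph, if_pos (h.good4 hω hg), one_mul]
      linarith [h.pt_good hω e0 ha (by ring) hg v, mul_nonneg z1 (B0 s (xp o s ω))]
    · have z2 := mul_le_mul_of_nonneg_left (hB s ω hω hg) z1
      have z3 := h.pt_bad (s := s) hω ha hL hL2 (by linarith) v
      have z4 := h.f_sq (s := s) hω v
      have z5 : 0 ≤ (1 + 12 * C * τ ^ 2 / ι ^ 2) * (v ⬝ᵥ G *ᵥ v) := by positivity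
      have z6 : 0 ≤ (8 * t ^ 2)⁻¹ * (G *ᵥ v ⬝ᵥ xp o s ω) ^ 2 := by positivity
      have z7 : 36 * n * (v ⬝ᵥ G *ᵥ v) ≤ 40 * n ^ 2 * (v ⬝ᵥ G *ᵥ v) := by
        gcongr ?_ * _; linarith [mul_le_mul_of_nonneg_left hn (Nat.cast_nonneg (α := ℝ) n)]
      have z8 : -((60 * n ^ 2 + 3 + c) * (v ⬝ᵥ G *ᵥ v)) ≤ ph o s * Wv o G χ (ι * t ^ 2 / 4) v (xp o s ω) := by
        unfold ph; split_ifs
        · rwa [one_mul]
        · rw [zero_mul, neg_nonpos]; positivity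
      linarith [mul_nonneg e0.le (sq_nonneg (v ⬝ᵥ xp o s ω))]
  rw [div_mul_eq_mul_div, ← add_div, div_mul_eq_mul_div, le_div_iff₀' (by linarith)]
  refine q4.trans ?_
  rw [← hc, div_eq_mul_inv L] at q1
  have r1 : (100 * n ^ 2 + 3 + c) * (v ⬝ᵥ G *ᵥ v) * pe o μ (fun s ω => Bd s (xp o s ω)) ≤
      8 * ι ^ 2 / 10 ^ 4 * (v ⬝ᵥ G *ᵥ v) := by
    calc _ ≤ (100 * n ^ 2 + 3 + c) * (v ⬝ᵥ G *ᵥ v) * δ := by gcongr
      _ = (100 * n ^ 2 + 3 + c) * δ * (v ⬝ᵥ G *ᵥ v) := by ring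
      _ ≤ _ := by gcongr
  have r2 : (8 * t ^ 2)⁻¹ * pe o μ (fun s ω => (G *ᵥ v ⬝ᵥ xp o s ω) ^ 2) ≤
      ι ^ 2 / 10 ^ 4 * (ka * (v ⬝ᵥ G *ᵥ v)) := by
    calc _ ≤ (8 * t ^ 2)⁻¹ * (ka * (g⁻¹ ^ 2 * (v ⬝ᵥ G *ᵥ v))) := by gcongr
      _ = (8 * t ^ 2)⁻¹ * g⁻¹ ^ 2 * (ka * (v ⬝ᵥ G *ᵥ v)) := by ring
      _ ≤ _ := by gcongr
  have r3 : 13 * (L * g⁻¹) * (ka * (v ⬝ᵥ G *ᵥ v) + v ⬝ᵥ G *ᵥ v) ≤
      13 * (23 * ι ^ 2 / 10 ^ 4) * (ka * (v ⬝ᵥ G *ᵥ v) + v ⬝ᵥ G *ᵥ v) := by gcongr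
  have r4 : K * (((3 + c) * C ^ 3 * η + L * g⁻¹) * (1 + ka + n ^ 3 * δ) + (3 + c) * C * n ^ 3 * δ) *
      (v ⬝ᵥ G *ᵥ v) ≤ (30 * ι ^ 2 / 10 ^ 4 * (2 + ka) + 7 * ι ^ 2 / 10 ^ 4) * (v ⬝ᵥ G *ᵥ v) := by
    refine mul_le_mul_of_nonneg_right ?_ hN
    have a1 : K * ((3 + c) * C ^ 3 * η + L * g⁻¹) * (1 + ka + n ^ 3 * δ) ≤ 30 * ι ^ 2 / 10 ^ 4 * (2 + ka) :=
      mul_le_mul (by linarith) (by linarith) (by positivity) (by positivity)
    linarith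
  have w1 := mul_nonneg e0.le hN
  have w2 := mul_nonneg e0.le (mul_nonneg ka0 hN)
  have e : 12 * C * τ ^ 2 / ι ^ 2 = 12 * (C * τ ^ 2 / ι ^ 2) := by ring
  rw [e]
  linarith

end Crest.Agent.T157.O4c.B42
end
end

-- ▼ part T157/O4cAll_4
section

set_option autoImplicit false

/-!
Row 157, A2 section 4 (helper4): the core of (M1), unconditional.
-/

namespace Crest.Agent.T157.O4c

theorem m1Core : M1Core := B42.clGlue cuStmt

end Crest.Agent.T157.O4c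
end

-- ▼ part T157/KbBg_9

/-!
# Row 157, part A2, section 2 (helper9): the first moment of the bad event
-/

set_option autoImplicit false

noncomputable section

namespace Crest.Agent.T157.Kb

open MeasureTheory Matrix Set Filter
open scoped ENNReal
open Crest.Agent.T157.E Crest.Agent.T157.Cond Crest.Agent.T157.Tap
open Crest.Agent.T157.Qe (Le bv St WS zz gg Mm)
open Crest.Agent.T157.Kp (Sl P5)
open Crest.Agent.T157.Conc (ex ex_mono)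
open Crest.Agent.T157.Kb.Gd27 (PM Pt_eq PM_x)

namespace Bg9

variable {n : ℕ}

lemma co_mono {K T e e' t : ℝ} {x : V n} (h : Co K e t x) (ht : 0 ≤ t) (hK : K ≤ T)
    (he : e ≤ e') : Co T e' t x := by
  have q0 := aS_nonneg x
  have q2 := sq_nonneg (aS x)
  exact ⟨h.q1.trans (mul_le_mul_of_nonneg_right hK q2), h.q2.trans
    (mul_le_mul_of_nonneg_right hK ht), h.a1.trans (mul_le_mul_of_nonneg_right hK q0),
    h.u1.trans (mul_le_mul_of_nonneg_right hK q0), h.d1.trans (mul_le_mul_of_nonneg_right hK q2),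
    h.r4.trans (mul_le_mul_of_nonneg_right he q2), h.r3.trans (mul_le_mul_of_nonneg_right he q2)⟩

lemma xm_mono {e e' : ℝ} {x : V n} (h : XM e x) (he : e ≤ e') : XM e' x := by
  have q3 := pow_nonneg (aS_nonneg x) 3
  exact ⟨h.p3, h.p4.trans (mul_le_mul_of_nonneg_right he q3),
    h.p6.trans (mul_le_mul_of_nonneg_right he q3), h.e8.trans (mul_le_mul_of_nonneg_right he q3)⟩

/-- (B1) with the explicit upper bound of `q` -/
def B1g : Prop := ∀ L C5 : ℝ, 0 < L → 10 ≤ C5 → 2000 * L ≤ C5 ^ 3 →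
  ∃ K ≥ (1 : ℝ), ∃ c > (0 : ℝ), ∃ C : ℕ, ∀ (n : ℕ) (t e : ℝ), C ≤ n → 1 / (n : ℝ) ≤ t →
    e ∈ Set.Ioc (0 : ℝ) 1 → Real.sqrt t ≤ c * e ^ 2 →
    Px t {x : V n | ¬ (Co K e t x ∧ aS x ^ 2 ≤ C5 ^ 2 * t)} ≤
      ex (C * Real.log n - L * n * (t * Real.sqrt t))

lemma pw {η : ℝ} (h0 : 0 < η) (h1 : η ≤ 1) {a b : ℕ} (h : b + 1 ≤ a) : η ^ a ≤ η * η ^ b := by
  rw [← pow_succ']; exact pow_le_pow_of_le_one h0.le h1 h

lemma pw' {η c : ℝ} (h0 : 0 < η) (h1 : η ≤ 1) (hc : η ≤ c) {a b : ℕ} (h : b + 1 ≤ a) :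
    η ^ a ≤ c * η ^ b :=
  (pw h0 h1 h).trans (mul_le_mul_of_nonneg_right hc (pow_nonneg h0.le _))

lemma lev {η c X H : ℝ} (h0 : 0 < η) (h1 : η ≤ 1) (hc : 20 * η ≤ c) (X0 : 0 ≤ X) {a b : ℕ}
    (h : b + 1 ≤ a) (hH : H ≤ η ^ a * X) : 20 * H ≤ c * η ^ b * X := by
  have h2 := mul_le_mul_of_nonneg_right (pw h0 h1 h) X0
  have h3 := mul_le_mul_of_nonneg_right hc (mul_nonneg (pow_nonneg h0.le b) X0)
  nlinarith

lemma frac {q : ℝ} (q0 : 0 ≤ q) (q1 : q ≤ 1 / 10) :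
    q ^ 2 ≤ q ^ 2 / (1 - q) ∧ q ^ 2 / (1 - q) ≤ 9 / 8 * q ^ 2 := by
  have h : 0 < 1 - q := by linarith
  have h2 := sq_nonneg q
  constructor
  · rw [le_div_iff₀ h]; nlinarith [mul_nonneg h2 q0]
  · rw [div_le_iff₀ h]; nlinarith [mul_nonneg h2 (sub_nonneg.2 q1)]

set_option maxHeartbeats 4000000 in
theorem base_of (hM : MargStmt) (h1 : B1g) (h1s : B1sStmt) (h2 : B2Stmt) (h3 : B3Stmt)
    (h4 : CntStmt) (h5 : CntS) (h6 : PosStmt) (hAt : AtStmt) (h9 : HaStmt) : BaseGlue := by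
  intro _ h8 ⟨C1, h10⟩ Cw hCw L hL
  obtain ⟨K, hK, c1, hc1, N1, h1⟩ := h1 (10 * L) (L / 50) (by linarith) (by linarith)
    (by nlinarith [mul_le_mul hL hL (by norm_num) (by linarith : (0 : ℝ) ≤ L)])
  obtain ⟨c2, hc2, N2, h2⟩ := h2 K hK
  obtain ⟨c3, hc3, N3, h3⟩ := h3 K hK
  obtain ⟨c4, hc4, N4, h4⟩ := h4 K hK
  obtain ⟨c5, hc5, N5, h5⟩ := h5 K hK
  obtain ⟨c6, hc6, N6, h6⟩ := h6 K hK Cw hCw
  obtain ⟨C8, -, c8, hc8, N8, h8⟩ := h8 K hK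
  obtain ⟨c9, hc9, N9, h9⟩ := h9 K hK Cw hCw
  obtain ⟨c10, hc10, N10, h10⟩ := h10 K hK
  obtain ⟨c11, hc11, N11, h11⟩ := h1s K hK
  refine ⟨max (max (max K C8) (max (10 * C1) N5)) (max ((10 + N4) / c4) (K ^ 2 * (10 + N5) / c5)),
    fun T hT => ?_⟩
  simp only [ge_iff_le, max_le_iff] at hT
  obtain ⟨⟨⟨T1, T2⟩, T3, T4⟩, T5, T6⟩ := hT
  rw [div_le_iff₀ hc4] at T5
  rw [div_le_iff₀ hc5] at T6
  obtain ⟨m, m0, m1', m2, m3, m4, m5, m6, m8, m9, m10, m11, mK⟩ : ∃ m > (0 : ℝ), m ≤ c1 ∧ m ≤ c2 ∧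
      m ≤ c3 ∧ m ≤ c4 ∧ m ≤ c5 ∧ m ≤ c6 ∧ m ≤ c8 ∧ m ≤ c9 ∧ m ≤ c10 ∧ m ≤ c11 ∧ m ≤ 1 / (5 * K) :=
    ⟨min (min (min (min c1 c2) (min c3 c4)) (min (min c5 c6) (min c8 c9)))
      (min (min c10 c11) (1 / (5 * K))), by positivity, by
      simp only [min_le_iff, le_refl, true_or, or_true, and_self]⟩
  obtain ⟨Cs, hCs⟩ : ∃ Cs : ℕ, Cs = N1 + N2 + N3 + N4 + N5 + N6 + N8 + N9 + N10 + N11 := ⟨_, rfl⟩
  refine ⟨m / 20, by positivity, Cs + 11 + ⌈Real.exp N4⌉₊, fun n t η E H S0 z hW => ?_⟩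
  have n1 := z.n1
  have n0 : 0 < n := by omega
  have nR : (1 : ℝ) ≤ n := by exact_mod_cast n0
  have t0 : 0 < t := lt_of_lt_of_le (by positivity) z.t1
  have e0 := z.e0
  have K0 : 0 ≤ K := zero_le_one.trans hK
  have em : 20 * η ≤ m := by linarith only [z.e1]
  have eK : 100 * K * η ≤ 1 := by
    have := em.trans mK
    rw [le_div_iff₀ (by positivity)] at this; linarith
  have e2 : η ≤ 1 / 100 := by nlinarith only [eK, mul_le_mul_of_nonneg_right hK e0.le]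
  have e1 : η ≤ 1 := by linarith
  have em' : η ≤ m := by linarith
  have lg0 : 0 ≤ Real.log n := Real.log_nonneg nR
  have s0 := Real.sqrt_nonneg t
  have ss := Real.mul_self_sqrt t0.le
  have s1 : √t ≤ η := z.t2.trans (by simpa using pw e0 e1 (a := 63) (b := 0) (by norm_num))
  have tη : t ≤ η := by nlinarith only [ss, s1, s0, e1, mul_le_mul s1 s1 s0 e0.le, e0]
  have HN : ((Cs : ℝ) + 1) * Real.log n ≤ H := by
    refine le_trans (mul_le_mul_of_nonneg_right ?_ lg0) z.H0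
    push_cast; linarith [Nat.cast_nonneg (α := ℝ) ⌈Real.exp N4⌉₊]
  have Hl : Real.log n ≤ H := by
    linarith only [HN, mul_nonneg (Nat.cast_nonneg (α := ℝ) Cs) lg0]
  have H0 : 0 ≤ H := lg0.trans Hl
  have l4 : (N4 : ℝ) ≤ Real.log n := by
    rw [Real.le_log_iff_exp_le (by linarith)]
    exact (Nat.le_ceil _).trans (by exact_mod_cast (by omega))
  have lt1 : 1 ≤ Real.log (1 / t) := by
    rw [Real.le_log_iff_exp_le (by positivity), le_div_iff₀ t0]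
    nlinarith only [Real.exp_one_lt_d9, Real.exp_pos 1, tη, e2, t0]
  have nt0 : 0 ≤ (n : ℝ) * t := by positivity
  have nts : 0 ≤ (n : ℝ) * (t * √t) := by positivity
  have p30 : η ^ 30 ≤ 1 / 10 :=
    (by simpa using pw e0 e1 (a := 30) (b := 0) (by norm_num) : η ^ 30 ≤ η).trans (by linarith)
  have p3 : η ^ 3 ≤ η := by simpa using pw e0 e1 (a := 3) (b := 0) (by norm_num)
  have q30 : 0 < η ^ 30 := by positivity
  have q3 : 0 < η ^ 3 := by positivity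
  have hWK : WT K Cw (η ^ 3) E t S0 := fun q hq a b => hW q hq
    (a.trans (mul_le_mul_of_nonneg_right T1 (sq_nonneg _)))
    (b.trans (mul_le_mul_of_nonneg_right T1 t0.le))
  have mS : MeasurableSet S0 := (hWK √t (Real.sqrt_pos.2 t0) 
    (by rw [Real.sq_sqrt t0.le]; exact le_mul_of_one_le_left t0.le hK)
    (by rw [Real.sq_sqrt t0.le]; exact le_mul_of_one_le_left t0.le hK)).1.meas
  have mS' : MeasurableSet {z : V n × Mx n | z.2 ∈ S0} := measurable_snd mS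
  have mf : Measurable (Prod.fst : V n × Mx n → V n) := measurable_fst
  have ms : Measurable (Prod.snd : V n × Mx n → Mx n) := measurable_snd
  have mi : Measurable (fun x : V n => x) := measurable_id
  have mCo : MeasurableSet {x : V n | Co K (η ^ 30) t x} := measSet_Co K _ t mi
  have mXM : MeasurableSet {x : V n | XM (η ^ 30) x} := measSet_XM _ mi
  have mC : MeasurableSet {z : V n × Mx n | ((Sl (lam T t) z.1).card : ℝ) ≤
      η ^ 30 * aS z.1 ^ 3 * n} := measurableSet_le (Mg67.m_card _ mf) (by fun_prop)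
  obtain ⟨b, hb⟩ : ∃ b, b = ex (Cs * Real.log n - 10 * H) := ⟨_, rfl⟩
  have lv : ∀ (N : ℕ) (R : ℝ), N ≤ Cs → R ≤ N * Real.log n - 10 * H → ex R ≤ b := fun N R a r => by
    rw [hb]
    refine ex_mono (r.trans (sub_le_sub_right (mul_le_mul_of_nonneg_right ?_ lg0) _))
    exact_mod_cast a
  have a27 : (η ^ 3) ^ 9 = η ^ 27 := by ring
  have a30 : (η ^ 3) ^ 10 = η ^ 30 := by ring
  have a54 : (η ^ 3) ^ 18 = η ^ 54 := by ring
  have a60 : (η ^ 30) ^ 2 = η ^ 60 := by ring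
  have a6 : (η ^ 3) ^ 2 = η ^ 6 := by ring
  have a63 : (η ^ 3) ^ 21 = η ^ 63 := by ring
  have H2 : H ≤ η ^ 66 * (n * t) := by linarith only [z.H2]
  have E2 : E ≤ η ^ 57 * (n * t) := by linarith only [z.E1]
  have qs : ∀ x : V n, Co K (η ^ 30) t x → aS x ≤ 1 / 10 := fun x h => by
    have h1 := h.q2
    have h2 := mul_le_mul_of_nonneg_left tη K0
    nlinarith only [aS_nonneg x, h1, h2, eK]
  have sq2 : ∀ c, m ≤ c → √t ≤ c ^ 2 * (η ^ 3) ^ 9 := fun c hc => by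
    rw [a27]
    have h1 := pw' e0 e1 (em'.trans hc) (a := 63) (b := 28) (by norm_num)
    have h2 := pw' e0 e1 (em'.trans hc) (a := 28) (b := 27) (by norm_num)
    have h3 := mul_le_mul_of_nonneg_left h2 (m0.le.trans hc)
    linarith only [z.t2, h1, h3]
  have e27 : ∀ c, m ≤ c → η ^ 30 ≤ c * (η ^ 3) ^ 9 := fun c hc => by
    rw [a27]; exact pw' e0 e1 (em'.trans hc) (by norm_num)
  have lp : ∀ c, m ≤ c → E / 2 - c * (η ^ 3) ^ 18 * n * t ≤ -(10 * H) := fun c hc => by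
    rw [a54]
    have h1 := lev e0 e1 (em.trans hc) nt0 (b := 54) (by norm_num) H2
    have h2 := lev e0 e1 (em.trans hc) nt0 (b := 54) (by norm_num) E2
    linarith only [z.E0, h1, h2, H0]
  have nK : K ≤ (n * η ^ 3) ^ 2 * t := T1.trans z.n2
  -- the events
  have b1 : PM n t {z | z.1 ∈ {x : V n | ¬ (Co K (η ^ 30) t x ∧ aS x ^ 2 ≤ (L / 50) ^ 2 * t)}} ≤ b := by
    refine (PM_x hM n0 t0 (mCo.inter (measurableSet_le (f := fun x : V n => aS x ^ 2) (by fun_prop)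
      measurable_const)).compl).trans
      ((h1 n t _ (by omega) z.t1 ⟨q30, by linarith only [p30]⟩ ?_).trans (lv N1 _ (by omega) ?_))
    · rw [a60]; exact z.t2.trans (pw' e0 e1 (em'.trans m1') (by norm_num))
    · linarith only [z.H1]
  have b2 : PM n t {z | z.1 ∈ {x : V n | Co K (η ^ 30) t x ∧ ¬ XM (η ^ 30) x}} ≤ b := by
    refine (PM_x hM n0 t0 (mCo.inter mXM.compl)).trans
      ((h2 n t _ (by omega) z.t1 ⟨q30, p30⟩ ?_).trans (lv N2 _ (by omega) ?_))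
    · exact z.t2.trans (pw' e0 e1 (em'.trans m2) (by norm_num))
    · have := lev e0 e1 (em.trans m2) nt0 (b := 60) (by norm_num) H2
      rw [a60]; linarith only [this, H0]
  have b3 : PM n t {z | z.1 ∈ {x : V n | Co K (η ^ 30) t x ∧ ¬ B3 (η ^ 30) x}} ≤ b := by
    refine (PM_x hM n0 t0 (mCo.inter (Mg67.m_B3 _ mi).compl)).trans
      ((h3 n t _ _ (by omega) z.t1 p30 ⟨q30, by linarith only [p30]⟩ ?_).trans (lv N3 _ (by omega) ?_))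
    · exact z.t2.trans (pw' e0 e1 (em'.trans m3) (by norm_num))
    · have := lev e0 e1 (em.trans m3) nt0 (b := 30) (by norm_num) H2
      linarith only [this, H0]
  have b4 : PM n t {z | z.1 ∈ {x : V n | Co K (η ^ 30) t x ∧
      m1 n T H t ≤ (Sl (Real.log n ^ 2) x).card}} ≤ b := by
    have l0 : 0 < Real.log n := Real.log_pos (by exact_mod_cast (by omega : 1 < n))
    refine (PM_x hM n0 t0 (mCo.inter (measurableSet_le measurable_const (Mg67.m_card _ mi)))).trans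
      ((h4 n t _ (Real.log n ^ 2) (m1 n T H t) (by omega) z.t1 p30 (s1.trans (em'.trans m4))
        (by linarith only [mul_le_mul_of_nonneg_right l4 lg0])).trans (lv N4 _ (by omega) ?_))
    have e : c4 * Real.log n ^ 2 * m1 n T H t = T * c4 * (H + n * t ^ 2 + Real.log n) := by
      unfold m1; field_simp
    have h0 : 0 ≤ (n : ℝ) * t ^ 2 := by positivity
    have := mul_le_mul_of_nonneg_right T5 (by positivity : 0 ≤ H + n * t ^ 2 + Real.log n)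
    have N0 := Nat.cast_nonneg (α := ℝ) N4
    rw [e]
    linarith only [mul_nonneg N0 H0, mul_nonneg N0 lg0, this, h0, lg0]
  have b5 : PM n t {z | z.1 ∈ {x : V n | Co K (η ^ 30) t x ∧
      η ^ 30 * (t * √t / K ^ 2) * n ≤ (Sl (lam T t) x).card}} ≤ b := by
    refine (PM_x hM n0 t0 (mCo.inter (measurableSet_le measurable_const (Mg67.m_card _ mi)))).trans
      ((h5 n t _ (lam T t) (η ^ 30 * (t * √t / K ^ 2) * n) (by omega) z.t1 p30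
        (s1.trans (em'.trans m5)) (mul_le_mul_of_nonneg_right T4 (zero_le_one.trans lt1))).trans
        (lv N5 _ (by omega) ?_))
    obtain ⟨X, hX⟩ : ∃ X, X = η ^ 30 * (n * (t * √t)) := ⟨_, rfl⟩
    have X0 : 0 ≤ X := by rw [hX]; positivity
    have N0 := Nat.cast_nonneg (α := ℝ) N5
    have e : c5 * lam T t * (η ^ 30 * (t * √t / K ^ 2) * n) =
        T * c5 / K ^ 2 * (Real.log (1 / t) * X) := by
      unfold lam; rw [hX]; field_simp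
    have k1 : (10 + N5 : ℝ) ≤ T * c5 / K ^ 2 := by
      rw [le_div_iff₀ (by positivity)]; linarith only [T6]
    have k2 : H ≤ Real.log (1 / t) * X := by
      have := mul_le_mul_of_nonneg_right (pow_le_pow_of_le_one e0.le e1 (by norm_num : 30 ≤ 33))
        (mul_nonneg (zero_le_one.trans lt1) nts)
      rw [hX]; linarith only [z.H3, this]
    have k3 : (n : ℝ) * t ^ 2 ≤ Real.log (1 / t) * X := by
      have h1 := mul_le_mul_of_nonneg_right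
        (z.t2.trans (pow_le_pow_of_le_one e0.le e1 (by norm_num : 30 ≤ 63))) nts
      have h2 : √t * (n * (t * √t)) = n * t ^ 2 := by
        rw [show √t * (n * (t * √t)) = n * t * (√t * √t) by ring, ss]; ring
      have h3 := mul_le_mul_of_nonneg_right lt1 X0
      linarith only [h1, h2, h3, hX]
    have k4 := mul_le_mul_of_nonneg_right k1 (H0.trans k2)
    have k5 := mul_le_mul_of_nonneg_left k3 N0
    rw [e]; linarith only [k2, k4, k5]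
  have bp : ∀ (k : ℝ) (d0 : V n → ℝ) (Q : V n × Mx n → Prop), MeasurableSet {z | Q z} → 1 ≤ k →
      k ≤ 5 / 4 → (∀ x, aS x ≤ 1 / 10 → (2 * k * (k - 1) + 2 * η ^ 3) * aS x ^ 2 ≤ d0 x ∧
        d0 x ≤ 9 / 8 * aS x ^ 2) →
      (∀ z : V n × Mx n, Le z.2 (Mm (Dk k (d0 z.1) (Sl (lam T t) z.1) z.1) (2 * k * aS z.1) (ee z.1))
        → Q z) →
      PM n t {z | z.2 ∈ S0 ∧ Co K (η ^ 30) t z.1 ∧ XM (η ^ 30) z.1 ∧
        ((Sl (lam T t) z.1).card : ℝ) ≤ η ^ 30 * aS z.1 ^ 3 * n ∧ ¬ Q z} ≤ b := by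
    intro k d0 Q mQ k1 k2 hd hQ
    have mB : MeasurableSet {z : V n × Mx n | z.2 ∈ S0 ∧ Co K (η ^ 30) t z.1 ∧ XM (η ^ 30) z.1 ∧
        ((Sl (lam T t) z.1).card : ℝ) ≤ η ^ 30 * aS z.1 ^ 3 * n ∧ ¬ Q z} :=
      mS'.inter ((mf mCo).inter ((mf mXM).inter (mC.inter mQ.compl)))
    rw [← Pt_eq t mB]
    refine (h6 n t (η ^ 3) E S0 _ (fun _ => k) d0 (fun x => Sl (lam T t) x) (by omega) z.t1
      ⟨q3, p3.trans (em'.trans m6)⟩ (sq2 _ m6) nK z.E0 mB (fun q hq a b => (hWK q hq a b).1)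
      fun z ⟨a, b, c, d, e⟩ => ⟨a, co_mono b t0.le le_rfl (e27 _ m6), xm_mono c (e27 _ m6),
        ⟨k1, k2, (hd _ (qs _ b)).1, (hd _ (qs _ b)).2, d.trans ?_⟩, fun h => e (hQ z h)⟩).trans
      (lv N6 _ (by omega) (by linarith only [lp _ m6]))
    exact mul_le_mul_of_nonneg_right (mul_le_mul_of_nonneg_right (e27 _ m6)
      (pow_nonneg (aS_nonneg _) 3)) (Nat.cast_nonneg _)
  have b6 := bp 1 (fun x => aS x ^ 2 / (1 - aS x) - (1 - 2 * η ^ 3) * aS x ^ 2)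
    (fun z => Pos ((1 - 2 * η ^ 3) * aS z.1 ^ 2) (AT (Sl (lam T t) z.1) z.1 z.2))
    (Mg67.m_Pos (by fun_prop) (Mg67.m_AT _ mf ms)) le_rfl (by norm_num)
    (fun x hx => by
      obtain ⟨f1, f2⟩ := frac (aS_nonneg x) hx
      have := mul_nonneg (by linarith only [p3, e2] : 0 ≤ 1 - 2 * η ^ 3) (sq_nonneg (aS x))
      constructor <;> linarith only [this, f1, f2])
    fun z h => (hAt n _ z.1 z.2 n0).1 _ h
  have b7 := bp (5 / 4) (fun x => aS x ^ 2 / (1 - aS x))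
    (fun z => P5 (Sl (lam T t) z.1) z.1 z.2) (Mg67.m_P5 _ mf ms) (by norm_num) le_rfl
    (fun x hx => by
      obtain ⟨f1, f2⟩ := frac (aS_nonneg x) hx
      have := mul_nonneg (by linarith only [p3, e2] : 0 ≤ 3 / 8 - 2 * η ^ 3) (sq_nonneg (aS x))
      constructor <;> linarith only [this, f1, f2])
    fun z h => (hAt n _ z.1 z.2 n0).2.1 h
  have b8 : PM n t {z : V n × Mx n | Co K (η ^ 30) t z.1 ∧ XM (η ^ 30) z.1 ∧
      ¬ Col T (η ^ 27) z.1 z.2} ≤ b := by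
    have mB : MeasurableSet {z : V n × Mx n | Co K (η ^ 30) t z.1 ∧ XM (η ^ 30) z.1 ∧
        ¬ Col T (η ^ 27) z.1 z.2} := (mf mCo).inter ((mf mXM).inter (Mg67.m_Col _ _ mf ms).compl)
    have := h8 T T2 n t (η ^ 3) (by omega) z.t1 ⟨q3, p3.trans (em'.trans m8)⟩
      (by rw [a63]; exact z.t2)
    rw [a27, a30] at this
    rw [← Pt_eq t mB]
    exact this.trans (lv N8 _ (by omega) (by linarith only [lp _ m8, z.E0]))
  have b9 : PM n t {z : V n × Mx n | z.2 ∈ S0 ∧ Co K (η ^ 30) t z.1 ∧ XM (η ^ 30) z.1 ∧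
      ¬ HA (η ^ 3) η z.1 z.2} ≤ b := by
    have mB : MeasurableSet {z : V n × Mx n | z.2 ∈ S0 ∧ Co K (η ^ 30) t z.1 ∧ XM (η ^ 30) z.1 ∧
        ¬ HA (η ^ 3) η z.1 z.2} :=
      mS'.inter ((mf mCo).inter ((mf mXM).inter (Mg67.m_HA _ _ mf ms).compl))
    rw [← Pt_eq t mB]
    exact (h9 n t (η ^ 3) η E S0 _ (by omega) z.t1 q3 e0 e1
      (pw' e0 e1 (em'.trans m9) (by norm_num)) (sq2 _ m9) nK z.E0 mB hWK
      fun z ⟨a, b, c, d⟩ => ⟨a, co_mono b t0.le le_rfl (e27 _ m9), xm_mono c (e27 _ m9), d⟩).trans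
      (lv N9 _ (by omega) (by linarith only [lp _ m9]))
  have b10 : PM n t {z : V n × Mx n | z.2 ∈ S0 ∧ Co K (η ^ 30) t z.1 ∧
      ¬ TR (C1 * (10 * H)) z.1 z.2} ≤ b := by
    have mB : MeasurableSet {z : V n × Mx n | z.2 ∈ S0 ∧ Co K (η ^ 30) t z.1 ∧
        ¬ TR (C1 * (10 * H)) z.1 z.2} :=
      mS'.inter ((mf mCo).inter (Mg67.m_TR _ mf ms).compl)
    rw [← Pt_eq t mB]
    exact (h10 n t (η ^ 3) (η ^ 30) E Cw (10 * H) S0 (by omega) z.t1 ⟨q3, p3.trans e1⟩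
      (s1.trans (em'.trans m10)) ((pow_le_pow_left₀ K0 T1 3).trans z.n3)
      (by linarith only [Hl, H0]) hWK).trans (lv N10 _ (by omega) le_rfl)
  -- the cover
  have mG : MeasurableSet {z : V n × Mx n | G1 L T η H t z.1 z.2} := Mg67.m_G1 _ _ _ _ _ mf ms
  have mSh : MeasurableSet {x : V n | Sh (η ^ 3) t x} := Mg67.m_Sh _ _ mi
  have fin : 11 * b ≤ ex (-(9 * H)) := by
    have := ex_sum (k := 11) (n := n) (by omega) n0 Cs (10 * H)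
    rw [hb]
    exact (by exact_mod_cast this : 11 * ex (Cs * Real.log n - 10 * H) ≤ _).trans
      (ex_mono (by push_cast; linarith only [HN]))
  have un : ∀ {A B : Set (V n × Mx n)} {j : ℝ≥0∞}, PM n t A ≤ j * b → PM n t B ≤ b →
      PM n t (A ∪ B) ≤ (j + 1) * b := fun hA hB =>
    (measure_union_le _ _).trans ((add_le_add hA hB).trans (by rw [add_mul, one_mul]))
  have u10 := un (un (un (un (un (un (un (un (un (j := 1) (b1.trans (by rw [one_mul])) b2) b3) b4)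
    b5) b6) b7) b8) b9) b10
  have cov : PM n t {z : V n × Mx n | z.2 ∈ S0 ∧ (¬ G1 L T η H t z.1 z.2 ∨
      ¬ Co K (η ^ 30) t z.1)} ≤ 10 * b := by
    refine (measure_mono fun z hz => ?_).trans (u10.trans (by norm_num))
    by_contra hc
    simp only [mem_union, mem_setOf_eq, not_or, not_not] at hc
    obtain ⟨⟨⟨⟨⟨⟨⟨⟨⟨⟨g1, g1'⟩, g2⟩, g3⟩, g4⟩, g5⟩, g6⟩, g7⟩, g8⟩, g9⟩, g10⟩ := hc
    simp only [not_and, not_not, not_le] at g2 g3 g4 g5 g6 g7 g8 g9 g10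
    obtain ⟨hS, hz⟩ := hz
    have c2 : ((Sl (lam T t) z.1).card : ℝ) ≤ η ^ 30 * aS z.1 ^ 3 * n := by
      refine (g5 g1).le.trans (mul_le_mul_of_nonneg_right (mul_le_mul_of_nonneg_left ?_ q30.le)
        (Nat.cast_nonneg _))
      have q0 := aS_nonneg z.1
      have r1 := g1.q1
      have r2 : √t ≤ K * aS z.1 := Real.sqrt_le_iff.2 ⟨by positivity, by
        linarith only [r1, mul_le_mul_of_nonneg_right hK (mul_nonneg K0 (sq_nonneg (aS z.1)))]⟩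
      rw [div_le_iff₀ (by positivity)]
      linarith only [mul_le_mul r1 r2 s0 (by positivity)]
    refine hz.elim (fun h => h ⟨co_mono g1 t0.le T1 le_rfl, g1', g2 g1, g3 g1, (g4 g1).le, c2,
      g6 hS g1 (g2 g1) c2, g7 hS g1 (g2 g1) c2, g8 g1 (g2 g1), g9 hS g1 (g2 g1),
      le_trans (g10 hS g1) ?_⟩) fun h => h g1
    linarith only [mul_le_mul_of_nonneg_right T3 H0]
  constructor
  · refine (Pt_eq t (mS'.inter mG.compl)).le.trans ?_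
    refine (measure_mono fun z hz => ?_).trans (cov.trans (le_trans ?_ fin))
    · exact ⟨hz.1, Or.inl hz.2⟩
    · gcongr; norm_num
  · intro hH
    have b11 : PM n t {z | z.1 ∈ {x : V n | Co K (η ^ 30) t x ∧ ¬ Sh (η ^ 3) t x}} ≤ b := by
      refine (PM_x hM n0 t0 (mCo.inter mSh.compl)).trans
        ((h11 n t _ (η ^ 3) (by omega) z.t1 ⟨q3, p3.trans e1⟩
          (pw' e0 e1 (em'.trans m11) (by norm_num))
          (z.t2.trans (pw' e0 e1 (em'.trans m11) (by norm_num)))).trans (lv N11 _ (by omega) ?_))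
      have := lev e0 e1 (em.trans m11) nts (a := 9) (b := 6) (by norm_num) (H := H)
        (by linarith only [hH])
      rw [a6]; linarith only [this, H0]
    refine (Pt_eq t (mS'.inter (mG.inter (mf mSh)).compl)).le.trans ?_
    refine (measure_mono fun z hz => ?_).trans ((un cov b11).trans (le_trans (by norm_num) fin))
    by_cases hC : Co K (η ^ 30) t z.1
    · by_cases hG : G1 L T η H t z.1 z.2
      · exact Or.inr ⟨hC, fun h => hz.2 ⟨hG, h⟩⟩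
      · exact Or.inl ⟨hz.1, Or.inl hG⟩
    · exact Or.inl ⟨hz.1, Or.inr hC⟩

end Bg9

end Crest.Agent.T157.Kb

end
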