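import Crest.Agent.T157.StStein_79
import Crest.Agent.T157.QeDef_24

-- ▼ part T157/KbTrA_61
section

/-!
# Row 157, A2 (helper61): all moments of `tr (z - W)⁻¹ / n - γ` for the GOE, `z = γ + 1/γ`

`moment`: the loop equation tested against `X^(k+1) conj X^(k+2) conj Λ`, `X = m - γ`,
`Λ = m - 1/γ`; no cutoff and no a priori bound.
-/

set_option autoImplicit false

noncomputable section

namespace Crest.Agent.T157.Kb.Tr61

open MeasureTheory Matrix Finset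
open Crest.Agent.T157.E (gv)
open Crest.Agent.T157.Cond Crest.Agent.T157.St.Stein79
open Crest.Agent.T157.Fr (res mtr hs)

variable {ι : Type*} [Fintype ι] [DecidableEq ι] {s : ℝ} {z : ℂ}

/-- derivative of `mm` -/
def M1 (s : ℝ) (z : ℂ) (p : ι × ι) (x : ι × ι → ℝ) : ℂ :=
  ((s ^ 2 : ℝ) : ℂ) * (2 * ((s / √2 : ℝ) : ℂ) * (GG s z x * GG s z x) p.1 p.2)

lemma der_mm (hz : 0 < z.im) (x : ι × ι → ℝ) (p : ι × ι) :
    HasDerivAt (fun t => mm s z (Function.update x p t)) (M1 s z p x) (x p) := by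
  simp only [mm_eq, M1]
  refine HasDerivAt.const_mul _ ?_
  have h := HasDerivAt.fun_sum (u := univ) fun k _ => der_GG (s := s) hz x p k k
  refine h.congr_deriv (Eq.symm ?_)
  rw [mul_apply, mul_sum]
  refine sum_congr rfl fun k _ => ?_
  rw [GG_symm x k p.1, GG_symm x p.2 k]
  ring

lemma bc_M1 (hz : 0 < z.im) (p : ι × ι) : BC (M1 s z p) :=
  (BC.const _).mul ((BC.const _).mul
    (BC.sum univ fun k => (bc_GG hz p.1 k).mul (bc_GG hz k p.2)))

/-- the remainder of the loop equation -/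
def RG (s : ℝ) (z : ℂ) (F A B : (ι × ι → ℝ) → ℂ) (x : ι × ι → ℝ) : ℂ :=
  ((s ^ 2 : ℝ) : ℂ) * (((s ^ 2 : ℝ) : ℂ) * (∑ p : ι × ι, GG s z x p.1 p.2 * GG s z x p.1 p.2) * F x +
    ∑ p : ι × ι, 2 * ((s / √2 : ℝ) : ℂ) *
      (GG s z x p.1 p.2 * (A x * M1 s z p x + B x * star (M1 s z p x))))

variable {F A B : (ι × ι → ℝ) → ℂ}

theorem stein_gen (hz : 0 < z.im) (hs : s ^ 2 * Fintype.card ι = 1) (hF : BC F) (hA : BC A)
    (hB : BC B) (hd : ∀ p x, HasDerivAt (fun t => F (Function.update x p t))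
      (A x * M1 s z p x + B x * star (M1 s z p x)) (x p)) :
    ∫ x, PP s z x * F x ∂gv (ι × ι) = -∫ x, RG s z F A B x ∂gv (ι × ι) := by
  set c : ℂ := ((s / √2 : ℝ) : ℂ) with hc
  set σ : ℂ := ((s ^ 2 : ℝ) : ℂ) with hσ
  let FF : ι × ι → (ι × ι → ℝ) → ℂ := fun p x => GG s z x p.1 p.2 * F x
  let F1 : ι × ι → (ι × ι → ℝ) → ℂ := fun p x =>
    c * (GG s z x p.1 p.1 * GG s z x p.2 p.2 + GG s z x p.1 p.2 * GG s z x p.1 p.2) * F x +
      GG s z x p.1 p.2 * (A x * M1 s z p x + B x * star (M1 s z p x))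
  let TT : (ι × ι → ℝ) → ℂ := fun x => mm s z x * (∑ k, GG s z x k k) * F x
  have hFF : ∀ p, BC (FF p) := fun p => (bc_GG hz _ _).mul hF
  have hF1 : ∀ p, BC (F1 p) := fun p =>
    (((BC.const _).mul (((bc_GG hz _ _).mul (bc_GG hz _ _)).add
      ((bc_GG hz _ _).mul (bc_GG hz _ _)))).mul hF).add
      ((bc_GG hz _ _).mul ((hA.mul (bc_M1 hz p)).add (hB.mul (bc_M1 hz p).star)))
  have hT : BC TT := ((bc_mm hz).mul (BC.sum univ fun k => bc_GG hz k k)).mul hF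
  have hder : ∀ p x, HasDerivAt (fun t => FF p (Function.update x p t)) (F1 p x) (x p) := by
    intro p x
    have h := (der_GG (s := s) hz x p p.1 p.2).fun_mul (hd p x)
    simp only [Function.update_eq_self] at h
    exact h
  have e1 : ∀ x, PP s z x * F x =
      -σ * (∑ p : ι × ι, 2 * c * (((x p : ℝ) : ℂ) * FF p x) - TT x) := fun x => by
    have h := sum_err hz hs x
    have h2 : ∑ p : ι × ι, 2 * c * (((x p : ℝ) : ℂ) * FF p x) =
        (∑ p : ι × ι, 2 * c * (((x p : ℝ) : ℂ) * GG s z x p.1 p.2)) * F x := by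
      rw [sum_mul]; exact sum_congr rfl fun p _ => by simp only [FF]; ring
    rw [h2]
    simp only [TT]
    linear_combination F x * h
  have e2 : ∀ x, RG s z F A B x = σ * (∑ p : ι × ι, 2 * c * F1 p x - TT x) := fun x => by
    have h1 : (∑ k, GG s z x k k) * (∑ k, GG s z x k k) =
        ∑ p : ι × ι, GG s z x p.1 p.1 * GG s z x p.2 p.2 := by
      rw [sum_mul_sum, Fintype.sum_prod_type]
    have h2 : ∑ p : ι × ι, 2 * c * F1 p x =
        σ * (∑ p : ι × ι, GG s z x p.1 p.1 * GG s z x p.2 p.2) * F x +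
        σ * (∑ p : ι × ι, GG s z x p.1 p.2 * GG s z x p.1 p.2) * F x +
        ∑ p : ι × ι, 2 * c *
          (GG s z x p.1 p.2 * (A x * M1 s z p x + B x * star (M1 s z p x))) := by
      rw [hσ, ← c_sq, ← hc]
      simp only [mul_sum, sum_mul, ← sum_add_distrib]
      exact sum_congr rfl fun p _ => by simp only [F1]; ring
    rw [h2, ← h1, RG]
    simp only [TT, mm_eq]
    ring
  simp only [e1, e2]
  exact stein_sum hFF hF1 hT _ _ hder

lemma norm_RG_le (hz : 0 < z.im) (x : ι × ι → ℝ) :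
    ‖RG s z F A B x‖ ≤ s ^ 2 * |(mm s z x).im| * ‖F x‖ / z.im +
      2 * s ^ 4 * (‖A x‖ + ‖B x‖) * |(mm s z x).im| / z.im ^ 2 := by
  have hY := hs_GG (s := s) hz x
  have n2 : ‖((s ^ 2 : ℝ) : ℂ)‖ = s ^ 2 := by
    rw [Complex.norm_real, Real.norm_of_nonneg (sq_nonneg s)]
  have nc : ‖((s / √2 : ℝ) : ℂ)‖ * ‖((s / √2 : ℝ) : ℂ)‖ * 2 = s ^ 2 := by
    rw [← n2, ← c_sq, norm_mul, norm_mul]; simp
  have h1 : ‖∑ p : ι × ι, GG s z x p.1 p.2 * GG s z x p.1 p.2‖ ≤ hs (GG s z x) ^ 2 := by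
    refine (norm_sum_le _ _).trans ?_
    simp only [norm_mul]
    rw [sq]; exact sum_prod_le _ _
  have h2 : hs (GG s z x * GG s z x) ≤ 1 / z.im * hs (GG s z x) :=
    (Fr.hs_mul_le _ _).trans (mul_le_mul_of_nonneg_right
      (Fr.cop_res_le hz (fun _ => le_rfl) (symG_transpose s x)) (Fr.hs_nonneg _))
  have h3 : ‖∑ p : ι × ι, 2 * ((s / √2 : ℝ) : ℂ) *
      (GG s z x p.1 p.2 * (A x * M1 s z p x + B x * star (M1 s z p x)))‖ ≤
      2 * s ^ 2 * (‖A x‖ + ‖B x‖) * (s ^ 2 * hs (GG s z x) ^ 2) / z.im := by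
    refine (norm_sum_le _ _).trans ?_
    have e : ∀ p : ι × ι, ‖2 * ((s / √2 : ℝ) : ℂ) *
        (GG s z x p.1 p.2 * (A x * M1 s z p x + B x * star (M1 s z p x)))‖ ≤
        2 * s ^ 2 * (‖A x‖ + ‖B x‖) * s ^ 2 *
          (‖GG s z x p.1 p.2‖ * ‖(GG s z x * GG s z x) p.1 p.2‖) := fun p => by
      have a1 : ‖A x * M1 s z p x + B x * star (M1 s z p x)‖ ≤ (‖A x‖ + ‖B x‖) * ‖M1 s z p x‖ := by
        refine (norm_add_le _ _).trans ?_
        rw [norm_mul, norm_mul, norm_star, add_mul]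
      have a2 : ‖M1 s z p x‖ = s ^ 2 * (2 * ‖((s / √2 : ℝ) : ℂ)‖ *
          ‖(GG s z x * GG s z x) p.1 p.2‖) := by
        simp only [M1, norm_mul, n2, Complex.norm_ofNat]
      rw [norm_mul, norm_mul, norm_mul, Complex.norm_ofNat]
      calc _ ≤ 2 * ‖((s / √2 : ℝ) : ℂ)‖ * (‖GG s z x p.1 p.2‖ * ((‖A x‖ + ‖B x‖) * ‖M1 s z p x‖)) := by
            gcongr
        _ = _ := by
            rw [a2]
            linear_combination (2 * (‖A x‖ + ‖B x‖) * s ^ 2 *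
              (‖GG s z x p.1 p.2‖ * ‖(GG s z x * GG s z x) p.1 p.2‖)) * nc
    refine (sum_le_sum fun p _ => e p).trans ?_
    simp only [← mul_sum]
    have h4 := (sum_prod_le (GG s z x) (GG s z x * GG s z x)).trans
      (mul_le_mul_of_nonneg_left h2 (Fr.hs_nonneg _))
    calc _ ≤ 2 * s ^ 2 * (‖A x‖ + ‖B x‖) * s ^ 2 *
          (hs (GG s z x) * (1 / z.im * hs (GG s z x))) :=
          mul_le_mul_of_nonneg_left h4 (by positivity)
      _ = _ := by ring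
  rw [RG, norm_mul, n2]
  have h5 : ‖((s ^ 2 : ℝ) : ℂ) * (∑ p : ι × ι, GG s z x p.1 p.2 * GG s z x p.1 p.2) * F x‖ ≤
      |(mm s z x).im| / z.im * ‖F x‖ := by
    rw [norm_mul, norm_mul, n2]
    exact mul_le_mul_of_nonneg_right
      ((mul_le_mul_of_nonneg_left h1 (sq_nonneg s)).trans hY) (norm_nonneg _)
  have h6 : 2 * s ^ 2 * (‖A x‖ + ‖B x‖) * (s ^ 2 * hs (GG s z x) ^ 2) / z.im ≤
      2 * s ^ 2 * (‖A x‖ + ‖B x‖) * (|(mm s z x).im| / z.im) / z.im := by gcongr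
  calc _ ≤ s ^ 2 * (|(mm s z x).im| / z.im * ‖F x‖ +
        2 * s ^ 2 * (‖A x‖ + ‖B x‖) * (|(mm s z x).im| / z.im) / z.im) :=
        mul_le_mul_of_nonneg_left ((norm_add_le _ _).trans (add_le_add h5 (h3.trans h6)))
          (sq_nonneg s)
    _ = _ := by field_simp

omit [Fintype ι] [DecidableEq ι] in
lemma bc_pow {f : (ι × ι → ℝ) → ℂ} (hf : BC f) (k : ℕ) : BC fun x => f x ^ k := by
  induction k with
  | zero => simpa using BC.const 1
  | succ k ih => simpa [pow_succ] using ih.mul hf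

/-- pointwise Young inequality -/
lemma young {y T a b : ℝ} (hy : 0 ≤ y) (hT : 0 ≤ T) (ha : 4 * a ≤ T) (hb : 4 * b ≤ T ^ 2)
    (j : ℕ) : a * y ^ (j + 1) + b * y ^ j ≤ y ^ (j + 2) / 2 + T ^ (j + 2) / 2 := by
  have h1 : a * y ^ (j + 1) + b * y ^ j ≤ T / 4 * y ^ (j + 1) + T ^ 2 / 4 * y ^ j := by
    gcongr <;> linarith
  refine h1.trans ?_
  rcases le_total y T with h | h
  · have h2 : y ^ (j + 1) ≤ T ^ (j + 1) := by gcongr
    have h3 : y ^ j ≤ T ^ j := by gcongr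
    have h4 : 0 ≤ y ^ (j + 2) := by positivity
    calc _ ≤ T / 4 * T ^ (j + 1) + T ^ 2 / 4 * T ^ j := by gcongr
      _ = T ^ (j + 2) / 2 := by ring
      _ ≤ _ := by linarith
  · have h4 : 0 ≤ T ^ (j + 2) := by positivity
    calc _ ≤ y / 4 * y ^ (j + 1) + y ^ 2 / 4 * y ^ j := by gcongr
      _ = y ^ (j + 2) / 2 := by ring
      _ ≤ _ := by linarith

/-- the real inequality of one moment step -/
lemma step {σ η l L μ y T : ℝ} (k : ℕ) (hσ : 0 ≤ σ) (hη : 0 < η) (hl : 0 < l) (hlL : l ≤ L)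
    (hμ0 : 0 ≤ μ) (hμ : μ ≤ L) (hy : 0 ≤ y) (hT : 0 ≤ T)
    (h1 : 4 * (σ / η + 2 * σ ^ 2 / (η ^ 2 * l)) ≤ T)
    (h2 : 16 * (k + 2) * σ ^ 2 / η ^ 2 ≤ T ^ 2) :
    σ * μ * (y ^ (2 * k + 3) * L) / η +
      2 * σ ^ 2 * ((k + 1) * (y ^ (2 * k + 2) * L) +
        ((k + 2) * (y ^ (2 * k + 2) * L) + y ^ (2 * k + 3))) * μ / η ^ 2 ≤
      y ^ (2 * k + 4) * L ^ 2 / 2 + T ^ (2 * k + 4) * L ^ 2 / 2 := by
  have hL : 0 < L := hl.trans_le hlL
  have h3 := young (a := σ / η + 2 * σ ^ 2 / (η ^ 2 * l)) (b := 4 * (k + 2) * σ ^ 2 / η ^ 2) hy hT h1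
    (by rw [show 4 * (4 * ((k : ℝ) + 2) * σ ^ 2 / η ^ 2) = 16 * (k + 2) * σ ^ 2 / η ^ 2 by ring]
        exact h2) (2 * k + 2)
  have h4 : y ^ (2 * k + 3) ≤ y ^ (2 * k + 3) * (L / l) :=
    le_mul_of_one_le_right (by positivity) ((one_le_div hl).2 hlL)
  calc _ ≤ σ * L * (y ^ (2 * k + 3) * L) / η +
      2 * σ ^ 2 * ((k + 2) * (y ^ (2 * k + 2) * L) +
        ((k + 2) * (y ^ (2 * k + 2) * L) + y ^ (2 * k + 3) * (L / l))) * L / η ^ 2 := by
        gcongr; linarith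
    _ = ((σ / η + 2 * σ ^ 2 / (η ^ 2 * l)) * y ^ (2 * k + 2 + 1) +
        4 * (k + 2) * σ ^ 2 / η ^ 2 * y ^ (2 * k + 2)) * L ^ 2 := by field_simp; ring
    _ ≤ (y ^ (2 * k + 2 + 2) / 2 + T ^ (2 * k + 2 + 2) / 2) * L ^ 2 := by gcongr
    _ = _ := by ring

/-- **all moments of the Stieltjes transform of the GOE** -/
theorem moment (hz : 0 < z.im) (hs : s ^ 2 * Fintype.card ι = 1) {γ γ' : ℂ} (h1 : γ * γ' = 1)
    (h2 : γ + γ' = z) {l T Lm : ℝ} (hl : 0 < l) (hl' : l ≤ γ'.im) (k : ℕ) (hT : 0 ≤ T)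
    (hT1 : 4 * (s ^ 2 / z.im + 2 * (s ^ 2) ^ 2 / (z.im ^ 2 * l)) ≤ T)
    (hT2 : 16 * (k + 2) * (s ^ 2) ^ 2 / z.im ^ 2 ≤ T ^ 2) (hL : 1 / z.im + ‖γ'‖ ≤ Lm) :
    Integrable (fun x : ι × ι → ℝ => ‖mm s z x - γ‖ ^ (2 * k + 4)) (gv (ι × ι)) ∧
    ∫ x, ‖mm s z x - γ‖ ^ (2 * k + 4) ∂gv (ι × ι) ≤ T ^ (2 * k + 4) * Lm ^ 2 / l ^ 2 := by
  let X : (ι × ι → ℝ) → ℂ := fun x => mm s z x - γ
  let Λ : (ι × ι → ℝ) → ℂ := fun x => mm s z x - γ'
  have bX : BC X := (bc_mm hz).sub (BC.const γ)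
  have bΛ : BC Λ := (bc_mm hz).sub (BC.const γ')
  let F : (ι × ι → ℝ) → ℂ := fun x => X x ^ (k + 1) * star (X x) ^ (k + 2) * star (Λ x)
  let A : (ι × ι → ℝ) → ℂ := fun x => (k + 1) * (X x ^ k * star (X x) ^ (k + 2) * star (Λ x))
  let B : (ι × ι → ℝ) → ℂ := fun x =>
    (k + 2) * (X x ^ (k + 1) * star (X x) ^ (k + 1) * star (Λ x)) +
      X x ^ (k + 1) * star (X x) ^ (k + 2)
  have bF : BC F := ((bc_pow bX _).mul (bc_pow bX.star _)).mul bΛ.star
  have bA : BC A := (BC.const _).mul (((bc_pow bX _).mul (bc_pow bX.star _)).mul bΛ.star)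
  have bB : BC B := ((BC.const _).mul (((bc_pow bX _).mul (bc_pow bX.star _)).mul bΛ.star)).add
    ((bc_pow bX _).mul (bc_pow bX.star _))
  have hd : ∀ p x, HasDerivAt (fun t => F (Function.update x p t))
      (A x * M1 s z p x + B x * star (M1 s z p x)) (x p) := fun p x => by
    have dX := (der_mm (s := s) hz x p).sub_const γ
    have dΛ := (der_mm (s := s) hz x p).sub_const γ'
    have h := ((dX.fun_pow (k + 1)).fun_mul (dX.star.fun_pow (k + 2))).fun_mul dΛ.star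
    simp only [Function.update_eq_self] at h
    refine h.congr_deriv ?_
    simp only [A, B, X, Λ, Nat.add_sub_cancel, show k + 2 - 1 = k + 1 from rfl]
    push_cast
    ring
  have hst := stein_gen hz hs bF bA bB hd
  have e : ∀ x, PP s z x * F x = ((‖X x‖ ^ (2 * k + 4) * ‖Λ x‖ ^ 2 : ℝ) : ℂ) := fun x => by
    have e1 : PP s z x = X x * Λ x := by
      simp only [PP, X, Λ]; linear_combination (mm s z x) * h2 - h1
    have e2 : ∀ w : ℂ, w * star w = ((‖w‖ ^ 2 : ℝ) : ℂ) := fun w => by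
      rw [Complex.star_def, Complex.mul_conj, Complex.normSq_eq_norm_sq]
    calc _ = (X x * star (X x)) ^ (k + 2) * (Λ x * star (Λ x)) := by rw [e1]; simp only [F]; ring
      _ = _ := by rw [e2, e2]; push_cast; ring
  have him : ∀ x : ι × ι → ℝ, (mm s z x).im ≤ 0 := fun x =>
    Fr.im_mtr_nonpos hz (fun _ => le_rfl) (symG_transpose s x) s
  have hΛ : ∀ x, |(mm s z x).im| + γ'.im ≤ ‖Λ x‖ := fun x => by
    have := Complex.abs_im_le_norm (Λ x)
    simp only [Λ, Complex.sub_im] at this ⊢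
    rw [abs_of_nonpos (him x)]
    have h3 := neg_le_abs ((mm s z x).im - γ'.im)
    linarith
  have hlΛ : ∀ x, l ≤ ‖Λ x‖ := fun x => by linarith [hΛ x, abs_nonneg (mm s z x).im]
  have hΛm : ∀ x, ‖Λ x‖ ≤ Lm := fun x => by
    have h3 := Fr.norm_mtr_le (d := fun _ : ι => z) hz (fun _ => le_rfl) (symG_transpose s x) s
    rw [hs] at h3
    exact (norm_sub_le _ _).trans ((add_le_add h3 le_rfl).trans hL)
  have hi : Integrable (fun x => ‖X x‖ ^ (2 * k + 4) * ‖Λ x‖ ^ 2) (gv (ι × ι)) := by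
    have := ((bc_pow bX (2 * k + 4)).mul (bc_pow bΛ 2)).int.norm
    simpa only [norm_mul, norm_pow] using this
  have hi0 : Integrable (fun x => ‖X x‖ ^ (2 * k + 4)) (gv (ι × ι)) := by
    have := (bc_pow bX (2 * k + 4)).int.norm
    simpa only [norm_pow] using this
  refine ⟨hi0, ?_⟩
  simp only [e] at hst
  rw [integral_complex_ofReal] at hst
  have h3 := congrArg norm hst
  rw [norm_neg, Complex.norm_real, Real.norm_of_nonneg (integral_nonneg fun x => by positivity)] at h3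
  have h4 : ‖∫ x, RG s z F A B x ∂gv (ι × ι)‖ ≤
      ∫ x, (‖X x‖ ^ (2 * k + 4) * ‖Λ x‖ ^ 2 / 2 + T ^ (2 * k + 4) * Lm ^ 2 / 2) ∂gv (ι × ι) := by
    refine norm_integral_le_of_norm_le ((hi.div_const 2).add (integrable_const _))
      (ae_of_all _ fun x => (norm_RG_le hz x).trans ?_)
    have nF : ‖F x‖ = ‖X x‖ ^ (2 * k + 3) * ‖Λ x‖ := by
      simp only [F, norm_mul, norm_pow, norm_star]; ring
    have n1 : ‖(k : ℂ) + 1‖ = k + 1 := by exact_mod_cast Complex.norm_natCast (k + 1)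
    have n2 : ‖(k : ℂ) + 2‖ = k + 2 := by exact_mod_cast Complex.norm_natCast (k + 2)
    have nA : ‖A x‖ = (k + 1) * (‖X x‖ ^ (2 * k + 2) * ‖Λ x‖) := by
      simp only [A, norm_mul, norm_pow, norm_star, n1]; ring
    have nB : ‖B x‖ ≤ (k + 2) * (‖X x‖ ^ (2 * k + 2) * ‖Λ x‖) + ‖X x‖ ^ (2 * k + 3) := by
      refine (norm_add_le _ _).trans (le_of_eq ?_)
      simp only [norm_mul, norm_pow, norm_star, n2]; ring
    have h5 := step k (sq_nonneg s) hz hl (hlΛ x) (abs_nonneg (mm s z x).im)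
      (by linarith [hΛ x]) (norm_nonneg (X x)) hT hT1 hT2
    have h6 : ‖Λ x‖ ^ 2 ≤ Lm ^ 2 := by gcongr; exact hΛm x
    calc _ ≤ s ^ 2 * |(mm s z x).im| * (‖X x‖ ^ (2 * k + 3) * ‖Λ x‖) / z.im +
        2 * (s ^ 2) ^ 2 * ((k + 1) * (‖X x‖ ^ (2 * k + 2) * ‖Λ x‖) +
          ((k + 2) * (‖X x‖ ^ (2 * k + 2) * ‖Λ x‖) + ‖X x‖ ^ (2 * k + 3))) *
          |(mm s z x).im| / z.im ^ 2 := by
          rw [nF, nA, show (s ^ 2) ^ 2 = s ^ 4 by ring]; gcongr
      _ ≤ _ := h5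
      _ ≤ _ := by gcongr
  rw [integral_add (hi.div_const 2) (integrable_const _), integral_div, integral_const] at h4
  simp only [probReal_univ, smul_eq_mul, one_mul] at h4
  have h5 : ∫ x, l ^ 2 * ‖X x‖ ^ (2 * k + 4) ∂gv (ι × ι) ≤
      ∫ x, ‖X x‖ ^ (2 * k + 4) * ‖Λ x‖ ^ 2 ∂gv (ι × ι) :=
    integral_mono (hi0.const_mul _) hi fun x => by
      have := hlΛ x
      simp only []
      rw [mul_comm]; gcongr
  rw [integral_const_mul] at h5
  rw [le_div_iff₀ (by positivity)]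
  linarith

end Crest.Agent.T157.Kb.Tr61
end
end

-- ▼ part T157/KbTrB_61
section

/-!
# Row 157, A2 (helper61): deterministic tools for `TrCore`

Rank-one changes move the trace of the resolvent by at most `1 / Im z`; the planted matrix is a
rank-three change; the disc `|γ - g| ≤ (1 - g) / 16` and the mean value formula on it.
-/

set_option autoImplicit false

noncomputable section

namespace Crest.Agent.T157.Kb.Tr61

open MeasureTheory Matrix Finset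
open scoped ENNReal
open Crest.Agent.T157.Cond
open Crest.Agent.T157.Dq (Dg)
open Crest.Agent.T157.Fr (res cx Zm)

section mat
variable {ι : Type*} [Fintype ι] [DecidableEq ι] {z : ℂ} {W : Matrix ι ι ℝ}

/-- trace of the resolvent -/
def tr (z : ℂ) (W : Matrix ι ι ℝ) : ℂ := (res (fun _ => z) W).trace

omit [Fintype ι] [DecidableEq ι] in
lemma symm_add (hW : Wᵀ = W) (σ : ℝ) (v : ι → ℝ) :
    (W + σ • vecMulVec v v)ᵀ = W + σ • vecMulVec v v := by
  rw [transpose_add, transpose_smul, transpose_vecMulVec, hW]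

lemma tr_rank1 (hz : 0 < z.im) (hW : Wᵀ = W) (σ : ℝ) (v : ι → ℝ) :
    ‖tr z (W + σ • vecMulVec v v) - tr z W‖ ≤ 1 / z.im := by
  have hW' := symm_add hW σ v
  have hu := Fr.unit_Zm (d := fun _ : ι => z) hz (fun _ => le_rfl) hW
  have hu' := Fr.unit_Zm (d := fun _ : ι => z) hz (fun _ => le_rfl) hW'
  have h1 := Fr.res_sub_res hu hu'
  have hs' := Fr.res_transpose (fun _ : ι => z) hW'
  have hq := Fr.im_quad_Zm (fun _ : ι => z) hW (res (fun _ : ι => z) W *ᵥ fun i => (v i : ℂ))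
  rw [mulVec_mulVec, Fr.Zm_mul_res hu, one_mulVec] at hq
  unfold tr
  set G := res (fun _ : ι => z) W
  set G' := res (fun _ : ι => z) (W + σ • vecMulVec v v)
  set w : ι → ℂ := fun i => (v i : ℂ) with hw
  set p := G *ᵥ w
  set p' := G' *ᵥ w with hp'
  have h2 : cx (W - (W + σ • vecMulVec v v)) = (-σ : ℂ) • vecMulVec w w := by
    ext i j; simp [vecMulVec_apply, hw]
  have h3 : G' - G = (σ : ℂ) • vecMulVec p p' := by
    have : w ᵥ* G' = p' := by rw [hp', ← hs', mulVec_transpose, hs']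
    rw [← neg_sub, h1, h2, Matrix.mul_smul, Matrix.smul_mul, mul_vecMulVec, vecMulVec_mul, this,
      neg_smul, neg_neg]
  have h4 : p' = (1 + σ * (p' ⬝ᵥ w)) • p := by
    have : p' - p = (G' - G) *ᵥ w := by rw [sub_mulVec]
    rw [h3, smul_mulVec, vecMulVec_mulVec] at this
    rw [add_smul, one_smul, ← sub_eq_iff_eq_add', this]
    ext i; simp [mul_assoc]
  set β := p' ⬝ᵥ w with hβ
  have h5 : (1 + σ * β) * (1 - σ * (p ⬝ᵥ w)) = 1 := by
    have : β = (1 + σ * β) * (p ⬝ᵥ w) := by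
      conv_lhs => rw [hβ, h4]
      rw [smul_dotProduct, smul_eq_mul]
    linear_combination (σ : ℂ) * this
  have h6 : G'.trace - G.trace = σ * ((1 + σ * β) * (p ⬝ᵥ p)) := by
    rw [← trace_sub, h3, trace_smul, trace_vecMulVec, smul_eq_mul]
    conv_lhs => rw [h4]
    rw [dotProduct_smul, smul_eq_mul]
  have h7 : ‖p ⬝ᵥ p‖ * z.im ≤ |(p ⬝ᵥ w).im| := by
    have a1 : ‖p ⬝ᵥ p‖ ≤ ∑ i, ‖p i‖ ^ 2 := by
      refine (norm_sum_le _ _).trans (le_of_eq ?_)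
      simp only [norm_mul, sq]
    have a2 : (∑ i, star (p i) * w i).im = -(p ⬝ᵥ w).im := by
      simp only [dotProduct, Complex.im_sum, ← sum_neg_distrib]
      exact sum_congr rfl fun i _ => by simp [hw]
    rw [a2, ← mul_sum] at hq
    calc _ ≤ (∑ i, ‖p i‖ ^ 2) * z.im := by gcongr
      _ = -(p ⬝ᵥ w).im := by rw [hq]; ring
      _ ≤ _ := neg_le_abs _
  have h8 : |σ| * |(p ⬝ᵥ w).im| ≤ ‖1 - σ * (p ⬝ᵥ w)‖ := by
    refine le_trans (le_of_eq ?_) (Complex.abs_im_le_norm _)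
    simp [abs_mul]
  have h9 := congrArg norm h5
  rw [norm_mul, norm_one] at h9
  rw [h6, norm_mul, norm_mul, Complex.norm_real, Real.norm_eq_abs, le_div_iff₀ hz]
  calc _ = ‖1 + σ * β‖ * (|σ| * (‖p ⬝ᵥ p‖ * z.im)) := by ring
    _ ≤ ‖1 + σ * β‖ * (|σ| * |(p ⬝ᵥ w).im|) := by gcongr
    _ ≤ ‖1 + σ * β‖ * ‖1 - σ * (p ⬝ᵥ w)‖ := by gcongr
    _ = 1 := h9

lemma tr_dg (hz : 0 < z.im) {a : ι → ℝ} (h : Dg W a) : tr z W = ∑ i, (z - a i)⁻¹ := by
  obtain ⟨O, hO, rfl⟩ := h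
  have hO' : Oᵀ * O = 1 := mul_eq_one_comm.1 hO
  have c1 : cx O * cx Oᵀ = 1 := by rw [← Fr.cx_mul, hO, Fr.cx_one]
  have c2 : cx Oᵀ * cx O = 1 := by rw [← Fr.cx_mul, hO', Fr.cx_one]
  have hne : ∀ i, z - a i ≠ 0 := fun i h => by
    have := congrArg Complex.im h
    simp at this; linarith
  have e1 : Zm (fun _ : ι => z) (O * diagonal a * Oᵀ) =
      cx O * diagonal (fun i => z - a i) * cx Oᵀ := by
    have : (diagonal fun _ : ι => z) = z • (1 : Matrix ι ι ℂ) := by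
      ext i j; by_cases h : i = j <;> simp [one_apply, h]
    rw [Zm, Fr.cx_mul, Fr.cx_mul, Fr.cx_diagonal, ← diagonal_sub, Matrix.mul_sub, Matrix.sub_mul, this,
      Matrix.mul_smul, Matrix.mul_one, Matrix.smul_mul, c1]
  have e2 : res (fun _ : ι => z) (O * diagonal a * Oᵀ) =
      cx O * diagonal (fun i => (z - a i)⁻¹) * cx Oᵀ := by
    rw [res, e1]
    refine inv_eq_right_inv ?_
    calc _ = cx O * (diagonal (fun i => z - a i) * (cx Oᵀ * cx O) *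
        diagonal (fun i => (z - a i)⁻¹)) * cx Oᵀ := by simp only [Matrix.mul_assoc]
      _ = 1 := by
        rw [c2, Matrix.mul_one, diagonal_mul_diagonal]
        simp only [mul_inv_cancel₀ (hne _), diagonal_one, Matrix.mul_one, c1]
  rw [tr, e2, trace_mul_comm, ← Matrix.mul_assoc, c2, Matrix.one_mul, trace_diagonal]

lemma meas_tr {Ω : Type*} [TopologicalSpace Ω] [MeasurableSpace Ω] [BorelSpace Ω] {w : Ω → ℂ}
    {M : Ω → Matrix ι ι ℝ} (hw : Continuous w) (hM : Continuous M) :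
    Measurable fun ω => tr (w ω) (M ω) := by
  have hc : Continuous fun ω => Zm (fun _ : ι => w ω) (M ω) :=
    (Continuous.matrix_diagonal (continuous_pi fun _ => hw)).sub
      (hM.matrix_map Complex.continuous_ofReal)
  have e : ∀ ω, tr (w ω) (M ω) = ((Zm (fun _ : ι => w ω) (M ω)).det)⁻¹ *
      (Zm (fun _ : ι => w ω) (M ω)).adjugate.trace := fun ω => by
    rw [tr, res, Matrix.inv_def, Ring.inverse_eq_inv', trace_smul, smul_eq_mul]
  simp only [e]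
  exact hc.matrix_det.measurable.inv.mul hc.matrix_adjugate.matrix_trace.measurable

end mat

variable {n : ℕ}

lemma Wm_eq (e c τ : Qe.V n) {W : Qe.Mx n} (hW : Wᵀ = W) : ∃ v1 v2 v3 : Qe.V n,
    Qe.Wm e c τ W = W + (1 / 2 : ℝ) • vecMulVec v1 v1 + (-1 / 2 : ℝ) • vecMulVec v2 v2 +
      (1 / (n : ℝ)) • vecMulVec v3 v3 := by
  set v : Qe.V n := c - W *ᵥ e + (((W *ᵥ e) ⬝ᵥ e - e ⬝ᵥ c) / 2) • e with hv
  refine ⟨e + v, e - v, Qe.R1 e *ᵥ τ, ?_⟩
  have h1 : e ᵥ* W = W *ᵥ e := by rw [← hW, vecMul_transpose, hW]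
  have h2 : τ ᵥ* Qe.R1 e = Qe.R1 e *ᵥ τ := by
    rw [← mulVec_transpose, Qe.R1, transpose_sub, transpose_one, transpose_vecMulVec]
  have h3 : Qe.R1 e * W * Qe.R1 e = W - vecMulVec e (W *ᵥ e) - vecMulVec (W *ᵥ e) e +
      vecMulVec e (((W *ᵥ e) ⬝ᵥ e) • e) := by
    rw [Qe.R1, Matrix.sub_mul, Matrix.one_mul, vecMulVec_mul, h1, Matrix.mul_sub, Matrix.mul_one,
      Matrix.sub_mul, mul_vecMulVec, vecMulVec_mul_vecMulVec]
    abel
  rw [Qe.Wm, glue, Matrix.mul_add, Matrix.add_mul, h3, Matrix.mul_smul, Matrix.smul_mul,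
    mul_vecMulVec, vecMulVec_mul, h2, rk2]
  ext i j
  simp only [hv, Matrix.add_apply, Matrix.sub_apply, Matrix.smul_apply, vecMulVec_apply,
    Pi.add_apply, Pi.sub_apply, Pi.smul_apply, smul_eq_mul]
  ring

lemma tr_Wm {z : ℂ} (hz : 0 < z.im) (e c τ : Qe.V n) {W : Qe.Mx n} (hW : Wᵀ = W) :
    ‖tr z (Qe.Wm e c τ W) - tr z W‖ ≤ 3 / z.im := by
  obtain ⟨v1, v2, v3, h⟩ := Wm_eq e c τ hW
  have s1 := symm_add hW (1 / 2) v1
  have s2 := symm_add s1 (-1 / 2) v2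
  have h1 := tr_rank1 hz hW (1 / 2) v1
  have h2 := tr_rank1 hz s1 (-1 / 2) v2
  have h3 := tr_rank1 hz s2 (1 / (n : ℝ)) v3
  rw [h]
  have h4 := fun a b c : ℂ => norm_sub_le_norm_sub_add_norm_sub a b c
  refine (h4 _ _ _).trans ((add_le_add h3 ((h4 _ _ _).trans (add_le_add h2 h1))).trans
    (le_of_eq (by ring)))

/-! ### the disc -/

/-- geometry of the disc -/
lemma disc {g : ℝ} (h0 : 1 / 2 ≤ g) (h1 : g < 1) {γ : ℂ} (h : ‖γ - g‖ ≤ (1 - g) / 16) :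
    1 / 3 ≤ ‖γ‖ ∧ ‖γ‖ ≤ 1 - (1 - g) / 2 ∧
      ∀ a : ℝ, a ≤ 2 + (Qe.zz g - 2) / 2 → γ + γ⁻¹ - a ≠ 0 := by
  have ng : ‖(g : ℂ)‖ = g := by rw [Complex.norm_real, Real.norm_of_nonneg (by linarith)]
  have a1 : g - (1 - g) / 16 ≤ ‖γ‖ := by
    have := norm_sub_norm_le (g : ℂ) γ
    rw [norm_sub_rev, ng] at this; linarith
  have a2 : ‖γ‖ ≤ g + (1 - g) / 16 := by
    have := norm_sub_norm_le γ (g : ℂ)
    rw [ng] at this; linarith
  refine ⟨by linarith, by linarith, fun a ha h2 => ?_⟩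
  have γ0 : γ ≠ 0 := by rintro rfl; simp at a1; linarith
  have g0 : (0 : ℝ) < g := by linarith
  have e1 : γ * (((g + 1 / g - a) * g : ℝ) : ℂ) = (γ - g) * ((1 - g ^ 2 : ℝ) - g * (γ - g)) := by
    have : (g : ℂ) ≠ 0 := by exact_mod_cast g0.ne'
    have e2 : (a : ℂ) = γ + γ⁻¹ := by linear_combination -h2
    push_cast
    rw [e2]; field_simp; ring
  have a3 : (1 - g) ^ 2 / 2 ≤ (g + 1 / g - a) * g := by
    have : (g + 1 / g - (2 + (g + 1 / g - 2) / 2)) * g = (1 - g) ^ 2 / 2 := by field_simp; ring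
    rw [← this]; unfold Qe.zz at ha; gcongr
  have a4 : ‖((1 - g ^ 2 : ℝ) : ℂ) - g * (γ - g)‖ ≤ (1 - g ^ 2) + g * ((1 - g) / 16) := by
    refine (norm_sub_le _ _).trans ?_
    rw [Complex.norm_real, Real.norm_of_nonneg (by nlinarith), norm_mul, ng]
    gcongr
  have a5 := congrArg norm e1
  rw [norm_mul, norm_mul, Complex.norm_real,
    Real.norm_of_nonneg (le_trans (by positivity) a3)] at a5
  have a6 : 1 / 3 * ((1 - g) ^ 2 / 2) ≤ (1 - g) / 16 * ((1 - g ^ 2) + g * ((1 - g) / 16)) :=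
    calc _ ≤ ‖γ‖ * ((g + 1 / g - a) * g) := by gcongr; linarith
      _ = _ := a5
      _ ≤ _ := by gcongr
  have a7 : 0 < (1 - g) ^ 2 := by have : 0 < 1 - g := by linarith
                                  positivity
  nlinarith

/-- the centred trace as a function of `γ` -/
def ff (a : Fin n → ℝ) (γ : ℂ) : ℂ := ∑ i, (γ + γ⁻¹ - a i)⁻¹ - n * γ

/-- reflection into the lower half plane -/
def lo (γ : ℂ) : ℂ := γ.re - |γ.im| * Complex.I

lemma lo_cases (γ : ℂ) : lo γ = γ ∨ lo γ = star γ := by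
  rcases le_total γ.im 0 with h | h
  · left; apply Complex.ext <;> simp [lo, abs_of_nonpos h]
  · right; apply Complex.ext <;> simp [lo, abs_of_nonneg h]

lemma norm_lo (γ : ℂ) : ‖lo γ‖ = ‖γ‖ := by
  rcases lo_cases γ with h | h <;> rw [h]
  exact norm_star _

lemma lo_im (γ : ℂ) : (lo γ).im = -|γ.im| := by simp [lo]

lemma norm_ff_lo (a : Fin n → ℝ) (γ : ℂ) : ‖ff a (lo γ)‖ = ‖ff a γ‖ := by
  rcases lo_cases γ with h | h <;> rw [h]
  rw [← norm_star (ff a γ)]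
  simp [ff]

/-- the spectral parameter -/
def ww (γ : ℂ) : ℂ := lo γ + (lo γ)⁻¹

lemma inv_lo_im (γ : ℂ) : ((lo γ)⁻¹).im = |γ.im| / ‖γ‖ ^ 2 := by
  rw [Complex.inv_im, lo_im, Complex.normSq_eq_norm_sq, norm_lo, neg_neg]

lemma ww_im {d : ℝ} (hd : 0 ≤ d) {γ : ℂ} (h0 : 1 / 3 ≤ ‖γ‖) (h1 : ‖γ‖ ≤ 1 - d / 2) :
    |γ.im| ≤ ((lo γ)⁻¹).im ∧ |γ.im| * (d / 2) ≤ (ww γ).im := by
  have hy := abs_nonneg γ.im
  have hR : 0 < ‖γ‖ ^ 2 := by positivity
  have h2 : ‖γ‖ ^ 2 ≤ 1 - d / 2 := by nlinarith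
  rw [ww, Complex.add_im, inv_lo_im, lo_im]
  have h3 : |γ.im| * (1 + d / 2) ≤ |γ.im| / ‖γ‖ ^ 2 := by
    rw [le_div_iff₀ hR, mul_assoc]
    exact mul_le_of_le_one_right hy (by nlinarith)
  constructor <;> nlinarith

lemma norm_wt {ε : ℂ} (h : ‖ε‖ = 1) : ‖1 - ε ^ 2‖ = 2 * |ε.im| := by
  have h1 : ε * star ε = 1 := by
    rw [Complex.star_def, Complex.mul_conj, Complex.normSq_eq_norm_sq, h]; simp
  have h2 : 1 - ε ^ 2 = -ε * (((2 * ε.im : ℝ) : ℂ) * Complex.I) := by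
    rw [← Complex.sub_conj, ← Complex.star_def]; linear_combination -h1
  rw [h2, norm_mul, norm_neg, h, norm_mul, Complex.norm_I, Complex.norm_real, Real.norm_eq_abs,
    abs_mul]
  simp

/-- the mean value formula with a weight that vanishes on the real axis -/
lemma mean {g : ℝ} (h0 : 1 / 2 ≤ g) (h1 : g < 1) {a : Fin n → ℝ}
    (ha : ∀ i, a i ≤ 2 + (Qe.zz g - 2) / 2) :
    ENNReal.ofReal (2 * Real.pi * ‖ff a g‖) ≤ ∫⁻ θ in Set.Ioc 0 (2 * Real.pi),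
      ENNReal.ofReal (16 * |Real.sin θ| ^ 4 * ‖ff a (circleMap g ((1 - g) / 16) θ)‖) := by
  set ρ := (1 - g) / 16 with hρ
  have hρ0 : 0 < ρ := by rw [hρ]; linarith
  let h : ℂ → ℂ := fun γ => ff a γ * (1 - ((γ - g) / ρ) ^ 2) ^ 4
  have hd : ∀ γ ∈ Metric.closedBall (g : ℂ) |ρ|, DifferentiableAt ℂ h γ := fun γ hγ => by
    rw [abs_of_pos hρ0, Metric.mem_closedBall, dist_eq_norm] at hγ
    obtain ⟨b1, -, b3⟩ := disc h0 h1 hγ
    have γ0 : γ ≠ 0 := by rintro rfl; simp at b1; linarith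
    refine DifferentiableAt.fun_mul (DifferentiableAt.fun_sub ?_ (by fun_prop)) (by fun_prop)
    refine DifferentiableAt.fun_sum fun i _ => DifferentiableAt.fun_inv ?_ (b3 _ (ha i))
    exact (differentiableAt_id.fun_add (differentiableAt_id.fun_inv γ0)).sub_const _
  have hm : Real.circleAverage h g ρ = h g :=
    circleAverage_of_differentiable_on_off_countable (s := ∅) Set.countable_empty
      (fun γ hγ => (hd γ hγ).continuousAt.continuousWithinAt)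
      fun γ hγ => hd γ (Metric.ball_subset_closedBall hγ.1)
  have e1 : h g = ff a g := by simp [h]
  have hπ : 0 < 2 * Real.pi := by positivity
  rw [e1, Real.circleAverage_def, intervalIntegral.integral_of_le hπ.le] at hm
  have e2 : 2 * Real.pi * ‖ff a g‖ =
      ‖∫ θ in Set.Ioc 0 (2 * Real.pi), h (circleMap g ρ θ)‖ := by
    rw [← hm, norm_smul, Real.norm_of_nonneg (by positivity), ← mul_assoc,
      mul_inv_cancel₀ hπ.ne', one_mul]
  rw [e2, ofReal_norm]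
  refine (enorm_integral_le_lintegral_enorm _).trans (le_of_eq (lintegral_congr fun θ => ?_))
  rw [← ofReal_norm]
  congr 1
  have e3 : (circleMap g ρ θ - g) / ρ = Complex.exp (θ * Complex.I) := by
    have : (ρ : ℂ) ≠ 0 := by exact_mod_cast hρ0.ne'
    rw [circleMap]; field_simp; ring
  simp only [h]
  rw [e3, norm_mul, norm_pow, norm_wt (Complex.norm_exp_ofReal_mul_I θ),
    Complex.exp_ofReal_mul_I_im]
  ring

end Crest.Agent.T157.Kb.Tr61
end
end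

-- ▼ part T157/KbTr_61

/-!
# Row 157, A2 (helper61): the base event (TR)

`trCore : TrCore`: off probability `exp (-H)`, a planted GOE matrix with spectrum below
`2 + s / 2` has `(tr (z - W)⁻¹ - n g)² s² ≤ C H` at `z = g + 1 / g = 2 + s`.
-/

set_option autoImplicit false

noncomputable section

namespace Crest.Agent.T157.Kb

open MeasureTheory Matrix Finset
open scoped ENNReal
open Crest.Agent.T157.E (gv)
open Crest.Agent.T157.Cond Crest.Agent.T157.Qe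
open Crest.Agent.T157.Dq (Dg)
open Crest.Agent.T157.Conc (ex)

/-- **(TR)** -/
def TrCore : Prop := ∃ C : ℝ, 0 < C ∧ ∀ (n : ℕ) (g H : ℝ) (e c τ : V n),
  1 / 2 ≤ g → g < 1 → Real.log n ≤ H → 1 ≤ (n : ℝ) ^ 2 * (zz g - 2) ^ 3 →
  GOE n {W | ∃ a, Dg (Wm e c τ W) a ∧ (∀ i, a i ≤ 2 + (zz g - 2) / 2) ∧
    C * H < (∑ i, (zz g - a i)⁻¹ - n * g) ^ 2 * (zz g - 2) ^ 2} ≤ ex (-H)

namespace Tr61

variable {n : ℕ}

/-- the point of the circle -/
def cm (g θ : ℝ) : ℂ := circleMap g ((1 - g) / 16) θ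

/-- the weighted statistic -/
def yy (n : ℕ) (g t θ : ℝ) (W : Mx n) : ℝ :=
  32 * |Real.sin θ| ^ 4 * ‖tr (ww (cm g θ)) W - n * lo (cm g θ)‖ / t

lemma cm_facts {g : ℝ} (h0 : 1 / 2 ≤ g) (h1 : g < 1) (θ : ℝ) :
    1 / 3 ≤ ‖cm g θ‖ ∧ (1 - g) * |Real.sin θ| / 16 ≤ ((lo (cm g θ))⁻¹).im ∧
      (1 - g) ^ 2 * |Real.sin θ| / 32 ≤ (ww (cm g θ)).im := by
  have hd : 0 ≤ 1 - g := by linarith
  have h2 : ‖cm g θ - g‖ ≤ (1 - g) / 16 := by
    rw [cm, circleMap_sub_center, norm_circleMap_zero, abs_of_nonneg (by linarith)]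
  obtain ⟨b1, b2, -⟩ := disc h0 h1 h2
  obtain ⟨b3, b4⟩ := ww_im hd b1 b2
  have h3 : |(cm g θ).im| = (1 - g) * |Real.sin θ| / 16 := by
    have : (cm g θ).im = (1 - g) / 16 * Real.sin θ := by
      rw [cm, circleMap, Complex.add_im, Complex.ofReal_im, Complex.im_ofReal_mul,
        Complex.exp_ofReal_mul_I_im, zero_add]
    rw [this, abs_mul, abs_of_nonneg (by linarith)]; ring
  rw [h3] at b3 b4
  exact ⟨b1, b3, by linarith⟩

lemma meas_yy {g : ℝ} (h0 : 1 / 2 ≤ g) (h1 : g < 1) (t : ℝ) :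
    Measurable fun p : Mx n × ℝ => yy n g t p.2 p.1 := by
  have c1 : Continuous fun p : Mx n × ℝ => lo (cm g p.2) := by
    unfold lo cm; fun_prop
  have c2 : Continuous fun p : Mx n × ℝ => ww (cm g p.2) := by
    refine c1.add (c1.inv₀ fun p h => ?_)
    have h2 := (cm_facts h0 h1 p.2).1
    rw [← norm_lo, h, norm_zero] at h2; linarith
  have m1 := meas_tr c2 (continuous_fst (X := Mx n) (Y := ℝ))
  unfold yy
  exact (((by fun_prop : Continuous fun p : Mx n × ℝ => 32 * |Real.sin p.2| ^ 4).measurable).mul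
    (m1.sub (continuous_const.mul c1).measurable).norm).div_const t

lemma half_le {y : ℝ} (hy : 0 ≤ y) (j : ℕ) : y ≤ 1 + y ^ (j + 1) := by
  rcases le_total y 1 with h | h
  · have : 0 ≤ y ^ (j + 1) := by positivity
    linarith
  · have : y ≤ y ^ (j + 1) := le_self_pow₀ h (Nat.succ_ne_zero j)
    linarith

/-- the deterministic inclusion -/
lemma incl {g t : ℝ} (h0 : 1 / 2 ≤ g) (h1 : g < 1) (ht : 0 < t) (j : ℕ) {e c τ : V n} {W : Mx n}
    (hW : Wᵀ = W) {a : V n} (hD : Dg (Wm e c τ W) a) (ha : ∀ i, a i ≤ 2 + (zz g - 2) / 2)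
    (hY : ∫⁻ θ in Set.Ioc 0 (2 * Real.pi), ENNReal.ofReal (yy n g t θ W ^ (j + 1)) < 1) :
    ‖ff a g‖ ≤ 1536 / (1 - g) ^ 2 + t := by
  have hd : 0 < 1 - g := by linarith
  have hπ := Real.pi_gt_three
  have pt : ∀ θ, ENNReal.ofReal (16 * |Real.sin θ| ^ 4 * ‖ff a (cm g θ)‖) ≤
      ENNReal.ofReal (1536 / (1 - g) ^ 2 + t / 2) +
        ENNReal.ofReal (t / 2) * ENNReal.ofReal (yy n g t θ W ^ (j + 1)) := fun θ => by
    have y0 : 0 ≤ yy n g t θ W := by unfold yy; positivity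
    rw [← ENNReal.ofReal_mul (by positivity), ← ENNReal.ofReal_add (by positivity) (by positivity)]
    refine ENNReal.ofReal_le_ofReal ?_
    have hS1 : |Real.sin θ| ≤ 1 := Real.abs_sin_le_one θ
    rcases (abs_nonneg (Real.sin θ)).eq_or_lt with hS | hS
    · rw [← hS]; simp only [ne_eq, OfNat.ofNat_ne_zero, not_false_eq_true, zero_pow, mul_zero,
        zero_mul]; positivity
    obtain ⟨-, -, b3⟩ := cm_facts h0 h1 θ
    have hη : 0 < (ww (cm g θ)).im := lt_of_lt_of_le (by positivity) b3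
    have a1 : ‖ff a (cm g θ)‖ ≤ 3 / (ww (cm g θ)).im +
        ‖tr (ww (cm g θ)) W - n * lo (cm g θ)‖ := by
      have e1 : ff a (lo (cm g θ)) = tr (ww (cm g θ)) (Wm e c τ W) - n * lo (cm g θ) := by
        rw [tr_dg hη hD]; rfl
      rw [← norm_ff_lo, e1]
      exact (norm_sub_le_norm_sub_add_norm_sub _ (tr (ww (cm g θ)) W) _).trans
        (add_le_add (tr_Wm hη e c τ hW) le_rfl)
    have a2 : 3 / (ww (cm g θ)).im ≤ 3 / ((1 - g) ^ 2 * |Real.sin θ| / 32) := by gcongr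
    have a3 := half_le y0 j
    have a4 : |Real.sin θ| ^ 3 ≤ 1 := pow_le_one₀ hS.le hS1
    calc _ ≤ 16 * |Real.sin θ| ^ 4 * (3 / ((1 - g) ^ 2 * |Real.sin θ| / 32) +
          ‖tr (ww (cm g θ)) W - n * lo (cm g θ)‖) := by gcongr; linarith
      _ = 1536 / (1 - g) ^ 2 * |Real.sin θ| ^ 3 + t / 2 * yy n g t θ W := by
          unfold yy; field_simp; ring
      _ ≤ 1536 / (1 - g) ^ 2 * 1 + t / 2 * (1 + yy n g t θ W ^ (j + 1)) := by gcongr
      _ = _ := by ring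
  have h2 := (mean h0 h1 ha).trans (lintegral_mono pt)
  rw [lintegral_add_left measurable_const, lintegral_const_mul' _ _ ENNReal.ofReal_ne_top,
    setLIntegral_const, Real.volume_Ioc, sub_zero] at h2
  have h3 := h2.trans (add_le_add le_rfl (mul_le_mul_right hY.le _))
  rw [mul_one, ← ENNReal.ofReal_mul (by positivity),
    ← ENNReal.ofReal_add (by positivity) (by positivity),
    ENNReal.ofReal_le_ofReal_iff (by positivity)] at h3
  have h4 : 2 * Real.pi * ‖ff a g‖ ≤ 2 * Real.pi * (1536 / (1 - g) ^ 2 + t) := by nlinarith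
  exact le_of_mul_le_mul_left h4 (by positivity)

/-- the expectation at one angle -/
lemma expect {g r : ℝ} (h0 : 1 / 2 ≤ g) (h1 : g < 1) (hn : 1 ≤ 3 * n * (1 - g) ^ 3) (hr : 1 ≤ r)
    (k : ℕ) (hk : (k : ℝ) + 2 ≤ 4 * r ^ 2) (θ : ℝ) :
    ∫⁻ W, ENNReal.ofReal (yy n g (256 * 10 ^ 7 * r / (1 - g) ^ 2) θ W ^ (2 * k + 3 + 1)) ∂GOE n ≤
      ENNReal.ofReal ((1 / 100) ^ (2 * k + 4) * (3 * 10 ^ 6 * n ^ 2)) := by
  have hS1 : |Real.sin θ| ≤ 1 := Real.abs_sin_le_one θ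
  rcases (abs_nonneg (Real.sin θ)).eq_or_lt with hS | hS
  · simp [yy, ← hS]
  obtain ⟨b1, b2, b3⟩ := cm_facts h0 h1 θ
  have hm : Measurable fun W : Mx n =>
      yy n g (256 * 10 ^ 7 * r / (1 - g) ^ 2) θ W ^ (2 * k + 3 + 1) :=
    ((meas_yy (n := n) h0 h1 (256 * 10 ^ 7 * r / (1 - g) ^ 2)).comp
      (measurable_id.prodMk (measurable_const (a := θ)))).pow_const (2 * k + 3 + 1)
  rw [GOE, goe, lintegral_map hm.ennreal_ofReal (measurable_symG _)]
  unfold yy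
  have hd : 0 < 1 - g := by linarith
  have hd1 : 1 - g ≤ 1 / 2 := by linarith
  have γ0 : lo (cm g θ) ≠ 0 := fun h => by rw [← norm_lo, h, norm_zero] at b1; linarith
  have b4 : ‖(lo (cm g θ))⁻¹‖ ≤ 3 := by
    rw [norm_inv, norm_lo]; exact (inv_le_comm₀ (by linarith) (by norm_num)).2 (by linarith)
  generalize 1 - g = d at *
  generalize |Real.sin θ| = S at *
  have hn0 : (0 : ℝ) < n := by
    rcases (Nat.cast_nonneg (α := ℝ) n).eq_or_lt with h | h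
    · rw [← h] at hn; norm_num at hn
    · exact h
  have hη : 0 < (ww (cm g θ)).im := lt_of_lt_of_le (by positivity) b3
  have hs2 : (1 / √(n : ℝ)) ^ 2 = 1 / n := by rw [div_pow, Real.sq_sqrt hn0.le, one_pow]
  have hσ : 1 / (n : ℝ) ≤ 3 * d ^ 3 := by rw [div_le_iff₀ hn0]; linarith
  have hS2 : S ^ 2 ≤ 1 := pow_le_one₀ hS.le hS1
  have hdS : d ^ 2 * S ≤ 1 := by nlinarith
  obtain ⟨hi, hb⟩ := moment (ι := Fin n) (s := 1 / √(n : ℝ)) hη
    (by rw [hs2, Fintype.card_fin]; field_simp) (mul_inv_cancel₀ γ0) rfl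
    (l := d * S / 16) (T := 8 * 10 ^ 5 * r * (1 / n) / (d ^ 2 * S ^ 3)) (Lm := 35 / (d ^ 2 * S))
    (by positivity) b2 k (by positivity)
    (by
      rw [hs2]
      calc _ ≤ 4 * (1 / n / (d ^ 2 * S / 32) +
            2 * (1 / n * (3 * d ^ 3)) / ((d ^ 2 * S / 32) ^ 2 * (d * S / 16))) := by
            rw [sq (1 / (n : ℝ))]; gcongr
        _ = (128 * S ^ 2 + 393216) * (1 / n) / (d ^ 2 * S ^ 3) := by field_simp; ring
        _ ≤ _ := by gcongr; linarith)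
    (by
      rw [hs2]
      have hS4 : S ^ 4 ≤ 1 := pow_le_one₀ hS.le hS1
      calc _ ≤ 16 * (4 * r ^ 2) * (1 / n) ^ 2 / (d ^ 2 * S / 32) ^ 2 := by gcongr
        _ = 65536 * S ^ 4 * (r * (1 / n) / (d ^ 2 * S ^ 3)) ^ 2 := by field_simp; ring
        _ ≤ (8 * 10 ^ 5) ^ 2 * (r * (1 / n) / (d ^ 2 * S ^ 3)) ^ 2 := by gcongr; linarith
        _ = _ := by ring)
    (by
      calc _ ≤ 1 / (d ^ 2 * S / 32) + 3 / (d ^ 2 * S) := by
            gcongr
            exact b4.trans (by rw [le_div_iff₀ (by positivity)]; linarith)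
        _ = _ := by field_simp; ring)
  have e : ∀ x : Fin n × Fin n → ℝ,
      (32 * S ^ 4 * ‖tr (ww (cm g θ)) (symG (1 / √(n : ℝ)) x) - n * lo (cm g θ)‖ /
        (256 * 10 ^ 7 * r / d ^ 2)) ^ (2 * k + 3 + 1) =
      (32 * S ^ 4 * n / (256 * 10 ^ 7 * r / d ^ 2)) ^ (2 * k + 4) *
        ‖St.Stein79.mm (1 / √(n : ℝ)) (ww (cm g θ)) x - lo (cm g θ)‖ ^ (2 * k + 4) := fun x => by
    have : tr (ww (cm g θ)) (symG (1 / √(n : ℝ)) x) - n * lo (cm g θ) =
        n * (St.Stein79.mm (1 / √(n : ℝ)) (ww (cm g θ)) x - lo (cm g θ)) := by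
      have : (n : ℂ) ≠ 0 := by exact_mod_cast hn0.ne'
      rw [St.Stein79.mm, Fr.mtr, hs2, tr]; push_cast; field_simp
    rw [this, norm_mul, Complex.norm_natCast, ← mul_pow]
    congr 1; ring
  simp only [e]
  rw [← ofReal_integral_eq_lintegral_ofReal (hi.const_mul _) (ae_of_all _ fun x => by positivity),
    integral_const_mul]
  refine ENNReal.ofReal_le_ofReal ((mul_le_mul_of_nonneg_left hb (by positivity)).trans ?_)
  have a1 : S ^ (2 * k) ≤ 1 := pow_le_one₀ hS.le hS1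
  have a2 : 1 / d ^ 6 ≤ 9 * (n : ℝ) ^ 2 := by
    rw [div_le_iff₀ (by positivity)]; nlinarith
  calc _ = (32 * S ^ 4 * n / (256 * 10 ^ 7 * r / d ^ 2) *
          (8 * 10 ^ 5 * r * (1 / n) / (d ^ 2 * S ^ 3))) ^ (2 * k + 4) *
        ((35 / (d ^ 2 * S)) ^ 2 / (d * S / 16) ^ 2) := by rw [mul_pow]; ring
    _ = (1 / 100 * S) ^ (2 * k + 4) * ((35 / (d ^ 2 * S)) ^ 2 / (d * S / 16) ^ 2) := by
        congr 2; field_simp; ring
    _ = (1 / 100) ^ (2 * k + 4) * (313600 * S ^ (2 * k) * (1 / d ^ 6)) := by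
        rw [mul_pow, pow_add S]; field_simp; ring
    _ ≤ (1 / 100) ^ (2 * k + 4) * (313600 * 1 * (9 * n ^ 2)) := by gcongr
    _ ≤ _ := mul_le_mul_of_nonneg_left (by nlinarith [sq_nonneg (n : ℝ)]) (by positivity)

end Tr61

open Tr61 in
/-- **(TR)** -/
theorem trCore : TrCore := by
  refine ⟨36 * 10 ^ 18, by norm_num, fun n g H e c τ h0 h1 hH hn => ?_⟩
  have hd : 0 < 1 - g := by linarith
  have g0 : 0 < g := by linarith
  have es : zz g - 2 = (1 - g) ^ 2 / g := by unfold zz; field_simp; ring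
  have s0 : 0 ≤ zz g - 2 := by rw [es]; positivity
  have s1 : zz g - 2 ≤ 2 * (1 - g) ^ 2 := by
    rw [es, div_le_iff₀ g0]; nlinarith [sq_nonneg (1 - g)]
  have n1 : 1 ≤ 3 * n * (1 - g) ^ 3 := by
    have a1 : (n : ℝ) ^ 2 * (zz g - 2) ^ 3 ≤ n ^ 2 * (2 * (1 - g) ^ 2) ^ 3 := by gcongr
    refine le_of_sq_le_sq ?_ (by positivity)
    nlinarith [sq_nonneg ((n : ℝ) * (1 - g) ^ 3)]
  have n3 : (3 : ℝ) ≤ n := by
    have a1 : (1 - g) ^ 3 ≤ (1 / 2) ^ 3 := by gcongr; linarith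
    have a2 : (2 : ℝ) < n := by nlinarith [Nat.cast_nonneg (α := ℝ) n]
    exact_mod_cast (show 2 < n by exact_mod_cast a2)
  have en : (n : ℝ) ≤ Real.exp H := (Real.log_le_iff_le_exp (by linarith)).1 hH
  have H1 : 1 ≤ H := by
    refine le_trans ?_ hH
    rw [Real.le_log_iff_exp_le (by linarith)]
    linarith [Real.exp_one_lt_d9]
  set r := √H with hr
  have r2 : r ^ 2 = H := Real.sq_sqrt (by linarith)
  have r1 : 1 ≤ r := Real.one_le_sqrt.2 H1
  set k := ⌈H⌉₊ with hk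
  have k1 : H ≤ k := Nat.le_ceil H
  have k2 : (k : ℝ) + 2 ≤ 4 * r ^ 2 := by
    have := Nat.ceil_lt_add_one (show 0 ≤ H by linarith)
    rw [r2]; linarith
  set t := 256 * 10 ^ 7 * r / (1 - g) ^ 2 with ht
  have t0 : 0 < t := by positivity
  let Y : Mx n → ℝ≥0∞ := fun W =>
    ∫⁻ θ in Set.Ioc 0 (2 * Real.pi), ENNReal.ofReal (yy n g t θ W ^ (2 * k + 3 + 1))
  have hm : Measurable fun p : Mx n × ℝ => ENNReal.ofReal (yy n g t p.2 p.1 ^ (2 * k + 3 + 1)) :=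
    ((meas_yy h0 h1 t).pow_const _).ennreal_ofReal
  have hY : Measurable Y := hm.lintegral_prod_right'
  have sub : ∀ᵐ W ∂GOE n, W ∈ {W | ∃ a, Dg (Wm e c τ W) a ∧ (∀ i, a i ≤ 2 + (zz g - 2) / 2) ∧
      36 * 10 ^ 18 * H < (∑ i, (zz g - a i)⁻¹ - n * g) ^ 2 * (zz g - 2) ^ 2} →
      W ∈ {W | 1 ≤ Y W} := by
    filter_upwards [goe_ae_symm (ι := Fin n) (1 / √(n : ℝ))] with W hW ⟨a, hD, ha, hC⟩
    by_contra hc
    have h2 := incl h0 h1 t0 (2 * k + 3) hW hD ha (not_le.1 hc)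
    have e1 : ff a g = ((∑ i, (zz g - a i)⁻¹ - n * g : ℝ) : ℂ) := by
      simp only [ff, zz, one_div]; push_cast; rfl
    rw [e1, Complex.norm_real, Real.norm_eq_abs] at h2
    have h3 : 1536 / (1 - g) ^ 2 + t ≤ 3 * 10 ^ 9 * r / (1 - g) ^ 2 := by
      rw [ht, ← add_div]; gcongr; linarith
    have h4 : |∑ i, (zz g - a i)⁻¹ - n * g| * (zz g - 2) ≤ 6 * 10 ^ 9 * r :=
      calc _ ≤ 3 * 10 ^ 9 * r / (1 - g) ^ 2 * (2 * (1 - g) ^ 2) := by gcongr; linarith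
        _ = _ := by field_simp; ring
    have h5 := pow_le_pow_left₀ (by positivity) h4 2
    rw [mul_pow, sq_abs, mul_pow, r2] at h5
    linarith
  refine (measure_mono_ae sub).trans ((meas_ge_le_lintegral_div hY.aemeasurable one_ne_zero
    ENNReal.one_ne_top).trans ?_)
  rw [div_one, lintegral_lintegral_swap hm.aemeasurable]
  refine (lintegral_mono fun θ => expect h0 h1 n1 r1 k k2 θ).trans ?_
  rw [setLIntegral_const, Real.volume_Ioc, sub_zero, ← ENNReal.ofReal_mul (by positivity)]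
  refine ENNReal.ofReal_le_ofReal ?_
  have a1 : ((1 : ℝ) / 100) ^ (2 * k) ≤ Real.exp (-3 * H) := by
    have b1 : ((1 : ℝ) / 100) ^ 2 ≤ Real.exp (-3) := by
      have b2 : Real.exp 3 ≤ 27 := by
        rw [show (3 : ℝ) = (3 : ℕ) * 1 by norm_num, Real.exp_nat_mul]
        calc _ ≤ (3 : ℝ) ^ 3 := by gcongr; linarith [Real.exp_one_lt_d9]
          _ = _ := by norm_num
      rw [Real.exp_neg, le_inv_comm₀ (by norm_num) (Real.exp_pos 3)]
      linarith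
    calc _ = (((1 : ℝ) / 100) ^ 2) ^ k := pow_mul _ _ _
      _ ≤ Real.exp (-3) ^ k := by gcongr
      _ = Real.exp (k * -3) := (Real.exp_nat_mul _ _).symm
      _ ≤ _ := Real.exp_le_exp.2 (by linarith)
  have a2 : Real.exp (-3 * H) * Real.exp H ^ 2 = Real.exp (-H) := by
    rw [← Real.exp_nat_mul, ← Real.exp_add]; congr 1; push_cast; ring
  have a3 := Real.pi_lt_four
  calc _ = (1 / 100) ^ (2 * k) * (n : ℝ) ^ 2 * (6 / 100 * Real.pi) := by rw [pow_add]; ring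
    _ ≤ Real.exp (-3 * H) * Real.exp H ^ 2 * 1 := by gcongr; linarith
    _ = _ := by rw [mul_one, a2]


end Crest.Agent.T157.Kb
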