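import Crest.Agent.T157.KpDef_12
import Crest.Agent.R164.HaarCpl

/-!
# Row 157, part A2 (helper12): Kac-Rice tools (density of the planted law, orbit Fubini)
-/

set_option autoImplicit false

noncomputable section

namespace Crest.Agent.T157.Kp

open MeasureTheory Matrix Set
open Crest.Agent.Lib.OrthPoinc Crest.Agent.T157.E Crest.Agent.T157.Tap Crest.Agent.T157.Oc
open Crest.Agent.T157.Od Crest.Agent.T157.Ks.St0
open scoped ENNReal

variable {n k : ℕ} {t : ℝ}

/-- density of `(W, y)` under the planted law -/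
def J (t : ℝ) (W : Mx n) (y : V n) : ℝ≥0∞ := ∑ s, ENNReal.ofReal (jd t W y s)

section meas

variable {α : Type*} [MeasurableSpace α] {W : α → Mx n} {x : α → V n}

@[fun_prop] theorem meas_jd (t : ℝ) (s : Cube n) (hW : Measurable W) (hx : Measurable x) :
    Measurable fun a => jd t (W a) (x a) s := by
  unfold jd ising; fun_prop

@[fun_prop] theorem meas_J (t : ℝ) (hW : Measurable W) (hx : Measurable x) :
    Measurable fun a => J t (W a) (x a) := by
  unfold J; fun_prop

theorem cont_th : Continuous (th : V n → V n) := by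
  have : Continuous Real.tanh := by
    have e : Real.tanh = fun x => Real.sinh x / Real.cosh x := funext Real.tanh_eq_sinh_div_cosh
    rw [e]
    exact Real.continuous_sinh.div Real.continuous_cosh fun x => (Real.cosh_pos x).ne'
  unfold th; fun_prop

theorem cont_Y : Continuous fun z : V n × Mx n => Ymap z.2 1 z.1 := by
  have := cont_th (n := n)
  unfold Ymap avg DD; fun_prop

theorem cont_dt : Continuous fun z : V n × Mx n => dt z.1 z.2 := by
  have := cont_th (n := n)
  refine Continuous.matrix_det ?_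
  unfold Deg.DY B1 B0 avg DD dd; fun_prop




@[fun_prop] theorem meas_Y (hW : Measurable W) (hx : Measurable x) :
    Measurable fun a => Ymap (W a) 1 (x a) := cont_Y.measurable.comp (hx.prodMk hW)

@[fun_prop] theorem meas_dt (hx : Measurable x) (hW : Measurable W) :
    Measurable fun a => dt (x a) (W a) :=
  Measurable.comp (g := fun z : V n × Mx n => dt z.1 z.2) (f := fun a => (x a, W a))
    cont_dt.measurable (hx.prodMk hW)

end meas


/-- the posterior form of the density -/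
theorem jd_eq (ht : 0 < t) (W : Mx n) (y : V n) (s : Cube n) : jd t W y s =
    (2 ^ n * Real.exp (n / 4))⁻¹ * Real.exp (-(n * t / 2)) * Kr.phi t y * ising W y s := by
  have e : -((y - t • sv s) ⬝ᵥ (y - t • sv s)) / (2 * t) =
      -(n * t / 2) + (-(y ⬝ᵥ y) / (2 * t) + y ⬝ᵥ sv s) := by
    simp only [sub_dotProduct, dotProduct_sub, smul_dotProduct, dotProduct_smul, smul_eq_mul,
      sv_dot_self, dotProduct_comm (sv s) y]
    field_simp
    ring
  simp only [jd, Kr.phi, ising, e, Real.exp_add, zero_dotProduct, Real.exp_zero]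
  ring

theorem JP_J (ht : 0 < t) {A : Set (Mx n × V n)} (hA : MeasurableSet A) :
    JP t n A = ∫⁻ W, ∫⁻ y, J t W y * A.indicator 1 (W, y) ∂volume ∂GOE n := by
  rw [JP_apply hA, PW, lintegral_withDensity_eq_lintegral_mul _ meas_LR (meas_law hA)]
  refine lintegral_congr fun W => ?_
  have hm : Measurable fun y : V n => A.indicator (1 : Mx n × V n → ℝ≥0∞) (W, y) :=
    (measurable_one.indicator hA).comp measurable_prodMk_left
  simp only [Pi.mul_apply, law_eq, Finset.mul_sum, J, Finset.sum_mul]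
  rw [lintegral_finsetSum _ fun s _ => by fun_prop]
  refine Finset.sum_congr rfl fun s _ => ?_
  have hB : MeasurableSet {y : V n | (W, y) ∈ A} := measurable_prodMk_left hA
  rw [← mul_assoc, LR_prob, Kr.gv_scale ht, ← lintegral_indicator_one hB,
    lintegral_withDensity_eq_lintegral_mul _ (by fun_prop) (measurable_one.indicator hB),
    ← lintegral_const_mul _ (Measurable.mul (by fun_prop) (measurable_one.indicator hB))]
  refine lintegral_congr fun y => ?_
  rw [jd, ENNReal.ofReal_mul (mul_nonneg (by positivity) ((Pl.wt_ising W 0).nn s)),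
    ENNReal.ofReal_mul (by positivity), ENNReal.ofReal_inv_of_pos (by positivity),
    ENNReal.ofReal_mul (by positivity), ENNReal.ofReal_pow zero_le_two, ENNReal.ofReal_ofNat,
    ENNReal.mul_inv (by simp) (by simp), Pi.mul_apply, ← mul_assoc]
  rfl

/-- double integral over `(x, W)` -/
def II (G : V n → Mx n → ℝ≥0∞) : ℝ≥0∞ := ∫⁻ x, ∫⁻ W, G x W ∂GOE n

theorem II_mono {F G : V n → Mx n → ℝ≥0∞} (h : ∀ x W, Wᵀ = W → F x W ≤ G x W) : II F ≤ II G :=
  lintegral_mono fun x => lintegral_mono_ae ((Cond.goe_ae_symm _).mono (h x))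

theorem II_add {F : V n → Mx n → ℝ≥0∞} (hF : Measurable fun z : V n × Mx n => F z.1 z.2)
    (G : V n → Mx n → ℝ≥0∞) : II (fun x W => F x W + G x W) = II F + II G := by
  rw [II, II, II, ← lintegral_add_left hF.lintegral_prod_right']
  exact lintegral_congr fun x => lintegral_add_left (hF.comp measurable_prodMk_left) _

theorem II_mul (a : ℝ) (F : V n → Mx n → ℝ≥0∞) :
    II (fun x W => ENNReal.ofReal a * F x W) = ENNReal.ofReal a * II F := by
  simp only [II, lintegral_const_mul' _ _ ENNReal.ofReal_ne_top]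

/-- Kac-Rice density of the event `A` with weight `d` -/
def kd (t : ℝ) (d : ℝ → ℝ) (A : Set (Mx n × V n)) (x : V n) (W : Mx n) : ℝ≥0∞ :=
  J t W (Ymap W 1 x) * (ENNReal.ofReal (d (dt x W)) * A.indicator 1 (W, Ymap W 1 x))

theorem meas_kd {d : ℝ → ℝ} (hd : Measurable d) {A : Set (Mx n × V n)} (hA : MeasurableSet A) :
    Measurable fun z : V n × Mx n => kd t d A z.1 z.2 := by
  have h : Measurable fun z : V n × Mx n => A.indicator (1 : Mx n × V n → ℝ≥0∞) (z.2, Ymap z.2 1 z.1) :=
    (measurable_one.indicator hA).comp (by fun_prop)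
  unfold kd; fun_prop

/-- **(DEG) for the planted law**: `KR = P + 2 KR⁻` -/
theorem kr_eq (ht : 0 < t) {A : Set (Mx n × V n)} (hA : MeasurableSet A) :
    II (kd t (fun a => |a|) A) = JP t n A + 2 * II (kd t (fun a => -a) A) := by
  have hm : Measurable fun z : Mx n × V n => J t z.1 z.2 * A.indicator 1 z :=
    Measurable.mul (by fun_prop) (measurable_one.indicator hA)
  rw [II, II, lintegral_lintegral_swap (meas_kd (d := fun a => |a|) (by fun_prop) hA).aemeasurable,
    lintegral_lintegral_swap (f := kd t (fun a => -a) A)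
      (meas_kd (by fun_prop) hA).aemeasurable, JP_J ht hA,
    ← lintegral_const_mul' _ _ (by simp), ← lintegral_add_left hm.lintegral_prod_right']
  refine lintegral_congr fun W => ?_
  have := (Deg.prp_Ymap W 1).kr_eq (hm.comp (measurable_prodMk_left (x := W)))
  simp only [kd, mul_left_comm (J t W _)]
  exact this



/-! ### orbits -/

theorem exists_so (hk : 0 < k) : ∃ μ : Measure (Mat k), IsProbabilityMeasure μ ∧ SOInv μ := by
  obtain ⟨ν, _, hν⟩ := R164.Haar.exists_haar k
  exact ⟨ν.map toSO, Measure.isProbabilityMeasure_map measurable_toSO.aemeasurable,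
    (⟨hν.mem, hν.inv⟩ : OInv ν).toSOInv hk⟩

theorem exists_frame (a b : V (k + 2)) : ∃ E : Matrix (Fin (k + 2)) (Fin k) ℝ,
    Eᵀ * E = 1 ∧ Eᵀ *ᵥ a = 0 ∧ Eᵀ *ᵥ b = 0 := by
  set S : Submodule ℝ (EuclideanSpace ℝ (Fin (k + 2))) :=
    Submodule.span ℝ (range ![WithLp.toLp 2 a, WithLp.toLp 2 b]) with hS
  have h1 : Module.finrank ℝ S ≤ 2 := 
    (finrank_range_le_card (R := ℝ) _).trans_eq (Fintype.card_fin 2)
  have h2 := S.finrank_add_finrank_orthogonal
  rw [finrank_euclideanSpace_fin] at h2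
  have h3 : k ≤ Module.finrank ℝ Sᗮ := by omega
  set e := stdOrthonormalBasis ℝ Sᗮ
  have h4 : ∀ v ∈ S, ∀ j : Fin k, ∑ i, (e (j.castLE h3)).1 i * v i = 0 := fun v hv j => by
    have := (Submodule.mem_orthogonal _ _).1 (e (j.castLE h3)).2 v hv
    simpa [PiLp.inner_apply] using this
  refine ⟨Matrix.of fun i j => (e (j.castLE h3)).1 i, ?_, ?_, ?_⟩
  · ext j l
    have := orthonormal_iff_ite.1 e.orthonormal (l.castLE h3) (j.castLE h3)
    simp only [Submodule.coe_inner, PiLp.inner_apply, Fin.castLE_inj, eq_comm (a := l)] at this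
    simpa [Matrix.mul_apply, one_apply] using this
  · exact funext (h4 (WithLp.toLp 2 a) (Submodule.subset_span ⟨0, rfl⟩))
  · exact funext (h4 (WithLp.toLp 2 b) (Submodule.subset_span ⟨1, rfl⟩))

@[fun_prop] theorem meas_WU {α : Type*} [MeasurableSpace α] (E : Matrix (Fin n) (Fin k) ℝ)
    {W : α → Mx n} {U : α → Mat k} (hW : Measurable W) (hU : Measurable U) :
    Measurable fun a => WU E (W a) (U a) := by
  have h : Continuous fun z : Mx n × Mat k => WU E z.1 z.2 := by
    have : Continuous fun z : Mx n × Mat k => Matrix.of z.2 := continuous_snd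
    unfold WU emb; fun_prop
  exact Measurable.comp (g := fun z : Mx n × Mat k => WU E z.1 z.2) (f := fun a => (W a, U a))
    h.measurable (hW.prodMk hU)

/-- **orbit Fubini** -/
theorem lint_orb {μ : Measure (Mat k)} [IsProbabilityMeasure μ] (hμ : SOInv μ)
    {E : Matrix (Fin n) (Fin k) ℝ} (hE : Eᵀ * E = 1) {F : Mx n → ℝ≥0∞} (hF : Measurable F) :
    ∫⁻ W, F W ∂GOE n = ∫⁻ W, ∫⁻ U, F (WU E W U) ∂μ ∂GOE n := by
  rw [lintegral_lintegral_swap (Measurable.aemeasurable (by fun_prop)),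
    lintegral_congr_ae (μ := μ) (g := fun _ => ∫⁻ W, F W ∂GOE n), lintegral_const, measure_univ,
    mul_one]
  filter_upwards [hμ.mem] with U hU
  conv_rhs => rw [GOE, ← Cond.goe_conj _ (emb E U) (emb_orth hE hU)]
  exact (lintegral_map hF (meas_WU E measurable_id measurable_const)).symm

variable {o : Oo.Orb n k} {x : V n} {μ : Measure (Mat k)} [IsProbabilityMeasure μ]

theorem At.y_eq (h : At o x) (U : Mat k) : Ymap (o.Wu U) 1 x = o.y U := by
  rw [Ymap, Oo.Orb.y, h.h, h.p, chi, one_mul]; abel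

theorem At.jd_orb (h : At o x) (ht : 0 < t) : ∃ K > (0 : ℝ), ∀ U ∈ SO k, ∀ s,
    jd t (o.Wu U) (o.y U) s = K * o.w U s := by
  refine ⟨(2 ^ n * Real.exp (n / 4))⁻¹ * Real.exp (-(n * t / 2)) * Kr.phi t (o.h - o.W *ᵥ o.p) *
    Real.exp (-(o.p ⬝ᵥ o.W *ᵥ o.p / 2)), mul_pos (mul_pos (by positivity) (Kr.phi_pos ht _))
      (Real.exp_pos _), fun U hU s => ?_⟩
  have h1 : (emb o.E U)ᵀ *ᵥ o.p = o.p := by rw [emb_transpose]; exact emb_mulVec _ h.ok.ep
  have h2 : o.p ⬝ᵥ o.Wu U *ᵥ o.p = o.p ⬝ᵥ o.W *ᵥ o.p := by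
    rw [Oo.Orb.Wu, WU, ← mulVec_mulVec, ← mulVec_mulVec, h1, dotProduct_mulVec, ← mulVec_transpose,
      h1]
  have h3 : Kr.phi t (o.y U) = Kr.phi t (o.h - o.W *ᵥ o.p) := by
    rw [Kr.phi, Kr.phi, Oo.Orb.y_eq h.ok, dotProduct_mulVec, ← mulVec_transpose, mulVec_mulVec,
      emb_orth' h.ok.iso hU, one_mulVec]
  rw [jd_eq ht, Oo.Orb.w_eq h.ok, h2, h3, Real.exp_neg (o.p ⬝ᵥ _ / 2)]
  field_simp

/-- the measure `ν` restricted to an orbit is a multiple of the annealed law -/
theorem At.lint (h : At o x) (hμ : SOInv μ) (ht : 0 < t) : ∃ K > (0 : ℝ),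
    ∀ f : Cube n → Mat k → ℝ≥0∞,
      ∫⁻ U, ∑ s, ENNReal.ofReal (jd t (o.Wu U) (o.y U) s) * f s U ∂μ = ENNReal.ofReal K *
        ∫⁻ U, ∑ s, ENNReal.ofReal (prob (o.w U) s) * f s U ∂o.P μ := by
  obtain ⟨K, hK, hj⟩ := h.jd_orb ht
  have hZ := int_Z_pos (σ := sv) (p := o.p) hμ h.ok.iso h.ok.symm (Oo.Orb.wt0 (o := o))
  refine ⟨_, mul_pos hK hZ, fun f => ?_⟩
  rw [Oo.Orb.P, lintegral_withDensity_eq_lintegral_mul_non_measurable₀ _
    (Oo.Orb.int_exp_u hμ h.ok).aemeasurable.ennreal_ofReal (by simp),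
    ← lintegral_const_mul' _ _ ENNReal.ofReal_ne_top]
  refine lintegral_congr_ae (hμ.mem.mono fun U hU => ?_)
  simp only [Pi.mul_apply, Finset.mul_sum, ← mul_assoc]
  refine Finset.sum_congr rfl fun s _ => ?_
  rw [← ENNReal.ofReal_mul (mul_pos hK hZ).le, ← ENNReal.ofReal_mul (by positivity), hj U hU,
    exp_uZ hμ h.ok.iso h.ok.symm Oo.Orb.wt0, prob]
  have h1 := (Oo.Orb.wt (o := o) U).pos.ne'
  congr 2
  rw [Zw]
  field_simp

end Crest.Agent.T157.Kp

end
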