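import Crest.Agent.T157.SLE_23

-- ▼ part T157/KsA_5
section

/-!
# Row 157: the smoothing lemma (SM) along stochastic localisation (helper5)

If `dG_k = a_k dt + b_k · dB` along the localisation driven by `w`, then the diffusion coefficient at
time `0` is `ψ_G(h) - ∫_0^h ψ_a(u) du`, `ψ_F(u) = E[F(u, y_u) (y_u/u - m_0)]`, and Bessel's inequality
bounds `|ψ_F(u)|² ≤ (‖C_0‖ + 1/u) E (F - c)²`.
-/

noncomputable section

namespace Crest.Agent.T157.Ks

open MeasureTheory ProbabilityTheory Filter Topology Set Real Matrix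
open Crest.Agent.T157.E Crest.Agent.T157.SL

variable {Ω ι : Type*} [Fintype Ω] [Fintype ι] [DecidableEq ι] {φ : Ω → ι → ℝ} {w : Ω → ℝ}
  {I : Set ℝ} {G H a : Pt ι → ℝ} {b : ι → Pt ι → ℝ} {u h κ : ℝ}

/-- correlation of `F (y_u)` with the score `y_u / u - m_0` -/
def sc (φ : Ω → ι → ℝ) (w : Ω → ℝ) (F : (ι → ℝ) → ℝ) (u : ℝ) (i : ι) : ℝ :=
  slE φ w u fun _ y => F y * (y i / u - meanV w φ i)

theorem eg_dotc (v : ι → ℝ) : EG I fun p : Pt ι => v ⬝ᵥ p.2 :=
  .sum _ fun i _ => (EG.const (v i)).mul (.coord i)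

theorem mg_coord (i : ι) : MG fun y : ι → ℝ => y i := (EG.coord (I := univ) i).mg (mem_univ 0)

theorem mg_dot (v : ι → ℝ) : MG fun y : ι → ℝ => v ⬝ᵥ y := (eg_dotc (I := univ) v).mg (mem_univ 0)

theorem int_coord (i : ι) : ∫ z, z i ∂Gs ι = 0 := by
  simpa using stein (I := univ) (EG.const 1) (EG.const 0) (mem_univ 0) i
    fun _ => hasDerivAt_const _ _

theorem int_dot (v : ι → ℝ) : ∫ z, v ⬝ᵥ z ∂Gs ι = 0 := by
  simp only [dotProduct]
  rw [integral_finsetSum _ fun i _ => (mg_coord i).int.const_mul _]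
  simp [integral_const_mul, int_coord]

theorem int_dot_sq (v : ι → ℝ) : ∫ z, (v ⬝ᵥ z) ^ 2 ∂Gs ι = v ⬝ᵥ v := by
  have e : ∀ i, ∫ z, z i * (v ⬝ᵥ z) ∂Gs ι = v i := fun i => by
    have := stein (I := univ) (eg_dotc v) (EG.const (v i)) (mem_univ 0) i fun y => by
      have := (hasDerivAt_update y i (y i))
      simpa [dotProduct, Pi.single_apply] using
        HasDerivAt.fun_sum (u := Finset.univ) fun j _ => (hasDerivAt_pi.1 this j).const_mul (v j)
    simpa using this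
  have : ∀ z : ι → ℝ, (v ⬝ᵥ z) ^ 2 = ∑ i, v i * (z i * (v ⬝ᵥ z)) := fun z => by
    rw [sq]; nth_rewrite 1 [dotProduct]; rw [Finset.sum_mul]; simp only [mul_assoc]
  simp only [this]
  rw [integral_finsetSum _ fun i _ => ((mg_coord i).mul (mg_dot v)).int.const_mul _]
  simp only [integral_const_mul, e]
  rfl

theorem int_aff_sq (c : ℝ) (v : ι → ℝ) : ∫ z, (c + v ⬝ᵥ z) ^ 2 ∂Gs ι = c ^ 2 + v ⬝ᵥ v := by
  have : ∀ z : ι → ℝ, (c + v ⬝ᵥ z) ^ 2 = c ^ 2 + 2 * c * (v ⬝ᵥ z) + (v ⬝ᵥ z) ^ 2 := fun z => by ring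
  simp only [this]
  have i2 : Integrable (fun z : ι → ℝ => (v ⬝ᵥ z) ^ 2) (Gs ι) := by
    simpa only [sq] using ((mg_dot v).mul (mg_dot v)).int
  have i1 : Integrable (fun z : ι → ℝ => c ^ 2 + 2 * c * (v ⬝ᵥ z)) (Gs ι) :=
    (integrable_const _).add ((mg_dot v).int.const_mul _)
  rw [integral_add i1 i2,
    integral_add (integrable_const _) ((mg_dot v).int.const_mul _), integral_const_mul, int_dot,
    int_dot_sq]
  simp

omit [DecidableEq ι] in
theorem score_eq (hu : 0 < u) (v x z : ι → ℝ) (c : ℝ) :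
    v ⬝ᵥ (u • x + √u • z) / u - c = (v ⬝ᵥ x - c) + ((√u)⁻¹ • v) ⬝ᵥ z := by
  have := sqrt_pos.2 hu
  have e : u = √u * √u := (mul_self_sqrt hu.le).symm
  simp only [dotProduct_add, dotProduct_smul, smul_dotProduct, smul_eq_mul]
  generalize √u = r at *
  subst e
  field_simp
  ring

theorem slE_score (hw : Wt w) (hu : 0 < u) (v : ι → ℝ) :
    (slE φ w u fun _ y => v ⬝ᵥ y / u - v ⬝ᵥ meanV w φ) = 0 := by
  simp only [slE_eq_mean, score_eq hu]
  have : ∀ x, ∫ z, (v ⬝ᵥ φ x - v ⬝ᵥ meanV w φ) + ((√u)⁻¹ • v) ⬝ᵥ z ∂Gs ι =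
      v ⬝ᵥ φ x - v ⬝ᵥ meanV w φ := fun x => by
    rw [integral_add (integrable_const _) (mg_dot _).int, int_dot]; simp
  simp only [this]
  simp only [mean_sub, hw.mean_const, meanV_dot, sub_self]

theorem slE_score_sq (hu : 0 < u) (v : ι → ℝ) :
    (slE φ w u fun _ y => (v ⬝ᵥ y / u - v ⬝ᵥ meanV w φ) ^ 2) =
      v ⬝ᵥ covMat w φ *ᵥ v + mean w (fun _ => 1) * (v ⬝ᵥ v / u) := by
  simp only [slE_eq_mean, score_eq hu, int_aff_sq, mean_add, covMat_quad, ← mean_mul_const, one_mul]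
  congr 1
  · simp only [cov_eq_mean, meanV_dot, sq]
  · congr 1; ext x
    have := sqrt_pos.2 hu
    have e : u = √u * √u := (mul_self_sqrt hu.le).symm
    simp only [dotProduct_smul, smul_dotProduct, smul_eq_mul]
    generalize √u = r at *
    subst e
    field_simp

theorem mg_score (v : ι → ℝ) (u c : ℝ) : MG fun y : ι → ℝ => v ⬝ᵥ y / u - c := by
  simpa only [div_eq_inv_mul] using ((mg_dot v).const_mul u⁻¹).sub (.const c)

theorem mg_score1 (i : ι) (u c : ℝ) : MG fun y : ι → ℝ => y i / u - c := by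
  simpa only [div_eq_inv_mul] using ((mg_coord i).const_mul u⁻¹).sub (.const c)

theorem dot_sc {F : (ι → ℝ) → ℝ} (hF : MG F) (v : ι → ℝ) :
    v ⬝ᵥ sc φ w F u = slE φ w u fun _ y => F y * (v ⬝ᵥ y / u - v ⬝ᵥ meanV w φ) := by
  simp only [dotProduct, sc, ← slE_const_mul]
  rw [← slE_sum _ fun i _ => .of_mg fun _ => (hF.mul (mg_score1 i u _)).const_mul _]
  congr 1; ext x y
  simp only [Finset.sum_div, ← Finset.sum_sub_distrib, Finset.mul_sum]
  exact Finset.sum_congr rfl fun i _ => by ring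

/-- **Bessel**: `|ψ_F(u)|² ≤ (κ + 1/u) E (F - c)²` -/
theorem sc_sq_le (hw : Wt w) (hu : 0 < u) (hκ : 0 ≤ κ)
    (hC : ∀ v, v ⬝ᵥ covMat w φ *ᵥ v ≤ κ * (v ⬝ᵥ v)) {F : (ι → ℝ) → ℝ} (hF : MG F) (c : ℝ) :
    sc φ w F u ⬝ᵥ sc φ w F u ≤ (κ + 1 / u) * slE φ w u fun _ y => (F y - c) ^ 2 := by
  set v := sc φ w F u with hv
  have m := mg_score v u (v ⬝ᵥ meanV w φ)
  have e : v ⬝ᵥ v = slE φ w u fun _ y => (F y - c) * (v ⬝ᵥ y / u - v ⬝ᵥ meanV w φ) := by
    simp only [sub_mul]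
    rw [slE_sub (.of_mg fun _ => hF.mul m) (.of_mg fun _ => m.const_mul c), slE_const_mul,
      slE_score hw hu, mul_zero, sub_zero, ← dot_sc hF]
  have h1 := slE_mul_sq_le (φ := φ) (s := u) hw (fun _ => hF.sub (.const c)) fun _ => m
  rw [← e, slE_score_sq hu, hw.mean_const, one_mul] at h1
  have h0 : 0 ≤ slE φ w u fun _ y => (F y - c) ^ 2 := slE_nonneg hw fun _ _ => sq_nonneg _
  have h2 : (v ⬝ᵥ v) ^ 2 ≤ (slE φ w u fun _ y => (F y - c) ^ 2) * ((κ + 1 / u) * (v ⬝ᵥ v)) :=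
    h1.trans (mul_le_mul_of_nonneg_left (by have := hC v; rw [add_mul, one_div_mul_eq_div]; linarith) h0)
  rcases (dot_self_nonneg v).eq_or_lt with h3 | h3
  · rw [← h3]; positivity
  · nlinarith

/-- Stein's identity along the channel -/
theorem slE_stein (hu : 0 < u) (uI : u ∈ I) (hG : EG I G) (hH : EG I H) (i : ι) (hd : Dp I i G H) :
    (slE φ w u fun x y => G (u, y) * (y i / u - φ x i)) = ex φ w H u := by
  rw [ex, slE_eq_mean, slE_eq_mean]
  congr 1; ext x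
  have s0 := sqrt_pos.2 hu
  have hs : {u} ⊆ I := singleton_subset_iff.2 uI
  have hT : ∀ s ∈ ({u} : Set ℝ), |s| ≤ |u| := fun s hs => by rw [hs]
  have e3 := stein ((hG.mono hs).path (φ x) _ hT) (((hH.mono hs).path (φ x) _ hT).mul (.const √u))
    (mem_singleton u) i fun y => by
      have e : ∀ s, u • φ x + √u • Function.update y i s =
          Function.update (u • φ x + √u • y) i (u * φ x i + √u * s) := fun s => by
        ext j; rcases eq_or_ne j i with rfl | hj <;> simp [*]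
      simp only [e]
      exact ((hd (u, u • φ x + √u • y) uI).comp (y i)
        (((hasDerivAt_id' (y i)).const_mul √u).const_add (u * φ x i))).congr_deriv
        (congrArg _ (mul_one _))
  simp only at e3
  have : ∀ z : ι → ℝ, G (u, u • φ x + √u • z) * ((u • φ x + √u • z) i / u - φ x i) =
      (√u)⁻¹ * (z i * G (u, u • φ x + √u • z)) := fun z => by
    have e : u = √u * √u := (mul_self_sqrt hu.le).symm
    simp only [Pi.add_apply, Pi.smul_apply, smul_eq_mul]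
    generalize G _ = g
    generalize √u = r at *
    subst e
    field_simp
    ring
  simp only [this]
  rw [integral_const_mul, e3, integral_mul_const]
  field_simp

/-- the score correlation without the singular factor -/
theorem sc_eq (hw : Wt w) (hu : 0 < u) (uI : u ∈ I) (hG : EG I G) (hH : EG I H) (i : ι)
    (hd : Dp I i G H) : sc φ w (fun y => G (u, y)) u i =
      ex φ w (fun p => H p + G p * (md φ w i p - meanV w φ i)) u := by
  have g := hG.mg uI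
  have e1 := slE_stein (φ := φ) (w := w) hu uI hG hH i hd
  have e2 : (slE φ w u fun x y => G (u, y) * (φ x i - meanV w φ i)) =
      ex φ w (fun p => G p * (md φ w i p - meanV w φ i)) u := by
    rw [bayes hw hu.le (.of_mg fun _ => g.mul (.const _)), ex]
    simp only [mean_const_mul, mean_sub, (hw.post φ _ _).mean_const, md, meanV]
  rw [ex_add (hH.mg uI) ((hG.mul ((eg_md hw i).sub (.const _))).mg uI), ← e1, ← e2,
    ← slE_add (.of_mg fun _ => g.mul (mg_score1 i u _)) (.of_mg fun _ => g.mul (.const _)), sc]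
  congr 1; ext x y; ring

theorem hasDerivAt_sc (hw : Wt w) (hu : 0 < u) (hI : I ∈ 𝓝 u) (hG : Ito (md φ w) I G a b) (i : ι) :
    HasDerivAt (fun u => sc φ w (fun y => G (u, y)) u i) (sc φ w (fun y => a (u, y)) u i) u := by
  have hJ : I ∩ Ioo (u / 2) (2 * u) ∈ 𝓝 u := inter_mem hI (Ioo_mem_nhds (by linarith) (by linarith))
  have hG' := hG.mono (inter_subset_left (t := Ioo (u / 2) (2 * u)))
  set J := I ∩ Ioo (u / 2) (2 * u)
  have uJ := mem_of_mem_nhds hJ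
  have p0 : ∀ s ∈ J, 0 < s := fun s hs => (half_pos hu).trans hs.2.1
  have e1 : EG J fun p : Pt ι => p.1⁻¹ := .time (f := fun s => s⁻¹)
    (continuousOn_id.inv₀ fun s hs => (p0 s hs).ne') (u / 2)⁻¹ fun s hs => by
      rw [abs_of_pos (inv_pos.2 (p0 s hs))]; exact inv_anti₀ (half_pos hu) hs.2.1.le
  have t1 : Ito (md φ w) J (fun p => p.1⁻¹) (fun p => -(p.1⁻¹) ^ 2) fun _ _ => 0 :=
    .time (f := fun s => s⁻¹) (f' := fun s => -(s⁻¹) ^ 2)
      (fun s hs => by simpa using hasDerivAt_inv (p0 s hs).ne') e1 (e1.pow 2).neg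
  have t2 := (hG'.mul (((Ito.coord i).mul t1).sub (.const (meanV w φ i)))).hasDerivAt_ex hw hu hJ
  refine (t2.congr_deriv ?_).congr_of_eventuallyEq (.of_forall fun s => ?_)
  · have g := hG'.eg.mg uJ
    have ga := (hG'.eg_a (eg_md hw)).mg uJ
    have gb := (hG'.eg_b i).mg uJ
    have gm := (eg_md (φ := φ) (I := J) hw i).mg uJ
    have e2 := sc_eq (φ := φ) hw hu uJ hG'.eg (hG'.eg_b i) i (hG'.dp i)
    have e3 : ex φ w (fun p => b i p + G p * (md φ w i p - meanV w φ i)) u -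
        sc φ w (fun y => G (u, y)) u i = 0 := by rw [e2, sub_self]
    have e4 : sc φ w (fun y => a (u, y)) u i = sc φ w (fun y => a (u, y)) u i + u⁻¹ *
        (ex φ w (fun p => b i p + G p * (md φ w i p - meanV w φ i)) u -
        sc φ w (fun y => G (u, y)) u i) := by rw [e3, mul_zero, add_zero]
    rw [e4, ex, ex, sc, sc,
      ← slE_sub (.of_mg fun _ => gb.add (g.mul (gm.sub (.const _))))
        (.of_mg fun _ => g.mul (mg_score1 i u _)), ← slE_const_mul,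
      ← slE_add (.of_mg fun _ => ga.mul (mg_score1 i u _)) (.of_mg fun _ =>
        ((gb.add (g.mul (gm.sub (.const _)))).sub (g.mul (mg_score1 i u _))).const_mul _)]
    congr 1; ext x y
    simp only [mul_zero, add_zero, sub_zero, ite_mul, one_mul, zero_mul, mul_ite, Finset.sum_const_zero,
      Finset.sum_ite_eq', Finset.mem_univ, if_true]
    field_simp
    ring
  · simp only [sc, ex, div_eq_mul_inv]

variable {K : Type*} [Fintype K]

omit [DecidableEq ι] in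
theorem dot_le_sqrt {U V : K → ι → ℝ} {A : ℝ} (hV : ∑ k, V k ⬝ᵥ V k ≤ A) :
    |∑ k, U k ⬝ᵥ V k| ≤ √(∑ k, U k ⬝ᵥ U k) * √A := by
  rw [← sqrt_mul (Finset.sum_nonneg fun k _ => dot_self_nonneg _)]
  refine abs_le_sqrt ?_
  have := Finset.sum_mul_sq_le_sq_mul_sq Finset.univ (fun q : K × ι => U q.1 q.2) fun q => V q.1 q.2
  simp only [Fintype.sum_prod_type, sq (U _ _), sq (V _ _)] at this
  exact this.trans (mul_le_mul_of_nonneg_left hV
    (Finset.sum_nonneg fun k _ => dot_self_nonneg (U k)))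

theorem sum_sc_le (hw : Wt w) (hu : 0 < u) (hκ : 0 ≤ κ)
    (hC : ∀ v, v ⬝ᵥ covMat w φ *ᵥ v ≤ κ * (v ⬝ᵥ v)) {F : K → (ι → ℝ) → ℝ} (hF : ∀ k, MG (F k))
    (c : K → ℝ) : ∑ k, sc φ w (F k) u ⬝ᵥ sc φ w (F k) u ≤
      (κ + 1 / u) * slE φ w u fun _ y => ∑ k, (F k y - c k) ^ 2 := by
  rw [slE_sum _ fun k _ => .of_mg fun _ => by
    simpa only [sq] using ((hF k).sub (.const _)).mul ((hF k).sub (.const _)), Finset.mul_sum]
  exact Finset.sum_le_sum fun k _ => sc_sq_le hw hu hκ hC (hF k) (c k)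

/-- **(SM)**: the diffusion coefficient at time `0` is bounded by the size of the process at time `h`
and of its drift on `(0, h)`, both up to constants -/
theorem sm (hw : Wt w) (hh : 0 < h) (hκ : 0 ≤ κ) (hC : ∀ v, v ⬝ᵥ covMat w φ *ᵥ v ≤ κ * (v ⬝ᵥ v))
    {G a : K → Pt ι → ℝ} {b : K → ι → Pt ι → ℝ} (hG : ∀ k, Ito (md φ w) (Icc 0 h) (G k) (a k) (b k))
    {α β : ℝ} {c : K → ℝ} {c' : ℝ → K → ℝ} (h1 : ex φ w (fun p => ∑ k, (G k p - c k) ^ 2) h ≤ α)
    (h2 : ∀ u ∈ Ioo 0 h, ex φ w (fun p => ∑ k, (a k p - c' u k) ^ 2) u ≤ β) :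
    ∑ k, ∑ i, b k i (0, 0) ^ 2 ≤ 2 * (1 + κ * h) * (α / h + 4 * h * β) := by
  set U : K → ι → ℝ := fun k i => b k i (0, 0) with hU
  set N := ∑ k, U k ⬝ᵥ U k with hN
  have N0 : 0 ≤ N := Finset.sum_nonneg fun k _ => dot_self_nonneg _
  have α0 : 0 ≤ α := (ex_nonneg hw fun _ => Finset.sum_nonneg fun _ _ => sq_nonneg _).trans h1
  have β0 : 0 ≤ β := (ex_nonneg hw fun _ => Finset.sum_nonneg fun _ _ => sq_nonneg _).trans
    (h2 (h / 2) ⟨half_pos hh, half_lt_self hh⟩)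
  set P : ℝ → K → ι → ℝ := fun u k i =>
    ex φ w (fun p => b k i p + G k p * (md φ w i p - meanV w φ i)) u with hP
  have eP : ∀ u ∈ Ioc 0 h, ∀ k, P u k = sc φ w (fun y => G k (u, y)) u := fun u hu k => by
    ext i; exact (sc_eq hw hu.1 (Ioc_subset_Icc_self hu) (hG k).eg ((hG k).eg_b i) i ((hG k).dp i)).symm
  have P0 : P 0 = U := by
    ext k i; simp only [hP, ex_zero hw, md, pw, post_zero, sub_self, mul_zero, add_zero, hU]
  set L := √N * √((1 + κ * h) * β) with hL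
  have key := monotoneOn_of_hasDerivWithinAt_nonneg (f := fun u => ∑ k, U k ⬝ᵥ P u k + 2 * L * √u)
    (f' := fun u => ∑ k, U k ⬝ᵥ sc φ w (fun y => a k (u, y)) u + 2 * L * (1 / (2 * √u)))
    (convex_Icc 0 h) ((continuousOn_finsetSum _ fun k _ => continuousOn_finsetSum _ fun i _ =>
      continuousOn_const.mul ((((hG k).eg_b i).add ((hG k).eg.mul
        ((eg_md hw i).sub (.const _)))).continuousOn_ex)).add (by fun_prop))
    (fun u hu => by
      rw [interior_Icc] at hu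
      refine HasDerivAt.hasDerivWithinAt (.add (.fun_sum fun k _ => ?_)
        ((hasDerivAt_sqrt hu.1.ne').const_mul _))
      refine (HasDerivAt.fun_sum fun i _ => (hasDerivAt_sc hw hu.1 (Icc_mem_nhds hu.1 hu.2)
        (hG k) i).const_mul (U k i)).congr_of_eventuallyEq ?_
      filter_upwards [Ioo_mem_nhds hu.1 hu.2] with r hr
      rw [eP r (Ioo_subset_Ioc_self hr)]; rfl)
    (fun u hu => by
      rw [interior_Icc] at hu
      have s0 := sqrt_pos.2 hu.1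
      have h3 := (sum_sc_le hw hu.1 hκ hC (fun k => ((hG k).eg_a (eg_md hw)).mg
        (Ioo_subset_Icc_self hu)) (c' u)).trans
        (mul_le_mul (show _ ≤ (1 + κ * h) / u by
          rw [le_div_iff₀ hu.1, add_mul, one_div_mul_cancel hu.1.ne']
          nlinarith [hu.2]) (h2 u hu) (slE_nonneg hw fun _ _ => Finset.sum_nonneg fun _ _ => sq_nonneg _)
          (by have := hu.1; positivity))
      have h4 := neg_le_of_abs_le (dot_le_sqrt (U := U) h3)
      rw [div_mul_eq_mul_div, sqrt_div' _ hu.1.le, ← mul_div_assoc, ← hL] at h4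
      have : 2 * L * (1 / (2 * √u)) = L / √u := by field_simp
      linarith)
    (left_mem_Icc.2 hh.le) (right_mem_Icc.2 hh.le) hh.le
  have h5 := (sum_sc_le hw hh hκ hC (fun k => (hG k).eg.mg (right_mem_Icc.2 hh.le)) c).trans
    (mul_le_mul_of_nonneg_left h1 (by positivity))
  have h6 := le_of_abs_le (dot_le_sqrt (U := U) h5)
  simp only [P0, sqrt_zero, mul_zero, add_zero, eP h (right_mem_Ioc.2 hh), ← hN] at key h6
  have e : ∑ k, ∑ i, b k i (0, 0) ^ 2 = N := by simp only [hN, hU, dotProduct, sq]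
  rw [e]
  set X := √((κ + 1 / h) * α)
  set Y := √((1 + κ * h) * β)
  have eX : X ^ 2 = (1 + κ * h) * (α / h) := by
    rw [sq_sqrt (by positivity)]; field_simp; ring
  have eY : (Y * √h) ^ 2 = (1 + κ * h) * (h * β) := by
    rw [mul_pow, sq_sqrt (by positivity), sq_sqrt hh.le]; ring
  have h7 : √N * √N ≤ √N * (X + 2 * (Y * √h)) := by rw [mul_self_sqrt N0]; nlinarith
  have h8 : √N ≤ X + 2 * (Y * √h) := by
    rcases (sqrt_nonneg N).eq_or_lt with h9 | h9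
    · rw [← h9]; positivity
    · exact le_of_mul_le_mul_left h7 h9
  have h9 := pow_le_pow_left₀ (sqrt_nonneg N) h8 2
  rw [sq_sqrt N0] at h9
  nlinarith [sq_nonneg (X - 2 * (Y * √h))]

end Crest.Agent.T157.Ks
end
end

-- ▼ part T157/KsB_5

/-!
# Row 157: cumulant tensors along stochastic localisation (helper5)

Bad events, fourth cumulants, `d κ₃`, Frobenius norms of cumulant tensors, crude bounds,
the generic instances of the smoothing lemma and of forward propagation.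
-/

set_option linter.unusedSectionVars false

noncomputable section

namespace Crest.Agent.T157.Ks

open MeasureTheory ProbabilityTheory Filter Topology Set Real Matrix
open Crest.Agent.T157.E Crest.Agent.T157.SL

variable {Ω ι J L M : Type*} [Fintype Ω] [Fintype ι] [DecidableEq ι] [Fintype J] [Fintype L] [Fintype M]
  {φ : Ω → ι → ℝ} {ψ : Ω → J → ℝ} {χ : Ω → L → ℝ} {ρ : Ω → M → ℝ} {w f g l k : Ω → ℝ}
  {I : Set ℝ} {G H : Pt ι → ℝ} {u h κ κ' δ R α β : ℝ}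

/-! ### bad events -/

/-- `Cov ψ ≤ κ` -/
def CB (w : Ω → ℝ) (ψ : Ω → J → ℝ) (κ : ℝ) : Prop := ∀ v, v ⬝ᵥ covMat w ψ *ᵥ v ≤ κ * (v ⬝ᵥ v)

/-- the posterior at every time `u ≤ h` has the property `P`, up to probability `δ` -/
def AP (φ : Ω → ι → ℝ) (w : Ω → ℝ) (h δ : ℝ) (P : (Ω → ℝ) → Prop) : Prop :=
  ∀ u ∈ Icc 0 h, (law φ w u).real {y | ¬ P (post φ w u y)} ≤ δ

theorem AP.mono {P Q : (Ω → ℝ) → Prop} (hw : Wt w) (hP : AP φ w h δ P)
    (e : ∀ v, Wt v → P v → Q v) : AP φ w h δ Q := fun u hu =>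
  haveI := isProb_law (φ := φ) (s := u) hw
  (measureReal_mono (s₁ := {y | ¬ Q (post φ w u y)}) (s₂ := {y | ¬ P (post φ w u y)}) fun _ hy hp =>
    hy (e _ (hw.post _ _ _) hp)).trans (hP u hu)

theorem AP.nonneg {P : (Ω → ℝ) → Prop} (hP : AP φ w h δ P) (hh : 0 ≤ h) : 0 ≤ δ :=
  measureReal_nonneg.trans (hP 0 (left_mem_Icc.2 hh))

theorem ex_ind (hw : Wt w) {B : Set (ι → ℝ)} (hB : MeasurableSet B) :
    ex φ w (fun p => B.indicator 1 p.2) u = (law φ w u).real B := by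
  rw [ex_eq_integral hw ((MG.const 1).indicator hB), ← integral_indicator_one hB]

theorem exists_meas (φ : Ω → ι → ℝ) (w : Ω → ℝ) (u : ℝ) (S : Set (ι → ℝ)) :
    ∃ B, MeasurableSet B ∧ S ⊆ B ∧ (law φ w u).real B = (law φ w u).real S :=
  ⟨toMeasurable (law φ w u) S, measurableSet_toMeasurable _ _, subset_toMeasurable _ _, by
    simp only [Measure.real, measure_toMeasurable]⟩

theorem ex_le_bad (hw : Wt w) {S : Set (ι → ℝ)} (hS : (law φ w u).real S ≤ δ)
    (hG : MG fun y => G (u, y)) (hH : MG fun y => H (u, y)) {C : ℝ} (C0 : 0 ≤ C)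
    (h1 : ∀ y ∉ S, G (u, y) ≤ H (u, y)) (h2 : ∀ y, G (u, y) ≤ H (u, y) + C) :
    ex φ w G u ≤ ex φ w H u + C * δ := by
  obtain ⟨B, hB, sB, eB⟩ := exists_meas φ w u S
  have m := ((MG.const (1 : ℝ)).indicator hB).const_mul C
  refine (ex_mono (H := fun p => H p + C * B.indicator 1 p.2) hw hG (hH.add m) fun y => ?_).trans ?_
  · by_cases hy : y ∈ B
    · simpa [hy] using h2 y
    · simpa [hy] using h1 y fun h => hy (sB h)
  · rw [ex_add (H := fun p => C * B.indicator 1 p.2) hH m, ex_const_mul, ex_ind hw hB, eB]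
    gcongr

theorem ex_le_bad' (hw : Wt w) {S : Set (ι → ℝ)} (hS : (law φ w u).real S ≤ δ)
    (hG : MG fun y => G (u, y)) {a C : ℝ} (a0 : 0 ≤ a) (C0 : 0 ≤ C)
    (h1 : ∀ y ∉ S, G (u, y) ≤ a) (h2 : ∀ y, G (u, y) ≤ C) : ex φ w G u ≤ a + C * δ := by
  simpa only [ex_const hw] using ex_le_bad (H := fun _ => a) hw hS hG (.const a) C0 h1
    fun y => (h2 y).trans (le_add_of_nonneg_left a0)

/-- unbounded version -/
theorem ex_le_bad2 (hw : Wt w) {S : Set (ι → ℝ)} (hS : (law φ w u).real S ≤ δ)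
    (hG : MG fun y => G (u, y)) {a C : ℝ} (a0 : 0 ≤ a) (h1 : ∀ y ∉ S, G (u, y) ≤ a)
    (h2 : ex φ w (fun p => G p ^ 2) u ≤ C) : ex φ w G u ≤ a + √(C * δ) := by
  obtain ⟨B, hB, sB, eB⟩ := exists_meas φ w u S
  have m := (MG.const (1 : ℝ)).indicator hB
  refine (ex_mono (H := fun p => a + G p * B.indicator 1 p.2) hw hG ((MG.const a).add (hG.mul m))
    fun y => ?_).trans ?_
  · by_cases hy : y ∈ B
    · simpa [hy] using a0
    · simpa [hy] using h1 y fun h => hy (sB h)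
  · rw [ex_add (G := fun _ => a) (H := fun p => G p * B.indicator 1 p.2) (.const a) (hG.mul m),
      ex_const hw]
    have h3 := ex_mul_sq_le (φ := φ) (H := fun p => B.indicator 1 p.2) hw hG m
    have e : (fun p : Pt ι => (B.indicator (1 : (ι → ℝ) → ℝ) p.2) ^ 2) = fun p => B.indicator 1 p.2 := by
      ext p; by_cases hy : p.2 ∈ B <;> simp [hy]
    rw [e, ex_ind hw hB, eB] at h3
    exact add_le_add_right (le_sqrt_of_sq_le (h3.trans (mul_le_mul h2 hS measureReal_nonneg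
      ((ex_nonneg hw fun _ => sq_nonneg _).trans h2)))) _

/-! ### cumulants -/

/-- joint fourth cumulant -/
def cum4 (w f g l k : Ω → ℝ) : ℝ :=
  mean w (fun x => (f x - mean w f) * (g x - mean w g) * (l x - mean w l) * (k x - mean w k)) -
    (cov w f g * cov w l k + cov w f l * cov w g k + cov w f k * cov w g l)

theorem cum3_comm (w f g l : Ω → ℝ) : cum3 w f g l = cum3 w g f l := by
  simp only [cum3, mul_comm (f _ - _)]

theorem cum3_comm' (w f g l : Ω → ℝ) : cum3 w f g l = cum3 w f l g := by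
  simp only [cum3, mul_right_comm]

theorem cum3_dot (w f g : Ω → ℝ) (ψ : Ω → J → ℝ) (v : J → ℝ) :
    cum3 w f g (fun x => v ⬝ᵥ ψ x) = ∑ j, v j * cum3 w f g fun x => ψ x j := by
  simp only [cum3, dotProduct, mean_sum, mean_const_mul, ← Finset.sum_sub_distrib, Finset.mul_sum,
    ← mul_sub, mul_left_comm _ (v _)]

theorem cum4_dot (w f g l : Ω → ℝ) (ψ : Ω → J → ℝ) (v : J → ℝ) :
    cum4 w f g l (fun x => v ⬝ᵥ ψ x) = ∑ j, v j * cum4 w f g l fun x => ψ x j := by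
  simp only [cum4, dotProduct, cov_sum, cov_const_mul, mean_sum, mean_const_mul,
    ← Finset.sum_sub_distrib, Finset.mul_sum, ← mul_sub, mul_left_comm _ (v _), Finset.sum_mul,
    ← Finset.sum_add_distrib]
  exact Finset.sum_congr rfl fun j _ => by ring

theorem cum4_comm (w f g l k : Ω → ℝ) : cum4 w f g l k = cum4 w f g k l := by
  simp only [cum4, mul_right_comm _ (l _ - _), cov_comm w l k]; ring

theorem cum4_comm' (w f g l k : Ω → ℝ) : cum4 w f g l k = cum4 w f l g k := by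
  simp only [cum4, mul_right_comm _ (g _ - _) (l _ - _), cov_comm w g l]; ring

theorem cum3_mul (hw : Wt w) (f g l k : Ω → ℝ) : cum3 w (fun x => f x * g x) l k =
    cum4 w f g l k + (cov w f l * cov w g k + cov w f k * cov w g l) +
      (mean w g * cum3 w f l k + mean w f * cum3 w g l k) := by
  have e : mean w (fun x => f x * g x) = cov w f g + mean w f * mean w g := by rw [hw.cov_eq]; ring
  have : cum3 w (fun x => f x * g x) l k = mean w (fun x => (f x - mean w f) * (g x - mean w g) *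
      (l x - mean w l) * (k x - mean w k)) - cov w f g * cov w l k +
      (mean w g * cum3 w f l k + mean w f * cum3 w g l k) := by
    rw [cum3, e, cov_eq_mean w l k, cum3, cum3, ← mean_const_mul w _ (cov w f g),
      ← mean_const_mul w (fun x => _ * _ * _) (mean w g),
      ← mean_const_mul w (fun x => _ * _ * _) (mean w f), ← mean_sub, ← mean_add, ← mean_add]
    congr 1; ext x; ring
  rw [this, cum4]; ring

/-- minus the drift of `κ₃(f, g, l)` -/
def dr3 (φ : Ω → ι → ℝ) (w f g l : Ω → ℝ) : ℝ :=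
  ∑ i, cum3 w f g (fun x => φ x i) * covV w l φ i + ∑ i, cum3 w f l (fun x => φ x i) * covV w g φ i +
    ∑ i, cum3 w g l (fun x => φ x i) * covV w f φ i

theorem ito_cum3 (hw : Wt w) (f g l : Ω → ℝ) : Ito (md φ w) I (fun p => cum3 (pw φ w p) f g l)
    (fun p => -dr3 φ (pw φ w p) f g l) fun i p => cum4 (pw φ w p) f g l fun x => φ x i := by
  simp only [(hw.post φ _ _).cum3_eq f g l]
  refine ((ito_cov hw _ l).sub (((ito_cov hw f l).mul (ito_mean hw g)).add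
    ((ito_mean hw f).mul (ito_cov hw g l)))).congr (fun p _ => ?_) fun i p _ => ?_
  · simp only [dr3, (hw.post φ _ _).cum3_eq f g, dotProduct, covV, sub_mul, add_mul, neg_mul, mul_neg,
      Finset.sum_sub_distrib, Finset.sum_add_distrib, Finset.sum_mul, Finset.mul_sum, mul_zero, zero_mul]
    simp only [mul_comm, mul_assoc]
    ring
  · simp only [cum3_mul (hw.post φ _ _) f g, covV]; ring

theorem eg_dr3 (hw : Wt w) (f g l : Ω → ℝ) : EG I fun p => dr3 φ (pw φ w p) f g l := by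
  simpa using ((ito_cum3 (φ := φ) (I := I) hw f g l).eg_a (eg_md hw)).neg

/-! ### Frobenius norms -/

/-- a single observable as a feature map -/
abbrev sg (f : Ω → ℝ) : Ω → Unit → ℝ := fun x _ => f x

/-- `|Cov(ψ, χ) - c|_F²` -/
def T2 (w : Ω → ℝ) (ψ : Ω → J → ℝ) (χ : Ω → L → ℝ) (c : J → L → ℝ) : ℝ :=
  ∑ j, ∑ l, (cov w (fun x => ψ x j) (fun x => χ x l) - c j l) ^ 2

/-- `|Cov(ψ, φ) Cov(φ, χ) - c|_F²` -/
def D2 (φ : Ω → ι → ℝ) (w : Ω → ℝ) (ψ : Ω → J → ℝ) (χ : Ω → L → ℝ) (c : J → L → ℝ) : ℝ :=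
  ∑ j, ∑ l, (covV w (fun x => ψ x j) φ ⬝ᵥ covV w (fun x => χ x l) φ - c j l) ^ 2

/-- `|κ₃(ψ, χ, ρ)|_F²` -/
def T3 (w : Ω → ℝ) (ψ : Ω → J → ℝ) (χ : Ω → L → ℝ) (ρ : Ω → M → ℝ) : ℝ :=
  ∑ j, ∑ l, ∑ m, cum3 w (fun x => ψ x j) (fun x => χ x l) (fun x => ρ x m) ^ 2

/-- squared norm of the drift of `κ₃(ψ, χ, ρ)` -/
def D3 (φ : Ω → ι → ℝ) (w : Ω → ℝ) (ψ : Ω → J → ℝ) (χ : Ω → L → ℝ) (ρ : Ω → M → ℝ) : ℝ :=
  ∑ j, ∑ l, ∑ m, dr3 φ w (fun x => ψ x j) (fun x => χ x l) (fun x => ρ x m) ^ 2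

/-- `|κ₄(ψ, χ, ρ, φ)|_F²` -/
def T4 (w : Ω → ℝ) (ψ : Ω → J → ℝ) (χ : Ω → L → ℝ) (ρ : Ω → M → ℝ) (φ : Ω → ι → ℝ) : ℝ :=
  ∑ j, ∑ l, ∑ m, ∑ i, cum4 w (fun x => ψ x j) (fun x => χ x l) (fun x => ρ x m) (fun x => φ x i) ^ 2

theorem T2_nonneg (c : J → L → ℝ) : 0 ≤ T2 w ψ χ c := by unfold T2; positivity
theorem T3_nonneg : 0 ≤ T3 w ψ χ ρ := by unfold T3; positivity

theorem T3_comm : T3 w ψ χ ρ = T3 w χ ψ ρ := by
  simp only [T3]; rw [Finset.sum_comm]; simp only [cum3_comm w fun x => ψ x _]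

theorem T3_comm' : T3 w ψ χ ρ = T3 w ψ ρ χ := by
  simp only [T3]
  refine Finset.sum_congr rfl fun j _ => ?_
  rw [Finset.sum_comm]; simp only [cum3_comm' w _ fun x => χ x _]

theorem eg_T2 (hw : Wt w) (c : J → L → ℝ) : EG I fun p => T2 (pw φ w p) ψ χ c :=
  .sum _ fun _ _ => .sum _ fun _ _ => ((eg_cov hw _ _).sub (.const _)).pow 2

theorem eg_D2 (hw : Wt w) (c : J → L → ℝ) : EG I fun p => D2 φ (pw φ w p) ψ χ c :=
  .sum _ fun _ _ => .sum _ fun _ _ => ((eg_covV_dot hw _ _).sub (.const _)).pow 2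

theorem eg_T3 (hw : Wt w) : EG I fun p => T3 (pw φ w p) ψ χ ρ :=
  .sum _ fun _ _ => .sum _ fun _ _ => .sum _ fun _ _ => (eg_cum3 hw _ _ _).pow 2

theorem eg_D3 (hw : Wt w) : EG I fun p => D3 φ (pw φ w p) ψ χ ρ :=
  .sum _ fun _ _ => .sum _ fun _ _ => .sum _ fun _ _ => (eg_dr3 hw _ _ _).pow 2

/-- (SM) for a covariance -/
theorem sm_T3 (hw : Wt w) (hh : 0 < h) (hκ : 0 ≤ κ) (hC : CB w φ κ) {c c' : J → L → ℝ}
    (h1 : ex φ w (fun p => T2 (pw φ w p) ψ χ c) h ≤ α)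
    (h2 : ∀ u ∈ Ioo 0 h, ex φ w (fun p => D2 φ (pw φ w p) ψ χ c') u ≤ β) :
    T3 w ψ χ φ ≤ 2 * (1 + κ * h) * (α / h + 4 * h * β) := by
  have := sm (K := J × L) hw hh hκ hC (fun q => ito_cov hw (fun x => ψ x q.1) fun x => χ x q.2)
    (c := fun q => c q.1 q.2) (c' := fun _ q => -c' q.1 q.2) (α := α) (β := β)
    (by simpa only [Fintype.sum_prod_type, T2] using h1) fun u hu => by
      simpa only [Fintype.sum_prod_type, sub_neg_eq_add, neg_add_eq_sub, sub_sq_comm (c' _ _), D2]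
        using h2 u hu
  simpa only [Fintype.sum_prod_type, pw, post_zero, T2, T3, T4] using this

/-- (SM) for a third cumulant -/
theorem sm_T4 (hw : Wt w) (hh : 0 < h) (hκ : 0 ≤ κ) (hC : CB w φ κ)
    (h1 : ex φ w (fun p => T3 (pw φ w p) ψ χ ρ) h ≤ α)
    (h2 : ∀ u ∈ Ioo 0 h, ex φ w (fun p => D3 φ (pw φ w p) ψ χ ρ) u ≤ β) :
    T4 w ψ χ ρ φ ≤ 2 * (1 + κ * h) * (α / h + 4 * h * β) := by
  have := sm (K := J × L × M) hw hh hκ hC
    (fun q => ito_cum3 hw (fun x => ψ x q.1) (fun x => χ x q.2.1) fun x => ρ x q.2.2)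
    (c := 0) (c' := 0) (α := α) (β := β)
    (by simpa only [Fintype.sum_prod_type, Pi.zero_apply, sub_zero, T3] using h1) fun u hu => by
      simpa only [Fintype.sum_prod_type, Pi.zero_apply, sub_zero, neg_sq, D3] using h2 u hu
  simpa only [Fintype.sum_prod_type, pw, post_zero, T2, T3, T4] using this

/-- **forward propagation**: the value at time `0` from the value at time `h` and the drift -/
theorem fp (hw : Wt w) (hh : 0 ≤ h) {G a : J → Pt ι → ℝ} {b : J → ι → Pt ι → ℝ}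
    (hG : ∀ k, Ito (md φ w) (Icc 0 h) (G k) (a k) (b k)) {c : J → ℝ}
    (h1 : ex φ w (fun p => ∑ k, (G k p - c k) ^ 2) h ≤ α)
    (h2 : ∀ u ∈ Ioo 0 h, ex φ w (fun p => ∑ k, a k p ^ 2) u ≤ β) :
    √(∑ k, (G k (0, 0) - c k) ^ 2) ≤ √α + h * √β := by
  set U : J → ℝ := fun k => G k (0, 0) - c k with hU
  set N := ∑ k, U k ^ 2 with hN
  have N0 : 0 ≤ N := by positivity
  have cs : ∀ {F : J → Pt ι → ℝ} {u A : ℝ}, (∀ k, MG fun y => F k (u, y)) →
      ex φ w (fun p => ∑ k, F k p ^ 2) u ≤ A → |ex φ w (fun p => ∑ k, U k * F k p) u| ≤ √N * √A := by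
    intro F u A hF hA
    rw [← sqrt_mul N0]
    have m : MG fun y => ∑ k, U k * F k (u, y) := .sum _ fun k _ => (hF k).const_mul _
    have m2 : MG fun y => ∑ k, F k (u, y) ^ 2 := .sum _ fun k _ => by
      simpa only [sq] using (hF k).mul (hF k)
    refine abs_le_sqrt ((ex_sq_le hw m).trans ((ex_mono (H := fun p => N * ∑ k, F k p ^ 2) hw
      (by simpa only [sq] using m.mul m) (m2.const_mul N) fun y =>
      Finset.sum_mul_sq_le_sq_mul_sq _ _ _).trans ?_))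
    rw [ex_const_mul]; gcongr
  have it := (Ito.sum Finset.univ fun k _ => ((hG k).sub (.const (c k))).const_mul (U k)).add
    (Ito.time (f := fun s => √N * √β * s) (f' := fun _ => √N * √β)
      (fun s _ => by simpa using (hasDerivAt_id' s).const_mul (√N * √β))
      (.time (by fun_prop) (√N * √β * h) fun s hs => by
        rw [abs_of_nonneg (by have := hs.1; positivity)]; gcongr; exact hs.2) (.const _))
  have mG := fun k u (hu : u ∈ Icc 0 h) => ((hG k).eg.sub (.const (c k))).mg hu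
  have key := (it.mono Ioo_subset_Icc_self).ex_mono hw le_rfl hh it.eg fun u hu => by
    have ma := fun k => ((hG k).eg_a (eg_md hw)).mg (Ioo_subset_Icc_self hu)
    have := neg_le_of_abs_le (cs ma (h2 u hu))
    simp only [sub_zero]
    rw [ex_add (G := fun p => ∑ k, U k * a k p) (H := fun _ => √N * √β)
      (.sum _ fun k _ => (ma k).const_mul _) (.const _), ex_const hw]
    linarith
  rw [ex_zero hw, ex_add (G := fun p => ∑ k, U k * (G k p - c k)) (H := fun p => √N * √β * p.1)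
    (.sum _ fun k _ => (mG k h (right_mem_Icc.2 hh)).const_mul _) (.const (√N * √β * h)),
    ex_time hw fun s => √N * √β * s] at key
  have h3 := le_of_abs_le (cs (F := fun k p => G k p - c k) (fun k => mG k h (right_mem_Icc.2 hh)) h1)
  have h4 : √N * √N ≤ √N * (√α + h * √β) := by
    rw [mul_self_sqrt N0]
    have : ∑ k, U k * (G k (0, 0) - c k) = N := by simp only [hN, hU, sq]
    simp only [this, mul_zero, add_zero] at key
    nlinarith
  rcases (sqrt_nonneg N).eq_or_lt with h9 | h9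
  · rw [← h9]; positivity
  · exact le_of_mul_le_mul_left h4 h9


/-! ### contractions and crude bounds -/

theorem CB.var_le (hC : CB w ψ κ) (v : J → ℝ) : var w (fun x => v ⬝ᵥ ψ x) ≤ κ * (v ⬝ᵥ v) := by
  classical rw [var_eq_cov, ← covMat_quad]; exact hC v

theorem CB.mono (hC : CB w ψ κ) (hκ : κ ≤ κ') : CB w ψ κ' := fun v =>
  (hC v).trans (mul_le_mul_of_nonneg_right hκ (dot_self_nonneg v))

theorem CB_iff : CB w ψ κ ↔ ∀ v, var w (fun x => v ⬝ᵥ ψ x) ≤ κ * (v ⬝ᵥ v) := by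
  classical simp only [CB, var_eq_cov, covMat_quad]

theorem CB_sg (w f : Ω → ℝ) : CB w (sg f) (var w f) := CB_iff.2 fun v => by
  simp only [dotProduct, Finset.univ_unique, Finset.sum_singleton, var_eq_cov, cov_const_mul,
    cov_comm w fun x => _ * f x]
  exact le_of_eq (by ring)

theorem CB.covV_le (hw : Wt w) (hC : CB w ψ κ) (hκ : 0 ≤ κ) (f : Ω → ℝ) :
    covV w f ψ ⬝ᵥ covV w f ψ ≤ κ * var w f := by
  classical exact hw.covV_sq_le f hκ hC

/-- `|Cov(ψ, φ) v|² ≤ κ κ' |v|²` -/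
theorem contract (hw : Wt w) (hψ : CB w ψ κ) (hκ : 0 ≤ κ) (hφ : CB w φ κ') (v : ι → ℝ) :
    ∑ j, (∑ i, v i * covV w (fun x => ψ x j) φ i) ^ 2 ≤ κ * κ' * ∑ i, v i ^ 2 := by
  have h1 := (hψ.covV_le hw hκ fun x => v ⬝ᵥ φ x).trans (mul_le_mul_of_nonneg_left (hφ.var_le v) hκ)
  have e : ∀ j, ∑ i, v i * covV w (fun x => ψ x j) φ i = covV w (fun x => v ⬝ᵥ φ x) ψ j := fun j => by
    rw [covV, cov_comm, ← covV_dot]; rfl
  simpa only [e, dotProduct, ← sq, mul_assoc] using h1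

theorem sum_mean_sq_le (hw : Wt w) (F : J → Ω → ℝ) :
    ∑ j, mean w (F j) ^ 2 ≤ mean w fun x => ∑ j, F j x ^ 2 := by
  rw [mean_sum]
  refine Finset.sum_le_sum fun j _ => ?_
  have h1 := hw.var_nonneg (F j)
  rw [var_eq_cov, hw.cov_eq] at h1
  simp only [sq]; linarith

/-- `|ψ|² ≤ R` -/
def Bd (ψ : Ω → J → ℝ) (R : ℝ) : Prop := ∀ x, ∑ j, ψ x j ^ 2 ≤ R

theorem Bd.mono (hb : Bd ψ R) {R' : ℝ} (e : R ≤ R') : Bd ψ R' := fun x => (hb x).trans e

theorem Bd.meanV_le (hb : Bd ψ R) (hw : Wt w) : ∑ j, meanV w ψ j ^ 2 ≤ R :=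
  (sum_mean_sq_le hw _).trans (hw.mean_le hb)

theorem Bd.center (hb : Bd ψ R) (hw : Wt w) (x : Ω) :
    ∑ j, (ψ x j - mean w fun x => ψ x j) ^ 2 ≤ 4 * R := by
  have h1 := hb x
  have h2 := hb.meanV_le hw
  refine (Finset.sum_le_sum (g := fun j => 2 * ψ x j ^ 2 + 2 * meanV w ψ j ^ 2) fun j _ => ?_).trans ?_
  · simp only [meanV]; nlinarith [sq_nonneg (ψ x j + mean w fun x => ψ x j)]
  · rw [Finset.sum_add_distrib, ← Finset.mul_sum, ← Finset.mul_sum]; linarith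

theorem Bd.dot_sq (hb : Bd ψ R) (v : J → ℝ) (x : Ω) : (v ⬝ᵥ ψ x) ^ 2 ≤ R * (v ⬝ᵥ v) := by
  refine (Finset.sum_mul_sq_le_sq_mul_sq _ _ _).trans ?_
  rw [mul_comm]
  simpa only [dotProduct, sq] using mul_le_mul_of_nonneg_right (hb x) (dot_self_nonneg v)

theorem Bd.cb (hb : Bd ψ R) (hw : Wt w) : CB w ψ R := CB_iff.2 fun v =>
  (hw.var_le_mean _ 0).trans (hw.mean_le fun x => by simpa using hb.dot_sq v x)

theorem Bd.nonneg (hb : Bd ψ R) (hw : Wt w) : 0 ≤ R := 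
  le_trans (by positivity) (hb.meanV_le hw)

theorem Bd.sg_dot (hb : Bd ψ R) (v : J → ℝ) : Bd (sg fun x => v ⬝ᵥ ψ x) (R * (v ⬝ᵥ v)) := fun x => by
  simpa using hb.dot_sq v x

theorem T2_crude {R' : ℝ} (hw : Wt w) (h1 : Bd ψ R) (h2 : Bd χ R') : T2 w ψ χ 0 ≤ 16 * (R * R') := by
  have := sum_mean_sq_le (J := J × L) hw fun q x =>
    (ψ x q.1 - mean w fun x => ψ x q.1) * (χ x q.2 - mean w fun x => χ x q.2)
  simp only [Fintype.sum_prod_type, mul_pow, ← Finset.mul_sum, ← Finset.sum_mul] at this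
  simp only [T2, Pi.zero_apply, sub_zero, cov_eq_mean]
  refine this.trans (hw.mean_le fun x => (mul_le_mul (h1.center hw x) (h2.center hw x) (by positivity)
    (by have := h1.nonneg hw; positivity)).trans_eq (by ring))

theorem T3_crude {R' R'' : ℝ} (hw : Wt w) (h1 : Bd ψ R) (h2 : Bd χ R') (h3 : Bd ρ R'') :
    T3 w ψ χ ρ ≤ 64 * (R * R' * R'') := by
  have := sum_mean_sq_le (J := J × L × M) hw fun q x =>
    (ψ x q.1 - mean w fun x => ψ x q.1) * (χ x q.2.1 - mean w fun x => χ x q.2.1) *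
      (ρ x q.2.2 - mean w fun x => ρ x q.2.2)
  simp only [Fintype.sum_prod_type, mul_pow, ← Finset.mul_sum, ← Finset.sum_mul] at this
  have r1 := h1.nonneg hw
  have r2 := h2.nonneg hw
  refine this.trans (hw.mean_le fun x => (mul_le_mul (mul_le_mul (h1.center hw x) (h2.center hw x)
    (by positivity) (by positivity)) (h3.center hw x) (by positivity) (by positivity)).trans_eq (by ring))

theorem sum_sub_sq_le (a c : J → L → ℝ) :
    ∑ j, ∑ l, (a j l - c j l) ^ 2 ≤ 2 * ∑ j, ∑ l, a j l ^ 2 + 2 * ∑ j, ∑ l, c j l ^ 2 := by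
  simp only [Finset.mul_sum, ← Finset.sum_add_distrib]
  exact Finset.sum_le_sum fun j _ => Finset.sum_le_sum fun l _ => by nlinarith [sq_nonneg (a j l + c j l)]

theorem T2_le (c : J → L → ℝ) : T2 w ψ χ c ≤ 2 * T2 w ψ χ 0 + 2 * ∑ j, ∑ l, c j l ^ 2 := by
  simpa only [T2, Pi.zero_apply, sub_zero] using sum_sub_sq_le _ c

theorem D2_le (c : J → L → ℝ) : D2 φ w ψ χ c ≤ 2 * D2 φ w ψ χ 0 + 2 * ∑ j, ∑ l, c j l ^ 2 := by
  simpa only [D2, Pi.zero_apply, sub_zero] using sum_sub_sq_le _ c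

/-- `|Cov(ψ,φ) Cov(φ,χ)|_F² ≤ κ κ' |Cov(χ,φ)|_F²` -/
theorem D2_zero_le (hw : Wt w) (hψ : CB w ψ κ) (hκ : 0 ≤ κ) (hφ : CB w φ κ') :
    D2 φ w ψ χ 0 ≤ κ * κ' * T2 w χ φ 0 := by
  simp only [D2, T2, Pi.zero_apply, sub_zero]
  rw [Finset.sum_comm, Finset.mul_sum]
  refine Finset.sum_le_sum fun l _ => ?_
  simpa only [dotProduct, mul_comm, covV] using contract hw hψ hκ hφ (covV w (fun x => χ x l) φ)

/-- `|A C² A - 1|_F² ≤ 2 (κ κ' + 1) |A C - 1|_F²` -/
theorem D2_one_le {ψ : Ω → ι → ℝ} (hw : Wt w) (hψ : CB w ψ κ) (hκ : 0 ≤ κ) (hφ : CB w φ κ') :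
    D2 φ w ψ ψ (1 : Matrix ι ι ℝ) ≤ 2 * (κ * κ' + 1) * T2 w ψ φ (1 : Matrix ι ι ℝ) := by
  set X : ι → ι → ℝ := fun l i => covV w (fun x => ψ x l) φ i - (1 : Matrix ι ι ℝ) l i with hX
  have e : ∀ j l, covV w (fun x => ψ x j) φ ⬝ᵥ covV w (fun x => ψ x l) φ - (1 : Matrix ι ι ℝ) j l =
      ∑ i, X l i * covV w (fun x => ψ x j) φ i - -X j l := fun j l => by
    simp [hX, mul_sub, one_apply, dotProduct, mul_comm]
  have h1 : ∑ j, ∑ l, (∑ i, X l i * covV w (fun x => ψ x j) φ i) ^ 2 ≤ κ * κ' * ∑ l, ∑ i, X l i ^ 2 := by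
    rw [Finset.sum_comm, Finset.mul_sum]
    exact Finset.sum_le_sum fun l _ => contract hw hψ hκ hφ (X l)
  have h2 := sum_sub_sq_le (fun j l => ∑ i, X l i * covV w (fun x => ψ x j) φ i) fun j l => -X j l
  simp only [D2, e, neg_sq] at h2 ⊢
  change _ ≤ _ * ∑ l, ∑ i, X l i ^ 2
  linarith

/-- one term of the drift of `κ₃` -/
theorem dr_term (hw : Wt w) (hρ : CB w ρ κ) (hκ : 0 ≤ κ) (hφ : CB w φ κ') :
    ∑ j, ∑ l, ∑ m, (∑ i, cum3 w (fun x => ψ x j) (fun x => χ x l) (fun x => φ x i) *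
      covV w (fun x => ρ x m) φ i) ^ 2 ≤ κ * κ' * T3 w ψ χ φ := by
  simp only [T3, Finset.mul_sum _ _ (κ * κ')]
  exact Finset.sum_le_sum fun j _ => Finset.sum_le_sum fun l _ => by
    simpa only [Finset.mul_sum _ _ (κ * κ')] using contract hw hρ hκ hφ _

theorem D3_split : D3 φ w ψ χ ρ ≤ 3 * (
    ∑ j, ∑ l, ∑ m, (∑ i, cum3 w (fun x => ψ x j) (fun x => χ x l) (fun x => φ x i) *
      covV w (fun x => ρ x m) φ i) ^ 2 +
    ∑ j, ∑ m, ∑ l, (∑ i, cum3 w (fun x => ψ x j) (fun x => ρ x m) (fun x => φ x i) *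
      covV w (fun x => χ x l) φ i) ^ 2 +
    ∑ l, ∑ m, ∑ j, (∑ i, cum3 w (fun x => χ x l) (fun x => ρ x m) (fun x => φ x i) *
      covV w (fun x => ψ x j) φ i) ^ 2) := by
  rw [Finset.sum_congr rfl fun j _ => Finset.sum_comm (s := (Finset.univ : Finset M)),
    Finset.sum_congr rfl fun l _ => Finset.sum_comm (s := (Finset.univ : Finset M)) (t := (Finset.univ : Finset J)),
    Finset.sum_comm (s := (Finset.univ : Finset L)) (t := (Finset.univ : Finset J))]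
  simp only [D3, dr3, ← Finset.sum_add_distrib, Finset.mul_sum _ _ (3 : ℝ)]
  refine Finset.sum_le_sum fun j _ => Finset.sum_le_sum fun l _ => Finset.sum_le_sum fun m _ => ?_
  rw [Finset.sum_add_distrib, Finset.sum_add_distrib]
  have : ∀ a b c : ℝ, (a + b + c) ^ 2 ≤ 3 * (a ^ 2 + b ^ 2 + c ^ 2) := fun a b c => by
    nlinarith [sq_nonneg (a - b), sq_nonneg (a - c), sq_nonneg (b - c)]
  exact this _ _ _

theorem D3_le {k1 k2 k3 : ℝ} (hw : Wt w) (h1 : CB w ψ k1) (h2 : CB w χ k2) (h3 : CB w ρ k3)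
    (hφ : CB w φ κ) (p1 : 0 ≤ k1) (p2 : 0 ≤ k2) (p3 : 0 ≤ k3) :
    D3 φ w ψ χ ρ ≤ 3 * κ * (k3 * T3 w ψ χ φ + k2 * T3 w ψ ρ φ + k1 * T3 w χ ρ φ) := by
  have a1 := dr_term (ψ := ψ) (χ := χ) hw h3 p3 hφ
  have a2 := dr_term (ψ := ψ) (χ := ρ) hw h2 p2 hφ
  have a3 := dr_term (ψ := χ) (χ := ρ) hw h1 p1 hφ
  have := D3_split (φ := φ) (w := w) (ψ := ψ) (χ := χ) (ρ := ρ)
  linarith

/-- the directional form: the third term is again a cumulant with one fixed slot -/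
theorem D3_sg_le {k2 k3 : ℝ} (hw : Wt w) (h2 : CB w χ k2) (h3 : CB w ρ k3)
    (hφ : CB w φ κ) (p2 : 0 ≤ k2) (p3 : 0 ≤ k3) :
    D3 φ w (sg f) χ ρ ≤ 3 * (κ * (k3 * T3 w (sg f) χ φ + k2 * T3 w (sg f) ρ φ) +
      T3 w (sg fun x => covV w f φ ⬝ᵥ φ x) χ ρ) := by
  have a1 := dr_term (ψ := sg f) (χ := χ) hw h3 p3 hφ
  have a2 := dr_term (ψ := sg f) (χ := ρ) hw h2 p2 hφ
  have := D3_split (φ := φ) (w := w) (ψ := sg f) (χ := χ) (ρ := ρ)
  have e : T3 w (sg fun x => covV w f φ ⬝ᵥ φ x) χ ρ = ∑ l, ∑ m, ∑ j : Unit, (∑ i,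
      cum3 w (fun x => χ x l) (fun x => ρ x m) (fun x => φ x i) * covV w (fun x => sg f x j) φ i) ^ 2 := by
    rw [T3_comm, T3_comm']
    simp only [T3, cum3_dot, mul_comm (covV w f φ _)]
  linarith

end Crest.Agent.T157.Ks
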