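import Crest.Agent.T157.S6ShA_74
import Crest.Agent.T157.RegJac_75
import Crest.Agent.T157.RegBas_66
import Crest.Agent.T157.S6DefB_68
import Crest.Agent.T157.PlD_37
import Crest.Agent.T157.EigN_84
import Crest.Agent.T157.ConcHW_16
import Crest.Agent.T157.NrmS_84
import Crest.Agent.T157.CondA_53
import Crest.Agent.T157.DaFd_82
import Crest.Agent.T157.Top_97
import Crest.Agent.T157.RegNice_66
import Crest.Agent.T157.RegCoef_54
import Crest.Agent.T157.EntE_34
import Crest.Agent.T157.UeD_83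
import Crest.Agent.T157.BDefB_95
import Crest.Agent.T157.S3Hb_80
import Crest.Agent.T157.S6Def_93
import Crest.Agent.T157.S6PL_20

-- ▼ part T157/S6ShB_74
section

/-!
# Row 157, block S6 (helper74): (OB) for stacked Jacobians of free fields
-/

set_option autoImplicit false
set_option linter.unusedSectionVars false
set_option linter.unusedSimpArgs false

noncomputable section

namespace Crest.Agent.T157.S6o

open Matrix Real Finset
open Crest.Agent.T157.E hiding mean
open Crest.Agent.T157.Eig Crest.Agent.T157.Reg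
open Crest.Agent.T157.Tap (V Mx)
open Crest.Agent.T157.Rec (grad fl)

variable {n : ℕ} {A : Type} [Fintype A] [DecidableEq A]

/-- stacked Jacobians -/
def JS (ω : A → VF n) (x : Cube n) : Sk A n := of fun p j => jac (ω p.1) x p.2 j
/-- their velocity -/
def DJ (W : Mx n) (ω σ : A → VF n) (x : Cube n) : Sk A n :=
  offS (of fun p j => dj W (ω p.1) (σ p.1) x p.2 j)
/-- the component `i` does not depend on the spin `i` -/
def FrS (ω : A → VF n) : Prop := ∀ a x i, ω a (fl x i) i = ω a x i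

lemma FrS.diag {ω : A → VF n} (h : FrS ω) (x : Cube n) (p : A × Fin n) : JS ω x p p.2 = 0 := by
  simp [JS, jac, h p.1 x p.2]

lemma abs_sv (x : Cube n) (i : Fin n) : |sv x i| = 1 :=
  (abs_eq zero_le_one).2 (mul_self_eq_one_iff.1 (Rec.sv_mul_self x i))

lemma nice_entry {W : Mx n} {K : ℝ} (h : Nice W K) (i k : Fin n) : W i k ^ 2 * √n ≤ K ^ 2 := by
  have hn : (0 : ℝ) < n := Nat.cast_pos.2 (Fin.pos k)
  have h1 : W i k ^ 4 ≤ K ^ 4 / n :=
    (single_le_sum (f := fun k => W i k ^ 4) (fun k _ => by positivity) (mem_univ k)).trans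
      (h.2.2 i)
  rw [le_div_iff₀ hn] at h1
  refine (le_abs_self _).trans (abs_le_of_sq_le_sq ?_ (sq_nonneg K))
  rw [mul_pow, sq_sqrt hn.le]
  nlinarith

lemma wb_sq {W : Mx n} {K : ℝ} (h : Nice W K) {w : V n} (hw : w ⬝ᵥ w = 1) (k : Fin n) :
    wb W w k ^ 2 * √n ≤ K ^ 2 := by
  rw [wb, nrm_sq, dotProduct, sum_mul, ← mul_one (K ^ 2), ← hw, dotProduct, mul_sum]
  refine sum_le_sum fun j _ => ?_
  nlinarith [mul_le_mul_of_nonneg_right (nice_entry h j k) (mul_self_nonneg (w j))]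

lemma bil_sum {I L ι : Type*} [Fintype I] [Fintype L] [Fintype ι] (u : I → ℝ) (w : L → ℝ)
    (M : ι → Matrix I L ℝ) : u ⬝ᵥ (∑ k, M k) *ᵥ w = ∑ k, u ⬝ᵥ M k *ᵥ w := by
  rw [sum_mulVec, dotProduct_sum]

/-- the velocity of the stacked Jacobians has the structure of (OB) -/
theorem str_dj (K : ℝ) : ∃ C ≥ (1 : ℝ), ∀ (n : ℕ) (W : Mx n), Nice W K →
    ∀ (A : Type) [Fintype A] [DecidableEq A] (ω σ : A → VF n), FrS ω → ∀ x,
    Str (Tk W x) (JS ω x) (fun l => JS ω (fl x l)) (DJ W ω σ x) C (opn (offS (JS σ x))) := by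
  obtain ⟨c, c1, hc⟩ := coefStmt K
  have c0 : 0 ≤ c := by linarith
  set C1 := 2 * c ^ 2 + c ^ 3 + c * K ^ 2 with hC1
  set C2 := c ^ 2 + C1 * c * K ^ 2 with hC2
  set C3 := 4 * c ^ 2 + 2 * c ^ 3 + c * K ^ 4 with hC3
  have p1 : 0 ≤ C1 := by positivity
  have p2 : 0 ≤ C2 := by positivity
  have p3 : 0 ≤ C3 := by positivity
  have p4 : 0 ≤ C2 * K ^ 2 := by positivity
  have p5 : 0 ≤ C1 * K ^ 2 := by positivity
  refine ⟨2 * (C2 * K ^ 2) + C1 * K ^ 2 + (4 * c + C3 + 2), by linarith,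
    fun n W hN A _ _ ω σ hω x u w hu hw => ?_⟩
  obtain ⟨hT, -, hal, opal, -, hmx, d, P, q, od, oP, hdP, hq, hrem⟩ := hc n W hN x
  have hF : Fac W K c (mx W x) d P q :=
    ⟨hN.1, hN.2.1, c0, od, oP, fun i k => (hdP i k).1, fun i k => (hdP i k).2, hq, hrem⟩
  have a0 : ∀ k, 0 ≤ wa W u k := fun k => nrm_nonneg _
  have b0 : ∀ k, 0 ≤ wb W w k := fun k => nrm_nonneg _
  have sa := sum_wa hN.2.1 hu
  have sb := sum_wb hN.2.1 hw
  have tt1 : ∀ k, Tk W x k * (1 - Tk W x k) ≤ Tk W x k := fun k => by nlinarith [hT k]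
  have hal' : ∀ i k, |al W x i k| ≤ c * Tk W x k * |W i k| := fun i k => (hal i k).trans (by
    nlinarith [mul_le_mul_of_nonneg_left (tt1 k) (mul_nonneg c0 (abs_nonneg (W i k)))])
  have sq1 : ∀ k {z a b : ℝ}, 0 ≤ z → z ≤ c * Tk W x k * a →
      z ^ 2 ≤ Tk W x k * (C2 * (a ^ 2 + b ^ 2)) := fun k {z a b} z0 h => by
    have h1 := pow_le_pow_left₀ z0 h 2
    have h2 : Tk W x k ^ 2 ≤ Tk W x k := by nlinarith [hT k]
    have h3 : c ^ 2 * a ^ 2 ≤ C2 * (a ^ 2 + b ^ 2) := by
      have : 0 ≤ C1 * c * K ^ 2 := by positivity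
      nlinarith [mul_nonneg this (sq_nonneg a), mul_nonneg p2 (sq_nonneg b)]
    nlinarith [mul_le_mul_of_nonneg_left h2 (by positivity : 0 ≤ c ^ 2 * a ^ 2),
      mul_le_mul_of_nonneg_left h3 (hT k).1.le]
  set X := JS ω x with hX
  set Y : Fin n → Sk A n := fun k => JS ω (fl x k) - X with hY
  have Y0 : ∀ k p, Y k p p.2 = 0 := fun k p => by
    simp only [hY, Matrix.sub_apply, hX, hω.diag, sub_zero]
  refine ⟨fun k p => u p * al W x p.2 k, fun k j => w j * al W x j k,
    fun k => C2 * (wa W u k ^ 2 + wb W w k ^ 2),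
    fun k => min (C1 * (wa W u k * wb W w k)) (c * Tk W x k * √n * (wa W u k * wb W w k)),
    fun k => ⟨?_, ?_, by positivity, ?_, ?_⟩, ?_, ?_, ?_⟩
  · rw [← nrm_sq]
    refine sq1 k (nrm_nonneg _) (nrm_mono (mul_nonneg c0 (hT k).1.le) fun p => ?_)
    rw [abs_mul, abs_mul]
    nlinarith [mul_le_mul_of_nonneg_left (hal' p.2 k) (abs_nonneg (u p))]
  · dsimp only
    rw [← nrm_sq, add_comm]
    refine sq1 k (nrm_nonneg _) (nrm_mono (mul_nonneg c0 (hT k).1.le) fun p => ?_)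
    rw [abs_mul, abs_mul]
    nlinarith [mul_le_mul_of_nonneg_left (hal' p k) (abs_nonneg (w p))]
  · have := (hT k).1
    have := a0 k
    have := b0 k
    exact le_min (by positivity) (by positivity)
  · have t0 := (hT k).1
    have := a0 k
    have := b0 k
    have h1 : (min (C1 * (wa W u k * wb W w k)) (c * Tk W x k * √n * (wa W u k * wb W w k))) ^ 2 ≤
        C1 * (wa W u k * wb W w k) * (c * Tk W x k * √n * (wa W u k * wb W w k)) := by
      rw [sq]
      exact mul_le_mul (min_le_left _ _) (min_le_right _ _)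
        (le_min (by positivity) (by positivity)) (by positivity)
    have h2 := mul_le_mul_of_nonneg_left (wb_sq hN hw k)
      (by positivity : 0 ≤ Tk W x k * (C1 * c * wa W u k ^ 2))
    have h3 : C1 * c * K ^ 2 * wa W u k ^ 2 ≤ C2 * (wa W u k ^ 2 + wb W w k ^ 2) := by
      nlinarith [mul_nonneg (sq_nonneg c) (sq_nonneg (wa W u k)),
        mul_nonneg p2 (sq_nonneg (wb W w k))]
    nlinarith [mul_le_mul_of_nonneg_left h3 t0.le]
  · rw [← mul_sum, sum_add_distrib]
    nlinarith [mul_le_mul_of_nonneg_left (add_le_add sa sb) p2]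
  · have h1 : ∑ k, min (C1 * (wa W u k * wb W w k)) (c * Tk W x k * √n * (wa W u k * wb W w k)) ≤
        ∑ k, C1 / 2 * (wa W u k ^ 2 + wb W w k ^ 2) := sum_le_sum fun k _ =>
      (min_le_left _ _).trans (by nlinarith [mul_nonneg p1 (sq_nonneg (wa W u k - wb W w k))])
    rw [← mul_sum, sum_add_distrib] at h1
    nlinarith [mul_le_mul_of_nonneg_left (add_le_add sa sb) p1]
  · set Z : Sk A n := offS (X * (al W x)ᵀ) + offS (of fun p j => ∑ k, mx W x p.2 j k * X p k) +
      X * diagonal (fun j => 2 * Tk W x j - 2) + (2 : ℝ) • ha (al W x) X with hZ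
    have x0 := opn_nonneg X
    have hZ1 : opn Z ≤ 2 * (opn X * c) + C3 * opn X + opn X * 2 + 2 * (c * opn X) := by
      refine add_le (add_le (add_le ((offS_le _).trans ?_) (hF.right X))
        (mul_le le_rfl (opn_diagonal_le zero_le_two fun j => ?_))) ?_
      · exact mul_le_mul_of_nonneg_left (mul_le le_rfl (by rw [opn_transpose]; exact opal))
          zero_le_two
      · rw [abs_le]; constructor <;> linarith [hT j]
      · rw [opn_smul, abs_two]
        exact mul_le_mul_of_nonneg_left (((mul_opn X).2 _).1.trans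
          (mul_le_mul_of_nonneg_right opal x0)) zero_le_two
    have key : DJ W ω σ x = ∑ k, (Tk W x k • Y k + (of fun p j => al W x p.2 k * Y k p j) +
        Y k * diagonal (fun j => al W x j k) + of fun p j => mx W x p.2 j k * Y k p j) + Z +
        offS (JS σ x) := by
      ext p j
      simp only [DJ, offS, hZ, of_apply, Matrix.add_apply, Matrix.sum_apply, Matrix.smul_apply,
        diagonal_mul, mul_diagonal, smul_eq_mul, ha]
      by_cases e : p.2 = j
      · simp only [if_pos e]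
        subst e
        simp only [Y0, hX, hω.diag, mul_zero, zero_mul, add_zero, sum_const_zero]
      · simp only [if_neg e, jacStmt.offd n W _ _ x _ _ e, mul_apply, transpose_apply, hY, hX, JS,
          of_apply, Matrix.sub_apply, add_mul, sum_add_distrib]
        simp only [mul_comm]
        linarith
    have e1 : ∀ k, u ⬝ᵥ (of fun p j => al W x p.2 k * Y k p j : Sk A n) *ᵥ w =
        (fun p => u p * al W x p.2 k) ⬝ᵥ Y k *ᵥ w := fun k => by
      simp only [bil_eq, of_apply, mul_assoc]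
    have e2 : ∀ k, u ⬝ᵥ (Y k * diagonal (fun j => al W x j k)) *ᵥ w =
        u ⬝ᵥ Y k *ᵥ fun j => w j * al W x j k := fun k => by
      simp only [bil_eq, mul_diagonal]
      exact sum_congr rfl fun p _ => sum_congr rfl fun j _ => by ring
    have b1 := (le_abs_self _).trans (abs_bil_le Z u w)
    have b2 := (le_abs_self _).trans (abs_bil_le (offS (JS σ x)) u w)
    rw [nrm_one_of hu, nrm_one_of hw, mul_one, mul_one] at b1 b2
    rw [key, add_mulVec, add_mulVec, dotProduct_add, dotProduct_add, bil_sum]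
    refine add_le_add (add_le_add (sum_le_sum fun k _ => ?_) ?_) b2
    · rw [add_mulVec, add_mulVec, add_mulVec, dotProduct_add, dotProduct_add, dotProduct_add, e1,
        e2, smul_mulVec, dotProduct_smul, smul_eq_mul]
      refine add_le_add le_rfl ?_
      rw [min_mul_of_nonneg _ _ (opn_nonneg _)]
      refine le_min (hF.first (Y0 k) u w k) (first_crude (mul_nonneg c0 (hT k).1.le)
        (fun i j e => (hmx i j k e).trans ?_) (Y0 k) u w)
      nlinarith [mul_le_mul_of_nonneg_left (tt1 k)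
        (by positivity : 0 ≤ c * |W i k| * |W j k|)]
    · nlinarith [mul_nonneg p4 x0, mul_nonneg p5 x0]

/-- the source of the intertwined equation -/
theorem src_bb (K : ℝ) : ∃ C ≥ (1 : ℝ), ∀ (n : ℕ) (W : Mx n), Nice W K →
    ∀ (A : Type) [Fintype A] [DecidableEq A] (ω : A → VF n) (x : Cube n) (z : ℝ), 0 ≤ z →
    (∀ k, ∑ a, ω a x k ^ 2 ≤ z ^ 2) →
    opn (offS (JS (fun a => bb W (ω a)) x)) ≤ C * (opn (JS ω x) + z) := by
  obtain ⟨c, c1, hc⟩ := coefStmt K
  have c0 : 0 ≤ c := by linarith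
  have p3 : 0 ≤ 4 * c ^ 2 + 2 * c ^ 3 + c * K ^ 4 := by positivity
  refine ⟨2 * c + (4 * c ^ 2 + 2 * c ^ 3 + c * K ^ 4), by linarith,
    fun n W hN A _ _ ω x z z0 hz => ?_⟩
  obtain ⟨-, -, -, -, opam, -, d, P, q, od, oP, hdP, hq, hrem⟩ := hc n W hN x
  have hF : Fac W K c (mx W x) d P q :=
    ⟨hN.1, hN.2.1, c0, od, oP, fun i k => (hdP i k).1, fun i k => (hdP i k).2, hq, hrem⟩
  have key : offS (JS (fun a => bb W (ω a)) x) = offS (bk (am W x) (JS ω x)) +
      offS (of fun p j => ∑ k, sv x p.2 * sv x k * mx W x p.2 j k * JS ω x (p.1, k) j) +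
      offS (of fun p j => ∑ k, sv x p.2 * sv x k * mx W x p.2 j k *
        cr (fun a => ω a x) (p.1, k) j) := by
    ext p j
    simp only [offS, of_apply, Matrix.add_apply]
    by_cases e : p.2 = j
    · simp only [if_pos e, add_zero]
    · simp only [if_neg e, JS, of_apply, jacStmt.jb, bk, cr, mul_apply, mul_add, sum_add_distrib,
        add_assoc]
  have x0 := opn_nonneg (JS ω x)
  have h1 := add_le (add_le ((offS_le _).trans (mul_le_mul_of_nonneg_left ((bk_le _ _).trans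
    (mul_le_mul_of_nonneg_right opam x0)) zero_le_two)) (hF.left (mul_opn (JS ω x)) (abs_sv x)))
    (hF.left (mul_cr (ω := fun a => ω a x) z0 hz) (abs_sv x))
  rw [key]
  nlinarith [mul_nonneg c0 z0]

lemma Str.shift {ι I L : Type*} [Fintype ι] [Fintype I] [DecidableEq I] [Fintype L]
    [DecidableEq L] {r : ι → ℝ} {S S' : Matrix I L ℝ} {Sl : ι → Matrix I L ℝ} {C D E E' : ℝ}
    (h : Str r S Sl S' C E) (hD : 0 ≤ D) (hE : E ≤ D * opn S + E') : Str r S Sl S' (C + D) E' :=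
  fun u w hu hw => by
  obtain ⟨p, q, ϖ, θ, h1, h2, h3, h4⟩ := h u w hu hw
  exact ⟨p, q, ϖ, θ, h1, by linarith, by linarith, by linarith⟩

/-- the velocity of a field with source `σ` -/
def vel (W : Mx n) (ω σ : VF n) : VF n := fun x i =>
  ∑ k, (Tk W x k + al W x i k) * jac ω x i k - ω x i + σ x i

lemma jac_vel (W : Mx n) (ω σ : VF n) (x : Cube n) (i j : Fin n) :
    vel W ω σ (fl x j) i - vel W ω σ x i = dj W ω σ x i j := by
  simp only [dj, Matrix.sub_apply, jac, of_apply, stp, vel]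
  ring

lemma hasDerivAt_JS {W : Mx n} {ω : ℝ → A → VF n} {σ : A → VF n} {c : A → V n} {v : ℝ}
    (hf : ∀ t, FrS (ω t))
    (hd : ∀ a x i, HasDerivAt (fun t => ω t a x i) (vel W (ω v a) (σ a) x i + c a i) v)
    (x : Cube n) (p : A × Fin n) (j : Fin n) :
    HasDerivAt (fun t => JS (ω t) x p j) (DJ W (ω v) σ x p j) v := by
  by_cases e : p.2 = j
  · simp only [DJ, offS, of_apply, if_pos e]
    subst e
    simp only [(hf _).diag]
    exact hasDerivAt_const _ _
  · simp only [DJ, offS, of_apply, if_neg e, JS, jac, ← jac_vel]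
    exact ((hd p.1 (fl x j) p.2).sub (hd p.1 x p.2)).congr_deriv (by ring)


/-- **(SHs)**, differential form -/
theorem tch_bb (K : ℝ) : ∃ C ≥ (1 : ℝ), ∀ (n : ℕ) (W : Mx n), Nice W K →
    ∀ (A : Type) [Fintype A] [DecidableEq A] (ω : ℝ → A → VF n) (c : A → V n) (v : ℝ),
    (∀ t, FrS (ω t)) →
    (∀ a x i, HasDerivAt (fun t => ω t a x i) (vel W (ω v a) (bb W (ω v a)) x i + c a i) v) →
    ∀ (x : Cube n) (z : ℝ), (∀ k, ∑ a, ω v a x k ^ 2 ≤ z ^ 2) →
    S6b.Tch (fun t => opn (JS (ω t) x) ^ 4) v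
      (gen (mu W) (fun y => opn (JS (ω v) y) ^ 4) x + C * opn (JS (ω v) x) ^ 4 + C * z ^ 4) := by
  obtain ⟨C, C1, h⟩ := str_dj K
  obtain ⟨D, D1, hD⟩ := src_bb K
  obtain ⟨c, -, hc⟩ := coefStmt K
  have D4 : 0 ≤ D ^ 4 := by positivity
  refine ⟨21 * (C + D) + 3 + D ^ 4, by linarith, fun n W hN A _ _ ω c v hf hd x z hz => ?_⟩
  rw [Bas66.gen_eq hN.1]
  have h1 := hD n W hN A (ω v) x |z| (abs_nonneg z) (by simpa only [sq_abs] using hz)
  refine (ob_tch (S := fun t => JS (ω t) x) (fun l => ((hc n W hN x).1 l).1.le)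
    (hasDerivAt_JS hf hd x) ((h n W hN A (ω v) _ (hf v) x).shift (E' := D * |z|) (by linarith)
      (h1.trans_eq (mul_add _ _ _)))).mono ?_
  rw [mul_pow, (by decide : Even 4).pow_abs]
  have h2 : 0 ≤ opn (JS (ω v) x) ^ 4 := by positivity
  have h3 : 0 ≤ z ^ 4 := by positivity
  nlinarith [mul_nonneg D4 h2, mul_nonneg (by linarith : 0 ≤ 21 * (C + D) + 3) h3]

end Crest.Agent.T157.S6o

end
end

-- ▼ part T157/S6Sh_74
section

/-!
# Row 157, block S6 (helper74): the leaf `SHsStmt`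
-/

set_option autoImplicit false
set_option linter.unusedSectionVars false

noncomputable section

namespace Crest.Agent.T157.S6o

open Matrix Real Set
open Crest.Agent.T157.E hiding mean
open Crest.Agent.T157.Eig Crest.Agent.T157.Reg
open Crest.Agent.T157.Tap (V Mx)
open Crest.Agent.T157.Rec (grad fl)
open Crest.Agent.T157.Chain22 (sg)

variable {n : ℕ} {A : Type} [Fintype A] [DecidableEq A]

/-- stacked Hessians -/
def HS (F : A → Cube n → ℝ) (x : Cube n) : Sk A n :=
  of fun p j => grad (fun z => grad (F p.1) z p.2) x j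

lemma HS_eq (F : A → Cube n → ℝ) (x : Cube n) :
    HS F x = JS (fun a => grad (F a)) x * diagonal fun j => -sv x j / 2 := by
  ext p j
  simp only [HS, JS, jac, of_apply, mul_diagonal, Rec.grad_eq (fun z => grad (F p.1) z p.2)]
  ring

lemma JS_eq (F : A → Cube n → ℝ) (x : Cube n) :
    JS (fun a => grad (F a)) x = HS F x * diagonal fun j => -2 * sv x j := by
  ext p j
  simp only [HS, JS, jac, of_apply, mul_diagonal, Da.Gr.val_fl (fun z => grad (F p.1) z p.2)]
  ring

lemma opn_HS_le (F : A → Cube n → ℝ) (x : Cube n) :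
    opn (HS F x) ≤ opn (JS (fun a => grad (F a)) x) := by
  rw [HS_eq]
  simpa using mul_le le_rfl (opn_diagonal_le (d := fun j => -sv x j / 2) zero_le_one fun j => by
    rw [abs_div, abs_neg, abs_sv]; norm_num)

/-- the gradients of a family `∂ F = L F + linear` follow the intertwined equation -/
lemma hasDerivAt_grad_fam {W : Mx n} (hW : Wᵀ = W) {F : ℝ → Cube n → ℝ} {l : V n} {c s : ℝ}
    (h : ∀ x, HasDerivAt (fun u => F u x) (gen (mu W) (F s) x + l ⬝ᵥ sv x + c) s) (x : Cube n)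
    (i : Fin n) : HasDerivAt (fun u => grad (F u) x i)
      (vel W (grad (F s)) (bb W (grad (F s))) x i + l i) s := by
  refine (Da.Gr.hasDerivAt_grad h x i).congr_deriv ?_
  rw [Rec.grad_add (fun z => gen (mu W) (F s) z + l ⬝ᵥ sv z), Rec.grad_add, Rec.grad_lin,
    Rec.grad_const, add_zero, Pi.add_apply, Bas66.grad_gen hW]
  rfl

/-- **(SHs)**, Duhamel form with any continuous majorant of the rows -/
theorem shs_duh (K : ℝ) : ∃ C ≥ (1 : ℝ), ∀ (n : ℕ) (W : Mx n), 0 < n → Nice W K →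
    ∀ (A : Type) [Fintype A] [DecidableEq A] (F : ℝ → A → Cube n → ℝ) (l : ℝ → A → V n)
      (c : ℝ → A → ℝ) (g : ℝ → Cube n → ℝ) (τ : ℝ),
    (∀ s a x, HasDerivAt (fun u => F u a x) (gen (mu W) (F s a) x + l s a ⬝ᵥ sv x + c s a) s) →
    (∀ z, Continuous fun u => g u z) →
    (∀ s ∈ Icc 0 τ, ∀ x, ∃ z : ℝ, z ^ 4 ≤ g s x ∧ ∀ i, ∑ a, grad (F s a) x i ^ 2 ≤ z ^ 2) →
    ∀ v ∈ Icc 0 τ, ∀ x, opn (HS (F v) x) ^ 4 ≤
      16 * exp (C * v) * sg (mu W) v (fun z => opn (HS (F 0) z) ^ 4) x +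
        C * S6b.duh (mu W) C g v x := by
  obtain ⟨C, C1, h⟩ := tch_bb K
  refine ⟨C, C1, fun n W hn hN A _ _ F l c g τ hd hg hz v hv x => ?_⟩
  have hw := Bas66.mu_pos W
  have hf : ∀ t, FrS fun a => grad (F t a) := fun t a x i => Bas66.grad_fl _ x i
  have hd' := fun s a => hasDerivAt_grad_fam hN.1 (hd s a)
  have h1 := S6b.cmp hn hw (Φ := fun t y => opn (JS (fun a => grad (F t a)) y) ^ 4)
    (g := fun u z => C * g u z) (T := τ) (C := C)
    (fun y => (cont_opn (s := Icc 0 τ) fun t _ p j => (hasDerivAt_JS (ω := fun t a => grad (F t a))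
      hf (hd' t) y p j).hasDerivWithinAt).pow 4) (fun z => continuous_const.mul (hg z))
    (fun s hs y => by
      obtain ⟨z, z1, z2⟩ := hz s ⟨hs.1.le, hs.2⟩ y
      refine (h n W hN A (fun t a => grad (F t a)) (l s) s hf (hd' s) y z z2).mono ?_
      nlinarith) v hv x
  have h2 : S6b.duh (mu W) C (fun u z => C * g u z) v x = C * S6b.duh (mu W) C g v x := by
    simp only [S6b.duh, Rec.sg_const_mul, ← intervalIntegral.integral_const_mul, mul_left_comm C]
  have h3 : sg (mu W) v (fun y => opn (JS (fun a => grad (F 0 a)) y) ^ 4) x ≤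
      16 * sg (mu W) v (fun z => opn (HS (F 0) z) ^ 4) x := by
    rw [← Rec.sg_const_mul]
    refine Rec.sg_mono hn hw hv.1 (fun y => ?_) x
    have : opn (JS (fun a => grad (F 0 a)) y) ≤ opn (HS (F 0) y) * 2 := by
      rw [JS_eq]
      exact mul_le le_rfl (opn_diagonal_le zero_le_two fun j => by
        rw [abs_mul, abs_sv]; norm_num)
    exact (pow_le_pow_left₀ (opn_nonneg _) this 4).trans_eq (by ring)
  have h4 := mul_le_mul_of_nonneg_left h3 (exp_pos (C * v)).le
  have h5 := pow_le_pow_left₀ (opn_nonneg _) (opn_HS_le (F v) x) 4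
  rw [h2] at h1
  linarith

/-- Duhamel integral of a time-free source `a + b 1_B` -/
lemma duh_oc (hn : 0 < n) (W : Mx n) {C a b τ v : ℝ} (hC : 0 ≤ C) (ha : 0 ≤ a) (hb : 0 ≤ b)
    (B : Set (Cube n)) (hv : v ∈ Icc 0 τ) (x : Cube n) :
    S6b.duh (mu W) C (fun _ z => a + b * B.indicator 1 z) v x ≤
      exp (C * τ) * (τ * a + b * S6.oc W B τ x) := by
  have hw := Bas66.mu_pos W
  have hc : Continuous fun u => sg (mu W) u (B.indicator 1) x :=
    S6b.cont_sg_fam hn hw (t := fun u => u) (g := fun _ => B.indicator 1) continuous_id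
      (fun _ => continuous_const) x
  have h0 : ∀ u, 0 ≤ u → 0 ≤ sg (mu W) u (B.indicator 1) x := fun u hu =>
    Rec.sg_nonneg hn hw hu (fun z => indicator_nonneg (fun _ _ => zero_le_one) z) x
  have h1 : S6b.duh (mu W) C (fun _ z => a + b * B.indicator 1 z) v x =
      ∫ u in (0 : ℝ)..v, exp (C * u) * (a + b * sg (mu W) u (B.indicator 1) x) := by
    have := intervalIntegral.integral_comp_sub_left
      (fun u => exp (C * u) * (a + b * sg (mu W) u (B.indicator 1) x)) v (a := 0) (b := v)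
    rw [sub_self, sub_zero] at this
    rw [← this]
    simp only [S6b.duh, Rec.sg_add_fun, Rec.sg_const hn hw, Rec.sg_const_mul]
  have h2 : ∫ u in (0 : ℝ)..τ, exp (C * τ) * (a + b * sg (mu W) u (B.indicator 1) x) =
      exp (C * τ) * (τ * a + b * S6.oc W B τ x) := by
    rw [intervalIntegral.integral_const_mul, intervalIntegral.integral_add
      (continuous_const.intervalIntegrable _ _)
      ((hc.const_mul b).intervalIntegrable _ _), intervalIntegral.integral_const,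
      intervalIntegral.integral_const_mul, sub_zero, smul_eq_mul, S6.oc]
  rw [h1, ← h2]
  refine (intervalIntegral.integral_mono_interval (c := 0) (d := τ) le_rfl hv.1 hv.2
    (MeasureTheory.ae_restrict_of_forall_mem measurableSet_Ioc fun u hu => ?_)
    (Continuous.intervalIntegrable (by fun_prop) _ _)).trans
    (intervalIntegral.integral_mono_on (hv.1.trans hv.2)
      (Continuous.intervalIntegrable (by fun_prop) _ _)
      (Continuous.intervalIntegrable (by fun_prop) _ _) fun u hu => ?_)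
  · have := h0 u hu.1.le
    positivity
  · have := h0 u hu.1
    exact mul_le_mul_of_nonneg_right (exp_le_exp.2 (mul_le_mul_of_nonneg_left hu.2 hC))
      (by positivity)

theorem oc_nonneg (hn : 0 < n) (W : Mx n) (B : Set (Cube n)) {τ : ℝ} (hτ : 0 ≤ τ) (x : Cube n) :
    0 ≤ S6.oc W B τ x := intervalIntegral.integral_nonneg hτ fun _ hu =>
  Rec.sg_nonneg hn (Bas66.mu_pos W) hu.1
    (fun z => indicator_nonneg (fun _ _ => zero_le_one) z) x

end Crest.Agent.T157.S6o

namespace Crest.Agent.T157.S6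

open Matrix Real Set
open Crest.Agent.T157.Eig Crest.Agent.T157.Reg Crest.Agent.T157.S6o

theorem shsStmt : SHsStmt := fun K => by
  obtain ⟨C, C1, h⟩ := shs_duh K
  refine ⟨C + 1, by linarith, fun n W hn hN F l τ r Λ B hd h0 hz v hv x => ?_⟩
  have r4 : 0 ≤ r ^ 4 := by positivity
  have l4 : 0 ≤ Λ ^ 4 := by positivity
  have t0 : 0 ≤ τ := hv.1.trans hv.2
  have h1 := h n W hn hN (Fin n) F l (fun _ _ => 0) (fun _ z => r ^ 4 + Λ ^ 4 * B.indicator 1 z) τ
    (by simpa only [add_zero] using hd) (fun _ => continuous_const) (fun s hs y => by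
      by_cases e : y ∈ B
      · exact ⟨Λ, by simp [e, r4], fun i => (hz s hs y i).1⟩
      · exact ⟨r, by simp [e], fun i => (hz s hs y i).2 e⟩) v hv x
  have h2 : (fun z => opn (HS (F 0) z) ^ 4) = fun _ => 0 := funext fun z => by
    have : HS (F 0) z = 0 := h0 z
    rw [this, ← zero_smul ℝ (0 : Sk (Fin n) n), opn_smul]
    simp
  rw [h2, Rec.sg_const hn (Bas66.mu_pos W), mul_zero, zero_add] at h1
  have h3 := mul_le_mul_of_nonneg_left (duh_oc hn W (by linarith : 0 ≤ C) r4 l4 B hv x)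
    (by linarith : 0 ≤ C)
  have h4 := oc_nonneg hn W B t0 x
  have h5 : τ * r ^ 4 + Λ ^ 4 * oc W B τ x ≤ exp τ * (r ^ 4 + Λ ^ 4 * oc W B τ x) := by
    have := add_one_le_exp τ
    nlinarith [mul_nonneg l4 h4]
  have h6 := mul_le_mul_of_nonneg_left h5 (by positivity : 0 ≤ C * exp (C * τ))
  have h7 : 0 ≤ exp (C * τ) * exp τ * (r ^ 4 + Λ ^ 4 * oc W B τ x) := by positivity
  rw [add_mul C 1 τ, one_mul, exp_add]
  change opn (HS (F v) x) ^ 4 ≤ _
  nlinarith

end Crest.Agent.T157.S6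

end
end

-- ▼ part T157/S6PlA_55
section

/-!
# Row 157, block B/S6 (helper55): rows of a sparse set of sites are independent of the cavity
-/

set_option autoImplicit false
set_option linter.all false

noncomputable section

namespace Crest.Agent.T157.S6p

open MeasureTheory ProbabilityTheory Matrix Real
open Crest.ProbabilityR.SpinGlassDynamics
open Crest.Agent.T157.E Crest.Agent.T157.Eig Crest.Agent.T157.Pl

/-! ### resampling -/

section mp
variable {ι κ : Type} [Fintype ι] [Fintype κ]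

theorem mp_extend {e : κ → ι} (he : Function.Injective e) (μ : ι → Measure ℝ)
    [∀ i, IsProbabilityMeasure (μ i)] :
    MeasurePreserving (fun p : (ι → ℝ) × (κ → ℝ) => Function.extend e p.2 p.1)
      ((Measure.pi μ).prod (Measure.pi fun k => μ (e k))) (Measure.pi μ) := by
  classical
  have hm : Measurable fun p : (ι → ℝ) × (κ → ℝ) => Function.extend e p.2 p.1 := by
    refine measurable_pi_lambda _ fun i => ?_
    by_cases h : ∃ k, e k = i
    · obtain ⟨k, rfl⟩ := h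
      simp only [he.extend_apply]; fun_prop
    · simp only [Function.extend_apply' _ _ _ h]; fun_prop
  refine ⟨hm, (Measure.pi_eq fun s hs => ?_).symm⟩
  rw [Measure.map_apply hm (MeasurableSet.univ_pi hs)]
  have e1 : (fun p : (ι → ℝ) × (κ → ℝ) => Function.extend e p.2 p.1) ⁻¹' Set.univ.pi s =
      (Set.univ.pi fun i => if ∃ k, e k = i then Set.univ else s i) ×ˢ
        Set.univ.pi fun k => s (e k) := by
    ext ⟨ω, z⟩
    simp only [Set.mem_preimage, Set.mem_pi, Set.mem_univ, true_imp_iff, Set.mem_prod]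
    refine ⟨fun h => ⟨fun i => ?_, fun k => by simpa only [he.extend_apply] using h (e k)⟩,
      fun h i => ?_⟩
    · split_ifs with hi
      · trivial
      · simpa only [Function.extend_apply' _ _ _ hi] using h i
    · by_cases hi : ∃ k, e k = i
      · obtain ⟨k, rfl⟩ := hi
        simpa only [he.extend_apply] using h.2 k
      · simpa only [Function.extend_apply' _ _ _ hi, hi, if_false] using h.1 i
  rw [e1, Measure.prod_prod, Measure.pi_pi, Measure.pi_pi,
    ← Finset.prod_filter_mul_prod_filter_not Finset.univ (fun i => ∃ k, e k = i) fun i => μ i (s i),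
    mul_comm]
  congr 1
  · refine Finset.prod_bij (fun k _ => e k) (fun k _ => by simp) (fun _ _ _ _ h => he h)
      (fun i hi => ?_) fun _ _ => rfl
    obtain ⟨k, rfl⟩ := (Finset.mem_filter.1 hi).2
    exact ⟨k, Finset.mem_univ _, rfl⟩
  · rw [Finset.prod_filter]
    refine Finset.prod_congr rfl fun i _ => ?_
    split_ifs <;> simp

/-- a bound on all slices is a bound on the set -/
theorem slice_le {e : κ → ι} (he : Function.Injective e) {S : Set (ι → ℝ)} (hS : MeasurableSet S)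
    {δ : ℝ} (h : ∀ g, (gv κ).real {G | Function.extend e G g ∈ S} ≤ δ) : (gv ι).real S ≤ δ := by
  have hδ : 0 ≤ δ := measureReal_nonneg.trans (h 0)
  have mp := mp_extend he fun _ : ι => gaussianReal 0 1
  rw [Measure.real, ← mp.measure_preimage hS.nullMeasurableSet,
    Measure.prod_apply (mp.measurable hS)]
  refine ENNReal.toReal_le_of_le_ofReal hδ ?_
  refine (lintegral_mono (g := fun _ => ENNReal.ofReal δ) fun g => ?_).trans (by simp)
  exact (ENNReal.le_ofReal_iff_toReal_le (measure_ne_top _ _) hδ).2 (h g)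

end mp

variable {n : ℕ}

/-- the cavity couplings -/
def cav (T : Finset (Fin n)) (W : Matrix (Fin n) (Fin n) ℝ) : Matrix (Fin n) (Fin n) ℝ :=
  of fun i j => if i ∈ T ∨ j ∈ T then 0 else W i j

/-- the rows of `T`, columns off `T` -/
def Rw (T : Finset (Fin n)) (W : Matrix (Fin n) (Fin n) ℝ) : Matrix (Fin n) (Fin n) ℝ :=
  of fun k i => if k ∈ T ∧ i ∉ T then W k i else 0

/-- the coordinate projection -/
def PT (T : Finset (Fin n)) : Matrix (Fin n) (Fin n) ℝ := diagonal fun k => if k ∈ T then 1 else 0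

/-- deviation of the block `J_T A J_T'` from its mean -/
def Dev (β : ℝ) (T : Finset (Fin n)) (W A : Matrix (Fin n) (Fin n) ℝ) : ℝ :=
  opn (Rw T W * A * (Rw T W)ᵀ - (β ^ 2 / n * ∑ i ∈ Tᶜ, A i i) • PT T)

/-- Hanson–Wright in operator form -/
def HWop : Prop := ∃ c > (0 : ℝ), ∀ (ka io : Type) [Fintype ka] [Fintype io] [DecidableEq ka]
  [DecidableEq io] (A : Matrix io io ℝ) (N s : ℝ), (Fintype.card io : ℝ) ≤ N → 0 < s → s ≤ 1 →
    (gv (ka × io)).real {G | s * N * opn A <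
      opn ((of fun k i => G (k, i)) * A * (of fun k i => G (k, i))ᵀ - A.trace • (1 : Matrix ka ka ℝ))} ≤
      2 * 81 ^ Fintype.card ka * exp (-(c * N * s ^ 2))

variable {T : Finset (Fin n)}

lemma opn_PT (T : Finset (Fin n)) : opn (PT T) ≤ 1 :=
  opn_diagonal_le zero_le_one fun i => by split_ifs <;> simp

lemma Rw_eq (T : Finset (Fin n)) (W : Matrix (Fin n) (Fin n) ℝ) : Rw T W = PT T * W * PT Tᶜ := by
  ext k i
  simp only [Rw, PT, of_apply, mul_diagonal, diagonal_mul, Finset.mem_compl]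
  by_cases h1 : k ∈ T <;> by_cases h2 : i ∈ T <;> simp [h1, h2]

lemma cav_eq (T : Finset (Fin n)) (W : Matrix (Fin n) (Fin n) ℝ) : cav T W = PT Tᶜ * W * PT Tᶜ := by
  ext k i
  simp only [cav, PT, of_apply, mul_diagonal, diagonal_mul, Finset.mem_compl]
  by_cases h1 : k ∈ T <;> by_cases h2 : i ∈ T <;> simp [h1, h2]

lemma opn_sand (S T : Finset (Fin n)) (W : Matrix (Fin n) (Fin n) ℝ) :
    opn (PT S * W * PT T) ≤ opn W := by
  have h1 := opn_mul_le (PT S * W) (PT T)
  have h2 := opn_mul_le (PT S) W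
  have h3 := opn_PT S
  have h4 := opn_PT T
  have h5 := opn_nonneg W
  have h6 := opn_nonneg (PT S * W)
  nlinarith

lemma opn_Rw (T : Finset (Fin n)) (W : Matrix (Fin n) (Fin n) ℝ) : opn (Rw T W) ≤ opn W := by
  rw [Rw_eq]; exact opn_sand _ _ _

lemma opn_cav (T : Finset (Fin n)) (W : Matrix (Fin n) (Fin n) ℝ) : opn (cav T W) ≤ opn W := by
  rw [cav_eq]; exact opn_sand _ _ _

lemma Rw_add (W W' : Matrix (Fin n) (Fin n) ℝ) : Rw T (W + W') = Rw T W + Rw T W' := by
  simp only [Rw_eq, Matrix.mul_add, Matrix.add_mul]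

lemma Rw_smul (c : ℝ) (W : Matrix (Fin n) (Fin n) ℝ) : Rw T (c • W) = c • Rw T W := by
  simp only [Rw_eq, Matrix.mul_smul, Matrix.smul_mul]

lemma cav_add (W W' : Matrix (Fin n) (Fin n) ℝ) : cav T (W + W') = cav T W + cav T W' := by
  simp only [cav_eq, Matrix.mul_add, Matrix.add_mul]

lemma cav_smul (c : ℝ) (W : Matrix (Fin n) (Fin n) ℝ) : cav T (c • W) = c • cav T W := by
  simp only [cav_eq, Matrix.mul_smul, Matrix.smul_mul]

/-- sites in and off `T` -/
abbrev In (T : Finset (Fin n)) : Type := {k : Fin n // k ∈ T}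
abbrev Out (T : Finset (Fin n)) : Type := {k : Fin n // k ∉ T}

lemma ne_io (p : In T × Out T) : p.1.1 ≠ p.2.1 := fun h => p.2.2 (h ▸ p.1.2)

/-- the crossing pairs -/
def cr (T : Finset (Fin n)) (p : In T × Out T) : Pair n :=
  if h : p.1.1 < p.2.1 then ⟨(p.1.1, p.2.1), h⟩
  else ⟨(p.2.1, p.1.1), lt_of_le_of_ne (not_lt.1 h) (ne_io p).symm⟩

lemma cr_inj : Function.Injective (cr T) := by
  rintro ⟨⟨a, ha⟩, ⟨b, hb⟩⟩ ⟨⟨c, hc⟩, ⟨d, hd⟩⟩ h
  have h' := congrArg Subtype.val h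
  unfold cr at h'
  split_ifs at h' <;> simp only [Prod.mk.injEq] at h' <;> obtain ⟨h1, h2⟩ := h'
  · subst h1; subst h2; rfl
  · subst h1; exact absurd ha hd
  · subst h1; exact absurd hc hb
  · subst h1; subst h2; rfl

lemma Jmat_cr (g : Pair n → ℝ) (p : In T × Out T) : Jmat n g p.1.1 p.2.1 = g (cr T p) / √n := by
  unfold cr
  split_ifs with h
  · exact Jmat_apply_lt g h
  · exact Jmat_apply_gt g _

lemma not_cr {i j : Fin n} (hi : i ∉ T) (hj : j ∉ T) (h : i < j) :
    ¬ ∃ p, cr T p = ⟨(i, j), h⟩ := by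
  rintro ⟨p, hp⟩
  have h' := congrArg Subtype.val hp
  unfold cr at h'
  split_ifs at h' <;> simp only [Prod.mk.injEq] at h'
  · exact hi (h'.1 ▸ p.1.2)
  · exact hj (h'.2 ▸ p.1.2)

lemma cav_ext (G : In T × Out T → ℝ) (g : Pair n → ℝ) :
    cav T (Jmat n (Function.extend (cr T) G g)) = cav T (Jmat n g) := by
  ext i j
  simp only [cav, of_apply]
  split_ifs with h
  · rfl
  · rw [not_or] at h
    rcases lt_trichotomy i j with h' | rfl | h'
    · rw [Jmat_apply_lt _ h', Jmat_apply_lt _ h', Function.extend_apply' _ _ _ (not_cr h.1 h.2 h')]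
    · rw [Jmat_diag, Jmat_diag]
    · rw [Jmat_apply_gt _ h', Jmat_apply_gt _ h', Function.extend_apply' _ _ _ (not_cr h.2 h.1 h')]

lemma Rw_ext (G : In T × Out T → ℝ) (g : Pair n → ℝ) :
    Rw T (Jmat n (Function.extend (cr T) G g)) = (√n)⁻¹ •
      (emb (Subtype.val : In T → Fin n) * (of fun k i => G (k, i)) *
        (emb (Subtype.val : Out T → Fin n))ᵀ) := by
  ext k i
  simp only [Rw, of_apply, Matrix.smul_apply, mul_apply, emb, transpose_apply, smul_eq_mul]
  by_cases hk : k ∈ T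
  · by_cases hi : i ∈ T
    · rw [if_neg fun h => h.2 hi, Finset.sum_eq_zero, mul_zero]
      intro j _
      rw [if_neg fun h : i = j.1 => j.2 (h ▸ hi), mul_zero]
    · rw [if_pos ⟨hk, hi⟩, Finset.sum_eq_single (⟨i, hi⟩ : Out T), Finset.sum_eq_single (⟨k, hk⟩ : In T)]
      · have := Jmat_cr (Function.extend (cr T) G g) (⟨k, hk⟩, ⟨i, hi⟩)
        rw [cr_inj.extend_apply] at this
        simp only at this
        rw [this]; simp [div_eq_inv_mul]
      · intro b _ hb
        rw [if_neg fun h : k = b.1 => hb (Subtype.ext h.symm), zero_mul]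
      · simp
      · intro b _ hb
        rw [if_neg fun h : i = b.1 => hb (Subtype.ext h.symm), mul_zero]
      · simp
  · rw [if_neg fun h => hk h.1, Finset.sum_eq_zero, mul_zero]
    intro j _
    rw [Finset.sum_eq_zero, zero_mul]
    intro b _
    rw [if_neg fun h : k = b.1 => hk (h ▸ b.2), zero_mul]

lemma emb_PT : emb (Subtype.val : In T → Fin n) * (emb (Subtype.val : In T → Fin n))ᵀ = PT T := by
  ext i j
  simp only [mul_apply, emb, of_apply, transpose_apply, PT, diagonal_apply]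
  by_cases hi : i ∈ T
  · rw [Finset.sum_eq_single (⟨i, hi⟩ : In T)]
    · by_cases h : i = j
      · subst h; simp [hi]
      · simp [h, Ne.symm h]
    · intro b _ hb
      rw [if_neg fun h : i = b.1 => hb (Subtype.ext h.symm), zero_mul]
    · simp
  · rw [Finset.sum_eq_zero]
    · simp [hi]
    · intro b _
      rw [if_neg fun h : i = b.1 => hi (h ▸ b.2), zero_mul]

lemma trace_out (A : Matrix (Fin n) (Fin n) ℝ) :
    (A.submatrix (Subtype.val : Out T → Fin n) Subtype.val).trace = ∑ i ∈ Tᶜ, A i i := by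
  rw [trace, Finset.sum_subtype Tᶜ (p := fun k => k ∉ T) (fun k => Finset.mem_compl)]
  rfl

lemma Dev_ext (hn : 0 < n) (β : ℝ) (G : In T × Out T → ℝ) (g : Pair n → ℝ)
    (A : Matrix (Fin n) (Fin n) ℝ) :
    Dev β T (β • Jmat n (Function.extend (cr T) G g)) A ≤ β ^ 2 / n *
      opn ((of fun k i => G (k, i)) * A.submatrix (Subtype.val : Out T → Fin n) Subtype.val *
        (of fun k i => G (k, i))ᵀ -
        (A.submatrix (Subtype.val : Out T → Fin n) Subtype.val).trace • (1 : Matrix (In T) (In T) ℝ)) := by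
  have hn' : (0 : ℝ) < n := Nat.cast_pos.2 hn
  set Gm : Matrix (In T) (Out T) ℝ := of fun k i => G (k, i) with hGm
  set E1 := emb (Subtype.val : In T → Fin n) with hE1
  set E2 := emb (Subtype.val : Out T → Fin n) with hE2
  set A' := A.submatrix (Subtype.val : Out T → Fin n) Subtype.val with hA'
  have hA : E2ᵀ * A * E2 = A' := emb_compress _ _
  have hs : (β * (√n)⁻¹) * (β * (√n)⁻¹) = β ^ 2 / n := by
    rw [mul_mul_mul_comm, ← mul_inv, mul_self_sqrt hn'.le, sq, div_eq_mul_inv]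
  have e : Rw T (β • Jmat n (Function.extend (cr T) G g)) * A *
      (Rw T (β • Jmat n (Function.extend (cr T) G g)))ᵀ - (β ^ 2 / n * ∑ i ∈ Tᶜ, A i i) • PT T =
      (β ^ 2 / n) • (E1 * (Gm * A' * Gmᵀ - A'.trace • (1 : Matrix (In T) (In T) ℝ)) * E1ᵀ) := by
    rw [Rw_smul, Rw_ext, smul_smul, ← hGm, ← hE1, ← hE2, transpose_smul, Matrix.smul_mul,
      Matrix.smul_mul, Matrix.mul_smul, smul_smul, hs, ← trace_out, ← hA', ← emb_PT, ← hE1, mul_smul,
      ← smul_sub, Matrix.mul_sub, Matrix.sub_mul, Matrix.mul_smul, Matrix.smul_mul, Matrix.mul_one,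
      ← hA]
    simp only [transpose_mul, transpose_transpose, Matrix.mul_assoc]
  rw [Dev, e, opn_smul, abs_of_nonneg (by positivity)]
  refine mul_le_mul_of_nonneg_left ?_ (by positivity)
  set X := Gm * A' * Gmᵀ - A'.trace • (1 : Matrix (In T) (In T) ℝ)
  have h1 : opn E1 ≤ 1 := opn_isom_le (emb_isom Subtype.val_injective)
  have h2 : opn E1ᵀ ≤ 1 := by rwa [opn_transpose]
  have h3 := opn_mul_le (E1 * X) E1ᵀ
  have h4 := opn_mul_le E1 X
  have h5 := opn_nonneg X
  have h6 := opn_nonneg (E1 * X)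
  have h7 := mul_le_mul_of_nonneg_left h2 h6
  have h8 := mul_le_mul_of_nonneg_right h1 h5
  exact h3.trans (h7.trans ((mul_one _).le.trans (h4.trans (h8.trans (one_mul _).le))))

lemma opn_Rw_plant (hn : 0 < n) (x : Cube n) :
    opn (Rw T ((1 / n : ℝ) • (vecMulVec (sv x) (sv x) - 1))) ≤ √(T.card / n) := by
  have hn' : (0 : ℝ) < n := Nat.cast_pos.2 hn
  have e : Rw T (vecMulVec (sv x) (sv x) - 1) =
      vecMulVec (fun k => if k ∈ T then sv x k else 0) fun i => if i ∈ T then 0 else sv x i := by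
    ext k i
    simp only [Rw, of_apply, Matrix.sub_apply, vecMulVec_apply]
    by_cases hk : k ∈ T <;> by_cases hi : i ∈ T <;> simp [hk, hi]
    exact one_apply_ne fun h => hi (h ▸ hk)
  rw [Rw_smul, e, opn_smul, abs_of_nonneg (by positivity)]
  have h1 : nrm (fun k => if k ∈ T then sv x k else 0) ≤ √T.card := by
    rw [nrm_le_iff (sqrt_nonneg _), sq_sqrt (Nat.cast_nonneg _)]
    refine le_of_eq ?_
    simp only [dotProduct, mul_ite, ite_mul, mul_zero, zero_mul, sv, spin_mul_self]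
    rw [Finset.sum_congr rfl (g := fun k => if k ∈ T then (1 : ℝ) else 0) fun k _ => by
      split_ifs <;> rfl]
    simp
  have h2 : nrm (fun i => if i ∈ T then 0 else sv x i) ≤ √n := by
    rw [nrm_le_iff (sqrt_nonneg _), sq_sqrt hn'.le]
    refine (Finset.sum_le_sum (g := fun _ => (1 : ℝ)) fun i _ => ?_).trans (by simp)
    by_cases h : i ∈ T <;> simp [h, sv, spin_mul_self]
  refine (mul_le_mul_of_nonneg_left ((opn_vecMulVec_le _ _).trans
    (mul_le_mul h1 h2 (nrm_nonneg _) (sqrt_nonneg _))) (by positivity)).trans (le_of_eq ?_)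
  rw [sqrt_div (Nat.cast_nonneg _)]
  have := (sqrt_pos.2 hn').ne'
  field_simp
  rw [sq_sqrt hn'.le, mul_comm]

/-- the deviation is stable under a small shift of the rows -/
lemma Dev_shift (β : ℝ) (W D A : Matrix (Fin n) (Fin n) ℝ) {ε K : ℝ} (hD : opn (Rw T D) ≤ ε)
    (hW : opn (W + D) ≤ K) : Dev β T (W + D) A ≤ Dev β T W A + ε * (2 * K + ε) * opn A := by
  have hR := (opn_Rw T (W + D)).trans hW
  set R := Rw T (W + D) with hRd
  set Δ := Rw T D with hΔ
  have hR0 : Rw T W = R - Δ := by rw [hRd, Rw_add, add_sub_cancel_right]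
  have h0 : opn (R - Δ) ≤ K + ε := (opn_sub_le _ _).trans (add_le_add hR hD)
  rw [Dev, Dev, ← hRd, hR0]
  set c := (β ^ 2 / n * ∑ i ∈ Tᶜ, A i i) • PT T
  have e : R * A * Rᵀ - c = ((R - Δ) * A * (R - Δ)ᵀ - c) + (Δ * A * Rᵀ + (R - Δ) * A * Δᵀ) := by
    simp only [transpose_sub, Matrix.sub_mul, Matrix.mul_sub]; abel
  rw [e]
  refine (opn_add_le _ _).trans (add_le_add le_rfl ((opn_add_le _ _).trans ?_))
  have hA := opn_nonneg A
  have hε : 0 ≤ ε := (opn_nonneg _).trans hD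
  have hK : 0 ≤ K := (opn_nonneg _).trans hR
  have h1 : opn (Δ * A * Rᵀ) ≤ ε * opn A * K := (opn_mul_le _ _).trans
    (mul_le_mul ((opn_mul_le _ _).trans (mul_le_mul_of_nonneg_right hD hA))
      (by rwa [opn_transpose]) (opn_nonneg _) (by positivity))
  have h2 : opn ((R - Δ) * A * Δᵀ) ≤ (K + ε) * opn A * ε := (opn_mul_le _ _).trans
    (mul_le_mul ((opn_mul_le _ _).trans (mul_le_mul_of_nonneg_right h0 hA))
      (by rwa [opn_transpose]) (opn_nonneg _) (by positivity))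
  nlinarith

/-- the planted disorder with the crossing couplings resampled -/
def plx (β : ℝ) (T : Finset (Fin n)) (x : Cube n) (g : Pair n → ℝ) (G : In T × Out T → ℝ) :
    Matrix (Fin n) (Fin n) ℝ := β • Jmat n (Function.extend (cr T) G g + th n β • tau x)

lemma cav_plx (β : ℝ) (x : Cube n) (g : Pair n → ℝ) (G : In T × Out T → ℝ) :
    cav T (plx β T x g G) = cav T (β • Jmat n (g + th n β • tau x)) := by
  simp only [plx, Jmat_add, cav_smul, cav_add, cav_ext]

/-- **Hanson–Wright for the rows of `T` in the planted model** -/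
theorem hw_plant (H : HWop) : ∃ c > (0 : ℝ), ∀ n : ℕ, 0 < n → ∀ β : ℝ, 0 ≤ β → β ≤ 1 →
    ∀ (T : Finset (Fin n)) (x : Cube n) (g : Pair n → ℝ) (A : Matrix (Fin n) (Fin n) ℝ) (K s : ℝ),
    0 < s → s ≤ 1 → (gv (In T × Out T)).real {G | opn (plx β T x g G) ≤ K ∧
      (s + (2 * K + 1) * √(T.card / n)) * opn A < Dev β T (plx β T x g G) A} ≤
      2 * 81 ^ T.card * exp (-(c * n * s ^ 2)) := by
  obtain ⟨c, hc, H⟩ := H
  refine ⟨c, hc, fun n hn β h0 h1 T x g A K s hs hs1 => ?_⟩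
  have hn' : (0 : ℝ) < n := Nat.cast_pos.2 hn
  have hcard : (Fintype.card (Out T) : ℝ) ≤ n := by
    exact_mod_cast (Fintype.card_subtype_le _).trans (Fintype.card_fin n).le
  have h := H (In T) (Out T) (A.submatrix Subtype.val Subtype.val) n s hcard hs hs1
  rw [Fintype.card_coe] at h
  refine le_trans (measureReal_mono fun G hG => ?_) h
  obtain ⟨h3, h4⟩ := hG
  rw [Set.mem_setOf_eq]
  by_contra hcon
  rw [not_lt] at hcon
  have e : plx β T x g G = β • Jmat n (Function.extend (cr T) G g) +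
      β ^ 2 • ((1 / n : ℝ) • (vecMulVec (sv x) (sv x) - 1)) := by
    rw [plx, Jmat_add_tau, smul_add, smul_smul, smul_smul]; congr 2; ring
  have hb : β ^ 2 ≤ 1 := pow_le_one₀ h0 h1
  have hε1 : √(T.card / n : ℝ) ≤ 1 := sqrt_le_one.2 ((div_le_one hn').2 (by
    exact_mod_cast (Finset.card_le_univ T).trans (Fintype.card_fin n).le))
  have hε0 := sqrt_nonneg (T.card / n : ℝ)
  have hD : opn (Rw T (β ^ 2 • ((1 / n : ℝ) • (vecMulVec (sv x) (sv x) - 1)))) ≤ √(T.card / n) := by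
    rw [Rw_smul, opn_smul, abs_of_nonneg (sq_nonneg β)]
    exact (mul_le_mul hb (opn_Rw_plant hn x) (opn_nonneg _) zero_le_one).trans (one_mul _).le
  rw [e] at h3 h4
  have h5 := Dev_shift β _ _ A hD h3
  have h6 := Dev_ext hn β G g A
  have h7 := opn_submatrix_le A (e := (Subtype.val : Out T → Fin n)) Subtype.val_injective
  have hA := opn_nonneg A
  have h8 : β ^ 2 / n * (s * n * opn A) ≤ s * opn A := by
    rw [show β ^ 2 / n * (s * n * opn A) = β ^ 2 * (s * opn A) by field_simp]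
    exact mul_le_of_le_one_left (by positivity) hb
  have h9 := mul_le_mul_of_nonneg_left
    (hcon.trans (mul_le_mul_of_nonneg_left h7 (by positivity))) (show 0 ≤ β ^ 2 / n by positivity)
  have h10 : √(T.card / n : ℝ) * (2 * K + √(T.card / n : ℝ)) * opn A ≤
      (2 * K + 1) * √(T.card / n) * opn A :=
    mul_le_mul_of_nonneg_right (by nlinarith) hA
  have h11 := h6.trans (h9.trans h8)
  linarith

end Crest.Agent.T157.S6p

end
end

-- ▼ part T157/S6Hw_98
section

/-!
# Row 157, part B, block S6 (helper98): Hanson-Wright inequality in operator norm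
-/

set_option autoImplicit false
set_option maxHeartbeats 400000
set_option linter.unusedSectionVars false

noncomputable section

namespace Crest.Agent.T157.S6w

open MeasureTheory Matrix Set
open scoped ENNReal Kronecker
open Crest.Agent.T157.Eig Crest.Agent.T157.Conc

variable {κ ι σ τ : Type*} [Fintype κ] [DecidableEq κ] [Fintype ι] [DecidableEq ι] [Fintype σ]
  [Fintype τ]

/-- the matrix of the coordinates -/
def mat (x : κ × ι → ℝ) : Matrix κ ι ℝ := of fun k i => x (k, i)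

lemma en_eq (x : σ → ℝ) : en x = nrm x := by simp only [en, nrm, dotProduct, sq]

lemma bil (u w : κ → ℝ) (A : Matrix ι ι ℝ) (x y : κ × ι → ℝ) :
    x ⬝ᵥ (vecMulVec u w ⊗ₖ A) *ᵥ y = ((mat x)ᵀ *ᵥ u) ⬝ᵥ A *ᵥ ((mat y)ᵀ *ᵥ w) := by
  simp only [dotProduct, mulVec, Fintype.sum_prod_type, kroneckerMap_apply, vecMulVec_apply, mat,
    transpose_apply, of_apply, Finset.mul_sum, Finset.sum_mul]
  rw [Finset.sum_comm]
  refine Finset.sum_congr rfl fun i _ => ?_
  rw [Finset.sum_comm, Finset.sum_comm (s := Finset.univ (α := ι))]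
  refine Finset.sum_congr rfl fun l _ => ?_
  rw [Finset.sum_comm]
  exact Finset.sum_congr rfl fun j _ => Finset.sum_congr rfl fun k _ => by ring

lemma nrm_mat_le (x : κ × ι → ℝ) {u : κ → ℝ} (hu : nrm u ≤ 1) : nrm ((mat x)ᵀ *ᵥ u) ≤ en x := by
  have h := opB_fro (mat x)ᵀ u
  have e : fro (mat x)ᵀ = ∑ p, x p ^ 2 := by
    rw [fro_transpose, fro, Fintype.sum_prod_type]; rfl
  rw [e, en_eq, en_eq u] at h
  exact h.trans (mul_le_of_le_one_right (Real.sqrt_nonneg _) hu)

lemma fro_le_opn (A : Matrix ι σ ℝ) [DecidableEq σ] : fro A ≤ Fintype.card ι * opn A ^ 2 := by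
  refine (Finset.sum_le_card_nsmul _ _ (opn A ^ 2) fun i _ => ?_).trans (by simp)
  have h := nrm_mulVec_le Aᵀ (Pi.single i 1)
  rw [opn_transpose, ← en_eq (Pi.single i 1), en_single, mul_one, ← en_eq] at h
  have := pow_le_pow_left₀ (en_nonneg _) h 2
  rw [en_sq] at this
  simpa using this

section
variable {ν : κ × ι → Measure ℝ} [∀ p, IsProbabilityMeasure (ν p)] (hν : SG1 ν)
  (h2 : ∀ p, ∫ x, x ^ 2 ∂ν p = 1) {A : Matrix ι ι ℝ} {K F : ℝ}
include hν h2

theorem hw_bil (hK : 0 < K) (hA : opn A ≤ K) (hF0 : 0 < F) (hF : fro A ≤ F) {u w : κ → ℝ}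
    (hu : nrm u ≤ 1) (hw : nrm w ≤ 1) {t : ℝ} (ht : 0 ≤ t) :
    (Measure.pi ν).real {x | t ≤ |u ⬝ᵥ (mat x * A * (mat x)ᵀ - A.trace • 1) *ᵥ w|} ≤
      2 * Real.exp (-min (t ^ 2 / (256 * F)) (t / (32 * K))) := by
  have h1 : OpB K (vecMulVec u w ⊗ₖ A) := opB_of_bilin hK.le fun x y => by
    rw [bil]
    refine (le_abs_self _).trans ((Eig.abs_dot_le _ _).trans ?_)
    have := (nrm_mulVec_le A ((mat y)ᵀ *ᵥ w)).trans
      (mul_le_mul hA (nrm_mat_le y hw) (nrm_nonneg _) hK.le)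
    exact (mul_le_mul (nrm_mat_le x hu) this (nrm_nonneg _) (en_nonneg _)).trans (le_of_eq (by ring))
  have h3 : fro (vecMulVec u w ⊗ₖ A) ≤ F := by
    have e : fro (vecMulVec u w ⊗ₖ A) = nrm u ^ 2 * nrm w ^ 2 * fro A := by
      simp only [fro, nrm_sq, dotProduct, Fintype.sum_prod_type, kroneckerMap_apply,
        vecMulVec_apply, Finset.mul_sum, Finset.sum_mul]
      rw [Finset.sum_comm]
      refine Finset.sum_congr rfl fun i _ => ?_
      rw [Finset.sum_comm, Finset.sum_comm (s := Finset.univ (α := ι))]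
      refine Finset.sum_congr rfl fun l _ => ?_
      rw [Finset.sum_comm]
      exact Finset.sum_congr rfl fun j _ => Finset.sum_congr rfl fun k _ => by ring
    rw [e]
    exact (mul_le_of_le_one_left (fro_nonneg _) (mul_le_one₀ (pow_le_one₀ (nrm_nonneg _) hu)
      (sq_nonneg _) (pow_le_one₀ (nrm_nonneg _) hw))).trans hF
  refine le_of_eq_of_le ?_ (hw_tail hν h2 hK h1 hF0 h3 ht)
  congr 1
  ext x
  rw [mem_setOf_eq, mem_setOf_eq, bil, trace_kronecker, trace_vecMulVec, sub_mulVec, dotProduct_sub,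
    smul_mulVec, one_mulVec, dotProduct_smul, ← mulVec_mulVec, ← mulVec_mulVec,
    dotProduct_mulVec u, ← mulVec_transpose, smul_eq_mul, mul_comm]

/-- **(HWop)** -/
theorem hw_op (hK : 0 < K) (hA : opn A ≤ K) (hF0 : 0 < F) (hF : fro A ≤ F) {t : ℝ} (ht : 0 ≤ t) :
    (Measure.pi ν).real {x | 4 * t < opn (mat x * A * (mat x)ᵀ - A.trace • 1)} ≤
      2 * 25 ^ Fintype.card κ * Real.exp (-min (t ^ 2 / (256 * F)) (t / (32 * K))) := by
  obtain ⟨N, c1, c2, c3⟩ := Nrm.exists_half_net κ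
  refine (measureReal_mono (s₂ := ⋃ p ∈ N ×ˢ N,
    {x | t ≤ |p.1 ⬝ᵥ (mat x * A * (mat x)ᵀ - A.trace • 1) *ᵥ p.2|}) (fun x hx => ?_)
    (measure_ne_top _ _)).trans ((measureReal_biUnion_finset_le _ _).trans ((Finset.sum_le_card_nsmul _ _ _ fun p hp =>
      hw_bil hν h2 hK hA hF0 hF (c2 _ (Finset.mem_product.1 hp).1)
        (c2 _ (Finset.mem_product.1 hp).2) ht).trans ?_))
  · by_contra h
    simp only [mem_iUnion, mem_setOf_eq, not_exists, not_le] at h
    exact hx.not_ge (Nrm.opn_le_of_net c3 c3 fun c hc d hd =>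
      (le_abs_self _).trans (h (c, d) (Finset.mem_product.2 ⟨hc, hd⟩)).le)
  · rw [nsmul_eq_mul, ← mul_assoc, mul_comm _ (2 : ℝ), Finset.card_product]
    refine mul_le_mul_of_nonneg_right (mul_le_mul_of_nonneg_left ?_ zero_le_two) (Real.exp_pos _).le
    rw [show (25 : ℝ) = 5 * 5 by norm_num, mul_pow]
    exact_mod_cast Nat.mul_le_mul c1 c1

/-- **(HWop)**, relative error `s` for any `n ≥ |ι|` -/
theorem hw_op' (hK : 0 < K) (hA : opn A ≤ K) {n s : ℝ} (hn0 : 0 < n) (hn : Fintype.card ι ≤ n)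
    (hs : 0 ≤ s) (hs1 : s ≤ 1) :
    (Measure.pi ν).real {x | s * n * K < opn (mat x * A * (mat x)ᵀ - A.trace • 1)} ≤
      2 * 25 ^ Fintype.card κ * Real.exp (-(n * s ^ 2 / 4096)) := by
  have h := hw_op hν h2 hK hA (F := n * K ^ 2) (by positivity) ((fro_le_opn A).trans (mul_le_mul hn
    (pow_le_pow_left₀ (opn_nonneg _) hA 2) (sq_nonneg _) hn0.le)) (t := s * n * K / 4)
    (by positivity)
  rw [mul_div_cancel₀ _ (by norm_num : (4 : ℝ) ≠ 0)] at h
  refine h.trans (mul_le_mul_of_nonneg_left (Real.exp_le_exp.2 (neg_le_neg (le_min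
    (le_of_eq (by field_simp; ring)) ?_))) (by positivity))
  rw [show s * n * K / 4 / (32 * K) = n * s / 128 by field_simp; ring]
  nlinarith [mul_nonneg hn0.le hs, mul_le_mul_of_nonneg_left hs1 (mul_nonneg hn0.le hs)]

end

/-! ### conditioning on the other coordinates -/

theorem mp_extend (ν : σ → Measure ℝ) [∀ p, IsProbabilityMeasure (ν p)] {e : τ → σ}
    (he : Function.Injective e) :
    MeasurePreserving (fun p : (σ → ℝ) × (τ → ℝ) => Function.extend e p.2 p.1)
      ((Measure.pi ν).prod (Measure.pi fun j => ν (e j))) (Measure.pi ν) := by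
  classical
  have hm : Measurable fun p : (σ → ℝ) × (τ → ℝ) => Function.extend e p.2 p.1 :=
    measurable_pi_lambda _ fun i => by
      by_cases h : ∃ j, e j = i
      · obtain ⟨j, rfl⟩ := h
        simp only [he.extend_apply]; fun_prop
      · simp only [Function.extend_apply' _ _ _ h]; fun_prop
  refine ⟨hm, (Measure.pi_eq fun s hs => ?_).symm⟩
  have e1 : (fun p : (σ → ℝ) × (τ → ℝ) => Function.extend e p.2 p.1) ⁻¹' pi univ s =
      pi univ (fun i => if i ∈ Finset.univ.image e then univ else s i) ×ˢ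
        pi univ fun j => s (e j) := by
    ext p
    simp only [mem_preimage, mem_pi, mem_univ, forall_const, mem_prod, Finset.mem_image,
      Finset.mem_univ, true_and]
    refine ⟨fun h => ⟨fun i => ?_, fun j => by simpa only [he.extend_apply] using h (e j)⟩,
      fun h i => ?_⟩
    · split_ifs with hi
      · trivial
      · simpa only [Function.extend_apply' _ _ _ hi] using h i
    · by_cases hi : ∃ j, e j = i
      · obtain ⟨j, rfl⟩ := hi
        simpa only [he.extend_apply] using h.2 j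
      · simpa only [Function.extend_apply' _ _ _ hi, if_neg hi] using h.1 i
  rw [Measure.map_apply hm (MeasurableSet.univ_pi hs), e1, Measure.prod_prod, Measure.pi_pi,
    Measure.pi_pi, ← Finset.prod_image (f := fun i => ν i (s i)) fun _ _ _ _ h => he h,
    ← Finset.prod_compl_mul_prod (Finset.univ.image e),
    ← Finset.prod_compl_mul_prod (Finset.univ.image e) (f := fun i => ν i (s i))]
  congr 1
  rw [Finset.prod_eq_one (s := Finset.univ.image e) fun i hi => by rw [if_pos hi, measure_univ],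
    mul_one]
  exact Finset.prod_congr rfl fun i hi => by rw [if_neg (Finset.mem_compl.1 hi)]





/-- **(HWop)** in the form of the consumer -/
theorem hwop : ∃ c > (0 : ℝ), ∀ (κ ι : Type) [Fintype κ] [Fintype ι] [DecidableEq κ] [DecidableEq ι]
    (A : Matrix ι ι ℝ) (N s : ℝ), (Fintype.card ι : ℝ) ≤ N → 0 < s → s ≤ 1 →
    (E.gv (κ × ι)).real {G | s * N * opn A < opn ((of fun k i => G (k, i)) * A *
      (of fun k i => G (k, i))ᵀ - A.trace • (1 : Matrix κ κ ℝ))} ≤
      2 * 81 ^ Fintype.card κ * Real.exp (-(c * N * s ^ 2)) := by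
  refine ⟨1 / 4096, by norm_num, fun κ ι _ _ _ _ A N s hN hs hs1 => ?_⟩
  rcases (opn_nonneg A).eq_or_lt with h | h
  · have e : A = 0 := by
      ext i j; exact abs_nonpos_iff.1 ((abs_entry_le A i j).trans h.ge)
    subst e
    simp only [Matrix.mul_zero, Matrix.zero_mul, trace_zero, zero_smul, sub_zero, opn_zero, mul_zero,
      lt_self_iff_false, setOf_false, measureReal_empty]
    positivity
  rcases le_or_gt N 0 with hn | hn
  · refine measureReal_le_one.trans ?_
    have h1 : (1 : ℝ) ≤ 81 ^ Fintype.card κ := one_le_pow₀ (by norm_num)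
    have h2 : 1 ≤ Real.exp (-(1 / 4096 * N * s ^ 2)) :=
      Real.one_le_exp (by nlinarith [mul_nonneg (neg_nonneg.2 hn) (sq_nonneg s)])
    nlinarith
  · refine (hw_op' sg1_gauss (fun _ => sq_entry false) h le_rfl hn hN hs.le hs1).trans ?_
    rw [show 1 / 4096 * N * s ^ 2 = N * s ^ 2 / 4096 by ring]
    gcongr; norm_num

end Crest.Agent.T157.S6w

end
end

-- ▼ part T157/S6PlB_55
section

/-!
# Row 157, block B/S6 (helper55): union bound over sparse sets in the planted model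
-/

set_option autoImplicit false
set_option linter.all false

noncomputable section

namespace Crest.Agent.T157.S6p

open MeasureTheory ProbabilityTheory Matrix Real Filter Topology
open Crest.ProbabilityR.SpinGlassDynamics
open Crest.Agent.T157.E Crest.Agent.T157.Eig Crest.Agent.T157.Pl
open Crest.Agent.T157.Tap (V Mx)
open Crest.Agent.T157.Chain22 (sg)
open Crest.Agent.T157.Da.Fd (Iq Iq_sum Iq_cmul Iq_const Iq_nonneg measurable_Iq)

variable {n : ℕ}

/-! ### entrywise measurability -/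

section me
variable {X : Type} [MeasurableSpace X] {A B : X → Mx n}

/-- entrywise measurable -/
def ME (A : X → Mx n) : Prop := ∀ i j, Measurable fun x => A x i j

lemma ME.const (M : Mx n) : ME fun _ : X => M := fun _ _ => measurable_const
lemma ME.mul (hA : ME A) (hB : ME B) : ME fun x => A x * B x := fun i j => by
  simp only [mul_apply]; exact Finset.measurable_sum _ fun k _ => (hA i k).mul (hB k j)
lemma ME.tr (hA : ME A) : ME fun x => (A x)ᵀ := fun i j => hA j i
lemma ME.sub (hA : ME A) (hB : ME B) : ME fun x => A x - B x := fun i j => (hA i j).sub (hB i j)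
lemma ME.smul {c : X → ℝ} (hc : Measurable c) (hA : ME A) : ME fun x => c x • A x :=
  fun i j => hc.mul (hA i j)
lemma ME.diag {d : X → V n} (hd : ∀ i, Measurable fun x => d x i) : ME fun x => diagonal (d x) :=
  fun i j => by
    simp only [diagonal_apply]; split_ifs
    exacts [hd i, measurable_const]
lemma ME.cav (hA : ME A) (T : Finset (Fin n)) : ME fun x => cav T (A x) := fun i j => by
  simp only [S6p.cav, of_apply]; split_ifs
  exacts [measurable_const, hA i j]
lemma ME.Rw (hA : ME A) (T : Finset (Fin n)) : ME fun x => Rw T (A x) := fun i j => by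
  simp only [S6p.Rw, of_apply]; split_ifs
  exacts [hA i j, measurable_const]
lemma ME.opn (hA : ME A) : Measurable fun x => opn (A x) := measurable_opn hA
lemma ME.dev (hA : ME A) (hB : ME B) (β : ℝ) (T : Finset (Fin n)) :
    Measurable fun x => Dev β T (A x) (B x) :=
  ((((hA.Rw T).mul hB).mul (hA.Rw T).tr).sub (ME.smul
    (measurable_const.mul (Finset.measurable_sum _ fun i _ => hB i i)) (ME.const _))).opn
lemma ME.comp {Y : Type} [MeasurableSpace Y] (hA : ME A) {f : Y → X} (hf : Measurable f) :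
    ME fun y => A (f y) := fun i j => (hA i j).comp hf
lemma ME.ising (hA : ME A) (y : Cube n) : Measurable fun x => ising (A x) 0 y := by
  have := hA
  unfold ME at this
  simp only [E.ising, dotProduct, mulVec]
  fun_prop

lemma me_J (β : ℝ) : ME fun g : Pair n → ℝ => β • Jmat n g := fun i j => by
  simp only [Matrix.smul_apply, Jmat, smul_eq_mul]
  split_ifs <;> fun_prop

end me

lemma Iq_ind (hn : 0 < n) {w : Cube n → ℝ} (hw : ∀ x, 0 < w x) (τ : ℝ) (B : Set (Cube n))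
    (x : Cube n) : Iq w τ (B.indicator 1) x =
      ∑ y, B.indicator (1 : Cube n → ℝ) y * Iq w τ (Pi.single y 1) x := by
  simp only [← Iq_cmul]
  rw [← Iq_sum hn hw]
  congr 1
  funext z
  rw [Finset.sum_eq_single z] <;> simp +contextual [Pi.single_apply, eq_comm]

lemma sum_Iq (hn : 0 < n) {w : Cube n → ℝ} (hw : ∀ x, 0 < w x) (τ : ℝ) (x : Cube n) :
    ∑ y, Iq w τ (Pi.single y 1) x = τ := by
  have h := Iq_ind hn hw τ Set.univ x
  rw [Set.indicator_univ, show (1 : Cube n → ℝ) = fun _ => 1 from rfl, Iq_const hn hw] at h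
  simpa using h.symm

/-- Markov's inequality for a weighted sum of events -/
lemma markov_sum {X Y : Type} [MeasurableSpace X] [Fintype Y] (μ : Measure X) [IsProbabilityMeasure μ]
    {B : X → Set Y} (hB : ∀ y, MeasurableSet {G | y ∈ B G}) {κ : Y → ℝ} (h0 : ∀ y, 0 ≤ κ y)
    {δ ε : ℝ} (hδ : ∀ y, μ.real {G | y ∈ B G} ≤ δ) (hε : 0 < ε) :
    μ.real {G | ε < ∑ y, (B G).indicator (1 : Y → ℝ) y * κ y} ≤ (∑ y, κ y) * δ / ε := by
  have e : ∀ G y, (B G).indicator (1 : Y → ℝ) y = {G | y ∈ B G}.indicator (1 : X → ℝ) G :=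
    fun G y => by by_cases h : y ∈ B G <;> simp [h]
  simp only [e]
  have hi : ∀ y, Integrable (fun G => {G | y ∈ B G}.indicator (1 : X → ℝ) G * κ y) μ := fun y =>
    ((integrable_const _).indicator (hB y)).mul_const _
  have h := mul_meas_ge_le_integral_of_nonneg (μ := μ)
    (f := fun G => ∑ y, {G | y ∈ B G}.indicator (1 : X → ℝ) G * κ y) (.of_forall fun G =>
    Finset.sum_nonneg fun y _ => mul_nonneg (Set.indicator_nonneg (fun _ _ => zero_le_one) G) (h0 y))
    (integrable_finsetSum Finset.univ fun y _ => hi y) ε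
  rw [integral_finsetSum _ fun y _ => hi y] at h
  simp only [integral_mul_const, integral_indicator_one (hB _)] at h
  rw [le_div_iff₀ hε, mul_comm]
  refine le_trans (le_trans (mul_le_mul_of_nonneg_left (measureReal_mono (fun G hG => ?_)
    (measure_ne_top _ _)) hε.le) h) ?_
  · rw [Set.mem_setOf_eq] at hG ⊢; exact hG.le
  rw [Finset.sum_mul]
  exact Finset.sum_le_sum fun y _ => by rw [mul_comm]; exact mul_le_mul_of_nonneg_left (hδ y) (h0 y)

/-- the number of small sets -/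
lemma card_small (m : ℕ) :
    (Finset.univ.filter fun T : Finset (Fin n) => T.card ≤ m).card ≤ (n + 1) ^ m := by
  have h : (Finset.univ : Finset (Fin m → Option (Fin n))).card = (n + 1) ^ m := by simp
  rw [← h]
  refine Finset.card_le_card_of_surjOn (fun f => Finset.univ.filter fun k => ∃ j, f j = some k)
    fun T hT => ?_
  have hT' : T.card ≤ m := (Finset.mem_filter.1 (Finset.mem_coe.1 hT)).2
  refine ⟨fun j => if h : j.1 < T.card then some (T.equivFin.symm ⟨j.1, h⟩).1 else none,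
    by simp, ?_⟩
  ext k
  simp only [Finset.mem_filter, Finset.mem_univ, true_and]
  constructor
  · rintro ⟨j, hj⟩
    split_ifs at hj with h1
    rw [← Option.some.inj hj]; exact Subtype.prop _
  · intro hk
    refine ⟨⟨T.equivFin ⟨k, hk⟩, (T.equivFin ⟨k, hk⟩).2.trans_le hT'⟩, ?_⟩
    simp

section abs
variable {ι : Type}

/-- the points at which some test matrix sees an atypical block -/
def Bad (β K s : ℝ) (I : Finset ι) (𝒜 : ι → Mx n → Cube n → Mx n) (T : Finset (Fin n)) (W : Mx n) :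
    Set (Cube n) :=
  {y | opn W ≤ K ∧ ∃ i ∈ I, s * opn (𝒜 i (cav T W) y) < Dev β T W (𝒜 i (cav T W) y)}

/-- bad at `x`, or often bad along the cavity chain from `x` -/
def Ev (β K s τ ε : ℝ) (I : Finset ι) (𝒜 : ι → Mx n → Cube n → Mx n) (T : Finset (Fin n))
    (W : Mx n) (x : Cube n) : Prop :=
  x ∈ Bad β K s I 𝒜 T W ∨ ε < Iq (ising (cav T W) 0) τ ((Bad β K s I 𝒜 T W).indicator 1) x

variable {I : Finset ι} {𝒜 : ι → Mx n → Cube n → Mx n}

lemma meas_bad {X : Type} [MeasurableSpace X] {W : X → Mx n} (hW : ME W) (T : Finset (Fin n))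
    (hA : ∀ i y, ME fun g => 𝒜 i (cav T (W g)) y) (β K s : ℝ) (y : Cube n) :
    MeasurableSet {g | y ∈ Bad β K s I 𝒜 T (W g)} := by
  have : {g | y ∈ Bad β K s I 𝒜 T (W g)} = {g | opn (W g) ≤ K} ∩ ⋃ i ∈ I,
      {g | s * opn (𝒜 i (cav T (W g)) y) < Dev β T (W g) (𝒜 i (cav T (W g)) y)} := by
    ext g; simp [Bad]
  rw [this]
  exact (measurableSet_le hW.opn measurable_const).inter (Finset.measurableSet_biUnion _ fun i _ =>
    measurableSet_lt (measurable_const.mul (hA i y).opn) (hW.dev (hA i y) β T))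

lemma meas_ev (hn : 0 < n) {X : Type} [MeasurableSpace X] {W : X → Mx n} (hW : ME W)
    (T : Finset (Fin n)) (hA : ∀ i y, ME fun g => 𝒜 i (cav T (W g)) y) (β K s ε : ℝ) {τ : ℝ}
    (hτ : 0 ≤ τ) (x : Cube n) : MeasurableSet {g | Ev β K s τ ε I 𝒜 T (W g) x} := by
  refine (meas_bad hW T hA β K s x).union (show MeasurableSet {g | ε < Iq (ising (cav T (W g)) 0) τ
    ((Bad β K s I 𝒜 T (W g)).indicator 1) x} from measurableSet_lt measurable_const ?_)
  simp only [Iq_ind hn (Da.Gr.ising_pos _ _)]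
  refine Finset.measurable_sum _ fun y _ => Measurable.mul ?_
    (measurable_Iq (fun z => (hW.cav T).ising z) hτ _ _)
  have e : (fun g => (Bad β K s I 𝒜 T (W g)).indicator (1 : Cube n → ℝ) y) =
      {g | y ∈ Bad β K s I 𝒜 T (W g)}.indicator 1 := by
    funext g; by_cases h : y ∈ Bad β K s I 𝒜 T (W g) <;> simp [h]
  rw [e]
  exact measurable_one.indicator (meas_bad hW T hA β K s y)

/-- **union bound in the planted model** -/
theorem plant_abs : ∃ c > (0 : ℝ), ∀ n : ℕ, 0 < n → ∀ β : ℝ, 0 ≤ β → β ≤ 1 →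
    ∀ (ι : Type) (I : Finset ι) (𝒜 : ι → Mx n → Cube n → Mx n),
    (∀ T i y, ME fun g : Pair n → ℝ => 𝒜 i (cav T (β • Jmat n g)) y) →
    ∀ (m : ℕ) (K s τ ε : ℝ), 0 ≤ K → 0 < s → s ≤ 1 → 0 ≤ τ → 0 < ε → ∀ x : Cube n,
    (tilted false (th n β • tau x)).real {g | ∃ T : Finset (Fin n), T.card ≤ m ∧
      Ev β K (s + (2 * K + 1) * √(m / n)) τ ε I 𝒜 T (β • Jmat n g) x} ≤
      (n + 1) ^ m * (I.card * (2 * 81 ^ m * exp (-(c * n * s ^ 2))) * (1 + τ / ε)) := by
  obtain ⟨c, hc, H⟩ := hw_plant S6w.hwop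
  refine ⟨c, hc, fun n hn β h0 h1 ι I 𝒜 hA m K s τ ε hK hs hs1 hτ hε x => ?_⟩
  set s' := s + (2 * K + 1) * √(m / n) with hs'
  set δ := I.card * (2 * 81 ^ m * exp (-(c * n * s ^ 2))) with hδ
  have hδ0 : 0 ≤ δ := by positivity
  set a := th n β • tau x with ha
  have key : ∀ T : Finset (Fin n), T.card ≤ m → (gv (Pair n)).real
      {g | Ev β K s' τ ε I 𝒜 T (β • Jmat n (g + a)) x} ≤ δ * (1 + τ / ε) := fun T hT => by
    have sh : Measurable fun g : Pair n → ℝ => g + a := by fun_prop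
    refine slice_le (cr_inj (T := T)) (meas_ev hn ((me_J β).comp sh) T
      (fun i y => (hA T i y).comp sh) β K s' ε hτ x) fun g => ?_
    have ex : Measurable fun G : In T × Out T → ℝ => Function.extend (cr T) G g + a :=
      sh.comp ((mp_extend (cr_inj (T := T)) fun _ => gaussianReal 0 1).measurable.comp
        measurable_prodMk_left)
    set W' := cav T (β • Jmat n (g + a)) with hW'
    have ec : ∀ G, cav T (plx β T x g G) = W' := cav_plx β x g
    have hb : ∀ y, (gv (In T × Out T)).real {G | y ∈ Bad β K s' I 𝒜 T (plx β T x g G)} ≤ δ := by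
      intro y
      refine (measureReal_mono (s₂ := ⋃ i ∈ I, {G | opn (plx β T x g G) ≤ K ∧
        (s + (2 * K + 1) * √(T.card / n)) * opn (𝒜 i W' y) < Dev β T (plx β T x g G) (𝒜 i W' y)})
        (fun G hG => ?_) (measure_ne_top _ _)).trans ((measureReal_biUnion_finset_le _ _).trans
          ((Finset.sum_le_card_nsmul _ _ (2 * 81 ^ m * exp (-(c * n * s ^ 2))) fun i _ =>
            (H n hn β h0 h1 T x g _ K s hs hs1).trans ?_).trans (by rw [nsmul_eq_mul])))
      · obtain ⟨h2, i, hi, h3⟩ := hG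
        rw [ec] at h3
        refine Set.mem_biUnion hi ⟨h2, lt_of_le_of_lt (mul_le_mul_of_nonneg_right ?_
          (opn_nonneg _)) h3⟩
        have : (T.card : ℝ) ≤ m := by exact_mod_cast hT
        rw [hs']; gcongr
      · gcongr; norm_num
    have mb : ∀ y, MeasurableSet {G | y ∈ Bad β K s' I 𝒜 T (plx β T x g G)} := fun y =>
      meas_bad ((me_J β).comp ex) T (fun i y => (hA T i y).comp ex) β K s' y
    have hM := markov_sum (gv (In T × Out T)) mb (κ := fun y => Iq (ising W' 0) τ (Pi.single y 1) x)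
      (fun y => Iq_nonneg hn (Da.Gr.ising_pos _ _) hτ (fun z => by
        rw [Pi.single_apply]; split_ifs <;> norm_num) x) hb hε
    rw [sum_Iq hn (Da.Gr.ising_pos _ _)] at hM
    refine (measureReal_mono (s₂ := {G | x ∈ Bad β K s' I 𝒜 T (plx β T x g G)} ∪ {G | ε < ∑ y,
      (Bad β K s' I 𝒜 T (plx β T x g G)).indicator (1 : Cube n → ℝ) y *
        Iq (ising W' 0) τ (Pi.single y 1) x}) (fun G hG => ?_) (measure_ne_top _ _)).trans
      ((measureReal_union_le _ _).trans ((add_le_add (hb x) hM).trans (le_of_eq (by ring))))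
    rcases (show Ev β K s' τ ε I 𝒜 T (plx β T x g G) x from hG) with h | h
    · exact Or.inl h
    · rw [ec, Iq_ind hn (Da.Gr.ising_pos _ _)] at h
      exact Or.inr h
  rw [Measure.real, tilted_false_apply, ← Measure.real]
  refine (measureReal_mono (s₂ := ⋃ T ∈ Finset.univ.filter fun T : Finset (Fin n) => T.card ≤ m,
    {g | Ev β K s' τ ε I 𝒜 T (β • Jmat n (g + a)) x}) (fun g hg => ?_) (measure_ne_top _ _)).trans
    ((measureReal_biUnion_finset_le _ _).trans ((Finset.sum_le_card_nsmul _ _ _ fun T hT =>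
      key T (Finset.mem_filter.1 hT).2).trans ?_))
  · obtain ⟨T, hT, h⟩ := hg
    exact Set.mem_biUnion (Finset.mem_coe.2 (Finset.mem_filter.2 ⟨Finset.mem_univ _, hT⟩)) h
  · rw [nsmul_eq_mul]
    refine mul_le_mul_of_nonneg_right ?_ (by positivity)
    exact_mod_cast card_small m

end abs

/-- **transfer**: planted bounds give bounds on the Gibbs mass -/
theorem whp_mass {β : ℝ} (h0 : 0 ≤ β) (h1 : β ≤ 1) (A : ∀ n, Cube n → Set (Pair n → ℝ))
    {ε : ℕ → ℝ} (hε : ∀ n, 0 < ε n) {a : ℝ} (ha : 0 < a)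
    (h : ∀ᶠ n : ℕ in atTop, ∀ x, (tilted false (th n β • tau x)).real (A n x) ≤
      ε n * exp (-(2 * (n : ℝ) ^ a))) :
    Top.Whp disorderLaw fun n g => mass (ising (β • Jmat n g) 0) {x | g ∈ A n x} < ε n := by
  have t1 : Tendsto (fun n : ℕ => exp (-(n : ℝ) ^ a)) atTop (𝓝 0) :=
    tendsto_exp_atBot.comp (tendsto_neg_atTop_atBot.comp
      ((tendsto_rpow_atTop ha).comp tendsto_natCast_atTop_atTop))
  have t2 := (tendsto_LR_lt_rpow false h0 h1 ha).add t1
  rw [add_zero] at t2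
  refine Top.whp_of_real_le t2 ?_
  filter_upwards [h] with n hn
  have h2 := transfer_mass false β (A n) (hε n) (exp_pos (-(n : ℝ) ^ a))
  simp only [← real_plant, gibbsWeight_eq_ising] at h2
  simp only [not_lt]
  refine h2.trans (add_le_add le_rfl ?_)
  rw [div_le_iff₀ (mul_pos (hε n) (exp_pos _)), div_le_iff₀ (by positivity), ← card_cube,
    mul_comm, ← nsmul_eq_mul, ← Finset.card_univ]
  refine Finset.sum_le_card_nsmul _ _ _ fun x _ => (hn x).trans (le_of_eq ?_)
  rw [mul_left_comm, ← exp_add]; congr 2; ring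

end Crest.Agent.T157.S6p

end
end

-- ▼ part T157/S6PlC_55
section

/-!
# Row 157, block B/S6 (helper55): deterministic consequences of small deviations
-/

set_option autoImplicit false
set_option linter.all false

noncomputable section

namespace Crest.Agent.T157.S6p

open Matrix Real Filter Topology Set
open Crest.ProbabilityR.SpinGlassDynamics
open Crest.Agent.T157.E Crest.Agent.T157.Eig
open Crest.Agent.T157.Tap (V Mx)
open Crest.Agent.T157.Chain22 (sg hasDerivAt_sg)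
open Crest.Agent.T157.Rec (grad fl GR grad_lin grad_const_mul sg_sum sg_const_mul sg_mono sg_const
  gen_sg sv_fl_ne)
open Crest.Agent.T157.Da.Gr (loc tt grad_sum grad_sv gen_ising ising_pos)
open Crest.Agent.T157.Reg (mu am fp Nice)
open Crest.Agent.T157.S6 (Mg cc vr Fq)

variable {n : ℕ} {T : Finset (Fin n)} {W : Mx n}

lemma Mg_mulVec (W : Mx n) (v : ℝ) (x : Cube n) (w : V n) :
    Mg W v x *ᵥ w = grad (sg (mu W) v fun z => w ⬝ᵥ sv z) x := by
  funext i
  have e : sg (mu W) v (fun z => w ⬝ᵥ sv z) = fun y => ∑ a, w a * sg (mu W) v (fun z => sv z a) y := by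
    funext y; simp only [dotProduct, sg_sum, sg_const_mul]
  rw [e, grad_sum]
  simp only [grad_const_mul, Pi.smul_apply, smul_eq_mul, mulVec, dotProduct, Mg, of_apply, mul_comm]

lemma opn_Mg (hn : 0 < n) {C v : ℝ} (hC : 0 ≤ C) (h : GR (mu W) C) (hv : 0 ≤ v) (x : Cube n) :
    opn (Mg W v x) ≤ exp (C * v) := by
  refine opn_le_of_sq (exp_pos _).le fun w => ?_
  rw [Mg_mulVec]
  refine (Da.Fd.gr_le h hn (ising_pos _ _) hv (G := w ⬝ᵥ w) (fun z => by rw [grad_lin]) x).trans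
    (mul_le_mul_of_nonneg_right ?_ (dot_self_nonneg w))
  rw [sq]; exact le_mul_of_one_le_left (exp_pos _).le (one_le_exp (by positivity))

lemma sg_sv_lip (hn : 0 < n) (hW : Wᵀ = W) {v v' : ℝ} (hv : 0 ≤ v) (hv' : 0 ≤ v') (a : Fin n)
    (x : Cube n) :
    |sg (mu W) v (fun z => sv z a) x - sg (mu W) v' (fun z => sv z a) x| ≤ 2 * |v - v'| := by
  have hw : ∀ x, 0 < mu W x := ising_pos _ _
  refine (convex_Ici 0).norm_image_sub_le_of_norm_hasDerivWithin_le
    (f := fun u => sg (mu W) u (fun z => sv z a) x) (C := 2)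
    (fun u _ => (hasDerivAt_sg hn hw _ x u).hasDerivWithinAt) (fun u hu => ?_) hv' hv
  have hb : ∀ z, |gen (mu W) (fun z => sv z a) z| ≤ 2 := fun z => by
    rw [mu, gen_ising hW]
    simp only [grad_sv, mul_ite, mul_one, mul_zero, Finset.sum_ite_eq', Finset.mem_univ, if_true]
    refine (abs_sub _ _).trans ?_
    have := (abs_tanh_lt_one (loc W 0 z a)).le
    rw [sv, abs_spin, tt]; linarith
  rw [gen_sg hn hw, Real.norm_eq_abs, abs_le]
  constructor
  · rw [← sg_const hn hw u (-2) x]; exact sg_mono hn hw hu (fun z => (abs_le.1 (hb z)).1) x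
  · rw [← sg_const hn hw u 2 x]; exact sg_mono hn hw hu (fun z => (abs_le.1 (hb z)).2) x

lemma Mg_lip (hn : 0 < n) (hW : Wᵀ = W) {v v' : ℝ} (hv : 0 ≤ v) (hv' : 0 ≤ v') (x : Cube n) :
    opn (Mg W v x - Mg W v' x) ≤ 2 * n * |v - v'| := by
  refine (opn_le_sqrt_frob _).trans (sqrt_le_iff.2 ⟨by positivity, ?_⟩)
  have h : ∀ i a, (Mg W v x - Mg W v' x) i a ^ 2 ≤ (2 * |v - v'|) ^ 2 := fun i a => by
    refine sq_le_sq' ?_ ?_ <;>
    · simp only [Matrix.sub_apply, Mg, of_apply, grad, SL.incr]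
      linarith [abs_le.1 (sg_sv_lip hn hW hv hv' a (Function.update x i true)),
        abs_le.1 (sg_sv_lip hn hW hv hv' a (Function.update x i false))]
  refine (Finset.sum_le_sum fun i _ => Finset.sum_le_sum fun a _ => h i a).trans (le_of_eq ?_)
  simp only [Finset.sum_const, Finset.card_univ, Fintype.card_fin, nsmul_eq_mul]
  ring

lemma opn_cc (W : Mx n) (x : Cube n) : opn (diagonal (cc W x)) ≤ 1 :=
  opn_diagonal_le zero_le_one fun i => by
    rw [cc, tt, abs_of_nonneg (Da.Gr.sech_nonneg _)]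
    linarith [sq_nonneg (tanh (loc W 0 x i))]

lemma cav_symm (hW : Wᵀ = W) : (cav T W)ᵀ = cav T W := by
  ext i j
  have := congrFun (congrFun hW i) j
  simp only [transpose_apply] at this
  simp only [cav, transpose_apply, of_apply, or_comm, this]

lemma nice_cav {K : ℝ} (h : Nice W K) (T : Finset (Fin n)) : Nice (cav T W) K :=
  ⟨cav_symm h.1, (opn_cav T W).trans h.2.1, fun i => (Finset.sum_le_sum fun k _ => by
    simp only [cav, of_apply]; split_ifs
    · simpa using by positivity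
    · rfl).trans (h.2.2 i)⟩

lemma abs_tr_le (S : Finset (Fin n)) (A : Mx n) : |∑ i ∈ S, A i i| ≤ S.card * opn A :=
  (Finset.abs_sum_le_sum_abs _ _).trans ((Finset.sum_le_card_nsmul _ _ _ fun i _ =>
    abs_entry_le A i i).trans (by rw [nsmul_eq_mul]))

lemma opn_smul_PT (c : ℝ) (T : Finset (Fin n)) : opn (c • PT T) ≤ |c| := by
  rw [opn_smul]; exact mul_le_of_le_one_right (abs_nonneg _) (opn_PT T)

lemma tr_le {β : ℝ} (h0 : 0 ≤ β) (h1 : β ≤ 1) (hn : 0 < n) (S : Finset (Fin n)) (A : Mx n) :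
    |β ^ 2 / n * ∑ i ∈ S, A i i| ≤ S.card / n * opn A := by
  have hn' : (0 : ℝ) < n := Nat.cast_pos.2 hn
  have hb : β ^ 2 ≤ 1 := pow_le_one₀ h0 h1
  rw [abs_mul, abs_of_nonneg (by positivity : 0 ≤ β ^ 2 / n)]
  refine (mul_le_mul (div_le_div_of_nonneg_right hb hn'.le) (abs_tr_le S A) (abs_nonneg _)
    (by positivity)).trans (le_of_eq (by ring))

lemma Dev_lip {β K : ℝ} (h0 : 0 ≤ β) (h1 : β ≤ 1) (hn : 0 < n) (hK : opn W ≤ K) (A A' : Mx n) :
    Dev β T W A ≤ Dev β T W A' + (K ^ 2 + 1) * opn (A - A') := by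
  have hn' : (0 : ℝ) < n := Nat.cast_pos.2 hn
  have hR := (opn_Rw T W).trans hK
  have e : Rw T W * A * (Rw T W)ᵀ - (β ^ 2 / n * ∑ i ∈ Tᶜ, A i i) • PT T =
      (Rw T W * A' * (Rw T W)ᵀ - (β ^ 2 / n * ∑ i ∈ Tᶜ, A' i i) • PT T) +
      (Rw T W * (A - A') * (Rw T W)ᵀ - (β ^ 2 / n * ∑ i ∈ Tᶜ, (A - A') i i) • PT T) := by
    simp only [Matrix.mul_sub, Matrix.sub_mul, Matrix.sub_apply, Finset.sum_sub_distrib, mul_sub,
      sub_smul]
    abel
  rw [Dev, e]
  refine (opn_add_le _ _).trans (add_le_add le_rfl ((opn_sub_le _ _).trans ?_))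
  have hA := opn_nonneg (A - A')
  have hK0 : 0 ≤ K := (opn_nonneg _).trans hK
  have h2 : opn (Rw T W * (A - A') * (Rw T W)ᵀ) ≤ K * opn (A - A') * K := (opn_mul_le _ _).trans
    (mul_le_mul ((opn_mul_le _ _).trans (mul_le_mul_of_nonneg_right hR hA))
      (by rwa [opn_transpose]) (opn_nonneg _) (by positivity))
  have h3 := (opn_smul_PT _ T).trans (tr_le h0 h1 hn Tᶜ (A - A'))
  have h4 : ((Tᶜ).card / n : ℝ) ≤ 1 := (div_le_one hn').2 (by
    exact_mod_cast (Finset.card_le_univ _).trans (Fintype.card_fin n).le)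
  nlinarith

lemma g1_le {β : ℝ} (h0 : 0 ≤ β) (h1 : β ≤ 1) (hn : 0 < n) (A : Mx n) :
    opn (Rw T W * A * (Rw T W)ᵀ - (β ^ 2 * ((∑ i, A i i) / n)) • PT T) ≤
      Dev β T W A + T.card / n * opn A := by
  have e : Rw T W * A * (Rw T W)ᵀ - (β ^ 2 * ((∑ i, A i i) / n)) • PT T =
      (Rw T W * A * (Rw T W)ᵀ - (β ^ 2 / n * ∑ i ∈ Tᶜ, A i i) • PT T) -
        (β ^ 2 / n * ∑ i ∈ T, A i i) • PT T := by
    rw [sub_sub, ← add_smul, ← Finset.sum_add_sum_compl T]; congr 2; ring
  rw [e]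
  exact (opn_sub_le _ _).trans (add_le_add le_rfl ((opn_smul_PT _ T).trans (tr_le h0 h1 hn T A)))

lemma sq_le (β : ℝ) (B : Mx n) :
    opn (B * (Rw T W)ᵀ) ^ 2 ≤ Dev β T W (Bᵀ * B) + β ^ 2 * (fp B B / n) := by
  have e : (B * (Rw T W)ᵀ)ᵀ * (B * (Rw T W)ᵀ) =
      (Rw T W * (Bᵀ * B) * (Rw T W)ᵀ - (β ^ 2 / n * ∑ i ∈ Tᶜ, (Bᵀ * B) i i) • PT T) +
        (β ^ 2 / n * ∑ i ∈ Tᶜ, (Bᵀ * B) i i) • PT T := by
    rw [sub_add_cancel, transpose_mul, transpose_transpose]; simp only [Matrix.mul_assoc]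
  have h : ∀ i, 0 ≤ (Bᵀ * B) i i := fun i => by
    simp only [mul_apply, transpose_apply]; exact Finset.sum_nonneg fun k _ => mul_self_nonneg _
  rw [sq, ← opn_transpose_mul_self, e]
  refine (opn_add_le _ _).trans (add_le_add le_rfl ((opn_smul_PT _ T).trans ?_))
  rw [abs_of_nonneg (mul_nonneg (by positivity) (Finset.sum_nonneg fun i _ => h i)),
    ← mul_div_assoc, mul_div_right_comm]
  refine mul_le_mul_of_nonneg_left ((Finset.sum_le_univ_sum_of_nonneg h).trans (le_of_eq ?_))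
    (by positivity)
  simp only [mul_apply, transpose_apply, fp]
  exact Finset.sum_comm

lemma fp_PT (S : Finset (Fin n)) (B : Mx n) : fp (PT S * B) (PT S * B) ≤ S.card * opn B ^ 2 := by
  have h : ∀ i, ∑ j, (PT S * B) i j * (PT S * B) i j ≤ if i ∈ S then opn B ^ 2 else 0 := fun i => by
    simp only [PT, diagonal_mul]
    split_ifs
    · have h1 := nrm_mulVec_le Bᵀ (Pi.single i 1)
      rw [opn_transpose, nrm_single, mul_one] at h1
      have h2 := pow_le_pow_left₀ (nrm_nonneg _) h1 2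
      rw [nrm_sq] at h2
      simpa [dotProduct] using h2
    · simp
  refine (Finset.sum_le_sum fun i _ => h i).trans (le_of_eq ?_)
  rw [← Finset.sum_filter]; simp

lemma sum_quarter {i j : Fin n} (h : i ≠ j) :
    ∑ x : Cube n, (if x i = true then (1 : ℝ) else 0) * (if x j = true then 0 else 1) = 2 ^ n / 4 := by
  have e : ∀ x : Cube n, (if x i = true then (1 : ℝ) else 0) * (if x j = true then 0 else 1) =
      (1 + sv x i) * (1 - sv x j) / 4 := fun x => by
    simp only [sv]; cases x i <;> cases x j <;> norm_num [spin]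
  have f1 : ∀ (x : Cube n) (k : Fin n), sv (fl x k) k = -sv x k := fun x k => by
    simp [sv, fl, spin_not]
  have sf : ∀ (k : Fin n) (F : Cube n → ℝ), ∑ x, F (fl x k) = ∑ x, F x := fun k F =>
    Equiv.sum_comp (Function.Involutive.toPerm (fun x : Cube n => fl x k) fun x => by simp [fl]) F
  have h1 := sf i fun x => (1 + sv x i) * (1 - sv x j) / 4
  have h2 := sf j fun x => (1 - sv x j) / 2
  have h3 : ∑ x : Cube n, (1 : ℝ) = 2 ^ n := by simp
  simp only [f1, sv_fl_ne _ h.symm] at h1 h2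
  have h4 : ∑ x : Cube n, (1 + -sv x i) * (1 - sv x j) / 4 + ∑ x : Cube n, (1 + sv x i) * (1 - sv x j) / 4 =
      ∑ x : Cube n, (1 - sv x j) / 2 := by
    rw [← Finset.sum_add_distrib]; exact Finset.sum_congr rfl fun x _ => by ring
  have h5 : ∑ x : Cube n, (1 - -sv x j) / 2 + ∑ x : Cube n, (1 - sv x j) / 2 = ∑ x : Cube n, (1 : ℝ) := by
    rw [← Finset.sum_add_distrib]; exact Finset.sum_congr rfl fun x _ => by ring
  simp only [e]
  linarith

/-- decoupling of a principal block -/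
lemma decouple (hd : ∀ i, W i i = 0) (U : Finset (Fin n)) {δ : ℝ}
    (h : ∀ A B : Finset (Fin n), A ⊆ U → B ⊆ U → opn (PT B * (Rw A W)ᵀ) ≤ δ) :
    opn (PT U * W * PT U) ≤ 4 * δ := by
  have e : ∑ x : Cube n, (PT (U.filter fun i => ¬ x i = true) *
      (Rw (U.filter fun i => x i = true) W)ᵀ)ᵀ = (2 ^ n / 4 : ℝ) • (PT U * W * PT U) := by
    ext i j
    simp only [Matrix.sum_apply, transpose_apply, PT, diagonal_mul, mul_diagonal, Rw, of_apply,
      Matrix.smul_apply, smul_eq_mul, Finset.mem_filter]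
    rcases eq_or_ne i j with rfl | hij
    · simp [hd]
    · rw [← sum_quarter hij, Finset.sum_mul]
      refine Finset.sum_congr rfl fun x _ => ?_
      by_cases h1 : i ∈ U <;> by_cases h2 : j ∈ U <;> cases x i <;> cases x j <;> simp [h1, h2]
  have h2 := (opn_sum_le Finset.univ fun x : Cube n => (PT (U.filter fun i => ¬ x i = true) *
      (Rw (U.filter fun i => x i = true) W)ᵀ)ᵀ).trans (Finset.sum_le_card_nsmul _ _ δ fun x _ => by
    rw [opn_transpose]; exact h _ _ (Finset.filter_subset _ _) (Finset.filter_subset _ _))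
  rw [e, opn_smul, abs_of_nonneg (by positivity), Finset.card_univ, nsmul_eq_mul, Pl.card_cube] at h2
  have : (0 : ℝ) < 2 ^ n := by positivity
  nlinarith

lemma PT_mul {S U : Finset (Fin n)} (h : S ⊆ U) : PT S * PT U = PT S ∧ PT U * PT S = PT S := by
  simp only [PT, diagonal_mul_diagonal]
  constructor <;> congr 1 <;> funext i <;> by_cases h1 : i ∈ S
  exacts [by simp [h1, h h1], by simp [h1], by simp [h1, h h1], by simp [h1]]

lemma sub_le (hd : ∀ i, W i i = 0) (S T : Finset (Fin n)) {δ : ℝ}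
    (h : ∀ A B : Finset (Fin n), A.card ≤ S.card + T.card → B.card ≤ S.card + T.card →
      opn (PT B * (Rw A W)ᵀ) ≤ δ) : opn (PT S * W * PT T) ≤ 4 * δ := by
  have e : PT S * W * PT T = PT S * (PT (S ∪ T) * W * PT (S ∪ T)) * PT T := by
    simp only [← Matrix.mul_assoc]
    rw [(PT_mul Finset.subset_union_left).1, Matrix.mul_assoc (PT S * W),
      (PT_mul Finset.subset_union_right).2]
  rw [e]
  exact (opn_sand _ _ _).trans (decouple hd _ fun A B hA hB => h A B
    ((Finset.card_le_card hA).trans (Finset.card_union_le _ _))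
    ((Finset.card_le_card hB).trans (Finset.card_union_le _ _)))

/-- the four test matrices -/
def F4 (W : Mx n) (y : Cube n) (v : ℝ) (S : Finset (Fin n)) : Fin 4 → Mx n :=
  ![diagonal (cc W y) * Mg W v y, (Mg W v y)ᵀ * Mg W v y,
    (PT S * am W y * Mg W v y)ᵀ * (PT S * am W y * Mg W v y), (PT S)ᵀ * PT S]

lemma opn_gram {A B : Mx n} {Λ d : ℝ} (hA : opn A ≤ Λ) (hB : opn B ≤ Λ) (h : opn (A - B) ≤ d) :
    opn (Aᵀ * A - Bᵀ * B) ≤ 2 * Λ * d := by
  have e : Aᵀ * A - Bᵀ * B = Aᵀ * (A - B) + (A - B)ᵀ * B := by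
    simp only [transpose_sub, Matrix.mul_sub, Matrix.sub_mul]; abel
  have hΛ := (opn_nonneg _).trans hA
  have hd := (opn_nonneg _).trans h
  have h1 : opn (Aᵀ * (A - B)) ≤ Λ * d := (opn_mul_le _ _).trans
    (mul_le_mul (by rwa [opn_transpose]) h (opn_nonneg _) hΛ)
  have h2 : opn ((A - B)ᵀ * B) ≤ d * Λ := (opn_mul_le _ _).trans
    (mul_le_mul (by rwa [opn_transpose]) hB (opn_nonneg _) hd)
  rw [e]; linarith [opn_add_le (Aᵀ * (A - B)) ((A - B)ᵀ * B)]

lemma opn_three (S : Finset (Fin n)) {A M : Mx n} {a b : ℝ} (hA : opn A ≤ a) (hM : opn M ≤ b) :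
    opn (PT S * A * M) ≤ a * b :=
  (opn_mul_le _ _).trans (mul_le_mul ((opn_mul_le _ _).trans ((mul_le_mul (opn_PT S) hA
    (opn_nonneg _) zero_le_one).trans (one_mul _).le)) hM (opn_nonneg _) ((opn_nonneg _).trans hA))

lemma opn_F4 {y : Cube n} {v Λ : ℝ} (h1 : 1 ≤ Λ) (hM : opn (Mg W v y) ≤ Λ) (ha : opn (am W y) ≤ Λ)
    (S : Finset (Fin n)) (j : Fin 4) : opn (F4 W y v S j) ≤ Λ ^ 4 := by
  have p1 : Λ ≤ Λ ^ 4 := le_self_pow₀ h1 (by norm_num)
  have p2 : Λ * Λ ≤ Λ ^ 4 := by rw [← sq]; exact pow_le_pow_right₀ h1 (by norm_num)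
  fin_cases j
  · exact (opn_mul_le _ _).trans ((mul_le_mul (opn_cc W y) hM (opn_nonneg _) zero_le_one).trans
      ((one_mul _).le.trans p1))
  · exact (opn_transpose_mul_self _).le.trans ((mul_self_le_mul_self (opn_nonneg _) hM).trans p2)
  · exact (opn_transpose_mul_self _).le.trans ((mul_self_le_mul_self (opn_nonneg _)
      (opn_three S ha hM)).trans (le_of_eq (by ring)))
  · exact (opn_transpose_mul_self _).le.trans ((mul_self_le_mul_self (opn_nonneg _)
      (opn_PT S)).trans ((one_mul _).le.trans (h1.trans p1)))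

lemma F4_lip {y : Cube n} {v v' Λ d : ℝ} (h1 : 1 ≤ Λ) (hM : opn (Mg W v y) ≤ Λ)
    (hM' : opn (Mg W v' y) ≤ Λ) (ha : opn (am W y) ≤ Λ) (hd : opn (Mg W v y - Mg W v' y) ≤ d)
    (S : Finset (Fin n)) (j : Fin 4) : opn (F4 W y v S j - F4 W y v' S j) ≤ 2 * d * Λ ^ 4 := by
  have d0 := (opn_nonneg _).trans hd
  have p0 : 1 ≤ Λ ^ 4 := one_le_pow₀ h1
  have p1 : Λ ≤ Λ ^ 4 := le_self_pow₀ h1 (by norm_num)
  have p3 : Λ ^ 3 ≤ Λ ^ 4 := pow_le_pow_right₀ h1 (by norm_num)
  fin_cases j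
  · refine le_trans (le_of_eq (congrArg opn (Matrix.mul_sub _ _ _).symm)) ((opn_mul_le _ _).trans
      ((mul_le_mul (opn_cc W y) hd (opn_nonneg _) zero_le_one).trans ?_))
    nlinarith
  · exact (opn_gram hM hM' hd).trans (by nlinarith)
  · refine (opn_gram (opn_three S ha hM) (opn_three S ha hM') (d := Λ * d) (by
      rw [← Matrix.mul_sub]; exact opn_three S ha hd)).trans ?_
    nlinarith
  · exact (le_of_eq (by simp [F4])).trans (show (0 : ℝ) ≤ _ by positivity)

/-- the test family on a time grid -/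
def fam (τ : ℝ) (N : ℕ) (p : ℕ × Fin 4 × Finset (Fin n)) (W : Mx n) (y : Cube n) : Mx n :=
  F4 W y (τ * p.1 / N) p.2.2 p.2.1

/-- its index set -/
def idx (n N m : ℕ) : Finset (ℕ × Fin 4 × Finset (Fin n)) :=
  Finset.range (N + 1) ×ˢ Finset.univ ×ˢ Finset.univ.filter fun T : Finset (Fin n) => T.card ≤ m

lemma card_idx (n N m : ℕ) : ((idx n N m).card : ℝ) ≤ (N + 1) * (4 * (n + 1) ^ m) := by
  have := card_small (n := n) m
  simp only [idx, Finset.card_product, Finset.card_range, Finset.card_univ, Fintype.card_fin]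
  exact_mod_cast Nat.mul_le_mul_left _ (Nat.mul_le_mul_left _ this)

lemma grid {τ v : ℝ} {N : ℕ} (hN : 0 < N) (hv : v ∈ Icc 0 τ) :
    ∃ j ≤ N, τ * j / N ∈ Icc 0 τ ∧ |v - τ * j / N| ≤ τ / N := by
  have hN' : (0 : ℝ) < N := Nat.cast_pos.2 hN
  have hτ : 0 ≤ τ := hv.1.trans hv.2
  rcases hτ.eq_or_lt with rfl | hτ'
  · exact ⟨0, Nat.zero_le _, by simp, by simp [le_antisymm hv.2 hv.1]⟩
  have h0 : 0 ≤ v * N / τ := by have := hv.1; positivity
  have h1 := Nat.floor_le h0
  have h2 := Nat.lt_floor_add_one (v * N / τ)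
  have h3 : v * N / τ ≤ N := by rw [div_le_iff₀ hτ']; nlinarith [hv.2]
  rw [le_div_iff₀ hτ'] at h1
  rw [div_lt_iff₀ hτ'] at h2
  have h4 : τ * ⌊v * N / τ⌋₊ / N ≤ v := by rw [div_le_iff₀ hN']; linarith
  refine ⟨⌊v * N / τ⌋₊, Nat.floor_le_of_le h3, ⟨by positivity, h4.trans hv.2⟩, ?_⟩
  rw [abs_of_nonneg (sub_nonneg.2 h4), sub_le_iff_le_add, ← add_div, le_div_iff₀ hN']
  linarith

/-- off the bad set all deviations are small, at all times -/
lemma dev_le {β K s τ Λ : ℝ} {N m : ℕ} (h0 : 0 ≤ β) (h1 : β ≤ 1) (hn : 0 < n) (hN : 0 < N)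
    (hW : Wᵀ = W) (hK : opn W ≤ K) (hs : 0 ≤ s) (hΛ : 1 ≤ Λ) {y : Cube n}
    (hM : ∀ v ∈ Icc 0 τ, opn (Mg (cav T W) v y) ≤ Λ) (ha : opn (am (cav T W) y) ≤ Λ)
    (hy : y ∉ Bad β K s (idx n N m) (fam τ N) T W) {v : ℝ} (hv : v ∈ Icc 0 τ)
    {S : Finset (Fin n)} (hS : S.card ≤ m) (j : Fin 4) :
    Dev β T W (F4 (cav T W) y v S j) ≤ (s + (K ^ 2 + 1) * (4 * n * τ / N)) * Λ ^ 4 := by
  obtain ⟨i, hi, hi2, hi3⟩ := grid hN hv
  have h2 : Dev β T W (F4 (cav T W) y (τ * i / N) S j) ≤ s * Λ ^ 4 := by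
    by_contra hc
    refine hy ⟨hK, (i, j, S), by simp [idx, Nat.lt_succ_of_le hi, hS], ?_⟩
    exact lt_of_le_of_lt (mul_le_mul_of_nonneg_left (opn_F4 hΛ (hM _ hi2) ha S j) hs) (not_le.1 hc)
  have h3 := F4_lip hΛ (hM v hv) (hM _ hi2) ha ((Mg_lip hn (cav_symm hW) hv.1 hi2.1 y).trans
    (mul_le_mul_of_nonneg_left hi3 (by positivity))) S j
  refine (Dev_lip h0 h1 hn hK _ _).trans ((add_le_add h2 (mul_le_mul_of_nonneg_left h3
    (by positivity))).trans (le_of_eq (by ring)))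

end Crest.Agent.T157.S6p

end
end

-- ▼ part T157/S6Pl_55
section

/-!
# Row 157, block B/S6 (helper55): the cavity events hold off an exponentially small set
-/

set_option autoImplicit false
set_option linter.all false

noncomputable section

namespace Crest.Agent.T157.S6p

open MeasureTheory Matrix Real Filter Topology Set
open Crest.ProbabilityR.SpinGlassDynamics
open Crest.Agent.T157.E Crest.Agent.T157.Eig
open Crest.Agent.T157.Tap (V Mx)
open Crest.Agent.T157.Chain22 (sg)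
open Crest.Agent.T157.Rec (grad fl GR sg_mono)
open Crest.Agent.T157.Da.Gr (loc tt ising_pos)
open Crest.Agent.T157.Da.Fd (Iq Iq_mono)
open Crest.Agent.T157.Reg (mu am fp Nice)
open Crest.Agent.T157.S6 (Mg cc vr Fq G3 Cv Sub PlStmt)

variable {n : ℕ} {T : Finset (Fin n)} {W : Mx n}

section me
variable {X : Type} [MeasurableSpace X] {A : X → Mx n}

lemma ME.tt (hA : ME A) (z : Cube n) (k : Fin n) : Measurable fun g => tt (A g) 0 z k := by
  have hc : Continuous tanh :=
    continuous_iff_continuousAt.2 fun x => (Da.Gr.hasDerivAt_tanh x).continuousAt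
  refine hc.measurable.comp ?_
  have := hA
  unfold ME at this
  simp only [loc, mulVec, dotProduct]
  fun_prop

lemma ME.Mg (hA : ME A) (v : ℝ) (y : Cube n) : ME fun g => Mg (A g) v y := fun i a => by
  have h := fun z => Da.Fd.measurable_sg (w := fun g => mu (A g)) (fun z => hA.ising z)
    (t := fun _ => v) measurable_const (g := fun _ z => sv z a) (fun _ => measurable_const) z
  exact ((h _).sub (h _)).div_const 2

lemma ME.am (hA : ME A) (y : Cube n) : ME fun g => am (A g) y := fun i k =>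
  ((hA.tt _ k).sub (hA.tt _ k)).div_const 2

lemma ME.fam (hA : ME A) (τ : ℝ) (N : ℕ) (p : ℕ × Fin 4 × Finset (Fin n)) (y : Cube n) :
    ME fun g => fam τ N p (A g) y := by
  obtain ⟨i, j, S⟩ := p
  have hM := hA.Mg (τ * i / N) y
  have h3 := ((ME.const (PT S)).mul (hA.am y)).mul hM
  fin_cases j
  · exact (ME.diag fun k => measurable_const.sub ((hA.tt y k).pow_const 2)).mul hM
  · exact hM.tr.mul hM
  · exact h3.tr.mul h3
  · exact ME.const _

end me

lemma good_pt {β K s τ Λ ε : ℝ} {N m : ℕ} (h0 : 0 ≤ β) (h1 : β ≤ 1) (hn : 0 < n) (hN : 0 < N)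
    (hW : Wᵀ = W) (hK : opn W ≤ K) (hs : 0 ≤ s) (hΛ : 1 ≤ Λ) (hτ : 0 ≤ τ) (e0 : 0 < ε) (e1 : ε ≤ 1)
    (hD : (s + (K ^ 2 + 1) * (4 * n * τ / N) + m / n) * Λ ^ 4 ≤ ε ^ 2 / 16) (hT : T.card ≤ m)
    {y : Cube n} (hM : ∀ v ∈ Icc 0 τ, opn (Mg (cav T W) v y) ≤ Λ) (ha : opn (am (cav T W) y) ≤ Λ)
    (hy : y ∉ Bad β K s (idx n N m) (fam τ N) T W) :
    (∀ v ∈ Icc 0 τ, opn (Rw T W * (diagonal (cc (cav T W) y) * Mg (cav T W) v y) * (Rw T W)ᵀ -
      (β ^ 2 * vr (cav T W) v y) • PT T) ≤ ε) ∧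
    (∀ v ∈ Icc 0 τ, opn (Mg (cav T W) v y * (Rw T W)ᵀ) ^ 2 ≤ β ^ 2 * Fq (cav T W) v y + ε) ∧
    (∀ v ∈ Icc 0 τ, ∀ S : Finset (Fin n), S.card ≤ m →
      opn (PT S * am (cav T W) y * Mg (cav T W) v y * (Rw T W)ᵀ) ≤ ε) ∧
    ∀ S : Finset (Fin n), S.card ≤ m → opn (PT S * (Rw T W)ᵀ) ≤ ε / 4 := by
  have hn' : (0 : ℝ) < n := Nat.cast_pos.2 hn
  have hb : β ^ 2 ≤ 1 := pow_le_one₀ h0 h1
  have p0 : 1 ≤ Λ ^ 4 := one_le_pow₀ hΛ
  have hd := fun v hv S hS j => dev_le (T := T) h0 h1 hn hN hW hK hs hΛ hM ha hy (v := v) hv (S := S) hS j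
  rw [add_mul] at hD
  set d := (s + (K ^ 2 + 1) * (4 * n * τ / N)) * Λ ^ 4
  have hm0 : 0 ≤ (m / n : ℝ) * Λ ^ 4 := by positivity
  have ee : ε ^ 2 ≤ ε := by nlinarith
  have hS : ∀ (S : Finset (Fin n)) (B : Mx n), S.card ≤ m → opn B ^ 2 ≤ Λ ^ 4 →
      β ^ 2 * (fp (PT S * B) (PT S * B) / n) ≤ m / n * Λ ^ 4 := fun S B hS hB => by
    have h2 : (S.card : ℝ) ≤ m := by exact_mod_cast hS
    have h3 := (fp_PT S B).trans (mul_le_mul h2 hB (sq_nonneg _) (Nat.cast_nonneg _))
    refine (mul_le_mul_of_nonneg_left (div_le_div_of_nonneg_right h3 hn'.le) (sq_nonneg β)).trans ?_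
    rw [mul_div_right_comm]
    exact mul_le_of_le_one_left hm0 hb
  refine ⟨fun v hv => ?_, fun v hv => ?_, fun v hv S h => ?_, fun S h => ?_⟩
  · have h2 := g1_le (T := T) (W := W) h0 h1 hn (diagonal (cc (cav T W) y) * Mg (cav T W) v y)
    simp only [diagonal_mul] at h2
    have h3 : Dev β T W (diagonal (cc (cav T W) y) * Mg (cav T W) v y) ≤ d := hd v hv ∅ (by simp) 0
    have h4 : opn (diagonal (cc (cav T W) y) * Mg (cav T W) v y) ≤ Λ ^ 4 := opn_F4 hΛ (hM v hv) ha ∅ 0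
    have h5 : (T.card / n : ℝ) ≤ m / n := div_le_div_of_nonneg_right (by exact_mod_cast hT) hn'.le
    have h6 := mul_le_mul h5 h4 (opn_nonneg _) (by positivity)
    refine h2.trans ?_
    nlinarith
  · have h3 : Dev β T W ((Mg (cav T W) v y)ᵀ * Mg (cav T W) v y) ≤ d := hd v hv ∅ (by simp) 1
    refine (sq_le β _).trans ?_
    rw [Fq]; nlinarith
  · have h3 : Dev β T W ((PT S * am (cav T W) y * Mg (cav T W) v y)ᵀ *
        (PT S * am (cav T W) y * Mg (cav T W) v y)) ≤ d := hd v hv S h 2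
    have h4 := hS S (am (cav T W) y * Mg (cav T W) v y) h (by
      have := (opn_mul_le _ _).trans (mul_le_mul ha (hM v hv) (opn_nonneg _) (by linarith))
      exact (pow_le_pow_left₀ (opn_nonneg _) this 2).trans (le_of_eq (by ring)))
    rw [← Matrix.mul_assoc] at h4
    have h5 := sq_le (T := T) (W := W) β (PT S * am (cav T W) y * Mg (cav T W) v y)
    exact abs_le_of_sq_le_sq' (by nlinarith) e0.le |>.2
  · have h3 : Dev β T W ((PT S)ᵀ * PT S) ≤ d := hd 0 ⟨le_rfl, hτ⟩ S h 3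
    have h4 := hS S 1 h ((pow_le_one₀ (opn_nonneg _) opn_one_le).trans p0)
    rw [Matrix.mul_one] at h4
    have h5 := sq_le (T := T) (W := W) β (PT S)
    exact abs_le_of_sq_le_sq' (by nlinarith) (by positivity) |>.2

lemma ev_log {p c : ℝ} (hp : 0 < p) (hc : 0 < c) (A : ℝ) :
    ∀ᶠ n : ℕ in atTop, A * (log n + 1) ≤ c * (n : ℝ) ^ p := by
  have h1 := ((isLittleO_log_rpow_atTop hp).comp_tendsto tendsto_natCast_atTop_atTop).bound
    (show 0 < c / (2 * (|A| + 1)) by positivity)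
  have h2 := ((tendsto_rpow_atTop hp).comp tendsto_natCast_atTop_atTop).eventually_ge_atTop
    (2 * (|A| + 1) / c)
  filter_upwards [h1, h2, eventually_ge_atTop 1] with n h1 h2 h3
  have h4 : 0 ≤ log n := log_natCast_nonneg n
  simp only [Function.comp, Real.norm_eq_abs, abs_of_nonneg h4,
    abs_of_nonneg (rpow_nonneg (Nat.cast_nonneg n) p)] at h1 h2
  rw [div_le_iff₀ hc] at h2
  rw [div_mul_eq_mul_div, le_div_iff₀ (by positivity)] at h1
  have := le_abs_self A
  have := abs_nonneg A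
  nlinarith

lemma prob_num {κ c τ : ℝ} (hκ : 0 < κ) (hκ1 : κ ≤ 1 / 8) (hn : 1 ≤ n) (hτ0 : 0 ≤ τ) (hτ : τ ≤ n)
    {m : ℕ} (hm : (m : ℝ) ≤ 2 * (n : ℝ) ^ (1 - κ)) (h : 30 * (log n + 1) ≤ c * (n : ℝ) ^ (κ / 2)) :
    ((n : ℝ) + 1) ^ m * (((idx n (n ^ 3) m).card * (2 * 81 ^ m * exp (-(c * n * ((n : ℝ) ^ (-(κ / 4))) ^ 2)))) *
      (1 + τ / ((n : ℝ) ^ (-(κ / 16))) ^ 2)) ≤
      exp (-(n : ℝ) ^ (1 - κ)) * exp (-(2 * (n : ℝ) ^ (1 - κ))) := by
  have n1 : (1 : ℝ) ≤ n := by exact_mod_cast hn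
  have n0 : (0 : ℝ) < n := by linarith
  set u := (n : ℝ) ^ (1 - κ) with hu
  set L := log n + 1 with hL
  have u1 : 1 ≤ u := one_le_rpow n1 (by linarith)
  have L1 : 1 ≤ L := by have := log_natCast_nonneg n; linarith
  have a1 : (n : ℝ) + 1 ≤ exp L := by
    rw [hL, exp_add, exp_log n0]; nlinarith [add_one_le_exp (1 : ℝ)]
  have a2 : ((n : ℝ) + 1) ^ m ≤ exp (2 * u * L) := (pow_le_pow_left₀ (by positivity) a1 m).trans (by
    rw [← exp_nat_mul]; exact exp_le_exp.2 (mul_le_mul_of_nonneg_right hm (by linarith)))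
  have a3 : (81 : ℝ) ^ m ≤ exp (10 * u) := by
    have : (81 : ℝ) ≤ exp 5 := by
      have := pow_le_pow_left₀ (by norm_num) exp_one_gt_d9.le 5
      rw [← exp_nat_mul] at this; norm_num at this ⊢; linarith
    refine (pow_le_pow_left₀ (by norm_num) this m).trans ?_
    rw [← exp_nat_mul]; exact exp_le_exp.2 (by linarith)
  have a4 : ((n ^ 3 : ℕ) : ℝ) + 1 ≤ exp (3 * L) := by
    have := pow_le_pow_left₀ (by positivity) a1 3
    rw [← exp_nat_mul] at this; push_cast at this ⊢; nlinarith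
  have a5 : 1 + τ / ((n : ℝ) ^ (-(κ / 16))) ^ 2 ≤ exp (2 * L) := by
    have h2 := pow_le_pow_left₀ (by positivity) a1 2
    rw [← exp_nat_mul] at h2
    have h3 : (((n : ℝ) ^ (-(κ / 16))) ^ 2)⁻¹ ≤ n := by
      rw [← rpow_natCast, ← rpow_mul n0.le, ← rpow_neg n0.le]
      exact (rpow_le_rpow_of_exponent_le n1 (by push_cast; linarith)).trans (rpow_one _).le
    have h4 := mul_le_mul hτ h3 (by positivity) n0.le
    rw [div_eq_mul_inv]; push_cast at h2; nlinarith
  have a6 : (8 : ℝ) ≤ exp 3 := by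
    have := pow_le_pow_left₀ (by norm_num) exp_one_gt_d9.le 3
    rw [← exp_nat_mul] at this; norm_num at this ⊢; linarith
  have a7 : c * n * ((n : ℝ) ^ (-(κ / 4))) ^ 2 = u * (c * (n : ℝ) ^ (κ / 2)) := by
    rw [← rpow_natCast, ← rpow_mul n0.le, mul_left_comm, hu, ← rpow_add n0, mul_assoc]
    congr 1
    rw [show (1 - κ + κ / 2) = 1 + -(κ / 4) * (2 : ℕ) by push_cast; ring, rpow_add n0, rpow_one]
  have a8 := (card_idx n (n ^ 3) m).trans (mul_le_mul a4 (mul_le_mul_of_nonneg_left a2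
    (by norm_num)) (by positivity) (exp_pos _).le)
  calc _ ≤ exp (2 * u * L) * (((exp (3 * L) * (4 * exp (2 * u * L))) *
        (2 * exp (10 * u) * exp (-(u * (30 * L))))) * exp (2 * L)) := by
        rw [a7]; gcongr
    _ = 8 * exp (4 * u * L + 5 * L + 10 * u - 30 * (u * L)) := by
        simp only [sub_eq_add_neg, exp_add, show 4 * u * L = 2 * u * L + 2 * u * L by ring,
          show 5 * L = 3 * L + 2 * L by ring, show -(30 * (u * L)) = -(u * (30 * L)) by ring]; ring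
    _ ≤ exp 3 * exp (4 * u * L + 5 * L + 10 * u - 30 * (u * L)) := by gcongr
    _ ≤ _ := by
        rw [← exp_add, ← exp_add]; exact exp_le_exp.2 (by nlinarith)

lemma err_num {κ K C τ : ℝ} (hκ : 0 < κ) (hκ1 : κ ≤ 1 / 8) (hK : 0 ≤ K) (hn : 1 ≤ n) (hτ : τ ≤ n)
    {m : ℕ} (hm : (m : ℝ) ≤ 2 * (n : ℝ) ^ (1 - κ))
    (h : 16 * C ^ 4 * (4 * K ^ 2 + 4 * K + 9) ≤ (n : ℝ) ^ (κ / 16)) :
    ((n : ℝ) ^ (-(κ / 4)) + (2 * K + 1) * √(m / n) + (K ^ 2 + 1) * (4 * n * τ / (n ^ 3 : ℕ)) + m / n) *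
      (C * (n : ℝ) ^ (κ / 64)) ^ 4 ≤ ((n : ℝ) ^ (-(κ / 16))) ^ 2 / 16 := by
  have n1 : (1 : ℝ) ≤ n := by exact_mod_cast hn
  have n0 : (0 : ℝ) < n := by linarith
  set s := (n : ℝ) ^ (-(κ / 4)) with hs
  have s0 : 0 < s := rpow_pos_of_pos n0 _
  have s1 : s ≤ 1 := rpow_le_one_of_one_le_of_nonpos n1 (by linarith)
  have b1 : (m / n : ℝ) ≤ 2 * s ^ 4 := by
    rw [div_le_iff₀ n0, hs, ← rpow_natCast, ← rpow_mul n0.le, mul_assoc, ← rpow_add_one n0.ne']
    refine hm.trans (le_of_eq ?_); congr 2; push_cast; ring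
  have b2 : s ^ 4 ≤ s ^ 2 := pow_le_pow_of_le_one s0.le s1 (by norm_num)
  have b3 : s ^ 2 ≤ s := by nlinarith
  have b4 : √(m / n : ℝ) ≤ 2 * s := sqrt_le_iff.2 ⟨by positivity, by nlinarith⟩
  have b5 : 4 * n * τ / (n ^ 3 : ℕ) ≤ 4 * s := by
    have : (n : ℝ)⁻¹ ≤ s := by
      rw [← rpow_neg_one]; exact rpow_le_rpow_of_exponent_le n1 (by linarith)
    refine le_trans ?_ (mul_le_mul_of_nonneg_left this (by norm_num))
    push_cast
    rw [div_le_iff₀ (by positivity)]
    have e : 4 * (n : ℝ)⁻¹ * n ^ 3 = 4 * n * n := by field_simp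
    rw [e]; gcongr
  have b6 : s + (2 * K + 1) * √(m / n : ℝ) + (K ^ 2 + 1) * (4 * n * τ / (n ^ 3 : ℕ)) + m / n ≤
      (4 * K ^ 2 + 4 * K + 9) * s := by
    have := mul_le_mul_of_nonneg_left b4 (show 0 ≤ 2 * K + 1 by positivity)
    have := mul_le_mul_of_nonneg_left b5 (show 0 ≤ K ^ 2 + 1 by positivity)
    nlinarith
  have e1 : ((n : ℝ) ^ (κ / 64)) ^ 4 = (n : ℝ) ^ (κ / 16) := by
    rw [← rpow_natCast, ← rpow_mul n0.le]; congr 1; push_cast; ring
  have e2 : ((n : ℝ) ^ (-(κ / 16))) ^ 2 = s * ((n : ℝ) ^ (κ / 16) * (n : ℝ) ^ (κ / 16)) := by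
    rw [← rpow_natCast, ← rpow_mul n0.le, hs, ← rpow_add n0, ← rpow_add n0]; congr 1; push_cast; ring
  rw [mul_pow, e1, e2]
  have q0 : 0 < (n : ℝ) ^ (κ / 16) := rpow_pos_of_pos n0 _
  refine (mul_le_mul_of_nonneg_right b6 (by positivity)).trans ?_
  have := mul_le_mul_of_nonneg_left h (mul_pos s0 q0).le
  nlinarith

lemma mass_le {w : Cube n → ℝ} (hw : ∀ x, 0 < w x) {A B : Set (Cube n)} (h : A ⊆ B) :
    mass w A ≤ mass w B := by
  rw [Pl.mass_eq_mean, Pl.mass_eq_mean]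
  exact Finset.sum_le_sum fun x _ => mul_le_mul_of_nonneg_left
    (Set.indicator_le_indicator_of_subset h (fun _ => zero_le_one) x) ((SL.Wt.of_pos hw).prob_nonneg x)

/-- **Plant** -/
theorem plStmt : PlStmt := by
  intro β h0 h1 κ hκ hκ8
  obtain ⟨K, hK, hN⟩ := Reg.niceStmt
  obtain ⟨c, hc, hP⟩ := plant_abs
  obtain ⟨Cg, hCg, hG⟩ := Da.grStmt K
  obtain ⟨C, hC, hA⟩ := Reg.coefStmt K
  set δ := min 1 (κ / (64 * (Cg + 1))) with hδ
  have δ0 : 0 < δ := lt_min one_pos (by positivity)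
  have δ1 : δ ≤ 1 := min_le_left _ _
  have δ2 : Cg * δ ≤ κ / 64 := by
    have h := min_le_right 1 (κ / (64 * (Cg + 1)))
    rw [← hδ, le_div_iff₀ (by positivity)] at h
    nlinarith
  refine ⟨κ / 16, by positivity, δ, δ0, ?_⟩
  set m : ℕ → ℕ := fun n => ⌊2 * (n : ℝ) ^ (1 - κ)⌋₊ with hm
  have m1 : ∀ n, (m n : ℝ) ≤ 2 * (n : ℝ) ^ (1 - κ) := fun n => Nat.floor_le (by positivity)
  have t0 : ∀ n : ℕ, 0 ≤ δ * log n := fun n => mul_nonneg δ0.le (log_natCast_nonneg n)
  have t1 : ∀ n : ℕ, δ * log n ≤ n := fun n =>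
    (mul_le_of_le_one_left (log_natCast_nonneg n) δ1).trans (log_le_self (Nat.cast_nonneg n))
  have hw := whp_mass h0 h1 (fun n x => {g | ∃ T : Finset (Fin n), T.card ≤ m n ∧
      Ev β K ((n : ℝ) ^ (-(κ / 4)) + (2 * K + 1) * √(m n / n)) (δ * log n)
        (((n : ℝ) ^ (-(κ / 16))) ^ 2) (idx n (n ^ 3) (m n)) (fam (δ * log n) (n ^ 3)) T
        (β • Jmat n g) x}) (ε := fun n => exp (-(n : ℝ) ^ (1 - κ))) (fun n => exp_pos _)
    (a := 1 - κ) (by linarith) (by
      filter_upwards [ev_log (half_pos hκ) hc 30, eventually_ge_atTop 1] with n h hn x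
      have n1 : (1 : ℝ) ≤ n := by exact_mod_cast hn
      exact (hP n hn β h0 h1 _ _ _ (fun T i y => ((me_J β).cav T).fam _ _ i y) (m n) K _ _ _ hK.le
        (by positivity) (rpow_le_one_of_one_le_of_nonpos n1 (by linarith)) (t0 n) (by positivity)
        x).trans (prob_num hκ hκ8 hn (t0 n) (t1 n) (m1 n) h))
  refine (hN.and hw).mono ?_
  filter_upwards [((tendsto_rpow_atTop (show 0 < κ / 16 by positivity)).comp
    tendsto_natCast_atTop_atTop).eventually_ge_atTop (16 * C ^ 4 * (4 * K ^ 2 + 4 * K + 9)),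
    eventually_ge_atTop 1] with n h hn g hg
  have n1 : (1 : ℝ) ≤ n := by exact_mod_cast hn
  have n0 : (0 : ℝ) < n := by linarith
  obtain ⟨hg1, hg2⟩ := hg
  have nW := hg1 β h0 h1
  set W := β • Jmat n g with hW
  set ε := (n : ℝ) ^ (-(κ / 16)) with hε
  have e0 : 0 < ε := rpow_pos_of_pos n0 _
  have e1 : ε ≤ 1 := rpow_le_one_of_one_le_of_nonpos n1 (by linarith)
  have q1 : 1 ≤ (n : ℝ) ^ (κ / 64) := one_le_rpow n1 (by positivity)
  have G := fun (T : Finset (Fin n)) (hT : T.card ≤ m n) (y : Cube n) => good_pt (T := T) (y := y)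
    h0 h1 hn (pow_pos hn 3) nW.1 nW.2.1 (by positivity) (one_le_mul_of_one_le_of_one_le hC q1) (t0 n)
    e0 e1 (err_num hκ hκ8 hK.le hn (t1 n) (m1 n) h) hT (fun v hv => by
      refine (opn_Mg hn hCg (hG n _ 0 hn (nice_cav nW T).1 (nice_cav nW T).2.1) hv.1 y).trans
        (le_trans ?_ (le_mul_of_one_le_left (by positivity) hC))
      rw [rpow_def_of_pos n0]
      have := log_natCast_nonneg n
      exact exp_le_exp.2 (by nlinarith [mul_le_mul_of_nonneg_left hv.2 hCg]))
    ((hA n _ (nice_cav nW T) y).2.2.2.2.1.trans (le_mul_of_one_le_right (by linarith) q1))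
  have u0 : 0 ≤ (n : ℝ) ^ (1 - κ) := by positivity
  have fl1 : ∀ S : Finset (Fin n), (S.card : ℝ) ≤ (n : ℝ) ^ (1 - κ) → S.card ≤ m n := fun S hS =>
    Nat.le_floor (by linarith)
  constructor
  · intro S T hS hT
    by_contra hcon
    refine (hg2.trans_le (exp_le_one_iff.2 (neg_nonpos.2 u0))).not_ge ?_
    refine le_trans (le_of_eq ?_) (mass_le (ising_pos _ _) (A := Set.univ) fun x _ => ?_)
    · rw [Pl.mass_eq_mean, Set.indicator_univ]
      exact ((SL.Wt.of_pos (ising_pos W 0)).mean_const 1).symm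
    · by_contra hx
      refine hcon ((sub_le (fun i => by simp [hW, Jmat_diag]) S T (δ := ε / 4) fun A B hA hB => ?_).trans
        (le_of_eq (by ring)))
      have hU : S.card + T.card ≤ m n := Nat.le_floor (by push_cast; linarith)
      exact (G A (hA.trans hU) x fun hb => hx ⟨A, hA.trans hU, Or.inl hb⟩).2.2.2 B (hB.trans hU)
  · refine le_trans (mass_le (ising_pos _ _) fun x hx => ?_) hg2.le
    obtain ⟨T, hT, hx⟩ := hx
    have hT' := fl1 T (hT.trans (rpow_le_rpow_of_exponent_le n1 (by linarith)))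
    refine ⟨T, hT', by_contra fun he => hx ?_⟩
    rw [Ev, not_or, not_lt] at he
    obtain ⟨g1, g2, g3, -⟩ := G T hT' x he.1
    refine ⟨g1, g2, fun v hv S hS => g3 v hv S (fl1 S hS), le_trans ?_ he.2⟩
    refine Iq_mono hn (ising_pos _ _) (t0 n) (fun z => Set.indicator_le_indicator_of_subset
      (fun z hz => by_contra fun hb => ?_) (fun _ => zero_le_one) z) x
    exact (show ¬ G3 W _ ε (δ * log n) T z from hz) fun v hv S hS =>
      (G T hT' z hb).2.2.1 v hv S (fl1 S hS)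

end Crest.Agent.T157.S6p

end
end

-- ▼ part T157/S6SA_22
section

/-!
# Row 157, part B, block S6, (S), part 1 (helper22): the binary channel

Given `a` with small coordinates, the output `g` has independent spins of means `a j`;
`Lk a g` is its density with respect to the uniform law `un`.
-/

set_option autoImplicit false

noncomputable section

namespace Crest.Agent.T157.S6s

open Finset Matrix Real
open Crest.Agent.T157.Chain22 Crest.Agent.T157.Ent
open Crest.Agent.T157.E (Cube)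
open Crest.ProbabilityR.SpinGlassDynamics (spin)

section prod
variable {ι α : Type*} [Fintype ι] [DecidableEq ι] [Fintype α] {p : ι → α → ℝ}

theorem mean_prod (p f : ι → α → ℝ) :
    mean (ppi p) (fun g => ∏ j, f j (g j)) = ∏ j, mean (p j) (f j) := by
  have := prod_univ_sum (fun _ : ι => (univ : Finset α)) fun j a => p j a * f j a
  simp only [Fintype.piFinset_univ] at this
  simp only [mean, ppi, ← prod_mul_distrib]
  exact this.symm

theorem mean_sum_coord (hp : ∀ i, IsP (p i)) (f : ι → α → ℝ) :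
    mean (ppi p) (fun g => ∑ j, f j (g j)) = ∑ j, mean (p j) (f j) := by
  rw [mean_sum']
  refine sum_congr rfl fun j _ => ?_
  rw [← mean_ppi_update hp j]
  simp only [Function.update_self]
  exact (isP_ppi hp).mean_const _

end prod

variable {n : ℕ} {l : ℝ} {a a' : Fin n → ℝ}

def pa (t : ℝ) (b : Bool) : ℝ := 1 + spin b * t
def pb (t : ℝ) (b : Bool) : ℝ := pa t b / 2
/-- uniform law -/
def un (n : ℕ) : Cube n → ℝ := ppi fun _ => pb 0
/-- density of the output -/
def Lk (a : Fin n → ℝ) (g : Cube n) : ℝ := ∏ j, pa (a j) (g j)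

theorem mean_pb (t : ℝ) (f : Bool → ℝ) :
    mean (pb t) f = (1 + t) / 2 * f true + (1 - t) / 2 * f false := by
  simp [mean, pb, pa, spin, sub_eq_add_neg]

theorem pa_ge {t : ℝ} (h : |t| ≤ l) (b : Bool) : 1 - l ≤ pa t b := by
  have := abs_le.1 h
  cases b <;> simp [pa, spin] <;> linarith [this.1, this.2]

theorem pa_le {t : ℝ} (h : |t| ≤ l) (b : Bool) : pa t b ≤ 1 + l := by
  have := abs_le.1 h
  cases b <;> simp [pa, spin] <;> linarith [this.1, this.2]

theorem pa_pos {t : ℝ} (h : |t| ≤ 1 / 2) (b : Bool) : 0 < pa t b := by linarith [pa_ge h b]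

theorem pa_sub_sq (t s : ℝ) (b : Bool) : (pa t b - pa s b) ^ 2 = (t - s) ^ 2 := by
  cases b <;> simp [pa, spin]; ring

theorem isP_pb {t : ℝ} (h : |t| ≤ 1 / 2) : IsP (pb t) where
  nn b := (half_pos (pa_pos h b)).le
  sum1 := by simp [pb, pa, spin]; ring

theorem isP_un : IsP (un n) := isP_ppi fun _ => isP_pb (by norm_num)

theorem Lk_pos (h : ∀ j, |a j| ≤ 1 / 2) (g : Cube n) : 0 < Lk a g :=
  prod_pos fun j _ => pa_pos (h j) _

theorem mean_Lk (a : Fin n → ℝ) (F : Cube n → ℝ) :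
    mean (un n) (fun g => Lk a g * F g) = mean (ppi fun j => pb (a j)) F := by
  refine sum_congr rfl fun g _ => ?_
  rw [← mul_assoc, un, Lk, ppi, ppi, ← prod_mul_distrib]
  congr 1
  exact prod_congr rfl fun j _ => by simp only [pb, pa]; ring

theorem mean_Lk_one (h : ∀ j, |a j| ≤ 1 / 2) : mean (un n) (Lk a) = 1 := by
  have := mean_Lk a fun _ => 1
  simp only [mul_one] at this
  exact this.trans ((isP_ppi fun j => isP_pb (h j)).mean_const 1)

theorem log_Lk (h : ∀ j, |a j| ≤ 1 / 2) (g : Cube n) :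
    log (Lk a g) = ∑ j, log (pa (a j) (g j)) := log_prod fun j _ => (pa_pos (h j) _).ne'

theorem lg_le {p q : ℝ} (hp : 0 < p) (hq : 0 < q) : log q - log p ≤ (q - p) / p := by
  rw [← log_div hq.ne' hp.ne', sub_div, div_self hp.ne']
  exact log_le_sub_one_of_pos (by positivity)

theorem Lk_le (hl : l ≤ 1 / 2) (h : ∀ j, |a j| ≤ l) (g : Cube n) :
    exp (-(2 * l * n)) ≤ Lk a g ∧ Lk a g ≤ exp (l * n) := by
  have h' := fun j => (h j).trans hl
  rw [← exp_log (Lk_pos h' g), exp_le_exp, exp_le_exp, log_Lk h']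
  have k : ∀ j, -(2 * l) ≤ log (pa (a j) (g j)) ∧ log (pa (a j) (g j)) ≤ l := fun j => by
    have p0 := pa_pos (h' j) (g j)
    have p1 := pa_ge (h j) (g j)
    have p2 := lg_le p0 one_pos
    have l0 := (abs_nonneg _).trans (h j)
    rw [log_one, le_div_iff₀ p0] at p2
    refine ⟨?_, by linarith [log_le_sub_one_of_pos p0, pa_le (h j) (g j)]⟩
    by_contra hc
    nlinarith [mul_pos p0 (sub_pos.2 (not_le.1 hc))]
  constructor
  · have := card_nsmul_le_sum univ _ _ fun j _ => (k j).1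
    simp only [card_univ, Fintype.card_fin, nsmul_eq_mul] at this
    linarith
  · have := sum_le_card_nsmul univ _ _ fun j _ => (k j).2
    simp only [card_univ, Fintype.card_fin, nsmul_eq_mul] at this
    linarith

theorem fenchel {y : ℝ} (hy : 0 < y) (c : ℝ) : y * c - exp c + y ≤ y * log y := by
  have := lg_le hy (exp_pos c)
  rw [log_exp, le_div_iff₀ hy] at this
  linarith

/-- the information carried by the output -/
theorem info_ge (h : ∀ j, |a j| ≤ 1 / 2) :
    a ⬝ᵥ a / 2 ≤ mean (un n) fun g => Lk a g * log (Lk a g) := by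
  simp only [log_Lk h]
  rw [mean_Lk, mean_sum_coord (fun j => isP_pb (h j)) fun j b => log (pa (a j) b), dotProduct,
    sum_div]
  refine sum_le_sum fun j _ => ?_
  have h1 := fenchel (pa_pos (h j) true) (a j - a j ^ 2 / 2)
  have h2 := fenchel (pa_pos (h j) false) (-a j - a j ^ 2 / 2)
  have h3 := cosh_le_exp_half_sq (a j)
  have h4 : exp (a j - a j ^ 2 / 2) + exp (-a j - a j ^ 2 / 2) ≤ 2 := by
    rw [exp_sub, exp_sub, ← add_div, div_le_iff₀ (exp_pos _)]
    rw [cosh_eq] at h3; linarith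
  rw [mean_pb]
  have e1 : pa (a j) true = 1 + a j := by simp [pa, spin]
  have e2 : pa (a j) false = 1 - a j := by simp [pa, spin, sub_eq_add_neg]
  rw [e1] at h1 ⊢
  rw [e2] at h2 ⊢
  linarith

/-- second moment -/
theorem two_le (h : ∀ j, |a j| ≤ 1 / 2) (h' : ∀ j, |a' j| ≤ 1 / 2) :
    mean (un n) (fun g => Lk a g * Lk a' g) ≤ exp (a ⬝ᵥ a') := by
  rw [mean_Lk]
  unfold Lk
  rw [mean_prod _ fun j b => pa (a' j) b, dotProduct, exp_sum]
  refine prod_le_prod (fun j _ => (isP_pb (h j)).mean_nonneg fun b => (pa_pos (h' j) b).le)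
    fun j _ => ?_
  rw [mean_pb]
  have := add_one_le_exp (a j * a' j)
  simp only [pa, spin, if_true, Bool.false_eq_true, if_false]
  linarith

theorem sym_le {p q : ℝ} (hl0 : 0 ≤ l) (hl : l ≤ 1 / 2) (hp : 1 - l ≤ p) (hq : 1 - l ≤ q) :
    (p - q) * (log p - log q) ≤ (1 + 2 * l) * (p - q) ^ 2 := by
  wlog h : q ≤ p generalizing p q
  · have := this hq hp (le_of_not_ge h)
    linarith
  have q0 : 0 < q := by linarith
  have h1 := lg_le q0 (show 0 < p by linarith)
  have h2 : (p - q) / q ≤ (1 + 2 * l) * (p - q) := by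
    rw [div_le_iff₀ q0]
    have : 1 ≤ (1 + 2 * l) * q := by nlinarith
    nlinarith
  nlinarith

/-- symmetrised entropy -/
theorem sym_Lk (hl : l ≤ 1 / 2) (h : ∀ j, |a j| ≤ l) (h' : ∀ j, |a' j| ≤ l) :
    mean (un n) (fun g => (Lk a g - Lk a' g) * (log (Lk a g) - log (Lk a' g))) ≤
      (1 + 2 * l) * ∑ j, (a j - a' j) ^ 2 := by
  have k := fun j => (h j).trans hl
  have k' := fun j => (h' j).trans hl
  simp only [log_Lk k, log_Lk k', ← sum_sub_distrib, sub_mul]
  rw [mean_sub', mean_Lk, mean_Lk,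
    mean_sum_coord (fun j => isP_pb (k j)) fun j b => log (pa (a j) b) - log (pa (a' j) b),
    mean_sum_coord (fun j => isP_pb (k' j)) fun j b => log (pa (a j) b) - log (pa (a' j) b),
    ← sum_sub_distrib, mul_sum]
  refine sum_le_sum fun j _ => ?_
  have l0 := (abs_nonneg _).trans (h j)
  have h1 := fun b => sym_le l0 hl (pa_ge (h j) b) (pa_ge (h' j) b)
  have h2 := h1 true
  have h3 := h1 false
  rw [pa_sub_sq] at h2 h3
  simp only [mean, Fintype.sum_bool, pb]
  linarith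

theorem lg3 {p q : ℝ} (hp : 1 / 2 ≤ p) (hq : 1 / 2 ≤ q) : |log q - log p| ≤ 2 * |q - p| ∧
    p * (log q - log p) ≤ q - p ∧ q - p - 2 * (q - p) ^ 2 ≤ p * (log q - log p) := by
  have p0 : 0 < p := by linarith
  have q0 : 0 < q := by linarith
  have h1 := lg_le p0 q0
  have h2 := lg_le q0 p0
  rw [le_div_iff₀ p0] at h1
  rw [le_div_iff₀ q0, ← neg_sub (log q)] at h2
  generalize log q - log p = z at *
  have h3 : |z| ≤ 2 * |q - p| := by
    have := abs_le.1 (le_refl |q - p|)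
    rcases abs_cases z with e | e <;> rw [e.1] <;> nlinarith [e.2, this.1, this.2]
  have h4 : (q - p) * z ≤ |q - p| * (2 * |q - p|) := (le_abs_self _).trans
    (by rw [abs_mul]; exact mul_le_mul_of_nonneg_left h3 (abs_nonneg _))
  exact ⟨h3, by linarith, by nlinarith [sq_abs (q - p)]⟩

theorem mgf_one {t s θ : ℝ} (ht : |t| ≤ 1 / 2) (hs : |s| ≤ 1 / 2) (h : |θ| * (2 * |s - t|) ≤ 1) :
    mean (pb t) (fun b => exp (θ * (log (pa s b) - log (pa t b)))) ≤
      exp ((2 * |θ| + 4 * θ ^ 2) * (s - t) ^ 2) := by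
  have hp := isP_pb ht
  set ξ : Bool → ℝ := fun b => log (pa s b) - log (pa t b) with hξ
  have k : ∀ b, |ξ b| ≤ 2 * |s - t| ∧ pa t b * ξ b ≤ pa s b - pa t b ∧
      pa s b - pa t b - 2 * (s - t) ^ 2 ≤ pa t b * ξ b := fun b => by
    have e := pa_sub_sq s t b
    rw [← e, ← (sq_eq_sq_iff_abs_eq_abs _ _).1 e]
    exact lg3 (by linarith [pa_ge ht b]) (by linarith [pa_ge hs b])
  have m1 : |mean (pb t) ξ| ≤ 2 * (s - t) ^ 2 := by
    have a1 := (k true).2
    have a2 := (k false).2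
    have e : pa s true - pa t true + (pa s false - pa t false) = 0 := by simp [pa, spin]
    simp only [mean, Fintype.sum_bool, pb]
    exact abs_le.2 ⟨by linarith [a1.2, a2.2], by nlinarith [a1.1, a2.1, sq_nonneg (s - t)]⟩
  have m2 : mean (pb t) (fun b => exp (θ * ξ b)) ≤
      mean (pb t) fun b => θ * ξ b + (1 + 4 * θ ^ 2 * (s - t) ^ 2) := hp.mean_mono fun b => by
    have b1 : |θ * ξ b| ≤ |θ| * (2 * |s - t|) := by
      rw [abs_mul]; exact mul_le_mul_of_nonneg_left (k b).1 (abs_nonneg _)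
    have b2 := (abs_le.1 (abs_exp_sub_one_sub_id_le (b1.trans h))).2
    have b3 := pow_le_pow_left₀ (abs_nonneg _) b1 2
    rw [sq_abs, mul_pow (|θ|), mul_pow 2, sq_abs, sq_abs] at b3
    linarith
  rw [mean_add', mean_const_mul, hp.mean_const] at m2
  have m3 : θ * mean (pb t) ξ ≤ |θ| * (2 * (s - t) ^ 2) :=
    (le_abs_self _).trans (by rw [abs_mul]; exact mul_le_mul_of_nonneg_left m1 (abs_nonneg _))
  linarith [add_one_le_exp ((2 * |θ| + 4 * θ ^ 2) * (s - t) ^ 2)]

/-- third moment of the score -/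
theorem cube_Lk {σ : ℝ} (h : ∀ j, |a j| ≤ 1 / 2) (h' : ∀ j, |a' j| ≤ 1 / 2) (h0 : 0 < σ)
    (h1 : σ ≤ 1) (hs : ∑ j, (a' j - a j) ^ 2 ≤ σ ^ 2) :
    mean (un n) (fun g => Lk a g * |log (Lk a' g) - log (Lk a g)| ^ 3) ≤ 720 * σ ^ 3 := by
  have hp := isP_ppi fun j => isP_pb (h j)
  have m : ∀ θ : ℝ, |θ| = 1 / (2 * σ) → mean (ppi fun j => pb (a j))
      (fun g => exp (θ * (log (Lk a' g) - log (Lk a g)))) ≤ 7.5 := fun θ hθ => by
    simp only [log_Lk h, log_Lk h', ← sum_sub_distrib, mul_sum, exp_sum]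
    rw [mean_prod _ fun j b => exp (θ * (log (pa (a' j) b) - log (pa (a j) b)))]
    refine (prod_le_prod (fun j _ => (isP_pb (h j)).mean_nonneg fun b => (exp_pos _).le)
      fun j _ => mgf_one (h j) (h' j) ?_).trans ?_
    · have : |a' j - a j| ≤ σ := abs_le_of_sq_le_sq ((single_le_sum
        (f := fun j => (a' j - a j) ^ 2) (fun _ _ => sq_nonneg _) (mem_univ j)).trans hs) h0.le
      rw [hθ, div_mul_eq_mul_div, div_le_one (by positivity)]; linarith
    rw [← exp_sum, ← mul_sum, ← sq_abs θ, hθ]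
    have e : (2 * (1 / (2 * σ)) + 4 * (1 / (2 * σ)) ^ 2) * σ ^ 2 = σ + 1 := by field_simp; ring
    have e2 : exp 2 = exp 1 * exp 1 := by rw [← exp_add]; norm_num
    have := exp_one_lt_d9
    refine (exp_le_exp.2 ((mul_le_mul_of_nonneg_left hs (by positivity)).trans
      (show _ ≤ 2 by linarith))).trans (by nlinarith [exp_pos 1])
  rw [mean_Lk]
  have m1 := m (1 / (2 * σ)) (abs_of_pos (by positivity))
  have m2 := m (-(1 / (2 * σ))) (by rw [abs_neg, abs_of_pos (by positivity)])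
  refine (hp.mean_mono (g := fun g => 48 * σ ^ 3 *
    (exp (1 / (2 * σ) * (log (Lk a' g) - log (Lk a g))) +
      exp (-(1 / (2 * σ)) * (log (Lk a' g) - log (Lk a g))))) fun g => ?_).trans ?_
  · generalize log (Lk a' g) - log (Lk a g) = z
    have b1 := pow_div_factorial_le_exp (|1 / (2 * σ) * z|) (abs_nonneg _) 3
    have b2 : exp |1 / (2 * σ) * z| ≤ exp (1 / (2 * σ) * z) + exp (-(1 / (2 * σ)) * z) := by
      rw [neg_mul]
      rcases abs_cases (1 / (2 * σ) * z) with e | e <;> rw [e.1] <;>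
        linarith [exp_pos (1 / (2 * σ) * z), exp_pos (-(1 / (2 * σ) * z))]
    have e : |z| ^ 3 = 48 * σ ^ 3 * (|1 / (2 * σ) * z| ^ 3 / (Nat.factorial 3 : ℕ)) := by
      rw [abs_mul, abs_of_pos (show 0 < 1 / (2 * σ) by positivity)]
      simp only [Nat.factorial]; push_cast; field_simp; ring
    rw [e]
    exact mul_le_mul_of_nonneg_left (b1.trans b2) (by positivity)
  · rw [mean_const_mul, mean_add']
    nlinarith [pow_pos h0 3]

end Crest.Agent.T157.S6s

end
end

-- ▼ part T157/S6SB_22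
section

/-!
# Row 157, part B, block S6, (S), part 2 (helper22): linearisation of the entropy inequality
-/

set_option autoImplicit false

noncomputable section

namespace Crest.Agent.T157.S6s

open Finset Matrix Real
open Crest.Agent.T157.Chain22 Crest.Agent.T157.Ent
open Crest.Agent.T157.E (Cube prob siteM dir dir2 sv)
open Crest.Agent.T157.Rec (grad fl)
open Crest.Agent.T157.Rv (Warm II)
open Crest.Agent.T157.B (Df dn kS)

variable {n : ℕ} {w F : Cube n → ℝ}

theorem sub_siteM (hw : ∀ x, 0 < w x) (F : Cube n → ℝ) (i : Fin n) (x : Cube n) :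
    F x - siteM w F i x = cnd w i x (!x i) * (F x - F (fl x i)) := by
  have h := (den_pos hw i x).ne'
  have e : F x = F (Function.update x i (x i)) := by rw [Function.update_eq_self]
  rw [siteM, cnd, fl, e]
  cases x i <;> simp only [Bool.not_true, Bool.not_false] <;> field_simp <;> ring

theorem dir2_fl (hw : ∀ x, 0 < w x) (F G : Cube n → ℝ) : dir2 w F G = ∑ i, mean (prob w) fun x =>
    cnd w i x (!x i) ^ 2 * ((F x - F (fl x i)) * (G x - G (fl x i))) :=
  sum_congr rfl fun i _ => sum_congr rfl fun x _ => by rw [sub_siteM hw, sub_siteM hw]; ring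

/-- third moment of the scores -/
def D3 (w F : Cube n → ℝ) : ℝ :=
  ∑ i, mean (prob w) fun x => F x * |log (F (fl x i)) - log (F x)| ^ 3

theorem klr_sub (h k : ℝ) : Hd.klr h k - Hd.klr k h ≤ 2 * |k - h| ^ 3 := by
  have h1 := Ue.quiet (le_refl |k - h|)
  have h2 := Ue.klr_le_sq h k
  have h3 := mul_le_mul_of_nonneg_right (add_one_le_exp (-(4 * |k - h|))) (Ue.klr_nonneg h k)
  have h4 := mul_le_mul_of_nonneg_left h2 (abs_nonneg (k - h))
  rw [← sq_abs (k - h)] at h4
  linarith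

theorem Df_le (hw : ∀ x, 0 < w x) (hF : ∀ x, 0 < F x) (h1 : mean (prob w) F = 1) :
    Df (dn w F) w ≤ D3 w F / 4 := by
  have hS := sum_w_pos hw
  have e : ∀ x, prob (dn w F) x = prob w x * F x := fun x => by
    have : ∑ y, dn w F y = ∑ y, w y := by
      simp only [mean, prob, div_mul_eq_mul_div, ← sum_div] at h1
      exact (div_eq_one_iff_eq hS.ne').1 h1
    rw [prob, this, prob, dn]; ring
  rw [Df, D3, sum_div]
  refine sum_le_sum fun i _ => ?_
  rw [E.mean, mean, sum_div]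
  refine sum_le_sum fun x _ => ?_
  have f1 : Ue.Fr w i x := ⟨hw _, hw _⟩
  have f2 := f1.mul hF
  have k1 : kS (dn w F) w i x = _ := f2.kls f1
  have k2 : kS w (dn w F) i x = Hd.klr (Hd.hl (fun x => w x * F x) i x) _ := f1.kls f2
  have k3 := klr_sub (Hd.hl w i x) (Hd.hl (fun x => w x * F x) i x)
  have k4 : |Hd.hl (fun x => w x * F x) i x - Hd.hl w i x| =
      |log (F (fl x i)) - log (F x)| / 2 := by
    rw [f1.hl_mul hF, add_sub_cancel_left, Rec.grad_eq, abs_div, abs_mul, abs_two, abs_sub_comm,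
      show |sv x i| = 1 from abs_eq_abs.2 (mul_self_eq_one_iff.1 (Rec.sv_mul_self x i)) |>.trans
        abs_one, one_mul]
  rw [e, k1, k2, mul_assoc, mul_div_assoc, mul_div_assoc]
  refine mul_le_mul_of_nonneg_left (mul_le_mul_of_nonneg_left (max_le ?_ (by positivity))
    (hF x).le) (prob_pos' hw x).le
  rw [k4] at k3
  linarith

theorem II_smul (hw : ∀ x, 0 < w x) (hF : ∀ x, 0 < F x) {c : ℝ} (hc : 0 < c) :
    II w (c • F) = c * II w F := by
  simp only [II, dir2_fl hw, mul_sum, ← mean_const_mul, Pi.smul_apply, smul_eq_mul,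
    log_mul hc.ne' (hF _).ne']
  exact sum_congr rfl fun i _ => mean_congr fun x => by ring

theorem D3_smul (hF : ∀ x, 0 < F x) {c : ℝ} (hc : 0 < c) : D3 w (c • F) = c * D3 w F := by
  simp only [D3, mul_sum, ← mean_const_mul, Pi.smul_apply, smul_eq_mul,
    log_mul hc.ne' (hF _).ne', add_sub_add_left_eq_sub, mul_assoc]

theorem D3_nonneg (hw : ∀ x, 0 < w x) (hF : ∀ x, 0 < F x) : 0 ≤ D3 w F :=
  sum_nonneg fun _ _ => (isP_prob' hw).mean_nonneg fun x => mul_nonneg (hF x).le (by positivity)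

/-- homogeneous form of the hypothesis -/
theorem hom (hw : ∀ x, 0 < w x) {m a θ N lo hi : ℝ} {Q : Cube n → ℝ} (θ0 : 0 ≤ θ) (θ1 : θ ≤ 1)
    (hP : ∀ f, Warm w m f → 2 * a * E.ent w f ≤
      II w f + (θ * Df (dn w f) w + E.mean w fun x => f x * Q x) + N)
    (h1 : ∀ x, exp lo ≤ F x) (h2 : ∀ x, F x ≤ exp hi) (hm : hi - lo ≤ m) :
    2 * a * ent (prob w) F ≤ II w F + D3 w F / 4 + mean (prob w) (fun x => F x * Q x) +
      N * mean (prob w) F := by
  have hp := isP_prob' hw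
  have hF : ∀ x, 0 < F x := fun x => (exp_pos _).trans_le (h1 x)
  have z0 := mean_pos hp hF
  have z1 : exp lo ≤ mean (prob w) F := (hp.mean_const _).symm.le.trans (hp.mean_mono h1)
  set Z := mean (prob w) F with hZ
  have zi := inv_pos.2 z0
  have f0 : ∀ x, 0 < (Z⁻¹ • F) x := fun x => mul_pos zi (hF x)
  have f1 : mean (prob w) (Z⁻¹ • F) = 1 := by rw [mean_smul, inv_mul_cancel₀ z0.ne']
  have k := hP (Z⁻¹ • F) ⟨f0, f1, fun x => by
    rw [Pi.smul_apply, smul_eq_mul, inv_mul_le_iff₀ z0]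
    refine (h2 x).trans (le_trans ?_ (mul_le_mul_of_nonneg_right z1 (exp_pos _).le))
    rw [← exp_add]; exact exp_le_exp.2 (by linarith)⟩
  have d := Df_le hw f0 f1
  have d0 := D3_nonneg hw f0
  have d1 : θ * Df (dn w (Z⁻¹ • F)) w ≤ D3 w (Z⁻¹ • F) / 4 :=
    (mul_le_mul_of_nonneg_left d θ0).trans (mul_le_of_le_one_left (by linarith) θ1)
  have e : (E.mean w fun x => (Z⁻¹ • F) x * Q x) = Z⁻¹ * mean (prob w) fun x => F x * Q x := by
    rw [← mean_const_mul]; exact mean_congr fun x => mul_assoc _ _ _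
  rw [eent_eq, ent_smul, II_smul hw hF zi, e] at k
  rw [D3_smul hF zi] at d1
  have k2 : Z⁻¹ * (2 * a * ent (prob w) F) ≤ Z⁻¹ * (II w F + D3 w F / 4 +
      mean (prob w) (fun x => F x * Q x) + N * Z) := by
    have : Z⁻¹ * (N * Z) = N := by field_simp
    linarith
  exact le_of_mul_le_mul_left k2 zi

/-- **linearisation** -/
theorem core (hw : ∀ x, 0 < w x) {v : Cube n → Fin n → ℝ} {l m a θ N σ B : ℝ} {Q : Cube n → ℝ}
    (hl : l ≤ 1 / 2) (hv : ∀ x j, |v x j| ≤ l) (hm : 3 * l * n ≤ m) (ha : 0 ≤ a) (θ0 : 0 ≤ θ)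
    (θ1 : θ ≤ 1) (hP : ∀ f, Warm w m f → 2 * a * E.ent w f ≤
      II w f + (θ * Df (dn w f) w + E.mean w fun x => f x * Q x) + N)
    (s0 : 0 < σ) (s1 : σ ≤ 1) (hs : ∀ x i, ∑ j, (v (fl x i) j - v x j) ^ 2 ≤ σ ^ 2)
    (hB : ∀ x, mean (prob w) (fun y => exp (v x ⬝ᵥ v y)) ≤ 1 + B) :
    a * mean (prob w) (fun x => v x ⬝ᵥ v x) ≤ (1 + 2 * l) * ∑ j, dir w (fun x => v x j) +
      180 * n * σ ^ 3 + mean (prob w) Q + N + 2 * a * B := by
  have hp := isP_prob' hw
  have hu : IsP (un n) := isP_un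
  have hv' := fun x j => (hv x j).trans hl
  have L0 := fun x g => Lk_pos (hv' x) g
  have k := hu.mean_mono fun g => hom hw (F := fun x => Lk (v x) g) θ0 θ1 hP
    (fun x => (Lk_le hl (hv x) g).1) (fun x => (Lk_le hl (hv x) g).2) (by linarith)
  have e1 : mean (un n) (fun g => mean (prob w) fun x => Lk (v x) g) = 1 := by
    rw [mean_comm]
    exact (mean_congr fun x => mean_Lk_one (hv' x)).trans (hp.mean_const 1)
  have e2 : mean (un n) (fun g => mean (prob w) fun x => Lk (v x) g * Q x) = mean (prob w) Q := by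
    rw [mean_comm]
    exact mean_congr fun x => by rw [mean_mul_const, mean_Lk_one (hv' x), one_mul]
  have e3 : mean (un n) (fun g => D3 w fun x => Lk (v x) g) ≤ n * (720 * σ ^ 3) := by
    simp only [D3]
    rw [mean_sum']
    refine (sum_le_card_nsmul _ _ (720 * σ ^ 3) fun i _ => ?_).trans_eq (by simp)
    rw [mean_comm]
    exact (hp.mean_mono fun x => cube_Lk (hv' x) (hv' _) s0 s1 (hs x i)).trans_eq (hp.mean_const _)
  have e4 : mean (un n) (fun g => II w fun x => Lk (v x) g) ≤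
      (1 + 2 * l) * ∑ j, dir w (fun x => v x j) := by
    simp only [II, dir_eq_dir2', dir2_fl hw]
    rw [mean_sum', sum_comm, mul_sum]
    refine sum_le_sum fun i _ => ?_
    rw [mean_comm, ← mean_sum', ← mean_const_mul]
    refine hp.mean_mono fun x => ?_
    rw [mean_const_mul, ← mul_sum, mul_left_comm]
    refine mul_le_mul_of_nonneg_left ((sym_Lk hl (hv x) (hv _)).trans_eq ?_) (sq_nonneg _)
    simp only [sq]
  have e5 : mean (prob w) (fun x => v x ⬝ᵥ v x) / 2 ≤
      mean (un n) fun g => mean (prob w) fun x => Lk (v x) g * log (Lk (v x) g) := by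
    rw [mean_comm, div_eq_mul_inv, ← mean_mul_const]
    exact hp.mean_mono fun x => info_ge (hv' x)
  have e6 : mean (un n) (fun g => mean (prob w) (fun x => Lk (v x) g) *
      log (mean (prob w) fun x => Lk (v x) g)) ≤ B := by
    have b1 : mean (un n) (fun g => mean (prob w) fun x => mean (prob w) fun y =>
        Lk (v x) g * Lk (v y) g) ≤ 1 + B := by
      rw [mean_comm]
      refine (hp.mean_mono fun x => ?_).trans_eq (hp.mean_const _)
      rw [mean_comm]
      exact (hp.mean_mono fun y => two_le (hv' x) (hv' y)).trans (hB x)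
    simp only [mean_const_mul, mean_mul_const] at b1
    refine (hu.mean_mono (g := fun g => mean (prob w) (fun x => Lk (v x) g) *
      mean (prob w) (fun x => Lk (v x) g) - mean (prob w) fun x => Lk (v x) g) fun g => ?_).trans ?_
    · have z := mean_pos hp fun x => L0 x g
      nlinarith [mul_le_mul_of_nonneg_left (log_le_sub_one_of_pos z) z.le]
    · rw [mean_sub', e1]; linarith
  simp only [ent_eq, mean_add', mean_const_mul, mean_sub', div_eq_mul_inv, mean_mul_const, e1,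
    e2] at k
  nlinarith [mul_le_mul_of_nonneg_left e5 ha, mul_le_mul_of_nonneg_left e6 ha]

end Crest.Agent.T157.S6s

end
end

-- ▼ part T157/S6SC_22
section

/-!
# Row 157, part B, block S6, (S), part 3 (helper22): decay of the mean autocorrelation
-/

set_option autoImplicit false

noncomputable section

namespace Crest.Agent.T157.S6s

open Finset Matrix Real Filter
open Crest.ProbabilityR.SpinGlassDynamics
open Crest.Agent.T157.Chain22 Crest.Agent.T157.Ent
open Crest.Agent.T157.E (Cube prob siteM dir dir2 sv gen mag)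
open Crest.Agent.T157.Rec (grad fl GR)
open Crest.Agent.T157.Rv (Warm II)
open Crest.Agent.T157.B (Df dn)
open Crest.Agent.T157.Top (Whp)

variable {n : ℕ} {w : Cube n → ℝ}

/-- mean autocorrelation -/
def Cw (w : Cube n → ℝ) (v : ℝ) : ℝ :=
  (∑ a, mean (prob w) fun x => sv x a * sg w v (fun z => sv z a) x) / n
/-- mean energy -/
def Ew (w : Cube n → ℝ) (v : ℝ) : ℝ := (∑ a, dir w (sg w v fun z => sv z a)) / n

theorem hd_ip (hn : 0 < n) (hw : ∀ x, 0 < w x) (g f : Cube n → ℝ) (v : ℝ) :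
    HasDerivAt (fun u => ip (prob w) g (sg w u f)) (ip (prob w) g (gen w (sg w v f))) v :=
  HasDerivAt.fun_sum fun x _ => ((hasDerivAt_sg hn hw f x v).const_mul _).const_mul _

theorem ip_half (hn : 0 < n) (hw : ∀ x, 0 < w x) (f : Cube n → ℝ) (v : ℝ) :
    ip (prob w) f (sg w v f) = ip (prob w) (sg w (v / 2) f) (sg w (v / 2) f) := by
  rw [← ip_sg_symm hn hw, ← sg_add hn hw, add_halves]

theorem dir2_half (hn : 0 < n) (hw : ∀ x, 0 < w x) (f : Cube n → ℝ) (v : ℝ) :
    dir2 w f (sg w v f) = dir w (sg w (v / 2) f) := by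
  rw [dir_eq_dir2', dir2_eq_gen hw, dir2_eq_gen hw, ← ip_sg_symm hn hw,
    ← funext (Rec.gen_sg hn hw (v / 2) _), ← sg_add hn hw, add_halves]

theorem hd_Cw (hn : 0 < n) (hw : ∀ x, 0 < w x) (v : ℝ) : HasDerivAt (Cw w) (-Ew w (v / 2)) v := by
  refine ((HasDerivAt.fun_sum fun a _ => hd_ip hn hw (fun z => sv z a) (fun z => sv z a) v).div_const
    (n : ℝ)).congr_deriv ?_
  simp only [Ew, ← dir2_half hn hw, dir2_eq_gen hw, sum_neg_distrib, neg_div, neg_neg]

theorem cont_Ew (hn : 0 < n) (hw : ∀ x, 0 < w x) : Continuous fun v => Ew w (v / 2) := by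
  simp only [Ew, ← dir2_half hn hw, dir2_eq_gen hw, funext (Rec.gen_sg hn hw _ _)]
  exact (continuous_finsetSum _ fun a _ => (continuous_iff_continuousAt.2 fun v =>
    (hd_ip hn hw _ _ v).continuousAt).neg).div_const _

theorem Cw_eq (hn : 0 < n) (hw : ∀ x, 0 < w x) (v : ℝ) : n * Cw w v = mean (prob w) fun x =>
    (fun a => sg w (v / 2) (fun z => sv z a) x) ⬝ᵥ fun a => sg w (v / 2) (fun z => sv z a) x := by
  have n0 : (n : ℝ) ≠ 0 := by exact_mod_cast hn.ne'
  rw [Cw, mul_div_cancel₀ _ n0]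
  simp only [dotProduct, mean_sum']
  exact sum_congr rfl fun a _ => ip_half hn hw _ v

theorem Cw_nonneg (hn : 0 < n) (hw : ∀ x, 0 < w x) (v : ℝ) : 0 ≤ Cw w v := by
  have n0 : (0 : ℝ) < n := by exact_mod_cast hn
  refine le_of_mul_le_mul_left ?_ n0
  rw [mul_zero, Cw_eq hn hw]
  exact (isP_prob' hw).mean_nonneg fun x => Eig.dot_self_nonneg _

theorem Cw_zero (hn : 0 < n) (hw : ∀ x, 0 < w x) : Cw w 0 = 1 := by
  have n0 : (n : ℝ) ≠ 0 := by exact_mod_cast hn.ne'
  simp [Cw, sg_zero hn hw, Rec.sv_mul_self, (isP_prob' hw).mean_const, n0]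

theorem Ew_nonneg (hw : ∀ x, 0 < w x) (v : ℝ) : 0 ≤ Ew w v :=
  div_nonneg (sum_nonneg fun _ _ => dir_nonneg hw _) (Nat.cast_nonneg _)

theorem Ew_anti (hn : 0 < n) (hw : ∀ x, 0 < w x) {s t : ℝ} (h : s ≤ t) : Ew w t ≤ Ew w s :=
  div_le_div_of_nonneg_right (sum_le_sum fun _ _ => Rec.dir_sg_anti hn hw h _) (Nat.cast_nonneg _)

theorem Ew_le_one (hn : 0 < n) (hw : ∀ x, 0 < w x) {v : ℝ} (hv : 0 ≤ v) : Ew w v ≤ 1 := by
  have n0 : (0 : ℝ) < n := by exact_mod_cast hn
  refine (Ew_anti hn hw hv).trans ?_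
  rw [Ew, div_le_one n0]
  refine (sum_le_card_nsmul _ _ 1 fun a _ => ?_).trans_eq (by simp)
  rw [sg_zero hn hw]
  refine (Rec.dir_le_grad hw _).trans_eq ((mean_congr fun x => ?_).trans
    ((isP_prob' hw).mean_const 1))
  simp [dotProduct, Da.Gr.grad_sv]

theorem gron {f f' : ℝ → ℝ} {b ε T : ℝ} (hd : ∀ v, HasDerivAt f (f' v) v) (h0 : f 0 ≤ 1)
    (hε : 0 ≤ ε) (h : ∀ v ∈ Set.Icc 0 T, f' v ≤ -(b * (f v - ε))) :
    ∀ v ∈ Set.Icc 0 T, f v ≤ exp (-(b * v)) + ε := fun v hv => by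
  have d : ∀ u, HasDerivAt (fun u => exp (b * u) * (f u - ε))
      (exp (b * u) * (b * (f u - ε) + f' u)) u := fun u =>
    (((hasDerivAt_id' u).const_mul b).exp.mul ((hd u).sub_const ε)).congr_deriv (by ring)
  have := antitoneOn_of_deriv_nonpos (convex_Icc 0 T)
    (fun q _ => (d q).continuousAt.continuousWithinAt)
    (fun q _ => (d q).differentiableAt.differentiableWithinAt) (fun u hu => by
      rw [(d u).deriv]
      exact mul_nonpos_of_nonneg_of_nonpos (exp_pos _).le (by linarith [h u (interior_subset hu)]))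
    (Set.left_mem_Icc.2 (hv.1.trans hv.2)) hv hv.1
  simp only [mul_zero, exp_zero, one_mul] at this
  rw [exp_neg, ← sub_le_iff_le_add, ← one_div, le_div_iff₀' (exp_pos _)]
  linarith

/-- gradients of the linear combinations of `P_r s_j` -/
theorem grad_comb (hn : 0 < n) (hw : ∀ x, 0 < w x) {C r : ℝ} (hG : GR w C) (hr : 0 ≤ r)
    (c : Fin n → ℝ) (x : Cube n) :
    grad (fun y => c ⬝ᵥ fun j => sg w r (fun z => sv z j) y) x ⬝ᵥ
      grad (fun y => c ⬝ᵥ fun j => sg w r (fun z => sv z j) y) x ≤ exp (C * r) * (c ⬝ᵥ c) := by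
  have e : (fun y => c ⬝ᵥ fun j => sg w r (fun z => sv z j) y) = sg w r fun z => c ⬝ᵥ sv z :=
    funext fun y => by simp only [dotProduct, Rec.sg_sum, Rec.sg_const_mul]
  have := hG r hr (fun z => c ⬝ᵥ sv z) x
  simp only [Rec.grad_lin, Rec.sg_const hn hw] at this
  rwa [e]

/-- **deterministic form of (S)**; `n = y ^ 16` -/
theorem dec (hn : 0 < n) (hw : ∀ x, 0 < w x) {C K y a a0 θ T D : ℝ} {Q : Cube n → ℝ} (hG : GR w C)
    (hC : 0 ≤ C) (hA : AT w K 0) (hK : 0 ≤ K) (hm : mag w = 0) (hy : (n : ℝ) = y ^ 16) (y3 : 3 ≤ y)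
    (yK : 4 * K ≤ y) (hT : exp (C * T) ≤ y ^ 2) (a0p : 0 < a0) (haa : a0 * (1 + 2 / y) ≤ a)
    (θ0 : 0 ≤ θ) (θ1 : θ ≤ 1) (hP : ∀ f, Warm w (y ^ 12) f → 2 * a * E.ent w f ≤
      II w f + (θ * Df (dn w f) w + E.mean w fun x => f x * Q x) + y)
    (hD : 0 ≤ D) (hQ : mean (prob w) Q ≤ D * y) :
    ∀ v ∈ Set.Icc 0 T, Cw w v ≤ exp (-(a0 * v)) + (1441 + D + 4 * a) / (a0 * y) := by
  have hp := isP_prob' hw
  have y0 : 0 < y := by linarith
  have y1 : 1 ≤ y := by linarith
  have pw : ∀ i j : ℕ, i ≤ j → y ^ i ≤ y ^ j := fun i j h => pow_le_pow_right₀ y1 h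
  have a0' : 0 ≤ a := le_trans (by positivity) haa
  refine gron (hd_Cw hn hw) (Cw_zero hn hw).le (by positivity) fun v hv => ?_
  set u : Cube n → Fin n → ℝ := fun x j => sg w (v / 2) (fun z => sv z j) x with hu
  have r0 : 0 ≤ v / 2 := by linarith [hv.1]
  have g1 : ∀ (c : Fin n → ℝ) x, grad (fun y => c ⬝ᵥ u y) x ⬝ᵥ grad (fun y => c ⬝ᵥ u y) x ≤
      y ^ 2 * (c ⬝ᵥ c) := fun c x => (grad_comb hn hw hG r0 c x).trans
    (mul_le_mul_of_nonneg_right ((exp_le_exp.2 (mul_le_mul_of_nonneg_left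
      (by linarith [hv.1, hv.2]) hC)).trans hT) (Eig.dot_self_nonneg _))
  have u1 : ∀ x j, |u x j| ≤ 1 := fun x j => (isP_hbCt hn hw r0 x).abs_mean_le fun z =>
    (abs_eq_abs.2 (mul_self_eq_one_iff.1 (Rec.sv_mul_self z j))).trans_le abs_one.le
  have u2 : ∀ x, u x ⬝ᵥ u x ≤ y ^ 16 := fun x => by
    rw [← hy]
    exact (sum_le_card_nsmul _ _ 1 fun j _ => abs_le_one_iff_mul_self_le_one.1 (u1 x j)).trans_eq
      (by simp)
  have u3 : ∀ x i, ∑ j, (u (fl x i) j - u x j) ^ 2 ≤ 4 * y ^ 2 := fun x i => by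
    set d := u (fl x i) - u x with hd
    have h1 := (single_le_sum (f := fun k => grad (fun y => d ⬝ᵥ u y) x k *
      grad (fun y => d ⬝ᵥ u y) x k) (fun _ _ => mul_self_nonneg _) (mem_univ i)).trans (g1 d x)
    have h2 : grad (fun y => d ⬝ᵥ u y) x i = -(sv x i * (d ⬝ᵥ d) / 2) := by
      rw [Rec.grad_eq, ← dotProduct_sub, ← neg_sub, dotProduct_neg]; ring
    have h3 : ∑ j, (u (fl x i) j - u x j) ^ 2 = d ⬝ᵥ d := by simp only [dotProduct, sq, hd, Pi.sub_apply]
    have h4 := Rec.sv_mul_self x i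
    have h5 := Eig.dot_self_nonneg d
    rw [h3]
    rw [h2] at h1
    by_contra hc
    nlinarith [mul_pos (lt_of_le_of_lt (by positivity) (not_le.1 hc)) (sub_pos.2 (not_le.1 hc))]
  have l0 : 0 < 1 / y ^ 7 := by positivity
  have l1 : 1 / y ^ 7 ≤ 1 / y := one_div_le_one_div_of_le y0 (by simpa using pw 1 7 (by norm_num))
  have l2 : 1 / y ≤ 1 / 2 := one_div_le_one_div_of_le two_pos (by linarith)
  have k := core hw (v := fun x => (1 / y ^ 7) • u x) (l := 1 / y ^ 7) (σ := 2 / y ^ 6) (B := 2)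
    (l1.trans l2) (fun x j => by
      rw [Pi.smul_apply, smul_eq_mul, abs_mul, abs_of_pos l0]
      exact mul_le_of_le_one_right l0.le (u1 x j))
    (by rw [hy, show 3 * (1 / y ^ 7) * y ^ 16 = 3 * y ^ 9 by field_simp]
        nlinarith [pw 9 11 (by norm_num), pow_pos y0 11])
    a0' θ0 θ1 hP (by positivity)
    (by rw [div_le_one (by positivity)]; linarith [pw 1 6 (by norm_num)])
    (fun x i => by
      simp only [Pi.smul_apply, smul_eq_mul, ← mul_sub, mul_pow, ← mul_sum]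
      exact (mul_le_mul_of_nonneg_left (u3 x i) (by positivity)).trans_eq (by field_simp; ring))
    fun x => by
      have h1 := S3.Hb.mgf_le_grad hw hK hA (F := fun z => u x ⬝ᵥ u z) (A := y ^ 2 * y ^ 16)
        (fun z => (g1 _ z).trans (mul_le_mul_of_nonneg_left (u2 x) (by positivity)))
        ((1 / y ^ 7) ^ 2)
      have h2 : mean (prob w) (fun z => u x ⬝ᵥ u z) = 0 := by
        simp only [dotProduct, mean_sum', mean_const_mul]
        exact sum_eq_zero fun j _ => by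
          rw [show mean (prob w) (fun z => u z j) = 0 from (mean_sg hn hw _ _).trans (congrFun hm j),
            mul_zero]
      simp only [smul_dotProduct, dotProduct_smul, smul_eq_mul, ← mul_assoc, ← sq]
      refine h1.trans ((exp_le_exp.2 (show _ ≤ 1 from ?_)).trans (by linarith [exp_one_lt_d9]))
      rw [h2, mul_zero, zero_add, show 4 * K * (y ^ 2 * y ^ 16) * ((1 / y ^ 7) ^ 2) ^ 2 =
        4 * K / y ^ 10 by field_simp, div_le_one (by positivity)]
      linarith [pw 1 10 (by norm_num)]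
  have e1 : mean (prob w) (fun x => ((1 / y ^ 7) • u x) ⬝ᵥ ((1 / y ^ 7) • u x)) =
      y ^ 2 * Cw w v := by
    simp only [smul_dotProduct, dotProduct_smul, smul_eq_mul, mean_const_mul]
    rw [← Cw_eq hn hw, hy]; field_simp
  have e2 : ∑ j, dir w (fun x => ((1 / y ^ 7) • u x) j) = y ^ 2 * Ew w (v / 2) := by
    have : ∀ j, dir w (fun x => ((1 / y ^ 7) • u x) j) = (1 / y ^ 7) ^ 2 * dir w fun x => u x j :=
      fun j => by
        rw [dir_eq_D hn hw, dir_eq_D hn hw, mul_left_comm, ← RC.D_smul]; rfl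
    simp only [this, ← mul_sum]
    rw [Ew, hy]; field_simp; rfl
  rw [e1, e2, hy, show 180 * y ^ 16 * (2 / y ^ 6) ^ 3 = 1440 / y ^ 2 by field_simp; norm_num] at k
  have b1 : 1440 / y ^ 2 ≤ 1440 * y := (div_le_self (by norm_num) (one_le_pow₀ y1)).trans (by linarith)
  have b2 : 4 * a ≤ 4 * a * y := le_mul_of_one_le_right (by linarith) y1
  have c0 := Cw_nonneg hn hw v
  have e0 := Ew_nonneg hw (v / 2)
  have k2 : a * Cw w v ≤ (1 + 2 / y) * Ew w (v / 2) + (1441 + D + 4 * a) / y := by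
    refine le_of_mul_le_mul_left ?_ (pow_pos y0 2)
    have b3 := mul_le_mul_of_nonneg_right l1 (mul_nonneg (sq_nonneg y) e0)
    have : y ^ 2 * ((1 + 2 / y) * Ew w (v / 2) + (1441 + D + 4 * a) / y) =
      (1 + 2 * (1 / y)) * (y ^ 2 * Ew w (v / 2)) + (1441 + D + 4 * a) * y := by field_simp
    rw [this]; linarith
  have k3 : (1 + 2 / y) * (a0 * Cw w v) ≤ (1 + 2 / y) * (Ew w (v / 2) + (1441 + D + 4 * a) / y) := by
    have : 0 ≤ 2 / y * ((1441 + D + 4 * a) / y) := by positivity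
    nlinarith [mul_le_mul_of_nonneg_right haa c0]
  have k4 := le_of_mul_le_mul_left k3 (by positivity)
  have : a0 * ((1441 + D + 4 * a) / (a0 * y)) = (1441 + D + 4 * a) / y := by field_simp
  linarith

/-- **(S)** -/
theorem whp_S (hA : Rv.At0) {β l : ℝ} {𝒬 : Set B.Ob} (b0 : 0 ≤ β) (b1 : β < 1) (hE : B.Eq0 β 𝒬)
    (hS : B.Stat0 β l 𝒬) {a : ℝ} (a0 : 0 < a) (a1 : a < l) : ∃ δ > (0 : ℝ), Whp disorderLaw
    fun n g => ∀ v ∈ Set.Icc 0 (δ * log n),
      Cw (gibbsWeight n β g) v ≤ exp (-(a * v)) + (n : ℝ) ^ (-(1 / 32 : ℝ)) := by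
  obtain ⟨K, hK, hA⟩ := hA β b0 b1
  obtain ⟨C, hC, hG⟩ := Low.whp_gr β
  obtain ⟨m, Q, D, θ, q, D0, θ0, θ1, -, hP⟩ := hS ((a + l) / 2) (by linarith) (by linarith)
    (1 / 4) (by norm_num) (1 / 16) (by norm_num)
  have hQ := Whp.fintype fun k => hE _ (q k) (1 / 16) (by norm_num)
  refine ⟨1 / (8 * (C + 1)), by positivity, (hA.and (hG.and (hQ.and hP))).mono ?_⟩
  have s16 : (0 : ℝ) < 1 / 16 := by norm_num
  filter_upwards [eventually_gt_atTop 0, Rv.ev_le 3 s16, Rv.ev_le (4 * K) s16,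
    Rv.ev_le (4 * a / (l - a)) s16, B.ev_mul ((1441 + D * m + 4 * ((a + l) / 2)) / a)
      (show (1 / 32 : ℝ) < 1 / 16 by norm_num)] with n hn y3 yK ya yD g hg v hv
  obtain ⟨g1, g2, g3, g4⟩ := hg
  have n0 : (0 : ℝ) < n := by exact_mod_cast hn
  have pw : ∀ k : ℕ, ((n : ℝ) ^ (1 / 16 : ℝ)) ^ k = (n : ℝ) ^ (k / 16 : ℝ) := fun k => by
    rw [← rpow_natCast, ← rpow_mul n0.le]; congr 1; ring
  have y0 : 0 < (n : ℝ) ^ (1 / 16 : ℝ) := by positivity
  refine (dec hn (E.gibbsWeight_pos β g) (y := (n : ℝ) ^ (1 / 16 : ℝ)) (a := (a + l) / 2)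
    (T := 1 / (8 * (C + 1)) * log n) (D := D * m) (Q := fun x => D * ∑ k, Q k n g x) g2 hC g1 hK.le
    (by rw [E.gibbsWeight_eq_ising]; exact TopL.mag_ising_zero _) (by rw [pw]; norm_num) y3 yK ?_
    a0 ?_ θ0 θ1 (fun f hf => ?_) (by positivity) ?_ v hv).trans (add_le_add le_rfl ?_)
  · rw [pw, Rv.rp hn, exp_le_exp, ← mul_assoc]
    refine mul_le_mul_of_nonneg_right ?_ (log_natCast_nonneg n)
    rw [mul_one_div, div_le_iff₀ (by positivity)]; push_cast; linarith
  · rw [div_le_iff₀ (sub_pos.2 a1)] at ya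
    have : a * (2 / (n : ℝ) ^ (1 / 16 : ℝ)) ≤ (l - a) / 2 := by
      rw [← mul_div_assoc, div_le_iff₀ y0]; linarith
    linarith
  · have := g4 f (by rw [pw] at hf; convert hf using 2; norm_num)
    refine this.trans_eq ?_
    simp only [B.DfF, B.Mom, emean_eq, mul_left_comm _ D, mul_sum, mean_sum', mean_const_mul]
  · rw [mean_const_mul, mean_sum', mul_assoc]
    exact mul_le_mul_of_nonneg_left ((sum_le_card_nsmul _ _ _ fun k _ => g3 k).trans_eq (by simp)) D0
  · rw [← div_div, div_le_iff₀ y0, rpow_neg n0.le, ← div_eq_inv_mul,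
      le_div_iff₀ (by positivity)]
    exact yD

/-- from the autocorrelation to the energy -/
theorem Ew_le (hn : 0 < n) (hw : ∀ x, 0 < w x) {a e τ v : ℝ} (a0 : 0 ≤ a) (a1 : a ≤ 1) (he : 0 ≤ e)
    (h : ∀ v ∈ Set.Icc 0 (2 * τ), Cw w v ≤ exp (-(a * v)) + e) (hv : v ∈ Set.Icc 0 τ) :
    Ew w v ≤ 3 * exp (-(2 * a * v)) + e := by
  have e3 : ∀ s, s ≤ 1 - 2 * a * v → exp s ≤ 3 * exp (-(2 * a * v)) := fun s hs => by
    refine (exp_le_exp.2 hs).trans ?_
    rw [sub_eq_add_neg, exp_add]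
    exact mul_le_mul_of_nonneg_right (by linarith [exp_one_lt_d9]) (exp_pos _).le
  rcases le_total (2 * v) 1 with h1 | h1
  · have := e3 0 (by nlinarith [hv.1])
    rw [exp_zero] at this
    linarith [Ew_le_one hn hw hv.1]
  obtain ⟨u, hu, e1⟩ := exists_hasDerivAt_eq_slope (Cw w) (fun u => -Ew w (u / 2))
    (show 2 * v - 1 < 2 * v by linarith)
    (fun s _ => (hd_Cw hn hw s).continuousAt.continuousWithinAt) fun s _ => hd_Cw hn hw s
  have b1 := Ew_anti hn hw (show u / 2 ≤ v by linarith [hu.2])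
  have b2 := h (2 * v - 1) ⟨by linarith, by linarith [hv.2]⟩
  have b3 := e3 (-(a * (2 * v - 1))) (by linarith)
  have b4 := Cw_nonneg hn hw (2 * v)
  rw [sub_sub_cancel, div_one] at e1
  linarith

/-- weighted integral of the kernel -/
theorem int_Ew_le (hn : 0 < n) (hw : ∀ x, 0 < w x) {a σ e v : ℝ} (s0 : 0 ≤ σ) (s1 : σ < a)
    (he : 0 ≤ e) (hv : 0 ≤ v) (h : ∀ u ∈ Set.Icc 0 v, Cw w u ≤ exp (-(a * u)) + e) :
    ∫ u in (0 : ℝ)..v, Ew w (u / 2) * exp (σ * u) ≤ a / (a - σ) + e * exp (σ * v) := by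
  have s2 := sub_pos.2 s1
  have d : ∀ u, HasDerivAt (fun u => (e - Cw w u) * exp (σ * u) -
      σ / (a - σ) * exp (-((a - σ) * u))) (Ew w (u / 2) * exp (σ * u) +
        σ * (exp (σ * u) * (exp (-(a * u)) + e - Cw w u))) u := fun u => by
    refine ((((hd_Cw hn hw u).const_sub e).mul ((hasDerivAt_id' u).const_mul σ).exp).sub
      (((hasDerivAt_id' u).const_mul (a - σ)).neg.exp.const_mul (σ / (a - σ)))).congr_deriv ?_
    have : exp (-((a - σ) * u)) = exp (σ * u) * exp (-(a * u)) := by rw [← exp_add]; congr 1; ring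
    simp only [Pi.neg_apply, this]
    field_simp
    ring
  have c1 : Continuous fun u => Ew w (u / 2) * exp (σ * u) := (cont_Ew hn hw).mul (by fun_prop)
  have c0 : Continuous (Cw w) := continuous_iff_continuousAt.2 fun u => (hd_Cw hn hw u).continuousAt
  have c2 : Continuous fun u => Ew w (u / 2) * exp (σ * u) +
      σ * (exp (σ * u) * (exp (-(a * u)) + e - Cw w u)) := c1.add (by fun_prop)
  refine (intervalIntegral.integral_mono_on hv (c1.intervalIntegrable _ _)
    (c2.intervalIntegrable _ _) fun u hu => le_add_of_nonneg_right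
      (mul_nonneg s0 (mul_nonneg (exp_pos _).le (by linarith [h u hu])))).trans ?_
  rw [intervalIntegral.integral_eq_sub_of_hasDerivAt (fun u _ => d u) (c2.intervalIntegrable _ _)]
  have b1 := mul_nonneg (Cw_nonneg hn hw v) (exp_pos (σ * v)).le
  have b2 : 0 ≤ σ / (a - σ) * exp (-((a - σ) * v)) := by positivity
  have b3 : a / (a - σ) = 1 + σ / (a - σ) := by field_simp; ring
  simp only [Cw_zero hn hw, mul_zero, neg_zero, exp_zero, mul_one]
  linarith

end Crest.Agent.T157.S6s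

end
end

-- ▼ part T157/S6S_22
section

/-!
# Row 157, part B, block S6 (helper22): `S6.sStmt`, `S6.rhoStmt`
-/

set_option autoImplicit false

noncomputable section

namespace Crest.Agent.T157.S6

open Matrix Real Finset
open Crest.Agent.T157.E hiding mean
open Crest.Agent.T157.Reg Crest.Agent.T157.S6s
open Crest.Agent.T157.Tap (V Mx)
open Crest.Agent.T157.Rec (grad)
open Crest.Agent.T157.Da.Gr (tt)
open Crest.Agent.T157.Chain22 (sg mean)

variable {n : ℕ} {W : Mx n}

theorem dir2_grad22 (hW : Wᵀ = W) (f g : Cube n → ℝ) : dir2 (mu W) f g =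
    mean (prob (mu W)) fun x => ∑ k, cc W x k * (grad f x k * grad g x k) := by
  have e : 4 * dir2 (mu W) f g =
      dir (mu W) (fun y => f y + g y) - dir (mu W) fun y => f y - g y := by
    simp only [dir2, dir, siteM, mul_sum, ← sum_sub_distrib]
    exact sum_congr rfl fun i _ => sum_congr rfl fun y _ => by ring
  rw [Bas66.dir_eq hW, Bas66.dir_eq hW, ← Ent.mean_sub'] at e
  refine mul_left_cancel₀ (four_ne_zero (α := ℝ)) (e.trans ?_)
  rw [← Ent.mean_const_mul]
  refine Ent.mean_congr fun x => ?_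
  simp only [Rec.grad_add, Rec.grad_sub, Pi.add_apply, Pi.sub_apply, mul_sum, ← sum_sub_distrib, cc]
  exact sum_congr rfl fun k _ => by ring

/-- the kernel is the energy at half time -/
theorem rho_eq22 (hn : 0 < n) (hW : Wᵀ = W) (β v : ℝ) : rho β W v = β ^ 2 * Ee W (v / 2) := by
  have hw : ∀ x, 0 < mu W x := Da.Gr.ising_pos W 0
  unfold rho Ee vr
  simp only [← dir2_half hn hw, dir2_grad22 hW, Da.Gr.grad_sv, div_eq_mul_inv _ (n : ℝ),
    Ent.mean_mul_const, ← Ent.mean_sum', ite_mul, one_mul, zero_mul, mul_ite, mul_zero,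
    sum_ite_eq', mem_univ, if_true, Mg, of_apply]

theorem rhoStmt : RhoStmt := fun n W β hn hW => by
  have hw : ∀ x, 0 < mu W x := Da.Gr.ising_pos W 0
  have e : rho β W = fun v => β ^ 2 * Ew (mu W) (v / 2) := funext (rho_eq22 hn hW β)
  rw [e]
  refine ⟨continuous_const.mul (cont_Ew hn hw), fun v hv => ⟨mul_nonneg (sq_nonneg _)
    (Ew_nonneg hw _), mul_le_of_le_one_right (sq_nonneg _) (Ew_le_one hn hw (by linarith))⟩,
    fun a σ ε τ s0 s1 a1 e0 h v hv => ⟨Ew_le hn hw (by linarith) a1 e0 h hv, ?_⟩⟩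
  simp only [mul_assoc, intervalIntegral.integral_const_mul]
  exact mul_le_mul_of_nonneg_left (int_Ew_le hn hw s0 s1 e0 hv.1 fun u hu =>
    h u ⟨hu.1, by linarith [hu.1, hu.2, hv.2]⟩) (sq_nonneg _)

theorem sStmt : SStmt := fun hA β l _ b0 b1 _ _ hE hS a a0 a1 => by
  obtain ⟨δ, d0, h⟩ := whp_S hA b0.le b1 hE hS a0 a1
  refine ⟨1 / 32, by norm_num, δ, d0, h.imp fun n g hg v hv => ?_⟩
  have := hg v hv
  rwa [gibbsWeight_eq_ising] at this

end Crest.Agent.T157.S6

end
end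

-- ▼ part T157/S6Fa_43

/-!
# Row 157, block S6 (helper43): the facts (C), (G) in the words of the first half
-/

set_option autoImplicit false

noncomputable section

namespace Crest.Agent.T157.S6a

open Matrix Real Filter Finset
open Crest.Agent.T157.E Crest.Agent.T157.Eig
open Crest.Agent.T157.Tap (V Mx)
open Crest.Agent.T157.Rec (grad fl grad_eq sv_mul_self)
open Crest.Agent.T157.Reg (VF mu am jac Nice)

namespace Fa43

variable {n : ℕ} {W : Mx n} {ρ : ℝ → ℝ} {v o ε : ℝ} {x : Cube n} {T : Finset (Fin n)}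

theorem hess (f : Cube n → ℝ) (x : Cube n) (i j : Fin n) :
    grad f (fl x i) j - grad f x j = -2 * sv x i * grad (fun z => grad f z i) x j := by
  by_cases h : i = j
  · subst h
    rw [grad_eq (fun z => grad f z i), Reg.Bas66.grad_fl]; ring
  · have e : ∀ {a b : Fin n}, a ≠ b → sv (fl x a) b = sv x b := fun hab => by
      simp only [sv, fl, Function.update_of_ne hab.symm]
    simp only [grad_eq, e h, e (Ne.symm h), S6h.fl_comm x j i]
    linear_combination (sv x j * (f x - f (fl x i) - f (fl x j) + f (fl (fl x i) j)) / 2) *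
      sv_mul_self x i

theorem row_le (M : Mx n) (i : Fin n) : ∑ k, M i k ^ 2 ≤ opn M ^ 2 := by
  simpa only [opn_transpose, transpose_apply] using Da.Gr.row_sq_le Mᵀ i

theorem sum_T (T : Finset (Fin n)) (f : Fin n → ℝ) :
    ∑ k ∈ T, f k = ∑ k, if k ∈ T then f k else 0 := by rw [sum_ite_mem, univ_inter]

theorem loc_of (h1 : opn (S6.Om W ρ T v x) ≤ o) (h2 : ∀ l, ∑ k, S6.Om W ρ T v x l k ^ 2 ≤ ε ^ 2)
    (h3 : ∀ j, ∑ k ∈ T.erase j, (am W x * S6.Om W ρ T v x) j k ^ 2 ≤ ε ^ 2)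
    (h4 : ∀ k ∈ T, |(am W x * S6.Om W ρ T v x) k k - ρ v| ≤ ε)
    (h5 : 2 * opn (S6.Xs W ρ T v x) ≤ ε) : Loc W ρ v x T o ε := by
  have e : ∀ j, ∀ k ∈ T, (am W x * S6.Om W ρ T v x) j k = (am W x * Om W ρ v x) j k :=
    fun j k hk => by simp only [mul_apply, S6.Om, Om, Wk, of_apply, if_pos hk]
  refine ⟨fun w => ?_, fun l => ?_, fun j => ?_, fun k hk => e k k hk ▸ h4 k hk, fun u => ?_⟩
  · have h := (mulVec_dot_le (S6.Om W ρ T v x) fun k => if k ∈ T then w k else 0).trans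
      (mul_le_mul_of_nonneg_right (pow_le_pow_left₀ (opn_nonneg _) h1 2)
        (sum_nonneg fun _ _ => mul_self_nonneg _))
    have e1 : ∀ i, (S6.Om W ρ T v x *ᵥ fun k => if k ∈ T then w k else 0) i =
        ∑ k ∈ T, w k * Om W ρ v x i k := fun i => by
      rw [mulVec, dotProduct, sum_T T]
      refine sum_congr rfl fun k _ => ?_
      by_cases hk : k ∈ T <;> simp [S6.Om, Om, Wk, hk, mul_comm]
    have e2 : ∑ k, (if k ∈ T then w k else 0) * (if k ∈ T then w k else 0) = ∑ k ∈ T, w k ^ 2 := by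
      rw [sum_T T]
      exact sum_congr rfl fun k _ => by split_ifs <;> simp [sq]
    rw [dotProduct, dotProduct, e2] at h
    simpa only [e1, ← sq] using h
  · have h := h2 l
    simpa only [S6.Om, Om, Wk, of_apply, ite_pow, zero_pow two_ne_zero, sum_ite_mem, univ_inter]
      using h
  · exact (sum_congr rfl fun k hk => by rw [e j k (mem_of_mem_erase hk)]).symm.trans_le (h3 j)
  · have h := mulVec_dot_le (S6.Xs W ρ T v x)ᵀ
      fun p => if p.1 ∈ T then -2 * sv x p.2 * u p.1 p.2 else 0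
    have e1 : ∀ j, ((S6.Xs W ρ T v x)ᵀ *ᵥ fun p => if p.1 ∈ T then -2 * sv x p.2 * u p.1 p.2 else 0) j
        = ∑ k ∈ T, ∑ i, jac (Wk W ρ v k) x j i * u k i := fun j => by
      rw [mulVec, dotProduct, Fintype.sum_prod_type, sum_T T]
      refine sum_congr rfl fun k _ => ?_
      by_cases hk : k ∈ T
      · simp only [transpose_apply, S6.Xs, of_apply, if_pos hk, jac, Wk, S6.Yf, hess]
        exact sum_congr rfl fun i _ => by ring
      · simp [hk]
    have e2 : (fun p : Fin n × Fin n => if p.1 ∈ T then -2 * sv x p.2 * u p.1 p.2 else 0) ⬝ᵥ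
        (fun p => if p.1 ∈ T then -2 * sv x p.2 * u p.1 p.2 else 0) =
        4 * ∑ k ∈ T, ∑ i, u k i ^ 2 := by
      rw [dotProduct, Fintype.sum_prod_type, sum_T T, mul_sum]
      refine sum_congr rfl fun k _ => ?_
      by_cases hk : k ∈ T
      · simp only [if_pos hk, mul_sum]
        exact sum_congr rfl fun i _ => by linear_combination (4 * u k i ^ 2) * sv_mul_self x i
      · simp [hk]
    rw [e2, opn_transpose, dotProduct] at h
    simp only [e1, ← sq] at h
    refine h.trans ?_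
    rw [← mul_assoc]
    exact mul_le_mul_of_nonneg_right (by nlinarith [opn_nonneg (S6.Xs W ρ T v x)]) (by positivity)

theorem loc_glob {K L Λ : ℝ} (K0 : 0 < K) (hW : Nice W K) (L1 : 1 ≤ L) (hc : S6.Crude W ρ L v)
    (r0 : 0 ≤ ρ v) (r1 : ρ v ≤ 1) (hΛ : (2 * K + 4 * K ^ 2 + 2) * L ≤ Λ) :
    Loc W ρ v x univ Λ Λ := by
  obtain ⟨h1, h2⟩ := hc univ x
  have h3 := (opn_mul_le _ _).trans (mul_le_mul (S6b.opn_am hW.1 hW.2.1 x) h1 (opn_nonneg _)
    (by positivity))
  have h4 : 0 ≤ (2 * K + 4 * K ^ 2) * L := by positivity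
  have h5 : opn (S6.Om W ρ univ v x) ≤ Λ := by linarith
  refine loc_of h5 (fun l => (row_le _ l).trans (pow_le_pow_left₀ (opn_nonneg _) h5 2))
    (fun j => ((sum_le_sum_of_subset_of_nonneg (subset_univ _) fun _ _ _ => sq_nonneg _).trans
      (row_le _ j)).trans (pow_le_pow_left₀ (opn_nonneg _) (by linarith) 2)) (fun k _ => ?_)
    (by linarith)
  have := abs_le.1 ((abs_entry_le _ k k).trans h3)
  rw [abs_le]; constructor <;> linarith

theorem loc_pt {e b K a : ℝ} (h : S6.Pt W ρ e b T v x) (e0 : 0 ≤ e) (he : 2 * e ≤ ε) (K1 : 1 ≤ K)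
    (hb : b = K * exp (-(2 * a * v))) : Loc W ρ v x T (K * exp (-(a * v)) + ε) ε := by
  have h1 : e ^ 2 ≤ ε ^ 2 := pow_le_pow_left₀ e0 (by linarith) 2
  have h0 : 0 ≤ ε := by linarith
  have K0 : 0 ≤ K := by linarith
  refine loc_of ((pow_le_pow_iff_left₀ (opn_nonneg _) (by positivity) two_ne_zero).1
    (h.op.trans ?_)) (fun l => (h.row l).trans h1) (fun j => (h.hop j).trans h1)
    (fun k hk => (h.th k hk).trans (by linarith)) (by linarith [h.hess])
  have e1 : exp (-(2 * a * v)) = exp (-(a * v)) ^ 2 := by rw [← exp_nat_mul]; congr 1; push_cast; ring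
  have h2 := exp_pos (-(a * v))
  have h3 : 0 ≤ K * exp (-(a * v)) * ε := by positivity
  rw [hb, e1]
  nlinarith [mul_nonneg (mul_nonneg (sub_nonneg.2 K1) (sq_nonneg (exp (-(a * v)))))
    (zero_le_one.trans K1)]

theorem ev_small {c γ : ℝ} (hc : 0 < c) (hγ : 0 < γ) : ∀ᶠ n : ℕ in atTop, (n : ℝ) ^ (-c) ≤ γ :=
  ((tendsto_rpow_neg_atTop hc).comp tendsto_natCast_atTop_atTop).eventually (ge_mem_nhds hγ)

end Fa43

open Fa43

theorem factsGlue : FactsGlue := by
  intro hN hC hR hF β l 𝒬 b0 b1 l0 l1 q1 q2 q3 a a' a0 aa al γ γ0 c c0 c1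
  obtain ⟨K, K0, hN⟩ := hN
  obtain ⟨C, C1, hC⟩ := hC K
  obtain ⟨cF, cF0, δF, δF0, hF⟩ := hF β l a' 𝒬 b0 b1 l0 (l1.trans (by nlinarith)) q1 q2 q3
    (a0.trans aa) al (c / 16) (by positivity)
  refine ⟨min (c / 100) (cF / 2), by positivity, min_le_left _ _, fun κ κ0 =>
    ⟨min (δF / 2) (κ / (2 * C)), by positivity, fun δ δ0 hδ e e0 => (hN.and (hF e e0)).mono ?_⟩⟩
  filter_upwards [eventually_gt_atTop 0, ev_small cF0 γ0, ev_small (half_pos cF0) one_half_pos,
    (tendsto_log_atTop.comp tendsto_natCast_atTop_atTop).eventually_ge_atTop (2 / δF),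
    ((tendsto_rpow_atTop (half_pos κ0)).comp tendsto_natCast_atTop_atTop).eventually_ge_atTop
      ((2 * K + 4 * K ^ 2 + 2) * (C * exp C))] with n n0 h1 h2 h3 h4 g ⟨hW, hi, B, hB, hG⟩
  simp only [Function.comp] at h3 h4
  have n1 : (1 : ℝ) ≤ n := by exact_mod_cast n0
  have np : (0 : ℝ) < n := by linarith
  have lg : 0 ≤ log n := log_nonneg n1
  have hW := hW β b0.le b1.le
  obtain ⟨r1, r2, -⟩ := hR n (β • Jmat n g) β n0 hW.1
  have r3 : ∀ v, 0 ≤ v → 0 ≤ S6.rho β (β • Jmat n g) v ∧ S6.rho β (β • Jmat n g) v ≤ 1 :=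
    fun v hv => ⟨(r2 v hv).1, (r2 v hv).2.trans (by nlinarith)⟩
  have ht : δ * log n + 1 ≤ δF * log n := by
    have := mul_le_mul_of_nonneg_right (hδ.trans (min_le_left _ _)) lg
    rw [div_le_iff₀ δF0] at h3
    linarith
  refine ⟨_, r1, fun v hv => (r3 v hv.1).1, (hi _ (by positivity) (by linarith) _
    ⟨by positivity, ht⟩).trans (add_le_add ?_ h1), fun v hv x => ?_, ?_⟩
  · rw [mul_comm 3]
    exact mul_le_mul_of_nonneg_left ((div_le_iff₀ (by linarith)).2 (by linarith)) (sq_nonneg β)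
  · have h5 : exp (C * v) ≤ exp C * (n : ℝ) ^ (κ / 2) := by
      rw [rpow_def_of_pos np, ← exp_add]
      have h6 := hδ.trans (min_le_right _ _)
      rw [le_div_iff₀ (by positivity)] at h6
      have h7 := mul_le_mul_of_nonneg_left hv.2 (zero_le_one.trans C1)
      exact exp_le_exp.2 (by nlinarith [mul_le_mul_of_nonneg_right h6 lg])
    refine loc_glob K0 hW (one_le_mul_of_one_le_of_one_le C1 (one_le_exp (by
      have := hv.1; positivity))) (hC n _ _ ⟨n0, hW, fun i => by simp [Jmat_diag], r1, r3⟩ v hv.1)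
      (r3 v hv.1).1 (r3 v hv.1).2 ?_
    calc _ ≤ (2 * K + 4 * K ^ 2 + 2) * (C * exp C) * (n : ℝ) ^ (κ / 2) := by
          rw [mul_assoc, mul_assoc C]; gcongr
      _ ≤ (n : ℝ) ^ (κ / 2) * (n : ℝ) ^ (κ / 2) := by gcongr
      _ = _ := by rw [← rpow_add np, add_halves]
  · classical
    refine ⟨univ.filter (· ∉ B), le_trans (le_of_eq ?_) (hB.trans (exp_le_exp.2 (neg_le_neg
      (rpow_le_rpow_of_exponent_le n1 (by linarith))))), fun x hx v hv T hT => ?_⟩
    · rw [mass]
      exact sum_congr (by ext x; simp) fun _ _ => rfl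
    · refine loc_pt (hG x (mem_filter.1 hx).2 T (by rwa [show 1 - 8 * (c / 16) = 1 - c / 2 by ring])
        v ⟨hv.1, hv.2.trans ht⟩) (by positivity) ?_ (one_le_rpow n1 e0.le) rfl
      have h5 := rpow_le_rpow_of_exponent_le n1 (neg_le_neg (min_le_right (c / 100) (cF / 2)))
      have h6 : (n : ℝ) ^ (-cF) = (n : ℝ) ^ (-(cF / 2)) * (n : ℝ) ^ (-(cF / 2)) := by
        rw [← rpow_add np]; congr 1; ring
      rw [h6]
      nlinarith [rpow_pos_of_pos np (-(cF / 2))]

end Crest.Agent.T157.S6a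

end
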