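import Crest.Agent.T157.S6StG_2_Mg
import Crest.Agent.T157.S6Fa_43_Mg
import Crest.Agent.T157.S6Sa_93
import Crest.Agent.T157.S6DefC_93
import Crest.Agent.T157.S6Lp_28
import Crest.Agent.T157.RegNice_66
import Crest.Agent.T157.ZDefF_73
import Crest.Agent.T157.KDef_36
import Crest.Agent.T157.RegAll_45
import Crest.Agent.T157.ClB_85
import Crest.Agent.T157.BDefB_95
import Crest.Agent.T157.LmDef_76
import Crest.Agent.T157.WsAll_32
import Crest.Agent.T157.RegColG_70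
import Crest.Agent.T157.ConcM_16
import Crest.Agent.T157.LmLim_32
import Crest.Agent.T157.BLbc_62

-- ▼ part T157/S6BAll_68
section

/-!
# Row 157, block S6 (helper68): sections 6-7 assembled
-/

set_option autoImplicit false

namespace Crest.Agent.T157

theorem S6.cStmt : S6.CStmt := S6.cGlue S6.shsStmt

theorem S6.fout (hA : Rv.At0) (β l a : ℝ) (𝒬 : Set B.Ob) (b0 : 0 < β) (b1 : β < 1) (l0 : 1 / 2 < l)
    (l1 : l ≤ 1) (q1 : B.Nn 𝒬) (q2 : B.Eq0 β 𝒬) (q3 : B.Stat0 β l 𝒬) (a0 : 0 < a) (a1 : a < l) :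
    S6.FOut β a :=
  S6.fout_of S6.shsStmt S6.cGlue S6.stGlue S6.cpStmt S6p.plStmt S6.rhoStmt S6.sStmt S6.fGlue hA b0 b1
    l0 l1 q1 q2 q3 a0 a1

theorem S6a.factsStmt (hA : Rv.At0) : S6a.FactsStmt :=
  S6a.factsGlue Reg.niceStmt S6.cStmt S6.rhoStmt (S6.fout hA)

end Crest.Agent.T157
end

-- ▼ part T157/S6St_93
section

/-!
# Row 157, block S6 (helper93): the end step
-/

set_option autoImplicit false

noncomputable section

namespace Crest.Agent.T157.S6a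

open Matrix Real Filter Finset intervalIntegral
open Crest.Agent.T157.E
open Crest.Agent.T157.Tap (V Mx)
open Crest.Agent.T157.Chain22 (sg sg_add)
open Crest.Agent.T157.Reg (VF mu)
open Crest.Agent.T157.Rv (Warm II)
open Crest.Agent.T157.S6h (FrV dv)

namespace St93

/-- the constants -/
theorem consts {C Λ T m N ε η : ℝ} (hC : 1 ≤ C) (hΛ : 1 ≤ Λ) (hT : 0 ≤ T) (hm : 0 < m) (hN : 1 ≤ N)
    (e0 : 0 < ε) (e1 : ε ≤ 1) (h0 : 0 < η) (h1 : η ≤ 1)
    (h : (540 * C * Λ * exp (540 * C * T)) ^ 7 * √(N / m) ≤ ε ^ 6 * η ^ 3) :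
    C * Λ ^ 7 * exp (C * T) / (ε ^ 6 * √m) * (9 * √N) * (η ^ 3)⁻¹ ≤ 1 / 60 ∧
    8 * (C * Λ ^ 7 * exp (C * T) / (ε ^ 6 * √m)) ≤ (540 * C * Λ * exp (540 * C * T)) ^ 8 / ε ^ 6 ∧
    C * Λ * exp (C * T) ≤ (540 * C * Λ * exp (540 * C * T)) ^ 8 / ε ^ 6 ∧
    exp (C * T) ≤ exp (540 * C * T) := by
  have x1 : exp (C * T) ≤ exp (540 * C * T) := exp_le_exp.2 (by nlinarith [mul_nonneg (zero_le_one.trans hC) hT])
  have x0 : 1 ≤ exp (C * T) := one_le_exp (by positivity)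
  set E := exp (540 * C * T)
  set E0 := exp (C * T)
  have E1 : 1 ≤ E := x0.trans x1
  have c1 : 1 ≤ 540 * C * E := by nlinarith
  have l7 : 1 ≤ Λ ^ 7 := one_le_pow₀ hΛ
  have l1 : Λ ≤ Λ ^ 7 := le_self_pow₀ hΛ (by norm_num)
  have q1 : 1 ≤ 540 * C * Λ * E := by nlinarith
  have a7 : 540 * (C * Λ ^ 7 * E0) ≤ (540 * C * Λ * E) ^ 7 := by
    have e : (540 * C * Λ * E) ^ 7 = (540 * C * E) ^ 7 * Λ ^ 7 := by ring
    have : 540 * C * E0 ≤ (540 * C * E) ^ 7 :=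
      le_trans (by nlinarith) (le_self_pow₀ c1 (by norm_num))
    rw [e]; nlinarith
  have a8 : (540 * C * Λ * E) ^ 7 ≤ (540 * C * Λ * E) ^ 8 := pow_le_pow_right₀ q1 (by norm_num)
  have p0 : 0 < C * Λ ^ 7 * E0 := by positivity
  have p1 : 1 ≤ C * Λ ^ 7 * E0 := by nlinarith [mul_le_mul hC l7 zero_le_one (zero_le_one.trans hC)]
  have sm : 0 < √m := sqrt_pos.2 hm
  have sN : 1 ≤ √N := by rw [← sqrt_one]; exact sqrt_le_sqrt hN
  have e6 : ε ^ 6 ≤ 1 := pow_le_one₀ e0.le e1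
  have e3 : η ^ 3 ≤ 1 := pow_le_one₀ h0.le h1
  have f6 : 0 < ε ^ 6 := by positivity
  have f3 : 0 < η ^ 3 := by positivity
  rw [sqrt_div' _ hm.le, ← mul_div_assoc, div_le_iff₀ sm] at h
  have k1 : 540 * (C * Λ ^ 7 * E0) * √N ≤ ε ^ 6 * η ^ 3 * √m :=
    (mul_le_mul_of_nonneg_right a7 (sqrt_nonneg _)).trans h
  have k2 : 1 ≤ √m := by
    have : ε ^ 6 * η ^ 3 ≤ 1 := mul_le_one₀ e6 f3.le e3
    nlinarith [mul_le_mul p1 sN zero_le_one p0.le]
  refine ⟨?_, ?_, ?_, x1⟩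
  · rw [← div_eq_mul_inv, div_mul_eq_mul_div, div_div, div_le_div_iff₀ (by positivity) (by norm_num)]
    nlinarith
  · rw [← mul_div_assoc]
    exact div_le_div₀ (by positivity) (by nlinarith) f6 (le_mul_of_one_le_right f6.le k2)
  · rw [le_div_iff₀ f6]
    have : C * Λ * E0 ≤ C * Λ ^ 7 * E0 := by gcongr
    have p2 : 0 < C * Λ * E0 := by positivity
    nlinarith

theorem avg {F1 F2 F3 : ℝ → ℝ} (h1 : Continuous F1) (h2 : Continuous F2) (h3 : Continuous F3)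
    {X K a b c τ : ℝ} (h : ∀ s ∈ Set.Icc τ (τ + 1), X ≤ K + (a * F1 s + b * F2 s + c * F3 s)) :
    X ≤ K + ((a * ∫ s in τ..(τ + 1), F1 s) + (b * ∫ s in τ..(τ + 1), F2 s) +
      c * ∫ s in τ..(τ + 1), F3 s) := by
  have i1 : IntervalIntegrable (fun s => a * F1 s) MeasureTheory.volume τ (τ + 1) :=
    (h1.intervalIntegrable _ _).const_mul a
  have i2 : IntervalIntegrable (fun s => b * F2 s) MeasureTheory.volume τ (τ + 1) :=
    (h2.intervalIntegrable _ _).const_mul b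
  have i3 : IntervalIntegrable (fun s => c * F3 s) MeasureTheory.volume τ (τ + 1) :=
    (h3.intervalIntegrable _ _).const_mul c
  have av := integral_mono_on (f := fun _ => X) (g := fun s => K + (a * F1 s + b * F2 s + c * F3 s))
    (by linarith : τ ≤ τ + 1) intervalIntegrable_const
    (intervalIntegrable_const.add ((i1.add i2).add i3)) h
  rw [integral_add intervalIntegrable_const ((i1.add i2).add i3), integral_add (i1.add i2) i3,
    integral_add i1 i2] at av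
  simpa only [integral_const_mul, integral_const, add_sub_cancel_left, one_smul] using av

theorem ar5 {C s τ a Ko ε Y X : ℝ} (C1 : 1 ≤ C) (t0 : 0 ≤ τ) (s0 : τ ≤ s) (s1 : s ≤ τ + 1)
    (a0 : 0 ≤ a) (e0 : 0 < ε) (Y0 : 0 ≤ Y) (h : Y ≤ 2 * X) :
    C * (s + 1) ^ 2 * (Ko ^ 2 * exp (-(2 * a * s)) + ε ^ 2) /
      (120 * (C * (τ + 2) ^ 2 * (Ko ^ 2 * exp (-(2 * a * τ)) + ε ^ 2))) * Y ≤ X / 60 := by
  have : C * (s + 1) ^ 2 * (Ko ^ 2 * exp (-(2 * a * s)) + ε ^ 2) /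
      (120 * (C * (τ + 2) ^ 2 * (Ko ^ 2 * exp (-(2 * a * τ)) + ε ^ 2))) ≤ 1 / 120 := by
    rw [div_le_div_iff₀ (by positivity) (by norm_num), one_mul, mul_comm]
    have h1 : exp (-(2 * a * s)) ≤ exp (-(2 * a * τ)) := exp_le_exp.2 (by nlinarith)
    have h2 : (s + 1) ^ 2 ≤ (τ + 2) ^ 2 := by nlinarith
    gcongr
  calc _ ≤ 1 / 120 * (2 * X) := mul_le_mul this h Y0 (by norm_num)
    _ = _ := by ring

theorem ar6 {C E E0 ε η M X : ℝ} (C1 : 1 ≤ C) (E1 : 0 < E) (hE : E ≤ E0) (e0 : 0 < ε) (h0 : 0 < η)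
    (M0 : 0 ≤ M) (h : M ≤ (η ^ 3)⁻¹ * X) :
    C * E * ε ^ 2 / (60 * (C * E0 * ε ^ 2) * (η ^ 3)⁻¹) * M ≤ X / 60 := by
  have E2 : 0 < E0 := E1.trans_le hE
  have : C * E * ε ^ 2 / (60 * (C * E0 * ε ^ 2) * (η ^ 3)⁻¹) ≤ η ^ 3 / 60 := by
    rw [div_le_iff₀ (by positivity), show η ^ 3 / 60 * (60 * (C * E0 * ε ^ 2) * (η ^ 3)⁻¹) =
      C * E0 * ε ^ 2 by field_simp]
    gcongr
  calc _ ≤ η ^ 3 / 60 * ((η ^ 3)⁻¹ * X) := mul_le_mul this h M0 (by positivity)
    _ = _ := by field_simp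

theorem ar4 {c N Q M X y N1 e : ℝ} (c0 : 0 ≤ c) (hN : 1 ≤ N) (M0 : 0 ≤ M) (hM : M ≤ y * X)
    (X0 : 0 ≤ X) (n1 : 1 ≤ N1) (e0 : 0 ≤ e) (h1 : c * (9 * √N) * y ≤ 1 / 60)
    (h : Q ≤ 8 * (N * M + N1 * e)) :
    c * (√N)⁻¹ * Q + c * (√N / 4 * M) ≤ X / 60 + 8 * c * (N1 ^ 2 * e) := by
  have S1 : 1 ≤ √N := by rw [← sqrt_one]; exact sqrt_le_sqrt hN
  have e2 : √N * √N = N := mul_self_sqrt (by linarith)
  generalize √N = S at *
  have S0 : 0 < S := by linarith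
  have a1 : S⁻¹ * Q ≤ 8 * S * M + 8 * (N1 ^ 2 * e) := by
    refine (mul_le_mul_of_nonneg_left h (inv_pos.2 S0).le).trans ?_
    have a2 : S⁻¹ * (N1 * e) ≤ 1 * (N1 ^ 2 * e) := by
      gcongr
      · exact inv_le_one_of_one_le₀ S1
      · nlinarith
    have a3 : S⁻¹ * (8 * (N * M + N1 * e)) = 8 * S * M + 8 * (S⁻¹ * (N1 * e)) := by
      rw [← e2]; field_simp
    linarith
  have a4 : c * (9 * S) * M ≤ X / 60 :=
    calc _ ≤ c * (9 * S) * (y * X) := by gcongr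
      _ = c * (9 * S) * y * X := by ring
      _ ≤ 1 / 60 * X := mul_le_mul_of_nonneg_right h1 X0
      _ = _ := by ring
  have a5 := mul_le_mul_of_nonneg_left a1 c0
  have a6 : 0 ≤ c * S * M := by positivity
  linarith

theorem ar7 {C τ P ε η E0 E : ℝ} (C1 : 1 ≤ C) (t0 : 0 ≤ τ) (P0 : 0 ≤ P) (h0 : 0 < η) (h1 : η ≤ 1)
    (E1 : 1 ≤ E0) (hE : E0 ≤ E) :
    120 * (C * (τ + 2) ^ 2 * (P + ε ^ 2)) + 60 * (C * E0 * ε ^ 2) * (η ^ 3)⁻¹ ≤
      540 * C * (τ + 1) ^ 4 * (P + E * ε ^ 2) / η ^ 3 := by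
  have a1 : P + ε ^ 2 ≤ P + E * ε ^ 2 :=
    add_le_add le_rfl (le_mul_of_one_le_left (sq_nonneg _) (E1.trans hE))
  have a2 : E0 * ε ^ 2 ≤ P + E * ε ^ 2 := le_add_of_nonneg_of_le P0 (by gcongr)
  have a3 : 1 ≤ (η ^ 3)⁻¹ := (one_le_inv₀ (by positivity)).2 (pow_le_one₀ h0.le h1)
  have a4 : 1 ≤ (τ + 1) ^ 2 := by nlinarith
  have a5 : (τ + 2) ^ 2 ≤ 4 * (τ + 1) ^ 4 := by nlinarith
  have a6 : 1 ≤ (τ + 1) ^ 4 := by nlinarith
  have A0 : 0 ≤ P + E * ε ^ 2 := le_trans (by positivity) a1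
  generalize P + E * ε ^ 2 = A at *
  have a7 : 120 * (C * (τ + 2) ^ 2 * (P + ε ^ 2)) ≤ 120 * (C * (4 * (τ + 1) ^ 4) * A) * (η ^ 3)⁻¹ :=
    le_trans (by gcongr) (le_mul_of_one_le_right (by positivity) a3)
  have a8 : 60 * (C * E0 * ε ^ 2) * (η ^ 3)⁻¹ ≤ 60 * (C * ((τ + 1) ^ 4 * A)) * (η ^ 3)⁻¹ := by
    have := a2.trans (le_mul_of_one_le_left A0 a6)
    rw [mul_assoc C]
    exact mul_le_mul_of_nonneg_right (mul_le_mul_of_nonneg_left
      (mul_le_mul_of_nonneg_left this (by linarith)) (by norm_num)) (by linarith)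
  rw [div_eq_mul_inv]
  linarith

theorem ar9 {g X Xb y : ℝ} (g0 : 0 ≤ g) (y0 : 0 ≤ y) (h1 : Xb ≤ X) (h2 : X ≤ Xb + y) :
    (19 / 20 - 2 / 3 * g) * X ≤ (19 / 20 - 2 / 3 * g) * Xb + y := by
  rcases le_total 0 (19 / 20 - 2 / 3 * g) with c | c <;> nlinarith

theorem ar10 {X a1 a2 g1 g2 e1 r1 r2 t1 t2 t3 t4 t5 u1 u4 u4' u5 : ℝ} (b1 : X = a1 + a2)
    (b2 : a1 ≤ 2 / 3 * g1 + 1 / 3 * (e1 + r1)) (b3 : a2 ≤ t1 + t2 + t3 + t4 + t5) (y1 : g1 ≤ g2)
    (y2 : r1 ≤ r2) (y5 : t2 ≤ X / 60) (y6 : t3 ≤ X / 60) (y9 : t4 ≤ u4 + u4') (y10 : t5 ≤ u5)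
    (y11 : t1 ≤ u1) :
    X ≤ 2 / 3 * g2 + 1 / 3 * r2 + X / 30 + u4' + u5 + (1 / 3 * e1 + u1 + u4) := by linarith

theorem ar11 {X Y g r2 u4' u5 e1 u1 u4 w y v1 z1 z2 : ℝ}
    (av : X ≤ 2 / 3 * (g * X) + 1 / 3 * r2 + X / 30 + u4' + u5 + (1 / 3 * e1 + u1 + u4))
    (j4 : u4 + u4' ≤ X / 60 + w) (j6 : u1 ≤ v1) (j7 : w ≤ z1) (j8 : u5 ≤ z2)
    (j9 : Y ≤ (19 / 20 - 2 / 3 * g) * X + y) : Y ≤ 1 / 3 * (e1 + r2) + y + v1 + (z1 + z2) := by
  linarith

variable {n : ℕ} {W : Mx n} {f : Cube n → ℝ}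

/-- `X` along the flow -/
def Xc (W : Mx n) (f : Cube n → ℝ) (s : ℝ) : ℝ := X3 W (sg (mu W) |s| f)
/-- `I` along the flow -/
def Ic (W : Mx n) (f : Cube n → ℝ) (s : ℝ) : ℝ := II (mu W) (sg (mu W) (max s 0) f)
/-- the integrand of (F) -/
def Qc (W : Mx n) (f G : Cube n → ℝ) (r s : ℝ) : ℝ := ev W (sg (mu W) |r - s| f) fun x =>
  dd W (sg (mu W) |r - s| f) x ⬝ᵥ dd W (sg (mu W) |r - s| f) x * sg (mu W) s G x
/-- the integrand of the return -/
def Hc (W : Mx n) (f : Cube n → ℝ) (ρ : ℝ → ℝ) (θ σ k r u v : ℝ) : ℝ :=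
  k ^ 2 * ρ v * exp (-(θ * u) - 2 * σ * (u + v)) * Xc W f (r - u - v)

theorem cont_d (hC : ContStmt) (hW : Ok W 1 1) (hf : ∀ x, 0 < f x) (x : Cube n) (k : Fin n) :
    Continuous fun s : ℝ => dd W (sg (mu W) |s| f) x k :=
  (hC n W hW (fun _ => 0) continuous_const 0 x k).2.2.2.2.2.2.2 f hf

theorem cont_f (hW : Ok W 1 1) (f : Cube n → ℝ) (x : Cube n) :
    Continuous fun s : ℝ => sg (mu W) |s| f x :=
  (B.continuous_sg hW.pos (mu_pos W) f x).comp continuous_abs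

theorem cont_X (hC : ContStmt) (hW : Ok W 1 1) (hf : ∀ x, 0 < f x) : Continuous (Xc W f) :=
  cont_ev W (cont_f hW f) fun x => continuous_finsetSum _ fun k _ => (cont_d hC hW hf x k).abs.pow 3

theorem Xc_nn (hW : Ok W 1 1) (hf : ∀ x, 0 < f x) (s : ℝ) : 0 ≤ Xc W f s :=
  ev_nn (Rv.sg_pos hW.pos (mu_pos W) (abs_nonneg s) hf) fun x => sum_nonneg fun k _ => by positivity

theorem cont_Q (hC : ContStmt) (hW : Ok W 1 1) (hf : ∀ x, 0 < f x) (G : Cube n → ℝ) (r : ℝ) :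
    Continuous (Qc W f G r) := by
  have cr : Continuous fun s : ℝ => r - s := by fun_prop
  exact cont_ev W (fun x => (cont_f hW f x).comp cr) fun x =>
    (continuous_finsetSum _ fun k _ => ((cont_d hC hW hf x k).comp cr).mul
      ((cont_d hC hW hf x k).comp cr)).mul (B.continuous_sg hW.pos (mu_pos W) _ x)

theorem cont_H (hC : ContStmt) (hW : Ok W 1 1) (hf : ∀ x, 0 < f x) {ρ : ℝ → ℝ} (hρ : Continuous ρ)
    (θ σ k r : ℝ) : Continuous fun q : ℝ × ℝ => Hc W f ρ θ σ k r q.1 q.2 := by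
  have := cont_X hC hW hf
  unfold Hc; fun_prop

theorem AA_eq (W : Mx n) (f : Cube n → ℝ) (ρ : ℝ → ℝ) (θ σ k : ℝ) {τ r : ℝ} (t0 : 0 ≤ τ)
    (hr : τ + 1 ≤ r) : AA (fun s => X3 W (sg (mu W) s f)) ρ θ σ k τ r =
      (∫ s in τ..(τ + 1), exp (-((θ + 2 * σ) * s)) * Xc W f (r - s)) +
        ∫ u in (0 : ℝ)..(τ + 1), ∫ v in (0 : ℝ)..(τ + 1 - u), Hc W f ρ θ σ k r u v := by
  rw [AA]
  congr 1
  · refine integral_congr fun s hs => ?_
    rw [Set.uIcc_of_le (by linarith)] at hs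
    simp only [Xc, abs_of_nonneg (show 0 ≤ r - s by linarith [hs.2])]
  · refine integral_congr fun u hu => integral_congr fun v hv => ?_
    rw [Set.uIcc_of_le (by linarith)] at hu
    rw [Set.uIcc_of_le (by linarith [hu.2])] at hv
    simp only [Hc, Xc, abs_of_nonneg (show 0 ≤ r - u - v by linarith [hv.2])]

theorem ret_le (hC : ContStmt) (hW : Ok W 1 1) (hf : ∀ x, 0 < f x) {ρ : ℝ → ℝ} (hρ : Continuous ρ)
    (θ σ k : ℝ) {t r s : ℝ} (h0 : ∀ v ∈ Set.Icc 0 t, 0 ≤ ρ v) (s0 : 0 ≤ s) (s1 : s ≤ t) (hr : t ≤ r) :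
    (∫ u in (0 : ℝ)..s, ∫ v in (0 : ℝ)..(s - u), k ^ 2 * ρ v *
      exp (-(θ * u) - 2 * σ * (u + v)) * X3 W (sg (mu W) (s - u - v) (sg (mu W) (r - s) f))) ≤
      ∫ u in (0 : ℝ)..t, ∫ v in (0 : ℝ)..(t - u), Hc W f ρ θ σ k r u v := by
  refine le_trans (le_of_eq ?_) (tri_mono (cont_H hC hW hf hρ θ σ k r) s0 s1 fun u v _ v0 uv =>
    mul_nonneg (mul_nonneg (mul_nonneg (sq_nonneg _) (h0 v ⟨v0, by linarith⟩))
      (exp_pos _).le) (Xc_nn hW hf _))
  refine integral_congr fun u hu => integral_congr fun v hv => ?_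
  rw [Set.uIcc_of_le s0] at hu
  rw [Set.uIcc_of_le (by linarith [hu.2])] at hv
  simp only [Hc, Xc]
  rw [← sg_add hW.pos (mu_pos W), abs_of_nonneg (by linarith [hv.2]),
    show s - u - v + (r - s) = r - u - v by ring]

theorem root_le (hW : Ok W 1 1) (hf : ∀ x, 0 < f x) {G : Cube n → ℝ} (hG : ∀ x, 0 ≤ G x) {r s S : ℝ}
    (s0 : 0 ≤ s) (s1 : 0 ≤ r - s) (S0 : 0 < S) :
    ev W (sg (mu W) (r - s) f) (fun x => √(dd W (sg (mu W) (r - s) f) x ⬝ᵥ
      dd W (sg (mu W) (r - s) f) x) * sg (mu W) s G x) ≤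
      S⁻¹ * Qc W f G r s + S / 4 * ev W (sg (mu W) r f) G := by
  have e : ev W (sg (mu W) r f) G = ev W (sg (mu W) (r - s) f) (sg (mu W) s G) := by
    rw [ev_sg hW.pos s, ← sg_add hW.pos (mu_pos W), add_sub_cancel]
  simp only [Qc, abs_of_nonneg s1]
  rw [e, ← ev_mul, ← ev_mul, ← ev_add]
  exact ev_mono (Rv.sg_pos hW.pos (mu_pos W) s1 hf) fun x =>
    sqrt_mul_le (sum_nonneg fun k _ => mul_self_nonneg _)
      (Rec.sg_nonneg hW.pos (mu_pos W) s0 hG x) S0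

end St93

open St93

theorem stepGlue : StepGlue := by
  rintro hR hF hD hC hA ⟨C, C1, hB⟩
  refine ⟨540 * C, by linarith, ?_⟩
  intro n W hW ρ θ θ' k τ m a Ko ε Λ p σ B D L η f hd hf hw k0 t0 m0 a0 a1 s0 s1 K0 e0 e1 l1 p0 D0
    L1 h0 h1 hs r hr
  have N1 : 1 ≤ D + L := by linarith
  obtain ⟨c1, c2, c3, c4⟩ := consts C1 l1 (by linarith : 0 ≤ τ + 1) m0 N1 e0 e1 h0 h1 hs
  clear hs
  have hn := hW.pos
  have w0 := mu_pos W
  have wm : ∀ s, 0 ≤ s → Warm (mu W) D (sg (mu W) s f) := fun s hs => Rv.Warm.sg hn w0 hs hw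
  have r0 : 0 ≤ r := by linarith
  obtain ⟨d1, d2, d3, d4, -⟩ := hR n W hW _ (wm r r0).1 (wm r r0).2.1
  have fr0 := (wm r r0).1
  obtain ⟨ω, hω⟩ : ∃ ω, ω = om η (dd W (sg (mu W) r f)) := ⟨_, rfl⟩
  obtain ⟨Xb, hXb⟩ : ∃ Xb, Xb = ev W (sg (mu W) r f) (xb η (dd W (sg (mu W) r f))) := ⟨_, rfl⟩
  have o1 : FrV ω := hω ▸ frV_om d1
  have o2 : ∀ x k, |ω x k| ≤ 4 := hω ▸ abs_om d2
  have X0 : 0 ≤ Xb := hXb ▸ ev_nn fr0 (xb_nn η _)
  have x1 : ev W (sg (mu W) r f) (dv W ω) = Xb := by rw [d4 ω o1, hXb]; simp only [hω, dot_om]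
  have x2 : ev W (sg (mu W) r f) (fun x => ∑ j, |ω x j| ^ (3 / 2 : ℝ)) = Xb := by
    rw [hXb]; simp only [hω, om_32]
  have x3 : ev W (sg (mu W) r f) (fun x => ω x ⬝ᵥ ω x) ≤ 2 * Xb := by
    rw [hXb, ← ev_mul, hω]; exact ev_mono fr0 (om_sq d2)
  have x4 : ev W (sg (mu W) r f) (cnt ω) ≤ (η ^ 3)⁻¹ * Xb := by
    rw [hXb, ← ev_mul, hω]; exact ev_mono fr0 (cnt_om h0 _)
  have x5 : Xb ≤ X3 W (sg (mu W) r f) := hXb ▸ ev_mono fr0 (xb_le η _)
  have x6 : X3 W (sg (mu W) r f) ≤ Xb + η * II (mu W) (sg (mu W) r f) := by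
    refine (ev_mono fr0 (le_xb h0.le _)).trans ?_
    rw [ev_add, ev_mul, hXb]
    exact add_le_add le_rfl (mul_le_mul_of_nonneg_left d3 h0.le)
  clear hω hXb d1 d2 d3 d4
  have M0 : 0 ≤ ev W (sg (mu W) r f) (cnt ω) := ev_nn fr0 fun x => (cnt_bd ω x).1
  have B0 : 0 ≤ B := le_trans (integral_nonneg (by linarith) fun v hv =>
    mul_nonneg (hf.nn v hv) (exp_pos _).le) hf.int
  have g0 : 0 ≤ gn θ σ k B τ :=
    add_nonneg (exp_pos _).le (div_nonneg (mul_nonneg (sq_nonneg _) B0) (sub_pos.2 s1).le)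
  have C0 : 0 < C := lt_of_lt_of_le one_pos C1
  have l2 : 0 < Λ := lt_of_lt_of_le one_pos l1
  have S0 : 0 < √(D + L) := sqrt_pos.2 (by linarith)
  have l0 : 0 < 120 * (C * (τ + 2) ^ 2 * (Ko ^ 2 * exp (-(2 * a * τ)) + ε ^ 2)) := by positivity
  have l0' : 0 < 60 * (C * exp (C * (τ + 1)) * ε ^ 2) * (η ^ 3)⁻¹ := by positivity
  have z0 : 0 ≤ (n : ℝ) ^ 2 * (exp D * p) ^ (2 / 3 : ℝ) := by positivity
  have c30 : 0 ≤ C * Λ ^ 7 * exp (C * (τ + 1)) / (ε ^ 6 * √m) := by positivity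
  have av := avg (X := Xb) (τ := τ) (F1 := fun s => exp (-((θ + 2 * σ) * s)) * Xc W f (r - s))
    (F2 := fun s => Ic W f (r - s)) (F3 := Qc W f (cnt ω) r) (a := 1 / 3)
    (b := 120 * (C * (τ + 2) ^ 2 * (Ko ^ 2 * exp (-(2 * a * τ)) + ε ^ 2)) +
      60 * (C * exp (C * (τ + 1)) * ε ^ 2) * (η ^ 3)⁻¹)
    (c := C * Λ ^ 7 * exp (C * (τ + 1)) / (ε ^ 6 * √m) * (√(D + L))⁻¹)
    (K := 2 / 3 * (gn θ σ k B τ * Xb) + 1 / 3 * (∫ u in (0 : ℝ)..(τ + 1),
      ∫ v in (0 : ℝ)..(τ + 1 - u), Hc W f ρ θ σ k r u v) + Xb / 30 +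
      C * Λ ^ 7 * exp (C * (τ + 1)) / (ε ^ 6 * √m) * (√(D + L) / 4 * ev W (sg (mu W) r f) (cnt ω)) +
      C * Λ * exp (C * (τ + 1)) * ((n : ℝ) ^ 2 * (exp D * p) ^ (2 / 3 : ℝ)))
    (by have := cont_X hC hW hw.1; fun_prop)
    ((S6k.continuous_I hn w0 hw.1).comp (continuous_const.sub continuous_id))
    (cont_Q hC hW hw.1 _ r) fun s hs => by
    have u0 : 0 ≤ s := t0.trans hs.1
    have u1 : 0 ≤ r - s := by linarith [hs.2]
    have wg := wm _ u1
    have e1' : sg (mu W) s (sg (mu W) (r - s) f) = sg (mu W) r f := by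
      rw [← sg_add hn w0, add_sub_cancel]
    have b1 := split hD hC hW hf.cont o1 (sg (mu W) (r - s) f) u0
    have b2 := hA n W hW ρ θ θ' k (τ + 1) σ B _ ω hd hf.cont hf.nn hf.int k0 s1 wg.1 wg.2.1 o1 s
      ⟨u0, hs.2⟩
    have b3 := hB n W hW ρ θ θ' _ (τ + 1) m a Ko ε Λ p σ B D _ ω hd hf wg o1 o2 m0 a0 a1 K0
      e0 e1 l1 p0 s ⟨u0, hs.2⟩ _ l0 _ l0'
    have b4 := (hR n W hW _ wg.1 wg.2.1).2.2.1
    rw [e1'] at b1 b2 b3
    rw [x1] at b1
    rw [x2] at b2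
    have y1 : gn θ σ k B s * Xb ≤ gn θ σ k B τ * Xb := mul_le_mul_of_nonneg_right
      (add_le_add (exp_le_exp.2 (neg_le_neg (mul_le_mul_of_nonneg_left hs.1 (sub_pos.2 s1).le)))
        le_rfl) X0
    have y2 := ret_le hC hW hw.1 hf.cont θ σ k hf.nn u0 hs.2 hr
    have y3 : Xc W f (r - s) = X3 W (sg (mu W) (r - s) f) := by simp only [Xc, abs_of_nonneg u1]
    have y4 : Ic W f (r - s) = II (mu W) (sg (mu W) (r - s) f) := by simp only [Ic, max_eq_left u1]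
    have es : exp (C * s) ≤ exp (C * (τ + 1)) :=
      exp_le_exp.2 (mul_le_mul_of_nonneg_left hs.2 C0.le)
    have y5 := ar5 (Ko := Ko) C1 t0 hs.1 hs.2 a0 e0
      (ev_nn fr0 fun x => sum_nonneg fun k _ => mul_self_nonneg (ω x k)) x3
    have y6 := ar6 C1 (exp_pos _) es e0 h0 M0 x4
    have y7 := root_le hW hw.1 (fun z => (cnt_bd ω z).1) u0 u1 S0
    have y8 : C * Λ ^ 7 * exp (C * s) / (ε ^ 6 * √m) ≤
        C * Λ ^ 7 * exp (C * (τ + 1)) / (ε ^ 6 * √m) :=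
      div_le_div_of_nonneg_right (mul_le_mul_of_nonneg_left es (by positivity)) (by positivity)
    have y9 := mul_le_mul y8 y7 (ev_nn wg.1 fun x => mul_nonneg (sqrt_nonneg _)
      (Rec.sg_nonneg hn w0 u0 (fun z => (cnt_bd ω z).1) x)) c30
    have y10 := mul_le_mul_of_nonneg_right
      (mul_le_mul_of_nonneg_left es (mul_pos C0 l2).le) z0
    have y11 := mul_le_mul_of_nonneg_left b4 (add_pos l0 l0').le
    rw [mul_add, ← mul_assoc] at y9
    rw [mul_assoc (2 / 3 : ℝ)] at b2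
    rw [← y3] at b2
    rw [← y4] at y11
    exact ar10 b1 b2 b3 y1 y2 y5 y6 y9 y10 y11
  have j2 : ∫ s in τ..(τ + 1), II (mu W) (sg (mu W) (r - s) f) =
      ∫ s in τ..(τ + 1), Ic W f (r - s) := by
    refine integral_congr fun s hs => ?_
    rw [Set.uIcc_of_le (by linarith)] at hs
    simp only [Ic, max_eq_left (show 0 ≤ r - s by linarith [hs.2])]
  have j3 : ∫ s in τ..(τ + 1), Qc W f (cnt ω) r s ≤
      8 * ((D + L) * ev W (sg (mu W) r f) (cnt ω) + n * exp (-L)) := by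
    refine le_trans (le_of_eq ?_) (hF n W hW D L n f (cnt ω) hw D0 (by linarith) (cnt_bd ω) τ (τ + 1)
      r t0 (by linarith) hr)
    refine integral_congr fun s hs => ?_
    rw [Set.uIcc_of_le (by linarith)] at hs
    simp only [Qc, abs_of_nonneg (show 0 ≤ r - s by linarith [hs.2])]
  have I0 : 0 ≤ ∫ s in τ..(τ + 1), Ic W f (r - s) := integral_nonneg (by linarith) fun s _ =>
    Rv.II_nn hn w0 (wm _ (le_max_right _ _)).1
  have j4 := ar4 c30 N1 M0 x4 X0 (by exact_mod_cast hn) (exp_pos _).le c1 j3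
  have j5 := ar7 (ε := ε) (P := Ko ^ 2 * exp (-(2 * a * τ))) C1 t0 (by positivity) h0 h1
    (one_le_exp (by positivity)) c4
  have j6 := mul_le_mul_of_nonneg_right j5 I0
  have j7 := mul_le_mul_of_nonneg_right c2 (show 0 ≤ (n : ℝ) ^ 2 * exp (-L) by positivity)
  have j8 := mul_le_mul_of_nonneg_right c3 z0
  have j9 := ar9 g0 (mul_nonneg h0.le (Rv.II_nn hn w0 fr0)) x5 x6
  rw [AA_eq W f ρ θ σ k t0 hr, j2, mul_add ((n : ℝ) ^ 2), mul_add (_ / ε ^ 6)]
  exact ar11 av j4 j6 j7 j8 j9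

end Crest.Agent.T157.S6a

end
end

-- ▼ part T157/S6Loc_45
section

/-!
# Row 157, block S6 (helper45): the final glue
-/

set_option autoImplicit false

noncomputable section

namespace Crest.Agent.T157.S6a

open Matrix Real Filter Finset
open Crest.ProbabilityR.SpinGlassDynamics (disorderLaw gibbsWeight)
open Crest.Agent.T157.E Crest.Agent.T157.Eig
open Crest.Agent.T157.Tap (V Mx)
open Crest.Agent.T157.Chain22 (sg)
open Crest.Agent.T157.Reg (VF mu Nice)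
open Crest.Agent.T157.Rv

namespace L45

variable {n : ℕ} {W : Mx n}

theorem ok_mono {b e b' e' : ℝ} (h : Ok W b e) (b0 : 0 ≤ b) (hb : b ≤ b') (he : e ≤ e') :
    Ok W b' e' :=
  ⟨h.pos, h.sym, h.dg, h.op, fun i => (h.row i).trans (pow_le_pow_left₀ b0 hb 2),
    fun i j => (h.ent i j).trans he⟩

theorem mu_pos (W : Mx n) (x : Cube n) : 0 < mu W x := exp_pos _

theorem ev_mono {g F G : Cube n → ℝ} (hg : ∀ x, 0 < g x) (h : ∀ x, F x ≤ G x) :
    ev W g F ≤ ev W g G :=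
  (Chain22.isP_prob' (mu_pos W)).mean_mono fun x => mul_le_mul_of_nonneg_left (h x) (hg x).le

theorem X3_le (hW : Ok W 1 1) (red : RedStmt) {g : Cube n → ℝ} (hg : ∀ x, 0 < g x)
    (h1 : mean (mu W) g = 1) : 0 ≤ X3 W g ∧ X3 W g ≤ 2 * II (mu W) g := by
  obtain ⟨-, r2, r3, -⟩ := red n W hW g hg h1
  refine ⟨(Chain22.isP_prob' (mu_pos W)).mean_nonneg fun x => mul_nonneg (hg x).le (by positivity),
    ?_⟩
  have h2 : X3 W g ≤ ev W g fun x => 2 * (dd W g x ⬝ᵥ dd W g x) := ev_mono hg fun x => by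
    rw [dotProduct, mul_sum]
    refine sum_le_sum fun k _ => ?_
    have := r2 x k
    have e : dd W g x k * dd W g x k = |dd W g x k| ^ 2 := by rw [sq_abs, sq]
    rw [e]
    nlinarith [sq_nonneg |dd W g x k|]
  have h3 : (ev W g fun x => 2 * (dd W g x ⬝ᵥ dd W g x)) =
      2 * ev W g fun x => dd W g x ⬝ᵥ dd W g x := by
    simp only [ev, mean]
    rw [mul_sum]
    exact sum_congr rfl fun x _ => by ring
  linarith

theorem AA_congr {X X' ρ : ℝ → ℝ} (h : ∀ s, 0 ≤ s → X s = X' s) (θ σ k : ℝ) {τ r : ℝ} (hτ : 0 ≤ τ)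
    (hr : τ + 1 ≤ r) : AA X ρ θ σ k τ r = AA X' ρ θ σ k τ r := by
  unfold AA
  congr 1
  · refine intervalIntegral.integral_congr fun s hs => ?_
    rw [Set.uIcc_of_le (by linarith)] at hs
    simp only [h (r - s) (by linarith [hs.2])]
  · refine intervalIntegral.integral_congr fun u hu => ?_
    rw [Set.uIcc_of_le (by linarith)] at hu
    refine intervalIntegral.integral_congr fun v hv => ?_
    rw [Set.uIcc_of_le (by linarith [hu.2])] at hv
    simp only [h (r - u - v) (by linarith [hv.2])]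

theorem core (hW : Ok W 1 1) (red : RedStmt) (cont : ContStmt) (loop : LoopStmt)
    {f : Cube n → ℝ} (hf : ∀ x, 0 < f x) (h1 : mean (mu W) f = 1)
    {ρ : ℝ → ℝ} {a θ k Bb τ η η3 Γ ζ R CH u N T : ℝ}
    (hb : ∀ g, (∀ x, 0 < g x) → mean (mu W) g = 1 → ev W g (G0 W R) ≤ CH * (ent (mu W) g + 1))
    (cρ : Continuous ρ) (ρ0 : ∀ v ∈ Set.Icc 0 (τ + 1), 0 ≤ ρ v)
    (ρ1 : ∫ v in (0 : ℝ)..(τ + 1), ρ v * exp (2 * a / 3 * v) ≤ Bb)
    (ha : 0 < a) (hθ : 2 * a / 3 < θ) (hτ : 0 ≤ τ) (h3 : 0 ≤ η3) (hΓ : 0 ≤ Γ) (hζ : 0 ≤ ζ)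
    (hg : gn θ (2 * a / 3) k Bb τ ≤ 17 / 20)
    (step : ∀ r ≥ τ + 1, (19 / 20 - 2 / 3 * gn θ (2 * a / 3) k Bb τ) * X3 W (sg (mu W) r f) ≤
      1 / 3 * AA (fun s => X3 W (sg (mu W) s f)) ρ θ (2 * a / 3) k τ r +
        η3 * II (mu W) (sg (mu W) r f) +
        Γ * (∫ s in τ..(τ + 1), II (mu W) (sg (mu W) (r - s) f)) + ζ)
    (η0 : 0 < η) (η1 : η ≤ 1) (R1 : 1 ≤ R) (R2 : 12 * CH ≤ η * R)
    (R3 : (2 * R + 1) * (8 * exp (2 * R) / (η / 8)) ^ 3 ≤ u)
    (n1 : 10 * u * (η3 + Γ * exp (2 * a * (τ + 1))) ≤ η / 2)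
    (n2 : 20 * u * exp (2 * a * (τ + 1)) ≤ N) (n3 : (10 * u * ζ + 1) / (2 * a) ≤ N) :
    B.Paid (mu W) (fun f => B.Df (B.dn (mu W) f) (mu W)) a η N T f := by
  have hn := hW.pos
  have hw := mu_pos W
  have u0 : 0 ≤ u := le_trans (by positivity) R3
  have N0 : 0 ≤ N := le_trans (by positivity) n2
  have p1 : ∀ s, 0 ≤ s → ∀ x, 0 < sg (mu W) s f x := fun s s0 => sg_pos hn hw s0 hf
  have p2 : ∀ s, mean (mu W) (sg (mu W) s f) = 1 := fun s => (Chain22.mean_sg hn hw s f).trans h1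
  obtain ⟨X, hX⟩ : ∃ X : ℝ → ℝ, X = fun s => X3 W (sg (mu W) |s| f) := ⟨_, rfl⟩
  obtain ⟨I, hI⟩ : ∃ I : ℝ → ℝ, I = fun s => II (mu W) (sg (mu W) (max s 0) f) := ⟨_, rfl⟩
  have eX : ∀ s, 0 ≤ s → X s = X3 W (sg (mu W) s f) := fun s s0 => by
    simp only [hX, abs_of_nonneg s0]
  have eI : ∀ s, 0 ≤ s → I s = II (mu W) (sg (mu W) s f) := fun s s0 => by
    simp only [hI, max_eq_left s0]
  have cX : Continuous X := by
    have c1 : ∀ x, Continuous fun s : ℝ => sg (mu W) |s| f x := fun x =>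
      (B.continuous_sg hn hw f x).comp continuous_abs
    have c2 : ∀ x k, Continuous fun s : ℝ => dd W (sg (mu W) |s| f) x k := fun x k =>
      (cont n W hW ρ cρ 0 x k).2.2.2.2.2.2.2 f hf
    rw [hX]
    exact continuous_finsetSum _ fun x _ => continuous_const.mul ((c1 x).mul
      (continuous_finsetSum _ fun k _ => (c2 x k).abs.pow 3))
  have cI : Continuous I := by rw [hI]; exact S6k.continuous_I hn hw hf
  have cE : Continuous fun s : ℝ => exp (2 * a * s) := by fun_prop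
  have cL : Continuous fun s : ℝ => exp (2 * a * s) * (u * X s - η / 2 * I s + 1) := by fun_prop
  refine ⟨fun t => ∫ s in (0 : ℝ)..t, exp (2 * a * s) * (u * X s - η / 2 * I s + 1),
    fun s => exp (2 * a * s) * (u * X s - η / 2 * I s + 1), by simp, fun t t0 _ =>
    ⟨(cL.integral_hasStrictDerivAt 0 t).hasDerivAt, ?_, ?_⟩⟩
  · refine mul_le_mul_of_nonneg_left ?_ (exp_pos _).le
    have a1 := (red n W hW _ (p1 t t0) (p2 t)).2.2.2.2 (η / 8) R (by positivity) (by linarith) R1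
    have a2 := hb _ (p1 t t0) (p2 t)
    have a3 := (X3_le hW red (p1 t t0) (p2 t)).1
    have a4 := ent_nn hw fun x => (p1 t t0 x).le
    have a5 : 12 / R * ev W (sg (mu W) t f) (G0 W R) ≤ η * (ent (mu W) (sg (mu W) t f) + 1) := by
      calc _ ≤ 12 / R * (CH * (ent (mu W) (sg (mu W) t f) + 1)) := by gcongr
        _ = 12 * CH / R * (ent (mu W) (sg (mu W) t f) + 1) := by ring
        _ ≤ _ := by gcongr; rwa [div_le_iff₀ (by linarith)]
    have a6 := mul_le_mul_of_nonneg_right R3 a3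
    rw [eX t t0, eI t t0]
    linarith
  · have l1 := loop X I ρ a θ k Bb τ η3 Γ ζ t ha hθ hτ h3 hΓ hζ t0 cX cI cρ
      (fun s hs => by rw [eX s hs.1, eI s hs.1]; exact X3_le hW red (p1 s hs.1) (p2 s)) ρ0 ρ1 hg
      fun r hr => by
        have r0 : 0 ≤ r := by linarith [hr.1]
        have e1 : ∫ s in τ..(τ + 1), I (r - s) =
            ∫ s in τ..(τ + 1), II (mu W) (sg (mu W) (r - s) f) :=
          intervalIntegral.integral_congr fun s hs => by
            rw [Set.uIcc_of_le (by linarith)] at hs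
            exact eI (r - s) (by linarith [hs.2, hr.1])
        rw [eX r r0, eI r r0, e1, AA_congr eX _ _ _ hτ hr.1]
        exact step r hr.1
    have l2 : ∫ r in (0 : ℝ)..t, I r ≤ ent (mu W) f := by rw [hI]; exact S6k.int_I_le hn hw hf t0
    have l3 : ∫ r in (0 : ℝ)..t, exp (2 * a * r) ≤ exp (2 * a * t) / (2 * a) := by
      rw [intervalIntegral.integral_comp_mul_left (fun x => exp x) (by positivity), integral_exp,
        smul_eq_mul, mul_zero, exp_zero, inv_mul_eq_div]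
      gcongr; linarith
    have l4 : 0 ≤ ∫ r in (0 : ℝ)..t, exp (2 * a * r) * I r :=
      intervalIntegral.integral_nonneg t0 fun r hr => mul_nonneg (exp_pos _).le (by
        rw [eI r hr.1]; exact II_nn hn hw (p1 r hr.1))
    have e2 : ∫ s in (0 : ℝ)..t, exp (2 * a * s) * (u * X s - η / 2 * I s + 1) =
        u * (∫ s in (0 : ℝ)..t, exp (2 * a * s) * X s) -
          η / 2 * (∫ s in (0 : ℝ)..t, exp (2 * a * s) * I s) + ∫ s in (0 : ℝ)..t, exp (2 * a * s) := by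
      rw [← intervalIntegral.integral_const_mul, ← intervalIntegral.integral_const_mul,
        ← intervalIntegral.integral_sub (Continuous.intervalIntegrable (by fun_prop) _ _)
          (Continuous.intervalIntegrable (by fun_prop) _ _),
        ← intervalIntegral.integral_add (Continuous.intervalIntegrable (by fun_prop) _ _)
          (Continuous.intervalIntegrable (by fun_prop) _ _)]
      exact intervalIntegral.integral_congr fun s _ => by ring
    have b1 := mul_le_mul_of_nonneg_left l1 u0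
    have b2 := mul_le_mul_of_nonneg_right n1 l4
    have b3 : 20 * u * exp (2 * a * (τ + 1)) * ∫ r in (0 : ℝ)..t, I r ≤ N * ent (mu W) f :=
      (mul_le_mul_of_nonneg_left l2 (by positivity)).trans
        (mul_le_mul_of_nonneg_right n2 (ent_nn hw fun x => (hf x).le))
    have b4 := mul_le_mul_of_nonneg_right n3 (exp_pos (2 * a * t)).le
    have b5 := mul_nonneg N0 (II_nn hn hw hf)
    have e3 : (10 * u * ζ + 1) / (2 * a) * exp (2 * a * t) =
        u * (10 * ζ * exp (2 * a * t) / (2 * a)) + exp (2 * a * t) / (2 * a) := by ring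
    simp only [e2]
    nlinarith

theorem numR {CH η ω x : ℝ} (hC : 1 ≤ CH) (hη : 0 < η) (hω : 0 < ω)
    (hx : (1 + 12 * CH / η + (64 / η) ^ 3 + 18 * CH / ω) ^ 2 ≤ x) :
    ∃ R ≥ (1 : ℝ), exp x ^ 2 * exp (-(R ^ 2 / CH)) = 1 ∧ 12 * CH ≤ η * R ∧
      (2 * R + 1) * (8 * exp (2 * R) / (η / 8)) ^ 3 ≤ exp (ω * x) := by
  have x0 : 0 ≤ x := le_trans (by positivity) hx
  have p1 : 0 ≤ 12 * CH / η := by positivity
  have p2 : 0 ≤ (64 / η) ^ 3 := by positivity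
  have p3 : 0 ≤ 18 * CH / ω := by positivity
  have e1 : √(2 * CH * x) ^ 2 = 2 * CH * x := sq_sqrt (by positivity)
  have h1 : 1 + 12 * CH / η + (64 / η) ^ 3 + 18 * CH / ω ≤ √(2 * CH * x) :=
    le_sqrt_of_sq_le (hx.trans (by nlinarith))
  generalize √(2 * CH * x) = R at *
  refine ⟨R, by linarith, ?_, ?_, ?_⟩
  · rw [e1, ← exp_nat_mul, ← exp_add, exp_eq_one_iff]; push_cast; field_simp; ring
  · rw [mul_comm η, ← div_le_iff₀ hη]; linarith
  · have a1 : 2 * R + 1 ≤ exp (2 * R) := add_one_le_exp _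
    have a2 : (64 / η) ^ 3 ≤ exp R := by linarith [add_one_le_exp R]
    have a3 : 18 * CH ≤ R * ω := by rw [← div_le_iff₀ hω]; linarith
    have R0 : 0 ≤ R := by linarith
    have a4 : 9 * R ≤ ω * x := by
      have : 2 * CH * (9 * R) ≤ 2 * CH * (ω * x) := by nlinarith
      exact le_of_mul_le_mul_left this (by positivity)
    calc _ = (2 * R + 1) * (64 / η) ^ 3 * exp (2 * R) ^ 3 := by field_simp; ring
      _ ≤ exp (2 * R) * exp R * exp (2 * R) ^ 3 := by gcongr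
      _ = exp (9 * R) := by rw [← exp_nat_mul, ← exp_add, ← exp_add]; congr 1; push_cast; ring
      _ ≤ _ := exp_le_exp.2 a4

theorem num1 {C κ δ c c' ω η x : ℝ} (hC : 0 ≤ C) (x0 : 0 ≤ x) (hη : 0 < η)
    (h1 : C * exp C ≤ exp (ω * x)) (h2 : 40 / η ≤ exp (ω * x)) (h3 : 2 ≤ exp (ω * x))
    (h4 : 14 * ω + 7 * κ + 7 * (C * δ) + 6 * c' ≤ c / 4) :
    (C * exp (κ * x) * exp (C * (δ * x + 1))) ^ 7 *
        √((exp ((1 - c) * x) + exp ((1 - c) * x)) / exp ((1 - c / 2) * x)) ≤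
      exp (-c' * x) ^ 6 * (η / (40 * exp (ω * x))) ^ 3 := by
  have a1 : √((exp ((1 - c) * x) + exp ((1 - c) * x)) / exp ((1 - c / 2) * x)) ≤
      exp (ω * x) * exp (-(c / 4) * x) := by
    rw [sqrt_le_left (by positivity), div_le_iff₀ (exp_pos _), mul_pow, mul_assoc, ← exp_nat_mul,
      ← exp_nat_mul, ← exp_add, ← two_mul]
    have : ((2 : ℕ) : ℝ) * (-(c / 4) * x) + (1 - c / 2) * x = (1 - c) * x := by push_cast; ring
    rw [this, exp_nat_mul]
    gcongr; nlinarith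
  have a2 : C * exp (κ * x) * exp (C * (δ * x + 1)) ≤ exp (ω * x) * exp ((κ + C * δ) * x) := by
    calc _ = C * exp C * exp ((κ + C * δ) * x) := by
          rw [mul_assoc, mul_assoc, ← exp_add, ← exp_add]; congr 2; ring
      _ ≤ _ := by gcongr
  have a3 : exp (-(2 * ω * x)) ≤ η / (40 * exp (ω * x)) := by
    rw [div_le_iff₀ hη] at h2
    rw [le_div_iff₀ (by positivity)]
    have e : exp (-(2 * ω * x)) * (exp (ω * x) * η * exp (ω * x)) = η := by
      rw [mul_right_comm (exp (ω * x)) η, ← exp_add, ← mul_assoc, ← exp_add]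
      rw [show -(2 * ω * x) + (ω * x + ω * x) = 0 by ring, exp_zero, one_mul]
    rw [← e]; gcongr
  calc _ ≤ (exp (ω * x) * exp ((κ + C * δ) * x)) ^ 7 * (exp (ω * x) * exp (-(c / 4) * x)) := by
        gcongr
    _ ≤ exp (-c' * x) ^ 6 * exp (-(2 * ω * x)) ^ 3 := by
        simp only [← exp_add, ← exp_nat_mul]
        refine exp_le_exp.2 ?_
        push_cast
        nlinarith [mul_le_mul_of_nonneg_right h4 x0]
    _ ≤ _ := by gcongr

theorem num2 {C δ c' ω η x a a' e' : ℝ} (hC : 0 ≤ C) (x0 : 0 ≤ x) (hη : 0 < η) (hδ : 0 ≤ δ)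
    (h1 : C * exp C ≤ exp (ω * x)) (h2 : 40 / η ≤ exp (ω * x)) (h3 : 2 ≤ exp (ω * x))
    (h4 : exp (2 * a) ≤ exp (ω * x)) (h5 : δ * x + 1 ≤ exp (ω * x))
    (h6 : 15 * ω + 2 * e' ≤ 2 * (a' - a) * δ) (h7 : 15 * ω + (C + 2 * a) * δ ≤ 2 * c') :
    10 * exp (ω * x) * (η / (40 * exp (ω * x)) + C * (δ * x + 1) ^ 4 *
      (exp (e' * x) ^ 2 * exp (-(2 * a' * (δ * x))) + exp (C * (δ * x + 1)) * exp (-c' * x) ^ 2) /
        (η / (40 * exp (ω * x))) ^ 3 * exp (2 * a * (δ * x + 1))) ≤ η / 2 := by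
  have u0 := exp_pos (ω * x)
  have hC' : C ≤ exp (ω * x) := le_trans (le_mul_of_one_le_right hC (one_le_exp hC)) h1
  have a1 : C * (exp (e' * x) ^ 2 * exp (-(2 * a' * (δ * x)))) * exp (2 * a * (δ * x)) ≤
      exp (ω * x) * exp (-(15 * ω * x)) := by
    rw [mul_assoc]
    gcongr
    simp only [← exp_add, ← exp_nat_mul]
    refine exp_le_exp.2 ?_
    push_cast
    nlinarith [mul_le_mul_of_nonneg_right h6 x0]
  have a2 : C * (exp (C * (δ * x + 1)) * exp (-c' * x) ^ 2) * exp (2 * a * (δ * x)) ≤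
      exp (ω * x) * exp (-(15 * ω * x)) := by
    calc _ = C * exp C * (exp (C * (δ * x)) * exp (-c' * x) ^ 2 * exp (2 * a * (δ * x))) := by
          rw [mul_add, mul_one, exp_add]; ring
      _ ≤ _ := by
          gcongr
          simp only [← exp_add, ← exp_nat_mul]
          refine exp_le_exp.2 ?_
          push_cast
          nlinarith [mul_le_mul_of_nonneg_right h7 x0]
  have a3 : exp (ω * x) ^ 15 * exp (-(15 * ω * x)) = 1 := by
    rw [← exp_nat_mul, ← exp_add, exp_eq_one_iff]; push_cast; ring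
  have e2 : exp (2 * a * (δ * x + 1)) = exp (2 * a) * exp (2 * a * (δ * x)) := by
    rw [← exp_add]; congr 1; ring
  have p0 : 0 ≤ δ * x + 1 := by positivity
  rw [e2]
  generalize exp (e' * x) ^ 2 * exp (-(2 * a' * (δ * x))) = A at *
  generalize exp (C * (δ * x + 1)) * exp (-c' * x) ^ 2 = A' at *
  generalize exp (2 * a * (δ * x)) = E at *
  have w0 := exp_pos (-(15 * ω * x))
  generalize exp (-(15 * ω * x)) = w at *
  generalize exp (ω * x) = u at *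
  have a4 : C * (A + A') * E ≤ u * (u * w) := by nlinarith [mul_pos u0 w0]
  have a5 : 40 / η * u ^ 4 * (δ * x + 1) ^ 4 * (40 / η) ^ 3 * exp (2 * a) * (C * (A + A') * E) ≤
      u * u ^ 4 * u ^ 4 * u ^ 3 * u * (u * (u * w)) := by
    rcases le_total 0 (C * (A + A') * E) with h | h
    · gcongr
    · exact (mul_nonpos_of_nonneg_of_nonpos (by positivity) h).trans (by positivity)
  have e3 : 10 * u * (η / (40 * u) + C * (δ * x + 1) ^ 4 * (A + A') / (η / (40 * u)) ^ 3 *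
      (exp (2 * a) * E)) = η / 4 + η / 4 * (40 / η * u ^ 4 * (δ * x + 1) ^ 4 * (40 / η) ^ 3 *
        exp (2 * a) * (C * (A + A') * E)) := by field_simp; ring
  have e4 : u * u ^ 4 * u ^ 4 * u ^ 3 * u * (u * (u * w)) = 1 := by rw [← a3]; ring
  rw [e3]
  rw [e4] at a5
  nlinarith

theorem num4 {C κ δ c' ω x D m : ℝ} (hC : 0 ≤ C) (x0 : 0 ≤ x)
    (h1 : C * exp C ≤ exp (ω * x)) (h3 : 20 ≤ exp (ω * x))
    (h4 : 10 * ω + 8 * κ + 8 * (C * δ) + 6 * c' ≤ 1) (h5 : 3 * x ≤ D) (h6 : 5 / 2 * D ≤ m) :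
    10 * exp (ω * x) * ((C * exp (κ * x) * exp (C * (δ * x + 1))) ^ 8 / exp (-c' * x) ^ 6 *
      (exp x ^ 2 * (exp (-D) + (exp D * exp (-m)) ^ (2 / 3 : ℝ)))) ≤ 1 := by
  have a1 : (exp D * exp (-m)) ^ (2 / 3 : ℝ) ≤ exp (-D) := by
    rw [← exp_add, ← exp_mul]; exact exp_le_exp.2 (by linarith)
  have a2 : C * exp (κ * x) * exp (C * (δ * x + 1)) ≤ exp (ω * x) * exp ((κ + C * δ) * x) := by
    calc _ = C * exp C * exp ((κ + C * δ) * x) := by
          rw [mul_assoc, mul_assoc, ← exp_add, ← exp_add]; congr 2; ring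
      _ ≤ _ := by gcongr
  calc _ ≤ 10 * exp (ω * x) * ((exp (ω * x) * exp ((κ + C * δ) * x)) ^ 8 / exp (-c' * x) ^ 6 *
        (exp x ^ 2 * (exp (-D) + exp (-D)))) := by gcongr
    _ = 20 * (exp (ω * x) * ((exp (ω * x) * exp ((κ + C * δ) * x)) ^ 8 / exp (-c' * x) ^ 6 *
        (exp x ^ 2 * exp (-D)))) := by ring
    _ ≤ exp (ω * x) * (exp (ω * x) * ((exp (ω * x) * exp ((κ + C * δ) * x)) ^ 8 /
        exp (-c' * x) ^ 6 * (exp x ^ 2 * exp (-D)))) := by gcongr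
    _ ≤ 1 := by
        simp only [← exp_add, ← exp_nat_mul, ← exp_sub]
        refine exp_le_one_iff.2 ?_
        push_cast
        nlinarith [mul_le_mul_of_nonneg_right h4 x0]

theorem exω {p q r s : ℝ} (hp : 0 < p) (hq : 0 < q) (hr : 0 < r) (hs : 0 < s) :
    ∃ ω > (0 : ℝ), ω ≤ p ∧ ω ≤ q ∧ ω ≤ r ∧ ω ≤ s :=
  ⟨min (min p q) (min r s), by positivity, (min_le_left _ _).trans (min_le_left _ _),
    (min_le_left _ _).trans (min_le_right _ _), (min_le_right _ _).trans (min_le_left _ _),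
    (min_le_right _ _).trans (min_le_right _ _)⟩

theorem neg_mono {β a c c' e η η' : ℝ} {D : B.Fn} (hc : c' ≤ c) (hη : η' ≤ η)
    (h : Top.Whp disorderLaw fun n g => ∀ f, Warm (gibbsWeight n β g) ((n : ℝ) ^ (1 - c')) f →
      B.Paid (gibbsWeight n β g) (D n g) a η' ((n : ℝ) ^ e) (1 * log n) f) :
    Top.Whp disorderLaw fun n g => ∀ f, Warm (gibbsWeight n β g) ((n : ℝ) ^ (1 - c)) f →
      B.Paid (gibbsWeight n β g) (D n g) a η ((n : ℝ) ^ e) (1 * log n) f := by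
  refine h.mono ?_
  filter_upwards [eventually_gt_atTop 0] with n hn g h1 f hf
  have hw : ∀ x, 0 < gibbsWeight n β g x := fun x => by rw [← Reg.mu_Jmat]; exact mu_pos _ x
  exact (h1 f (hf.mono (rpow_le_rpow_of_exponent_le (by exact_mod_cast hn) (by linarith)))).mono
    hn hw hf.1 (fun _ _ => le_rfl) hη le_rfl le_rfl

theorem num5 {θ σ τ B : ℝ} (s1 : 1 / 4 ≤ θ - σ) (h1 : 76 ≤ τ) (h2 : (8 / 7 : ℝ) ^ 2 * B ≤ 4 / 5 * (θ - σ)) :
    gn θ σ (8 / 7) B τ ≤ 17 / 20 := by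
  have s2 : exp (-((θ - σ) * τ)) ≤ 1 / 20 := by
    rw [exp_neg, one_div]
    refine inv_anti₀ (by norm_num) (le_trans ?_ (add_one_le_exp _))
    nlinarith
  have s3 : (8 / 7 : ℝ) ^ 2 * B / (θ - σ) ≤ 4 / 5 := by rwa [div_le_iff₀ (by linarith)]
  unfold gn
  linarith

theorem num3 {ω x a δ e : ℝ} (x0 : 0 ≤ x) (u3 : 20 ≤ exp (ω * x)) (u4 : exp (2 * a) ≤ exp (ω * x))
    (h : 3 * ω + 2 * a * δ ≤ e) :
    20 * exp (ω * x) * exp (2 * a * (δ * x + 1)) ≤ exp (e * x) := by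
  calc _ = 20 * exp (ω * x) * exp (2 * a) * exp (2 * a * (δ * x)) := by
        rw [mul_add, mul_one, exp_add]; ring
    _ ≤ exp (ω * x) * exp (ω * x) * exp (ω * x) * exp (2 * a * (δ * x)) := by gcongr
    _ ≤ _ := by
        simp only [← exp_add]
        refine exp_le_exp.2 ?_
        nlinarith [mul_le_mul_of_nonneg_right h x0]

theorem num6 {ω x a e z : ℝ} (x0 : 0 ≤ x) (a0 : 0 < a) (hz : z ≤ 1) (h1 : 1 / a ≤ exp (ω * x))
    (h : ω ≤ e) : (z + 1) / (2 * a) ≤ exp (e * x) := by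
  calc _ ≤ (1 + 1) / (2 * a) := by gcongr
    _ = 1 / a := by field_simp; norm_num
    _ ≤ exp (ω * x) := h1
    _ ≤ _ := by gcongr

/-- the choice of the small exponents -/
structure Pa (a a' c c' C δ ω e η : ℝ) : Prop where
  a0 : 0 < a
  aa : a < a'
  c0 : 0 < c
  c1 : c ≤ 1 / 2
  c2 : 0 < c'
  C1 : 1 ≤ C
  δ0 : 0 < δ
  ω0 : 0 < ω
  η0 : 0 < η
  η1 : η ≤ 1
  i1 : 14 * ω + 7 * (c / 100) + 7 * (C * δ) + 6 * c' ≤ c / 4
  i2 : 15 * ω + 2 * ((a' - a) * δ / 2) ≤ 2 * (a' - a) * δ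
  i3 : 15 * ω + (C + 2 * a) * δ ≤ 2 * c'
  i4 : 10 * ω + 8 * (c / 100) + 8 * (C * δ) + 6 * c' ≤ 1
  i5 : 3 * ω + 2 * a * δ ≤ e
  i6 : ω ≤ e

theorem exPa {a a' c c' C e η δ0 : ℝ} (a0 : 0 < a) (aa : a < a') (hc : 0 < c) (c1 : c ≤ 1 / 2)
    (c2 : 0 < c') (c3 : c' ≤ c / 100) (C1 : 1 ≤ C) (he : 0 < e) (η0 : 0 < η) (η1 : η ≤ 1)
    (d0 : 0 < δ0) : ∃ δ ω, δ ≤ δ0 ∧ Pa a a' c c' C δ ω e η := by
  obtain ⟨δ, δp, d1, d2, d3, d4⟩ := exω d0 (show 0 < c / 100 / C by positivity)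
    (show 0 < c' / (C + 2 * a) by positivity) (show 0 < e / 2 / (2 * a) by positivity)
  rw [le_div_iff₀' (by positivity)] at d2 d3 d4
  have ad : 0 < (a' - a) * δ := mul_pos (by linarith) δp
  obtain ⟨ω, ωp, w1, w2, w3, w4⟩ := exω (show 0 < c / 300 by positivity)
    (show 0 < (a' - a) * δ / 15 by positivity) (show 0 < c' / 15 by positivity)
    (show 0 < e / 6 by positivity)
  exact ⟨δ, ω, d1, a0, aa, hc, c1, c2, C1, δp, ωp, η0, η1, by linarith, by linarith, by linarith,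
    by linarith, by linarith, by linarith⟩

/-- the step inequality with the constant `C` -/
def StepC (C : ℝ) : Prop := ∀ (n : ℕ) (W : Mx n), Ok W 1 1 →
  ∀ (ρ : ℝ → ℝ) (θ θ' k τ m a Ko ε Λ p σ B D L η : ℝ) (f : Cube n → ℝ), Dec W θ θ' (k ^ 3) →
  Facts W ρ (τ + 1) m a Ko ε Λ p σ B → Warm (mu W) D f → 0 < k → 0 ≤ τ → 0 < m → 0 ≤ a →
  2 * a ≤ θ' → 0 ≤ σ → σ < θ → 0 ≤ Ko → 0 < ε → ε ≤ 1 → 1 ≤ Λ → 0 ≤ p → 0 ≤ D → 1 ≤ L → 0 < η →
  η ≤ 1 → (C * Λ * exp (C * (τ + 1))) ^ 7 * √((D + L) / m) ≤ ε ^ 6 * η ^ 3 → ∀ r ≥ τ + 1,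
  (19 / 20 - 2 / 3 * gn θ σ k B τ) * X3 W (sg (mu W) r f) ≤
    1 / 3 * AA (fun s => X3 W (sg (mu W) s f)) ρ θ σ k τ r + η * II (mu W) (sg (mu W) r f) +
    C * (τ + 1) ^ 4 * (Ko ^ 2 * exp (-(2 * a * τ)) + exp (C * (τ + 1)) * ε ^ 2) / η ^ 3 *
      (∫ s in τ..(τ + 1), II (mu W) (sg (mu W) (r - s) f)) +
    (C * Λ * exp (C * (τ + 1))) ^ 8 / ε ^ 6 * (n ^ 2 * (exp (-L) + (exp D * p) ^ (2 / 3 : ℝ)))

theorem fix (hW : Ok W 1 1) (red : RedStmt) (cont : ContStmt) (loop : LoopStmt)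
    {a a' c c' C δ ω e η CH θ θ' Bb x T : ℝ} (step : StepC C) (pa : Pa a a' c c' C δ ω e η)
    (x0 : 0 ≤ x) (en : (n : ℝ) = exp x) (CH1 : 1 ≤ CH)
    (hb : ∀ f, (∀ x, 0 < f x) → mean (mu W) f = 1 → ∀ R ≥ (0 : ℝ),
      ev W f (G0 W R) ≤ CH * (ent (mu W) f + n ^ 2 * exp (-(R ^ 2 / CH))))
    (de : Dec W θ θ' ((8 / 7) ^ 3)) (s0 : 2 * a' ≤ θ') (s1 : 1 / 4 ≤ θ - 2 * a / 3)
    (s2 : (8 / 7 : ℝ) ^ 2 * Bb ≤ 4 / 5 * (θ - 2 * a / 3)) {ρ : ℝ → ℝ}
    (fa : Facts W ρ (δ * x + 1) (exp ((1 - c / 2) * x)) a' (exp ((a' - a) * δ / 2 * x))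
      (exp (-c' * x)) (exp (c / 100 * x)) (exp (-exp ((1 - c / 2) * x))) (2 * a / 3) Bb)
    (v1 : (1 + 12 * CH / η + (64 / η) ^ 3 + 18 * CH / ω) ^ 2 ≤ x) (v2 : 76 ≤ δ * x)
    (v3 : C * exp C + 40 / η + exp (2 * a) + 1 / a + 20 ≤ exp (ω * x))
    (v4 : 2 * δ * x ≤ exp (ω * x)) (v5 : 3 * x ≤ exp ((1 - c) * x))
    (v6 : 5 / 2 * exp ((1 - c) * x) ≤ exp ((1 - c / 2) * x))
    {f : Cube n → ℝ} (hf : Warm (mu W) (exp ((1 - c) * x)) f) :
    B.Paid (mu W) (fun f => B.Df (B.dn (mu W) f) (mu W)) a η (exp (e * x)) T f := by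
  have a0 := pa.a0
  have hη := pa.η0
  have C0 : 0 ≤ C := zero_le_one.trans pa.C1
  have δp := pa.δ0
  have c0 := pa.c0
  obtain ⟨R, R1, R0, R2, R3⟩ := numR CH1 hη pa.ω0 v1
  have t1 : 0 ≤ C * exp C := by positivity
  have t2 : 0 ≤ 40 / η := by positivity
  have t3 : 0 ≤ exp (2 * a) := by positivity
  have t4 : 0 ≤ 1 / a := by positivity
  have u1 : C * exp C ≤ exp (ω * x) := by linarith only [v3, t2, t3, t4]
  have u2 : 40 / η ≤ exp (ω * x) := by linarith only [v3, t1, t3, t4]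
  have u3 : 20 ≤ exp (ω * x) := by linarith only [v3, t1, t2, t3, t4]
  have u4 : exp (2 * a) ≤ exp (ω * x) := by linarith only [v3, t1, t2, t4]
  have u5 : 1 / a ≤ exp (ω * x) := by linarith only [v3, t1, t2, t3]
  have u6 : 2 ≤ exp (ω * x) := by linarith only [u3]
  have u7 : δ * x + 1 ≤ exp (ω * x) := by linarith only [v4, v2]
  have D1 : 1 ≤ exp ((1 - c) * x) := one_le_exp (mul_nonneg (by linarith only [pa.c1]) x0)
  have y1 : exp (-c' * x) ≤ 1 :=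
    exp_le_one_iff.2 (mul_nonpos_of_nonpos_of_nonneg (neg_nonpos.2 pa.c2.le) x0)
  have y2 : η / (40 * exp (ω * x)) ≤ 1 := by
    rw [div_le_one (by positivity)]; linarith only [u3, pa.η1]
  have y3 : 2 * a / 3 < θ := by linarith only [s1]
  have y4 : 0 ≤ δ * x := by positivity
  have y5 : 0 < η / (40 * exp (ω * x)) := by positivity
  have st := step n W hW ρ θ θ' (8 / 7) (δ * x) (exp ((1 - c / 2) * x)) a'
    (exp ((a' - a) * δ / 2 * x)) (exp (-c' * x)) (exp (c / 100 * x))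
    (exp (-exp ((1 - c / 2) * x))) (2 * a / 3) Bb (exp ((1 - c) * x))
    (exp ((1 - c) * x)) (η / (40 * exp (ω * x))) f de fa hf (by norm_num) y4
    (exp_pos _) (a0.trans pa.aa).le s0 (by positivity) y3 (exp_pos _).le
    (exp_pos _) y1 (one_le_exp (by positivity)) (exp_pos _).le
    (exp_pos _).le D1 y5 y2 (num1 C0 x0 hη u1 u2 u6 pa.i1)
  have n4 := num4 C0 x0 u1 u3 pa.i4 v5 v6
  rw [← en] at n4 R0
  refine core hW red cont loop hf.1 hf.2.1 (CH := CH) (fun g g1 g2 => ?_) fa.cont fa.nn fa.int a0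
    y3 y4 y5.le (by positivity) (by positivity) (num5 s1 v2 s2) st hη pa.η1 R1 R2
    R3 (num2 C0 x0 hη δp.le u1 u2 u6 u4 u7 pa.i2 pa.i3) (num3 x0 u3 u4 pa.i5)
    (num6 x0 a0 n4 u5 pa.i6)
  have := hb g g1 g2 R (zero_le_one.trans R1)
  rwa [R0] at this

theorem numβ {β l a a' : ℝ} (b0 : 0 < β) (b1 : β < 1) (hl : l ≤ (1 - β) ^ 2) (l2 : 1 / 2 < l)
    (aa : a < a') (al : a' < l) : β ≤ 3 / 10 ∧ β + β / 1000 ≤ 1 ∧
      64 / 27 * (β + β / 1000) ^ 2 + β ^ 2 / 100 ≤ 12 / 5 * β ^ 2 ∧ 3 / 2 * (12 / 5 * β ^ 2) < 1 ∧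
      1 ≤ (8 / 7 : ℝ) ^ 3 * (1 - 3 / 2 * (12 / 5 * β ^ 2)) ∧ 2 * a' ≤ 2 - 12 / 5 * β ^ 2 ∧
      1 / 4 ≤ 1 - 12 / 5 * β ^ 2 - 2 * a / 3 ∧
      (8 / 7 : ℝ) ^ 2 * (3 * β ^ 2 + 1 / 1000) ≤ 4 / 5 * (1 - 12 / 5 * β ^ 2 - 2 * a / 3) := by
  have b3 : β ≤ 3 / 10 := by
    by_contra hh
    have := lt_of_not_ge hh
    nlinarith
  obtain ⟨g1, -, g3, g4⟩ := S6k.gain_num (b2 := β ^ 2) (Rh := 3 * β ^ 2 + 1 / 1000) b0.le l2.le hl
    b1.le (by linarith) le_rfl
  exact ⟨b3, by linarith, by nlinarith, by nlinarith, g3, by nlinarith, by linarith, by linarith⟩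

end L45

open L45 in
theorem locGlue : LocGlue := by
  intro hA nice ok red hb dec cont step loop facts β l 𝒬 b0 b1 hl q1 q2 q3 l2 a a0 al c0 hc0
  refine ⟨1, one_pos, fun e he η0 hη0 => ?_⟩
  refine neg_mono (min_le_left c0 (1 / 2)) (min_le_left η0 1) ?_
  obtain ⟨c, hc, c1, hcc⟩ : ∃ c > (0 : ℝ), c ≤ 1 / 2 ∧ min c0 (1 / 2) = c :=
    ⟨_, lt_min hc0 (by norm_num), min_le_right _ _, rfl⟩
  obtain ⟨η, hη, η1, hηη⟩ : ∃ η > (0 : ℝ), η ≤ 1 ∧ min η0 1 = η :=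
    ⟨_, lt_min hη0 one_pos, min_le_right _ _, rfl⟩
  rw [hcc, hηη]
  obtain ⟨a', aa, a'l⟩ := exists_between al
  obtain ⟨b3, b4, b5, b6, b7, b8, b9, b10⟩ := numβ b0 b1 hl l2 aa a'l
  obtain ⟨K1, k1, hA⟩ := hA β b0.le b1
  obtain ⟨K2, k2, nice⟩ := nice
  obtain ⟨CH, CH1, hb⟩ := hb (K1 + K2) (add_pos k1 k2)
  obtain ⟨e0, e00, dec⟩ := dec (β ^ 2 / 100) (by positivity)
  obtain ⟨C, C1, step⟩ := step
  obtain ⟨c', c'0, c'1, facts⟩ := facts β l 𝒬 b0 b1 l2 hl q1 q2 q3 a a' a0 aa a'l (1 / 1000)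
    (by norm_num) c hc (by linarith only [c1])
  obtain ⟨δ0, δ00, facts⟩ := facts (c / 100) (by positivity)
  obtain ⟨δ, ω, d1, pa⟩ := exPa a0 aa hc c1 c'0 c'1 C1 he hη η1 δ00
  have δp := pa.δ0
  refine (((hA.and nice).and (ok β b0 b3 (β / 1000) (by positivity) (min e0 1)
    (lt_min e00 one_pos))).and (facts δ δp d1 ((a' - a) * δ / 2)
      (half_pos (mul_pos (sub_pos.2 aa) δp)))).mono ?_
  filter_upwards [eventually_gt_atTop 0,
    ev_log ((1 + 12 * CH / η + (64 / η) ^ 3 + 18 * CH / ω) ^ 2), ev_log (76 / δ),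
    ev_le (C * exp C + 40 / η + exp (2 * a) + 1 / a + 20) pa.ω0, B.ev_log_le (2 * δ) pa.ω0,
    B.ev_log_le 3 (show 0 < 1 - c by linarith only [c1]),
    B.ev_mul (5 / 2) (show 1 - c < 1 - c / 2 by linarith only [hc])]
    with n hn v1 v2 v3 v4 v5 v6 g ⟨⟨⟨at1, ni⟩, ok⟩, ρ, fa⟩ f hf
  have hn' : (0 : ℝ) < n := by exact_mod_cast hn
  have ni := ni β b0.le b1.le
  rw [← Reg.mu_Jmat] at at1 hf
  have goal : B.DfF β n g = fun f => B.Df (B.dn (mu (β • Jmat n g)) f) (mu (β • Jmat n g)) := by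
    ext f; rw [B.DfF, Reg.mu_Jmat]
  rw [goal, ← Reg.mu_Jmat]
  generalize β • Jmat n g = W at *
  simp only [rp hn] at v3 v4 v5 v6 fa hf ⊢
  have bb0 : 0 ≤ β + β / 1000 := by positivity
  have ok1 : Ok W 1 1 := ok_mono ok bb0 b4 (min_le_right _ _)
  rw [div_le_iff₀' δp] at v2
  exact fix ok1 red cont loop step pa (log_natCast_nonneg n) (exp_log hn').symm CH1
    (hb n W ok1 (Reg.Nice.mono ni (le_add_of_nonneg_left k1.le))
      (at1.mono (mu_pos W) (le_add_of_nonneg_right k2.le) le_rfl))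
    (dec n W _ _ (ok_mono ok bb0 le_rfl (min_le_left _ _)) b5 b6 _ b7) b8 b9 b10 fa
    v1 v2 v3 v4 v5 v6 hf

end Crest.Agent.T157.S6a

end
end

-- ▼ part T157/ZBrK_32
section

/-!
# Row 157, part B, kernel route (helper32): the observables `K.phi` are in the family `Zf.FF`
-/

set_option autoImplicit false

noncomputable section

namespace Crest.Agent.T157.Zf

open MeasureTheory Matrix Set
open Crest.ProbabilityR.SpinGlassDynamics
open Crest.Agent.T157.E Crest.Agent.T157.Eig Crest.Agent.T157.Tap Crest.Agent.T157.Z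

namespace Br32

variable {n m : ℕ}

lemma tJ_tJ (J : Mx n) : tJ (tJ J) = tJ J := (lipStmt.tJ_le n _).2 (lipStmt.tJ_le n J).1

/-- networks see only the truncated couplings -/
lemma net_tJ {ι : Type} {sm : Prop} {X : Nt ι} (h : Nw sm X) (n : ℕ) (J : Mx n) (a : ι → V n) :
    X n (tJ J) a = X n J a := by
  induction h with
  | inp j => rfl
  | map φ X _ _ _ ih => simp only [ih]
  | mul X _ _ ih => simp only [ih, tJ_tJ]
  | sc X Y Z _ _ _ _ _ _ h1 h2 h3 => simp only [h1, h2, h3]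

lemma tJ_symm {J : Mx n} (h : Jᵀ = J) : (tJ J)ᵀ = tJ J := by rw [tJ, transpose_smul, h]

lemma g1 {J : Mx n} (h : Jᵀ = J) : Sq.G1 (AA J) :=
  Sq.g1_shift (herm_iff.2 (tJ_symm h)) (lipStmt.tJ_le n J).1 (by norm_num)

lemma xr_eq {J : Mx n} (h : Jᵀ = J) (s : Cube n) (y z : V n) :
    xr J s y z = y + QQ J *ᵥ (QQ J *ᵥ sv s + z) := by
  rw [xr, mulVec_add, mulVec_mulVec, QQ, (g1 h).mul, add_assoc]

/-- the change of rows `(x, y) ↦ (x - y, y)` -/
def T (m : ℕ) : Matrix (Bool ⊕ Fin m) (Fin 2 ⊕ Fin m) ℝ :=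
  fromBlocks (of fun b => if b then ![1, -1] else ![0, 1]) 0 0 1

lemma lc_T (x y : V n) (w : Fin m × Fin n → ℝ) :
    lc (T m) (lab2 x y w) = K.lab2 (x - y) y w := by
  funext l i
  rcases l with (_ | _) | l <;>
    simp [lc, T, lab2, K.lab2, Fintype.sum_sum_type, one_apply, sub_eq_add_neg]

/-- the network in the rows `(x, y)` -/
def XE (E : Nt (Bool ⊕ Fin m)) : Nt (Fin 2 ⊕ Fin m) := fun n J a => E n J (lc (T m) a)

lemma Eb2_XE {E : Nt (Bool ⊕ Fin m)} (h : Nw True E) (J : Mx n) (x y : V n) :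
    Eb2 (XE E) n J (y + x) y = K.Eh E n (tJ J) x y := by
  funext i
  simp only [Eb2, XE, K.Eh, lc_T, net_tJ h, add_sub_cancel_left]

lemma mean_cm (w f : Cube n → ℝ) (c : ℝ) : mean w (fun x => c * f x) = c * mean w f := by
  simp only [mean, Finset.mul_sum, mul_left_comm]

lemma Ky_iter {J : Mx n} (h : Jᵀ = J) (f : Sf) (g : K.F2 n) (c : ℝ)
    (e : ∀ s y, f n J s y = c * g s y) (l : ℕ) (s : Cube n) (y : V n) :
    Ky^[l] f n J s y = c * (K.Ky (QQ J) y)^[l] (fun t => g t y) s := by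
  induction l generalizing s with
  | zero => exact e s y
  | succ l ih =>
    simp only [Function.iterate_succ_apply', Ky, ih, mean_cm, integral_const_mul, xr_eq h]
    rfl

end Br32

open Br32

/-- **the bridge** -/
theorem phi_eq {m : ℕ} {E : Nt (Bool ⊕ Fin m)} (hE : Nw True E) (k : ℕ) (r : ℝ) {n : ℕ} {J : Mx n}
    (h : Jᵀ = J) : K.phi (QQ J) (K.Eh E n (tJ J)) k r = Ph r k (XE E) n J := by
  funext s
  have e : ∀ s y, Ps0 (XE E) n J s y = (√(n : ℝ))⁻¹ * K.psi0 (QQ J) (K.Eh E n (tJ J)) s y :=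
    fun s y => by
      simp only [Ps0, xr_eq h, Eb2_XE hE, div_eq_inv_mul]
      rfl
  simp only [K.phi, Ph, Ew, Psk, Ky_iter h _ _ _ e, ← Finset.mul_sum, integral_const_mul,
    div_eq_inv_mul, K.psi, K.Ks, Finset.sum_apply]

theorem XE_mem {m : ℕ} {E : Nt (Bool ⊕ Fin m)} (hE : Nw True E) (hB : Bd E) (k : ℕ) {r : ℝ}
    (hr : 0 ≤ r) : Ph r k (XE E) ∈ FF :=
  ⟨r, hr, k, m, XE E, lipStmt.comp _ _ _ E (fun j _ _ a => lc (T m) a j) hE
    fun j => lipStmt.lin _ _ _ (T m) j, hB.imp fun _ hM n J _ i => hM n J _ i, rfl⟩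

/-- the observables of the kernel have limits -/
theorem limK (h : FOut) {β : ℝ} (h0 : 0 ≤ β) (h1 : β < 1) {m : ℕ} {E : Nt (Bool ⊕ Fin m)}
    (hE : Nw True E) (hB : Bd E) (k : ℕ) {r : ℝ} (hr : 0 ≤ r) : Lm.Lim β (Lm.Of.ob β fun n J =>
      K.phi (Sq.rt (tJ J + (4 : ℝ) • (1 : Mx n))) (K.Eh E n (tJ J)) k r) := by
  convert h β h0 h1 _ (XE_mem hE hB k hr) using 1
  funext n g
  exact phi_eq hE k r (by rw [transpose_smul, Jmat_transpose])

end Crest.Agent.T157.Zf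

end
end

-- ▼ part T157/DecG_74
section

/-!
# Row 157, part B (helper74): (Dec) from a regular field and spectral decay
-/

set_option autoImplicit false

noncomputable section

namespace Crest.Agent.T157.Dc

open Matrix Real Filter Topology Finset
open Crest.ProbabilityR.SpinGlassDynamics (Pair disorderLaw gibbsWeight)
open Crest.Agent.T157.E hiding mean
open Crest.Agent.T157.Tap (V Mx)
open Crest.Agent.T157.Rec (grad fl GR)
open Crest.Agent.T157.Chain22 (sg IsP mean ip isP_prob')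
open Crest.Agent.T157.Rv (Warm II At0)
open Crest.Agent.T157.Top (Whp)
open Crest.Agent.T157.Low (Gm)
open Crest.Agent.T157.Reg

variable {n : ℕ}

/-! ### words -/

/-- regular collective observable, general form -/
def ColW (β : ℝ) (Φ : B.Ob) : Prop := ∀ c > (0 : ℝ), ∀ e > (0 : ℝ), Whp disorderLaw fun n g =>
  ∃ (N ρ : ℝ) (ω : VF n), 1 ≤ N ∧ N ≤ (n : ℝ) ^ e ∧ ρ * N ≤ e ∧
    |E.mean (gibbsWeight n β g) (Φ n g)| ≤ (n : ℝ) ^ e ∧ (∀ x, |Φ n g x| ≤ √n * (n : ℝ) ^ e) ∧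
    (∀ v, Wm (gibbsWeight n β g) ((n : ℝ) ^ (1 - c)) v → mean v (sq2 (grad (Φ n g))) ≤ N) ∧
    Fld (gibbsWeight n β g) (Φ n g) ω ((n : ℝ) ^ (e - 1 / 2)) ρ ((n : ℝ) ^ (1 - c))

/-- regular collective observable, qualitative form -/
def Col (β : ℝ) (Φ : B.Ob) : Prop := ∀ c > (0 : ℝ), ∀ ε > (0 : ℝ), ∃ C : ℝ,
  Whp disorderLaw fun n g => |E.mean (gibbsWeight n β g) (Φ n g)| ≤ C ∧
    (∀ x, |Φ n g x| ≤ C * √n) ∧
    ∃ ω, Fld (gibbsWeight n β g) (Φ n g) ω (C / √n) ε ((n : ℝ) ^ (1 - c))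

/-- regular collective observable, polynomial form (the words of `Reg.LBF`) -/
def ColP (β : ℝ) (Φ : B.Ob) : Prop := ∀ c > (0 : ℝ), ∃ c' > (0 : ℝ), ∀ e > (0 : ℝ),
  Whp disorderLaw fun n g => |E.mean (gibbsWeight n β g) (Φ n g)| ≤ (n : ℝ) ^ e ∧
    (∀ x, |Φ n g x| ≤ √n * (n : ℝ) ^ e) ∧ ∃ ω, Fld (gibbsWeight n β g) (Φ n g) ω
      ((n : ℝ) ^ (e - 1 / 2)) ((n : ℝ) ^ (-c')) ((n : ℝ) ^ (1 - c))

/-- spectral decay, Dirichlet form -/
def Spc (β lam : ℝ) (Φ : B.Ob) : Prop := ∀ a > (0 : ℝ), a < lam → ∀ η > (0 : ℝ), ∃ τ ≥ (0 : ℝ),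
  Whp disorderLaw fun n g =>
    dir (gibbsWeight n β g) (sg (gibbsWeight n β g) τ (Φ n g)) ≤ η * exp (-(2 * a * τ))


/-! ### deterministic part -/

section det

variable {w f G X Φ : Cube n → ℝ} {K B σ H H1 : ℝ}

theorem mgf_le (hn : 0 < n) (hw : ∀ x, 0 < w x) (hK : 0 < K) (hT : Ent.AT w K 0)
    (h0 : E.mean w X = 0) (hB : ∀ x, |X x| ≤ B)
    (h : ∀ g, Warm w H g → E.mean w (fun x => g x * Gm w X X x) ≤ σ) {t : ℝ} (ht : |t| * B ≤ H) :
    mean (prob w) (fun x => exp (t * X x)) ≤ exp (K * σ * t ^ 2) := by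
  have hp := isP_prob' hw
  set Z := mean (prob w) fun x => exp (t * X x) with hZ
  have m0 : E.mean w (fun x => t * X x) = 0 := by
    have : E.mean w (fun x => t * X x) = t * E.mean w X := by
      simp only [E.mean, mul_sum]; exact sum_congr rfl fun x _ => by ring
    rw [this, h0, mul_zero]
  have Z1 : 1 ≤ Z := by
    have e : mean (prob w) (fun x => t * X x + 1) = 1 := by
      have : mean (prob w) (fun x => t * X x + 1) = E.mean w (fun x => t * X x) + ∑ x, prob w x := by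
        simp only [E.mean, Chain22.mean, mul_add, sum_add_distrib, mul_one]
      rw [this, m0, hp.sum1, zero_add]
    exact e.symm.trans_le (hp.mean_mono fun x => add_one_le_exp _)
  have Z0 : 0 < Z := by linarith
  have g1 : E.mean w (fun x => exp (t * X x) / Z) = 1 := by
    have : E.mean w (fun x => exp (t * X x) / Z) = Z / Z := by
      rw [hZ]; simp only [E.mean, Chain22.mean, sum_div, mul_div_assoc]
    rw [this, div_self Z0.ne']
  have hg : Warm w H fun x => exp (t * X x) / Z := ⟨fun x => by positivity, g1, fun x =>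
    (div_le_self (exp_pos _).le Z1).trans (exp_le_exp.2 ((le_abs_self _).trans (by
      rw [abs_mul]; exact (mul_le_mul_of_nonneg_left (hB x) (abs_nonneg t)).trans ht)))⟩
  have k := Low.t1 (F := fun x => t * X x) (σ := t ^ 2 * σ) (θ := 1 / 2) hn hw hK hT hg
    (by norm_num) fun g hg' => by
      have e : E.mean w (fun x => g x * Gm w (fun x => t * X x) (fun x => t * X x) x) =
          t ^ 2 * E.mean w fun x => g x * Gm w X X x := by
        simp only [E.mean, Gm, mul_sum]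
        exact sum_congr rfl fun x _ => sum_congr rfl fun y _ => by ring
      rw [e]
      exact mul_le_mul_of_nonneg_left (h g hg') (sq_nonneg t)
  have e2 : ent w (fun x => exp (t * X x) / Z) =
      E.mean w (fun x => exp (t * X x) / Z * (t * X x)) - log Z := by
    have e3 : E.mean w (fun x => exp (t * X x) / Z * log (exp (t * X x) / Z)) =
        E.mean w (fun x => exp (t * X x) / Z * (t * X x)) -
          E.mean w (fun x => exp (t * X x) / Z) * log Z := by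
      simp only [E.mean, sum_mul, ← sum_sub_distrib]
      refine sum_congr rfl fun x _ => ?_
      rw [log_div (exp_pos _).ne' Z0.ne', log_exp]; ring
    change E.mean w (fun x => exp (t * X x) / Z * log (exp (t * X x) / Z)) - _ = _
    rw [e3, g1]; simp
  rw [e2, m0] at k
  rw [← log_le_iff_le_exp Z0]
  linarith

theorem sq_le (hn : 0 < n) (hw : ∀ x, 0 < w x) (hK : 0 < K) (hT : Ent.AT w K 0) (B0 : 0 < B)
    (σ0 : 0 < σ) (H0 : 0 ≤ H) (hB : ∀ x, |G x| ≤ B)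
    (h : ∀ g, Warm w H g → E.mean w (fun x => g x * Gm w G G x) ≤ σ) (hf : Warm w H1 f) :
    E.mean w (fun x => f x * G x ^ 2) ≤ 16 * K * σ * (ent w f + 1) +
      16 * B ^ 2 * exp (H1 - K * σ * (H / (2 * B)) ^ 2) + 2 * E.mean w G ^ 2 := by
  have hp := isP_prob' hw
  set m := E.mean w G with hm
  have mB : |m| ≤ B := abs_le.2 ⟨(hp.mean_const (-B)).symm.trans_le
    (hp.mean_mono fun x => (abs_le.1 (hB x)).1),
    (hp.mean_mono fun x => (abs_le.1 (hB x)).2).trans_eq (hp.mean_const B)⟩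
  have b2 : ∀ x, |G x - m| ≤ 2 * B := fun x =>
    (abs_sub _ _).trans (by linarith [hB x])
  have h0 : E.mean w (fun x => G x - m) = 0 := by
    have : E.mean w (fun x => G x - m) = m - (∑ x, prob w x) * m := by
      simp only [hm, E.mean, mul_sub, sum_sub_distrib, sum_mul]
    rw [this, hp.sum1]; ring
  have hv := Col13.wm_of hw hf
  have k := Sb51.sq_le_of_mgf (X := fun x => G x - m) (c := 2 * K * σ) (t0 := H / (2 * B)) hp hv.1
    (by positivity) (by positivity) b2 hv.2 fun t ht => by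
      refine (mgf_le (σ := σ) (H := H) hn hw hK hT h0 b2 (fun g hg => ?_) ?_).trans_eq
        (by congr 1; ring)
      · simpa only [Gm, sub_sub_sub_cancel_right] using h g hg
      · rwa [le_div_iff₀ (by positivity)] at ht
  rw [← Ent.ent_eq_kl hf.2.1, ← Chain22.eent_eq] at k
  rw [Col13.mean_of]
  have k2 : mean (fun x => prob w x * f x) (fun x => G x ^ 2) ≤
      mean (fun x => prob w x * f x) fun x => 2 * (G x - m) ^ 2 + 2 * m ^ 2 :=
    hv.1.mean_mono fun x => by nlinarith [sq_nonneg (G x - 2 * m)]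
  have k3 : (mean (fun x => prob w x * f x) fun x => 2 * (G x - m) ^ 2 + 2 * m ^ 2) =
      2 * mean (fun x => prob w x * f x) (fun x => (G x - m) ^ 2) +
        (∑ x, prob w x * f x) * (2 * m ^ 2) := by
    simp only [Chain22.mean, mul_sum, sum_mul, ← sum_add_distrib]
    exact sum_congr rfl fun x _ => by ring
  rw [k3, hv.1.sum1] at k2
  rw [show 2 * K * σ / 2 = K * σ by ring] at k
  linarith

theorem sq2_mean {p : Cube n → ℝ} (hp : IsP p) (ξ ω : VF n) :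
    mean p (sq2 ω) ≤ 2 * mean p (sq2 (ξ - ω)) + 2 * mean p (sq2 ξ) ∧
      mean p (sq2 ξ) ≤ 2 * mean p (sq2 (ξ - ω)) + 2 * mean p (sq2 ω) := by
  have e : ∀ a b : VF n, 2 * mean p (sq2 a) + 2 * mean p (sq2 b) =
      mean p fun x => ∑ i, (2 * (a x i * a x i) + 2 * (b x i * b x i)) := fun a b => by
    simp only [Chain22.mean, sq2, dotProduct, mul_sum, ← sum_add_distrib]
    exact sum_congr rfl fun x _ => sum_congr rfl fun i _ => by ring
  rw [e, e]
  constructor <;> refine hp.mean_mono fun x => ?_ <;> simp only [sq2, dotProduct] <;>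
    refine sum_le_sum fun i _ => ?_ <;> simp only [Pi.sub_apply]
  · nlinarith [sq_nonneg (2 * ξ x i - ω x i)]
  · nlinarith [sq_nonneg (ξ x i - 2 * ω x i)]

theorem sq2_nn (ω : VF n) (x : Cube n) : 0 ≤ sq2 ω x := by
  unfold sq2 dotProduct; exact sum_nonneg fun _ _ => mul_self_nonneg _

theorem wm_self (hw : ∀ x, 0 < w x) (H0 : 0 ≤ H) : Wm w H (prob w) :=
  ⟨isP_prob' hw, fun x => le_mul_of_one_le_left ((isP_prob' hw).nn x) (one_le_exp H0)⟩

theorem wm_mono {v : Cube n → ℝ} (hw : ∀ x, 0 < w x) (h : Wm w H1 v) (hH : H1 ≤ H) : Wm w H v :=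
  ⟨h.1, fun x => (h.2 x).trans
    (mul_le_mul_of_nonneg_right (exp_le_exp.2 hH) ((isP_prob' hw).nn x))⟩

theorem fld_mono {ω : VF n} {e e' ρ ρ' : ℝ} (hw : ∀ x, 0 < w x) (h : Fld w Φ ω e ρ H) (h1 : e ≤ e')
    (h2 : ρ ≤ ρ') (h3 : H1 ≤ H) : Fld w Φ ω e' ρ' H1 :=
  ⟨h.odd, fun x i => (h.sup x i).trans h1, fun x => (h.op x).trans h1,
    fun v hv => (h.cl v (wm_mono hw hv h3)).trans h2⟩

theorem fld_grad {ω : VF n} {e ρ : ℝ} (h : Fld w Φ ω e ρ H) {v : Cube n → ℝ} (hv : Wm w H v) :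
    mean v (sq2 (grad Φ)) ≤ 2 * ρ + 2 * (n * e ^ 2) := by
  have k : mean v (sq2 ω) ≤ n * e ^ 2 := by
    refine (hv.1.mean_mono (g := fun _ => n * e ^ 2) fun x => ?_).trans_eq (hv.1.mean_const _)
    calc sq2 ω x = ∑ i, ω x i * ω x i := rfl
      _ ≤ ∑ _i : Fin n, e ^ 2 := sum_le_sum fun i _ => by
          rw [← sq, ← sq_abs]; exact pow_le_pow_left₀ (abs_nonneg _) (h.sup x i) 2
      _ = _ := by simp
  linarith [(sq2_mean hv.1 (grad Φ) ω).2, h.cl v hv]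

/-- the numerics of the weighted gradient bound -/
theorem num {C2 X Y N r ρ a b c S d : ℝ} (c2 : 1 ≤ C2) (X1 : 1 ≤ X) (Y1 : 1 ≤ Y) (N1 : 1 ≤ N)
    (r0 : 0 < r) (r1 : r ≤ 1) (ρ0 : 0 ≤ ρ) (a0 : 0 ≤ a) (b0 : 0 ≤ b) (h1 : ρ * N ≤ r ^ 2)
    (h2 : a * N ≤ r ^ 2) (h3 : b * N ≤ r ^ 2) (h4 : S ≤ r ^ 2) (hc : c = X * (ρ + a + b) + r ^ 2 / N)
    (hd : d = 2 * c + 2 * (Y * N)) :
    C2 * (c + √(c * (d + X ^ 2 * b)) + X ^ 2 * S) ≤ 12 * C2 * X ^ 2 * Y * r := by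
  have N0 : 0 < N := by linarith
  have c0 : 0 ≤ c := by rw [hc]; positivity
  have r2 : r ^ 2 ≤ r := by nlinarith
  have X2 : X ≤ X ^ 2 := by nlinarith
  have k1 : c * N ≤ 4 * X * r ^ 2 := by
    have : c * N = X * (ρ * N + a * N + b * N) + r ^ 2 := by rw [hc]; field_simp
    rw [this]
    nlinarith [mul_le_mul_of_nonneg_left (add_le_add (add_le_add h1 h2) h3) (by linarith : 0 ≤ X),
      sq_nonneg r]
  have k2 : c ≤ 4 * X * r ^ 2 := (le_mul_of_one_le_right c0 N1).trans k1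
  have k3 : b ≤ 1 := by nlinarith [le_mul_of_one_le_right b0 N1]
  have XY : X ^ 2 ≤ X ^ 2 * Y := le_mul_of_one_le_right (by positivity) Y1
  have YX : Y ≤ X ^ 2 * Y := le_mul_of_one_le_left (by linarith) (by linarith)
  have k4 : d + X ^ 2 * b ≤ 11 * (X ^ 2 * Y) * N := by
    have q1 : c ≤ 4 * X ^ 2 := by nlinarith
    have q2 : X ^ 2 * b ≤ X ^ 2 := mul_le_of_le_one_right (by positivity) k3
    have q3 : X ^ 2 * Y ≤ X ^ 2 * Y * N := le_mul_of_one_le_right (by positivity) N1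
    have q4 := mul_le_mul_of_nonneg_right YX N0.le
    rw [hd]; linarith
  have k5 : √(c * (d + X ^ 2 * b)) ≤ 7 * (X ^ 2 * Y) * r := by
    refine sqrt_le_iff.2 ⟨by positivity, (mul_le_mul_of_nonneg_left k4 c0).trans ?_⟩
    have q1 := mul_le_mul_of_nonneg_right k1 (show 0 ≤ 11 * (X ^ 2 * Y) by positivity)
    have q2 := mul_le_mul_of_nonneg_right (X2.trans XY)
      (show 0 ≤ X ^ 2 * Y * r ^ 2 by positivity)
    have q3 : 0 ≤ X ^ 2 * Y * (X ^ 2 * Y * r ^ 2) := by positivity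
    nlinarith
  have k6 : c ≤ 4 * (X ^ 2 * Y) * r := k2.trans (mul_le_mul (by linarith) r2 (by positivity)
    (by positivity))
  have k7 : X ^ 2 * S ≤ X ^ 2 * Y * r := (mul_le_mul_of_nonneg_left (h4.trans r2) (by positivity)).trans
    (mul_le_mul_of_nonneg_right XY r0.le)
  calc _ ≤ C2 * (12 * (X ^ 2 * Y) * r) := mul_le_mul_of_nonneg_left (by linarith) (by linarith)
    _ = _ := by ring

/-- **weighted gradient of `P_τ Φ` at warm laws** -/
theorem core (hK : 0 < K) {C3 τ : ℝ} (c3 : 0 ≤ C3) (τ0 : 0 ≤ τ) : ∃ Z > (0 : ℝ), ∀ (n : ℕ) (W : Mx n),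
    0 < n → Nice W K → Ent.AT (mu W) K 0 → GR (mu W) C3 → (∀ x, 0 < mu W x) →
    ∀ (Φ : Cube n → ℝ) (ω : VF n) (e ρ H L N r : ℝ), 0 < e → 0 ≤ H → 1 ≤ L → 1 ≤ N → 0 < r → r ≤ 1 →
    Fld (mu W) Φ ω e ρ H → mean (prob (mu W)) (sq2 (grad Φ)) ≤ N → ρ * N ≤ r ^ 2 →
    n * e ^ 2 / L ^ 2 * N ≤ r ^ 2 → L ^ 2 * e ^ 2 * H * N ≤ r ^ 2 →
    L ^ 2 * e ^ 2 * √(n * (H + 1)) ≤ r ^ 2 → ∀ g, Warm (mu W) H g →
    E.mean (mu W) (fun x => g x * Gm (mu W) (sg (mu W) τ Φ) (sg (mu W) τ Φ) x) ≤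
      dir (mu W) (sg (mu W) τ Φ) + Z * r := by
  obtain ⟨C1, c1, R1⟩ := All.regS K hK
  obtain ⟨C2, c2, R2⟩ := All.rgStmt K hK
  set X := C1 * exp (C1 * τ) with hX
  have X1 : 1 ≤ X := one_le_mul_of_one_le_of_one_le c1 (one_le_exp (by positivity))
  have Y1 : 1 ≤ exp (C3 * τ) := one_le_exp (by positivity)
  refine ⟨12 * C2 * X ^ 2 * exp (C3 * τ), by positivity,
    fun n W hn nice hT gr hw Φ ω0 e ρ H L N r e0 H0 L1 N1 r0 r1 hF hN h1 h2 h3 h4 g hg => ?_⟩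
  have hp := isP_prob' hw
  have ρ0 : 0 ≤ ρ := le_trans (hp.mean_nonneg (sq2_nn _)) (hF.cl _ (wm_self hw H0))
  obtain ⟨ω, -, f1, -⟩ := R1 n W hn nice hT Φ ω0 e ρ H τ L e0 τ0 L1 hF 1 (fun _ => τ) (fun _ => 1) 1
    (fun _ => ⟨τ0, le_rfl⟩) (by simp) (r ^ 2 / N) (by positivity)
  simp only [Fin.sum_univ_one, one_mul, mul_one, one_pow] at f1
  have hv := Col13.wm_of hw hg
  have g1 : mean (prob (mu W)) (sq2 (grad (sg (mu W) τ Φ))) ≤ exp (C3 * τ) * N := by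
    refine (hp.mean_mono (g := fun x => exp (C3 * τ) * sg (mu W) τ (sq2 (grad Φ)) x)
      fun x => gr τ τ0 Φ x).trans ?_
    have : (mean (prob (mu W)) fun x => exp (C3 * τ) * sg (mu W) τ (sq2 (grad Φ)) x) =
        exp (C3 * τ) * mean (prob (mu W)) (sg (mu W) τ (sq2 (grad Φ))) := by
      simp only [Chain22.mean, mul_sum]; exact sum_congr rfl fun x _ => by ring
    rw [this, Chain22.mean_sg hn hw]
    exact mul_le_mul_of_nonneg_left hN (by positivity)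
  have k := (R2 n W hn nice hT _ ω _ _ _ f1 _ hv).1 _ ((sq2_mean hp (grad (sg (mu W) τ Φ)) ω).1.trans
    (add_le_add (mul_le_mul_of_nonneg_left (f1.cl _ (wm_self hw H0)) zero_le_two)
      (mul_le_mul_of_nonneg_left g1 zero_le_two)))
  have k2 := num (S := L ^ 2 * e ^ 2 * √(n * (H + 1))) c2 X1 Y1 N1 r0 r1 ρ0 (by positivity)
    (by positivity) h1 h2 h3 h4 rfl rfl
  have e1 : (C1 * L * exp (C1 * τ) * e) ^ 2 * H = X ^ 2 * (L ^ 2 * e ^ 2 * H) := by rw [hX]; ring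
  have e2 : (C1 * L * exp (C1 * τ) * e) ^ 2 * √(n * (H + 1)) =
      X ^ 2 * (L ^ 2 * e ^ 2 * √(n * (H + 1))) := by rw [hX]; ring
  rw [e1, e2] at k
  rw [Col13.mean_of]
  refine le_trans ?_ (add_le_add le_rfl (k.trans k2))
  have e3 : ∀ (v A : Cube n → ℝ) (d : ℝ), (mean v fun x => d + A x) = (∑ x, v x) * d + mean v A :=
    fun v A d => by simp only [Chain22.mean, mul_add, sum_add_distrib, sum_mul]
  refine (hv.1.mean_mono (g := fun x => dir (mu W) (sg (mu W) τ Φ) +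
    |Gm (mu W) (sg (mu W) τ Φ) (sg (mu W) τ Φ) x - dir (mu W) (sg (mu W) τ Φ)|)
    fun x => by linarith [le_abs_self (Gm (mu W) (sg (mu W) τ Φ) (sg (mu W) τ Φ) x -
      dir (mu W) (sg (mu W) τ Φ))]).trans_eq ?_
  rw [e3, hv.1.sum1, one_mul]

/-- the second moment along the flow -/
theorem flow_le {C τ N : ℝ} (hn : 0 < n) (hw : ∀ x, 0 < w x) (gr : GR w C) (c0 : 0 ≤ C) (τ0 : 0 ≤ τ)
    (hf : Warm w H f) (hN : ∀ v, Wm w H v → mean v (sq2 (grad Φ)) ≤ N) :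
    E.mean w (fun x => sg w τ f x * Φ x ^ 2) ≤
      E.mean w (fun x => f x * sg w τ Φ x ^ 2) + 4 * τ * exp (C * τ) * N := by
  have k := hN _ (Col13.wm_of hw (hf.sg hn hw τ0))
  rw [← Col13.mean_of, Low.mean_sg_symm hn hw] at k
  rw [Low.mean_sg_symm hn hw]
  refine ((isP_prob' hw).mean_mono (g := fun x => f x * sg w τ Φ x ^ 2 +
    4 * τ * exp (C * τ) * (f x * sg w τ (sq2 (grad Φ)) x)) fun x => ?_).trans ?_
  · have := mul_le_mul_of_nonneg_left (Low.lvar_le gr hn hw c0 τ0 Φ x) (hf.1 x).le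
    change f x * _ ≤ f x * (_ * sg w τ (sq2 (grad Φ)) x) at this
    linarith
  · have e : (mean (prob w) fun x => f x * sg w τ Φ x ^ 2 +
        4 * τ * exp (C * τ) * (f x * sg w τ (sq2 (grad Φ)) x)) =
        E.mean w (fun x => f x * sg w τ Φ x ^ 2) +
          4 * τ * exp (C * τ) * E.mean w fun x => f x * sg w τ (sq2 (grad Φ)) x := by
      simp only [E.mean, Chain22.mean, mul_sum, ← sum_add_distrib]
      exact sum_congr rfl fun x _ => by ring
    rw [e]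
    exact add_le_add le_rfl (mul_le_mul_of_nonneg_left k (by positivity))

theorem gm_le {N : ℝ} (hn : 0 < n) (hw : ∀ x, 0 < w x)
    (hN : ∀ v, Wm w H v → mean v (sq2 (grad Φ)) ≤ N) (g : Cube n → ℝ) (hg : Warm w H g) :
    E.mean w (fun x => g x * Gm w Φ Φ x) ≤ 2 * N := by
  have hv := Col13.wm_of hw hg
  rw [Col13.mean_of]
  refine (hv.1.mean_mono (g := fun x => 2 * sq2 (grad Φ) x) fun x => Low.Gm_le_grad hn hw Φ x).trans ?_
  have e : (mean (fun x => prob w x * g x) fun x => 2 * sq2 (grad Φ) x) =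
      2 * mean (fun x => prob w x * g x) (sq2 (grad Φ)) := by
    simp only [Chain22.mean, mul_sum]; exact sum_congr rfl fun x _ => by ring
  rw [e]
  linarith [hN _ hv]

theorem abs_sg (hn : 0 < n) (hw : ∀ x, 0 < w x) {τ : ℝ} (τ0 : 0 ≤ τ) (hB : ∀ x, |Φ x| ≤ B)
    (x : Cube n) : |sg w τ Φ x| ≤ B :=
  abs_le.2 ⟨(Rec.sg_const hn hw τ (-B) x).symm.trans_le
    (Rec.sg_mono hn hw τ0 (fun z => (abs_le.1 (hB z)).1) x),
    (Rec.sg_mono hn hw τ0 (fun z => (abs_le.1 (hB z)).2) x).trans_eq (Rec.sg_const hn hw τ B x)⟩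

end det

/-! ### the probabilistic part -/

variable {β lam a c : ℝ} {Φ : B.Ob}

theorem ev_tail {κ m : ℝ} (hκ : 0 < κ) (m0 : 0 < m) (m1 : m ≤ 1) : ∀ᶠ n : ℕ in atTop,
    ∀ B H1 κ' t : ℝ, κ ≤ κ' → B ^ 2 ≤ (n : ℝ) ^ 2 → H1 ≤ (n : ℝ) ^ (1 - m) →
      (n : ℝ) ^ (1 - m / 2) / 4 ≤ t → 16 * B ^ 2 * exp (H1 - κ' * t) ≤ 1 := by
  filter_upwards [eventually_gt_atTop 0, B.ev_mul (12 / κ) (show 1 - m < 1 - m / 2 by linarith),
    B.ev_log_le (24 / κ) (show 0 < 1 - m / 2 by linarith),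
    B.ev_mul (36 / κ) (show 0 < 1 - m / 2 by linarith)] with n hn l1 l2 l3 B H1 κ' t h1 h2 h3 h4
  have n0 : (0 : ℝ) < n := by exact_mod_cast hn
  rw [rpow_zero, mul_one] at l3
  rw [div_mul_eq_mul_div, div_le_iff₀ hκ] at l1 l2
  rw [div_le_iff₀ hκ] at l3
  have p0 : 0 ≤ (n : ℝ) ^ (1 - m / 2) / 4 := by positivity
  have k1 := mul_le_mul h1 h4 p0 (hκ.le.trans h1)
  have k2 : 16 * B ^ 2 ≤ exp (3 + 2 * log n) := by
    rw [exp_add, show 2 * log (n : ℝ) = (2 : ℕ) * log n by norm_num, exp_nat_mul, exp_log n0]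
    refine mul_le_mul ?_ h2 (sq_nonneg _) (exp_pos _).le
    have := exp_one_gt_d9
    rw [show (3 : ℝ) = (3 : ℕ) * 1 by norm_num, exp_nat_mul]
    exact le_trans (by norm_num) (pow_le_pow_left₀ (by norm_num) this.le 3)
  refine (mul_le_mul_of_nonneg_right k2 (exp_pos _).le).trans ?_
  rw [← exp_add, exp_le_one_iff]
  linarith

/-- the two clauses of `NegD` at the delay `τ` -/
def Two (β a c e η : ℝ) (D : B.Fn) (τ : ℝ) (n : ℕ) (g : Pair n → ℝ) : Prop :=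
  ∀ f, Warm (gibbsWeight n β g) ((n : ℝ) ^ (1 - c)) f →
    D n g f ≤ (n : ℝ) ^ e * (ent (gibbsWeight n β g) f + II (gibbsWeight n β g) f + 1) ∧
    D n g (sg (gibbsWeight n β g) τ f) ≤
      η * (ent (gibbsWeight n β g) (sg (gibbsWeight n β g) τ f) +
        II (gibbsWeight n β g) (sg (gibbsWeight n β g) τ f) +
        exp (-(2 * a * τ)) * (ent (gibbsWeight n β g) f + II (gibbsWeight n β g) f)) + (n : ℝ) ^ e

theorem step (hA : At0) (β0 : 0 ≤ β) (β1 : β < 1) (hC : ColW β Φ) (a0 : 0 < a) (hc : 0 < c) :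
    ∃ K > (0 : ℝ), ∀ e > (0 : ℝ), ∀ η > (0 : ℝ), ∀ τ ≥ (0 : ℝ), Whp disorderLaw fun n g =>
      dir (gibbsWeight n β g) (sg (gibbsWeight n β g) τ (Φ n g)) ≤
        η / (32 * K) * exp (-(2 * a * τ)) →
      Two β a c e η (B.Mom β fun n g x => Φ n g x ^ 2) τ n g := by
  obtain ⟨K1, K1p, hN⟩ := niceStmt
  obtain ⟨K2, K2p, hT⟩ := hA β β0 β1
  obtain ⟨C3, c3, hG⟩ := Low.whp_gr β
  set K := max K1 K2 with hK
  have K0 : 0 < K := lt_max_of_lt_left K1p
  refine ⟨K, K0, fun e he η hη τ τ0 => ?_⟩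
  obtain ⟨Z, Z0, hZ⟩ := core K0 c3 τ0
  set d := η / (32 * K) * exp (-(2 * a * τ)) with hd
  have d0 : 0 < d := by positivity
  set r := min 1 (d / Z) with hr
  have r0 : 0 < r := lt_min one_pos (by positivity)
  have r1 : r ≤ 1 := min_le_left _ _
  have r2 : Z * r ≤ d := by rw [← le_div_iff₀' Z0]; exact min_le_right _ _
  set m := min c 1 with hm
  have m0 : 0 < m := lt_min hc one_pos
  have m1 : m ≤ 1 := min_le_right _ _
  have m2 : m ≤ c := min_le_left _ _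
  set e1 := min (min (e / 4) (m / 128)) (r ^ 2) with he1
  have e10 : 0 < e1 := lt_min (lt_min (by positivity) (by positivity)) (by positivity)
  have e11 : e1 ≤ e / 4 := (min_le_left _ _).trans (min_le_left _ _)
  have e12 : e1 ≤ m / 128 := (min_le_left _ _).trans (min_le_right _ _)
  have e13 : e1 ≤ r ^ 2 := min_le_right _ _
  refine ((hC (m / 8) (by positivity) e1 e10).and (hN.and (hT.and hG))).mono ?_
  filter_upwards [eventually_gt_atTop 0, ev_tail (κ := K * min (2 * d) 2) (by positivity) m0 m1,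
    B.ev_mul (2 / r ^ 2) e10, B.ev_mul (32 * K + 3) (show 2 * e1 < e by linarith),
    B.ev_mul (η + 3 + 4 * τ * exp (C3 * τ)) (show 2 * e1 < e by linarith)]
    with n hn t1 t2 t3 t4 g hg hs f hf
  obtain ⟨⟨N, ρ, ω, N1, N2, f1, f2, f3, f4, f5⟩, g1, g2, g3⟩ := hg
  have n1 : (1 : ℝ) ≤ n := by exact_mod_cast hn
  have n0 : (0 : ℝ) < n := by linarith
  have hw := gibbsWeight_pos β g
  have nice : Nice (β • Jmat n g) K := Col13.nice_mono (g1 β β0 β1.le) K1p.le (le_max_left _ _)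
  have at1 := g2.mono hw (le_max_right K1 K2) le_rfl
  have ew : gibbsWeight n β g = mu (β • Jmat n g) := gibbsWeight_eq_ising β g
  simp only [B.Mom]
  rw [ew] at f2 f4 f5 hs g3 at1 hw hf ⊢
  set W := β • Jmat n g
  set φ := Φ n g
  have x0 : 0 ≤ log n := log_natCast_nonneg n
  have rp : ∀ a : ℝ, (n : ℝ) ^ a = exp (a * log n) := Low.rpow_eq hn
  have sn : √(n : ℝ) = exp (1 / 2 * log n) := by rw [sqrt_eq_rpow, rp]
  have en : (n : ℝ) = exp (log n) := (exp_log n0).symm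
  have ex := mul_le_mul_of_nonneg_right e12 x0
  have mx := mul_le_mul_of_nonneg_right m1 x0
  have cx := mul_le_mul_of_nonneg_right m2 x0
  have e1x := mul_nonneg e10.le x0
  have m0x := mul_nonneg m0.le x0
  rw [rpow_zero, mul_one, div_le_iff₀ (by positivity), rp] at t2
  have sm : ∀ y u : ℝ, y ≤ 2 * exp u → u ≤ -(e1 * log n) → y ≤ r ^ 2 := fun y u h1 h2 => by
    refine h1.trans ((mul_le_mul_of_nonneg_left (exp_le_exp.2 h2) zero_le_two).trans ?_)
    rw [exp_neg, ← div_eq_mul_inv, div_le_iff₀' (exp_pos _)]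
    exact t2
  have P1 : 1 ≤ exp (e1 * log n) := one_le_exp e1x
  have P2 : (n : ℝ) ^ (2 * e1) = exp (e1 * log n) ^ 2 := by
    rw [rp, ← exp_nat_mul]; congr 1; push_cast; ring
  have H0 : 0 ≤ (n : ℝ) ^ (1 - m / 8) := by positivity
  have HH : (n : ℝ) ^ (1 - c) ≤ (n : ℝ) ^ (1 - m / 8) :=
    rpow_le_rpow_of_exponent_le n1 (by linarith)
  have B0 : 0 < √n * (n : ℝ) ^ e1 := by positivity
  have tl : ∀ σ, min (2 * d) 2 ≤ σ → 16 * (√n * (n : ℝ) ^ e1) ^ 2 * exp ((n : ℝ) ^ (1 - c) -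
      K * σ * ((n : ℝ) ^ (1 - m / 8) / (2 * (√n * (n : ℝ) ^ e1))) ^ 2) ≤ 1 := fun σ h => by
    refine t1 _ _ _ _ (mul_le_mul_of_nonneg_left h K0.le) (pow_le_pow_left₀ B0.le ?_ 2)
      (rpow_le_rpow_of_exponent_le n1 (by linarith)) ?_
    · rw [sn, rp, ← exp_add]
      exact (exp_le_exp.2 (by linarith)).trans_eq en.symm
    · rw [div_pow, mul_pow, mul_comm ((2 : ℝ) ^ 2), ← div_div, sn, rp, rp, rp, ← exp_add,
        ← exp_nat_mul, ← exp_nat_mul, ← exp_sub, show (2 : ℝ) ^ 2 = 4 by norm_num]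
      refine div_le_div_of_nonneg_right (exp_le_exp.2 ?_) (by norm_num)
      push_cast
      linarith
  have m2' : E.mean (mu W) φ ^ 2 ≤ exp (e1 * log n) ^ 2 := by
    rw [← sq_abs, ← rp]; exact pow_le_pow_left₀ (abs_nonneg _) f2 2
  have en0 := Rv.ent_nn hw fun y => (hf.1 y).le
  have i0 : 0 ≤ II (mu W) f := by
    have := B.II_eq hw hf.1 hf.2.1
    linarith [B.Df_nn (v := B.dn (mu W) f) (w := mu W) (B.dn_pos hw hf.1), B.Df_le hw hf.1 hf.2.1]
  rw [rp] at N2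
  rw [P2] at t3 t4
  have PP : exp (e1 * log n) ≤ exp (e1 * log n) ^ 2 := by nlinarith
  constructor
  · have k := sq_le (σ := 2 * N) hn hw K0 at1 B0 (by linarith) H0 f3 (gm_le hn hw f4) hf
    have k2 := tl (2 * N) ((min_le_right _ _).trans (by linarith))
    refine k.trans (le_trans ?_ (mul_le_mul_of_nonneg_right t3 (by linarith)))
    have q1 := mul_le_mul (mul_le_mul_of_nonneg_left (N2.trans PP) (show 0 ≤ 32 * K by positivity))
      (show ent (mu W) f + 1 ≤ ent (mu W) f + II (mu W) f + 1 by linarith) (by linarith)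
      (by positivity)
    have q2 : exp (e1 * log n) ^ 2 ≤ exp (e1 * log n) ^ 2 * (ent (mu W) f + II (mu W) f + 1) :=
      le_mul_of_one_le_right (by positivity) (by linarith)
    linarith
  · have s2 : ((n : ℝ) ^ (e1 - 1 / 2)) ^ 2 = exp ((2 * e1 - 1) * log n) := by
      rw [rp, ← exp_nat_mul]; congr 1; push_cast; ring
    have L2 : exp (2 * e1 * log n) ^ 2 = exp (4 * e1 * log n) := by
      rw [← exp_nat_mul]; congr 1; push_cast; ring
    have two : ∀ y u : ℝ, 0 ≤ y → y * exp (e1 * log n) = exp u → y * N ≤ 2 * exp u :=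
      fun y u h1 h2 => by linarith [mul_le_mul_of_nonneg_left N2 h1, exp_pos u]
    have k0 := hZ n W hn nice at1 g3 hw φ ω _ ρ _ (exp (2 * e1 * log n)) N r (by positivity) H0
      (one_le_exp (by linarith)) N1 r0 r1 f5 (f4 _ (wm_self hw H0)) (f1.trans e13)
      (sm _ (-(e1 * log n)) (two _ _ (by positivity) (by
        rw [s2, L2]
        nth_rewrite 1 [en]
        rw [← exp_add, ← exp_sub, ← exp_add]; congr 1; ring)) le_rfl)
      (sm _ ((7 * e1 - m / 8) * log n) (two _ _ (by positivity) (by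
        rw [s2, L2, rp, ← exp_add, ← exp_add, ← exp_add]; congr 1; ring)) (by linarith))
      (sm _ ((6 * e1 - m / 16) * log n) (by
        have h1 : √(n * ((n : ℝ) ^ (1 - m / 8) + 1)) ≤ 2 * exp ((1 - m / 16) * log n) := by
          refine sqrt_le_iff.2 ⟨by positivity, ?_⟩
          have h3 : 1 ≤ exp ((1 - m / 8) * log n) := one_le_exp (by linarith)
          have h4 : (2 * exp ((1 - m / 16) * log n)) ^ 2 = 4 * (n * exp ((1 - m / 8) * log n)) := by
            nth_rewrite 2 [en]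
            rw [mul_pow, ← exp_nat_mul, ← exp_add]
            congr 1
            · norm_num
            · congr 1; push_cast; ring
          rw [h4, rp]
          linarith [mul_le_mul_of_nonneg_left h3 n0.le, mul_pos n0 (exp_pos ((1 - m / 8) * log n))]
        refine (mul_le_mul_of_nonneg_left h1 (by positivity)).trans_eq ?_
        rw [s2, L2, mul_left_comm, ← exp_add, ← exp_add]; congr 2; ring) (by linarith))
    have k := sq_le (σ := 2 * d) hn hw K0 at1 B0 (by linarith) H0 (abs_sg hn hw τ0 f3)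
      (fun g hg => (k0 g hg).trans (by linarith)) hf
    have k2 := tl (2 * d) (min_le_left _ _)
    have k3 := flow_le hn hw g3 c3 τ0 (hf.mono HH) f4
    rw [Rec.mean_sg' hn hw] at k
    have q0 : 16 * K * (2 * d) = η * exp (-(2 * a * τ)) := by rw [hd]; field_simp; ring
    have q1 : exp (-(2 * a * τ)) ≤ 1 := exp_le_one_iff.2 (by nlinarith)
    have q2 := B.HI_nn hn hw (hf.sg hn hw τ0).1
    have q3 := mul_le_mul_of_nonneg_left (N2.trans PP) (show 0 ≤ 4 * τ * exp (C3 * τ) by positivity)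
    have q4 : η * exp (-(2 * a * τ)) ≤ η * exp (e1 * log n) ^ 2 :=
      mul_le_mul_of_nonneg_left (by linarith) hη.le
    have q5 := mul_nonneg hη.le q2
    have q6 : 0 ≤ η * (exp (-(2 * a * τ)) * II (mu W) f) := by positivity
    rw [q0] at k
    linarith


theorem whp_diag {X : ℕ → Type*} [∀ n, MeasurableSpace (X n)] {μ : ∀ n, MeasureTheory.Measure (X n)}
    {P : ℝ → ∀ n, X n → Prop} {A : ℝ → ℕ → Prop} (h : ∀ ε > (0 : ℝ), ∃ τ,
      ∀ᶠ n in atTop, A τ n ∧ μ n {g | ¬ P τ n g} ≤ ENNReal.ofReal ε) :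
    ∃ τ : ℕ → ℝ, (∀ᶠ n in atTop, A (τ n) n) ∧ Whp μ fun n g => P (τ n) n g := by
  classical
  choose τ hτ using fun k : ℕ => h (1 / ((k : ℝ) + 1)) (by positivity)
  set p : ℕ → ℕ → Prop := fun n k =>
    A (τ k) n ∧ μ n {g | ¬ P (τ k) n g} ≤ ENNReal.ofReal (1 / ((k : ℝ) + 1))
  have key : ∀ k : ℕ, ∀ᶠ n in atTop,
      k ≤ Nat.findGreatest (p n) n ∧ p n (Nat.findGreatest (p n) n) := fun k => by
    filter_upwards [hτ k, eventually_ge_atTop k] with n h1 h2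
    exact ⟨Nat.le_findGreatest h2 h1, Nat.findGreatest_spec h2 h1⟩
  refine ⟨fun n => τ (Nat.findGreatest (p n) n), (key 0).mono fun n h => h.2.1,
    Top.whp_iff.2 fun ε hε => ?_⟩
  obtain ⟨k, hk⟩ := exists_nat_one_div_lt hε
  filter_upwards [key k] with n hn
  refine hn.2.2.trans (ENNReal.ofReal_le_ofReal (le_trans ?_ hk.le))
  exact one_div_le_one_div_of_le (by positivity) (by exact_mod_cast Nat.succ_le_succ hn.1)

/-- **(Dec)** when the delay depends on the probability level -/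
theorem dec_prob (hA : At0) (β0 : 0 ≤ β) (β1 : β < 1) (hC : ColW β Φ) (a0 : 0 < a) (hc : 0 < c)
    (hS : ∀ δ > (0 : ℝ), ∀ ε > (0 : ℝ), ∃ τ ≥ (0 : ℝ), ∀ᶠ n in atTop,
      disorderLaw n {g | δ * exp (-(2 * a * τ)) <
        dir (gibbsWeight n β g) (sg (gibbsWeight n β g) τ (Φ n g))} ≤ ENNReal.ofReal ε) :
    B.Neg β a c (B.Mom β fun n g x => Φ n g x ^ 2) := by
  refine B.NegD.neg a0 fun e he η hη => ?_
  obtain ⟨K, K0, h⟩ := step hA β0 β1 hC a0 hc
  refine whp_diag (A := fun τ n => 0 ≤ τ ∧ τ ≤ e * log n)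
    (P := Two β a c e η (B.Mom β fun n g x => Φ n g x ^ 2)) fun ε hε => ?_
  obtain ⟨τ, τ0, hS⟩ := hS (η / (32 * K)) (by positivity) (ε / 2) (by positivity)
  refine ⟨τ, ?_⟩
  filter_upwards [hS, Top.whp_iff.1 (h e he η hη τ τ0) (ε / 2) (by positivity), Low.ev_log τ he]
    with n h1 h2 h3
  refine ⟨⟨τ0, h3⟩, le_trans (MeasureTheory.measure_mono fun g hg => ?_)
    ((MeasureTheory.measure_union_le _ _).trans ((add_le_add h1 h2).trans_eq ?_))⟩
  · by_contra hh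
    simp only [Set.mem_union, Set.mem_ofPred_eq, not_or, not_lt, not_not] at hh
    exact hg (hh.2 hh.1)
  · rw [← ENNReal.ofReal_add (by positivity) (by positivity), add_halves]


theorem Col.colW (h : Col β Φ) : ColW β Φ := fun c hc e he => by
  obtain ⟨C1, h1⟩ := h c hc 1 one_pos
  obtain ⟨C, h2⟩ := h c hc (e / (2 + 2 * C1 ^ 2)) (by positivity)
  refine (h1.and h2).mono ?_
  filter_upwards [eventually_gt_atTop 0, B.ev_mul (2 + 2 * C1 ^ 2) he, B.ev_mul C he]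
    with n hn l1 l2 g ⟨⟨_, _, ω1, f1⟩, f2, f3, ω, f4⟩
  have n0 : (0 : ℝ) < n := by exact_mod_cast hn
  rw [rpow_zero, mul_one] at l1 l2
  refine ⟨2 + 2 * C1 ^ 2, _, ω, by nlinarith, l1, (div_mul_cancel₀ _ (by positivity)).le, f2.trans l2,
    fun x => (f3 x).trans ((mul_le_mul_of_nonneg_right l2 (sqrt_nonneg _)).trans_eq (mul_comm _ _)),
    fun v hv => (fld_grad f1 hv).trans_eq ?_, fld_mono (gibbsWeight_pos β g) f4 ?_ le_rfl le_rfl⟩
  · rw [div_pow, sq_sqrt n0.le]; field_simp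
  · rw [rpow_sub n0, ← sqrt_eq_rpow]
    exact div_le_div_of_nonneg_right l2 (sqrt_nonneg _)

theorem ColP.colW (h : ColP β Φ) : ColW β Φ := fun c hc e he => by
  obtain ⟨c', c0, h⟩ := h c hc
  set e1 := min (e / 3) (c' / 4) with he1
  have e0 : 0 < e1 := lt_min (by positivity) (by positivity)
  have e11 : e1 ≤ e / 3 := min_le_left _ _
  have e12 : e1 ≤ c' / 4 := min_le_right _ _
  refine (h e1 e0).mono ?_
  filter_upwards [eventually_gt_atTop 0, B.ev_mul 4 (show 2 * e1 < e by linarith),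
    B.ev_mul (4 / e) (show 2 * e1 - c' < 0 by linarith)] with n hn l1 l2 g ⟨f2, f3, ω, f4⟩
  have n1 : (1 : ℝ) ≤ n := by exact_mod_cast hn
  have n0 : (0 : ℝ) < n := by linarith
  have pe : (n : ℝ) ^ e1 ≤ (n : ℝ) ^ e := rpow_le_rpow_of_exponent_le n1 (by linarith)
  have p1 : 1 ≤ (n : ℝ) ^ (2 * e1) := one_le_rpow n1 (by linarith)
  have p2 : (n : ℝ) ^ (-c') ≤ 1 := rpow_le_one_of_one_le_of_nonpos n1 (by linarith)
  rw [rpow_zero, div_mul_eq_mul_div, div_le_one he] at l2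
  refine ⟨4 * (n : ℝ) ^ (2 * e1), _, ω, by linarith, l1, le_trans (le_of_eq ?_) l2, f2.trans pe,
    fun x => (f3 x).trans (mul_le_mul_of_nonneg_left pe (sqrt_nonneg _)),
    fun v hv => (fld_grad f4 hv).trans ?_, fld_mono (gibbsWeight_pos β g) f4
      (rpow_le_rpow_of_exponent_le n1 (by linarith)) le_rfl le_rfl⟩
  · rw [sub_eq_add_neg, rpow_add n0]; ring
  · have : n * ((n : ℝ) ^ (e1 - 1 / 2)) ^ 2 = (n : ℝ) ^ (2 * e1) := by
      rw [← rpow_natCast, ← rpow_mul n0.le, mul_comm, ← rpow_add_one n0.ne']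
      congr 1; push_cast; ring
    linarith



/-- observables dominated by a square -/
def Dom (Q Φ : B.Ob) : Prop := ∃ C ≥ (0 : ℝ), ∀ e > (0 : ℝ),
  Whp disorderLaw fun n g => ∀ x, Q n g x ≤ C * Φ n g x ^ 2 + (n : ℝ) ^ e

theorem Neg.le {D D' : B.Fn} (a0 : 0 < a) (h : B.Neg β a c D) (hD : ∀ e > (0 : ℝ),
    Whp disorderLaw fun n g => ∀ f, Warm (gibbsWeight n β g) ((n : ℝ) ^ (1 - c)) f →
      D' n g f ≤ D n g f + (n : ℝ) ^ e) : B.Neg β a c D' := by
  have k : B.NegS β c fun n g f => D' n g f - D n g f := fun e he η hη => by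
    refine (hD e he).mono ?_
    filter_upwards [eventually_gt_atTop 0] with n hn g h1 f hf
    linarith [h1 f hf, mul_nonneg hη.le (B.HI_nn hn (gibbsWeight_pos β g) hf.1)]
  simpa only [add_sub_cancel] using h.add (k.neg a0)


/-- the largest class: nonnegative observables dominated by the square of a regular decaying one -/
def Cls (β lam : ℝ) : Set B.Ob :=
  {Q | (∀ n g x, 0 ≤ Q n g x) ∧ ∃ Φ, ColW β Φ ∧ Spc β lam Φ ∧ Dom Q Φ}






end Crest.Agent.T157.Dc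

end
end

-- ▼ part T157/LmDec_74
section

/-!
# Row 157, block B/S5 (helper74): decay implies negligibility
-/

set_option autoImplicit false

noncomputable section

namespace Crest.Agent.T157.Lm

open Real Filter Topology
open Crest.ProbabilityR.SpinGlassDynamics (disorderLaw gibbsWeight)
open Crest.Agent.T157.E (Cube mean dir prob gibbsWeight_pos)
open Crest.Agent.T157.Chain22 (sg isP_prob')

namespace Dec74

theorem grad_sub {n : ℕ} (f : Cube n → ℝ) (m : ℝ) : Rec.grad (fun x => f x - m) = Rec.grad f := by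
  funext x i; simp only [Rec.grad, SL.incr, sub_sub_sub_cancel_right]

theorem dir_sg_sub {n : ℕ} {w : Cube n → ℝ} (hn : 0 < n) (hw : ∀ x, 0 < w x) (t : ℝ)
    (f : Cube n → ℝ) (m : ℝ) : dir w (sg w t fun x => f x - m) = dir w (sg w t f) := by
  have e : (sg w t fun x => f x - m) = fun x => sg w t f x - m := funext fun x => by
    rw [Rec.sg_sub_fun, Rec.sg_const hn hw]
  rw [e]
  simp only [Chain22.dir_eq_dir2', Low.dir2_EE hn hw, sub_sub_sub_cancel_right]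

/-- the centred observable is regular -/
theorem colW {β : ℝ} {Φ : B.Ob} (h : ∀ c > (0 : ℝ), ∃ c' > (0 : ℝ), Rg β c c' Φ) :
    T157.Dc.ColW β fun n g x => Φ n g x - mean (gibbsWeight n β g) (Φ n g) := fun c hc e he => by
  obtain ⟨c', c0, B, h⟩ := h (min c (64 * e)) (lt_min hc (by positivity))
  refine h.mono ?_
  filter_upwards [eventually_gt_atTop 0, T157.B.ev_mul (max 1 B) he,
    T157.B.ev_mul (max 1 B / e) (show -c' < 0 by linarith)] with n hn l1 l2 g ⟨f1, f2, ω, f3⟩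
  have n1 : (1 : ℝ) ≤ n := by exact_mod_cast hn
  have hw := gibbsWeight_pos β g
  have hp := isP_prob' hw
  rw [rpow_zero, mul_one] at l1
  rw [rpow_zero, div_mul_eq_mul_div, div_le_one he] at l2
  have m0 : mean (gibbsWeight n β g) (fun x => Φ n g x - mean (gibbsWeight n β g) (Φ n g)) = 0 := by
    have : ∀ (F : Cube n → ℝ) (m : ℝ), mean (gibbsWeight n β g) (fun x => F x - m) =
        mean (gibbsWeight n β g) F - (∑ x, prob (gibbsWeight n β g) x) * m := fun F m => by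
      simp only [mean, mul_sub, Finset.sum_sub_distrib, Finset.sum_mul]
    rw [this, hp.sum1]; ring
  have f4 := T157.Dc.fld_mono hw f3 (rpow_le_rpow_of_exponent_le n1
    (show _ ≤ e - 1 / 2 by linarith [min_le_right c (64 * e)])) le_rfl
    (rpow_le_rpow_of_exponent_le n1 (show 1 - c ≤ _ by linarith [min_le_left c (64 * e)]))
  refine ⟨max 1 B, _, ω, le_max_left _ _, l1, (mul_comm _ _).trans_le l2, by rw [m0]; simp; positivity,
    fun x => ?_, fun v hv => ?_, f4.odd, f4.sup, f4.op, by rw [grad_sub]; exact f4.cl⟩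
  · have k : B * √n ≤ √n * (n : ℝ) ^ e := (mul_le_mul_of_nonneg_right
      ((le_max_right _ _).trans l1) (sqrt_nonneg _)).trans_eq (mul_comm _ _)
    refine le_trans (abs_sub_le_iff.2 ⟨?_, ?_⟩) k
    · have := (hp.mean_const (Φ n g x - B * √n)).symm.trans_le (hp.mean_mono (g := Φ n g) fun y => by
        linarith [(abs_le.1 (f2 x y)).2])
      change _ ≤ mean (gibbsWeight n β g) (Φ n g) at this
      linarith
    · have := (hp.mean_mono (f := Φ n g) fun y => by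
        linarith [(abs_le.1 (f2 x y)).1]).trans_eq (hp.mean_const (Φ n g x + B * √n))
      change mean (gibbsWeight n β g) (Φ n g) ≤ _ at this
      linarith
  · rw [grad_sub]
    exact ((hv.1.mean_mono f1).trans_eq (hv.1.mean_const B)).trans (le_max_right _ _)

end Dec74

theorem decStmt : DecStmt := fun β β0 β1 Φ hR a a0 hD c hc => by
  refine T157.Dc.dec_prob Rv.at0 β0 β1 (Dec74.colW hR) a0 hc fun δ hδ ε hε => ?_
  obtain ⟨τ, τ1, h⟩ := hD δ hδ ε hε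
  refine ⟨τ, by linarith, ?_⟩
  filter_upwards [h, eventually_gt_atTop 0] with n h1 hn
  simpa only [Dec74.dir_sg_sub hn (gibbsWeight_pos β _)] using h1

end Crest.Agent.T157.Lm

end
end

-- ▼ part T157/LmDi_23
section

/-!
# Row 157, block B/S5: the dichotomy decay / slow mode and the output (helper23)
-/

set_option autoImplicit false

noncomputable section

namespace Crest.Agent.T157.Lm

open MeasureTheory Real Filter Topology Finset Matrix
open Crest.ProbabilityR.SpinGlassDynamics (Pair disorderLaw gibbsWeight)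
open Crest.Agent.T157.E (Cube sv mean gen dir dir2 var prob siteM)
open Crest.Agent.T157.Chain22 (sg hbRC ip sg_eq)
open Crest.Agent.T157.Pl (LR)
open Crest.Agent.T157.Top (Whp Poin)

namespace Di23

variable {n : ℕ} {w f : Cube n → ℝ}

/-- `‖L g‖²` -/
def k2 (w g : Cube n → ℝ) : ℝ := mean w fun x => gen w g x ^ 2

lemma shift (hn : 0 < n) (hw : ∀ x, 0 < w x) (t c : ℝ) (f : Cube n → ℝ) :
    dir w (sg w t fun x => f x + c) = dir w (sg w t f) ∧
      var w (sg w t fun x => f x + c) = var w (sg w t f) ∧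
      k2 w (sg w t fun x => f x + c) = k2 w (sg w t f) := by
  have e : (sg w t fun x => f x + c) = fun x => sg w t f x + c := funext fun x => by
    rw [Rec.sg_add_fun, Rec.sg_const hn hw]
  have e2 : ∀ i x, siteM w (fun x => sg w t f x + c) i x = siteM w (sg w t f) i x + c := fun i x => by
    have := hw (Function.update x i true)
    have := hw (Function.update x i false)
    simp only [siteM]; field_simp; ring
  rw [e]
  refine ⟨?_, ?_, ?_⟩
  · simp only [dir, e2, add_sub_add_right_eq_sub]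
  · simp only [var, SL.mean_add, (SL.Wt.of_pos hw).mean_const, add_sub_add_right_eq_sub]
  · simp only [k2, gen, e2, add_sub_add_right_eq_sub]

/-- spectral representation -/
lemma spec (hn : 0 < n) (hw : ∀ x, 0 < w x) (f : Cube n → ℝ) : ∃ s m : Cube n → ℝ,
    (∀ j, 0 ≤ s j) ∧ (∀ j, 0 ≤ m j) ∧ ∀ t,
      dir w (sg w t f) = ∑ j, s j * (exp (-(2 * t * s j)) * m j) ∧
      var w (sg w t f) = ∑ j, exp (-(2 * t * s j)) * m j ∧
      k2 w (sg w t f) = ∑ j, s j ^ 2 * (exp (-(2 * t * s j)) * m j) := by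
  set c := hbRC hn hw
  set f0 : Cube n → ℝ := fun x => f x + -mean w f with hf0
  refine ⟨fun j => n * (1 - c.ev j), fun j => ip c.π f0 (c.φ j) * ip c.π f0 (c.φ j),
    fun j => mul_nonneg (Nat.cast_nonneg n) (sub_nonneg.2 (c.ev_le_one j)),
    fun j => mul_self_nonneg _, fun t => ?_⟩
  obtain ⟨h1, h2, h3⟩ := shift hn hw t (-mean w f) f
  rw [← h1, ← h2, ← h3, ← hf0]
  have ee : ∀ j, exp (-((n * t + n * t) * (1 - c.ev j))) = exp (-(2 * t * (n * (1 - c.ev j)))) :=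
    fun j => by congr 1; ring
  refine ⟨?_, ?_, ?_⟩
  · rw [Chain22.dir_eq_D hn hw, sg_eq hn hw, c.D_H_spec, mul_sum]
    exact sum_congr rfl fun j _ => by rw [ee]; ring
  · have m0 : mean w (sg w t f0) = 0 := by
      rw [Rec.mean_sg' hn hw, hf0, SL.mean_add, (SL.Wt.of_pos hw).mean_const, add_neg_cancel]
    have : var w (sg w t f0) = ip c.π (sg w t f0) (sg w t f0) := by
      simp only [var, m0, sub_zero, _root_.sq]; rfl
    rw [this, sg_eq hn hw, Rec.ip_H_H]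
    exact sum_congr rfl fun j _ => by rw [ee]
  · have e : gen w (sg w t f0) = (n : ℝ) • (c.P *ᵥ (c.H (n * t) *ᵥ f0) - c.H (n * t) *ᵥ f0) :=
      funext fun x => by rw [Chain22.gen_eq hn hw, sg_eq hn hw]; rfl
    rw [k2, Rec.mean_sq_eq_ip, e]
    refine (c.parseval _ _).trans (sum_congr rfl fun j _ => ?_)
    rw [Chain22.ip_smul_left, Chain22.ip_sub_left, c.ip_P_φ, c.ip_H_φ, ← ee, add_mul, neg_add,
      exp_add]
    ring

lemma sexp {s : ℝ} (t : ℝ) : s * exp (-(2 * t * s)) ≤ exp (-(2 * (t - 1) * s)) := by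
  rw [show -(2 * (t - 1) * s) = 2 * s + -(2 * t * s) by ring, exp_add]
  rcases le_total s 0 with h | h
  · exact (mul_nonpos_of_nonpos_of_nonneg h (exp_pos _).le).trans (by positivity)
  · exact mul_le_mul_of_nonneg_right (by linarith [add_one_le_exp (2 * s)]) (exp_pos _).le

/-- the deterministic inequalities -/
lemma ineq (hn : 0 < n) (hw : ∀ x, 0 < w x) (f : Cube n → ℝ) {t σ : ℝ} (ht : 1 ≤ t) (hσ : 0 ≤ σ) :
    k2 w (sg w t f) ≤ σ ^ 2 * var w (sg w t f) + exp (-(2 * (t - 1) * σ)) * dir w f ∧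
      dir w (sg w t f) ≤ σ * var w (sg w t f) + exp (-(2 * t * σ)) * dir w f ∧
      dir w (sg w t f) ≤ var w (sg w (t - 1) f) ∧
      ∀ C > (0 : ℝ), 2 * C * dir w (sg w t f) ≤ var w (sg w t f) + C ^ 2 * k2 w (sg w t f) := by
  obtain ⟨s, m, s0, m0, h⟩ := spec hn hw f
  have h0 := (h 0).1
  rw [Chain22.sg_zero hn hw] at h0
  rw [h0, (h t).1, (h t).2.1, (h t).2.2, (h (t - 1)).2.1]
  simp only [mul_sum, ← sum_add_distrib, mul_zero, zero_mul, neg_zero, exp_zero, one_mul]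
  refine ⟨sum_le_sum fun j _ => ?_, sum_le_sum fun j _ => ?_, sum_le_sum fun j _ => ?_,
    fun C hC => sum_le_sum fun j _ => ?_⟩
  all_goals
    have a0 := s0 j
    have a1 := m0 j
    have a2 : 0 ≤ exp (-(2 * t * s j)) * m j := by positivity
  · rcases le_total (s j) σ with h | h
    · exact le_add_of_le_of_nonneg (by gcongr) (by positivity)
    · have t1 := (sexp (s := s j) t).trans (exp_le_exp.2 (neg_le_neg
        (mul_le_mul_of_nonneg_left h (show 0 ≤ 2 * (t - 1) by linarith))))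
      refine le_add_of_nonneg_of_le (by positivity) ?_
      nlinarith [mul_le_mul_of_nonneg_right t1 (mul_nonneg a0 a1)]
  · rcases le_total (s j) σ with h | h
    · exact le_add_of_le_of_nonneg (by gcongr) (by positivity)
    · have t1 := exp_le_exp.2 (neg_le_neg
        (mul_le_mul_of_nonneg_left h (show 0 ≤ 2 * t by linarith)))
      refine le_add_of_nonneg_of_le (by positivity) ?_
      nlinarith [mul_le_mul_of_nonneg_right t1 (mul_nonneg a0 a1)]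
  · nlinarith [mul_le_mul_of_nonneg_right (sexp (s := s j) t) a1]
  · nlinarith [mul_nonneg a2 (sq_nonneg (1 - C * s j))]


lemma dir_nn (hw : ∀ x, 0 < w x) (f : Cube n → ℝ) : 0 ≤ dir w f :=
  sum_nonneg fun _ _ => sum_nonneg fun x _ =>
    mul_nonneg ((SL.Wt.of_pos hw).prob_nonneg x) (sq_nonneg _)

lemma k2_nn (hw : ∀ x, 0 < w x) (f : Cube n → ℝ) : 0 ≤ k2 w f :=
  (SL.Wt.of_pos hw).mean_nonneg fun _ => sq_nonneg _

lemma meas_kk (β t : ℝ) {Ψ : B.Ob} (h : ∀ x, Measurable fun g => Ψ n g x) :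
    Measurable (kk β Ψ t n) := by
  have hw : ∀ x, Measurable fun g => gibbsWeight n β g x := fun x => by
    unfold gibbsWeight; fun_prop
  have h1 : ∀ x, Measurable fun g => sg (gibbsWeight n β g) t (Ψ n g) x := fun x =>
    Finset.measurable_sum _ fun y _ => (Rec.measurable_hbCt hw t x y).mul (h y)
  refine Finset.measurable_sum _ fun x _ => ((hw x).div (Finset.measurable_sum _ fun y _ =>
    hw y)).mul (Measurable.pow_const (Finset.measurable_sum _ fun i _ => Measurable.sub ?_ (h1 x)) 2)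
  exact (((hw _).mul (h1 _)).add ((hw _).mul (h1 _))).div ((hw _).add (hw _))


lemma ev_exp (A : ℝ) {d e : ℝ} (hd : 0 < d) (he : 0 < e) :
    ∀ᶠ τ : ℝ in atTop, 1 ≤ τ ∧ A * exp (-(e * τ)) ≤ d := by
  have := (tendsto_exp_neg_atTop_nhds_zero.comp (tendsto_id.const_mul_atTop he)).const_mul A
  rw [mul_zero] at this
  filter_upwards [eventually_ge_atTop 1, this.eventually (gt_mem_nhds hd)] with τ h1 h2
  exact ⟨h1, h2.le⟩

lemma Dc.anti {β : ℝ} {Φ : B.Ob} {a a' : ℝ} (h : Dc β Φ a') (ha : a ≤ a') : Dc β Φ a := by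
  intro δ hδ η hη
  obtain ⟨τ, h1, h2⟩ := h δ hδ η hη
  refine ⟨τ, h1, h2.mono fun n hn => le_trans (measure_mono fun g hg => ?_) hn⟩
  have : 0 ≤ τ := by linarith
  rw [Set.mem_ofPred_eq] at hg ⊢
  exact lt_of_le_of_lt (by gcongr) hg

lemma Slow.mono {β : ℝ} {Φ : B.Ob} {a a' : ℝ} (h : Slow β Φ a) (ha : a ≤ a') : Slow β Φ a' := by
  intro e he
  obtain ⟨τ, h1, c, hc, h2⟩ := h e he
  exact ⟨τ, h1, c, hc, h2.mono fun n hn => hn.trans (measure_mono fun g hg => ⟨hg.1, hg.2.trans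
    (mul_le_mul_of_nonneg_right (by linarith) (hc.le.trans hg.1))⟩)⟩

instance : IsProbabilityMeasure (disorderLaw n) :=
  inferInstanceAs (IsProbabilityMeasure (Crest.ProbabilityR.SpinGlassDynamics.couplingLaw false n))

lemma whp_real {P : ∀ n, (Pair n → ℝ) → Prop} (h : Whp disorderLaw P) {ε : ℝ} (hε : 0 < ε) :
    ∀ᶠ n in atTop, (disorderLaw n).real {g | ¬ P n g} ≤ ε :=
  (h.real.eventually (gt_mem_nhds hε)).mono fun _ hn => hn.le

lemma ofReal_le {S : Set (Pair n → ℝ)} {η : ℝ} (h : (disorderLaw n).real S ≤ η) :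
    disorderLaw n S ≤ ENNReal.ofReal η :=
  (ofReal_measureReal (measure_ne_top _ _)).symm.trans_le (ENNReal.ofReal_le_ofReal h)

lemma poin {β : ℝ} (hP : Top.PoinHi) (h0 : 0 ≤ β) (h1 : β < 1) : ∃ C > (0 : ℝ),
    Whp disorderLaw fun n g => Poin (gibbsWeight n β g) C := by
  obtain ⟨C, h⟩ := hP β h0 h1
  exact ⟨max C 1, by positivity, h.imp fun n g hg f => (hg f).trans (mul_le_mul_of_nonneg_right
    (le_max_left _ _) (dir_nn (E.gibbsWeight_pos β g) f))⟩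

lemma pos (hP : Top.PoinHi) : PosStmt := by
  intro β h0 h1
  obtain ⟨C, C0, hC⟩ := poin hP h0 h1
  refine ⟨1 / (2 * C), by positivity, fun Φ ⟨Ψ, B, w1, w2, _⟩ δ hδ η hη => ?_⟩
  obtain ⟨τ, t1, t2⟩ := (ev_exp (exp (2 / C) * (C * B)) hδ (show 0 < 1 / C by positivity)).exists
  refine ⟨τ, t1, ?_⟩
  filter_upwards [whp_real (w1.and hC) hη, w2, eventually_gt_atTop 0] with n hn h2 n0
  refine ofReal_le (le_trans (measureReal_mono fun g hg => ?_) hn)
  rintro ⟨⟨c, hc⟩, hp⟩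
  have hw := E.gibbsWeight_pos β g
  rw [Set.mem_ofPred_eq, funext hc, (shift n0 hw τ c _).1] at hg
  have a1 := (ineq n0 hw (Ψ n g) t1 le_rfl).2.2.1.trans
    (Chain22.var_sg_le n0 hw C0 hp (Ψ n g) (sub_nonneg.2 t1))
  have a2 := (hp (Ψ n g)).trans (mul_le_mul_of_nonneg_left (h2.2 g) C0.le)
  have a3 := mul_le_mul_of_nonneg_right t2 (exp_pos (-(1 / C * τ))).le
  have e : exp (-(2 / C * (τ - 1))) = exp (2 / C) * exp (-(1 / C * τ)) * exp (-(1 / C * τ)) := by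
    rw [← exp_add, ← exp_add]; congr 1; ring
  rw [show 2 * (1 / (2 * C)) * τ = 1 / C * τ by field_simp] at hg
  have a4 := mul_le_mul_of_nonneg_left a2 (exp_pos (-(2 / C * (τ - 1)))).le
  rw [e] at a1 a4
  linarith

lemma di (hL : Lr2Stmt) (hP : Top.PoinHi) : DiStmt := by
  rintro β h0 h1 Φ ⟨Ψ, B0, w1, w2, hk⟩ a ha
  obtain ⟨C, C0, hC⟩ := poin hP h0 h1
  choose! k hk using hk
  set B := max B0 1 with hB
  have B0' : 0 < B := by positivity
  have bd : ∀ τ ≥ (1 : ℝ), ∀ᶠ n in atTop, Measurable (kk β Ψ τ n) ∧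
      (∀ g, 0 ≤ kk β Ψ τ n g ∧ kk β Ψ τ n g ≤ B) ∧
      Integrable (fun g => LR false n β g * kk β Ψ τ n g) (disorderLaw n) := fun τ hτ => by
    filter_upwards [w2, eventually_gt_atTop 0] with n h n0
    have h3 : ∀ g, 0 ≤ kk β Ψ τ n g ∧ kk β Ψ τ n g ≤ B := fun g =>
      ⟨k2_nn (E.gibbsWeight_pos β g) _, by
        have := (ineq n0 (E.gibbsWeight_pos β g) (Ψ n g) hτ le_rfl).1
        simp only [ne_eq, OfNat.ofNat_ne_zero, not_false_eq_true, zero_pow, zero_mul, mul_zero,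
          neg_zero, exp_zero, one_mul, zero_add] at this
        exact this.trans ((h.2 g).trans (le_max_left B0 1))⟩
    exact ⟨meas_kk β τ h.1, h3, (Pl.integrable_LR false β).mul_bdd
      (meas_kk β τ h.1).aestronglyMeasurable (c := B) (ae_of_all _ fun g => by
        rw [Real.norm_of_nonneg (h3 g).1]; exact (h3 g).2)⟩
  by_cases hA : ∀ δ > (0 : ℝ), ∃ τ ≥ (1 : ℝ), k τ ≤ δ * exp (-(2 * a * τ))
  · refine Or.inl fun δ hδ η hη => ?_
    obtain ⟨η', η0, hη'⟩ := Pl.tight_LR false h0 h1 (show 0 < η / 3 by positivity)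
    obtain ⟨τ, t1, t2⟩ := hA (η' * δ / C * (η / 6)) (by positivity)
    refine ⟨τ, t1, ?_⟩
    set u := η' * δ / C * exp (-(2 * a * τ)) with hu
    have u0 : 0 < u := by positivity
    filter_upwards [whp_real (w1.and hC) (show 0 < η / 3 by positivity), bd τ t1,
      (hk τ (by linarith)).eventually (gt_mem_nhds (show k τ < u * (η / 3) by
        have : 0 < u * (η / 6) := by positivity
        rw [hu] at this ⊢; linarith)), eventually_gt_atTop 0] with n a1 ⟨_, a2, a3⟩ a4 n0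
    have a5 := (mul_meas_ge_le_integral_of_nonneg (ae_of_all _ fun g =>
      mul_nonneg (Pl.LR_pos false β g).le (a2 g).1) a3 u).trans a4.le
    have a6 := le_of_mul_le_mul_left a5 u0
    refine ofReal_le (le_trans (measureReal_mono (s₂ := ({g | ¬ ((∃ c, ∀ x, Φ n g x = Ψ n g x + c) ∧
      Poin (gibbsWeight n β g) C)} ∪ {g | LR false n β g < η'}) ∪
        {g | u ≤ LR false n β g * kk β Ψ τ n g}) fun g hg => ?_) ((measureReal_union_le _ _).trans
          ((add_le_add (measureReal_union_le _ _) le_rfl).trans ?_)))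
    · by_contra hc
      simp only [Set.mem_union, Set.mem_ofPred_eq, not_or, not_not, not_lt, not_le] at hc
      obtain ⟨⟨⟨⟨c, hc⟩, hp⟩, b1⟩, b2⟩ := hc
      have hw := E.gibbsWeight_pos β g
      rw [Set.mem_ofPred_eq, funext hc, (shift n0 hw τ c _).1] at hg
      have b3 := (ineq n0 hw (Ψ n g) t1 le_rfl).2.2.2 C C0
      have b4 := hp (sg (gibbsWeight n β g) τ (Ψ n g))
      have b5 : dir (gibbsWeight n β g) (sg (gibbsWeight n β g) τ (Ψ n g)) ≤ C * kk β Ψ τ n g :=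
        le_of_mul_le_mul_left (by unfold kk; unfold k2 at b3; linarith) C0
      have b6 := (mul_le_mul_of_nonneg_right b1 (a2 g).1).trans_lt b2
      rw [hu, div_mul_eq_mul_div, lt_div_iff₀ C0] at b6
      nlinarith [mul_lt_mul_of_pos_left (hg.trans_le b5) η0]
    · have := hη' n
      change (disorderLaw n).real _ ≤ _ at this
      linarith
  refine Or.inr fun e he => ?_
  push Not at hA
  obtain ⟨δ, hδ, hA⟩ := hA
  obtain ⟨C2, hC2⟩ := hL β h0 h1
  set σ := a + e / 2 with hσ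
  have σ0 : 0 < σ := by positivity
  obtain ⟨τ, ⟨t1, t2⟩, -, t3⟩ := ((ev_exp (exp (2 * σ) * B) (show 0 < δ / 4 by positivity) he).and
    (ev_exp B (show 0 < e / 2 * (δ / 4 / σ ^ 2) by positivity) he)).exists
  set u := δ / 2 * exp (-(2 * a * τ)) with hu
  have u0 : 0 < u := by positivity
  set C3 := max C2 1 with hC3
  have C30 : 0 < C3 := by positivity
  set θ := u / (2 * B * C3) with hθ
  have θ0 : 0 < θ := by positivity
  set c := min (u * θ / B) (u / 2 / σ ^ 2) with hc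
  have c0 : 0 < c := by positivity
  refine ⟨τ, t1, c, c0, ?_⟩
  filter_upwards [whp_real w1 c0, bd τ t1, (hk τ (by linarith)).eventually (lt_mem_nhds (hA τ t1)),
    w2, eventually_gt_atTop 0] with n a1 ⟨a0, a2, a3⟩ a4 a5 n0
  have hm : MeasurableSet {g | u < kk β Ψ τ n g} := measurableSet_lt measurable_const a0
  have i1 : Integrable (LR false n β) (disorderLaw n) := Pl.integrable_LR false β
  have i2 : Integrable ({g | u < kk β Ψ τ n g}.indicator fun _ => (1 : ℝ)) (disorderLaw n) :=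
    (integrable_const _).indicator hm
  have b1 := integral_mono a3 (((i1.const_mul u).add ((hC2 n).1.const_mul (B * θ))).add
    (i2.const_mul (B / (4 * θ)))) fun g => by
      have := (Pl.LR_pos (n := n) false β g).le
      simp only [Pi.add_apply]
      by_cases hg : u < kk β Ψ τ n g
      · rw [Set.indicator_of_mem (show g ∈ {g | u < kk β Ψ τ n g} from hg)]
        have q1 : LR false n β g ≤ θ * LR false n β g ^ 2 + 1 / (4 * θ) := by
          rw [← sub_nonneg, show θ * LR false n β g ^ 2 + 1 / (4 * θ) - LR false n β g =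
            (2 * θ * LR false n β g - 1) ^ 2 / (4 * θ) by field_simp; ring]
          positivity
        have q2 := mul_le_mul_of_nonneg_left q1 B0'.le
        have q3 := mul_le_mul_of_nonneg_left (a2 g).2 this
        have q4 := mul_nonneg u0.le this
        rw [mul_add, mul_one_div] at q2
        linarith
      · rw [Set.indicator_of_notMem (show g ∉ {g | u < kk β Ψ τ n g} from hg)]
        have q3 := mul_le_mul_of_nonneg_left (not_lt.1 hg) this
        have q4 : 0 ≤ B * θ * LR false n β g ^ 2 := by positivity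
        linarith
  have e1 : ∫ g, LR false n β g ∂disorderLaw n = 1 := Pl.integral_LR false β
  rw [integral_add' ((i1.const_mul u).add ((hC2 n).1.const_mul _)) (i2.const_mul _),
    integral_add' (i1.const_mul u) ((hC2 n).1.const_mul _), integral_const_mul,
    integral_const_mul, integral_const_mul, e1, integral_indicator_const _ hm, smul_eq_mul, mul_one,
    mul_one] at b1
  have b2 : B * θ * ∫ g, LR false n β g ^ 2 ∂disorderLaw n ≤ u / 2 :=
    (mul_le_mul_of_nonneg_left ((hC2 n).2.trans (le_max_left _ 1)) (by positivity)).trans_eq (by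
      rw [hθ, ← hC3]; field_simp)
  have b3 : 2 * c ≤ (disorderLaw n).real {g | u < kk β Ψ τ n g} := by
    have q : u / 2 ≤ B / (4 * θ) * (disorderLaw n).real {g | u < kk β Ψ τ n g} := by
      rw [hu] at b1 b2 ⊢; linarith
    rw [div_mul_eq_mul_div, le_div_iff₀ (by positivity)] at q
    have q2 := min_le_left (u * θ / B) (u / 2 / σ ^ 2)
    rw [← hc, le_div_iff₀ B0'] at q2
    exact le_of_mul_le_mul_left (by linarith) B0'
  rw [← ofReal_measureReal (measure_ne_top _ _)]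
  refine ENNReal.ofReal_le_ofReal (le_of_add_le_add_right (a := c) ((two_mul c).ge.trans
    (b3.trans ((measureReal_mono fun g hg => ?_).trans ((measureReal_union_le _ _).trans
      (add_le_add le_rfl a1))))))
  refine or_iff_not_imp_right.2 fun hc' => ?_
  obtain ⟨c', hc'⟩ := not_not.1 hc'
  have hw := E.gibbsWeight_pos β g
  rw [Set.mem_ofPred_eq, funext hc', (shift n0 hw τ c' _).1, (shift n0 hw τ c' _).2.1]
  obtain ⟨d1, d2, -⟩ := ineq n0 hw (Ψ n g) t1 σ0.le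
  have d3 := (a5.2 g).trans (le_max_left B0 1)
  have e2 : exp (-(2 * τ * σ)) = exp (-(e * τ)) * exp (-(2 * a * τ)) := by
    rw [← exp_add, hσ]; congr 1; ring
  have e3 : exp (-(2 * (τ - 1) * σ)) = exp (2 * σ) * exp (-(e * τ)) * exp (-(2 * a * τ)) := by
    rw [← exp_add, ← exp_add, hσ]; congr 1; ring
  have x0 := exp_pos (-(2 * a * τ))
  have d4 := mul_le_mul_of_nonneg_left d3 (exp_pos (-(2 * (τ - 1) * σ))).le
  have d5 := mul_le_mul_of_nonneg_left d3 (exp_pos (-(2 * τ * σ))).le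
  have d6 := mul_le_mul_of_nonneg_right t2 x0.le
  have d7 := mul_le_mul_of_nonneg_right t3 x0.le
  rw [e3] at d1 d4
  rw [e2] at d2 d5
  have d8 : u / 2 / σ ^ 2 ≤ var (gibbsWeight n β g) (sg (gibbsWeight n β g) τ (Ψ n g)) := by
    rw [div_le_iff₀ (by positivity)]
    have : u < k2 (gibbsWeight n β g) (sg (gibbsWeight n β g) τ (Ψ n g)) := hg
    rw [hu] at this ⊢; linarith
  refine ⟨(min_le_right _ _).trans d8, ?_⟩
  have d9 := mul_le_mul_of_nonneg_left d8 (half_pos he).le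
  rw [show e / 2 * (u / 2 / σ ^ 2) = e / 2 * (δ / 4 / σ ^ 2) * exp (-(2 * a * τ)) by
    rw [hu]; ring] at d9
  rw [show a + e = σ + e / 2 by rw [hσ]; ring]
  linarith

end Di23

theorem diGlue : DiGlue := fun hL hP => ⟨Di23.di hL hP, Di23.pos hP⟩

open Di23 in
theorem outGlue : OutGlue := by
  intro hD hP hU hE hL β h0 h1 𝓕 l hl hF hR
  obtain ⟨a0, a00, ha0⟩ := hP β h0 h1
  set S : Set ℝ := {a | a ≤ l ∧ ∀ Φ ∈ 𝓕, Dc β Φ a} with hS
  have m0 : min a0 l ∈ S := ⟨min_le_right _ _, fun Φ hΦ =>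
    Dc.anti (ha0 Φ (hF Φ hΦ)) (min_le_left _ _)⟩
  have bd : BddAbove S := ⟨l, fun a ha => ha.1⟩
  have s0 : 0 < sSup S := (lt_min a00 hl).trans_le (le_csSup bd m0)
  refine ⟨sSup S, s0, csSup_le ⟨_, m0⟩ fun a ha => ha.1, ?_, fun hlt => hL β _ h0 h1
    (hU β h0 h1 𝓕 _ s0.le hR fun e he => ?_)⟩
  · rintro _ ⟨Φ, hΦ, rfl⟩ a ha hlt
    obtain ⟨a', h2, h3⟩ := exists_lt_of_lt_csSup ⟨_, m0⟩ hlt
    exact hE β h0 h1 Φ (fun c hc => (hR c hc).imp fun c' h => ⟨h.1, h.2 Φ hΦ⟩) a ha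
      (Dc.anti (h2.2 Φ hΦ) h3.le)
  · have h2 : sSup S < min (sSup S + e) l := lt_min (by linarith) hlt
    have h3 : ¬ ∀ Φ ∈ 𝓕, Dc β Φ (min (sSup S + e) l) := fun h =>
      h2.not_ge (le_csSup bd ⟨min_le_right _ _, h⟩)
    push Not at h3
    obtain ⟨Φ, hΦ, h4⟩ := h3
    exact ⟨Φ, hΦ, Slow.mono ((hD β h0 h1 Φ (hF Φ hΦ) _ (s0.trans h2).le).resolve_left h4)
      (min_le_left _ _)⟩

end Crest.Agent.T157.Lm

end
end

-- ▼ part T157/LmUpA_53
section

/-!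
# Row 157, block B/S5 (helper53): a slow observable seen from nearby couplings
-/

set_option autoImplicit false

noncomputable section

namespace Crest.Agent.T157.Up53

open Matrix Real Filter Topology Finset
open Crest.Agent.T157.E hiding mean
open Crest.Agent.T157.Eig
open Crest.Agent.T157.Tap (V Mx)
open Crest.Agent.T157.Rec (grad fl grad_eq sv_mul_self sg_mono sg_const dir_le_grad)
open Crest.Agent.T157.Da.Gr (loc tt loc_fl tanh_lip tanh_diff gen_ising row_sq_le)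
open Crest.Agent.T157.Chain22 (sg IsP mean isP_prob')
open Crest.Agent.T157.Reg
open Crest.Agent.T157.Reg.Rg10

variable {n : ℕ}

lemma tanh_dif (a b : ℝ) : tanh a - tanh b = tanh (a - b) * (1 - tanh a * tanh b) := by
  have h1 := (cosh_pos a).ne'
  have h2 := (cosh_pos b).ne'
  have h3 := (cosh_pos (a - b)).ne'
  simp only [tanh_eq_sinh_div_cosh]
  field_simp
  rw [cosh_sub, sinh_sub]

/-- second difference of `tanh` -/
lemma sec2 (h h' c : ℝ) : |tanh h - tanh (h - c) - (tanh h' - tanh (h' - c)) -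
    c * (tanh h' ^ 2 - tanh h ^ 2)| ≤ 7 * c ^ 2 * |h - h'| := by
  have e1 := tanh_dif h (h - c)
  have e2 := tanh_dif h' (h' - c)
  rw [sub_sub_cancel] at e1 e2
  obtain ⟨q, q1, -, -, -, q2⟩ := tanh_diff 0 (-c)
  rw [tanh_zero, zero_sub, sub_neg_eq_add, zero_add] at q1
  rw [tanh_zero, abs_neg] at q2
  have l1 := tanh_lip h h'
  have l2 := tanh_lip (h - c) (h' - c)
  have l3 := tanh_lip h' (h' - c)
  have l4 := tanh_lip c 0
  rw [sub_sub_sub_cancel_right] at l2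
  rw [sub_sub_cancel] at l3
  rw [tanh_zero, sub_zero, sub_zero] at l4
  have b1 := (abs_tanh_lt_one h).le
  have b2 := (abs_tanh_lt_one h').le
  have b3 := (abs_tanh_lt_one (h' - c)).le
  generalize tanh h = t at *
  generalize tanh h' = t' at *
  generalize tanh (h - c) = u at *
  generalize tanh (h' - c) = u' at *
  generalize tanh c = d at *
  generalize hΔ : |h - h'| = Δ at *
  have Δ0 : 0 ≤ Δ := hΔ ▸ abs_nonneg _
  have c0 := abs_nonneg c
  have k1 : |t' * u' - t * u| ≤ 2 * Δ := by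
    rw [show t' * u' - t * u = -((t - t') * u' + t * (u - u')) by ring, abs_neg]
    refine (abs_add_le _ _).trans ?_
    rw [abs_mul, abs_mul]
    linarith [mul_le_mul l1 b3 (abs_nonneg _) Δ0, mul_le_mul b1 l2 (abs_nonneg _) zero_le_one]
  have k2 : |t - u - (t' - u')| ≤ |c| * (2 * Δ) := by
    rw [show t - u - (t' - u') = d * (t' * u' - t * u) by rw [e1, e2]; ring, abs_mul]
    exact mul_le_mul l4 k1 (abs_nonneg _) c0
  have k3 : |t' ^ 2 - t ^ 2| ≤ 2 * Δ := by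
    rw [show t' ^ 2 - t ^ 2 = -((t' + t) * (t - t')) by ring, abs_neg, abs_mul]
    exact mul_le_mul ((abs_add_le _ _).trans (by linarith)) l1 (abs_nonneg _) zero_le_two
  have k4 : |d - c| ≤ |c| * (2 * |c|) := by
    rw [show d - c = c * (q - (1 - 0 ^ 2)) by linarith, abs_mul]
    exact mul_le_mul_of_nonneg_left q2 c0
  have k5 : |(t - t') * (t' - u') + t * (t - u - (t' - u'))| ≤ 3 * (|c| * Δ) := by
    refine (abs_add_le _ _).trans ?_
    rw [abs_mul, abs_mul]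
    linarith [mul_le_mul l1 l3 (abs_nonneg _) Δ0, mul_le_mul b1 k2 (abs_nonneg _) zero_le_one]
  rw [show t - u - (t' - u') - c * (t' ^ 2 - t ^ 2) = (d - c) * (t' ^ 2 - t ^ 2) +
    d * ((t - t') * (t' - u') + t * (t - u - (t' - u'))) by linear_combination e1 - e2]
  refine (abs_add_le _ _).trans ?_
  rw [abs_mul, abs_mul, ← sq_abs c]
  linarith [mul_le_mul k4 k3 (abs_nonneg _) (by positivity), mul_le_mul l4 k5 (abs_nonneg _) c0]

/-- two close coupling matrices -/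
structure Near (W W' : Mx n) (r : ℝ) : Prop where
  s : Wᵀ = W
  s' : W'ᵀ = W'
  d : ∀ i, W i i = 0
  d' : ∀ i, W' i i = 0
  r0 : 0 ≤ r
  fro : n * ∑ i, ∑ j, (W i j - W' i j) ^ 2 ≤ r ^ 2

variable {W W' : Mx n} {r K e ρ H : ℝ}

lemma sv_sq (x : Cube n) (i : Fin n) : sv x i ^ 2 = 1 := by rw [sq, sv_mul_self]

lemma Near.dl (h : Near W W' r) (x : Cube n) (i : Fin n) :
    loc W 0 x i - loc W' 0 x i = ∑ k, (W i k - W' i k) * sv x k := by
  simp only [loc, h.d, h.d', mulVec, dotProduct, sub_mul, sum_sub_distrib]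
  ring

lemma Near.loc (h : Near W W' r) (x : Cube n) :
    ∑ i, (loc W 0 x i - loc W' 0 x i) ^ 2 ≤ r ^ 2 := by
  refine le_trans ?_ h.fro
  rw [mul_sum]
  refine sum_le_sum fun i _ => ?_
  rw [h.dl]
  refine (sum_mul_sq_le_sq_mul_sq _ _ _).trans_eq ?_
  simp [sv_sq, mul_comm]

lemma tt_sq (W W' : Mx n) (x : Cube n) (i : Fin n) :
    (tt W 0 x i - tt W' 0 x i) ^ 2 ≤ (loc W 0 x i - loc W' 0 x i) ^ 2 := sq_le_sq.2 (tanh_lip _ _)

lemma Near.tt (h : Near W W' r) (x : Cube n) : ∑ i, (tt W 0 x i - tt W' 0 x i) ^ 2 ≤ r ^ 2 :=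
  (sum_le_sum fun i _ => tt_sq W W' x i).trans (h.loc x)

lemma abs_sum_le {a : Fin n → ℝ} (r0 : 0 ≤ r) (h : ∑ i, a i ^ 2 ≤ r ^ 2) :
    ∑ i, |a i| ≤ r * √n := by
  refine abs_le_of_sq_le_sq' ?_ (by positivity) |>.2
  have := sum_mul_sq_le_sq_mul_sq univ (fun i => |a i|) fun _ => 1
  simp only [mul_one, sq_abs, one_pow, sum_const, card_univ, Fintype.card_fin, nsmul_eq_mul] at this
  rw [mul_pow, sq_sqrt n.cast_nonneg]
  exact this.trans (mul_le_mul_of_nonneg_right h n.cast_nonneg)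

lemma Near.mu (h : Near W W' r) (x : Cube n) :
    mu W x ≤ exp (r * √n / 2) * mu W' x ∧ mu W' x ≤ exp (r * √n / 2) * mu W x := by
  have h1 : |sv x ⬝ᵥ W *ᵥ sv x - sv x ⬝ᵥ W' *ᵥ sv x| ≤ r * √n := by
    refine le_trans ?_ (abs_sum_le h.r0 (h.loc x))
    rw [← dotProduct_sub, dotProduct]
    refine (abs_sum_le_sum_abs _ _).trans (sum_le_sum fun i _ => le_of_eq ?_)
    rw [abs_mul, sv, abs_spin, one_mul]
    simp [Da.Gr.loc, h.d, h.d']
  rw [abs_le] at h1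
  simp only [Reg.mu, ising, ← exp_add, exp_le_exp, zero_dotProduct]
  constructor <;> linarith

lemma Near.wm (h : Near W W' r) {H' : ℝ} {v : Cube n → ℝ} (hv : Wm (Reg.mu W') H' v)
    (hH : H' + r * √n ≤ H) : Wm (Reg.mu W) H v := by
  refine ⟨hv.1, fun x => (hv.2 x).trans ?_⟩
  have z : ∀ W : Mx n, 0 < ∑ y, Reg.mu W y := fun W => sum_pos (fun y _ => mu_pos W y) univ_nonempty
  have h1 : ∑ y, Reg.mu W y ≤ exp (r * √n / 2) * ∑ y, Reg.mu W' y := by
    rw [mul_sum]; exact sum_le_sum fun y _ => (h.mu y).1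
  have h2 : prob (Reg.mu W') x ≤ exp (r * √n) * prob (Reg.mu W) x := by
    rw [prob, prob, ← mul_div_assoc, div_le_div_iff₀ (z _) (z _)]
    refine (mul_le_mul (h.mu x).2 h1 (z _).le (mul_pos (exp_pos _) (mu_pos _ _)).le).trans_eq ?_
    rw [mul_mul_mul_comm, ← exp_add, add_halves, mul_assoc]
  refine (mul_le_mul_of_nonneg_left h2 (exp_pos _).le).trans ?_
  rw [← mul_assoc, ← exp_add]
  exact mul_le_mul_of_nonneg_right (exp_le_exp.2 hH) ((isP_prob' (mu_pos W)).nn x)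

/-- gradient of the paired field -/
lemma Near.grad (h : Near W W' r) (hK : opn W ≤ K) {ω : VF n} (hs : ∀ x i, |ω x i| ≤ e)
    (ho : ∀ x, opn (jac ω x) ≤ e) (x : Cube n) :
    ∑ j, grad (fun z => ∑ k, (Da.Gr.tt W 0 z k - Da.Gr.tt W' 0 z k) * ω z k) x j ^ 2 ≤
      (5 + 48 * K ^ 2 + 1568 * K ^ 4) * (e ^ 2 * r ^ 2) := by
  set J := jac ω x with hJ
  set Δ : V n := fun k => Da.Gr.loc W 0 x k - Da.Gr.loc W' 0 x k with hΔ
  set a : V n := fun k => Da.Gr.tt W 0 x k - Da.Gr.tt W' 0 x k with ha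
  set b : V n := fun k => Da.Gr.tt W' 0 x k ^ 2 - Da.Gr.tt W 0 x k ^ 2 with hb
  have K2 : opn W ^ 2 ≤ K ^ 2 := pow_le_pow_left₀ (opn_nonneg _) hK 2
  have J2 : opn J ^ 2 ≤ e ^ 2 := pow_le_pow_left₀ (opn_nonneg _) (ho x) 2
  have s1 : ∀ y k, ω y k ^ 2 ≤ e ^ 2 := fun y k =>
    sq_le_sq' (abs_le.1 (hs y k)).1 (abs_le.1 (hs y k)).2
  have cW : ∀ j, ∑ k, W k j ^ 2 ≤ K ^ 2 := fun j => (row_sq_le W j).trans K2
  have rW : ∀ k, ∑ j, W k j ^ 2 ≤ K ^ 2 := fun k => by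
    have := (row_sq_le Wᵀ k).trans_eq (by rw [opn_transpose])
    exact this.trans K2
  have b1 : ∀ k, b k ^ 2 ≤ 4 * Δ k ^ 2 := fun k => by
    have h1 := tt_sq W W' x k
    have h2 := abs_le.1 (abs_tanh_lt_one (Da.Gr.loc W 0 x k)).le
    have h3 := abs_le.1 (abs_tanh_lt_one (Da.Gr.loc W' 0 x k)).le
    have h4 : (Da.Gr.tt W' 0 x k + Da.Gr.tt W 0 x k) ^ 2 ≤ 4 := by
      simp only [Da.Gr.tt]; nlinarith
    calc b k ^ 2 = (Da.Gr.tt W' 0 x k + Da.Gr.tt W 0 x k) ^ 2 *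
          (Da.Gr.tt W 0 x k - Da.Gr.tt W' 0 x k) ^ 2 := by rw [hb]; ring
      _ ≤ _ := mul_le_mul h4 h1 (sq_nonneg _) (by norm_num)
  have hr : ∑ k, Δ k ^ 2 ≤ r ^ 2 := h.loc x
  have p2 : ∑ j, (Wᵀ *ᵥ fun k => b k * ω x k) j ^ 2 ≤ K ^ 2 * (4 * e ^ 2 * r ^ 2) := by
    have := mulVec_dot_le Wᵀ fun k => b k * ω x k
    simp only [dotProduct, ← sq, opn_transpose] at this
    refine this.trans (mul_le_mul K2 ?_ (sum_nonneg fun _ _ => sq_nonneg _) (sq_nonneg _))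
    refine le_trans (sum_le_sum fun k _ => ?_)
      ((mul_sum _ _ _).symm.trans_le (mul_le_mul_of_nonneg_left hr (by positivity)))
    rw [mul_pow]
    linarith [mul_le_mul (b1 k) (s1 x k) (sq_nonneg _) (by positivity)]
  have z2 : ∑ j, (Jᵀ *ᵥ a) j ^ 2 ≤ e ^ 2 * r ^ 2 := by
    have := mulVec_dot_le Jᵀ a
    simp only [dotProduct, ← sq, opn_transpose] at this
    exact this.trans (mul_le_mul J2 (h.tt x) (sum_nonneg fun _ _ => sq_nonneg _) (sq_nonneg _))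
  have key : ∀ j, Rec.grad (fun z => ∑ k, (Da.Gr.tt W 0 z k - Da.Gr.tt W' 0 z k) * ω z k) x j ^ 2 ≤
      4 * (Wᵀ *ᵥ fun k => b k * ω x k) j ^ 2 + (32 + 1568 * K ^ 2) * e ^ 2 * ∑ k, W k j ^ 2 * Δ k ^ 2 +
        4 * e ^ 2 * (n * ∑ k, (W k j - W' k j) ^ 2) + (Jᵀ *ᵥ a) j ^ 2 := fun j => by
    have f1 : ∀ (A : Mx n) k, (∀ i, A i i = 0) → Da.Gr.tt A 0 (fl x j) k =
        tanh (Da.Gr.loc A 0 x k - 2 * sv x j * A k j) := fun A k hA => by
      rw [Da.Gr.tt, loc_fl]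
      split_ifs with hk
      · rw [hk, hA, mul_zero]
      · rfl
    set R : V n := fun k => tanh (Da.Gr.loc W 0 x k) - tanh (Da.Gr.loc W 0 x k - 2 * sv x j * W k j) -
      (tanh (Da.Gr.loc W' 0 x k) - tanh (Da.Gr.loc W' 0 x k - 2 * sv x j * W k j)) -
      2 * sv x j * W k j * b k with hR
    set S : V n := fun k => tanh (Da.Gr.loc W' 0 x k - 2 * sv x j * W' k j) -
      tanh (Da.Gr.loc W' 0 x k - 2 * sv x j * W k j) with hS
    have R2 : ∀ k, R k ^ 2 ≤ 784 * (W k j ^ 4 * Δ k ^ 2) := fun k => by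
      have := pow_le_pow_left₀ (abs_nonneg _)
        (sec2 (Da.Gr.loc W 0 x k) (Da.Gr.loc W' 0 x k) (2 * sv x j * W k j)) 2
      rw [sq_abs, mul_pow, sq_abs, mul_pow (2 * sv x j), mul_pow 2, sv_sq] at this
      refine this.trans_eq ?_
      rw [hΔ]; ring
    have S2 : ∀ k, S k ^ 2 ≤ 4 * (W k j - W' k j) ^ 2 := fun k =>
      (sq_le_sq.2 (tanh_lip _ _)).trans_eq (by
        linear_combination 4 * (W k j - W' k j) ^ 2 * sv_sq x j)
    have q2 := sum_sq_le_sum_mul_sum_of_sq_le_mul univ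
      (r := fun k => 2 * sv x j * W k j * b k * J k j + R k * ω (fl x j) k)
      (f := fun k => W k j ^ 2 * Δ k ^ 2) (g := fun k => 32 * J k j ^ 2 + 1568 * e ^ 2 * W k j ^ 2)
      (fun _ _ => by positivity) (fun _ _ => by positivity) fun k _ => by
        have c1 := mul_le_mul (R2 k) (s1 (fl x j) k) (sq_nonneg _) (by positivity)
        have c2 := mul_le_mul_of_nonneg_left (b1 k) (show 0 ≤ W k j ^ 2 * J k j ^ 2 by positivity)
        have c3 : (2 * sv x j * W k j * b k * J k j) ^ 2 = 4 * (W k j ^ 2 * J k j ^ 2 * b k ^ 2) := by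
          linear_combination 4 * (W k j ^ 2 * J k j ^ 2 * b k ^ 2) * sv_sq x j
        linarith [sq_nonneg (2 * sv x j * W k j * b k * J k j - R k * ω (fl x j) k)]
    rw [sum_add_distrib (f := fun k => 32 * J k j ^ 2), ← mul_sum, ← mul_sum] at q2
    have q3 := q2.trans (mul_le_mul_of_nonneg_left (add_le_add (mul_le_mul_of_nonneg_left
      ((row_sq_le J j).trans J2) (by norm_num)) (mul_le_mul_of_nonneg_left (cW j) (by positivity)))
      (sum_nonneg fun _ _ => by positivity))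
    have v2 := sum_sq_le_sum_mul_sum_of_sq_le_mul univ (r := fun k => S k * ω (fl x j) k)
      (f := fun k => 4 * (W k j - W' k j) ^ 2) (g := fun _ => e ^ 2)
      (fun _ _ => by positivity) (fun _ _ => by positivity) fun k _ => by
        rw [mul_pow]; exact mul_le_mul (S2 k) (s1 _ k) (sq_nonneg _) (by positivity)
    rw [← mul_sum, sum_const, card_univ, Fintype.card_fin, nsmul_eq_mul] at v2
    have e1 := flip_sq (fun z => ∑ k, (Da.Gr.tt W 0 z k - Da.Gr.tt W' 0 z k) * ω z k) x j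
    have e2 : ∑ k, (Da.Gr.tt W 0 x k - Da.Gr.tt W' 0 x k) * ω x k -
        ∑ k, (Da.Gr.tt W 0 (fl x j) k - Da.Gr.tt W' 0 (fl x j) k) * ω (fl x j) k =
        2 * sv x j * (Wᵀ *ᵥ fun k => b k * ω x k) j +
          ∑ k, (2 * sv x j * W k j * b k * J k j + R k * ω (fl x j) k) +
          ∑ k, S k * ω (fl x j) k - (Jᵀ *ᵥ a) j := by
      simp only [mulVec, dotProduct, transpose_apply, mul_sum, ← sum_add_distrib, ← sum_sub_distrib]
      refine sum_congr rfl fun k _ => ?_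
      rw [f1 W k h.d, f1 W' k h.d']
      simp only [hR, hS, ha, hJ, jac, of_apply, Da.Gr.tt]
      ring
    rw [e2] at e1
    generalize (Wᵀ *ᵥ fun k => b k * ω x k) j = p at *
    generalize ∑ k, (2 * sv x j * W k j * b k * J k j + R k * ω (fl x j) k) = q at *
    generalize ∑ k, S k * ω (fl x j) k = v at *
    generalize (Jᵀ *ᵥ a) j = z at *
    have e3 : (2 * sv x j * p) ^ 2 = 4 * p ^ 2 := by linear_combination 4 * p ^ 2 * sv_sq x j
    generalize 2 * sv x j * p = p' at *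
    nlinarith [sq_nonneg (p' - q), sq_nonneg (p' - v), sq_nonneg (p' + z), sq_nonneg (q - v),
      sq_nonneg (q + z), sq_nonneg (v + z)]
  refine (sum_le_sum fun j _ => key j).trans ?_
  simp only [sum_add_distrib, ← mul_sum]
  have t1 : ∑ j, ∑ k, W k j ^ 2 * Δ k ^ 2 ≤ K ^ 2 * r ^ 2 := by
    rw [sum_comm]
    refine le_trans (sum_le_sum fun k _ => ?_)
      ((mul_sum _ _ _).symm.trans_le (mul_le_mul_of_nonneg_left hr (sq_nonneg K)))
    rw [← sum_mul]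
    exact mul_le_mul_of_nonneg_right (rW k) (sq_nonneg _)
  have t2 := h.fro
  rw [sum_comm] at t2
  linarith [mul_le_mul_of_nonneg_left t1 (show 0 ≤ (32 + 1568 * K ^ 2) * e ^ 2 by positivity),
    mul_le_mul_of_nonneg_left t2 (show 0 ≤ 4 * e ^ 2 by positivity)]

lemma var_le_grad {w : Cube n → ℝ} (hw : ∀ x, 0 < w x) (K0 : 0 ≤ K) (hA : Ent.AT w K 0)
    {G : Cube n → ℝ} {B : ℝ} (hB : ∀ x, grad G x ⬝ᵥ grad G x ≤ B) : var w G ≤ K * B :=
  (hA.poinc hw K0 G).trans (mul_le_mul_of_nonneg_left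
    ((dir_le_grad hw G).trans ((SL.Wt.of_pos hw).mean_le hB)) K0)

/-- the difference of the generators decorrelates -/
lemma Near.cov (h : Near W W' r) (hK : opn W ≤ K) (hA : Ent.AT (Reg.mu W') K 0) {G : Cube n → ℝ}
    {ω : VF n} (hF : Fld (Reg.mu W) G ω e ρ H) (hv : Wm (Reg.mu W) H (prob (Reg.mu W'))) {B : ℝ}
    (hB : ∀ x, Rec.grad G x ⬝ᵥ Rec.grad G x ≤ B) :
    E.cov (Reg.mu W') G (fun x => gen (Reg.mu W) G x - gen (Reg.mu W') G x) ^ 2 ≤
      K * B * (2 * (K * ((5 + 48 * K ^ 2 + 1568 * K ^ 4) * (e ^ 2 * r ^ 2))) + 2 * (r ^ 2 * ρ)) := by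
  have hw := mu_pos W'
  have wt := SL.Wt.of_pos hw
  have K0 : 0 ≤ K := (opn_nonneg _).trans hK
  set Y : Cube n → ℝ := fun z => ∑ k, (Da.Gr.tt W 0 z k - Da.Gr.tt W' 0 z k) * ω z k with hY
  have v1 := var_le_grad hw K0 hA hB
  have v2 := var_le_grad hw K0 hA (G := Y) fun x => by
    simpa only [dotProduct, ← sq] using h.grad hK hF.sup hF.op x
  have p : ∀ x, (gen (Reg.mu W) G x - gen (Reg.mu W') G x - E.mean (Reg.mu W') Y) ^ 2 ≤
      2 * (Y x - E.mean (Reg.mu W') Y) ^ 2 + 2 * (r ^ 2 * sq2 (Rec.grad G - ω) x) := fun x => by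
    have e1 : gen (Reg.mu W) G x - gen (Reg.mu W') G x = Y x +
        ∑ k, (Da.Gr.tt W 0 x k - Da.Gr.tt W' 0 x k) * (Rec.grad G - ω) x k := by
      rw [Reg.mu, Reg.mu, gen_ising h.s, gen_ising h.s', hY, ← sum_sub_distrib, ← sum_add_distrib]
      exact sum_congr rfl fun k _ => by simp only [Pi.sub_apply]; ring
    have e2 := (sum_mul_sq_le_sq_mul_sq univ (fun k => Da.Gr.tt W 0 x k - Da.Gr.tt W' 0 x k)
      ((Rec.grad G - ω) x)).trans (mul_le_mul_of_nonneg_right (h.tt x)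
        (sum_nonneg fun _ _ => sq_nonneg _))
    rw [← sq2_eq] at e2
    rw [e1]
    nlinarith [sq_nonneg (Y x - E.mean (Reg.mu W') Y -
      ∑ k, (Da.Gr.tt W 0 x k - Da.Gr.tt W' 0 x k) * (Rec.grad G - ω) x k)]
  have v3 := (wt.var_le_mean _ (E.mean (Reg.mu W') Y)).trans (wt.mean_mono p)
  rw [SL.mean_add, SL.mean_const_mul, SL.mean_const_mul, SL.mean_const_mul] at v3
  refine (wt.cov_sq_le _ _).trans (mul_le_mul v1 (v3.trans (add_le_add
    (mul_le_mul_of_nonneg_left v2 zero_le_two) (mul_le_mul_of_nonneg_left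
      (mul_le_mul_of_nonneg_left (hF.cl _ hv) (sq_nonneg r)) zero_le_two))) (wt.var_nonneg _)
    ((wt.var_nonneg _).trans v1))

/-- the energies agree -/
lemma Near.dir (h : Near W W' r) (hn : 0 < n) {G : Cube n → ℝ} {ω : VF n}
    (hF : Fld (Reg.mu W) G ω e ρ H) (hv : Wm (Reg.mu W) H (prob (Reg.mu W'))) {m : ℝ}
    (hm : mean (prob (Reg.mu W')) (fun x => |Low.Gm (Reg.mu W) G G x - dir (Reg.mu W) G|) ≤ m) :
    |dir (Reg.mu W') G - dir (Reg.mu W) G| ≤ m + 2 * (e ^ 2 * (r * √n)) + 4 * ρ := by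
  have hp := hv.1
  have p : ∀ x, |Low.Gm (Reg.mu W') G G x - E.dir (Reg.mu W) G| ≤
      |Low.Gm (Reg.mu W) G G x - E.dir (Reg.mu W) G| + 2 * (e ^ 2 * (r * √n)) +
        4 * sq2 (Rec.grad G - ω) x := fun x => by
    rw [add_assoc, add_comm]
    refine (abs_sub_le _ (Low.Gm (Reg.mu W) G G x) _).trans (add_le_add_left ?_ _)
    refine le_trans ?_ (add_le_add_left (mul_le_mul_of_nonneg_left (mul_le_mul_of_nonneg_left
      (abs_sum_le h.r0 (h.tt x)) (sq_nonneg e)) zero_le_two) _)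
    rw [Gm_eq basStmt hn h.s, Gm_eq basStmt hn h.s', ← mul_sub, ← sum_sub_distrib, sq2_eq, mul_sum,
      mul_sum, mul_sum, mul_sum, ← sum_add_distrib]
    refine (abs_sum_le_sum_abs _ _).trans (sum_le_sum fun k _ => ?_)
    rw [show 2 * (Tk W' x k * Rec.grad G x k ^ 2 - Tk W x k * Rec.grad G x k ^ 2) =
      sv x k * ((Da.Gr.tt W 0 x k - Da.Gr.tt W' 0 x k) * Rec.grad G x k ^ 2) by
        simp only [Tk]; ring, abs_mul, sv, abs_spin, one_mul, abs_mul, abs_sq]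
    have c1 : |Da.Gr.tt W 0 x k - Da.Gr.tt W' 0 x k| ≤ 2 := (abs_sub _ _).trans (by
      simp only [Da.Gr.tt]
      linarith [abs_tanh_lt_one (Da.Gr.loc W 0 x k), abs_tanh_lt_one (Da.Gr.loc W' 0 x k)])
    have c2 := sq_le_sq' (abs_le.1 (hF.sup x k)).1 (abs_le.1 (hF.sup x k)).2
    have c3 : Rec.grad G x k ^ 2 ≤ 2 * e ^ 2 + 2 * (Rec.grad G x k - ω x k) ^ 2 := by
      nlinarith [sq_nonneg (Rec.grad G x k - 2 * ω x k)]
    have c4 := mul_le_mul_of_nonneg_left c3 (abs_nonneg (Da.Gr.tt W 0 x k - Da.Gr.tt W' 0 x k))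
    have c5 := mul_le_mul_of_nonneg_right c1 (sq_nonneg (Rec.grad G x k - ω x k))
    simp only [Pi.sub_apply]
    linarith
  have q := hp.mean_mono p
  rw [Ent.mean_add', Ent.mean_add', hp.mean_const, Ent.mean_const_mul] at q
  refine le_trans ?_ (q.trans (by linarith [hF.cl _ hv]))
  rw [← mean_Gm hn (mu_pos W'), ← hp.mean_const (E.dir (Reg.mu W) G), ← Ent.mean_sub', abs_le,
    ← neg_one_mul, ← Ent.mean_const_mul]
  simp only [hp.mean_const]
  exact ⟨hp.mean_mono fun x => by rw [neg_one_mul]; exact neg_abs_le _,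
    hp.mean_mono fun x => le_abs_self _⟩

lemma cov_gen {w : Cube n → ℝ} (hw : ∀ x, 0 < w x) (G : Cube n → ℝ) :
    cov w G (gen w G) = -dir w G := by
  rw [Chain22.ecov_eq hw, S42.mean_gen hw, Chain22.dir_eq_dir2', Chain22.dir2_eq_gen hw]; ring

lemma hasDerivAt_var {w w' : Cube n → ℝ} (hn : 0 < n) (hw : ∀ x, 0 < w x) (hw' : ∀ x, 0 < w' x)
    (Φ : Cube n → ℝ) (t : ℝ) : HasDerivAt (fun t => var w' (sg w t Φ))
      (2 * cov w' (sg w t Φ) (gen w (sg w t Φ))) t := by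
  have d := Chain22.hasDerivAt_sg hn hw Φ
  have d1 := (@Ent.hasDerivAt_mean _ _ (prob w') _ _ _ fun x => (d x t).fun_mul (d x t)).fun_sub
    ((@Ent.hasDerivAt_mean _ _ (prob w') _ _ _ fun x => d x t).fun_pow 2)
  simp only [Chain22.evar_eq, (isP_prob' hw').var_eq, Chain22.ip_eq_mean]
  refine d1.congr_deriv ?_
  rw [Chain22.ecov_eq hw', Chain22.ip_eq_mean, Ent.mean_add']
  simp only [mul_comm (gen w (sg w t Φ) _)]
  norm_num
  ring

/-- transfer of the variance -/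
lemma var_ge {w w' : Cube n → ℝ} (hn : 0 < n) (hw : ∀ x, 0 < w x) (hw' : ∀ x, 0 < w' x)
    (Φ : Cube n → ℝ) {τ T δ : ℝ} (hT : τ ≤ T) (h : ∀ t, τ ≤ t → t ≤ T →
      |dir w' (sg w t Φ) - dir w (sg w t Φ)| ≤ δ ∧
      cov w' (sg w t Φ) (fun x => gen w (sg w t Φ) x - gen w' (sg w t Φ) x) ≤ δ) :
    var w (sg w τ Φ) - var w (sg w T Φ) - 4 * δ * (T - τ) ≤ var w' (sg w τ Φ) := by
  have d := fun t => (hasDerivAt_var hn hw hw' Φ t).sub (hasDerivAt_var hn hw hw Φ t)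
  have := (convex_Icc τ T).image_sub_le_mul_sub_of_deriv_le
    (f := fun t => var w' (sg w t Φ) - var w (sg w t Φ))
    (fun t _ => (d t).continuousAt.continuousWithinAt)
    (fun t _ => (d t).differentiableAt.differentiableWithinAt) (C := 4 * δ) (fun t ht => by
      have ht' := interior_subset ht
      obtain ⟨h1, h2⟩ := h t ht'.1 ht'.2
      rw [SL.cov_sub, cov_gen hw'] at h2
      refine (d t).deriv.trans_le ?_
      rw [cov_gen hw]
      linarith [(abs_le.1 h1).1]) τ ⟨le_rfl, hT⟩ T ⟨hT, le_rfl⟩ hT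
  linarith [(SL.Wt.of_pos hw').var_nonneg (sg w T Φ)]

lemma fld_mono {w Φ : Cube n → ℝ} {ω : VF n} {e' ρ' : ℝ} (h : Fld w Φ ω e ρ H) (he : e ≤ e')
    (hρ : ρ ≤ ρ') : Fld w Φ ω e' ρ' H :=
  ⟨h.odd, fun x i => (h.sup x i).trans he, fun x => (h.op x).trans he,
    fun v hv => (h.cl v hv).trans hρ⟩

/-- **the deterministic core** -/
lemma core (K0 : 0 < K) {B T : ℝ} (B0 : 0 ≤ B) (T0 : 0 ≤ T) (r : ℝ) : ∃ C ≥ (1 : ℝ),
    ∀ (n : ℕ) (W W' : Mx n) (Φ : Cube n → ℝ) (ω0 : VF n) (e ρ H L η : ℝ), 0 < n → Near W W' r →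
    Nice W K → Ent.AT (mu W) K 0 → Ent.AT (mu W') K 0 → Fld (mu W) Φ ω0 e ρ H →
    (∀ x, grad Φ x ⬝ᵥ grad Φ x ≤ B) → r * √n ≤ H → 1 ≤ H → 0 < e → 1 ≤ L → 0 < η → η ≤ 1 →
    ρ ≤ η ^ 2 → n * e ^ 2 / L ^ 2 ≤ η ^ 2 → L ^ 2 * e ^ 2 * H ≤ η ^ 2 →
    (L ^ 2 * e ^ 2) ^ 2 * (n * H) ≤ η ^ 2 → ∀ t, 0 ≤ t → t ≤ T →
    (∃ ω, Fld (mu W) (sg (mu W) t Φ) ω (C * (L * e)) (C * η ^ 2) H) ∧
    (∀ x, grad (sg (mu W) t Φ) x ⬝ᵥ grad (sg (mu W) t Φ) x ≤ C) ∧
    |dir (mu W') (sg (mu W) t Φ) - dir (mu W) (sg (mu W) t Φ)| ≤ C * η ∧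
    cov (mu W') (sg (mu W) t Φ)
      (fun x => gen (mu W) (sg (mu W) t Φ) x - gen (mu W') (sg (mu W) t Φ) x) ≤ C * η := by
  obtain ⟨C1, c1, R1⟩ := All.regS K K0
  obtain ⟨C2, c2, R2⟩ := All.rgStmt K K0
  obtain ⟨C3, c3, R3⟩ := Da.grStmt K
  obtain ⟨A, hA⟩ : ∃ A, A = C1 * exp (C1 * T) := ⟨_, rfl⟩
  have A1 : 1 ≤ A := hA ▸ one_le_mul_of_one_le_of_one_le c1 (one_le_exp (by positivity))
  obtain ⟨Bg, hBg⟩ : ∃ Bg, Bg = exp (C3 * T) * B := ⟨_, rfl⟩
  have Bg0 : 0 ≤ Bg := hBg ▸ by positivity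
  obtain ⟨D1, hD1⟩ : ∃ D1, D1 = C2 * (4 * A + √(4 * A * (2 * Bg + 8 * A + A ^ 2)) + 2 * A ^ 2) +
    2 * (A ^ 2 * |r|) + 16 * A := ⟨_, rfl⟩
  have D10 : 0 ≤ D1 := hD1 ▸ by positivity
  obtain ⟨D2, hD2⟩ : ∃ D2, D2 = √(K * Bg * (2 * (K * ((5 + 48 * K ^ 2 + 1568 * K ^ 4) *
    (A ^ 2 * r ^ 2))) + 2 * (r ^ 2 * (4 * A)))) := ⟨_, rfl⟩
  have D20 : 0 ≤ D2 := hD2 ▸ sqrt_nonneg _
  refine ⟨4 * A + Bg + D1 + D2, by linarith, fun n W W' Φ ω0 e ρ H L η hn h hN a1 a2 hF hB rH H1 e0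
    L1 η0 η1 s1 s2 s3 s4 t t0 tT => ?_⟩
  have hw := mu_pos W
  obtain ⟨ω, -, f1, -, -⟩ := R1 n W hn hN a1 Φ ω0 e ρ H T L e0 T0 L1 hF 1 (fun _ => t) (fun _ => 1)
    1 (fun _ => ⟨t0, tT⟩) (by simp) (η ^ 2) (by positivity)
  simp only [Fin.sum_univ_one, one_mul, mul_one, one_pow] at f1
  set G := sg (mu W) t Φ with hG
  have Le : 0 < L * e := by positivity
  have η2 : η ^ 2 ≤ η := by nlinarith
  have η3 : η ^ 2 ≤ A * η ^ 2 := le_mul_of_one_le_left (sq_nonneg η) A1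
  have f2 : Fld (mu W) G ω (A * (L * e)) (4 * A * η ^ 2) H := by
    refine fld_mono f1 (le_of_eq (by rw [hA]; ring)) ?_
    rw [← hA]
    linarith [mul_le_mul_of_nonneg_left (add_le_add (add_le_add s1 s2) s3) (zero_le_one.trans A1)]
  clear R1 f1
  have g1 : ∀ x, grad G x ⬝ᵥ grad G x ≤ Bg := fun x =>
    (R3 n W 0 hn hN.1 hN.2.1 t t0 Φ x).trans (hBg ▸ mul_le_mul
      (exp_le_exp.2 (mul_le_mul_of_nonneg_left tT c3))
      ((sg_mono hn hw t0 hB x).trans_eq (sg_const hn hw _ _ _))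
      (Rec.sg_nonneg hn hw t0 (fun _ => dot_self_nonneg _) x) (exp_pos _).le)
  have hv : Wm (mu W) H (prob (mu W')) := h.wm (wm_self (mu_pos W') le_rfl) (by linarith)
  have u1 : (L * e) ^ 2 ≤ η ^ 2 := by
    rw [mul_pow]; exact (le_mul_of_one_le_right (by positivity) H1).trans s3
  have u2 : (L * e) ^ 2 * √(n * (H + 1)) ≤ 2 * η := by
    refine (abs_le_of_sq_le_sq' ?_ (by positivity)).2
    rw [mul_pow, sq_sqrt (by positivity), mul_pow L]
    have : (L ^ 2 * e ^ 2) ^ 2 * (n * (H + 1)) ≤ (L ^ 2 * e ^ 2) ^ 2 * (n * (H + H)) := by gcongr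
    nlinarith [sq_nonneg η]
  have u3 : (L * e) ^ 2 * √n ≤ η := by
    refine (abs_le_of_sq_le_sq' ?_ η0.le).2
    rw [mul_pow, sq_sqrt (by positivity), mul_pow L]
    exact (mul_le_mul_of_nonneg_left (le_mul_of_one_le_right n.cast_nonneg H1) (sq_nonneg _)).trans s4
  refine ⟨⟨ω, fld_mono f2 (by gcongr; linarith) (by gcongr; linarith)⟩,
    fun x => (g1 x).trans (by linarith), ?_, ?_⟩
  · have m1 := (R2 n W hn hN a1 G ω _ _ _ f2 _ hv).1 (2 * Bg + 8 * A)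
      ((ColG.sq2_two (isP_prob' hw) (grad G) ω g1 (f2.cl _ (wm_self hw (by linarith)))).trans
        (by nlinarith))
    have m2 : √(4 * A * η ^ 2 * (2 * Bg + 8 * A + (A * (L * e)) ^ 2 * H)) ≤
        √(4 * A * (2 * Bg + 8 * A + A ^ 2)) * η := by
      refine sqrt_le_iff.2 ⟨by positivity, ?_⟩
      rw [mul_pow √_, sq_sqrt (by positivity), mul_right_comm]
      have : (A * (L * e)) ^ 2 * H ≤ A ^ 2 := by
        rw [mul_pow, mul_pow, mul_assoc]
        exact mul_le_of_le_one_right (sq_nonneg _) (s3.trans (η2.trans η1))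
      gcongr
    have m3 : (A * (L * e)) ^ 2 * √(n * (H + 1)) ≤ 2 * A ^ 2 * η := by
      rw [mul_pow, mul_assoc]; linarith [mul_le_mul_of_nonneg_left u2 (sq_nonneg A)]
    have m4 : 4 * A * η ^ 2 ≤ 4 * A * η := mul_le_mul_of_nonneg_left η2 (by linarith)
    have m5 : (A * (L * e)) ^ 2 * (r * √n) ≤ A ^ 2 * |r| * η := by
      rw [abs_of_nonneg h.r0, mul_pow]
      linarith [mul_le_mul_of_nonneg_left u3 (mul_nonneg (sq_nonneg A) h.r0)]
    refine (h.dir hn f2 hv (m1.trans (mul_le_mul_of_nonneg_left (add_le_add (add_le_add m4 m2) m3)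
      (by linarith)))).trans (le_trans ?_ (mul_le_mul_of_nonneg_right (show D1 ≤ _ by linarith) η0.le))
    rw [hD1]
    linarith
  · refine le_trans (abs_le_of_sq_le_sq' ((h.cov hN.2.1 a2 f2 hv g1).trans ?_) (by positivity)).2
      (mul_le_mul_of_nonneg_right (show D2 ≤ _ by linarith) η0.le)
    rw [mul_pow D2, hD2, sq_sqrt (by positivity), mul_assoc (K * Bg), mul_pow A]
    refine mul_le_mul_of_nonneg_left ?_ (by positivity)
    linarith [mul_le_mul_of_nonneg_left u1 (show 0 ≤ K * (5 + 48 * K ^ 2 + 1568 * K ^ 4) *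
      (A ^ 2 * r ^ 2) by positivity)]

end Crest.Agent.T157.Up53

end
end

-- ▼ part T157/LmUp_53
section

/-!
# Row 157, block B/S5 (helper53): `Lm.UpStmt`, from positive to high probability
-/

set_option autoImplicit false

noncomputable section

namespace Crest.Agent.T157.Up53

open MeasureTheory Matrix Real Filter Topology Finset
open Crest.ProbabilityR.SpinGlassDynamics (Pair disorderLaw gibbsWeight)
open Crest.Agent.T157.E hiding mean
open Crest.Agent.T157.Tap (V Mx)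
open Crest.Agent.T157.Rec (grad sg_mono sg_const)
open Crest.Agent.T157.Chain22 (sg IsP mean isP_prob')
open Crest.Agent.T157.Reg
open Crest.Agent.T157.Reg.Rg10
open Crest.Agent.T157.Top (Whp whp_iff)

/-- blow-up of a set of positive measure -/
lemma blow {P G : ∀ n, (Pair n → ℝ) → Prop} {S : ∀ n, Set (Pair n → ℝ)} {c : ℝ} (hc : 0 < c)
    (hS : ∀ᶠ n in atTop, ENNReal.ofReal c ≤ disorderLaw n (S n)) (hG : Whp disorderLaw G)
    (h : ∀ r ≥ (0 : ℝ), ∀ᶠ n in atTop, ∀ g ∈ S n, G n g → ∀ g', G n g' → Conc.en (g' - g) ≤ r →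
      P n g') : Whp disorderLaw P := by
  have ex : ∀ a > (0 : ℝ), ∃ s ≥ (0 : ℝ), exp (-s ^ 2 / 2) < a := fun a ha =>
    ⟨2 + |log a|, by positivity, by
      rw [← lt_log_iff_exp_lt ha]; nlinarith [neg_abs_le (log a), abs_nonneg (log a)]⟩
  refine whp_iff.2 fun ε hε => ?_
  obtain ⟨s, s0, hs⟩ := ex (c / 2) (by positivity)
  obtain ⟨t, t0, ht⟩ := ex (ε / 2) (by positivity)
  filter_upwards [hS, h (s + t) (by positivity), hG.real.eventually_le_const
    (show 0 < min (c / 2) (ε / 2) by positivity)] with n h1 h2 h3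
  have h4 : c ≤ (disorderLaw n).real (S n) := (ENNReal.ofReal_le_iff_le_toReal (by finiteness)).1 h1
  have h5 : (disorderLaw n).real (S n) ≤ (disorderLaw n).real {g | g ∈ S n ∧ G n g} +
      (disorderLaw n).real {g | ¬G n g} :=
    (measureReal_mono (fun g hg => by by_cases hh : G n g <;> simp [hg, hh])).trans
      (measureReal_union_le _ _)
  have h6 := Conc.enlarge {g | g ∈ S n ∧ G n g} s0 t0 (hs.trans_le (by
    change _ ≤ (disorderLaw n).real _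
    linarith [min_le_left (c / 2) (ε / 2)]))
  have h7 : (disorderLaw n).real {g | ¬P n g} ≤ (disorderLaw n).real
      {x | ∀ a ∈ {g | g ∈ S n ∧ G n g}, s + t ≤ Conc.en (x - a)} +
      (disorderLaw n).real {g | ¬G n g} :=
    (measureReal_mono (fun g hg => by
      by_cases hh : G n g
      · exact Or.inl fun a ha => (not_le.1 fun hl => hg (h2 a ha.1 ha.2 g hh hl)).le
      · exact Or.inr hh)).trans (measureReal_union_le _ _)
  change (disorderLaw n).real _ ≤ _ at h6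
  refine (ENNReal.le_ofReal_iff_toReal_le (by finiteness) hε.le).2 (h7.trans ?_)
  linarith [min_le_right (c / 2) (ε / 2)]

variable {n : ℕ}

lemma near {β r : ℝ} (β0 : 0 ≤ β) (β1 : β ≤ 1) (hn : 0 < n) {g g' : Pair n → ℝ} (r0 : 0 ≤ r)
    (h : Conc.en (g' - g) ≤ r) : Near (β • Jmat n g) (β • Jmat n g') (2 * r) := by
  refine ⟨by rw [transpose_smul, Jmat_transpose], by rw [transpose_smul, Jmat_transpose],
    fun i => by simp [Jmat_diag], fun i => by simp [Jmat_diag], by positivity, ?_⟩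
  have n0 : (0 : ℝ) < n := by exact_mod_cast hn
  rw [sum_sum_eq_two_mul_pair (fun i j => ((β • Jmat n g) i j - (β • Jmat n g') i j) ^ 2)
    (fun i j => by simp only [Matrix.smul_apply, Jmat_symm g i j, Jmat_symm g' i j])
    fun i => by simp [Jmat_diag]]
  have h1 : ∑ p, (g' - g) p ^ 2 ≤ r ^ 2 := (sqrt_le_iff.1 h).2
  have h2 : ∑ p : Pair n, ((β • Jmat n g) p.1.1 p.1.2 - (β • Jmat n g') p.1.1 p.1.2) ^ 2 =
      β ^ 2 * (∑ p, (g' - g) p ^ 2) / n := by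
    rw [mul_sum, sum_div]
    refine sum_congr rfl fun p _ => ?_
    simp only [Matrix.smul_apply, Jmat_apply_lt _ p.2, smul_eq_mul, Pi.sub_apply]
    rw [← mul_sub, ← sub_div, mul_pow, div_pow, sq_sqrt n0.le]
    change β ^ 2 * ((g p - g' p) ^ 2 / n) = _
    ring
  rw [h2, mul_left_comm, mul_div_cancel₀ _ n0.ne']
  nlinarith [mul_le_mul (pow_le_one₀ (n := 2) β0 β1) h1 (sum_nonneg fun _ _ => sq_nonneg _)
    zero_le_one, sq_nonneg r]

lemma grad_shift (G : Cube n → ℝ) (c : ℝ) : grad (fun x => G x - c) = grad G := funext fun x => by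
  rw [Rec.grad_sub, Rec.grad_const, sub_zero]

lemma osc {w Φ : Cube n → ℝ} (hn : 0 < n) (hw : ∀ x, 0 < w x) {t M : ℝ} (ht : 0 ≤ t)
    (h : ∀ x y, |Φ x - Φ y| ≤ M) (x y : Cube n) : sg w t Φ x - sg w t Φ y ≤ M := by
  have h1 : ∀ v, sg w t Φ x - M ≤ Φ v := fun v => by
    linarith [(sg_mono hn hw ht (f := Φ) (g := fun _ => Φ v + M) (fun u => by
      linarith [(abs_le.1 (h u v)).2]) x).trans_eq (sg_const hn hw _ _ _)]
  linarith [(sg_const hn hw _ _ _).symm.trans_le (sg_mono hn hw ht h1 y)]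

theorem up : Lm.UpStmt := by
  intro β β0 β1 𝓕 lam lam0 hR hS c hc c1
  obtain ⟨K1, K1p, hN⟩ := niceStmt
  obtain ⟨K2, K2p, hA⟩ := Rv.at0 β β0 β1
  obtain ⟨K, hK⟩ : ∃ K, K = max K1 K2 := ⟨_, rfl⟩
  have k1 : K1 ≤ K := hK ▸ le_max_left _ _
  have k2 : K2 ≤ K := hK ▸ le_max_right _ _
  have K0 : 0 < K := K1p.trans_le k1
  obtain ⟨c', hc', hR⟩ := hR (c / 4) (by positivity)
  obtain ⟨m, hm⟩ : ∃ m, m = min (c' / 2) (c / 256) := ⟨_, rfl⟩
  have m0 : 0 < m := hm ▸ by positivity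
  have m1 : m ≤ c' / 2 := hm ▸ min_le_left _ _
  have m2 : m ≤ c / 256 := hm ▸ min_le_right _ _
  refine ⟨m, m0, fun e he => ?_⟩
  obtain ⟨Φ, hΦ, hS⟩ := hS (e / 4) (by positivity)
  obtain ⟨τ, τ1, a, a0, hS⟩ := hS (e / 4) (by positivity)
  obtain ⟨B, hB⟩ := hR Φ hΦ
  obtain ⟨κ, hκ⟩ : ∃ κ, κ = e / (2 * (1 + 2 * (lam + e))) := ⟨_, rfl⟩
  have κ0 : 0 < κ := hκ ▸ by positivity
  have κ1 : κ * (2 * (1 + 2 * (lam + e))) = e := hκ ▸ div_mul_cancel₀ _ (by positivity)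
  have κ2 : κ ≤ 1 / 4 := by rw [hκ, div_le_iff₀ (by positivity)]; linarith
  obtain ⟨s, s0, hs⟩ : ∃ s ≥ (0 : ℝ), exp (-(2 / K * s)) ≤ κ := ⟨K / 2 * |log κ|, by positivity, by
    rw [← le_log_iff_exp_le κ0, ← mul_assoc, show 2 / K * (K / 2) = 1 by field_simp, one_mul]
    exact neg_abs_le _⟩
  refine blow a0 hS (hB.and (hN.and hA)) fun r r0 => ?_
  obtain ⟨C, C1, hC⟩ := core K0 (abs_nonneg B) (T := s + τ) (by linarith) (2 * r)
  have ev : ∀ b > (0 : ℝ), ∀ M : ℝ, ∀ᶠ n : ℕ in atTop, M ≤ (n : ℝ) ^ b := fun b hb M =>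
    ((tendsto_rpow_atTop hb).comp tendsto_natCast_atTop_atTop).eventually_ge_atTop M
  filter_upwards [eventually_gt_atTop 0, ev m m0 (2 + 4 * r + C + C * (4 * s + 1) / (κ * a)),
    ev e he (|B| + C + 2 / a)] with n hn hP hE g hg gg g' gg' hd
  obtain ⟨⟨f1, f2, ω0, f3⟩, g1, g2⟩ := gg
  obtain ⟨v1, v2⟩ := hg
  have g3 := gg'.2.2
  have n1 : (1 : ℝ) ≤ n := by exact_mod_cast hn
  have n0 : (0 : ℝ) < n := by linarith
  have nr := near β0 β1.le hn r0 hd
  have nice := Col13.nice_mono (g1 β β0 β1.le) K1p.le k1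
  have ew : ∀ g, gibbsWeight n β g = mu (β • Jmat n g) := gibbsWeight_eq_ising β
  rw [ew] at f3 g2 g3 v1 v2 ⊢
  generalize β • Jmat n g = W at *
  generalize β • Jmat n g' = W' at *
  have hw := mu_pos W
  have hw' := mu_pos W'
  have a1 := g2.mono hw k2 le_rfl
  have a2 := g3.mono hw' k2 le_rfl
  have x0 : 0 ≤ log n := log_natCast_nonneg n
  have rp : ∀ a : ℝ, (n : ℝ) ^ a = exp (a * log n) := fun a => by
    rw [rpow_def_of_pos n0, mul_comm]
  have sn : √n = exp (1 / 2 * log n) := by rw [sqrt_eq_rpow, rp]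
  have cx := mul_le_mul_of_nonneg_right m2 x0
  have cx' := mul_le_mul_of_nonneg_right m1 x0
  have cy := mul_le_mul_of_nonneg_right c1 x0
  have mx := mul_nonneg m0.le x0
  have q0 : 0 ≤ C * (4 * s + 1) / (κ * a) := by positivity
  have η1 : (n : ℝ) ^ m * (n : ℝ) ^ (-m) = 1 := by rw [← rpow_add n0, add_neg_cancel, rpow_zero]
  have η0 : 0 < (n : ℝ) ^ (-m) := by positivity
  have hH : (n : ℝ) ^ (1 - c) + 2 * r * √n ≤ (n : ℝ) ^ (1 - c / 4) := by
    have h1 : (n : ℝ) ^ m * (n : ℝ) ^ (1 - c) ≤ (n : ℝ) ^ (1 - c / 4) := by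
      rw [rp, rp, rp, ← exp_add, exp_le_exp]; linarith
    have h2 : (n : ℝ) ^ m * √n ≤ (n : ℝ) ^ (1 - c / 4) := by
      rw [sn, rp, rp, ← exp_add, exp_le_exp]; linarith
    linarith [mul_le_mul_of_nonneg_right (show 2 ≤ (n : ℝ) ^ m by linarith)
      (show 0 ≤ (n : ℝ) ^ (1 - c) by positivity),
      mul_le_mul_of_nonneg_right (show 4 * r ≤ (n : ℝ) ^ m by linarith) (sqrt_nonneg n)]
  have D := hC n W W' (Φ n g) ω0 _ _ _ ((n : ℝ) ^ (c / 128)) ((n : ℝ) ^ (-m)) hn nr nice a1 a2 f3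
    (fun x => (f1 x).trans (le_abs_self B))
    (le_trans (le_add_of_nonneg_left (by positivity)) hH) (one_le_rpow n1 (by linarith))
    (by positivity) (one_le_rpow n1 (by positivity)) η0
    (rpow_le_one_of_one_le_of_nonpos n1 (by linarith))
    (by rw [rp, rp, ← exp_nat_mul, exp_le_exp]; push_cast; linarith)
    (by
      rw [rp, rp, rp]
      nth_rewrite 1 [← exp_log n0]
      simp only [← exp_nat_mul, ← exp_add, ← exp_sub, exp_le_exp]
      push_cast; linarith)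
    (by
      simp only [rp, ← exp_nat_mul, ← exp_add, exp_le_exp]
      push_cast; linarith)
    (by
      rw [rp, rp, rp, rp]
      nth_rewrite 3 [← exp_log n0]
      simp only [← exp_nat_mul, ← exp_add, exp_le_exp]
      push_cast; linarith)
  have τ0 : 0 ≤ τ := by linarith
  obtain ⟨⟨ω, d1⟩, d2, d3, -⟩ := D τ τ0 (by linarith)
  have d4 := var_ge hn hw hw' (Φ n g) (τ := τ) (T := s + τ) (by linarith) fun t t1 t2 =>
    (D t (τ0.trans t1) t2).2.2
  have d5 := Chain22.var_sg_le hn hw K0 (a1.poinc hw K0.le) (sg (mu W) τ (Φ n g)) s0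
  rw [← Chain22.sg_add hn hw] at d5
  have o := osc hn hw τ0 f2
  generalize sg (mu W) τ (Φ n g) = G at *
  generalize hη : (n : ℝ) ^ (-m) = η at *
  have Cη : C * η ≤ 1 := (mul_le_mul_of_nonneg_right (by linarith) η0.le).trans_eq η1
  have Cη' : C * (4 * s + 1) * η ≤ κ * a := by
    have := (mul_le_mul_of_nonneg_right (show C * (4 * s + 1) / (κ * a) ≤ _ by linarith)
      η0.le).trans_eq η1
    rwa [div_mul_eq_mul_div, div_le_one (by positivity)] at this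
  have V0 : 0 ≤ var (mu W) G := a0.le.trans v1
  have κV := mul_le_mul_of_nonneg_left v1 κ0.le
  have Cs : 0 ≤ C * η * s := by positivity
  have Cη0 : 0 ≤ C * η := by positivity
  have d6 : (1 - 2 * κ) * var (mu W) G ≤ var (mu W') G := by
    linarith [mul_le_mul_of_nonneg_right hs V0]
  have ev : var (mu W') (fun x => G x - E.mean (mu W') G) = var (mu W') G :=
    (isP_prob' hw').var_add_const G (-E.mean (mu W') G)
  have a2' : 0 < 2 / a := by positivity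
  have eb : C * ((n : ℝ) ^ (c / 128) * (n : ℝ) ^ (c / 4 / 64 - 1 / 2)) ≤ (n : ℝ) ^ (c / 16 - 1 / 2) := by
    refine (mul_le_mul_of_nonneg_right (show C ≤ (n : ℝ) ^ m by linarith) (by positivity)).trans ?_
    simp only [rp, ← exp_add, exp_le_exp]
    linarith
  refine ⟨fun x => G x - E.mean (mu W') G, ω, ?_, fun x => ?_, fun x => ?_, ?_, ?_, d1.odd,
    fun x i => (d1.sup x i).trans eb, fun x => (d1.op x).trans eb, fun v hv => ?_⟩
  · rw [SL.mean_sub, (SL.Wt.of_pos hw').mean_const, sub_self]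
  · rw [grad_shift]; linarith [d2 x, abs_nonneg B]
  · have h1 := (SL.Wt.of_pos hw').mean_le (f := G) (c := G x + B * √n) fun y => by
      linarith [o y x]
    have h2 := (isP_prob' hw').mean_mono (f := fun _ => G x - B * √n) (g := G) fun y => by
      linarith [o x y]
    rw [(isP_prob' hw').mean_const] at h2
    have h3 := mul_le_mul_of_nonneg_left (show B ≤ (n : ℝ) ^ e by linarith [le_abs_self B])
      (sqrt_nonneg n)
    change _ ≤ E.mean (mu W') G at h2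
    rw [abs_le]
    constructor <;> linarith
  · rw [ev]
    refine (inv_anti₀ a2' (by linarith [abs_nonneg B])).trans ?_
    rw [inv_div]
    nlinarith
  · rw [ev, basStmt.dir_eq n W' nr.s', grad_shift, ← basStmt.dir_eq n W' nr.s']
    refine le_trans ?_ (mul_le_mul_of_nonneg_left d6 (by linarith))
    have := congrArg (· * var (mu W) G) κ1
    linarith [(abs_le.1 d3).2]
  · rw [grad_shift]
    refine (d1.cl v (nr.wm hv hH)).trans ?_
    rw [sq, ← mul_assoc]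
    exact mul_le_of_le_one_left η0.le Cη

end Crest.Agent.T157.Up53

theorem Crest.Agent.T157.Lm.upStmt : Crest.Agent.T157.Lm.UpStmt := Crest.Agent.T157.Up53.up

end
end

-- ▼ part T157/LmOut_32

/-!
# Row 157, block B/S5 (helper32): the output of the limit theory
-/

namespace Crest.Agent.T157.Lm

theorem diStmt : DiStmt := (diGlue lr2Stmt Rv.poinHi).1
theorem posStmt : PosStmt := (diGlue lr2Stmt Rv.poinHi).2
/-- **output of S5** -/
theorem outStmt : OutStmt := outGlue diStmt posStmt upStmt decStmt fun _ _ => Lbc.lbcG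

end Crest.Agent.T157.Lm
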