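import Crest.Agent.T157.Orb_59

/-!
# Row 157, part A2 (helper59): first and second moments on cosets of `SO(m)`
-/

set_option autoImplicit false

noncomputable section

namespace Crest.Agent.T157.Orb

open MeasureTheory Matrix Set Filter
open Crest.Agent.Lib.OrthPoinc Crest.Agent.T157.Oc

variable {m : ℕ}

lemma exists_perp {r : ℕ} (h : r < m) (a : Fin r → Fin m → ℝ) :
    ∃ u : Fin m → ℝ, u ≠ 0 ∧ ∀ i, u ⬝ᵥ a i = 0 := by
  have h1 : LinearMap.ker (Matrix.of a).mulVecLin ≠ ⊥ :=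
    LinearMap.ker_ne_bot_of_finrank_lt (by simpa using h)
  obtain ⟨u, hu, hu0⟩ := Submodule.exists_mem_ne_zero_of_ne_bot h1
  exact ⟨u, hu0, fun i => (dotProduct_comm _ _).trans (congrFun (LinearMap.mem_ker.1 hu) i)⟩

/-- a vector orthogonal to `a, b` and fixed by their stabiliser vanishes -/
lemma fix_perp (hm : 4 ≤ m) {a b y : Fin m → ℝ} (ha : y ⬝ᵥ a = 0) (hb : y ⬝ᵥ b = 0)
    (h : ∀ k ∈ SO m, Matrix.of k *ᵥ a = a → Matrix.of k *ᵥ b = b → Matrix.of k *ᵥ y = y) :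
    y = 0 := by
  by_contra hy
  obtain ⟨u, hu, hu'⟩ := exists_perp (r := 3) (by omega) ![a, b, y]
  have e : ∀ v, Matrix.of (fun k l => (hs y * hs u) k l) *ᵥ v = hs y *ᵥ (hs u *ᵥ v) := fun v =>
    (mulVec_mulVec v (hs y) (hs u)).symm
  have h1 := h _ (hs_hs_mem hy hu) (by rw [e, hs_fix (x := a) (hu' 0), hs_fix ha])
    (by rw [e, hs_fix (x := b) (hu' 1), hs_fix hb])
  rw [e, hs_fix (x := y) (hu' 2), hs_self] at h1
  exact hy (funext fun i => by have := congrFun h1 i; simp only [Pi.neg_apply] at this; simp; linarith)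

/-- the part of `v` orthogonal to `a` -/
def pr (a v : Fin m → ℝ) : Fin m → ℝ := v - (v ⬝ᵥ a / (a ⬝ᵥ a)) • a

lemma pr_dot (a v : Fin m → ℝ) : pr a v ⬝ᵥ a = 0 := by
  rw [pr, sub_dotProduct, smul_dotProduct, smul_eq_mul]
  by_cases h : a ⬝ᵥ a = 0
  · rw [dotProduct_self_eq_zero.1 h]; simp
  · rw [div_mul_cancel₀ _ h, sub_self]

lemma fix_vec (hm : 4 ≤ m) {σ v : Fin m → ℝ}
    (h : ∀ k ∈ SO m, Matrix.of k *ᵥ σ = σ → Matrix.of k *ᵥ v = v) :
    v = (v ⬝ᵥ σ / (σ ⬝ᵥ σ)) • σ :=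
  sub_eq_zero.1 (fix_perp hm (pr_dot σ v) (pr_dot σ v) fun k hk h1 _ => by
    rw [mulVec_sub, mulVec_smul, h k hk h1, h1])


variable {μ : Measure (Mat m)} [IsProbabilityMeasure μ]

lemma int_left (hμ : SOInv μ) {k : Mat m} (hk : k ∈ SO m) {f : Mat m → ℝ} (hf : Integrable f μ) :
    ∫ U, f (mm k U) ∂μ = ∫ U, f U ∂μ := by
  have h := mp_left hμ hk
  conv_rhs => rw [← h.map_eq]
  exact (integral_map h.measurable.aemeasurable
    (by rw [h.map_eq]; exact hf.aestronglyMeasurable)).symm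

lemma xi_fix {σ : Fin m → ℝ} {k : Mat m} (hk : k ∈ SO m) (h : Matrix.of k *ᵥ σ = σ) (U : Mat m) :
    xi σ (mm k U) = xi σ U := by rw [xi_mm, xi_eq_of hk h]

/-- mean of an equivariant vector -/
theorem mean_vec (hμ : SOInv μ) (hm : 4 ≤ m) (σ : Fin m → ℝ) {F : Mat m → Fin m → ℝ}
    (hi : ∀ i, Integrable (fun U => F U i) μ)
    (h : ∀ k ∈ SO m, Matrix.of k *ᵥ σ = σ → ∀ U, F (mm k U) = Matrix.of k *ᵥ F U) (i : Fin m) :
    ∫ U, F U i ∂μ = (∫ U, F U ⬝ᵥ σ ∂μ) / (σ ⬝ᵥ σ) * σ i := by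
  have h1 := fix_vec hm (σ := σ) (v := fun i => ∫ U, F U i ∂μ) fun k hk e => funext fun i => by
    rw [← int_left hμ hk (hi i)]
    simp only [h k hk e, mulVec, dotProduct]
    rw [integral_finsetSum _ fun j _ => (hi j).const_mul _]
    simp only [integral_const_mul]
  have h2 : (fun i => ∫ U, F U i ∂μ) ⬝ᵥ σ = ∫ U, F U ⬝ᵥ σ ∂μ := by
    simp only [dotProduct]
    rw [integral_finsetSum _ fun j _ => (hi j).mul_const _]
    simp only [integral_mul_const]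
  rw [h2] at h1
  exact congrFun h1 i


omit [IsProbabilityMeasure μ] in
lemma int_entry_mul (hμ : SOInv μ) {f : Mat m → ℝ} (hf : Integrable f μ) (a b : Fin m) :
    Integrable (fun U => U a b * f U) μ :=
  hf.bdd_mul (c := 1) (Measurable.aestronglyMeasurable (by fun_prop))
    (hμ.mem.mono fun _ hU => abs_le_one_of_so hU a b)

/-- **(M2)** `E [U w(ξ)] = E [w(ξ) · ξ] σ / |σ|²`, `ξ = U' σ` -/
theorem coset_vec (hμ : SOInv μ) (hm : 4 ≤ m) (σ : Fin m → ℝ) {w : (Fin m → ℝ) → Fin m → ℝ}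
    (hi : ∀ i, Integrable (fun U => w (xi σ U) i) μ) (i : Fin m) :
    ∫ U, (Matrix.of U *ᵥ w (xi σ U)) i ∂μ =
      (∫ U, w (xi σ U) ⬝ᵥ xi σ U ∂μ) / (σ ⬝ᵥ σ) * σ i := by
  rw [mean_vec hμ hm σ (F := fun U => Matrix.of U *ᵥ w (xi σ U))
    (fun i => integrable_finsetSum Finset.univ fun j _ => int_entry_mul hμ (hi j) i j)
    (fun k hk e U => by rw [xi_fix hk e, of_mm, mulVec_mulVec]) i]
  congr 3
  funext U
  rw [dotProduct_comm, dotProduct_mulVec, ← mulVec_transpose, dotProduct_comm]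
  rfl


end Crest.Agent.T157.Orb
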