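import Crest.Agent.T157.OoDef_9
import Crest.Agent.T157.OrbB_59

set_option autoImplicit false
set_option linter.unusedSectionVars false

/-!
Row 157, A2 section 4 (helper84): the joint law of `(U, s)` on one orbit.  Words, polar form,
coset means and the Schwinger-Dyson identity.
-/

noncomputable section

namespace Crest.Agent.T157.Mj

open MeasureTheory Matrix Crest.Agent.Lib.OrthPoinc Filter Topology Set
open Crest.Agent.T157.Oc Crest.Agent.T157.E Crest.Agent.T157.SL Crest.Agent.T157.Ks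
open Crest.Agent.T157.Od Crest.Agent.T157.Oo

variable {n k : ℕ} (o : Oo.Orb n k)

/-- projection on the rotated subspace -/
def Pm : Mn n := o.E * o.Eᵀ
/-- projection on the fixed subspace (`Π`) -/
def Qm : Mn n := 1 - o.E * o.Eᵀ
/-- `A = z - W`, `x`-frame -/
def A0 : Mn n := o.z • (1 : Mn n) - o.W
/-- `s - p` -/
def sh (s : Cube n) : Vn n := sv s - o.p
/-- `gᵀ (s - p)` -/
def xh (s : Cube n) (U : Mat k) : Vn n := (o.g U)ᵀ *ᵥ sh o s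
/-- `A_U (s - p)` -/
def yv (s : Cube n) (U : Mat k) : Vn n := o.A U *ᵥ sh o s
/-- `|P s|²` -/
def R2 (s : Cube n) : ℝ := (o.Eᵀ *ᵥ sv s) ⬝ᵥ (o.Eᵀ *ᵥ sv s)
/-- `c = A ξ · P ξ / R²` -/
def cc (s : Cube n) (ξ : Vn n) : ℝ := (A0 o *ᵥ ξ) ⬝ᵥ (Pm o *ᵥ ξ) / R2 o s
/-- `a = A P ξ · P ξ / R²` -/
def aa (s : Cube n) (ξ : Vn n) : ℝ := (A0 o *ᵥ (Pm o *ᵥ ξ)) ⬝ᵥ (Pm o *ᵥ ξ) / R2 o s
/-- a unit vector -/
def e0 (k : ℕ) : Fin k → ℝ := fun j => if j.val = 0 then 1 else 0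
/-- the uniform direction -/
def om (U : Mat k) : Vn n := o.E *ᵥ Orb.xi (e0 k) U
/-- polar form of `xh` -/
def xp (s : Cube n) (ω : Vn n) : Vn n := Qm o *ᵥ sh o s + √(R2 o s) • ω
/-- the weight as a function of `(s, ξ)` -/
def wx (s : Cube n) (ξ : Vn n) : ℝ := Real.exp (o.h ⬝ᵥ sv s + ξ ⬝ᵥ o.W *ᵥ ξ / 2)
/-- expectation in the polar model -/
def pe (μ : Measure (Mat k)) (F : Cube n → Vn n → ℝ) : ℝ :=
  (∫ U, ∑ s, wx o s (xp o s (om o U)) * F s (om o U) ∂μ) / ∫ U, ∑ s, wx o s (xp o s (om o U)) ∂μ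
/-- unit vectors of the rotated subspace -/
structure Sph (ω : Vn n) : Prop where
  q : Qm o *ᵥ ω = 0
  one : ω ⬝ᵥ ω = 1
/-- continuity in the direction -/
def CF (F : Cube n → Vn n → ℝ) : Prop := ∀ s, Continuous (F s)

variable {o} {μ : Measure (Mat k)} [IsProbabilityMeasure μ]

/-! ### linear algebra -/

theorem Pm_symm : (Pm o)ᵀ = Pm o := by simp [Pm, transpose_mul]
theorem Qm_symm : (Qm o)ᵀ = Qm o := by simp [Qm, transpose_mul, transpose_sub]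
theorem A0_symm (h : o.Ok) : (A0 o)ᵀ = A0 o := by simp [A0, transpose_sub, h.symm]
theorem Pm_add_Qm (v : Vn n) : Pm o *ᵥ v + Qm o *ᵥ v = v := by simp [Pm, Qm, sub_mulVec]
theorem Pm_vec (v : Vn n) : Pm o *ᵥ v = o.E *ᵥ (o.Eᵀ *ᵥ v) := by rw [Pm, mulVec_mulVec]
theorem Qm_vec (v : Vn n) : Qm o *ᵥ v = v - Pm o *ᵥ v := by rw [Qm, sub_mulVec, one_mulVec, Pm]
theorem Et_E (h : o.Ok) (w : Fin k → ℝ) : o.Eᵀ *ᵥ (o.E *ᵥ w) = w := by
  rw [mulVec_mulVec, h.iso, one_mulVec]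
theorem Et_P (h : o.Ok) (v : Vn n) : o.Eᵀ *ᵥ (Pm o *ᵥ v) = o.Eᵀ *ᵥ v := by rw [Pm_vec, Et_E h]
theorem Et_Q (h : o.Ok) (v : Vn n) : o.Eᵀ *ᵥ (Qm o *ᵥ v) = 0 := by
  rw [Qm_vec, mulVec_sub, Et_P h, sub_self]
theorem P_E (h : o.Ok) (w : Fin k → ℝ) : Pm o *ᵥ (o.E *ᵥ w) = o.E *ᵥ w := by rw [Pm_vec, Et_E h]
theorem Q_E (h : o.Ok) (w : Fin k → ℝ) : Qm o *ᵥ (o.E *ᵥ w) = 0 := by rw [Qm_vec, P_E h, sub_self]
theorem P_P (h : o.Ok) (v : Vn n) : Pm o *ᵥ (Pm o *ᵥ v) = Pm o *ᵥ v := by rw [Pm_vec v, P_E h]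
theorem P_Q (h : o.Ok) (v : Vn n) : Pm o *ᵥ (Qm o *ᵥ v) = 0 := by rw [Pm_vec, Et_Q h, mulVec_zero]
theorem Q_Q (h : o.Ok) (v : Vn n) : Qm o *ᵥ (Qm o *ᵥ v) = Qm o *ᵥ v := by
  rw [Qm_vec (Qm o *ᵥ v), P_Q h, sub_zero]
theorem P_p (h : o.Ok) : Pm o *ᵥ o.p = 0 := by rw [Pm_vec, h.ep, mulVec_zero]
theorem Q_p (h : o.Ok) : Qm o *ᵥ o.p = o.p := by rw [Qm_vec, P_p h, sub_zero]
theorem dot_P (u v : Vn n) : u ⬝ᵥ Pm o *ᵥ v = Pm o *ᵥ u ⬝ᵥ v := symm_dot Pm_symm u v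
theorem dot_Q (u v : Vn n) : u ⬝ᵥ Qm o *ᵥ v = Qm o *ᵥ u ⬝ᵥ v := symm_dot Qm_symm u v
theorem dot_E (w : Fin k → ℝ) (v : Vn n) : o.E *ᵥ w ⬝ᵥ v = w ⬝ᵥ o.Eᵀ *ᵥ v := by
  rw [dotProduct_mulVec, vecMul_transpose]
theorem Et_dot (u v : Vn n) : o.Eᵀ *ᵥ u ⬝ᵥ o.Eᵀ *ᵥ v = Pm o *ᵥ u ⬝ᵥ v := by rw [Pm_vec, dot_E]
theorem P_sh (h : o.Ok) (s : Cube n) : Pm o *ᵥ sh o s = Pm o *ᵥ sv s := by
  rw [sh, mulVec_sub, P_p h, sub_zero]
theorem Et_sh (h : o.Ok) (s : Cube n) : o.Eᵀ *ᵥ sh o s = o.Eᵀ *ᵥ sv s := by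
  rw [sh, mulVec_sub, h.ep, sub_zero]
theorem R2_nonneg (s : Cube n) : 0 ≤ R2 o s := dot_self_nonneg _
theorem R2_eq (s : Cube n) : R2 o s = Pm o *ᵥ sv s ⬝ᵥ sv s := Et_dot _ _
theorem Sph.p {ω : Vn n} (hω : Sph o ω) : Pm o *ᵥ ω = ω := by
  have := Pm_add_Qm (o := o) ω
  rwa [hω.q, add_zero] at this
theorem P_xp (h : o.Ok) {ω : Vn n} (hω : Sph o ω) (s : Cube n) :
    Pm o *ᵥ xp o s ω = √(R2 o s) • ω := by
  rw [xp, mulVec_add, P_Q h, zero_add, mulVec_smul, hω.p]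
theorem Q_xp (h : o.Ok) {ω : Vn n} (hω : Sph o ω) (s : Cube n) :
    Qm o *ᵥ xp o s ω = Qm o *ᵥ sh o s := by
  rw [xp, mulVec_add, Q_Q h, mulVec_smul, hω.q, smul_zero, add_zero]

theorem xh_eq (h : o.Ok) (s : Cube n) (U : Mat k) :
    xh o s U = Qm o *ᵥ sh o s + o.E *ᵥ Orb.xi (o.Eᵀ *ᵥ sv s) U := by
  rw [xh, Orb.emb_tp_mulVec, Qm_vec, Pm_vec, Et_sh h]
theorem P_xh (h : o.Ok) (s : Cube n) (U : Mat k) :
    Pm o *ᵥ xh o s U = o.E *ᵥ Orb.xi (o.Eᵀ *ᵥ sv s) U := by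
  rw [xh_eq h, mulVec_add, P_Q h, zero_add, P_E h]
theorem Q_xh (h : o.Ok) (s : Cube n) (U : Mat k) : Qm o *ᵥ xh o s U = Qm o *ᵥ sh o s := by
  rw [xh_eq h, mulVec_add, Q_Q h, Q_E h, add_zero]
theorem gt_Q (h : o.Ok) (U : Mat k) (v : Vn n) : (o.g U)ᵀ *ᵥ (Qm o *ᵥ v) = Qm o *ᵥ v := by
  rw [emb_transpose]; exact emb_mulVec _ (Et_Q h v)
theorem Q_dot_g (h : o.Ok) (U : Mat k) (u v : Vn n) :
    Qm o *ᵥ u ⬝ᵥ o.g U *ᵥ v = Qm o *ᵥ u ⬝ᵥ v := by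
  rw [dotProduct_mulVec, ← mulVec_transpose, gt_Q h]
theorem gt_P (h : o.Ok) (s : Cube n) (U : Mat k) :
    (o.g U)ᵀ *ᵥ (Pm o *ᵥ sv s) = Pm o *ᵥ xh o s U := by
  have h1 := congrArg (fun v => (o.g U)ᵀ *ᵥ v) (Pm_add_Qm (o := o) (sh o s))
  have h2 := Pm_add_Qm (o := o) (xh o s U)
  simp only [mulVec_add, gt_Q h, P_sh h] at h1
  rw [Q_xh h] at h2
  exact add_right_cancel (h1.trans h2.symm)
theorem A_vec (h : o.Ok) {U : Mat k} (hU : U ∈ SO k) (v : Vn n) :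
    o.A U *ᵥ v = o.g U *ᵥ (A0 o *ᵥ ((o.g U)ᵀ *ᵥ v)) := by
  rw [Oo.Orb.A, AU_eq h.iso hU, mulVec_mulVec, mulVec_mulVec, A0]
theorem yv_eq (h : o.Ok) {U : Mat k} (hU : U ∈ SO k) (s : Cube n) :
    yv o s U = o.g U *ᵥ (A0 o *ᵥ xh o s U) := A_vec h hU _
theorem w_xh (s : Cube n) (U : Mat k) : o.w U s = wx o s (xh o s U) := by
  rw [Oo.Orb.w, cw, gw, Oo.Orb.w0, HU, wx, Real.exp_add, WU, ← mulVec_mulVec, ← mulVec_mulVec,
    dotProduct_mulVec (sv s - o.p), ← mulVec_transpose]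
  rfl
theorem yv_dot_P (h : o.Ok) {U : Mat k} (hU : U ∈ SO k) (s : Cube n) :
    yv o s U ⬝ᵥ Pm o *ᵥ sv s = (A0 o *ᵥ xh o s U) ⬝ᵥ Pm o *ᵥ xh o s U := by
  rw [yv_eq h hU, dotProduct_comm, dotProduct_mulVec, ← mulVec_transpose, gt_P h, dotProduct_comm]

theorem e0_dot (h : o.Ok) : e0 k ⬝ᵥ e0 k = 1 := by
  have := h.two
  rw [dotProduct, Finset.sum_eq_single ⟨0, by omega⟩] <;> simp +contextual [e0, Fin.ext_iff]
theorem sph_om (h : o.Ok) {U : Mat k} (hU : U ∈ SO k) : Sph o (om o U) :=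
  ⟨Q_E h _, by rw [om, dot_E, Et_E h, Orb.dot_xi _ hU, e0_dot h]⟩

/-! ### continuity -/

@[fun_prop] theorem cont_xi (σ : Fin k → ℝ) : Continuous (Orb.xi σ) := by
  refine continuous_pi fun a => ?_
  simp only [Orb.xi, mulVec, dotProduct, transpose_apply, of_apply]
  fun_prop
@[fun_prop] theorem cont_om : Continuous (om o) := by unfold om; fun_prop
@[fun_prop] theorem cont_xp (s : Cube n) : Continuous (xp o s) := by unfold xp; fun_prop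
@[fun_prop] theorem cont_wx (s : Cube n) : Continuous (wx o s) := by unfold wx; fun_prop
@[fun_prop] theorem cont_cc (s : Cube n) : Continuous (cc o s) := by unfold cc; fun_prop
@[fun_prop] theorem cont_aa (s : Cube n) : Continuous (aa o s) := by unfold aa; fun_prop
@[fun_prop] theorem cont_g : Continuous o.g := by
  refine continuous_matrix fun i j => ?_
  simp only [Oo.Orb.g, emb, Matrix.add_apply, Matrix.mul_apply, Matrix.sub_apply, of_apply]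
  fun_prop
@[fun_prop] theorem cont_xh (s : Cube n) : Continuous (xh o s) := by unfold xh; fun_prop
@[fun_prop] theorem cont_A : Continuous o.A := by
  have : Continuous (emb o.E) := cont_g
  unfold Oo.Orb.A AU WU; fun_prop
@[fun_prop] theorem cont_yv (s : Cube n) : Continuous (yv o s) := by unfold yv; fun_prop
@[fun_prop] theorem cont_w (s : Cube n) : Continuous fun U => o.w U s := by
  simp only [w_xh]; fun_prop

theorem intg (hμ : SOInv μ) {f : Mat k → ℝ} (hf : Continuous f) : Integrable f μ :=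
  integrable_of hμ hf.continuousOn

/-! ### the polar expectation is a positive normalised functional -/

section PE

variable (hμ : SOInv μ) {F G : Cube n → Vn n → ℝ}
include hμ

theorem int_pe (hF : CF F) :
    Integrable (fun U => ∑ s, wx o s (xp o s (om o U)) * F s (om o U)) μ :=
  intg hμ (continuous_finsetSum _ fun s _ => by have := hF s; fun_prop)

theorem Zp_pos : 0 < ∫ U, ∑ s, wx o s (xp o s (om o U)) ∂μ := by
  have hp : ∀ U, 0 < ∑ s, wx o s (xp o s (om o U)) := fun U =>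
    Finset.sum_pos (fun _ _ => Real.exp_pos _) Finset.univ_nonempty
  rw [integral_pos_iff_support_of_nonneg (fun U => (hp U).le) (intg hμ (by fun_prop))]
  rw [Function.support_eq_univ fun U => (hp U).ne']
  simp

theorem pe_mono (h : o.Ok) (hF : CF F) (hG : CF G) (hle : ∀ s ω, Sph o ω → F s ω ≤ G s ω) :
    pe o μ F ≤ pe o μ G := by
  refine div_le_div_of_nonneg_right (integral_mono_ae (int_pe hμ hF) (int_pe hμ hG) ?_)
    (Zp_pos hμ).le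
  filter_upwards [Orb.ae_SO hμ] with U hU
  exact Finset.sum_le_sum fun s _ =>
    mul_le_mul_of_nonneg_left (hle s _ (sph_om h hU)) (Real.exp_pos _).le

theorem pe_congr (h : o.Ok) (he : ∀ s ω, Sph o ω → F s ω = G s ω) : pe o μ F = pe o μ G := by
  unfold pe
  congr 1
  refine integral_congr_ae ?_
  filter_upwards [Orb.ae_SO hμ] with U hU
  exact Finset.sum_congr rfl fun s _ => by rw [he s _ (sph_om h hU)]

theorem pe_const (c : ℝ) : pe o μ (fun _ _ => c) = c := by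
  simp only [pe, ← Finset.sum_mul, integral_mul_const]
  exact mul_div_cancel_left₀ _ (Zp_pos hμ).ne'

theorem pe_add (hF : CF F) (hG : CF G) :
    pe o μ (fun s ω => F s ω + G s ω) = pe o μ F + pe o μ G := by
  simp only [pe, mul_add, Finset.sum_add_distrib]
  rw [integral_add (int_pe hμ hF) (int_pe hμ hG), add_div]

omit hμ in
theorem pe_mul (c : ℝ) (F : Cube n → Vn n → ℝ) : pe o μ (fun s ω => c * F s ω) = c * pe o μ F := by
  simp only [pe, mul_left_comm _ c, ← Finset.mul_sum, integral_const_mul, mul_div_assoc]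

theorem pe_sub (hF : CF F) (hG : CF G) :
    pe o μ (fun s ω => F s ω - G s ω) = pe o μ F - pe o μ G := by
  simp only [pe, mul_sub, Finset.sum_sub_distrib]
  rw [integral_sub (int_pe hμ hF) (int_pe hμ hG), sub_div]

theorem pe_sum {ι : Type*} (t : Finset ι) {F : ι → Cube n → Vn n → ℝ} (hF : ∀ i, CF (F i)) :
    pe o μ (fun s ω => ∑ i ∈ t, F i s ω) = ∑ i ∈ t, pe o μ (F i) := by
  simp only [pe, Finset.mul_sum]
  rw [← Finset.sum_div, ← integral_finsetSum _ fun i _ => int_pe hμ (hF i)]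
  simp only [Finset.sum_comm (s := t)]

theorem pe_nonneg (h : o.Ok) (hF : CF F) (h0 : ∀ s ω, Sph o ω → 0 ≤ F s ω) : 0 ≤ pe o μ F :=
  (pe_const hμ 0).ge.trans (pe_mono hμ h (fun _ => continuous_const) hF h0)

theorem pe_abs_le (h : o.Ok) (hF : CF F) (hG : CF G) (hle : ∀ s ω, Sph o ω → |F s ω| ≤ G s ω) :
    |pe o μ F| ≤ pe o μ G := by
  refine abs_le.2 ⟨?_, pe_mono hμ h hF hG fun s ω hω => (le_abs_self _).trans (hle s ω hω)⟩
  have := pe_mono hμ h (F := fun s ω => -1 * G s ω) (fun s => continuous_const.mul (hG s)) hF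
    fun s ω hω => by linarith [neg_abs_le (F s ω), hle s ω hω]
  rw [pe_mul] at this
  linarith


end PE

/-! ### polar form -/

theorem int_xi (hμ : SOInv μ) (hk : 2 < k) {σ σ' : Fin k → ℝ} (e : σ' ⬝ᵥ σ' = σ ⬝ᵥ σ)
    {G : (Fin k → ℝ) → ℝ} (hG : Continuous G) :
    ∫ U, G (Orb.xi σ U) ∂μ = ∫ U, G (Orb.xi σ' U) ∂μ := by
  have hij : (⟨0, by omega⟩ : Fin k) ≠ ⟨1, by omega⟩ := by simp
  have hr := (Orb.rho_R2 hij σ' σ).1
  rw [← Orb.int_left hμ hr (f := fun U => G (Orb.xi σ U)) (intg hμ (by fun_prop))]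
  simp only [Orb.xi_mm, Orb.xi_eq_of hr (Orb.rho_mulVec _ _ e)]

theorem int_polar (hμ : SOInv μ) (h : o.Ok) (s : Cube n) {G : Vn n → ℝ} (hG : Continuous G) :
    ∫ U, G (xh o s U) ∂μ = ∫ U, G (xp o s (om o U)) ∂μ := by
  have e : (√(R2 o s) • e0 k) ⬝ᵥ (√(R2 o s) • e0 k) = (o.Eᵀ *ᵥ sv s) ⬝ᵥ (o.Eᵀ *ᵥ sv s) := by
    rw [smul_dotProduct, dotProduct_smul, e0_dot h, smul_eq_mul, smul_eq_mul, mul_one,
      Real.mul_self_sqrt (R2_nonneg s), R2]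
  have := int_xi hμ h.two e (G := fun ξ => G (Qm o *ᵥ sh o s + o.E *ᵥ ξ)) (by fun_prop)
  simp only [xh_eq h]
  rw [this]
  simp only [xp, om, Orb.xi, mulVec_smul]

theorem an_sum (hμ : SOInv μ) (h : o.Ok) {f : Cube n → Mat k → ℝ} (hf : ∀ s, Continuous (f s)) :
    o.an μ f = (∑ s, ∫ U, o.w U s * f s U ∂μ) / ∫ U, ∑ s, o.w U s ∂μ := by
  rw [Oo.Orb.an_eq hμ h, integral_finsetSum _ fun s _ => intg hμ (f := fun U => o.w U s * f s U)
    ((cont_w s).mul (hf s))]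

/-- annealed means agree when the conditional means given `s` agree -/
theorem an_congr (hμ : SOInv μ) (h : o.Ok) {f g : Cube n → Mat k → ℝ} (hf : ∀ s, Continuous (f s))
    (hg : ∀ s, Continuous (g s)) (e : ∀ s, ∫ U, o.w U s * f s U ∂μ = ∫ U, o.w U s * g s U ∂μ) :
    o.an μ f = o.an μ g := by
  simp only [an_sum hμ h hf, an_sum hμ h hg, e]

/-- **POLAR** -/
theorem an_polar (hμ : SOInv μ) (h : o.Ok) {F : Cube n → Vn n → ℝ} (hF : CF F) :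
    o.an μ (fun s U => F s (xh o s U)) = pe o μ fun s ω => F s (xp o s ω) := by
  rw [an_sum hμ h (f := fun s U => F s (xh o s U)) fun s => (hF s).comp (cont_xh s), pe,
    integral_finsetSum _ fun s _ => intg hμ (cont_w s),
    integral_finsetSum _ fun s _ => intg hμ (by have := hF s; fun_prop),
    integral_finsetSum _ fun s _ => intg hμ (by fun_prop)]
  simp only [w_xh]
  congr 1
  · exact Finset.sum_congr rfl fun s _ => int_polar hμ h s (G := fun ξ => wx o s ξ * F s ξ)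
      (by have := hF s; fun_prop)
  · exact Finset.sum_congr rfl fun s _ => int_polar hμ h s (cont_wx s)

/-! ### coset means -/

theorem Et_g (h : o.Ok) (U : Mat k) (v : Vn n) :
    o.Eᵀ *ᵥ (o.g U *ᵥ v) = Matrix.of U *ᵥ (o.Eᵀ *ᵥ v) := by
  rw [Orb.emb_mulVec', mulVec_add, mulVec_sub, Et_E h, Et_E h, sub_self, zero_add]

/-- **COSET**: `E [P g a(ξ) | s] = E [a(ξ) · P ξ | s] P s / R²` -/
theorem coset (hμ : SOInv μ) (h : o.Ok) (hk : 4 ≤ k) (s : Cube n) {a : Vn n → Vn n}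
    (ha : Continuous a) (v : Vn n) :
    ∫ U, Pm o *ᵥ v ⬝ᵥ o.g U *ᵥ a (xh o s U) ∂μ =
      ∫ U, a (xh o s U) ⬝ᵥ Pm o *ᵥ xh o s U / R2 o s * (Pm o *ᵥ v ⬝ᵥ sv s) ∂μ := by
  have hc := Orb.coset_vec hμ hk (o.Eᵀ *ᵥ sv s)
    (w := fun ξ => o.Eᵀ *ᵥ a (Qm o *ᵥ sh o s + o.E *ᵥ ξ)) fun i => intg hμ (by fun_prop)
  simp only [← xh_eq h] at hc
  have e1 : ∀ U, Pm o *ᵥ v ⬝ᵥ o.g U *ᵥ a (xh o s U) =
      ∑ i, (o.Eᵀ *ᵥ v) i * (Matrix.of U *ᵥ (o.Eᵀ *ᵥ a (xh o s U))) i := fun U => by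
    rw [Pm_vec, dot_E, Et_g h]; rfl
  have e2 : ∀ U, a (xh o s U) ⬝ᵥ Pm o *ᵥ xh o s U =
      o.Eᵀ *ᵥ a (xh o s U) ⬝ᵥ Orb.xi (o.Eᵀ *ᵥ sv s) U := fun U => by
    rw [P_xh h, dotProduct_comm, dot_E, dotProduct_comm]
  simp only [e1, e2]
  rw [integral_finsetSum _ fun i _ => (intg hμ ?_).const_mul _, integral_mul_const, integral_div]
  · simp only [integral_const_mul, hc]
    rw [← Et_dot, dotProduct.eq_1 (o.Eᵀ *ᵥ v), Finset.mul_sum]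
    exact Finset.sum_congr rfl fun i _ => by rw [R2]; ring
  · simp only [← Et_g h]
    fun_prop

/-! ### Schwinger-Dyson -/

theorem sum_skew (N : Matrix (Fin k) (Fin k) ℝ) (v σ : Fin k → ℝ) :
    ∑ a : Fin k × Fin k, (N a.1 a.2 - N a.2 a.1) * (v a.1 * σ a.2 - v a.2 * σ a.1) =
      2 * (v ⬝ᵥ N *ᵥ σ - σ ⬝ᵥ N *ᵥ v) := by
  have e1 : ∀ u w : Fin k → ℝ, ∑ a : Fin k × Fin k, N a.1 a.2 * (u a.1 * w a.2) = u ⬝ᵥ N *ᵥ w :=
    fun u w => by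
      rw [Fintype.sum_prod_type, dot_eq_ipF, ipF]
  have e2 : ∀ u w : Fin k → ℝ, ∑ a : Fin k × Fin k, N a.2 a.1 * (u a.2 * w a.1) = u ⬝ᵥ N *ᵥ w :=
    fun u w => by
      rw [Fintype.sum_prod_type_right, dot_eq_ipF, ipF]
  have e : ∀ a : Fin k × Fin k, (N a.1 a.2 - N a.2 a.1) * (v a.1 * σ a.2 - v a.2 * σ a.1) =
      N a.1 a.2 * (v a.1 * σ a.2) + N a.2 a.1 * (v a.2 * σ a.1) -
        (N a.1 a.2 * (σ a.1 * v a.2) + N a.2 a.1 * (σ a.2 * v a.1)) := fun a => by ring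
  simp only [e, Finset.sum_sub_distrib, Finset.sum_add_distrib, e1, e2]
  ring

/-- **SD**: integration by parts along the left-invariant field `v σᵀ - σ vᵀ` -/
theorem sd (hμ : SOInv μ) (h : o.Ok) {f : Mat k → ℝ} {M : Mat k → Mn n}
    (hf : RD f fun a U => ipF (o.th a U) (M U)) (v σ : Vn n) :
    ∫ U, (Pm o *ᵥ v ⬝ᵥ M U *ᵥ (Pm o *ᵥ σ) - Pm o *ᵥ σ ⬝ᵥ M U *ᵥ (Pm o *ᵥ v)) ∂μ = 0 := by
  have h1 : ∀ a, R1 a (fun U => f U * (v ⬝ᵥ o.th a U *ᵥ σ))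
      fun U => ipF (o.th a U) (M U) * (v ⬝ᵥ o.th a U *ᵥ σ) := fun a => by
    have e : ∀ U ∈ SO k, WU o.E (thE o.E a) U = o.th a U := fun U hU => by
      rw [WU, emb_thE h.iso a hU, Matrix.mul_assoc, emb_orth h.iso hU, Matrix.mul_one]
    have h2 := (((RDV.const v).dot ((rd_WU (W := thE o.E a) h.iso).mulVec (RDV.const σ))).r a).congr
      (g := fun U => v ⬝ᵥ o.th a U *ᵥ σ) (g' := fun _ => 0) (fun U hU => by rw [e U hU])
      fun U hU => by rw [e U hU]; simp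
    exact ((hf.r a).mul h2).congr (fun _ _ => rfl) fun U _ => by rw [mul_zero, add_zero]
  have h3 : ∫ U, ∑ a, ipF (o.th a U) (M U) * (v ⬝ᵥ o.th a U *ᵥ σ) ∂μ = 0 := by
    rw [integral_finsetSum _ fun a _ => integrable_of hμ (h1 a).c']
    exact Finset.sum_eq_zero fun a _ => (h1 a).integral_eq_zero hμ
  have h4 : ∫ U, 2 * (Pm o *ᵥ v ⬝ᵥ M U *ᵥ (Pm o *ᵥ σ) - Pm o *ᵥ σ ⬝ᵥ M U *ᵥ (Pm o *ᵥ v)) ∂μ = 0 := by
    rw [← h3]
    refine integral_congr_ae ?_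
    filter_upwards [Orb.ae_SO hμ] with U hU
    set F := o.E * Matrix.of U with hF
    have hP : ∀ u, Pm o *ᵥ u = F *ᵥ (Fᵀ *ᵥ u) := fun u => by
      rw [mulVec_mulVec, hF, transpose_mul, Matrix.mul_assoc, ← Matrix.mul_assoc (Matrix.of U),
        Orb.mul_tp hU, Matrix.one_mul, Pm]
    have e : ∀ a, ipF (o.th a U) (M U) = (Fᵀ * M U * F) a.1 a.2 - (Fᵀ * M U * F) a.2 a.1 := fun a => by
      rw [ipF_eq_trace, Oo.Orb.th, thU, trace_thE]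
      have : Fᵀ * (M U)ᵀ * F = (Fᵀ * M U * F)ᵀ := by
        simp only [transpose_mul, transpose_transpose, Matrix.mul_assoc]
      rw [this, transpose_apply, transpose_apply]
    have e' : ∀ a, v ⬝ᵥ o.th a U *ᵥ σ =
        (Fᵀ *ᵥ v) a.1 * (Fᵀ *ᵥ σ) a.2 - (Fᵀ *ᵥ v) a.2 * (Fᵀ *ᵥ σ) a.1 := fun a => dot_thE a v σ
    have e3 : ∀ a b, a ⬝ᵥ (Fᵀ * M U * F) *ᵥ b = F *ᵥ a ⬝ᵥ M U *ᵥ (F *ᵥ b) := fun a b => by
      rw [← mulVec_mulVec, ← mulVec_mulVec, dotProduct_mulVec a Fᵀ, vecMul_transpose]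
    simp only [e, e']
    rw [sum_skew, e3, e3, hP v, hP σ]
  rw [integral_const_mul] at h4
  linarith

end Crest.Agent.T157.Mj
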