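import Crest.Agent.T157.NumO_27
import Crest.Agent.T157.OgT_9

set_option autoImplicit false

/-!
Row 157, A2 (helper27): the table of scales of `Oi.Cz` for the tactic `num`.  In addition to `OL`, `OA`
(with `ε = e`): `y = -log h`, `r = -log q`, `θ = log H`, `cT = log T`.
-/

noncomputable section

namespace Crest.Agent.T157.Nm

open Set Real Filter
open Crest.Agent.T157.O0 Crest.Agent.T157.Og

/-- the further relations and atoms -/
structure ZT (p : Pm) (h H q : ℝ) (a : Lg) (y r θ cT : ℝ) : Prop where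
  cL : 10 ^ 6 ≤ a.cL
  cT1 : 1000 * a.cL ≤ cT
  cT2 : 1000 * cT ≤ a.cC
  xK : 10 * a.cK ≤ a.x
  xA : 1000 * a.x ≤ p.A * a.x
  y1 : a.x ≤ y
  y2 : y ≤ 2 * a.x
  r1 : a.s / 2 - a.cL ≤ r
  r2 : r ≤ a.s / 2 + cT / 2
  θ1 : p.d * a.l ≤ θ
  θ2 : θ ≤ a.cL + a.l - 3 / 2 * a.s
  eT : Eb p.T cT
  eh : Eb h (-y)
  eq : Eb q (-r)
  eH : Eb H θ
  uχ : Ub (1 - q) 0
  lχ : Lb (1 - q) (-1)
  ug : Ub (1 - 3 * p.T * h) 0
  lg : Lb (1 - 3 * p.T * h) (-1)

/-- **the table**; `c` is any constant chosen before `L` -/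
theorem cz_tab (c : ℝ) : ∀ᶠ p in FF, Ord p ∧ c ≤ p.L ∧ ∀ t e h H q : ℝ, p.lo ≤ t → t ≤ p.t0 →
    p.Er e t → e ^ 2 ≤ h → h ≤ e → (p.n : ℝ) ^ p.d ≤ H → H ≤ p.L * p.M t → 0 ≤ q →
    t ≤ p.T * q ^ 2 → q ^ 2 ≤ (p.L / 50) ^ 2 * t →
    ∃ (H' : ℝ) (a : Lg) (y r θ cT : ℝ), LH p t e H' ∧ OL p a ∧ OA p t e H' a ∧ ZT p h H q a y r θ cT := by
  filter_upwards [ev_ord, ev_L (Q := fun _ x => c ≤ x ∧ exp (10 ^ 6) ≤ x) fun _ => (ev_ge _).and (ev_ge _),
    ev_T (Q := fun q x => q.L ^ 1000 ≤ x) fun _ => ev_ge _,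
    ev_C (Q := fun q x => q.T ^ 1000 ≤ x) fun _ => ev_ge _,
    ev_A (Q := fun _ x => 1000 ≤ x) fun _ => eventually_ge_atTop _] with p o ⟨hc, hL⟩ hT hC hA
  refine ⟨o, hc, fun t e h H q lo hi er h0 h1 H0 H1 q0 q1 q2 => ?_⟩
  replace hT : p.L ^ 1000 ≤ p.T := hT
  replace hC : p.T ^ 1000 ≤ p.C := hC
  have ok := o.ok
  have e1 : e ≤ 1 := er.2.1.trans (by
    linarith [ok.e1.2, ok.k3.2, ok.k2.2, ok.k4.2, ok.d.2, ok.ch.2])
  have M0 : 0 ≤ p.M t := mul_nonneg (Nat.cast_nonneg _) (rpow_nonneg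
    ((div_nonneg (rpow_nonneg (Nat.cast_nonneg _) _) (rpow_nonneg (Nat.cast_nonneg _) _)).trans lo) _)
  have f0 : 0 ≤ p.ef * p.n := mul_nonneg ok.ef.le (Nat.cast_nonneg _)
  have lh : LH p t e (min (e ^ p.A * p.M t) (p.ef * p.n / 2)) := ⟨o, lo, hi, er.1, e1, er.2.2.1,
    er.2.2.2, le_rfl, (min_le_left _ _).trans (mul_le_mul_of_nonneg_right
      ((pow_le_pow_of_le_one er.1.le e1 (by omega)).trans
        (le_mul_of_one_le_left (pow_nonneg er.1.le 4) (by linarith [ok.L]))) M0),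
    (min_le_right _ _).trans (by linarith)⟩
  obtain ⟨a, L, A, -⟩ := lh_tab lh
  have N : ∀ {y : ℝ}, 0 < y → Eb y (- -Real.log y) := fun hy => by rw [neg_neg]; exact Eb.log hy
  have ET : Eb p.T _ := Eb.log (by linarith [ok.T])
  have Eh := N ((pow_pos er.1 2).trans_le h0)
  have Eq := N (q0.lt_of_ne' fun h => by rw [h] at q1; linarith [A.pos])
  have EH : Eb H _ := Eb.log (A.en.rpow.pos.trans_le H0)
  have a1 := (Eb.exp.le_iff A.eL).1 hL
  have a2 := (A.eL.pow.le_iff ET).1 hT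
  have a3 := (ET.pow.le_iff A.eC).1 hC
  have a4 := ((A.ee.mul A.eK.pow).le_iff Eb.one).1
    ((mul_le_mul_of_nonneg_right er.2.1 A.eK.pow.pos.le).trans o.e1)
  have a5 := (Eh.le_iff A.ee).1 h1
  have a6 := (A.ee.pow.le_iff Eh).1 h0
  have a7 := Eb.le_of Eq.pow.lb (((A.eL.ub.div (Lb.ofNat 50)).pow).mul A.et.ub) q2
  have a8 := (A.et.le_iff (ET.mul Eq.pow)).1 q1
  have a9 := (A.en.rpow.le_iff EH).1 H0
  have b1 := (EH.le_iff (A.eL.mul A.M)).1 H1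
  have A1 : (1000 : ℝ) ≤ p.A := by exact_mod_cast hA
  push_cast at a2 a3 a4 a6 a7 a8
  generalize -Real.log h = y at *
  generalize -Real.log q = r at *
  generalize Real.log H = θ at *
  generalize Real.log p.T = cT at *
  have ⟨_, _, _, _, _⟩ := And.intro L.cK <| And.intro L.b <| And.intro L.s0 <| And.intro L.s L.cC
  have b2 : 2 * q ≤ 1 := by num
  have b3 : 2 * (3 * p.T * h) ≤ 1 := by num
  have b4 : 0 ≤ 3 * p.T * h := mul_nonneg (mul_nonneg (by norm_num) ET.pos.le) Eh.pos.le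
  exact ⟨_, a, y, r, θ, cT, lh, L, A, a1, a2, a3, by linarith, mul_le_mul_of_nonneg_right A1 L.x0,
    by linarith, by linarith, by linarith, by linarith, a9, by linarith, ET, Eh, Eq, EH,
    Ub.of_one (by linarith) (by linarith), by simpa using Lb.sub b2 Eb.one.lb,
    Ub.of_one (by linarith) (by linarith), by simpa using Lb.sub b3 Eb.one.lb⟩

/-- all facts of `OL`, `OA`, `ZT` as hypotheses -/
macro "nm_cz " L:term ", " h:term ", " z:term : tactic => `(tactic|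
  (nm_lh $L, $h
   have ⟨_, _, _, _, _, _, _, _, _, _, _, _, _, _, _, _, _, _, _⟩ := $z))


end Crest.Agent.T157.Nm

end
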