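import Crest.Agent.T157.KbXdA_75
import Crest.Agent.T157.KbTay_31
import Crest.Agent.T157.O4cDef_4
import Crest.Agent.T157.KpDef_12

-- ▼ part T157/O4xA_12
section

/-!
# Row 157, A2 section 4 (helper12): scalar and pointwise facts for `O4c.Hx`
-/

set_option autoImplicit false

noncomputable section

namespace Crest.Agent.T157.O4c.X12

open Filter Real Set
open Crest.Agent.T157.Kb Crest.Agent.T157.Kb.Xd75

/-! ### pointwise -/

lemma M8_of_le {x : ℝ} (h : |x| ≤ 1) : Mx8 x = x ^ 8 := by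
  refine min_eq_left ?_
  have : x ^ 2 ≤ 1 := by rw [← sq_abs]; exact pow_le_one₀ (abs_nonneg _) h
  calc x ^ 8 = (x ^ 2) ^ 4 := by ring
    _ ≤ x ^ 2 := pow_le_of_le_one (sq_nonneg _) this (by norm_num)

lemma M8_of_ge {x : ℝ} (h : 1 ≤ |x|) : Mx8 x = x ^ 2 := by
  refine min_eq_right ?_
  have : 1 ≤ x ^ 2 := by rw [← sq_abs]; exact one_le_pow₀ h
  calc x ^ 2 ≤ (x ^ 2) ^ 4 := le_self_pow₀ this (by norm_num)
    _ = x ^ 8 := by ring

lemma der_le (x : ℝ) {m l : ℝ} (hl : l ≤ 1 / 2) (hm : |m - 1| ≤ l) :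
    |-(x ^ 2 * tanh (m * x) ^ 2) + m ^ 2 * tanh x ^ 4 + 2 / 3 * tanh x ^ 6| ≤
      3 * l * tanh x ^ 6 + 30 * Mx8 x := by
  have l0 : 0 ≤ l := (abs_nonneg _).trans hm
  obtain ⟨m1, m2⟩ := abs_le.1 hm
  have p6 : 0 ≤ tanh x ^ 6 := by positivity
  have lp := mul_nonneg l0 p6
  have q2 : m ^ 2 ≤ 9 / 4 := by nlinarith
  rcases le_total |x| 1 with h | h
  · rw [M8_of_le h]
    have x8 : 0 ≤ x ^ 8 := by positivity
    have x6 : 0 ≤ x ^ 6 := by positivity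
    have a := mul_le_mul_of_nonneg_left (Tay.p2 (m * x)) (sq_nonneg x)
    rw [← abs_of_nonneg (sq_nonneg x), ← abs_mul, abs_of_nonneg (sq_nonneg x)] at a
    have b := mul_le_mul_of_nonneg_left (Tay.p4 x) (sq_nonneg m)
    rw [← abs_of_nonneg (sq_nonneg m), ← abs_mul, abs_of_nonneg (sq_nonneg m)] at b
    have c := abs_le.1 (Tay.p6 x)
    have q6 : m ^ 6 ≤ 12 := by
      have := pow_le_pow_left₀ (sq_nonneg m) q2 3
      rw [← pow_mul] at this; linarith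
    have q4 : (m ^ 2 - 1) ^ 2 ≤ 4 * l := by
      have : (m - 1) ^ 2 ≤ l ^ 2 := sq_le_sq' m1 m2
      have h2 : (m + 1) ^ 2 ≤ 25 / 4 := by nlinarith
      nlinarith [mul_le_mul this h2 (sq_nonneg _) (sq_nonneg _)]
    have d1 := mul_le_mul_of_nonneg_right q6 x8
    have d2 := mul_le_mul_of_nonneg_right q2 x8
    have d3 := mul_le_mul_of_nonneg_right q4 x6
    have d4 := mul_nonneg (sq_nonneg (m ^ 2 - 1)) x6
    have d5 := mul_le_mul_of_nonneg_left c.1 l0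
    have d6 := mul_le_mul_of_nonneg_right hl x8
    rw [abs_le] at a b ⊢
    constructor <;> linarith [a.1, a.2, b.1, b.2, c.1, c.2]
  · rw [M8_of_ge h]
    have t1 := tanh_sq_lt_one x
    have t2 := Tay.sq_le x
    have t0 := sq_nonneg (tanh x)
    have a1 := mul_le_mul_of_nonneg_left (tanh_sq_lt_one (m * x)).le (sq_nonneg x)
    have a0 := mul_nonneg (sq_nonneg x) (sq_nonneg (tanh (m * x)))
    have b1 : tanh x ^ 4 ≤ x ^ 2 := by nlinarith
    have b2 : tanh x ^ 6 ≤ x ^ 2 := by nlinarith [mul_le_mul_of_nonneg_left t1.le (sq_nonneg (tanh x ^ 2))]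
    have b0 : 0 ≤ m ^ 2 * tanh x ^ 4 := by positivity
    have b3 := mul_le_mul q2 b1 (by positivity) (by norm_num)
    rw [abs_le]
    constructor <;> linarith [sq_nonneg x]

/-- the dilation `x ↦ (1 + L) x` -/
lemma dil (x : ℝ) {L : ℝ} (hL : |L| ≤ 1 / 2) :
    |x * tanh ((1 + L) * x) - (x * tanh x + L * x ^ 2 - ((1 + L) ^ 3 - 1) / 3 * tanh x ^ 4 -
      2 / 3 * L * tanh x ^ 6)| ≤ 3 * L ^ 2 * tanh x ^ 6 + 30 * |L| * Mx8 x := by
  have := mvt0 (f := fun u => x * tanh ((1 + u) * x) - (x * tanh x + u * x ^ 2 -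
      ((1 + u) ^ 3 - 1) / 3 * tanh x ^ 4 - 2 / 3 * u * tanh x ^ 6))
    (f' := fun u => -(x ^ 2 * tanh ((1 + u) * x) ^ 2) + (1 + u) ^ 2 * tanh x ^ 4 +
      2 / 3 * tanh x ^ 6) (fun u => ?_) (by simp) (x := L)
    fun u hu => der_le x hL (by simpa using hu)
  · refine this.trans_eq ?_
    rw [← sq_abs L]; ring
  · have h1 : HasDerivAt (fun u : ℝ => 1 + u) 1 u := (hasDerivAt_id' u).const_add 1
    refine ((((Kb.hasDerivAt_tanh _).comp u (h1.mul_const x)).const_mul x).sub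
      (((((hasDerivAt_id' u).mul_const _).const_add _).sub
        ((((h1.pow 3).sub_const 1).div_const 3).mul_const _)).sub
        (((hasDerivAt_id' u).const_mul _).mul_const _))).congr_deriv ?_
    simp; ring

lemma r_near (x : ℝ) : |(x - tanh x) ^ 2 - 1 / 9 * tanh x ^ 6| ≤ 2 * Mx8 x := by
  have a := gx_sq x
  have b := p3_gx x
  rw [← abs_pow, ← abs_mul, abs_le] at b
  rw [show x - tanh x = tanh x ^ 3 / 3 + gx x by rw [gx]; ring, abs_le]
  constructor <;> nlinarith [sq_nonneg (gx x), b.1, b.2, Mx8_nn x]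

lemma rp_le (x : ℝ) : (x - tanh x) ^ 2 * tanh x ^ 2 ≤ Mx8 x := by
  have a : (x - tanh x) ^ 2 ≤ x ^ 2 := sq_le_sq.2 (Tay.t1' x)
  refine le_min ?_ ((mul_le_mul a (tanh_sq_lt_one x).le (sq_nonneg _) (sq_nonneg _)).trans_eq
    (mul_one _))
  have := mul_le_mul (Tay.r_sq x) (Tay.sq_le x) (sq_nonneg _) (by positivity)
  linarith [show 0 ≤ x ^ 8 by positivity]

lemma m6_le (x : ℝ) : x ^ 2 * min (x ^ 2) 1 ^ 2 ≤ tanh x ^ 6 + 2 * Mx8 x := by
  have p6 : 0 ≤ tanh x ^ 6 := by positivity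
  have m0 : 0 ≤ min (x ^ 2) 1 := le_min (sq_nonneg _) zero_le_one
  rcases le_total |x| 1 with h | h
  · rw [M8_of_le h]
    have := mul_le_mul_of_nonneg_left (pow_le_pow_left₀ m0 (min_le_left (x ^ 2) 1) 2) (sq_nonneg x)
    linarith [(abs_le.1 (Tay.p6 x)).1]
  · rw [M8_of_ge h]
    have := mul_le_mul_of_nonneg_left (pow_le_pow_left₀ m0 (min_le_right (x ^ 2) 1) 2) (sq_nonneg x)
    linarith [sq_nonneg x]

lemma m2_le (x g : ℝ) : (tanh x - (1 - g) * x) ^ 2 * tanh x ^ 2 ≤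
    4 * g ^ 2 * tanh x ^ 4 + (4 * g ^ 2 + 2) * Mx8 x := by
  have a := rp_le x
  have b := mul_le_mul_of_nonneg_left a (sq_nonneg g)
  nlinarith [mul_nonneg (sq_nonneg (g * x + (x - tanh x))) (sq_nonneg (tanh x)),
    mul_nonneg (sq_nonneg (g * (x - 2 * tanh x))) (sq_nonneg (tanh x))]

/-! ### the scalar cancellation -/

/-- normalised data -/
structure SI where
  (η q δ r s p4 p6 : ℝ)
  hq : 0 < q
  qη : q ≤ η
  η1 : η ≤ 1 / 100
  hδ : |δ| ≤ η
  hr : |r - 1| ≤ η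
  hs : |s| ≤ 2
  h4 : |p4 - -8| ≤ η
  h6 : |p6 - 15| ≤ η

namespace SI
variable (i : SI)

def c : ℝ := 2 * i.r + i.q * i.s
def w : ℝ := (1 + i.q * i.c)⁻¹
def u : ℝ := i.δ * (2 + i.δ)
def m : ℝ := 3 + i.δ + i.u
def h : ℝ := (2 + i.δ) * i.c - 2 * (i.c - i.r) * i.w * (1 + i.q * i.c)
def X : ℝ := 1 - i.q * (1 + i.u) - i.δ * i.q ^ 2 * i.h
def D : ℝ := ((1 - i.q) * i.X)⁻¹
def k : ℝ := 1 + i.u - i.δ * i.h * (1 - i.q)
def th : ℝ := (i.δ * i.r + 2 * i.q * ((i.r ^ 2 - i.s) * i.w) - (5 - i.m * (2 + i.u) + i.k) -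
  i.q * (i.m * i.k - 5 * (2 + i.u)) - 5 * i.q ^ 2 * i.k) * i.D
def L1 : ℝ := i.m + 5 * i.q + i.q * i.th
def La : ℝ := 1 + i.q * i.L1
def Z : ℝ := 5 + i.th + i.c * i.L1 - i.m * i.p4 / 3 - (i.m * i.L1 +
  i.δ * (i.L1 * (3 + i.δ * (i.La + 1))) * i.La) * (1 + i.q * i.p4 / 3) - 2 / 3 * i.La * i.p6

lemma e0 : 0 ≤ i.η := i.hq.le.trans i.qη
lemma c_bd : 0 ≤ i.c ∧ i.c ≤ 3 := by
  have := abs_le.1 i.hr
  have := abs_le.1 i.hs
  have := i.hq
  have := i.qη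
  have := i.η1
  unfold c; constructor <;> nlinarith
lemma w_pos : 0 < 1 + i.q * i.c := by have := mul_nonneg i.hq.le i.c_bd.1; linarith
lemma w_mul : i.w * (1 + i.q * i.c) = 1 := inv_mul_cancel₀ i.w_pos.ne'
lemma w_bd : |i.w| ≤ 1 := by
  rw [w, abs_of_pos (inv_pos.2 i.w_pos)]
  exact inv_le_one_of_one_le₀ (by have := mul_nonneg i.hq.le i.c_bd.1; linarith)
lemma X_ge : 1 / 2 ≤ i.X := by
  have hδ := abs_le.1 (i.hδ.trans i.η1)
  have hr := abs_le.1 (i.hr.trans i.η1)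
  have hc := i.c_bd
  have q0 := i.hq
  have q1 := i.qη.trans i.η1
  have a : |i.h| ≤ 20 := by
    rw [h, mul_assoc, i.w_mul, abs_le]; constructor <;> nlinarith
  have b : |i.δ * i.h| ≤ 1 := by
    rw [abs_mul]; nlinarith [abs_nonneg i.δ, abs_nonneg i.h, i.hδ.trans i.η1]
  have b' := (abs_le.1 b).2
  have c : i.u ≤ 1 := by unfold u; nlinarith
  unfold X; nlinarith [mul_le_mul_of_nonneg_left b' (sq_nonneg i.q)]
lemma D_pos : 1 / 4 ≤ (1 - i.q) * i.X := by nlinarith [i.X_ge, i.qη.trans i.η1]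
lemma D_bd : |i.D| ≤ 4 := by
  rw [D, abs_of_pos (inv_pos.2 (by linarith [i.D_pos]))]
  exact inv_le_of_inv_le₀ (by norm_num) (by linarith [i.D_pos])

end SI

lemma cst (a : ℝ) : Ap SI.η (fun _ => a) fun _ => a := Ap.const SI.e0 a
lemma sm {f : SI → ℝ} (a : ℝ) (h : ∀ i, |f i - a| ≤ i.η) : Ap SI.η f fun _ => a :=
  Ap.sm (C := 1) a (fun i => by simpa using h i) fun i => ⟨i.e0, by linarith [i.η1]⟩

lemma z_small : ∃ C ≥ (1 : ℝ), ∀ i : SI, |i.Z| ≤ C * i.η ∧ |i.La - 1| ≤ C * i.η := by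
  have q : Ap SI.η SI.q fun _ => 0 := sm 0 fun i => by simpa [abs_of_pos i.hq] using i.qη
  have d : Ap SI.η SI.δ fun _ => 0 := sm 0 fun i => by simpa using i.hδ
  have r : Ap SI.η SI.r fun _ => 1 := sm 1 SI.hr
  have p4 : Ap SI.η SI.p4 fun _ => -8 := sm _ SI.h4
  have p6 : Ap SI.η SI.p6 fun _ => 15 := sm _ SI.h6
  have s : Ap SI.η SI.s SI.s := Ap.bd SI.hs SI.e0
  have w : Ap SI.η SI.w SI.w := Ap.bd SI.w_bd SI.e0
  have D : Ap SI.η SI.D SI.D := Ap.bd SI.D_bd SI.e0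
  have c : Ap SI.η SI.c fun _ => 2 :=
    (((cst 2).mul r).add (q.mul s)).congr (fun _ => rfl) fun _ => by ring
  have u : Ap SI.η SI.u fun _ => 0 := (d.mul ((cst 2).add d)).congr (fun _ => rfl) fun _ => by ring
  have m : Ap SI.η SI.m fun _ => 3 := (((cst 3).add d).add u).congr (fun _ => rfl) fun _ => by ring
  have h := (((cst 2).add d).mul c).sub ((((cst 2).mul (c.sub r)).mul w).mul ((cst 1).add (q.mul c)))
  have k : Ap SI.η SI.k fun _ => 1 := (((cst 1).add u).sub ((d.mul h).mul ((cst 1).sub q))).congr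
    (fun _ => rfl) fun _ => by ring
  have u2 := (cst 2).add u
  have th : Ap SI.η SI.th fun _ => 0 := ((((((d.mul r).add (((cst 2).mul q).mul
    ((r.sq.sub s).mul w))).sub (((cst 5).sub (m.mul u2)).add k)).sub (q.mul ((m.mul k).sub
    ((cst 5).mul u2)))).sub (((cst 5).mul q.sq).mul k)).mul D).congr (fun _ => rfl) fun _ => by ring
  have L1 : Ap SI.η SI.L1 fun _ => 3 :=
    ((m.add ((cst 5).mul q)).add (q.mul th)).congr (fun _ => rfl) fun _ => by ring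
  have La : Ap SI.η SI.La fun _ => 1 := ((cst 1).add (q.mul L1)).congr (fun _ => rfl) fun _ => by ring
  have Z : Ap SI.η SI.Z fun _ => 0 := (((((((cst 5).add th).add (c.mul L1)).sub ((m.mul p4).mul
    (cst (1 / 3)))).sub (((m.mul L1).add ((d.mul (L1.mul ((cst 3).add (d.mul (La.add (cst 1)))))).mul
    La)).mul ((cst 1).add ((q.mul p4).mul (cst (1 / 3))))))).sub
    (((cst (2 / 3)).mul La).mul p6)).congr (fun i => by rw [SI.Z]; ring) fun _ => by ring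
  obtain ⟨C, h1, h2, h3⟩ := ((eventually_ge_atTop 1).and ((Z.ev SI.e0).and
    ((La.sub (cst 1)).ev SI.e0))).exists
  exact ⟨C, h1, fun i => ⟨by simpa using (h2 i).2, by simpa using (h3 i).2⟩⟩

lemma scal : ∃ C ≥ (1 : ℝ), ∀ η q δ R S P4 P6 v ρ L : ℝ, 0 < q → q ≤ η → η ≤ 1 / 100 →
    C * η ≤ 1 → |δ| ≤ η → |R - q ^ 2| ≤ η * q ^ 2 → |S| ≤ 2 * q ^ 3 →
    |P4 - 3 * q ^ 2 + 8 * q ^ 3| ≤ η * q ^ 3 → |P6 - 15 * q ^ 3| ≤ η * q ^ 3 →
    v = q + 2 * R + S → ρ * v = q + R →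
    L = (ρ + δ) / (1 - q + (ρ ^ 2 - (ρ + δ) ^ 2) * v) - ρ / (1 - q) → |L| ≤ 2 * |δ| ∧
      |(L - δ) * v - ((1 + L) ^ 3 - 1) / 3 * P4 - 2 / 3 * L * P6| ≤ C * η * q ^ 3 * |δ| := by
  obtain ⟨C, C1, hC⟩ := z_small
  refine ⟨C, C1, fun η q δ R S P4 P6 v ρ L q0 qη η1 Cη hδ hR hS h4 h6 hv hρ hL => ?_⟩
  have q2 : 0 < q ^ 2 := by positivity
  have q3 : 0 < q ^ 3 := by positivity
  obtain ⟨r, rfl⟩ : ∃ r, R = r * q ^ 2 := ⟨R / q ^ 2, by field_simp⟩
  obtain ⟨s, rfl⟩ : ∃ s, S = s * q ^ 3 := ⟨S / q ^ 3, by field_simp⟩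
  obtain ⟨p4, rfl⟩ : ∃ p, P4 = 3 * q ^ 2 + p * q ^ 3 := ⟨(P4 - 3 * q ^ 2) / q ^ 3, by field_simp; ring⟩
  obtain ⟨p6, rfl⟩ : ∃ p, P6 = p * q ^ 3 := ⟨P6 / q ^ 3, by field_simp⟩
  have key : ∀ {a b y : ℝ}, 0 < y → |a * y| ≤ b * y → |a| ≤ b := fun hy h => by
    rw [abs_mul, abs_of_pos hy] at h; exact le_of_mul_le_mul_right h hy
  let i : SI := ⟨η, q, δ, r, s, p4, p6, q0, qη, η1, hδ, key q2 (by convert hR using 2; ring),
    key q3 hS, key q3 (by convert h4 using 2; ring), key q3 (by convert h6 using 2; ring)⟩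
  obtain ⟨hZ, hA⟩ := hC i
  have w1 : i.w * (1 + q * i.c) = 1 := i.w_mul
  have e1 : v = q * (1 + q * i.c) := by rw [hv, SI.c]; ring
  have e2 : ρ = (1 + q * r) * i.w := by
    have : q * (ρ * (1 + q * i.c)) = q * (1 + q * r) := by rw [e1] at hρ; linarith
    rw [← mul_left_cancel₀ q0.ne' this, mul_assoc, mul_comm _ i.w, w1, mul_one]
  have e3 : 1 - q + (ρ ^ 2 - (ρ + δ) ^ 2) * v = i.X := by
    have : i.h = 2 * r + δ * i.c := by
      rw [SI.h, mul_assoc, i.w_mul]; ring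
    rw [SI.X, this, SI.u]
    linear_combination (-2 * δ) * hρ - δ ^ 2 * e1
  have e4 : ρ * (ρ * v) = q + q ^ 3 * ((r ^ 2 - s) * i.w) := by
    rw [hρ, e2]
    have : i.c = 2 * r + q * s := rfl
    linear_combination q * w1 - q ^ 2 * i.w * this
  have X0 : i.X ≠ 0 := by linarith [i.X_ge]
  have χ0 : 1 - q ≠ 0 := by linarith
  have D1 : i.D * ((1 - q) * i.X) = 1 := inv_mul_cancel₀ (mul_ne_zero χ0 X0)
  have e5 : (1 - q) * i.X = 1 - q * (2 + i.u) + q ^ 2 * i.k := by rw [SI.X, SI.k]; ring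
  have e6 : i.La * ((1 - q) * i.X) = 1 - q + 2 * (ρ * (ρ * v)) + δ * (ρ * v) := by
    have a : i.La * ((1 - q) * i.X) = (1 + q * (i.m + 5 * q)) * ((1 - q) * i.X) + q ^ 2 * (δ * r +
        2 * q * ((r ^ 2 - s) * i.w) - (5 - i.m * (2 + i.u) + i.k) - q * (i.m * i.k - 5 * (2 + i.u)) -
        5 * q ^ 2 * i.k) * (i.D * ((1 - q) * i.X)) := by
      rw [SI.La, SI.L1, SI.th]; ring
    rw [a, D1, e4, hρ, e5, SI.m]; ring
  have e7 : L = δ * i.La := by
    rw [hL, e3, div_sub_div _ _ X0 χ0, div_eq_iff (mul_ne_zero X0 χ0)]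
    linear_combination (-δ) * e6 + ρ * e3
  have e8 : (L - δ) * v - ((1 + L) ^ 3 - 1) / 3 * (3 * q ^ 2 + p4 * q ^ 3) -
      2 / 3 * L * (p6 * q ^ 3) = i.Z * q ^ 3 * δ := by
    rw [e7, e1, SI.Z]
    have a : i.L1 = i.m + 5 * q + q * i.th := rfl
    have b : i.m = 3 + δ + δ * (2 + δ) := rfl
    have c : i.La = 1 + q * i.L1 := rfl
    simp only [show i.q = q from rfl, show i.δ = δ from rfl, show i.p4 = p4 from rfl,
      show i.p6 = p6 from rfl]
    rw [c, a, b]; ring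
  refine ⟨?_, ?_⟩
  · rw [e7, abs_mul, mul_comm]
    refine mul_le_mul_of_nonneg_right ?_ (abs_nonneg _)
    have := abs_le.1 (hA.trans Cη)
    exact abs_le.2 ⟨by linarith, by linarith⟩
  · rw [e8, abs_mul, abs_mul, abs_of_pos q3]
    exact mul_le_mul_of_nonneg_right (mul_le_mul_of_nonneg_right hZ q3.le) (abs_nonneg _)

end Crest.Agent.T157.O4c.X12

end
end

-- ▼ part T157/O4x_12

/-!
# Row 157, A2 section 4 (helper12): `O4c.Hx` from the moments of `x`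
-/

set_option autoImplicit false

noncomputable section

namespace Crest.Agent.T157.O4c.X12

open Matrix Real
open Crest.Agent.T157.E Crest.Agent.T157.Tap Crest.Agent.T157.Od Crest.Agent.T157.Oo
open Crest.Agent.T157.Mj Crest.Agent.T157.Kb Crest.Agent.T157.Kb.Xd75

variable {n k : ℕ}

/-! ### frames -/

theorem Qm_eq {o : Oo.Orb n k} (h : o.Ok) (hk : k + 2 = n) {a b : Vn n} (ha : o.Eᵀ *ᵥ a = 0)
    (hb : o.Eᵀ *ᵥ b = 0) (aa : a ⬝ᵥ a = 1) (bb : b ⬝ᵥ b = 1) (ab : a ⬝ᵥ b = 0) :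
    Qm o = vecMulVec a a + vecMulVec b b := by
  have Qv : ∀ {v : Vn n}, o.Eᵀ *ᵥ v = 0 → Qm o *ᵥ v = v ∧ v ᵥ* Qm o = v := fun {v} hv => by
    have : Qm o *ᵥ v = v := by rw [Qm_vec, Pm_vec, hv, mulVec_zero, sub_zero]
    exact ⟨this, by rw [← mulVec_transpose, Qm_symm, this]⟩
  have QQ : Qm o * Qm o = Qm o := by
    have : o.E * o.Eᵀ * (o.E * o.Eᵀ) = o.E * o.Eᵀ := by
      rw [Matrix.mul_assoc, ← Matrix.mul_assoc o.Eᵀ, h.iso, Matrix.one_mul]
    simp [Qm, mul_sub, sub_mul, this]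
  have ba : b ⬝ᵥ a = 0 := by rw [dotProduct_comm, ab]
  rw [← sub_eq_zero, ← trace_conjTranspose_mul_self_eq_zero_iff,
    conjTranspose_eq_transpose_of_trivial, transpose_sub, transpose_add, Qm_symm,
    transpose_vecMulVec, transpose_vecMulVec]
  have vv : ∀ u v w : Vn n, vecMulVec u v *ᵥ w = (v ⬝ᵥ w) • u := fun u v w => by
    ext i; simp [mulVec, dotProduct, vecMulVec_apply, Finset.mul_sum, mul_comm, mul_left_comm]
  simp only [mul_sub, sub_mul, add_mul, QQ, mul_vecMulVec, vecMulVec_mul, (Qv ha).1,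
    (Qv ha).2, (Qv hb).1, (Qv hb).2, aa, bb, ab, ba, trace_sub, trace_add, mul_add,
    vv, trace_vecMulVec, one_smul, zero_smul, add_zero, zero_add, sub_self,
    zero_dotProduct]
  rw [Qm, trace_sub, trace_mul_comm, h.iso, trace_one, trace_one, Fintype.card_fin,
    Fintype.card_fin]
  have : (n : ℝ) = k + 2 := by exact_mod_cast hk.symm
  linarith

theorem gs {a b : Vn n} {β : ℝ} (ha : 0 < a ⬝ᵥ a) (hβ : β * (a ⬝ᵥ a) = a ⬝ᵥ b)
    (hd : 0 < b ⬝ᵥ b - β * (a ⬝ᵥ b)) : ∃ r > (0 : ℝ), ∃ c > (0 : ℝ), r ^ 2 = a ⬝ᵥ a ∧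
      c ^ 2 * (b ⬝ᵥ b - β * (a ⬝ᵥ b)) = 1 ∧ (r⁻¹ • a) ⬝ᵥ (r⁻¹ • a) = 1 ∧
      (c • (b - β • a)) ⬝ᵥ (c • (b - β • a)) = 1 ∧ (r⁻¹ • a) ⬝ᵥ (c • (b - β • a)) = 0 := by
  have r0 := sqrt_pos.2 ha
  have c0 := sqrt_pos.2 (inv_pos.2 hd)
  have r2 := sq_sqrt ha.le
  have c2 : √(b ⬝ᵥ b - β * (a ⬝ᵥ b))⁻¹ ^ 2 * (b ⬝ᵥ b - β * (a ⬝ᵥ b)) = 1 := by
    rw [sq_sqrt (inv_pos.2 hd).le, inv_mul_cancel₀ hd.ne']
  refine ⟨_, r0, _, c0, r2, c2, ?_, ?_, ?_⟩
  · rw [smul_dotProduct, dotProduct_smul, smul_eq_mul, smul_eq_mul]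
    generalize √(a ⬝ᵥ a) = r at *
    rw [← r2]; field_simp
  · simp only [smul_dotProduct, dotProduct_smul, sub_dotProduct, dotProduct_sub, smul_eq_mul,
      dotProduct_comm b a]
    linear_combination c2 + √(b ⬝ᵥ b - β * (a ⬝ᵥ b))⁻¹ ^ 2 * β * hβ
  · simp only [smul_dotProduct, dotProduct_smul, dotProduct_sub, smul_eq_mul]
    rw [← hβ]; ring

/-! ### the moments -/

/-- the gauge invariant moments of `x` -/
structure Mo (e : ℝ) (x : V n) : Prop where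
  q0 : 0 < aS x
  r4 : |R4 x - aS x ^ 2| ≤ e * aS x ^ 2
  p4 : |avg (fun i => th x i ^ 4) - 3 * aS x ^ 2 + 8 * aS x ^ 3| ≤ e * aS x ^ 3
  p6 : |avg (fun i => th x i ^ 6) - 15 * aS x ^ 3| ≤ e * aS x ^ 3
  e8 : avg (fun i => min (x i ^ 8) (x i ^ 2)) ≤ e * aS x ^ 3


theorem Mo.mono {e e' : ℝ} {x : V n} (h : Mo e x) (he : e ≤ e') : Mo e' x :=
  have q := h.q0
  ⟨q, h.r4.trans (by gcongr), h.p4.trans (by gcongr), h.p6.trans (by gcongr),
    h.e8.trans (by gcongr)⟩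


/-- `avg (x - p)²` -/
def S2 (x : V n) : ℝ := avg fun i => (x i - tanh (x i)) ^ 2
/-- `avg x²` -/
def v2 (x : V n) : ℝ := avg fun i => x i ^ 2

lemma v2_eq (x : V n) : v2 x = aS x + 2 * R4 x + S2 x := by
  rw [v2, aS, R4, S2, ← avg_mul, ← avg_add, ← avg_add]
  congr 1; funext i; rw [th]; ring

lemma xx_eq (hn : 0 < n) (x : V n) : x ⬝ᵥ x = n * v2 x := by
  rw [dot_eq hn, v2]; simp only [sq]
lemma pp_eq (hn : 0 < n) (x : V n) : th x ⬝ᵥ th x = n * aS x := by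
  rw [dot_eq hn, aS]; simp only [sq]
lemma xp_eq (hn : 0 < n) (x : V n) : x ⬝ᵥ th x = n * (aS x + R4 x) := by
  rw [dot_eq hn, aS, R4, ← avg_add]
  congr 2; funext i; ring

namespace Mo
variable {e : ℝ} {x : V n} (h : Mo e x)
include h

lemma e0 : 0 ≤ e := nonneg_of_mul_nonneg_left ((abs_nonneg _).trans h.r4) (pow_pos h.q0 2)

lemma s2 : |S2 x - 5 / 3 * aS x ^ 3| ≤ 3 * (e * aS x ^ 3) := by
  have a := avg_near fun i => r_near (x i)
  rw [avg_mul, avg_mul] at a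
  have b := abs_le.1 h.p6
  have c := h.e8
  have d := mul_nonneg h.e0 (pow_pos h.q0 3).le
  simp only [th, Mx8] at a b
  rw [S2, abs_le] at *
  constructor <;> linarith [a.1, a.2, b.1, b.2]

/-- sizes of `v = avg x²` and of the Gram determinant -/
lemma sizes (he : e ≤ 1 / 100) (hq : aS x ≤ 1 / 100) : aS x ≤ v2 x ∧ v2 x ≤ 11 / 10 * aS x ∧
    |S2 x| ≤ 2 * aS x ^ 3 ∧ 0 ≤ R4 x + S2 x ∧ R4 x + S2 x ≤ 2 * aS x ^ 2 ∧
    6 / 10 * aS x ^ 4 ≤ v2 x * aS x - (aS x + R4 x) ^ 2 ∧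
    v2 x * aS x - (aS x + R4 x) ^ 2 ≤ 3 / 4 * aS x ^ 4 := by
  have a := abs_le.1 h.s2
  have b := abs_le.1 h.r4
  have q0 := h.q0
  rw [v2_eq]
  generalize aS x = q at *
  have q2 := pow_pos q0 2
  have q3 := pow_pos q0 3
  have c2 := mul_le_mul_of_nonneg_right he q2.le
  have c3 := mul_le_mul_of_nonneg_right he q3.le
  have d2 := mul_le_mul_of_nonneg_right hq q0.le
  have d3 := mul_le_mul_of_nonneg_right hq q2.le
  have r1 : R4 x ^ 2 ≤ (101 / 100 * q ^ 2) ^ 2 := sq_le_sq' (by linarith) (by linarith)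
  have r2 : (99 / 100 * q ^ 2) ^ 2 ≤ R4 x ^ 2 := pow_le_pow_left₀ (by positivity) (by linarith) 2
  have s1 := mul_le_mul_of_nonneg_left (show S2 x ≤ 170 / 100 * q ^ 3 by linarith) q0.le
  have s2 := mul_le_mul_of_nonneg_left (show 163 / 100 * q ^ 3 ≤ S2 x by linarith) q0.le
  have q4 := pow_pos q0 4
  refine ⟨by linarith, by linarith, abs_le.2 ⟨by linarith, by linarith⟩, by linarith,
    by linarith, by linarith, by linarith⟩

end Mo

/-- **the hypotheses on `x` of the core of (M1)** -/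
theorem hx : ∃ C0 ≥ (1 : ℝ), ∀ (n k : ℕ) (o : Oo.Orb n k) (x : V n) (e η : ℝ), Kp.At o x →
    Op2 o.W 9 → Mo e x → C0 * (e + aS x) ≤ η → C0 * η ≤ 1 → 1 ≤ η ^ 2 * (n * aS x ^ 3) →
    ∃ X > (0 : ℝ), ∃ c > (0 : ℝ), ∃ β : ℝ, X ^ 2 = x ⬝ᵥ x ∧ β * (x ⬝ᵥ x) = x ⬝ᵥ th x ∧
      1 ≤ c ^ 2 * (n * aS x ^ 3) ∧ c ^ 2 * (n * aS x ^ 3) ≤ 2 ∧
      Hx o x (X⁻¹ • x) (c • (th x - β • x)) (Kp.chi x) X (C0 * aS x) η (6 * C0) := by
  obtain ⟨C, C1, hC⟩ := scal
  refine ⟨C + 300, by linarith, fun n k o x e η a hW h h1 h2 h3 => ?_⟩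
  have n4 : 4 ≤ n := by have := a.ok.two; have := a.dim; omega
  have n0 : 0 < n := by omega
  have n0' : (0 : ℝ) < n := by exact_mod_cast n0
  have q0 := h.q0
  have e0 := h.e0
  have Ce := mul_nonneg (show 0 ≤ C by linarith) e0
  have Cq := mul_nonneg (show 0 ≤ C by linarith) q0.le
  have η0 : 0 < η := by linarith
  have Cη := mul_nonneg (show 0 ≤ C by linarith) η0.le
  obtain ⟨z1, z2, z3, z4, z5, z6, z7⟩ := h.sizes (by linarith) (by linarith)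
  have hχ : Kp.chi x = 1 - aS x := by
    rw [Kp.chi, aS, ← avg_const n0 1, ← avg_sub]; rfl
  have xx := xx_eq n0 x
  have pp := pp_eq n0 x
  have xp := xp_eq n0 x
  have v0 : 0 < v2 x := by linarith
  have q2 := pow_pos q0 2
  have q3 := pow_pos q0 3
  have q4 := pow_pos q0 4
  obtain ⟨β, hβ⟩ : ∃ β, β * v2 x = aS x + R4 x := ⟨_, div_mul_cancel₀ _ v0.ne'⟩
  have hβ' : β * (x ⬝ᵥ x) = x ⬝ᵥ th x := by rw [xx, xp, ← hβ]; ring
  obtain ⟨D, hD⟩ : ∃ D, D = aS x - β * (aS x + R4 x) := ⟨_, rfl⟩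
  have D1 : D * v2 x = v2 x * aS x - (aS x + R4 x) ^ 2 := by
    rw [hD]; linear_combination (-(aS x + R4 x)) * hβ
  have D2 : aS x ^ 3 / 2 ≤ D := le_of_mul_le_mul_right (by
    linarith [mul_le_mul_of_nonneg_left z2 q3.le]) v0
  have D3 : D ≤ aS x ^ 3 := le_of_mul_le_mul_right (by
    linarith [mul_le_mul_of_nonneg_left z1 q3.le]) v0
  have D4 : th x ⬝ᵥ th x - β * (x ⬝ᵥ th x) = n * D := by rw [pp, xp, hD]; ring
  obtain ⟨X, X0, c, c0, X2, c2, f11, f22, f12⟩ := gs (a := x) (b := th x) (by rw [xx]; positivity)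
    hβ' (by rw [D4]; exact mul_pos n0' (by linarith))
  rw [D4] at c2
  have cn : 0 ≤ c ^ 2 * n := by positivity
  have c3 : c ^ 2 * (n * aS x ^ 3) ≤ 2 := by linarith [mul_le_mul_of_nonneg_left D2 cn]
  have ep : o.Eᵀ *ᵥ th x = 0 := a.p ▸ a.ok.ep
  have g0 : 0 ≤ 1 - β := nonneg_of_mul_nonneg_left (b := v2 x) (by linarith [v2_eq x]) v0
  have g1 : 1 - β ≤ 2 * aS x := le_of_mul_le_mul_right (by
    linarith [v2_eq x, mul_le_mul_of_nonneg_left z1 q0.le]) v0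
  have p4 := (abs_le.1 h.p4).2
  have p6 := (abs_le.1 h.p6).2
  have e8 : avg (fun i => Mx8 (x i)) ≤ e * aS x ^ 3 := h.e8
  have eq3 := mul_le_mul_of_nonneg_right (show e ≤ 1 by linarith) q3.le
  simp only [th] at p4 p6
  rw [xx] at X2
  refine ⟨X, X0, c, c0, β, by rw [xx, X2], hβ', by linarith [mul_le_mul_of_nonneg_left D3 cn], c3,
    a.ok, ?_, a.dim, Qm_eq a.ok a.dim (by rw [mulVec_smul, a.ex, smul_zero])
      (by rw [mulVec_smul, mulVec_sub, mulVec_smul, a.ex, ep]; simp) f11 f22 f12, f11, f22, f12,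
    fun i => by simp [X0.ne'], by rw [a.p, pp, hχ]; ring, X0, by positivity, by linarith,
    by linarith, ?_, ?_, ?_, ?_, fun i => ?_, fun y hy => ?_⟩
  · obtain ⟨γ, hγ⟩ : ∃ γ, γ * aS x = aS x + R4 x := ⟨_, div_mul_cancel₀ _ q0.ne'⟩
    obtain ⟨r, r0, d, -, r2, -, g11, g22, g12⟩ := gs (a := th x) (b := x) (β := γ)
      (by rw [pp]; positivity) (by rw [pp, dotProduct_comm, xp, ← hγ]; ring) (by
        rw [xx, dotProduct_comm, xp, show n * v2 x - γ * (n * (aS x + R4 x)) =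
          n * (v2 x - γ * (aS x + R4 x)) by ring]
        refine mul_pos n0' ((mul_pos_iff_of_pos_right q0).1 ?_)
        have : (v2 x - γ * (aS x + R4 x)) * aS x = v2 x * aS x - (aS x + R4 x) ^ 2 := by
          linear_combination (-(aS x + R4 x)) * hγ
        linarith)
    refine ⟨r, _, _, fun i => by rw [a.p]; rfl, by rw [a.h, a.p], by rw [a.z, one_div],
      by linarith, by linarith, hW, Qm_eq a.ok a.dim (by rw [mulVec_smul, ep, smul_zero])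
        (by rw [mulVec_smul, mulVec_sub, mulVec_smul, a.ex, ep]; simp) g11 g22 g12, g11, g22, g12,
      by rw [a.p, smul_smul, mul_inv_cancel₀ r0.ne', one_smul], n4, ?_⟩
    rw [r2, pp]
    linarith [mul_le_mul_of_nonneg_left (show aS x ≤ 1 / 4 by linarith) n0'.le]
  · rw [X2, mul_comm]
    exact mul_le_mul_of_nonneg_right (by linarith) n0'.le
  · refine abs_le_of_sq_le_sq' ?_ (by positivity) |>.2
    rw [mul_pow, mul_pow, X2, one_pow]
    refine h3.trans ?_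
    rw [mul_assoc, show n * aS x ^ 3 = aS x ^ 2 * (n * aS x) by ring]
    gcongr
    linarith
  · have b := avg_mono fun i => m6_le (x i)
    rw [avg_add, avg_mul] at b
    have : ∑ i, (X⁻¹ • x) i ^ 2 * mx (x i) ^ 2 =
        (avg fun i => x i ^ 2 * min (x i ^ 2) 1 ^ 2) / v2 x := by
      rw [eq_div_iff v0.ne', ← mul_right_inj' n0'.ne', ← sum_eq n0, mul_left_comm, ← X2,
        Finset.sum_mul]
      refine Finset.sum_congr rfl fun i _ => ?_
      simp only [Pi.smul_apply, smul_eq_mul, mx]; field_simp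
    rw [this, div_le_iff₀ v0]
    have d : 300 ^ 2 * aS x ^ 2 * aS x ≤ ((C + 300) * aS x) ^ 2 * v2 x := by
      rw [mul_pow]; gcongr; linarith
    linarith
  · have b := avg_mono fun i => m2_le (x i) (1 - β)
    rw [avg_add, avg_mul, avg_mul] at b
    have : ∑ i, (c • (th x - β • x)) i ^ 2 * tanh (x i) ^ 2 = c ^ 2 * n *
        avg fun i => (tanh (x i) - (1 - (1 - β)) * x i) ^ 2 * tanh (x i) ^ 2 := by
      rw [mul_assoc, ← sum_eq n0, Finset.mul_sum]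
      refine Finset.sum_congr rfl fun i _ => ?_
      simp only [Pi.smul_apply, Pi.sub_apply, smul_eq_mul, th]; ring
    have g2 : (1 - β) ^ 2 ≤ (2 * aS x) ^ 2 := pow_le_pow_left₀ g0 g1 2
    have d1 := mul_le_mul g2 (show avg (fun i => tanh (x i) ^ 4) ≤ 3 * aS x ^ 2 by linarith)
      (avg_nn fun i => by positivity) (by positivity)
    have d2 := mul_le_mul (show 4 * (1 - β) ^ 2 + 2 ≤ 3 by
      linarith [mul_le_mul_of_nonneg_left (show aS x ≤ 1 / 100 by linarith) q0.le]) e8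
      (avg_nn fun i => Mx8_nn _) (by norm_num)
    have d3 : 0 ≤ e * aS x ^ 3 := by positivity
    have d4 := mul_le_mul_of_nonneg_left (show (avg fun i => (tanh (x i) - (1 - (1 - β)) * x i) ^ 2 *
      tanh (x i) ^ 2) ≤ 48 * (e + aS x) * aS x ^ 3 by linarith) cn
    rw [this]
    linarith [mul_le_mul_of_nonneg_left c3 (show 0 ≤ 48 * (e + aS x) by positivity)]
  · have b : |tanh (x i) - β * x i| ≤ 2 * |x i| := by
      refine (abs_sub _ _).trans ?_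
      rw [abs_mul, abs_of_nonneg (show 0 ≤ β by linarith)]
      linarith [Tay.t1 (x i), mul_le_mul_of_nonneg_right (show β ≤ 1 by linarith) (abs_nonneg (x i))]
    have d : aS x * c * X ≤ 3 := by
      refine abs_le_of_sq_le_sq' ?_ (by positivity) |>.2
      rw [mul_pow, mul_pow, X2]
      linarith [mul_le_mul_of_nonneg_left z2 (mul_nonneg cn q2.le)]
    simp only [Pi.smul_apply, Pi.sub_apply, smul_eq_mul, th, abs_mul, abs_of_pos c0,
      abs_of_pos (inv_pos.2 X0)]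
    have d' : aS x * c ≤ 3 * X⁻¹ := by rwa [← div_eq_mul_inv, le_div_iff₀ X0]
    calc _ = (C + 300) * (aS x * c * |tanh (x i) - β * x i|) := by ring
      _ ≤ (C + 300) * (3 * X⁻¹ * (2 * |x i|)) := by gcongr
      _ = _ := by ring
  · have p1 : (X⁻¹ • x) ⬝ᵥ o.p = β * X := by
      rw [a.p, smul_dotProduct, ← hβ', xx, ← X2, smul_eq_mul]; field_simp
    rw [p1] at hy ⊢
    obtain ⟨δ, rfl⟩ : ∃ δ, y = (β + δ) * X := ⟨y / X - β, by field_simp; ring⟩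
    rw [show (β + δ) * X - β * X = δ * X by ring, abs_mul, abs_of_pos X0] at hy ⊢
    replace hy := le_of_mul_le_mul_right hy X0
    have h' := h.mono (show e ≤ η by linarith)
    obtain ⟨L, hL⟩ : ∃ L, L = (β + δ) / (1 - aS x + (β ^ 2 - (β + δ) ^ 2) * v2 x) -
      β / (1 - aS x) := ⟨_, rfl⟩
    obtain ⟨l1, l2⟩ := hC η _ δ _ _ _ _ _ β L q0 (by linarith) (by linarith) (by linarith) hy h'.r4
      z3 h'.p4 h'.p6 (v2_eq x) hβ hL
    have b := avg_near fun i => dil (x i) (L := L) (by linarith)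
    simp only [avg_add, avg_sub, avg_mul] at b
    have m1 : avg (fun i => x i * tanh (x i)) = aS x + R4 x := by
      rw [← mul_right_inj' n0'.ne', ← xp, dot_eq n0]; rfl
    have : ∑ i, (X⁻¹ • x) i * tanh ((X + ((β + δ) * X / (Kp.chi x + ((β * X) ^ 2 -
        ((β + δ) * X) ^ 2) / n) - β * X / Kp.chi x)) * (X⁻¹ • x) i) - (β + δ) * X =
        n / X * (avg (fun i => x i * tanh ((1 + L) * x i)) - (β + δ) * v2 x) := by
      have u1 : ((β * X) ^ 2 - ((β + δ) * X) ^ 2) / n = (β ^ 2 - (β + δ) ^ 2) * v2 x := by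
        rw [mul_pow, mul_pow, X2]; field_simp
      have u2 : n / X * ((β + δ) * v2 x) = (β + δ) * X := by
        rw [div_mul_eq_mul_div, div_eq_iff X0.ne']; linear_combination (-(β + δ)) * X2
      rw [u1, hχ, mul_sub, u2, div_mul_eq_mul_div, ← sum_eq n0, Finset.sum_div]
      congr 1
      refine Finset.sum_congr rfl fun i _ => ?_
      simp only [Pi.smul_apply, smul_eq_mul]
      rw [div_eq_inv_mul _ X, mul_assoc, hL]
      congr 3
      field_simp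
    rw [this, abs_mul, abs_of_pos (div_pos n0' X0), div_mul_eq_mul_div, div_le_iff₀ X0]
    have δ0 := abs_nonneg δ
    have w1 : L ^ 2 ≤ 4 * η * |δ| := by
      rw [← sq_abs]
      linarith [pow_le_pow_left₀ (abs_nonneg _) l1 2, mul_le_mul_of_nonneg_right hy δ0]
    have w2 := mul_le_mul w1 (show avg (fun i => tanh (x i) ^ 6) ≤ 16 * aS x ^ 3 by linarith)
      (avg_nn fun i => by positivity) (by positivity)
    have w3 := mul_le_mul l1 (show avg (fun i => Mx8 (x i)) ≤ η * aS x ^ 3 from h'.e8)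
      (avg_nn fun i => Mx8_nn _) (by positivity)
    have w4 : |avg (fun i => x i * tanh ((1 + L) * x i)) - (β + δ) * v2 x| ≤
        (C + 252) * (η * aS x ^ 3 * |δ|) := by
      rw [m1] at b
      simp only [th] at l2
      rw [abs_le] at b l2 ⊢
      unfold v2 at *
      constructor <;> linarith [b.1, b.2, l2.1, l2.2]
    calc _ ≤ n * ((C + 252) * (η * aS x ^ 3 * |δ|)) := by gcongr
      _ = (C + 252) * (η * aS x ^ 2 * |δ|) * (n * aS x) := by ring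
      _ ≤ (C + 300) ^ 2 * (η * aS x ^ 2 * |δ|) * (n * v2 x) :=
        mul_le_mul (mul_le_mul_of_nonneg_right (by linarith [sq_nonneg C]) (by positivity))
          (mul_le_mul_of_nonneg_left z1 n0'.le) (by positivity) (by positivity)
      _ = _ := by rw [← X2]; ring

end Crest.Agent.T157.O4c.X12

end
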