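import Crest.Agent.T157.Eig_84
import Crest.Agent.T157.OtC_41
import Crest.Agent.T157.OoA_9
import Crest.Agent.T157.OtW_41
import Crest.Agent.T157.O0Def_21

-- ▼ part T157/OtA_46
section

/-!
# Row 157, A2 section 3 (helper46): trace functions under finite rank perturbations, and the
smoothed logarithm used in (T1)
-/

set_option autoImplicit false
set_option linter.unusedSectionVars false

noncomputable section

namespace Crest.Agent.T157.Ot

open Matrix Finset Crest.Agent.T157.Eig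

variable {ι : Type*} [Fintype ι] [DecidableEq ι] {X Y : Matrix ι ι ℝ} {φ : ℝ → ℝ}

/-! ### spectral sums -/

lemma cfc_entry (hX : X.IsHermitian) (φ : ℝ → ℝ) (i j : ι) :
    cfc φ X i j = ∑ k ∈ range (Fintype.card ι), φ (lam X k) * (vec X k i * vec X k j) := by
  rw [sum_range_eq hX (fun x v => φ x * (v i * v j)), hX.cfc_eq, IsHermitian.cfc]
  simp only [Unitary.conjStarAlgAut_apply, star_eq_conjTranspose,
    conjTranspose_eq_transpose_of_trivial]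
  rw [Matrix.mul_apply]
  refine sum_congr rfl fun a _ => ?_
  rw [mul_diagonal]
  simp only [transpose_apply, IsHermitian.eigenvectorUnitary_apply, Function.comp_apply,
    RCLike.ofReal_real_eq_id, id_eq]
  ring

lemma trc (hX : X.IsHermitian) (φ : ℝ → ℝ) :
    (cfc φ X).trace = ∑ k ∈ range (Fintype.card ι), φ (lam X k) := by
  simp only [trace, diag_apply, cfc_entry hX]
  rw [sum_comm]
  exact sum_congr rfl fun k hk => by rw [← mul_sum, sum_vec_sq hX (mem_range.1 hk), mul_one]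

lemma quad_cfc (hX : X.IsHermitian) (φ : ℝ → ℝ) (v : ι → ℝ) :
    v ⬝ᵥ cfc φ X *ᵥ v =
      ∑ k ∈ range (Fintype.card ι), φ (lam X k) * ((vec X k ⬝ᵥ v) * (vec X k ⬝ᵥ v)) := by
  simp only [dotProduct, mulVec, cfc_entry hX, sum_mul, mul_sum]
  simp only [sum_comm (t := range (Fintype.card ι))]
  exact sum_congr rfl fun k _ => sum_congr rfl fun i _ => sum_congr rfl fun j _ => by ring

lemma herm_cfc (φ : ℝ → ℝ) (X : Matrix ι ι ℝ) : (cfc φ X).IsHermitian :=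
  cfc_predicate φ X

lemma fr_cfc (hX : X.IsHermitian) (φ : ℝ → ℝ) :
    ∑ i, ∑ j, cfc φ X i j ^ 2 = ∑ k ∈ range (Fintype.card ι), φ (lam X k) ^ 2 := by
  have h1 : ContinuousOn φ (spectrum ℝ X) := X.finite_real_spectrum.continuousOn φ
  rw [← sum_lam_sq (herm_cfc φ X), ← trace_pow (herm_cfc φ X), sq,
    show cfc φ X * cfc φ X = cfc (fun x => φ x * φ x) X from (cfc_mul φ φ X h1 h1).symm, trc hX]
  simp only [sq]

lemma det_eq_exp (hX : X.IsHermitian) (h : ∀ k < Fintype.card ι, Real.exp (φ (lam X k)) = lam X k) :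
    X.det = Real.exp (cfc φ X).trace := by
  rw [trc hX, Real.exp_sum, prod_congr rfl fun k hk => h k (mem_range.1 hk),
    hX.det_eq_prod_eigenvalues, ← Fin.prod_univ_eq_prod_range (fun k => lam X k),
    ← (eqv ι).prod_comp]
  exact prod_congr rfl fun k _ => (lam_fin hX k).symm

/-! ### finite rank perturbations -/

lemma seq_shift {f g : ℕ → ℝ} {n r : ℕ} {lo hi : ℝ} (h : ∀ k, k + r < n → f (k + r) ≤ g k)
    (hf : ∀ k < n, f k ≤ hi) (hg : ∀ k < n, lo ≤ g k) (hl : lo ≤ hi) :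
    ∑ k ∈ range n, f k ≤ ∑ k ∈ range n, g k + r * (hi - lo) := by
  set F : ℕ → ℝ := fun k => if k < n then f k else lo with hF
  have h1 : ∑ k ∈ range (n + r), F k = ∑ k ∈ range n, f k + r * lo := by
    rw [sum_range_add, sum_congr rfl fun k hk => if_pos (mem_range.1 hk),
      sum_congr (s₁ := range r) rfl fun k _ => if_neg (show ¬ n + k < n by omega)]
    simp
  have h2 : ∑ k ∈ range (r + n), F k ≤ r * hi + ∑ k ∈ range n, g k := by
    rw [sum_range_add]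
    refine add_le_add ((sum_le_sum (g := fun _ => hi) fun k _ => ?_).trans_eq (by simp))
      (sum_le_sum fun k hk => ?_)
    · simp only [hF]; split_ifs with h'; exacts [hf k h', hl]
    · simp only [hF]; split_ifs with h'
      · rw [add_comm] at h' ⊢; exact h k h'
      · exact hg k (mem_range.1 hk)
  rw [add_comm r n] at h2
  linarith

/-- **(IL)** a bounded monotone trace function under comparison on a subspace of codimension `r` -/
theorem il (hX : X.IsHermitian) (hY : Y.IsHermitian) {S : Submodule ℝ (ι → ℝ)} {r : ℕ}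
    (hS : Cod S r) (h : ∀ v ∈ S, v ⬝ᵥ X *ᵥ v ≤ v ⬝ᵥ Y *ᵥ v) (hφ : Monotone φ) {lo hi : ℝ}
    (h1 : ∀ x, lo ≤ φ x) (h2 : ∀ x, φ x ≤ hi) :
    (cfc φ X).trace ≤ (cfc φ Y).trace + r * (hi - lo) := by
  rw [trc hX, trc hY]
  refine seq_shift (fun k hk => hφ ?_) (fun _ _ => h2 _) (fun _ _ => h1 _) ((h1 0).trans (h2 0))
  simpa using lam_le_of_cod hX hY hS hk (c := 0) fun v hv => by simpa using h v hv

/-- **(LIP1)** a monotone 1-Lipschitz trace function under a bounded finite rank perturbation -/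
theorem lip1 (hX : X.IsHermitian) (hY : Y.IsHermitian) {S : Submodule ℝ (ι → ℝ)} {r : ℕ}
    (hS : Cod S r) (h : ∀ v ∈ S, v ⬝ᵥ X *ᵥ v ≤ v ⬝ᵥ Y *ᵥ v) {ρ : ℝ} (hρ : 0 ≤ ρ)
    (h' : ∀ v, v ⬝ᵥ X *ᵥ v ≤ v ⬝ᵥ Y *ᵥ v + ρ * (v ⬝ᵥ v)) (hφ : Monotone φ)
    (hL : ∀ x y, x ≤ y → φ y - φ x ≤ y - x) :
    (cfc φ X).trace ≤ (cfc φ Y).trace + r * ρ := by
  have hR := hX.sub hY
  set P := cfc (fun x : ℝ => max x 0) (X - Y) with hP
  have hZ := hY.add (herm_cfc (fun x : ℝ => max x 0) (X - Y))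
  have e : ∀ v, v ⬝ᵥ (X - Y) *ᵥ v = v ⬝ᵥ X *ᵥ v - v ⬝ᵥ Y *ᵥ v := fun v => by
    rw [sub_mulVec, dotProduct_sub]
  have p1 : ∀ v, v ⬝ᵥ (X - Y) *ᵥ v ≤ v ⬝ᵥ P *ᵥ v := fun v => by
    rw [quad_cfc hR, quad_eq hR]
    exact sum_le_sum fun k _ => mul_le_mul_of_nonneg_right (le_max_left _ _) (mul_self_nonneg _)
  have p2 : ∀ v, 0 ≤ v ⬝ᵥ P *ᵥ v := fun v => by
    rw [quad_cfc hR]
    exact sum_nonneg fun k _ => mul_nonneg (le_max_right _ _) (mul_self_nonneg _)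
  have p3 : P.trace ≤ r * ρ := by
    rw [trc hR]
    simpa using seq_shift (f := fun k => max (lam (X - Y) k) 0) (g := fun _ => 0) (lo := 0) (hi := ρ)
      (n := Fintype.card ι) (r := r)
      (fun k hk => max_le (lam_le hR hk (hS.mono (by omega)) fun v hv => by
        rw [e]; linarith [h v hv]) le_rfl)
      (fun k hk => max_le (lam_le hR hk (cod_top.mono (by omega)) fun v _ => by
        rw [e]; linarith [h' v]) hρ) (fun _ _ => le_rfl) hρ
  have l1 := lam_mono hX hZ fun v => by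
    rw [add_mulVec, dotProduct_add]; linarith [p1 v, e v]
  have l2 := lam_mono hY hZ fun v => by
    rw [add_mulVec, dotProduct_add]; linarith [p2 v]
  have l3 := sum_le_sum (s := range (Fintype.card ι)) fun k _ =>
    show φ (lam X k) ≤ φ (lam Y k) + (lam (Y + P) k - lam Y k) by
      linarith [hφ (l1 k), hL _ _ (l2 k)]
  rw [sum_add_distrib, sum_sub_distrib, ← trace_eq hZ, ← trace_eq hY, trace_add] at l3
  rw [trc hX, trc hY]
  linarith

lemma ker_eq {M N : Matrix ι ι ℝ} {r : ℕ} (h : (M - N).rank ≤ r) :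
    ∃ S : Submodule ℝ (ι → ℝ), Cod S r ∧ ∀ v ∈ S, M *ᵥ v = N *ᵥ v :=
  ⟨_, (cod_ker_rank (M - N)).mono h, fun v hv => by
    rwa [LinearMap.mem_ker, mulVecLin_apply, sub_mulVec, sub_eq_zero] at hv⟩

/-! ### the smoothed logarithm -/

lemma hasDerivAt_pos_sq (x : ℝ) : HasDerivAt (fun y : ℝ => max y 0 ^ 2) (2 * max x 0) x := by
  rcases lt_trichotomy x 0 with h | rfl | h
  · rw [max_eq_right h.le, mul_zero]
    refine (hasDerivAt_const x (0 : ℝ)).congr_of_eventuallyEq ?_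
    filter_upwards [Iio_mem_nhds h] with y hy
    rw [max_eq_right (le_of_lt hy)]; simp
  · rw [hasDerivAt_iff_isLittleO_nhds_zero]
    refine Asymptotics.IsBigO.trans_isLittleO (Asymptotics.IsBigO.of_bound' (.of_forall fun y => ?_))
      (Asymptotics.isLittleO_pow_id (𝕜 := ℝ) one_lt_two)
    simp only [zero_add, max_self, smul_eq_mul, Real.norm_eq_abs, abs_pow, sq_abs, mul_zero,
      sub_zero, ne_eq, OfNat.ofNat_ne_zero, not_false_eq_true, zero_pow]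
    rcases le_total y 0 with h | h
    · rw [max_eq_right h]; simpa using sq_nonneg y
    · rw [max_eq_left h]
  · rw [max_eq_left h.le]
    refine (by simpa using hasDerivAt_pow 2 x : HasDerivAt (fun y : ℝ => y ^ 2) (2 * x) x
      ).congr_of_eventuallyEq ?_
    filter_upwards [Ioi_mem_nhds h] with y hy
    rw [max_eq_left (le_of_lt hy)]

/-- the identity above `a`, flattened below -/
def hh (a x : ℝ) : ℝ := a / 2 + (max x 0 ^ 2 - max (x - a) 0 ^ 2) / (2 * a)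
def hd (a x : ℝ) : ℝ := (max x 0 - max (x - a) 0) / a
def f1 (a x : ℝ) : ℝ := Real.log (hh a x) - Real.log (1 + hh a x)
def f2 (a x : ℝ) : ℝ := Real.log (1 + hh a x)
def d1 (a x : ℝ) : ℝ := hd a x * (hh a x)⁻¹ - hd a x * (1 + hh a x)⁻¹
def d2 (a x : ℝ) : ℝ := hd a x * (1 + hh a x)⁻¹

variable {a : ℝ}

lemma hh_deriv (ha : 0 < a) (x : ℝ) : HasDerivAt (hh a) (hd a x) x := by
  have h1 := (hasDerivAt_pos_sq (x - a)).comp_sub_const x a
  refine ((((hasDerivAt_pos_sq x).sub h1).div_const (2 * a)).const_add (a / 2)).congr_deriv ?_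
  unfold hd; field_simp

lemma hd_mem (ha : 0 < a) (x : ℝ) : 0 ≤ hd a x ∧ hd a x ≤ 1 := by
  unfold hd
  rw [div_le_one ha]
  refine ⟨div_nonneg (sub_nonneg.2 (max_le_max (by linarith) le_rfl)) ha.le, ?_⟩
  rcases le_total x 0 with h | h
  · rw [max_eq_right h]; linarith [le_max_right (x - a) 0]
  · rw [max_eq_left h]; linarith [le_max_left (x - a) 0]

lemma hh_eq (ha : 0 < a) {x : ℝ} (h : a ≤ x) : hh a x = x := by
  unfold hh
  rw [max_eq_left (by linarith), max_eq_left (by linarith)]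
  field_simp; ring

lemma hh_ge (ha : 0 < a) (x : ℝ) : a / 2 ≤ hh a x ∧ x ≤ hh a x := by
  rcases le_total a x with h | h
  · rw [hh_eq ha h]; exact ⟨by linarith, le_rfl⟩
  · unfold hh
    rw [max_eq_right (by linarith : x - a ≤ 0)]
    have h1 : 0 ≤ (max x 0 ^ 2 - 0 ^ 2) / (2 * a) := by simp only [ne_eq, OfNat.ofNat_ne_zero, not_false_eq_true, zero_pow, sub_zero]; positivity
    refine ⟨by linarith, ?_⟩
    have h2 : max x 0 - a / 2 ≤ (max x 0 ^ 2 - 0 ^ 2) / (2 * a) := by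
      rw [le_div_iff₀ (by positivity)]; nlinarith [sq_nonneg (max x 0 - a)]
    linarith [le_max_left x 0]

lemma hh_pos (ha : 0 < a) (x : ℝ) : 0 < hh a x := by linarith [(hh_ge ha x).1]

lemma mono_lip {f f' : ℝ → ℝ} (h : ∀ x, HasDerivAt f (f' x) x) (h0 : ∀ x, 0 ≤ f' x)
    (h1 : ∀ x, f' x ≤ 1) : Monotone f ∧ ∀ x y, x ≤ y → f y - f x ≤ y - x :=
  ⟨monotone_of_hasDerivAt_nonneg h h0, fun x y hxy => by
    have := monotone_of_hasDerivAt_nonneg (fun x => (hasDerivAt_id x).sub (h x))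
      (fun x => sub_nonneg.2 (h1 x)) hxy
    simp only [Pi.sub_apply, id] at this
    linarith⟩

lemma hh_mono (ha : 0 < a) : Monotone (hh a) ∧ ∀ x y, x ≤ y → hh a y - hh a x ≤ y - x :=
  mono_lip (hh_deriv ha) (fun x => (hd_mem ha x).1) fun x => (hd_mem ha x).2

lemma f2_deriv (ha : 0 < a) (x : ℝ) : HasDerivAt (f2 a) (d2 a x) x :=
  ((hh_deriv ha x).const_add 1).log (by linarith [hh_pos ha x])

lemma f1_deriv (ha : 0 < a) (x : ℝ) : HasDerivAt (f1 a) (d1 a x) x :=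
  ((hh_deriv ha x).log (hh_pos ha x).ne').sub (f2_deriv ha x)

lemma d2_mem (ha : 0 < a) (x : ℝ) : 0 ≤ d2 a x ∧ d2 a x ≤ 1 := by
  have h1 := hh_pos ha x
  have h2 := hd_mem ha x
  exact ⟨mul_nonneg h2.1 (by positivity), mul_le_one₀ h2.2 (by positivity)
    (inv_le_one_of_one_le₀ (by linarith))⟩

lemma d1_mem (ha : 0 < a) (x : ℝ) : 0 ≤ d1 a x ∧ d1 a x ≤ (hh a x)⁻¹ := by
  have h1 := hh_pos ha x
  have h2 := hd_mem ha x
  have h3 : (1 + hh a x)⁻¹ ≤ (hh a x)⁻¹ := inv_anti₀ h1 (by linarith)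
  have h4 := mul_le_of_le_one_left (inv_pos.2 h1).le h2.2
  exact ⟨sub_nonneg.2 (mul_le_mul_of_nonneg_left h3 h2.1), by
    unfold d1; linarith [(d2_mem ha x).1, show d2 a x = hd a x * (1 + hh a x)⁻¹ from rfl]⟩

lemma f2_mono (ha : 0 < a) : Monotone (f2 a) ∧ ∀ x y, x ≤ y → f2 a y - f2 a x ≤ y - x :=
  mono_lip (f2_deriv ha) (fun x => (d2_mem ha x).1) fun x => (d2_mem ha x).2

lemma f1_mono (ha : 0 < a) : Monotone (f1 a) :=
  monotone_of_hasDerivAt_nonneg (f1_deriv ha) fun x => (d1_mem ha x).1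

lemma f1_mem (ha : 0 < a) (x : ℝ) : -Real.log (1 + 2 / a) ≤ f1 a x ∧ f1 a x ≤ 0 := by
  have h1 := hh_pos ha x
  refine ⟨?_, sub_nonpos.2 (Real.log_le_log h1 (by linarith))⟩
  have h2 : 1 + hh a x ≤ (1 + 2 / a) * hh a x := by
    have : 1 ≤ 2 / a * hh a x := by
      rw [div_mul_eq_mul_div, le_div_iff₀ ha]; linarith [(hh_ge ha x).1]
    linarith
  have h3 := Real.log_le_log (by linarith) h2
  rw [Real.log_mul (by positivity) h1.ne'] at h3
  unfold f1; linarith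

lemma exp_f (ha : 0 < a) {x : ℝ} (h : a ≤ x) : Real.exp (f1 a x + f2 a x) = x := by
  rw [f1, f2, sub_add_cancel, Real.exp_log (hh_pos ha x), hh_eq ha h]

lemma lip_inv (ha : 0 < a) {c : ℝ} (hc : 0 ≤ c) (x y : ℝ) :
    |hd a x * (c + hh a x)⁻¹ - hd a y * (c + hh a y)⁻¹| ≤ 8 / a ^ 2 * |x - y| := by
  have p1 : a / 2 ≤ c + hh a x := by linarith [(hh_ge ha x).1]
  have p2 : a / 2 ≤ c + hh a y := by linarith [(hh_ge ha y).1]
  have q1 : 0 < c + hh a x := by linarith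
  have q2 : 0 < c + hh a y := by linarith
  have i1 : (c + hh a x)⁻¹ ≤ 2 / a := by rw [← inv_div]; exact inv_anti₀ (by positivity) p1
  have i2 : (c + hh a y)⁻¹ ≤ 2 / a := by rw [← inv_div]; exact inv_anti₀ (by positivity) p2
  have l1 : |hh a y - hh a x| ≤ |x - y| := by
    rcases le_total x y with h | h
    · rw [abs_of_nonneg (sub_nonneg.2 ((hh_mono ha).1 h)), abs_sub_comm, abs_of_nonneg (sub_nonneg.2 h)]
      exact (hh_mono ha).2 _ _ h
    · rw [abs_sub_comm, abs_of_nonneg (sub_nonneg.2 ((hh_mono ha).1 h)), abs_of_nonneg (sub_nonneg.2 h)]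
      exact (hh_mono ha).2 _ _ h
  have l2 : |hd a x - hd a y| ≤ 2 / a * |x - y| := by
    have e : hd a x - hd a y = ((max x 0 - max y 0) - (max (x - a) 0 - max (y - a) 0)) / a := by
      unfold hd; ring
    have b1 := abs_max_sub_max_le_abs x y 0
    have b2 := abs_max_sub_max_le_abs (x - a) (y - a) 0
    rw [sub_sub_sub_cancel_right] at b2
    rw [e, abs_div, abs_of_pos ha, div_mul_eq_mul_div]
    exact div_le_div_of_nonneg_right ((abs_sub _ _).trans (by linarith)) ha.le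
  have e : hd a x * (c + hh a x)⁻¹ - hd a y * (c + hh a y)⁻¹ = (hd a x - hd a y) * (c + hh a x)⁻¹ +
      hd a y * ((hh a y - hh a x) * ((c + hh a x)⁻¹ * (c + hh a y)⁻¹)) := by
    field_simp; ring
  rw [e]
  refine (abs_add_le _ _).trans ?_
  rw [abs_mul, abs_mul, abs_mul, abs_of_pos (inv_pos.2 q1), abs_of_nonneg (hd_mem ha y).1,
    abs_of_pos (mul_pos (inv_pos.2 q1) (inv_pos.2 q2))]
  have m1 := mul_le_mul l2 i1 (inv_pos.2 q1).le (by positivity)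
  have m2 := mul_le_mul l1 (mul_le_mul i1 i2 (inv_pos.2 q2).le (by positivity))
    (mul_pos (inv_pos.2 q1) (inv_pos.2 q2)).le (abs_nonneg _)
  have m3 := mul_le_of_le_one_left (mul_nonneg (abs_nonneg (hh a y - hh a x))
    (mul_pos (inv_pos.2 q1) (inv_pos.2 q2)).le) (hd_mem ha y).2
  refine (add_le_add m1 (m3.trans m2)).trans_eq ?_
  field_simp; ring

lemma d2_lip (ha : 0 < a) (x y : ℝ) : |d2 a x - d2 a y| ≤ 8 / a ^ 2 * |x - y| :=
  lip_inv ha zero_le_one x y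

lemma d1_lip (ha : 0 < a) (x y : ℝ) : |d1 a x - d1 a y| ≤ 16 / a ^ 2 * |x - y| := by
  have h1 := lip_inv ha le_rfl x y
  have h2 := lip_inv ha zero_le_one x y
  simp only [zero_add] at h1
  rw [d1, d1, sub_sub_sub_comm]
  exact (abs_sub _ _).trans ((add_le_add h1 h2).trans_eq (by ring))

/-- the gradient bound everywhere -/
lemma fr_d1_le (ha : 0 < a) (hX : X.IsHermitian) :
    ∑ i, ∑ j, cfc (d1 a) X i j ^ 2 ≤ Fintype.card ι * (4 / a ^ 2) := by
  rw [fr_cfc hX]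
  refine (sum_le_sum (g := fun _ => 4 / a ^ 2) fun k _ => ?_).trans_eq (by simp)
  have h1 : (hh a (lam X k))⁻¹ ≤ 2 / a := by
    rw [← inv_div]; exact inv_anti₀ (by positivity) (hh_ge ha _).1
  exact (pow_le_pow_left₀ (d1_mem ha _).1 ((d1_mem ha _).2.trans h1) 2).trans_eq (by ring)

lemma fr_d2_le (ha : 0 < a) (hX : X.IsHermitian) :
    ∑ i, ∑ j, cfc (d2 a) X i j ^ 2 ≤ Fintype.card ι := by
  rw [fr_cfc hX]
  exact (sum_le_sum (g := fun _ => 1) fun k _ =>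
    pow_le_one₀ (d2_mem ha _).1 (d2_mem ha _).2).trans_eq (by simp)

/-- the gradient bound on the good set: `X ≥ Y > 0` on a subspace of codimension `r` -/
lemma fr_d1_good (ha : 0 < a) (hX : X.IsHermitian) (hY : Y.IsHermitian)
    {S : Submodule ℝ (ι → ℝ)} {r : ℕ} (hS : Cod S r)
    (h : ∀ v ∈ S, v ⬝ᵥ Y *ᵥ v ≤ v ⬝ᵥ X *ᵥ v) (hp : ∀ k < Fintype.card ι, 0 < lam Y k) :
    ∑ i, ∑ j, cfc (d1 a) X i j ^ 2 ≤
      (cfc (fun x : ℝ => (x ^ 2)⁻¹) Y).trace + r * (4 / a ^ 2) := by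
  have h1 := il hY hX hS h (φ := fun x => -((hh a x)⁻¹ ^ 2)) (lo := -(4 / a ^ 2)) (hi := 0)
    (fun x y hxy => neg_le_neg (pow_le_pow_left₀ (inv_pos.2 (hh_pos ha y)).le
      (inv_anti₀ (hh_pos ha x) ((hh_mono ha).1 hxy)) 2))
    (fun x => neg_le_neg ((pow_le_pow_left₀ (inv_pos.2 (hh_pos ha x)).le (show _ ≤ 2 / a by
      rw [← inv_div]; exact inv_anti₀ (by positivity) (hh_ge ha _).1) 2).trans_eq (by ring)))
    fun x => neg_nonpos.2 (sq_nonneg _)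
  rw [trc hX, trc hY, sum_neg_distrib, sum_neg_distrib] at h1
  rw [fr_cfc hX, trc hY]
  have h2 := sum_le_sum (s := range (Fintype.card ι)) fun k _ =>
    pow_le_pow_left₀ (d1_mem ha (lam X k)).1 (d1_mem ha (lam X k)).2 2
  have h3 := sum_le_sum (s := range (Fintype.card ι)) fun k hk =>
    show (hh a (lam Y k))⁻¹ ^ 2 ≤ (lam Y k ^ 2)⁻¹ by
      rw [← inv_pow]
      exact pow_le_pow_left₀ (inv_pos.2 (hh_pos ha _)).le
        (inv_anti₀ (hp k (mem_range.1 hk)) (hh_ge ha _).2) 2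
  linarith

end Crest.Agent.T157.Ot
end
end

-- ▼ part T157/OtB_46
section

/-!
# Row 157, A2 section 3 (helper46): (T1), the determinant is constant on a good orbit up to `e^(2X)`
-/

set_option autoImplicit false
set_option linter.unusedSectionVars false

noncomputable section

namespace Crest.Agent.T157.Ot

open MeasureTheory Matrix Crest.Agent.Lib.OrthPoinc Filter Topology Set
open Crest.Agent.T157.Oc Crest.Agent.T157.E Crest.Agent.T157.SL Crest.Agent.T157.Ks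
open Crest.Agent.T157.Od Crest.Agent.T157.Oo
open Crest.Agent.T157.Orb (R2)
open Crest.Agent.T157.Eig (lam Cod herm_iff)

variable {n k : ℕ} {μ : Measure (Mat k)} [IsProbabilityMeasure μ]

/-- two-sided (HD) around an approximate median -/
theorem hd_two (hμ : SOInv μ) (hn : 2 < k) {F : Mat k → ℝ} {D : Fin k × Fin k → Mat k → ℝ}
    (hF : RD F D) {G : Set (Mat k)} (hGm : MeasurableSet G) {A M x : ℝ} (hA : 0 < A) (hx : 0 < x)
    (hM0 : 0 ≤ M) (hG : ∀ U ∈ SO k, U ∈ G → sqD D U ≤ A) (hM : ∀ U ∈ SO k, sqD D U ≤ M) :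
    ∃ c, μ.real {U | x + 1 ≤ |F U - c|} ≤
      2 * (Real.exp (-(((k : ℝ) - 2) * x ^ 2 / (36 * A))) + M / A * μ.real Gᶜ) := by
  obtain ⟨K, hK⟩ := isCompact_SO.exists_bound_of_continuousOn hF.c
  set S : Set ℝ := {s | μ.real {U | s < F U} ≤ 1 / 2} with hS
  have h1 : K ∈ S := by
    have : μ.real {U | K < F U} ≤ μ.real ∅ := real_mono_SO hμ fun U hU h =>
      absurd ((le_abs_self _).trans (hK U hU)) (not_le.2 h)
    exact this.trans (by simp)
  have h2 : BddBelow S := ⟨-K - 1, fun s hs => le_of_not_gt fun h => by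
    have : μ.real univ ≤ μ.real {U | s < F U} := real_mono_SO hμ fun U hU _ => by
      have := (abs_le.1 (hK U hU)).1
      show s < F U
      linarith
    rw [probReal_univ] at this
    linarith [show μ.real {U | s < F U} ≤ 1 / 2 from hs]⟩
  have h3 : μ.real {U | sInf S + 1 < F U} ≤ 1 / 2 := by
    obtain ⟨s, hs, h⟩ := exists_lt_of_csInf_lt ⟨K, h1⟩ (lt_add_one (sInf S))
    exact (measureReal_mono fun U (hU : sInf S + 1 < F U) => h.trans hU).trans hs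
  have h4 : μ.real {U | -sInf S + 1 < -1 * F U} ≤ 1 / 2 := by
    have a1 : 1 / 2 < μ.real {U | sInf S - 1 < F U} :=
      not_le.1 fun h => by linarith [csInf_le h2 (show sInf S - 1 ∈ S from h)]
    have a2 := probReal_compl_eq_one_sub₀ (μ := μ) (nullMeasurableSet_lt
      (aemeasurable_const (b := sInf S - 1)) (aesm_of hμ hF.c).aemeasurable)
    have a3 : μ.real {U | -sInf S + 1 < -1 * F U} ≤ μ.real {U | sInf S - 1 < F U}ᶜ :=
      measureReal_mono fun U (hU : -sInf S + 1 < -1 * F U) (h : sInf S - 1 < F U) => by linarith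
    linarith
  have e : ∀ U, sqD (fun a U => -1 * D a U) U = sqD D U := fun U => by simp [sqD]
  have b1 := hF.hd_med hμ hn hGm hA hx hM0 (fun U hU h _ _ => hG U hU h) (fun U hU _ _ => hM U hU) h3
  have b2 := (hF.const_mul (-1)).hd_med hμ hn hGm hA hx hM0
    (fun U hU h _ _ => (e U).trans_le (hG U hU h)) (fun U hU _ _ => (e U).trans_le (hM U hU)) h4
  refine ⟨sInf S, ((measureReal_mono fun U hU => ?_).trans (measureReal_union_le _ _)).trans
    ((add_le_add b1 b2).trans_eq (by ring))⟩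
  exact (le_abs.1 (show x + 1 ≤ |F U - sInf S| from hU)).imp
    (fun h => show sInf S + 1 + x ≤ F U by linarith)
    fun h => show -sInf S + 1 + x ≤ -1 * F U by linarith

lemma sqD_add_le (D D' : Fin k × Fin k → Mat k → ℝ) (U : Mat k) :
    sqD (fun a U => D a U + D' a U) U ≤ 2 * (sqD D U + sqD D' U) := by
  unfold sqD
  rw [← Finset.sum_add_distrib, Finset.mul_sum]
  exact Finset.sum_le_sum fun a _ => by nlinarith [sq_nonneg (D a U - D' a U)]

lemma quad_le_op {M : Mn n} {w : ℝ} (hw : 0 < w) (h : Op2 M (w ^ 2)) (v : Vn n) :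
    |v ⬝ᵥ M *ᵥ v| ≤ w * (v ⬝ᵥ v) := by
  have h1 := h v
  have h2 := Eig.dot_self_nonneg (w • v - M *ᵥ v)
  have h3 := Eig.dot_self_nonneg (w • v + M *ᵥ v)
  simp only [sub_dotProduct, dotProduct_sub, add_dotProduct, dotProduct_add, smul_dotProduct,
    dotProduct_smul, smul_eq_mul, dotProduct_comm (M *ᵥ v) v] at h2 h3
  exact abs_le.2 ⟨le_of_mul_le_mul_left (by nlinarith) hw, le_of_mul_le_mul_left (by nlinarith) hw⟩

variable {o : Orb n k} {B B' : Mn n} {a : ℝ}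

lemma op2_Wu (h : o.Ok) {b : ℝ} (hb : Op2 o.W b) {U : Mat k} (hU : U ∈ SO k) : Op2 (o.Wu U) b :=
  fun v => by
    rw [Orb.Wu, WU, ← mulVec_mulVec, ← mulVec_mulVec, Op2.orth (emb_orth' h.iso hU)]
    exact (hb _).trans_eq (by rw [Op2.orth (by rw [transpose_transpose]; exact emb_orth h.iso hU)])

lemma herm_AB (h : o.Ok) (hB : Bᵀ = B) (U : Mat k) : (o.A U + B).IsHermitian :=
  herm_iff.2 (by rw [transpose_add, Orb.A_symm h, hB])

/-- the gradient of `tr φ (A_U + B)` -/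
lemma grad_le (h : o.Ok) (hB : Bᵀ = B) {b : ℝ} (hb : Op2 B b ∨ Op2 o.W b) (φ' : ℝ → ℝ) {U : Mat k}
    (hU : U ∈ SO k) : sqD (fun a U => ipF (thU o.E a U)
      (B * cfc φ' (AU o.E o.W o.z U + B) - cfc φ' (AU o.E o.W o.z U + B) * B : Mn n)) U ≤
      16 * b * fr (cfc φ' (o.A U + B)) := by
  unfold sqD
  rcases hb with hb | hb
  · exact (Orb.fam h hU).T1 hB hb _
  · simp only [comm_T1 h.symm hB]
    exact (Orb.fam h hU).T1 (WU_symm h.symm U) (op2_Wu h hb hU) _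

lemma il_rank (ha : 0 < a) {X Y : Mn n} (hX : X.IsHermitian) (hY : Y.IsHermitian) {r : ℕ}
    (hr : (X - Y).rank ≤ r) :
    |(cfc (f1 a) X).trace - (cfc (f1 a) Y).trace| ≤ r * Real.log (1 + 2 / a) := by
  obtain ⟨S, hS, e⟩ := ker_eq hr
  have h1 := il hX hY hS (fun v hv => by rw [e v hv]) (f1_mono ha) (fun x => (f1_mem ha x).1)
    fun x => (f1_mem ha x).2
  have h2 := il hY hX hS (fun v hv => by rw [e v hv]) (f1_mono ha) (fun x => (f1_mem ha x).1)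
    fun x => (f1_mem ha x).2
  exact abs_le.2 ⟨by linarith, by linarith⟩

lemma lip_rank (ha : 0 < a) {X Y : Mn n} (hX : X.IsHermitian) (hY : Y.IsHermitian) {r : ℕ}
    (hr : (X - Y).rank ≤ r) {ρ : ℝ} (hρ : 0 ≤ ρ)
    (h : ∀ v, |v ⬝ᵥ X *ᵥ v - v ⬝ᵥ Y *ᵥ v| ≤ ρ * (v ⬝ᵥ v)) :
    |(cfc (f2 a) X).trace - (cfc (f2 a) Y).trace| ≤ r * ρ := by
  obtain ⟨S, hS, e⟩ := ker_eq hr
  have h1 := lip1 hX hY hS (fun v hv => by rw [e v hv]) hρ
    (fun v => by linarith [(abs_le.1 (h v)).2]) (f2_mono ha).1 (f2_mono ha).2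
  have h2 := lip1 hY hX hS (fun v hv => by rw [e v hv]) hρ
    (fun v => by linarith [(abs_le.1 (h v)).1]) (f2_mono ha).1 (f2_mono ha).2
  exact abs_le.2 ⟨by linarith, by linarith⟩

lemma lam_A (h : o.Ok) {U : Mat k} (hU : U ∈ SO k) (j : ℕ) :
    lam (o.A U) j = lam (o.z • (1 : Mn n) - o.W) j := by
  have h1 := Eig.lam_conj (A := o.z • (1 : Mn n) - o.W) (Q := (emb o.E U)ᵀ)
    (herm_iff.2 (by rw [transpose_sub, transpose_smul, transpose_one, h.symm]))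
    (by rw [transpose_transpose]; exact emb_orth h.iso hU) rfl j
  rw [Orb.A, AU_eq h.iso hU, ← h1, transpose_transpose]

/-- the good event of (T1): `A + B ≥ a` and `A + B' ≥ θ A` -/
def Qd (o : Orb n k) (B B' : Mn n) (a θ : ℝ) (U : Mat k) : Prop :=
  (∀ v, a * (v ⬝ᵥ v) ≤ v ⬝ᵥ (o.A U + B) *ᵥ v) ∧
    ∀ v, θ * (v ⬝ᵥ o.A U *ᵥ v) ≤ v ⬝ᵥ (o.A U + B') *ᵥ v

/-- the gradient constant of (T1) -/
def Aa (n : ℕ) (w b a θ T : ℝ) : ℝ := 32 * b * (T / θ ^ 2 + 16 / a ^ 2) + 32 * w ^ 2 * n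

/-- the radius of (T1) -/
def Xx (m : ℕ) (w a x : ℝ) : ℝ := x + 1 + (m + 4) * Real.log (1 + 2 / a) + 8 * w

/-- the functional that concentrates -/
def FF (o : Orb n k) (B B' : Mn n) (a : ℝ) (U : Mat k) : ℝ :=
  (cfc (f1 a) (o.A U + B')).trace + (cfc (f2 a) (o.A U + B)).trace

lemma exists_D (h : o.Ok) (hB : Bᵀ = B) (hB' : B'ᵀ = B') {w b : ℝ} (hW : Op2 o.W (w ^ 2))
    (b0 : 0 ≤ b) (hb : Op2 B' b ∨ Op2 o.W b) (ha : 0 < a) :
    ∃ D, RD (FF o B B' a) D ∧ ∀ U ∈ SO k, ∀ y, fr (cfc (d1 a) (o.A U + B')) ≤ y →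
      sqD D U ≤ 32 * b * y + 32 * w ^ 2 * n := by
  refine ⟨_, (rd_T1 (z := o.z) h.iso h.symm hB' (f1_deriv ha) (d1_lip ha)).add
    (rd_T1 (z := o.z) h.iso h.symm hB (f2_deriv ha) (d2_lip ha)), fun U hU y hy => ?_⟩
  have g1 := grad_le h hB' hb (d1 a) hU
  have g2 := grad_le h hB (Or.inr hW) (d2 a) hU
  have g3 : fr (cfc (d2 a) (o.A U + B)) ≤ n := by
    have := fr_d2_le ha (herm_AB h hB U)
    rwa [Fintype.card_fin] at this
  have g4 := mul_le_mul_of_nonneg_left hy b0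
  have g5 := mul_le_mul_of_nonneg_left g3 (sq_nonneg w)
  refine (sqD_add_le _ _ U).trans ((mul_le_mul_of_nonneg_left (add_le_add g1 g2) zero_le_two).trans ?_)
  linarith

lemma rk (h : o.Ok) (C : Mn n) (V : Mat k) {R : Mat k} (hR : R2 R) :
    (o.A (mm V R) + C - (o.A V + C)).rank ≤ 4 := by
  rw [add_sub_add_right_eq_sub]; exact Orb.rank_A41 h V hR

lemma good_fr (h : o.Ok) (hB' : B'ᵀ = B') (ha : 0 < a) {θ T : ℝ} (hθ : 0 < θ)
    (hp : ∀ j < n, 0 < lam (o.z • (1 : Mn n) - o.W) j)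
    (hT : ∑ j ∈ Finset.range n, (lam (o.z • (1 : Mn n) - o.W) j ^ 2)⁻¹ ≤ T) {V R : Mat k}
    (hV : V ∈ SO k) (hR : R2 R)
    (hq : ∀ v, θ * (v ⬝ᵥ o.A V *ᵥ v) ≤ v ⬝ᵥ (o.A V + B') *ᵥ v) :
    fr (cfc (d1 a) (o.A (mm V R) + B')) ≤ T / θ ^ 2 + 16 / a ^ 2 := by
  obtain ⟨S, hS, e⟩ := ker_eq (rk h B' V hR)
  have hY := Eig.herm_smul (herm_iff.2 (Orb.A_symm h V)) θ
  have el : ∀ j, lam (θ • o.A V) j = θ * lam (o.z • (1 : Mn n) - o.W) j := fun j => by
    rw [Eig.lam_smul (herm_iff.2 (Orb.A_symm h V)) hθ.le, lam_A h hV]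
  have h1 := fr_d1_good ha (herm_AB h hB' (mm V R)) hY hS (fun v hv => by
    rw [e v hv, smul_mulVec, dotProduct_smul]; exact hq v)
    fun j hj => by rw [el]; exact mul_pos hθ (hp j (by simpa using hj))
  rw [trc hY] at h1
  simp only [el, mul_pow, mul_inv, Fintype.card_fin, ← Finset.mul_sum] at h1
  have h2 := mul_le_mul_of_nonneg_left hT (inv_pos.2 (pow_pos hθ 2)).le
  refine h1.trans (add_le_add (h2.trans_eq (div_eq_inv_mul _ _).symm) (le_of_eq ?_))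
  push_cast; ring

lemma FF_move (h : o.Ok) (hB : Bᵀ = B) (hB' : B'ᵀ = B') (ha : 0 < a) {w : ℝ} (hw : 0 < w)
    (hW : Op2 o.W (w ^ 2)) {V R : Mat k} (hV : V ∈ SO k) (hR : R2 R) :
    |FF o B B' a (mm V R) - FF o B B' a V| ≤ 4 * Real.log (1 + 2 / a) + 8 * w := by
  have h1 := il_rank ha (herm_AB h hB' (mm V R)) (herm_AB h hB' V) (rk h B' V hR)
  have h2 := lip_rank ha (herm_AB h hB (mm V R)) (herm_AB h hB V) (rk h B V hR)
    (ρ := 2 * w) (by positivity) fun v => by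
      have q1 := abs_le.1 (quad_le_op hw (op2_Wu h hW hV) v)
      have q2 := abs_le.1 (quad_le_op hw (op2_Wu h hW (mm_mem hV hR.1)) v)
      simp only [AU, add_mulVec, sub_mulVec, dotProduct_add, dotProduct_sub]
      exact abs_le.2 ⟨by linarith [q1.1, q2.2], by linarith [q1.2, q2.1]⟩
  rw [FF, FF, add_sub_add_comm]
  refine (abs_add_le _ _).trans ((add_le_add h1 h2).trans_eq ?_)
  push_cast; ring

lemma det_FF (h : o.Ok) (hB : Bᵀ = B) (hB' : B'ᵀ = B') (ha : 0 < a) {m : ℕ}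
    (hr : (B - B').rank ≤ m) {U : Mat k} (hq : ∀ v, a * (v ⬝ᵥ v) ≤ v ⬝ᵥ (o.A U + B) *ᵥ v) :
    ∃ y, (o.A U + B).det = Real.exp y ∧ |y - FF o B B' a U| ≤ m * Real.log (1 + 2 / a) := by
  have hX := herm_AB h hB U
  have h2 := det_eq_exp hX (φ := fun y => f1 a y + f2 a y) fun j hj => exp_f ha
    (Eig.le_lam_of_cod hX hj (Eig.cod_top.mono (Nat.zero_le _)) fun v _ => hq v)
  rw [trc hX, Finset.sum_add_distrib, ← trc hX, ← trc hX] at h2
  refine ⟨_, h2, ?_⟩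
  rw [FF, add_sub_add_right_eq_sub]
  exact il_rank ha hX (herm_AB h hB' U) (by rw [add_sub_add_left_eq_sub]; exact hr)

/-- **(T1)** -/
theorem t1 (hμ : SOInv μ) (h : o.Ok) (hn : 0 < n) (hB : Bᵀ = B) (hB' : B'ᵀ = B') {m : ℕ}
    (hr : (B - B').rank ≤ m) {w b θ T x δ : ℝ} (hw : 0 < w) (hW : Op2 o.W (w ^ 2)) (b0 : 0 ≤ b)
    (bw : b ≤ w ^ 2) (hb : Op2 B' b ∨ Op2 o.W b) (ha : 0 < a) (hθ : 0 < θ)
    (hp : ∀ j < n, 0 < lam (o.z • (1 : Mn n) - o.W) j)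
    (hT : ∑ j ∈ Finset.range n, (lam (o.z • (1 : Mn n) - o.W) j ^ 2)⁻¹ ≤ T) (hx : 0 < x)
    (hQ : (o.P μ).real {U | ¬ Qd o B B' a θ U} ≤ δ) :
    ∃ k0 > (0 : ℝ), (o.P μ).real {U | ¬ (k0 ≤ (o.A U + B).det ∧
      (o.A U + B).det ≤ Real.exp (2 * Xx m w a x) * k0)} ≤
      2 * Real.exp (-(((k : ℝ) - 2) * x ^ 2 / (36 * Aa n w b a θ T))) + (3 + 8 / a ^ 2) * δ := by
  have hP := Orb.P_prob hμ h
  have T0 : 0 ≤ T := (Finset.sum_nonneg fun j _ => by positivity).trans hT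
  have n0 : (0 : ℝ) < n := by exact_mod_cast hn
  have hA : 0 < Aa n w b a θ T := by unfold Aa; positivity
  obtain ⟨D, rF, gF⟩ := exists_D h hB hB' hW b0 hb ha
  have hGm := meas_le41 rF.cD (continuousOn_const (c := Aa n w b a θ T))
  obtain ⟨c, hc⟩ := hd_two hμ h.two rF hGm (M := Aa n w b a θ T * (1 + 4 / a ^ 2)) hA hx
    (by positivity) (fun U _ hG => hG.2) fun U hU => by
      have h0 := fr_d1_le ha (herm_AB h hB' U)
      rw [Fintype.card_fin] at h0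
      refine (gF U hU _ h0).trans ?_
      have h1 : b * (n * (4 / a ^ 2)) ≤ w ^ 2 * (n * (4 / a ^ 2)) :=
        mul_le_mul_of_nonneg_right bw (by positivity)
      have h2 : 0 ≤ 32 * b * (T / θ ^ 2 + 16 / a ^ 2) * (1 + 4 / a ^ 2) := by positivity
      unfold Aa
      generalize 4 / a ^ 2 = q at *
      linarith
  have hG : μ.real {U | U ∈ SO k ∧ sqD D U ≤ Aa n w b a θ T}ᶜ ≤ δ :=
    (Orb.cpl' hμ h hGm.compl (T2 := {U | ¬ Qd o B B' a θ U}) fun V hV R hR hVR hq =>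
      hVR ⟨mm_mem hV hR.1, gF _ (mm_mem hV hR.1) _ (good_fr h hB' ha hθ hp hT hV hR hq.2)⟩).trans hQ
  have hT1 := meas_le41 (continuousOn_const (c := x + 1 + 4 * Real.log (1 + 2 / a) + 8 * w))
    (g := fun U => |FF o B B' a U - c|) (rF.c.sub (continuousOn_const (c := c))).abs
  have hc2 := (Orb.cpl hμ h hT1 (T2 := {U | x + 1 ≤ |FF o B B' a U - c|}) fun V hV R hR hVR => by
    have h3 : x + 1 + 4 * Real.log (1 + 2 / a) + 8 * w ≤ |FF o B B' a (mm V R) - c| := hVR.2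
    have h4 := abs_sub_le (FF o B B' a (mm V R)) (FF o B B' a V) c
    have h5 := FF_move h hB hB' ha hw hW hV hR
    show x + 1 ≤ |FF o B B' a V - c|
    linarith).trans hc
  refine ⟨Real.exp (c - Xx m w a x), Real.exp_pos _, ?_⟩
  have key : (o.P μ).real {U | ¬ (Real.exp (c - Xx m w a x) ≤ (o.A U + B).det ∧
      (o.A U + B).det ≤ Real.exp (2 * Xx m w a x) * Real.exp (c - Xx m w a x))} ≤
      (o.P μ).real ({U | U ∈ SO k ∧ x + 1 + 4 * Real.log (1 + 2 / a) + 8 * w ≤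
        |FF o B B' a U - c|} ∪ {U | ¬ Qd o B B' a θ U}) := by
    refine ENNReal.toReal_mono (measure_ne_top _ _) (measure_mono_ae ?_)
    filter_upwards [Orb.P_mem (o := o) hμ] with U hU hb
    by_contra hh
    have h1 : |FF o B B' a U - c| < x + 1 + 4 * Real.log (1 + 2 / a) + 8 * w :=
      not_le.1 fun h' => hh (Or.inl ⟨hU, h'⟩)
    have h2 : Qd o B B' a θ U := not_not.1 fun h' => hh (Or.inr h')
    obtain ⟨y, e, hy⟩ := det_FF h hB hB' ha hr h2.1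
    obtain ⟨h3, h4⟩ := abs_lt.1 h1
    obtain ⟨h5, h6⟩ := abs_le.1 hy
    refine hb ⟨?_, ?_⟩
    · rw [e]; refine Real.exp_le_exp.2 ?_
      unfold Xx; linarith
    · rw [e, ← Real.exp_add]; refine Real.exp_le_exp.2 ?_
      unfold Xx; linarith
  have e1 : Aa n w b a θ T * (1 + 4 / a ^ 2) / Aa n w b a θ T = 1 + 4 / a ^ 2 :=
    mul_div_cancel_left₀ _ hA.ne'
  rw [e1] at hc2
  have e2 := mul_le_mul_of_nonneg_left hG (show 0 ≤ 1 + 4 / a ^ 2 by positivity)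
  refine key.trans ((measureReal_union_le _ _).trans ((add_le_add hc2 hQ).trans ?_))
  linarith [show (3 + 8 / a ^ 2) * δ = 2 * ((1 + 4 / a ^ 2) * δ) + δ by ring]



end Crest.Agent.T157.Ot
end
end

-- ▼ part T157/OtX_41
section

set_option autoImplicit false
set_option linter.unusedSectionVars false

/-!
Row 157, A2 section 3 (helper41): (T1) in the words of the orbit hypothesis.
-/

noncomputable section

namespace Crest.Agent.T157.Kp

open MeasureTheory Matrix Set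
open Crest.Agent.Lib.OrthPoinc Crest.Agent.T157.E Crest.Agent.T157.Tap
open Crest.Agent.T157.Qe (Le qf_add qf_sub qf_smul qf_one qf_vmv qf_conj)
open Crest.Agent.T157.Od (Op2 AU_eq emb_orth')
open Crest.Agent.T157.Dq (Dg)
open Crest.Agent.T157.Oc (SO emb emb_orth)
open W41

variable {n k : ℕ} {o : Oo.Orb n k} {μ : Measure (Mat k)} [IsProbabilityMeasure μ] {x : V n}

theorem T1out.mono (hμ : SOInv μ) (ho : o.Ok) {De De' η η' : ℝ} (h : T1out o μ x De η)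
    (hD : De ≤ De') (hη : η ≤ η') : T1out o μ x De' η' := by
  obtain ⟨k0, h0, h1⟩ := h
  have := Oo.Orb.P_prob hμ ho
  refine ⟨k0, h0, le_trans (measureReal_mono ?_) (h1.trans hη)⟩
  exact fun U hU hh => hU ⟨hh.1, hh.2.trans (mul_le_mul_of_nonneg_right hD h0.le)⟩

namespace W41

lemma num_A {N C l q b : ℝ} (hC : 1 ≤ C) (hl : 1 ≤ l) (q0 : 0 < q) (q3 : 1 ≤ N * q ^ 3)
    (b1 : b ≤ 32 * l * q) :
    32 * b * (C * N / q / (1 / 5) ^ 2 + 16 / (q ^ 2 / 10) ^ 2) + 32 * 4 ^ 2 * N ≤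
      1700000 * (C * l * N) := by
  have N0 : 0 < N := by
    by_contra h
    nlinarith [pow_pos q0 3, not_lt.1 h]
  have h1 : 16 / (q ^ 2 / 10) ^ 2 ≤ 1600 * (C * N) / q := by
    rw [div_le_div_iff₀ (by positivity) q0]
    have : q ≤ C * N * q ^ 4 := by
      calc q ≤ N * q ^ 3 * q := le_mul_of_one_le_left q0.le q3
        _ ≤ C * (N * q ^ 3 * q) := le_mul_of_one_le_left (by positivity) hC
        _ = _ := by ring
    nlinarith
  have h2 : C * N / q / (1 / 5) ^ 2 + 16 / (q ^ 2 / 10) ^ 2 ≤ 1625 * (C * N) / q := by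
    have : C * N / q / (1 / 5) ^ 2 = 25 * (C * N) / q := by ring
    have e : 1625 * (C * N) / q = 25 * (C * N) / q + 1600 * (C * N) / q := by ring
    linarith
  have h3 := mul_le_mul b1 h2 (by positivity) (by positivity)
  have e : 32 * l * q * (1625 * (C * N) / q) = 52000 * (C * l * N) := by field_simp; ring
  have h4 : N ≤ C * l * N := le_mul_of_one_le_left N0.le (one_le_mul_of_one_le_of_one_le hC hl)
  linarith

lemma inv_q {N q : ℝ} (q0 : 0 < q) (q1 : q ≤ 1) (q3 : 1 ≤ N * q ^ 3) {j : ℕ} (hj : j ≤ 3) :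
    1 / q ^ j ≤ N := by
  have N0 : 0 < N := by
    by_contra h
    nlinarith [pow_pos q0 3, not_lt.1 h]
  rw [div_le_iff₀ (by positivity)]
  exact q3.trans (mul_le_mul_of_nonneg_left (pow_le_pow_of_le_one q0.le q1 hj) N0.le)

lemma num_P {N q H A y : ℝ} (hN : 805 ≤ N) (q0 : 0 < q) (q1 : q ≤ 1) (q3 : 1 ≤ N * q ^ 3)
    (hH : 3 * Real.log N ≤ H) (H0 : 0 ≤ H) (A0 : 0 < A) (y0 : 0 < y) (hA : A ≤ 1700000 * (y * N)) :
    2 * Real.exp (-((N - 2 - 2) * (25000 * √(y * H)) ^ 2 / (36 * A))) +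
      (3 + 8 / (q ^ 2 / 10) ^ 2) * Real.exp (-(5 * H)) ≤ Real.exp (-(4 * H)) := by
  have h1 : 5 * H ≤ (N - 2 - 2) * (25000 * √(y * H)) ^ 2 / (36 * A) := by
    rw [le_div_iff₀ (by positivity), mul_pow, Real.sq_sqrt (by positivity)]
    have a1 := mul_le_mul_of_nonneg_left hA H0
    have a2 : 0 ≤ (N - 805) * (y * H) := mul_nonneg (by linarith) (by positivity)
    have a3 : 0 ≤ y * H := by positivity
    nlinarith
  have h2 := Real.exp_le_exp.2 (neg_le_neg h1)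
  have h3 : 8 / (q ^ 2 / 10) ^ 2 ≤ 800 * N ^ 2 := by
    have a1 := inv_q q0 q1 q3 (j := 2) (by norm_num)
    have a2 := pow_le_pow_left₀ (by positivity) a1 2
    have e : 8 / (q ^ 2 / 10) ^ 2 = 800 * (1 / q ^ 2) ^ 2 := by field_simp; norm_num
    linarith
  have h4 : N ^ 3 ≤ Real.exp H := by
    rw [← Real.exp_log (show 0 < N ^ 3 by positivity), Real.log_pow]
    exact Real.exp_le_exp.2 (by push_cast; linarith)
  have h5 : Real.exp (-(4 * H)) = Real.exp H * Real.exp (-(5 * H)) := by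
    rw [← Real.exp_add]; ring_nf
  have h6 : 5 + 800 * N ^ 2 ≤ N ^ 3 := by nlinarith [mul_nonneg (show 0 ≤ N - 805 by linarith) (sq_nonneg N)]
  have h7 := Real.exp_pos (-(5 * H))
  rw [h5]
  nlinarith

lemma num_X {N q y : ℝ} (hN : 805 ≤ N) (q0 : 0 < q) (q1 : q ≤ 1) (q3 : 1 ≤ N * q ^ 3) (m : ℕ) :
    2 * Ot.Xx m 4 (q ^ 2 / 10) (25000 * y) ≤ 50000 * y + (4 * m + 82) * Real.log N := by
  have h1 : 1 ≤ Real.log N := by
    rw [Real.le_log_iff_exp_le (by linarith)]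
    linarith [Real.exp_one_lt_d9]
  have h2 : Real.log (1 + 2 / (q ^ 2 / 10)) ≤ 2 * Real.log N := by
    have a1 := inv_q q0 q1 q3 (j := 2) (by norm_num)
    have e : 2 / (q ^ 2 / 10) = 20 * (1 / q ^ 2) := by field_simp; norm_num
    have a2 : 1 + 2 / (q ^ 2 / 10) ≤ N ^ 2 := by rw [e]; nlinarith
    have a3 := Real.log_le_log (by positivity) a2
    rwa [Real.log_pow, Nat.cast_ofNat] at a3
  have h3 := mul_le_mul_of_nonneg_left h2 (show (0 : ℝ) ≤ m + 4 by positivity)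
  unfold Ot.Xx
  linarith

lemma eA (h : At o x) (n0 : 0 < n) (S : Finset (Fin n)) (U : Mat k) :
    o.A U + Bs S x = Kb.AT S x (o.Wu U) := by
  rw [← AT_eq n0, ← h.z, Oo.Orb.A, Od.AU]

lemma spec (h : At o x) (n0 : 0 < n) {C : ℝ} (q0 : 0 < aS x) (q1 : aS x ≤ 1 / 2)
    (hW : Sp1 C (aS x) o.W) :
    (∀ v : V n, aS x ^ 2 / 2 * (v ⬝ᵥ v) ≤ v ⬝ᵥ (o.z • (1 : Mx n) - o.W) *ᵥ v) ∧ Op2 o.W (4 ^ 2) ∧
    (∀ j < n, 0 < Eig.lam (o.z • (1 : Mx n) - o.W) j) ∧
    ∑ j ∈ Finset.range n, (Eig.lam (o.z • (1 : Mx n) - o.W) j ^ 2)⁻¹ ≤ C * n / aS x := by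
  obtain ⟨a, hd, ha, hs⟩ := hW
  have hz : o.z = 1 - aS x + 1 / (1 - aS x) := by rw [h.z, chi_eq n0]
  have hz2 : 2 + aS x ^ 2 ≤ o.z := by
    have h1 : 1 + aS x + aS x ^ 2 ≤ 1 / (1 - aS x) := by
      rw [le_div_iff₀ (by linarith)]; nlinarith [pow_pos q0 3]
    linarith
  have dA : Dg (o.z • (1 : Mx n) - o.W) fun i => o.z - a i := by
    have h1 := Qe.dg_affine hd (-1) o.z
    rw [neg_one_smul, neg_add_eq_sub] at h1
    simpa only [neg_one_mul, neg_add_eq_sub] using h1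
  have lA : ∀ v : V n, aS x ^ 2 / 2 * (v ⬝ᵥ v) ≤ v ⬝ᵥ (o.z • (1 : Mx n) - o.W) *ᵥ v := fun v => by
    have h1 := Qe.dg_ge dA (c := aS x ^ 2 / 2) (fun i => by linarith [(ha i).2]) v
    rwa [qf_smul, qf_one] at h1
  have hA : (o.z • (1 : Mx n) - o.W).IsHermitian :=
    Eig.herm_iff.2 (by rw [transpose_sub, transpose_smul, transpose_one, h.ok.symm])
  refine ⟨lA, op2_dg hd fun i => abs_le.2 ⟨(ha i).1, by nlinarith [(ha i).2]⟩, fun j hj =>
    lt_of_lt_of_le (by positivity) (Eig.le_lam_of_cod hA (by simpa using hj)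
      (Eig.cod_top.mono (Nat.zero_le _)) fun v _ => lA v), ?_⟩
  rw [sum_lam dA fun y => (y ^ 2)⁻¹, hz]
  exact hs

lemma qd (h : At o x) (n0 : 0 < n) {c : ℝ}
    (lA : ∀ v : V n, c * (v ⬝ᵥ v) ≤ v ⬝ᵥ (o.z • (1 : Mx n) - o.W) *ᵥ v) {S : Finset (Fin n)}
    {U : Mat k} (hU : U ∈ SO k) (h2 : P5 S x (o.Wu U)) :
    Ot.Qd o (Bs ∅ x) (Bs S x) (c / 5) (1 / 5) U := by
  have hz : o.z = 1 - aS x + 1 / (1 - aS x) := by rw [h.z, chi_eq n0]
  have h3 : ∀ v, 1 / 5 * (v ⬝ᵥ o.A U *ᵥ v) ≤ v ⬝ᵥ (o.A U + Bs S x) *ᵥ v := fun v => by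
    have h4 := h2 v
    rwa [qf_smul, ← hz, ← eA h n0] at h4
  refine ⟨fun v => ?_, h3⟩
  have h4 := h3 v
  have h5 := Bs_le S x v
  have h6 := lA ((emb o.E U)ᵀ *ᵥ v)
  rw [← qf_conj, transpose_transpose, ← AU_eq h.ok.iso hU,
    Op2.orth (by rw [transpose_transpose]; exact emb_orth h.ok.iso hU)] at h6
  rw [qf_add] at h4 ⊢
  linarith

lemma ex_b (n0 : 0 < n) {l : ℝ} (hl : 1 ≤ l) (q0 : 0 < aS x) {W : Mx n} (w4 : Op2 W (4 ^ 2)) :
    ∃ b : ℝ, 0 ≤ b ∧ b ≤ 4 ^ 2 ∧ (Op2 (Bs (Sl l x) x) b ∨ Op2 W b) ∧ b ≤ 32 * l * aS x := by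
  have h1 : 0 < l * aS x := by positivity
  rcases le_total (l * aS x) (1 / 2) with hθ | hθ
  · exact ⟨_, by positivity, by nlinarith, Or.inl (op2_Bs n0 q0.le hl hθ), by nlinarith⟩
  · exact ⟨_, by positivity, le_rfl, Or.inr w4, by nlinarith⟩

end W41

/-- **(T1)** in the words of the orbit hypothesis -/
theorem t1out (hμ : SOInv μ) (h : At o x) {C l H : ℝ} (hn : 805 ≤ n) (hC : 1 ≤ C) (hl : 1 ≤ l)
    (q0 : 0 < aS x) (q1 : aS x ≤ 1 / 2) (q3 : 1 ≤ n * aS x ^ 3) (hW : Sp1 C (aS x) o.W)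
    (hH : 3 * Real.log n ≤ H)
    (hP : (o.P μ).real {U | ¬ P5 (Sl l x) x (o.Wu U)} ≤ Real.exp (-(5 * H))) :
    T1out o μ x (Real.exp (50000 * √(C * l * H) + (4 * (Sl l x).card + 82) * Real.log n))
      (Real.exp (-(4 * H))) := by
  have n0 : 0 < n := by omega
  have nR : (805 : ℝ) ≤ n := by exact_mod_cast hn
  have hPp := Oo.Orb.P_prob hμ h.ok
  have H0 : 0 < H := by
    have := Real.log_pos (show (1 : ℝ) < n by linarith)
    linarith
  obtain ⟨lA, w4, hp, hT⟩ := spec h n0 q0 q1 hW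
  obtain ⟨b, b0, bw, hb, bq⟩ := ex_b n0 hl q0 w4
  have hQ : (o.P μ).real {U | ¬ Ot.Qd o (Bs ∅ x) (Bs (Sl l x) x) (aS x ^ 2 / 10) (1 / 5) U} ≤
      Real.exp (-(5 * H)) := by
    refine le_trans (ENNReal.toReal_mono (measure_ne_top _ _) (measure_mono_ae ?_)) hP
    filter_upwards [Oo.Orb.P_mem (o := o) hμ] with U hU h1 h2
    have h3 := qd h n0 lA hU h2
    rw [show aS x ^ 2 / 2 / 5 = aS x ^ 2 / 10 by ring] at h3
    exact h1 h3
  have y0 : 0 < C * l := by positivity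
  have x0 : 0 < 25000 * √(C * l * H) := by positivity
  have a0 : 0 < aS x ^ 2 / 10 := by positivity
  obtain ⟨k0, hk, h1⟩ := Ot.t1 hμ h.ok n0 (Bs_symm ∅ x) (Bs_symm (Sl l x) x) (rank_B (Sl l x) x)
    four_pos w4 b0 bw hb a0 (by norm_num) hp hT x0 hQ
  have hD : 0 < ∏ i, DD (th x) i := Finset.prod_pos fun i _ => DD_pos x i
  have ek : (k : ℝ) = n - 2 := by rw [← h.dim]; push_cast; ring
  have q1' : aS x ≤ 1 := by linarith
  have A0 : 0 < Ot.Aa n 4 b (aS x ^ 2 / 10) (1 / 5) (C * n / aS x) := by unfold Ot.Aa; positivity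
  have h4 := num_P nR q0 q1' q3 hH H0.le A0 y0 (num_A hC hl q0 q3 bq)
  have h5 := Real.exp_le_exp.2 (num_X (y := √(C * l * H)) nR q0 q1' q3 (Sl l x).card)
  rw [ek] at h1
  refine ⟨k0 * ∏ i, DD (th x) i, mul_pos hk hD, le_trans (measureReal_mono ?_) (h1.trans h4)⟩
  intro U h2 h3
  refine h2 ?_
  rw [dt_eq n0, ← eA h n0, abs_of_pos (mul_pos (hk.trans_le h3.1) hD), ← mul_assoc]
  exact ⟨mul_le_mul_of_nonneg_right h3.1 hD.le, mul_le_mul_of_nonneg_right (h3.2.trans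
    (mul_le_mul_of_nonneg_right h5 hk.le)) hD.le⟩

end Crest.Agent.T157.Kp
end
end

-- ▼ part T157/OtY_41

set_option autoImplicit false
set_option linter.unusedSectionVars false

/-!
Row 157, A2 section 3 (helper41): the (T1) half of the orbit hypothesis, in the words of `O0Def_21`.
-/

noncomputable section

namespace Crest.Agent.T157.O0

open MeasureTheory Matrix Set Filter Topology
open Crest.Agent.Lib.OrthPoinc Crest.Agent.T157.E Crest.Agent.T157.Tap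
open Crest.Agent.T157.Kp (At anE T1out Sl P5 Sp1)
open Crest.Agent.T157.Qe (zz)
open Crest.Agent.T157.Oc (SO emb emb_orth)

namespace Y41

variable {n : ℕ}

theorem WW_conj {t e κ : ℝ} {W O : Mx n} (hO : O * Oᵀ = 1) (h : Cw.WW t e κ W) :
    Cw.WW t e κ (O * W * Oᵀ) := by
  obtain ⟨a, ⟨Q, hQ, rfl⟩, h2⟩ := h
  refine ⟨a, ⟨O * Q, ?_, ?_⟩, h2⟩
  · rw [transpose_mul, Matrix.mul_assoc, ← Matrix.mul_assoc Q, hQ, Matrix.one_mul, hO]
  · simp only [transpose_mul, Matrix.mul_assoc]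

lemma zz_eq {r : ℝ} (h : r < 1) : zz (1 - r) = 2 + r ^ 2 / (1 - r) := by
  have : 1 - r ≠ 0 := by linarith
  rw [zz]; field_simp; ring

/-- the second resolvent trace from two first ones -/
theorem sp1_of_WW {t e κ C q : ℝ} {W : Mx n} (h : Cw.WW t e κ W) (q0 : 0 < q) (q1 : q ≤ 1 / 2)
    (ht : t ≤ C * q ^ 2) (e0 : 0 ≤ e) (hC : 1 ≤ C) (he : e * C ≤ 1 / 8) :
    Sp1 2 q W := by
  obtain ⟨a, hd, ha, hr⟩ := h
  have q2 : 0 < q ^ 2 := by positivity
  have et : e * t ≤ q ^ 2 / 8 := by nlinarith [mul_le_mul_of_nonneg_left ht e0]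
  have z1 := zz_eq (r := q) (by linarith)
  have z2 := zz_eq (r := q / 2) (by linarith)
  have a1 : q ^ 2 ≤ q ^ 2 / (1 - q) := le_div_self q2.le (by linarith) (by linarith)
  have a2 : q ^ 2 / (1 - q) ≤ 2 * q ^ 2 := by rw [div_le_iff₀ (by linarith)]; nlinarith
  have a3 : q ^ 2 / 4 ≤ (q / 2) ^ 2 / (1 - q / 2) := by
    rw [le_div_iff₀ (by linarith)]; nlinarith [pow_pos q0 3]
  have a4 : (q / 2) ^ 2 / (1 - q / 2) ≤ q ^ 2 / 3 := by
    rw [div_le_iff₀ (by linarith)]; nlinarith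
  have key : ∀ r ∈ Icc (q / 2) q, q ^ 2 / 4 ≤ zz (1 - r) - 2 → zz (1 - r) - 2 ≤ 2 * q ^ 2 →
      |∑ i, (zz (1 - r) - a i)⁻¹ - n * (1 - r)| ≤ n * q / 4 := fun r h1 h2 h3 => by
    refine ((hr (1 - r) ⟨by linarith [h1.2], by linarith [h1.1]⟩ (by linarith)).1.trans
      (min_le_left _ _)).trans ?_
    have h4 : √(max (zz (1 - r) - 2) t) ≤ 2 * C * q := by
      refine Real.sqrt_le_iff.2 ⟨by positivity, max_le ?_ ?_⟩ <;>
        nlinarith [mul_le_mul_of_nonneg_right hC q2.le,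
          mul_le_mul_of_nonneg_right hC (show 0 ≤ C * q ^ 2 by positivity)]
    calc _ ≤ e * n * (2 * C * q) := mul_le_mul_of_nonneg_left h4 (by positivity)
      _ = 2 * (e * C) * (n * q) := by ring
      _ ≤ 2 * (1 / 8) * (n * q) := by gcongr
      _ = _ := by ring
  have k1 := abs_le.1 (key q ⟨by linarith, le_rfl⟩ (by linarith) (by linarith))
  have k2 := abs_le.1 (key (q / 2) ⟨le_rfl, by linarith⟩ (by linarith) (by linarith))
  refine ⟨a, hd, fun i => ⟨by linarith [(ha i).1], by linarith [(ha i).2]⟩, ?_⟩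
  have k3 : 2 / 3 * q ^ 2 * ∑ i, ((zz (1 - q) - a i) ^ 2)⁻¹ ≤
      ∑ i, (zz (1 - q / 2) - a i)⁻¹ - ∑ i, (zz (1 - q) - a i)⁻¹ := by
    rw [Finset.mul_sum, ← Finset.sum_sub_distrib]
    refine Finset.sum_le_sum fun i _ => ?_
    have b1 : 0 < zz (1 - q / 2) - a i := by linarith [(ha i).2]
    have b2 : 2 / 3 * q ^ 2 ≤ zz (1 - q) - a i - (zz (1 - q / 2) - a i) := by linarith
    generalize zz (1 - q / 2) - a i = u at *
    generalize zz (1 - q) - a i = v at *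
    have b3 : u ≤ v := by linarith
    have b4 : 0 < v := by linarith
    rw [inv_sub_inv b1.ne' b4.ne', ← div_eq_mul_inv]
    exact div_le_div₀ (by linarith) b2 (by positivity) (by nlinarith)
  change ∑ i, ((zz (1 - q) - a i) ^ 2)⁻¹ ≤ _
  rw [le_div_iff₀ q0]
  refine le_of_mul_le_mul_left ?_ q0
  have n0 : (0 : ℝ) ≤ n * q := by positivity
  nlinarith

lemma ev_log (K d : ℝ) : ∀ᶠ n : ℕ in atTop, 0 < d →
    805 ≤ n ∧ 1 ≤ Real.log n ∧ K * Real.log n ^ 4 ≤ (n : ℝ) ^ d := by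
  by_cases hd : 0 < d
  swap
  · exact Eventually.of_forall fun _ h => absurd h hd
  have h1 := ((isLittleO_log_rpow_rpow_atTop (4 : ℝ) hd).const_mul_left K).bound one_pos
  filter_upwards [eventually_ge_atTop 805, tendsto_natCast_atTop_atTop.eventually h1] with n h2 h3 _
  have h4 : (805 : ℝ) ≤ n := by exact_mod_cast h2
  refine ⟨h2, ?_, ?_⟩
  · rw [Real.le_log_iff_exp_le (by linarith)]
    linarith [Real.exp_one_lt_d9]
  · rw [one_mul, Real.norm_of_nonneg (show (0 : ℝ) ≤ (n : ℝ) ^ d by positivity),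
      Real.rpow_ofNat] at h3
    exact (le_abs_self _).trans h3

lemma num {θ H l m Cn g : ℝ} (θ0 : 0 < θ) (θ1 : θ ≤ 1) (g1 : 1 ≤ g) (l0 : 0 ≤ l) (hl : l ≤ g ^ 4)
    (hH : 4 * 10 ^ 11 / θ ^ 2 * g ^ 4 ≤ H) (hC : 32 / θ ≤ Cn) (m0 : 0 ≤ m) (hm : Cn * (m * g) ≤ H) :
    3 * g ≤ H ∧ 50000 * √(2 * l * H) + (4 * m + 82) * g ≤ θ * H / 2 := by
  have g4 : g ≤ g ^ 4 := le_self_pow₀ g1 (by norm_num)
  rw [div_mul_eq_mul_div, div_le_iff₀ (by positivity)] at hH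
  have H0 : 0 ≤ H := le_of_mul_le_mul_right (by linarith) (pow_pos θ0 2)
  have h1 : H * θ ^ 2 ≤ θ * H := by nlinarith [mul_nonneg H0 θ0.le]
  have h2 : θ * H ≤ H := mul_le_of_le_one_left H0 θ1
  have h3 : √(2 * l * H) ≤ θ * H / 400000 := by
    refine Real.sqrt_le_iff.2 ⟨by positivity, ?_⟩
    have a1 : 2 * l * H ≤ 2 * g ^ 4 * H := by gcongr
    nlinarith [mul_le_mul_of_nonneg_right hH H0, mul_nonneg (pow_nonneg (by linarith : 0 ≤ g) 4) H0]
  have h4 : 32 * (m * g) ≤ θ * H := by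
    rw [div_le_iff₀ θ0] at hC
    nlinarith [mul_le_mul_of_nonneg_left hm θ0.le,
      mul_le_mul_of_nonneg_right hC (show 0 ≤ m * g by positivity)]
  constructor <;> linarith

lemma q3 {N d C t q : ℝ} (N0 : 0 < N) (q0 : 0 < q) (C0 : 0 < C) (hC : C ≤ N ^ d)
    (h1 : N ^ d / N ^ (2 / 3 : ℝ) ≤ t) (h2 : t ≤ C * q ^ 2) : 1 ≤ N * q ^ 3 := by
  have r0 : 0 < N ^ (2 / 3 : ℝ) := by positivity
  have e : (N ^ (2 / 3 : ℝ)) ^ 3 = N ^ 2 := by
    rw [← Real.rpow_natCast, ← Real.rpow_mul N0.le]; norm_num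
  have h3 : 1 ≤ N ^ (2 / 3 : ℝ) * q ^ 2 := by
    rw [div_le_iff₀ r0] at h1
    refine le_of_mul_le_mul_left ?_ C0
    nlinarith [mul_le_mul_of_nonneg_right h2 r0.le]
  have h4 := one_le_pow₀ (n := 3) h3
  rw [mul_pow, e] at h4
  exact (pow_le_pow_iff_left₀ zero_le_one (by positivity) two_ne_zero).1 (by nlinarith)

end Y41

open Y41

/-- **both levels are at least `n ^ d`** -/
theorem lev_ge : ∀ᶠ p in FF, ∀ t, p.lo ≤ t →
    (p.n : ℝ) ^ p.d ≤ p.Hc t ∧ ∀ e, p.Er e t → (p.n : ℝ) ^ p.d ≤ p.Hs e t := by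
  filter_upwards [ev_ok, ev_n (Q := fun p => 0 < p.d → 805 ≤ p.n ∧ 1 ≤ Real.log p.n ∧
    1 / p.ef * Real.log p.n ^ 4 ≤ (p.n : ℝ) ^ p.d) fun q => ev_log (1 / q.ef) q.d] with p ok hn t ht
  obtain ⟨n1, g1, h1⟩ := hn ok.d.1
  have N1 : (1 : ℝ) ≤ p.n := by exact_mod_cast (by omega : 1 ≤ p.n)
  have N0 : (0 : ℝ) < p.n := by linarith
  have l0 : 0 < p.lo := by unfold Pm.lo; positivity
  have d0 := ok.d.1
  have hM : (p.n : ℝ) ^ (3 / 2 * p.d) ≤ p.M t := by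
    have a1 : p.lo ^ (3 / 2 : ℝ) ≤ t ^ (3 / 2 : ℝ) := Real.rpow_le_rpow l0.le ht (by norm_num)
    have a2 : (p.n : ℝ) ^ (3 / 2 * p.d) = p.n * p.lo ^ (3 / 2 : ℝ) := by
      rw [Pm.lo, ← Real.rpow_sub N0, ← Real.rpow_mul N0.le, ← Real.rpow_one_add' N0.le (by linarith)]
      congr 1; ring
    rw [a2]
    exact mul_le_mul_of_nonneg_left a1 N0.le
  have hd1 : (p.n : ℝ) ^ p.d ≤ (p.n : ℝ) ^ (3 / 2 * p.d) :=
    Real.rpow_le_rpow_of_exponent_le N1 (by linarith)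
  have hf : (p.n : ℝ) ^ p.d ≤ p.ef * p.n * (1 + t) := by
    have a1 : (p.n : ℝ) ^ p.d * (p.n : ℝ) ^ p.d ≤ p.n := by
      rw [← Real.rpow_add N0]
      exact (Real.rpow_le_rpow_of_exponent_le N1 (by linarith [ok.d.2, ok.ch.2])).trans_eq
        (Real.rpow_one _)
    have a2 : 1 ≤ p.ef * (p.n : ℝ) ^ p.d := by
      rw [← div_le_iff₀' ok.ef]
      exact (le_mul_of_one_le_right (one_div_pos.2 ok.ef).le (one_le_pow₀ g1)).trans h1
    have a3 : 0 < (p.n : ℝ) ^ p.d := by positivity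
    have a4 : p.ef * p.n ≤ p.ef * p.n * (1 + t) :=
      le_mul_of_one_le_right (mul_pos ok.ef N0).le (by linarith)
    nlinarith [mul_le_mul_of_nonneg_left a1 ok.ef.le, mul_le_mul_of_nonneg_right a2 a3.le]
  have M0 : 0 ≤ p.M t := le_trans (by positivity) hM
  refine ⟨le_min ((hd1.trans hM).trans (le_mul_of_one_le_left M0 (by linarith [ok.L]))) hf,
    fun e he => le_min ?_ hf⟩
  have a1 : (p.n : ℝ) ^ (-(p.d / 2)) ≤ e ^ p.A := by
    refine le_trans ?_ (pow_le_pow_left₀ (by positivity) he.2.2.2 _)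
    rw [← Real.rpow_natCast, ← Real.rpow_mul N0.le]
    refine Real.rpow_le_rpow_of_exponent_le N1 ?_
    linarith [ok.cv', ok.k3.2, ok.k2.2, ok.k4.2]
  refine le_trans ?_ (mul_le_mul a1 hM (by positivity) (pow_pos he.1 _).le)
  rw [← Real.rpow_add N0]
  exact Real.rpow_le_rpow_of_exponent_le N1 (by linarith)

/-- the first-moment inputs of (T1) -/
structure G3 (p : Pm) (t H l : ℝ) (x : V p.n) (W : Mx p.n) : Prop where
  q0 : 0 < aS x
  q1 : aS x ≤ 1 / 2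
  qt : t ≤ p.C * aS x ^ 2
  cnt : p.Cn * ((Sl l x).card * Real.log p.n) ≤ H
  pos : P5 (Sl l x) x W

/-- **the (T1) half of `OrbC` and `OrbS`** -/
theorem t1FF : ∀ᶠ p in FF, ∀ t, p.lo ≤ t → ∀ e H l : ℝ, 0 < e → e ≤ p.e1 → (p.n : ℝ) ^ p.d ≤ H →
    l ∈ Icc 1 (Real.log p.n ^ 4) → ∀ B : Bad p.n,
    (∀ s, MeasurableSet {z : V p.n × Mx p.n | B z.1 z.2 s}) →
    (∀ x, ∀ W ∈ p.Wt e t, ¬ G3 p t H l x W → ∀ s, B x W s) →
    ∀ (x : V p.n) (k : ℕ) (μ : Measure (Mat k)) [IsProbabilityMeasure μ] (o : Oo.Orb p.n k),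
      SOInv μ → At o x → o.W ∈ p.Wt e t → anE o μ x B ≤ Real.exp (-(5 * H)) →
      T1out o μ x (Real.exp (p.th t * H / 2)) (Real.exp (-(4 * H))) := by
  filter_upwards [ev_ok, ev_e1 fun q => ev_sm (1 / (8 * q.C)),
    ev_Cn fun q => ev_ge (32 / (q.eta * q.t2 / 8)),
    ev_n (Q := fun p => 0 < p.d → 805 ≤ p.n ∧ 1 ≤ Real.log p.n ∧
      p.C * Real.log p.n ^ 4 ≤ (p.n : ℝ) ^ p.d) fun q => ev_log q.C q.d,
    ev_n (Q := fun p => 0 < p.d → 805 ≤ p.n ∧ 1 ≤ Real.log p.n ∧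
      4 * 10 ^ 11 / (p.eta * p.t2 / 8) ^ 2 * Real.log p.n ^ 4 ≤ (p.n : ℝ) ^ p.d)
      fun q => ev_log (4 * 10 ^ 11 / (q.eta * q.t2 / 8) ^ 2) q.d]
    with p ok h1 h2 h3 h4 t ht e H l e0 e1 hH hl B mB hB x k μ _ o hμ hx hW ha
  obtain ⟨n1, g1, h3⟩ := h3 ok.d.1
  obtain ⟨-, -, h4⟩ := h4 ok.d.1
  have hC := ok.C
  have hK := ok.K
  have hL := ok.L
  have hf := ok.ef
  have N0 : (0 : ℝ) < p.n := by exact_mod_cast (by omega : 0 < p.n)
  have l0 : 0 < p.lo := by unfold Pm.lo; positivity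
  have H0 : 0 < H := lt_of_lt_of_le (by positivity) hH
  have hO : ∀ U ∈ SO k, o.Wu U ∈ p.Wt e t := fun U hU => WW_conj (emb_orth hx.ok.iso hU) hW
  have hlt : anE o μ x B < 1 := ha.trans_lt (Real.exp_lt_one_iff.2 (by linarith))
  have g : (0 < aS x ∧ aS x ≤ 1 / 2) ∧ t ≤ p.C * aS x ^ 2 ∧
      p.Cn * ((Sl l x).card * Real.log p.n) ≤ H :=
    Kp.of_anE_lt hμ hx.ok mB hlt fun h U hU => hB x _ (hO U hU) fun g => h ⟨⟨g.q0, g.q1⟩, g.qt, g.cnt⟩
  have t20 : 0 < p.t2 := by unfold Pm.t2; positivity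
  have t21 : p.t2 ≤ 1 := Real.rpow_le_one (by positivity) (by
    rw [div_le_one (by positivity)]
    nlinarith [ok.ef', ok.t0.1, ok.t0.2]) (by norm_num)
  have η0 : 0 < p.eta := by unfold Pm.eta; positivity
  have η1 : p.eta ≤ 1 := by unfold Pm.eta; rw [div_le_one (by positivity)]; linarith
  have θ1 : p.eta * p.t2 ≤ p.eta := mul_le_of_le_one_right η0.le t21
  have hθ : p.eta * p.t2 / 8 ≤ p.th t := by unfold Pm.th; split_ifs <;> linarith
  have e8 : p.e1 ≤ 1 / (8 * p.C) := h1.2 (by show 0 < 1 / (8 * p.C); positivity)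
  have eC : e ^ p.A * p.C ≤ 1 / 8 := by
    rw [le_div_iff₀ (by positivity)] at e8
    have a1 : e * p.C ≤ 1 / 8 := by nlinarith
    have a2 : e ^ p.A ≤ e := pow_le_of_le_one e0.le (by nlinarith) (by have := ok.A; omega)
    nlinarith
  have sp := sp1_of_WW hW g.1.1 g.1.2 ((min_le_left _ _).trans g.2.1)
    (by positivity) hC eC
  have hq := q3 N0 g.1.1 (by linarith)
    ((le_mul_of_one_le_right (by linarith) (one_le_pow₀ g1)).trans h3) ht g.2.1
  obtain ⟨n2, n3⟩ := num (by positivity) (by linarith) g1 (by linarith [hl.1]) hl.2 (h4.trans hH) h2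
    (Nat.cast_nonneg _) g.2.2
  refine (Kp.t1out hμ hx n1 one_le_two hl.1 g.1.1 g.1.2 hq sp n2 (le_trans (Kp.P_le_anE hμ hx.ok mB
    fun U hU h => hB x _ (hO U hU) fun g => h g.pos) ha)).mono hμ hx.ok
    (Real.exp_le_exp.2 (n3.trans ?_)) le_rfl
  gcongr

end Crest.Agent.T157.O0
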