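import Crest.Agent.T157.OgDef_9
import Crest.Agent.T157.OtY_41
import Crest.Agent.T157.O0Wb_31
import Crest.Agent.T157.O0I_21
import Crest.Agent.T157.KbXdA_75

/-!
# Row 157, A2 (helper31): the deterministic inputs of the orbit step (`Fx`, `St`, `pos`)
-/

set_option autoImplicit false

noncomputable section

namespace Crest.Agent.T157.Og.I31

open MeasureTheory Matrix Set Crest.Agent.Lib.OrthPoinc
open Crest.Agent.T157.E Crest.Agent.T157.Tap Crest.Agent.T157.O0 Crest.Agent.T157.Oo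
open Crest.Agent.T157.Kp (At Sl P5 anE chi)
open Crest.Agent.T157.Kb (Co XM R4 AT)
open Crest.Agent.T157.Oc (SO emb_orth)

variable {n k : ℕ}

/-! ### gauge invariant statistics of `x` -/

/-- what the orbit step may use about `x` -/
structure Gx (K C5 e t : ℝ) (x : V n) : Prop where
  q1 : t ≤ K * aS x ^ 2
  q2 : aS x ^ 2 ≤ C5 ^ 2 * t
  r4 : |R4 x - aS x ^ 2| ≤ e * aS x ^ 2
  p4 : |avg (fun i => th x i ^ 4) - 3 * aS x ^ 2 + 8 * aS x ^ 3| ≤ e * aS x ^ 3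
  p6 : |avg (fun i => th x i ^ 6) - 15 * aS x ^ 3| ≤ e * aS x ^ 3
  e8 : avg (fun i => min (x i ^ 8) (x i ^ 2)) ≤ e * aS x ^ 3

theorem sv_cases (s : Cube n) (i : Fin n) : sv s i = 1 ∨ sv s i = -1 := by
  have : sv s i ^ 2 = 1 := spin_sq _
  exact sq_eq_one_iff.1 this


/-- even functions of the coordinates do not see the gauge -/
theorem even_gz (s : Cube n) (x : V n) {f : ℝ → ℝ} (hf : ∀ u, f (-u) = f u) :
    (fun i => f ((sv s * x) i)) = fun i => f (x i) := by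
  funext i
  rcases sv_cases s i with h | h <;> simp [h, hf]

theorem aS_gz (s : Cube n) (x : V n) : aS (sv s * x) = aS x :=
  congrArg avg (even_gz s x (f := fun u => Real.tanh u ^ 2) (by simp))

theorem R4_gz (s : Cube n) (x : V n) : R4 (sv s * x) = R4 x :=
  congrArg avg (even_gz s x (f := fun u => Real.tanh u * (u - Real.tanh u)) fun u => by simp; ring)


theorem Gx.gz {K C5 e t : ℝ} {x : V n} (s : Cube n) : Gx K C5 e t (sv s * x) ↔ Gx K C5 e t x := by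
  have h4 : avg (fun i => th (sv s * x) i ^ 4) = avg fun i => th x i ^ 4 :=
    congrArg avg (even_gz s x (f := fun u => Real.tanh u ^ 4) fun u => by simp; ring)
  have h6 : avg (fun i => th (sv s * x) i ^ 6) = avg fun i => th x i ^ 6 :=
    congrArg avg (even_gz s x (f := fun u => Real.tanh u ^ 6) fun u => by simp; ring)
  have h8 : avg (fun i => min ((sv s * x) i ^ 8) ((sv s * x) i ^ 2)) =
      avg fun i => min (x i ^ 8) (x i ^ 2) :=
    congrArg avg (even_gz s x (f := fun u => min (u ^ 8) (u ^ 2)) fun u => by ring_nf)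
  constructor <;> rintro ⟨a, b, c, d, e, f⟩
  · rw [aS_gz] at a b c d e f
    exact ⟨a, b, R4_gz s x ▸ c, h4 ▸ d, h6 ▸ e, h8 ▸ f⟩
  · exact ⟨by rwa [aS_gz], by rwa [aS_gz], by rwa [aS_gz, R4_gz], by rwa [aS_gz, h4],
      by rwa [aS_gz, h6], by rwa [aS_gz, h8]⟩



theorem aS_nn (x : V n) : 0 ≤ aS x :=
  div_nonneg (Finset.sum_nonneg fun _ _ => sq_nonneg _) n.cast_nonneg

theorem Gx.mono {K K' C5 e e' t : ℝ} {x : V n} (h : Gx K C5 e t x) (hK : K ≤ K') (he : e ≤ e') :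
    Gx K' C5 e' t x := by
  have h0 := aS_nn x
  exact ⟨h.q1.trans (by gcongr), h.q2, h.r4.trans (by gcongr), h.p4.trans (by gcongr),
    h.p6.trans (by gcongr), h.e8.trans (by gcongr)⟩

theorem Gx.q0 {K C5 e t : ℝ} {x : V n} (h : Gx K C5 e t x) (t0 : 0 < t) : 0 < aS x :=
  (aS_nn x).lt_of_ne' fun h0 => by have := h.q1; rw [h0] at this; linarith

theorem Gx.q_le {K C5 e t : ℝ} {x : V n} (h : Gx K C5 e t x) (c0 : 0 ≤ C5) (t0 : 0 ≤ t) :
    aS x ≤ C5 * √t :=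
  abs_le_of_sq_le_sq' (by rw [mul_pow, Real.sq_sqrt t0]; exact h.q2) (by positivity) |>.2

theorem sum_eq (hn : 0 < n) (f : V n) : ∑ i, f i = n * avg f := by
  have : (n : ℝ) ≠ 0 := by positivity
  rw [avg]; field_simp

theorem dot_th (hn : 0 < n) (x : V n) : th x ⬝ᵥ th x = n * aS x := by
  rw [Kp.W41.dot_p hn, Kp.W41.chi_eq hn]; ring

theorem Gx.r2 {K C5 e t : ℝ} {x : V n} (h : Gx K C5 e t x) (hn : 0 < n) (e1 : e ≤ 1 / 10) :
    (x - th x) ⬝ᵥ (x - th x) ≤ 4 * n * aS x ^ 3 := by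
  have h1 : (x - th x) ⬝ᵥ (x - th x) ≤ ∑ i, (2 / 9 * th x i ^ 6 + 2 * min (x i ^ 8) (x i ^ 2)) :=
    Finset.sum_le_sum fun i _ => by rw [← sq]; exact Kb.Xd75.r_sq (x i)
  rw [Finset.sum_add_distrib, ← Finset.mul_sum, ← Finset.mul_sum, sum_eq hn, sum_eq hn] at h1
  have h2 := (abs_le.1 h.p6).2
  have h3 := h.e8
  have h4 := mul_le_mul_of_nonneg_right e1 (pow_nonneg (aS_nn x) 3)
  have h5 : 2 / 9 * avg (fun i => th x i ^ 6) + 2 * avg (fun i => min (x i ^ 8) (x i ^ 2)) ≤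
      4 * aS x ^ 3 := by linarith [pow_nonneg (aS_nn x) 3]
  nlinarith [mul_le_mul_of_nonneg_left h5 (Nat.cast_nonneg (α := ℝ) n)]

theorem Gx.s4 {K C5 e t : ℝ} {x : V n} (h : Gx K C5 e t x) (hn : 0 < n) (e1 : e ≤ 8) :
    ∑ i, th x i ^ 4 ≤ 3 * n * aS x ^ 2 := by
  rw [sum_eq hn]
  have h2 := (abs_le.1 h.p4).2
  have h4 := mul_le_mul_of_nonneg_right e1 (pow_nonneg (aS_nn x) 3)
  nlinarith [mul_le_mul_of_nonneg_left (show avg (fun i => th x i ^ 4) ≤ 3 * aS x ^ 2 by linarith)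
    (Nat.cast_nonneg (α := ℝ) n)]

/-! ### the orbit around `x` -/

section orb

variable {o : Orb n k} {x : V n}

theorem at_n (h : At o x) : 0 < n := by have := h.dim; omega

theorem at_z (h : At o x) : o.z = 1 - aS x + 1 / (1 - aS x) := by rw [h.z, Kp.W41.chi_eq (at_n h)]

theorem at_zz (h : At o x) : o.z = Qe.zz (1 - aS x) := at_z h

theorem at_z2 (h : At o x) (q1 : aS x ≤ 1 / 2) : aS x ^ 2 ≤ o.z - 2 ∧ o.z - 2 ≤ 2 * aS x ^ 2 := by
  have h0 : 0 < 1 - aS x := by linarith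
  rw [at_zz h]
  have h1 := Wb.sq_le_zz h0 (by linarith [aS_nn x])
  have h2 := Wb.zz_le_sq (c := 2) (g := 1 - aS x) (by norm_num) (by linarith)
  rw [sub_sub_cancel] at h1 h2
  exact ⟨h1, h2⟩

theorem at_pp (h : At o x) : o.p ⬝ᵥ o.p = n * aS x := by rw [h.p, dot_th (at_n h)]

theorem at_psi {K C5 e t : ℝ} (h : At o x) (g : Gx K C5 e t x) (e1 : e ≤ 1 / 10)
    (q1 : aS x ≤ 1 / 2) : (o.z • o.p - o.h) ⬝ᵥ (o.z • o.p - o.h) ≤ 16 * n * aS x ^ 3 := by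
  have hn := at_n h
  have h0 : 0 < 1 - aS x := by linarith
  have q0 := aS_nn x
  have e : o.z • o.p - o.h = (aS x / (1 - aS x)) • th x - (x - th x) := by
    rw [at_z h, h.p, h.h, Kp.W41.chi_eq hn]
    funext i
    simp only [Pi.sub_apply, Pi.add_apply, Pi.smul_apply, smul_eq_mul]
    field_simp
    ring
  have h1 := Od.dot_sub_le ((aS x / (1 - aS x)) • th x) (x - th x)
  rw [smul_dotProduct, dotProduct_smul, dot_th hn, smul_eq_mul, smul_eq_mul, ← mul_assoc, ← sq] at h1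
  have h2 : (aS x / (1 - aS x)) ^ 2 ≤ (2 * aS x) ^ 2 :=
    pow_le_pow_left₀ (by positivity) (by rw [div_le_iff₀ h0]; nlinarith) 2
  have h3 := mul_le_mul_of_nonneg_right h2 (show 0 ≤ n * aS x by positivity)
  rw [e]
  nlinarith [g.r2 hn e1]

/-- the truncation of `1 / D` -/
def vtS (S : Finset (Fin n)) (x : V n) : V n := fun i => if i ∈ S then 1 else Real.cosh (x i) ^ 2

theorem vtS_ok {l : ℝ} (hl : l * aS x ≤ 2 / 3) (i : Fin n) : 0 ≤ vtS (Sl l x) x i ∧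
    vtS (Sl l x) x i ≤ 3 ∧ vtS (Sl l x) x i * (1 - th x i ^ 2) ≤ 1 := by
  have h1 : Real.cosh (x i) ^ 2 * (1 - th x i ^ 2) = 1 := Kp.W41.cosh_DD x i
  unfold vtS
  split_ifs with h
  · exact ⟨by norm_num, by norm_num, by nlinarith [sq_nonneg (th x i)]⟩
  · have h2 : th x i ^ 2 < l * aS x := by simpa [Sl] using h
    exact ⟨sq_nonneg _, by nlinarith [sq_nonneg (Real.cosh (x i))], h1.le⟩

end orb

section Pm

variable {p : Pm} {o : Orb p.n k} {x : V p.n} {t e K ε : ℝ}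

theorem AT_eq (h : At o x) (S : Finset (Fin p.n)) (U : Mat k) :
    o.A U + diagonal (vtS S x) - Bz o x = AT S x (o.Wu U) := by
  rw [AT, Bz, h.p, ← Kp.W41.chi_eq (at_n h), show o.A U = o.z • (1 : Mx p.n) - o.Wu U from rfl, h.z]
  ext i j
  simp only [vtS, Matrix.add_apply, Matrix.sub_apply, Matrix.smul_apply, diagonal_apply, one_apply,
    smul_eq_mul, one_div]
  split_ifs <;> ring

theorem pos_pt (h : At o x) {S : Finset (Fin p.n)} {U : Mat k} {l0 : ℝ}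
    (h1 : Tap.Pos l0 (AT S x (o.Wu U))) (h2 : P5 S x (o.Wu U)) :
    O6.Pos (o.A U) (Bz o x) (vtS S x) l0 := fun v => by
  rw [AT_eq h]
  refine ⟨h1 v, le_trans ?_ (h2 v)⟩
  rw [← at_z h, smul_mulVec, dotProduct_smul, smul_eq_mul,
    show o.A U = o.z • (1 : Mx p.n) - o.Wu U from rfl]
  linarith



theorem Ord.CK (h : Ord p) : p.C ≤ p.K := (le_self_pow₀ h.ok.C (by norm_num)).trans h.K

theorem Ord.LC (h : Ord p) : 10 ^ 10 * p.L ^ 3 ≤ p.C :=
  le_trans (by have := h.ok.L; gcongr <;> [linarith; norm_num]) h.C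

theorem Ord.L2 (h : Ord p) : p.L ^ 2 ≤ p.C ∧ p.L ^ 3 ≤ p.C ∧ 10 ^ 10 ≤ p.C := by
  have h1 := h.ok.L
  have h2 := Ord.LC h
  have h3 : p.L ^ 2 ≤ p.L ^ 3 := pow_le_pow_right₀ (by linarith) (by norm_num)
  have h4 : 1 ≤ p.L ^ 3 := one_le_pow₀ (by linarith)
  exact ⟨by linarith, by linarith, by linarith⟩

theorem Ord.Ce (h : Ord p) : 10 ^ 10 * p.C * p.e1 ≤ 1 := by
  have h1 := h.ok.K
  have h2 : p.C * p.C ≤ p.K ^ 10 := by
    rw [← sq]
    exact (pow_le_pow_left₀ (by linarith [h.ok.C]) (Ord.CK h) 2).trans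
      (pow_le_pow_right₀ h1 (by norm_num))
  have h3 := mul_le_mul_of_nonneg_right (Ord.L2 h).2.2 (show 0 ≤ p.C by linarith [h.ok.C])
  exact (mul_le_mul_of_nonneg_right (h3.trans h2) h.ok.e1.1.le).trans (by linarith [h.e1])

theorem Ord.Ct (h : Ord p) : p.C ^ 10 * p.t0 ≤ 1 := by
  have h1 := h.ok.K
  have h2 : p.C ^ 10 ≤ p.B ^ 1000 := (h.K.trans h.ok.B).trans
    (le_self_pow₀ (h1.trans h.ok.B) (by norm_num))
  exact (mul_le_mul_of_nonneg_right h2 h.ok.t0.1.le).trans (by linarith [h.t0])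

theorem q_small (h : Ord p) (ht : t ≤ p.t0) (g : Gx K (p.L / 50) ε t x) : aS x ≤ 1 / 50 := by
  have h1 := g.q2
  have h2 : p.L ^ 2 * t ≤ 1 := by
    have a1 := (Ord.L2 h).1.trans (le_self_pow₀ h.ok.C (show 10 ≠ 0 by norm_num))
    exact (mul_le_mul_of_nonneg_left ht (sq_nonneg _)).trans
      ((mul_le_mul_of_nonneg_right a1 h.ok.t0.1.le).trans (Ord.Ct h))
  exact (abs_le_of_sq_le_sq' (by nlinarith) (by norm_num)).2

/-- the spectral tolerance is far below the gap -/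
theorem et_le (h : Ord p) (t0 : 0 < t) (e0 : 0 < e) (e1 : e ≤ p.e1) (hK : K ≤ p.C)
    (g : Gx K (p.L / 50) ε t x) : 10 ^ 10 * e ^ p.A * t ≤ aS x ^ 2 := by
  have h1 : e ^ p.A ≤ p.e1 := (Wb.pow_A_le h.ok e0 (by linarith [h.ok.e1_1])).trans e1
  have h2 : t ≤ p.C * aS x ^ 2 := g.q1.trans (by gcongr)
  calc 10 ^ 10 * e ^ p.A * t ≤ 10 ^ 10 * p.e1 * (p.C * aS x ^ 2) := by
        have := h.ok.e1.1; gcongr
    _ = 10 ^ 10 * p.C * p.e1 * aS x ^ 2 := by ring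
    _ ≤ _ := mul_le_of_le_one_left (sq_nonneg _) (Ord.Ce h)

theorem M_eq (t0 : 0 ≤ t) : p.M t = p.n * √t ^ 3 := by
  rw [Pm.M, Real.sqrt_eq_rpow, ← Real.rpow_natCast, ← Real.rpow_mul t0]; norm_num

theorem q3_le (h : Ord p) (t0 : 0 < t) (g : Gx K (p.L / 50) ε t x) :
    p.n * aS x ^ 3 ≤ (p.L / 50) ^ 3 * p.M t := by
  have h1 := pow_le_pow_left₀ (aS_nn x) (g.q_le (by linarith [h.ok.L]) t0.le) 3
  rw [M_eq t0.le, mul_left_comm, ← mul_pow]
  exact mul_le_mul_of_nonneg_left h1 p.n.cast_nonneg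

/-- **`In1.fx`** -/
theorem fx_of (h : Ord p) (t0 : 0 < t) (ht : t ≤ p.t0) (e0 : 0 < e) (e1 : e ≤ p.e1) (hK : K ≤ p.C)
    (ε1 : ε ≤ 1 / 10) (hx : At o x) (hW : o.W ∈ p.Wt e t) (g : Gx K (p.L / 50) ε t x) :
    Fx t o x := by
  have q1 := q_small h ht g
  obtain ⟨z1, z2⟩ := at_z2 hx (by linarith)
  have L0 := h.ok.L
  have e2 : e ≤ 1 := by linarith [h.ok.e1_1]
  refine ⟨hx, by nlinarith [g.q2, mul_nonneg (sq_nonneg p.L) t0.le], ?_, ?_,
    (Wb.Wt_op2 h.ok e0 e2 t0 (by linarith [h.ok.t0.2]) hW).1, fun v => ?_⟩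
  · rw [at_pp hx, mul_comm (p.L / 50), mul_assoc]
    exact mul_le_mul_of_nonneg_left (g.q_le (by linarith) t0.le) p.n.cast_nonneg
  · have h1 := at_psi hx g ε1 (by linarith)
    have h2 := q3_le h t0 g
    have h3 := mul_le_mul_of_nonneg_right (Ord.L2 h).2.1 (Pm.M_nn (p := p) t0.le)
    have h4 := mul_nonneg (pow_nonneg (by linarith : 0 ≤ p.L) 3) (Pm.M_nn (p := p) t0.le)
    nlinarith
  · refine le_trans (mul_nonneg ?_ (Eig.dot_self_nonneg v)) (Wb.ww_form hW o.z v).1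
    have h1 := (Wb.Wt_et h.ok e0 t0)
    have h2 := et_le h t0 e0 e1 hK g
    nlinarith [h1.1, h1.2]

/-- **`In2.st`** -/
theorem st_of (h : Ord p) (t0 : 0 < t) (ht : t ≤ p.t0) (e0 : 0 < e) (e1 : e ≤ p.e1) (hK : K ≤ p.C)
    (ε1 : ε ≤ 1 / 10) (hx : At o x) (hW : o.W ∈ p.Wt e t) (g : Gx K (p.L / 50) ε t x) {l : ℝ}
    (hl : l * aS x ≤ t ^ (9 / 20 : ℝ)) (hc : ((Sl l x).card : ℝ) ≤ p.M t) : St t o := by
  have q1 := q_small h ht g
  have q0 := g.q0 t0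
  have hn := at_n hx
  have e2 : e ≤ 1 := by linarith [h.ok.e1_1]
  refine ⟨⟨Sl l x, hc, fun i hi => ?_⟩, ?_, ?_⟩
  · have h2 : th x i ^ 2 < l * aS x := by simpa [Sl] using hi
    rw [hx.p]; linarith
  · rw [hx.p]
    have h1 := g.s4 hn (by linarith)
    have h2 := mul_le_mul_of_nonneg_left g.q2 (Nat.cast_nonneg (α := ℝ) p.n)
    have h3 := mul_le_mul_of_nonneg_right (Ord.L2 h).1 (show 0 ≤ p.n * t by positivity)
    nlinarith [mul_nonneg (sq_nonneg p.L) (show 0 ≤ p.n * t by positivity)]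
  · have h8 : 8 * e ^ p.A * t ≤ (1 - (1 - aS x)) ^ 2 := by
      rw [sub_sub_cancel]
      nlinarith [et_le h t0 e0 e1 hK g, mul_pos (pow_pos e0 p.A) t0]
    obtain ⟨r1, -, r2, -⟩ := Wb.Wt_res h.ok e0 e2 t0 hW (g := 1 - aS x) ⟨by linarith, by linarith⟩ h8
    rw [sub_sub_cancel, ← at_zz hx] at r2
    rw [← at_zz hx] at r1
    refine ⟨_, r1, r2.trans ?_⟩
    have s0 := Real.sqrt_pos.2 t0
    have C0 := (Ord.L2 h).2.2
    have h1 : 22 * √t ≤ p.C * aS x := by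
      refine (abs_le_of_sq_le_sq' ?_ (by positivity)).2
      rw [mul_pow, mul_pow, Real.sq_sqrt t0.le]
      have h2 : t ≤ p.C * aS x ^ 2 := g.q1.trans (by gcongr)
      nlinarith [mul_le_mul_of_nonneg_right C0 (show 0 ≤ p.C * aS x ^ 2 by positivity)]
    rw [div_le_div_iff₀ q0 s0]
    nlinarith [mul_le_mul_of_nonneg_left h1 (Nat.cast_nonneg (α := ℝ) p.n)]

end Pm

end Crest.Agent.T157.Og.I31

end
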