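import Crest.Agent.T157.OaN_48
import Crest.Agent.T157.KbB_24
import Crest.Agent.T157.QeCore_78
import Crest.Agent.T157.KbAll_5
import Crest.Agent.T157.O0I_21
import Crest.Agent.T157.KbMg_67
import Crest.Agent.T157.OtY_41
import Crest.Agent.T157.OgDef_9
import Crest.Agent.T157.OiDef_19
import Crest.Agent.T157.OgIn_31
import Crest.Agent.T157.OgT_9
import Crest.Agent.T157.NumZ_27
import Crest.Agent.T157.O4x_12
import Crest.Agent.T157.KbHa_11
import Crest.Agent.T157.O0Wb_31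

-- ▼ part T157/OaNum_54
section

set_option autoImplicit false

/-!
Row 157, A2 (helper54): the real inequalities behind `O0.Pack` hold (`Oa.NumStmt`).
-/

noncomputable section

namespace Crest.Agent.T157.Oa

open Filter Set Topology
open Crest.Agent.T157.O0

namespace Num54

lemma max_rpow {N : ℝ} (hN : 1 ≤ N) (a b : ℝ) : max (N ^ a) (N ^ b) = N ^ max a b :=
  ((Real.monotone_rpow_of_base_ge_one hN).map_max).symm

lemma ev_pow (C : ℝ) {a : ℝ} (ha : 0 < a) : ∀ᶠ n : ℕ in atTop, C ≤ (n : ℝ) ^ a :=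
  ((tendsto_rpow_atTop ha).comp tendsto_natCast_atTop_atTop).eventually_ge_atTop C

/-- the comparisons of powers -/
lemma pows (p : Pm) (h : p.Ok) (hn : (1 : ℝ) < p.n) {t : ℝ} (ht : t ∈ Icc p.lo p.t0) :
    (p.n : ℝ) ^ (1 / 3 : ℝ) ≤ p.n * t ∧ (p.n : ℝ) ^ (1 / 3 : ℝ) * p.kk t ≤ p.n ∧ 0 ≤ p.kk t ∧
    p.ts ≤ p.tss ∧ p.kk t * t ≤ 1 ∧ p.kk t * √t ≤ p.al t ∧ kk0 p t * √(max t p.tss) ≤ p.al t ∧
    kk0 p t * p.al t * max 1 (p.ts / t) ^ (2 * p.e1) ≤ 1 ∧ 1 ≤ p.M t := by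
  obtain ⟨c0, c1⟩ := h.ch
  obtain ⟨d0, d1⟩ := h.d
  obtain ⟨a0, a1⟩ := h.k4
  obtain ⟨b0, b1⟩ := h.k2
  obtain ⟨g0, g1⟩ := h.k3
  obtain ⟨e0, e1⟩ := h.e1
  have n0 : (0 : ℝ) < p.n := one_pos.trans hn
  have hlo : p.lo = (p.n : ℝ) ^ (p.d - 2 / 3) := (Real.rpow_sub n0 _ _).symm
  have t0 : 0 < t := (hlo ▸ Real.rpow_pos_of_pos n0 _).trans_le ht.1
  obtain ⟨x, rfl⟩ : ∃ x : ℝ, t = (p.n : ℝ) ^ x := ⟨_, (Real.rpow_logb n0 hn.ne' t0).symm⟩
  unfold Pm.kk kk0 Pm.al Pm.M Pm.ts Pm.tss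
  generalize (p.n : ℝ) = N at *
  have le : ∀ {a b : ℝ}, N ^ a ≤ N ^ b ↔ a ≤ b := Real.rpow_le_rpow_left_iff hn
  have x1 : p.d - 2 / 3 ≤ x := le.1 (hlo ▸ ht.1)
  have x2 : x ≤ 0 := le.1 (by rw [Real.rpow_zero]; linarith [ht.2, h.t0.2])
  have k1 : ∀ a : ℝ, N * N ^ a = N ^ (1 + a) := fun a => by rw [Real.rpow_add n0, Real.rpow_one]
  have k2 : ∀ a : ℝ, N ^ a ≤ N ↔ a ≤ 1 := fun a => by simpa using le (a := a) (b := 1)
  have k3 : ∀ a : ℝ, N ^ a ≤ 1 ↔ a ≤ 0 := fun a => by simpa using le (a := a) (b := 0)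
  have k4 : ∀ a : ℝ, 1 ≤ N ^ a ↔ 0 ≤ a := fun a => by simpa using le (a := 0) (b := a)
  have k5 : ∀ a : ℝ, max 1 (N ^ a) = N ^ max 0 a := fun a => by rw [← max_rpow hn.le, Real.rpow_zero]
  have k6 : ∀ a : ℝ, √(N ^ a) = N ^ (a * (1 / 2)) := fun a => by
    rw [Real.sqrt_eq_rpow, Real.rpow_mul n0.le]
  simp only [le, ← Real.rpow_sub n0, k5, max_rpow hn.le, ← Real.rpow_mul n0.le, k6, k1, k4]
  have y0 := le_max_left 0 (p.k4 - 1 / 2 - x)
  have y1 : max 0 (p.k4 - 1 / 2 - x) ≤ 1 / 6 := max_le (by norm_num) (by linarith)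
  have y2 : max 0 (p.k4 - 1 / 2 - x) + x ≤ max x (p.k4 - 1 / 2) := by
    rcases le_total 0 (p.k4 - 1 / 2 - x) with e | e
    · rw [max_eq_right e]; linarith [le_max_right x (p.k4 - 1 / 2)]
    · rw [max_eq_left e]; linarith [le_max_left x (p.k4 - 1 / 2)]
  split_ifs with hx
  · rw [max_eq_left hx, max_eq_left (by linarith : p.k4 - 1 / 2 - x ≤ 0)]
    simp only [one_mul, mul_one, le, k2, k3, ← Real.rpow_add n0]
    refine ⟨?_, ?_, ?_, ?_, ?_, ?_, ?_, ?_, ?_⟩ <;> linarith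
  · push Not at hx
    rw [max_eq_right hx.le]
    simp only [le, k2, k3, ← Real.rpow_add n0]
    have y3 : max x (p.k4 - 1 / 2) ≤ -p.ch := max_le hx.le (by linarith)
    have y4 : max 0 (p.k4 - 1 / 2 - x) + x / 2 ≤ -p.ch / 2 := by
      rcases le_total 0 (p.k4 - 1 / 2 - x) with e | e
      · rw [max_eq_right e]; linarith
      · rw [max_eq_left e]; linarith
    generalize max 0 (p.k4 - 1 / 2 - x) = y at *
    have z1 := mul_le_mul_of_nonneg_right y1 g0.le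
    have z2 := mul_le_mul_of_nonneg_right y1 e0.le
    refine ⟨?_, ?_, (Real.rpow_pos_of_pos n0 _).le, ?_, ?_, ?_, ?_, ?_, ?_⟩ <;> linarith

end Num54

open Num54

theorem numStmt : NumStmt := by
  have hn : ∀ᶠ p in FF, p.Ok → 10 ^ 12 * 36 ^ 16 ≤ (p.n : ℝ) ∧ XX p ≤ (p.n : ℝ) ^ (1 / 3 : ℝ) ∧
      146 / p.e1 ≤ p.n ∧ p.B2 ≤ p.n ∧ p.K ≤ (p.n : ℝ) ^ p.k2 ∧ 4 / p.t0 ≤ (p.n : ℝ) ^ p.ch :=
    ev_n fun q => by
      by_cases h : 0 < q.k2 ∧ 0 < q.ch
      · filter_upwards [tendsto_natCast_atTop_atTop.eventually_ge_atTop (10 ^ 12 * 36 ^ 16 : ℝ),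
          ev_pow (XX q) (a := 1 / 3) (by norm_num),
          tendsto_natCast_atTop_atTop.eventually_ge_atTop (146 / q.e1),
          tendsto_natCast_atTop_atTop.eventually_ge_atTop q.B2, ev_pow q.K h.1,
          ev_pow (4 / q.t0) h.2] with n h1 h2 h3 h4 h5 h6 _ using ⟨h1, h2, h3, h4, h5, h6⟩
      · exact .of_forall fun n h' => absurd ⟨h'.k2.1, h'.ch.1⟩ h
  filter_upwards [ev_ok, hn, ev_B fun q => ev_ge (XB q), ev_t0 fun q => ev_sm (1 / q.L ^ 4),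
    ev_K0 fun q => ev_ge (6 * q.K / q.t0), ev_B0 fun q => ev_ge (10 ^ 6 * XX q ^ 4),
    ev_B2 fun q => ev_ge (q.K / q.t2), ev_Cn fun q => ev_ge (21 * (2 * (⌈2 * q.B2⌉₊ : ℝ) + 12))]
    with p h hn hB h0 hK0 hB0 hB2 hCn t ht
  obtain ⟨n1, n2, n3, n4, n5, n6⟩ := hn h
  have hn : (1 : ℝ) < p.n := lt_of_lt_of_le (by norm_num) n1
  have n0 : (0 : ℝ) < p.n := one_pos.trans hn
  have L0 : 0 < p.L := by linarith [h.L]
  obtain ⟨p1, p2, p3, p4, p5, p6, p7, p8, p9⟩ := pows p h hn ht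
  refine ⟨h, hB, ?_, ?_, hB0, ?_, hCn, n1, n2.trans p1,
    (mul_le_mul_of_nonneg_right n2 p3).trans p2, ?_, n4, n5, p4, ?_, p5, p6, p7, p8, p9⟩
  · have : p.t0 ≤ 1 / p.L ^ 4 := h0.2 (show 0 < 1 / p.L ^ 4 by positivity)
    rwa [le_div_iff₀' (pow_pos L0 4)] at this
  · exact (div_le_iff₀ h.t0.1).1 hK0
  · exact (div_le_iff₀ (Real.rpow_pos_of_pos (div_pos h.ef (by linarith)) _)).1 hB2
  · exact (div_le_iff₀' h.e1.1).1 n3
  · rw [Pm.tss, Real.rpow_neg n0.le, ← inv_div]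
    exact inv_anti₀ (div_pos four_pos h.t0.1) n6

end Crest.Agent.T157.Oa
end
end

-- ▼ part T157/KbCol_11
section

/-!
# Row 157, part A2 (helper11): the statistics of the column `W e` as a first-moment event
-/

set_option autoImplicit false

noncomputable section

namespace Crest.Agent.T157.Kb

open MeasureTheory Matrix Set
open scoped ENNReal
open Crest.Agent.T157.E Crest.Agent.T157.Cond Crest.Agent.T157.Tap
open Crest.Agent.T157.Qe (bv Wm St)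
open Crest.Agent.T157.Conc (ex)

namespace Col11

variable {n : ℕ}

lemma st_mono {C C' δ q β : ℝ} {D e c τ : V n} (s : St C δ q D β e c τ) (hC : 0 < C) (hq : 0 ≤ q)
    (h : C ≤ C') : St C' δ q D β e c τ :=
  have n0 : (0 : ℝ) ≤ n := Nat.cast_nonneg n
  { s with
    s1 := le_trans (by gcongr) s.s1
    s2 := s.s2.trans (by gcongr)
    e2 := s.e2.trans (by gcongr)
    e3 := s.e3.trans (by gcongr)
    u1 := s.u1.trans (by gcongr)
    u2 := le_trans (by gcongr) s.u2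
    u3 := s.u3.trans (by gcongr)
    u4 := s.u4.trans (by gcongr)
    u5 := s.u5.trans (by gcongr) }

lemma ad1 {e ε : ℝ} (he : 0 ≤ e) (hε : ε ≤ 1 / 2) {x : V n} (h : aS x ≤ 1 / 9) :
    Ad e ε 1 (aS x ^ 2 / (1 - aS x)) ∅ x := by
  have q0 := aS_nonneg x
  have q2 := sq_nonneg (aS x)
  refine ⟨le_rfl, by norm_num, (mul_le_of_le_one_left q2 (by linarith)).trans
    (le_div_self q2 (by linarith) (by linarith)), ?_, ?_⟩
  · rw [div_le_iff₀ (by linarith)]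
    linarith [mul_le_mul_of_nonneg_left h q2]
  · rw [Finset.card_empty, Nat.cast_zero]; positivity

end Col11

open Col11 in
theorem colStmt (hm : MeasG) (hM : MargStmt) (hA : AllStmt) (hX : XdStmt) : ColStmt := by
  intro K hK
  obtain ⟨t0, ht0, Ca, hA⟩ := hA
  obtain ⟨C, hC1, cx, hcx, hX⟩ := hX K hK
  obtain ⟨C', hC', cg, hcg, hG⟩ := gnStmt C hC1
  obtain ⟨m, m0, m1, m2, m5, m6⟩ : ∃ m > (0 : ℝ), m ≤ 1 / 9 ∧ m ≤ cx ∧ m ≤ t0 ∧ m ≤ cg :=
    ⟨min (min (1 / 9) cx) (min t0 cg), by positivity, by simp, by simp, by simp, by simp⟩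
  obtain ⟨c, hc, c1, c2, c3⟩ : ∃ c > (0 : ℝ), c ≤ m ∧ K * c ≤ m ∧ C * c ≤ m := by
    have h : m / (K * C) * (K * C) = m := div_mul_cancel₀ _ (by positivity)
    have h0 : 0 < m / (K * C) := by positivity
    have h1 := mul_le_mul_of_nonneg_left hK h0.le
    have h2 := mul_le_mul_of_nonneg_left hC1 h0.le
    exact ⟨_, h0, by nlinarith, by nlinarith, by nlinarith⟩
  refine ⟨C', hC', c, hc, Ca + 21, fun C'' hC'' n t ε hn ht ⟨e0, e1⟩ hs => ?_⟩
  have n0 : 0 < n := by omega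
  have n1 : (21 : ℝ) ≤ n := by exact_mod_cast (by omega : 21 ≤ n)
  have t0' : 0 < t := lt_of_lt_of_le (by positivity) ht
  have e2 : ε ≤ 1 := by linarith
  have pw : ∀ {i j : ℕ}, i ≤ j → ε ^ j ≤ ε ^ i := fun h => pow_le_pow_of_le_one e0.le e2 h
  have e9 : ε ^ 9 ≤ 1 := pow_le_one₀ e0.le e2
  have p9 : 0 < ε ^ 9 := by positivity
  have ht1 : t ≤ (ε ^ 21) ^ 2 := (Real.sqrt_le_left (by positivity)).1 hs
  have ht2 : t ≤ t0 := by
    have := pw (show 1 ≤ 21 * 2 by norm_num)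
    rw [pow_mul] at this
    linarith
  have cm : C * ε ^ 10 ≤ m * ε ^ 9 :=
    calc _ = C * ε * ε ^ 9 := by ring
      _ ≤ C * c * ε ^ 9 := by gcongr
      _ ≤ _ := by gcongr
  have md : m * ε ^ 9 ≤ m := mul_le_of_le_one_right m0.le e9
  have hq : ∀ x : V n, Co K (ε ^ 10) t x → aS x ≤ m * ε ^ 9 := fun x h => by
    refine (pow_le_pow_iff_left₀ (aS_nonneg _) (by positivity) two_ne_zero).1
      (h.q2.trans ((mul_le_mul_of_nonneg_left ht1 (by linarith)).trans ?_))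
    calc _ = K * ε * ε * ε ^ 40 := by ring
      _ ≤ K * c * m * ε ^ 18 := by gcongr ?_ * ?_ * ?_ * ?_; exacts [by linarith, pw (by norm_num)]
      _ ≤ m * m * ε ^ 18 := by gcongr
      _ = _ := by ring
  have hs1 : Real.sqrt t ≤ cx * ε ^ 10 :=
    calc _ ≤ ε * ε ^ 20 := hs.trans_eq (by ring)
      _ ≤ _ := by gcongr ?_ * ?_; exacts [by linarith, pw (by norm_num)]
  have dv := fun (x : V n) (h1 : Co K (ε ^ 10) t x) (h2 : XM (ε ^ 10) x) =>
    hX n t _ m 1 (aS x ^ 2 / (1 - aS x)) ∅ x n0 t0' (pow_pos e0 10) hs1 (cm.trans md) m2 h1 h2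
      (ad1 (pow_pos e0 10).le (by linarith) (by linarith [hq x h1]))
  set R := -(c * ε ^ 18 * n * t) with hRd
  refine (Pt_le hM n0 t0' ((measSet_Co _ _ _ measurable_fst).inter ((measSet_XM _ measurable_fst).inter
    (hm n C'' (ε ^ 9) 0 0 0 0 0).2.2.2.2.2.2.1.compl)) (b := 20 * ex R) (b' := 0)
    (by have := Conc.ex_ne_top R; finiteness)
    (G := fun x η => St C' (ε ^ 9) (aS x) (Dk 1 (aS x ^ 2 / (1 - aS x)) ∅ x) (2 * 1 * aS x) (ee x)
      (col t x η) (tau x)) (fun z h => ?_) fun z h η hη => ?_).trans ?_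
  · refine (hG n t _ m _ _ _ n0 t0' ⟨p9, e9⟩ ((hq _ h.1).trans (by gcongr)) m0.le (dv _ h.1 h.2.1).1
      ((dv _ h.1 h.2.1).2.mono t0'.le (cm.trans (by gcongr)))).trans
      (mul_le_mul_right (Conc.ex_mono ?_) _)
    have : c * ε ^ 18 * n * t ≤ cg * (ε ^ 18 * n * aS z.1 ^ 2) :=
      calc _ ≤ c * ε ^ 18 * n * (K * aS z.1 ^ 2) := by gcongr; exact h.1.q1
        _ = K * c * (ε ^ 18 * n * aS z.1 ^ 2) := by ring
        _ ≤ _ := by gcongr; linarith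
    linarith
  · refine (measure_mono (t := (∅ : Set (Mx n))) fun W hW => hW.2.2 ?_).trans_eq measure_empty
    change St _ _ _ _ _ _ (Wm _ _ _ W *ᵥ ee z.1) _
    rw [Qe.Core78.wm_e hη.unit]
    exact st_mono hη (by linarith) (aS_nonneg _) hC''
  · have h21 : 20 * ex R + 0 ≤ ex (Real.log n + R) := by
      rw [Conc.ex_add, add_zero]
      refine mul_le_mul_left ?_ _
      rw [ex, Real.exp_log (by linarith), ENNReal.ofReal_natCast]
      exact_mod_cast (by omega : 20 ≤ n)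
    refine (mul_le_mul' (hA n t (by omega) ⟨ht, ht2⟩) h21).trans ?_
    rw [← Conc.ex_add]
    refine Conc.ex_mono ?_
    have hl : 0 ≤ Real.log n := Real.log_natCast_nonneg n
    push_cast
    linarith

end Crest.Agent.T157.Kb

end
end

-- ▼ part T157/KbTop_14
section

/-!
# Row 157, part A2, section 2: the first-moment events of the top (helper14)
-/

set_option autoImplicit false

noncomputable section

namespace Crest.Agent.T157.Kb

open MeasureTheory Matrix Set Filter Real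
open scoped ENNReal
open Crest.Agent.T157.E Crest.Agent.T157.Cond Crest.Agent.T157.Tap
open Crest.Agent.T157.Kp (Sl P5)
open Crest.Agent.T157.Conc (ex)
open Crest.Agent.T157.O0 (Pm FF)

namespace Top14

variable {n : ℕ}

lemma pos_empty {l : ℝ} {S : Finset (Fin n)} {x : V n} {W : Mx n} (h : Pos l (AT S x W)) :
    Pos l (AT ∅ x W) := fun u => by
  refine (h u).trans ?_
  simp only [AT, add_mulVec, sub_mulVec, dotProduct_add, dotProduct_sub, add_le_add_iff_right,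
    sub_le_sub_iff_right]
  simp only [dotProduct, mulVec_diagonal]
  refine Finset.sum_le_sum fun i _ => ?_
  have h1 : 1 ≤ cosh (x i) ^ 2 := one_le_pow₀ (one_le_cosh _)
  have h2 := mul_self_nonneg (u i)
  simp only [Finset.notMem_empty, if_false]
  split_ifs <;> nlinarith

lemma det_pos {L T η H t : ℝ} {x : V n} {W : Mx n} (hn : 0 < n) (t0 : 0 < t) (η1 : η ≤ 1 / 2)
    (η0 : 0 ≤ η) (hW : Wᵀ = W) (s : Cube n) (h : G1 L T η H t (gz s (x, W)).1 (gz s (x, W)).2) :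
    0 < Kp.dt x W := by
  have h1 : η ^ 3 ≤ (1 / 2) ^ 3 := pow_le_pow_left₀ η0 η1 3
  have h2 : 0 < aS (gz s (x, W)).1 ^ 2 := by
    refine (sq_nonneg _).lt_of_ne fun h0 => ?_
    have := h.co.q1
    rw [← h0, mul_zero] at this
    linarith
  have h3 : (gz s (x, W)).2ᵀ = (gz s (x, W)).2 := by
    simp only [gz, TapPl.cj, transpose_mul, diagonal_transpose, hW, Matrix.mul_assoc]
  have := (atStmt n ∅ _ _ hn).2.2 _ (mul_pos (by linarith) h2) h3 (pos_empty h.pos)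
  exact this.trans_eq (Ga98.dt_gz s x W)

variable {p : Pm} {e t η : ℝ}

lemma cv_le (h : p.Ok) : p.cv ≤ p.k3 / 100 ∧ p.k3 ≤ 1 / 1000 ∧ p.e1 ≤ 1 / 2 := by
  have h1 : (1 : ℝ) ≤ p.A := by exact_mod_cast h.A
  have h2 : p.k3 ≤ 1 / 1000 := by
    linarith [h.k3.2, h.k2.2, h.k4.2, h.d.2, h.ch.2]
  exact ⟨by nlinarith [h.cv', h.cv], h2, by linarith [h.e1.2]⟩

lemma M_eq (t0 : 0 < t) : p.M t = p.n * (t * √t) := by
  rw [Pm.M, sqrt_eq_rpow, ← rpow_one_add' t0.le (by norm_num)]; norm_num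

lemma sqrt_le (h : p.Ok) (t0 : 0 < t) (t1 : t ≤ 1) (he : p.Er e t) (h2 : e ^ 2 ≤ η) {j : ℕ}
    (hj : j ≤ 100) : √t ≤ η ^ j := by
  obtain ⟨c1, c2, -⟩ := cv_le h
  have hj' : (j : ℝ) ≤ 100 := by exact_mod_cast hj
  calc √t ≤ t ^ (p.cv * (2 * j : ℕ)) := by
        rw [sqrt_eq_rpow]
        refine rpow_le_rpow_of_exponent_ge t0 t1 ?_
        push_cast; nlinarith [h.cv]
    _ = ((t ^ p.cv) ^ 2) ^ j := by rw [rpow_mul t0.le, rpow_natCast, pow_mul]
    _ ≤ _ := pow_le_pow_left₀ (by positivity)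
      ((pow_le_pow_left₀ (by positivity) he.2.2.1 2).trans h2) j

lemma rp_le (b : p.Big) (he : p.Er e t) (h2 : e ^ 2 ≤ η) (j : ℕ) :
    (p.n : ℝ) ^ (-p.cv * (2 * j : ℕ)) ≤ η ^ j := by
  rw [rpow_mul (Nat.cast_nonneg _), rpow_natCast, pow_mul]
  exact pow_le_pow_left₀ (by positivity)
    ((pow_le_pow_left₀ (by positivity) he.2.2.2 2).trans h2) j

lemma lo_eq (b : p.Big) : p.lo = (p.n : ℝ) ^ (p.d - 2 / 3) := by
  rw [Pm.lo, rpow_sub (by linarith [b.n1])]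

lemma inv_le (h : p.Ok) (b : p.Big) (ht : p.lo ≤ t) : 1 / (p.n : ℝ) ≤ t := by
  refine le_trans ?_ ht
  rw [lo_eq b, one_div, ← rpow_neg_one]
  exact rpow_le_rpow_of_exponent_le b.n1 (by linarith [h.d.1])

lemma sz {c H : ℝ} {N : ℕ} (h : p.Ok) (b : p.Big) (ht : t ∈ Icc p.lo p.t0) (he : p.Er e t)
    (h2 : e ^ 2 ≤ η) (h1 : η ≤ e) (hc : p.e1 ≤ c) (hN : N ≤ p.n) (hT : p.T ≤ (p.n : ℝ) ^ p.d)
    (hl : N * log p.n ≤ (p.n : ℝ) ^ p.d) (H0 : (p.n : ℝ) ^ p.d ≤ H) (H1 : H ≤ p.L * p.M t)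
    (H2 : H ≤ η ^ 66 * p.n * t) (H3 : H ≤ η ^ 33 * log (1 / t) * p.M t) :
    Sz p.n p.L p.T c η ((p.n : ℝ) ^ p.k3 * √(p.n * t)) H t N := by
  obtain ⟨c1, c2, c3⟩ := cv_le h
  have n1 := b.n1
  have n0 : (0 : ℝ) < p.n := by linarith
  have t0 : 0 < t := b.lo_pos.trans_le ht.1
  have t1 : t ≤ 1 := by linarith [ht.2, h.t0.2]
  have tl := ht.1
  rw [lo_eq b] at tl
  have η0 : 0 < η := (pow_pos he.1 2).trans_le h2
  have cv0 := h.cv
  refine ⟨hN, inv_le h b ht.1, η0, h1.trans (he.2.1.trans hc), sqrt_le h t0 t1 he h2 (by norm_num),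
    hT.trans ?_, ?_, by positivity, ?_, hl.trans H0, by rwa [M_eq t0, ← mul_assoc] at H1, H2,
    by rwa [M_eq t0, ← mul_assoc] at H3⟩
  · calc (p.n : ℝ) ^ p.d ≤ (p.n : ℝ) ^ ((2 : ℕ) + -p.cv * (2 * 6 : ℕ) + (p.d - 2 / 3)) :=
          rpow_le_rpow_of_exponent_le n1 (by push_cast; linarith)
      _ = (p.n : ℝ) ^ 2 * (p.n : ℝ) ^ (-p.cv * (2 * 6 : ℕ)) * (p.n : ℝ) ^ (p.d - 2 / 3) := by
          rw [rpow_add n0, rpow_add n0, rpow_natCast]
      _ ≤ (p.n : ℝ) ^ 2 * η ^ 6 * t := by have := rp_le b he h2 6; gcongr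
      _ = _ := by ring
  · calc p.T ^ 3 ≤ ((p.n : ℝ) ^ p.d) ^ 3 := pow_le_pow_left₀ (by linarith [h.T]) hT 3
      _ = (p.n : ℝ) ^ 2 * ((p.n : ℝ) ^ (p.d - 2 / 3)) ^ 3 := by
          rw [← rpow_natCast, ← rpow_natCast _ 3, ← rpow_natCast _ 2, ← rpow_mul n0.le,
            ← rpow_mul n0.le, ← rpow_add n0]
          congr 1; push_cast; ring
      _ ≤ _ := by gcongr
  · have a1 : (p.n : ℝ) ^ (1 / 6 : ℝ) ≤ √(p.n * t) := by
      refine le_sqrt_of_sq_le ?_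
      calc _ = (p.n : ℝ) ^ (1 / 3 : ℝ) := by
            rw [← rpow_natCast, ← rpow_mul n0.le]; norm_num
        _ ≤ (p.n : ℝ) ^ (1 + (p.d - 2 / 3)) :=
            rpow_le_rpow_of_exponent_le n1 (by linarith [h.d.1])
        _ ≤ _ := by rw [rpow_add n0, rpow_one]; gcongr
    have a2 : (p.n : ℝ) ^ p.k3 ≤ η ^ 57 * √(p.n * t) :=
      calc (p.n : ℝ) ^ p.k3 ≤ (p.n : ℝ) ^ (-p.cv * (2 * 57 : ℕ) + 1 / 6) :=
            rpow_le_rpow_of_exponent_le n1 (by push_cast; linarith)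
        _ ≤ _ := by rw [rpow_add n0]; have := rp_le b he h2 57; gcongr
    calc _ ≤ η ^ 57 * √(p.n * t) * √(p.n * t) := by gcongr
      _ = _ := by rw [mul_assoc, mul_self_sqrt (by positivity), mul_assoc]

lemma wt (h : p.Ok) (b : p.Big) (ht : t ∈ Icc p.lo p.t0) (he : p.Er e t) (h2 : e ^ 2 ≤ η)
    (h1 : η ≤ e) (hA : 66 ≤ p.A) (hT : 8 * p.T * p.e1 ≤ 1) :
    WT p.T 22 (η ^ 3) ((p.n : ℝ) ^ p.k3 * √(p.n * t)) t (p.Wt e t) := by
  obtain ⟨-, -, c3⟩ := cv_le h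
  have t0 : 0 < t := b.lo_pos.trans_le ht.1
  have t1 : t ≤ 1 := by linarith [ht.2, h.t0.2]
  have e0 := he.1
  have e1 : e ≤ 1 / 2 := he.2.1.trans c3
  have η0 : 0 < η := (pow_pos he.1 2).trans_le h2
  have T0 : 0 ≤ p.T := by linarith [h.T]
  have hT' : 8 * p.T * e ≤ 1 := (mul_le_mul_of_nonneg_left he.2.1 (by positivity)).trans hT
  refine O0.Wb.Wt_ws' h e0 e1 t0 ?_ ?_ (pow_pos η0 3) le_rfl
  · calc 8 * p.T * e ^ p.A ≤ 8 * p.T * e ^ 25 :=
          mul_le_mul_of_nonneg_left (pow_le_pow_of_le_one e0.le (by linarith) (by omega))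
            (by positivity)
      _ = 8 * p.T * e * (e ^ 2) ^ 12 := by ring
      _ ≤ 1 * η ^ 12 := by gcongr
      _ = _ := by ring
  · have a1 : (η ^ 3) ^ 4 ≤ e := by
      rw [← pow_mul]
      exact (pow_le_of_le_one η0.le (by linarith) (by norm_num)).trans h1
    calc 4 * (η ^ 3) ^ 4 * p.T * t ≤ 4 * e * p.T * 1 := by gcongr
      _ ≤ 1 := by nlinarith [mul_nonneg T0 e0.le]

lemma kb {H : ℝ} {C : ℕ} (h : p.Ok) (b : p.Big) (ht : t ∈ Icc p.lo p.t0) (he : p.Er e t)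
    {B : Set (V p.n × Mx p.n)} (mB : MeasurableSet B)
    (neg : ∀ x W s, Wᵀ = W → gz s (x, W) ∉ B → 0 < Kp.dt x W) (hC : (C : ℝ) ≤ p.Cn)
    (er : ∀ WW : Set (Mx p.n), MeasurableSet WW →
      (∀ O W : Mx p.n, O * Oᵀ = 1 → W ∈ WW → O * W * Oᵀ ∈ WW) → (∀ W ∈ WW, Eig.opn W ≤ 4) →
      Kp.Er t Kp.cx WW ≤ ex (C * log p.n))
    (pt : Pt t ({z : V p.n × Mx p.n | z.2 ∈ p.Wt e t ∧ z ∈ B}.indicator 1) ≤ ex (-(9 * H))) :
    O0.Kb t (p.Wt e t) (fun x W s => gz s (x, W) ∈ B) H ((p.n : ℝ) ^ p.Cn) := by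
  obtain ⟨-, -, c3⟩ := cv_le h
  have t0 : 0 < t := b.lo_pos.trans_le ht.1
  have t1 : t ≤ 1 := by linarith [ht.2, h.t0.2]
  obtain ⟨m, i, -⟩ := O0.wStmt p.n p.k3 (e ^ p.A) (min t p.t2) (pow_pos he.1 _)
    (lt_min t0 h.t2_pos)
  refine ⟨fun s => Ga98.meas_gz s mB, fun x W _ hW hd s => by_contra fun hB =>
    lt_asymm hd (neg x W s hW hB), (er _ m i fun W hW => ?_).trans ?_,
    (ptE_eq m i t mB).trans_le pt⟩
  · refine (Eig.opn_le_of_sq (c := 3) (by norm_num) fun v => ?_).trans (by norm_num)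
    have := (O0.Wb.Wt_op2 h he.1 (by linarith [he.2.1]) t0 t1 hW).1 v
    norm_num
    exact this
  · refine ENNReal.ofReal_le_ofReal ?_
    rw [mul_comm, ← rpow_def_of_pos (by linarith [b.n1])]
    exact rpow_le_rpow_of_exponent_le b.n1 hC

lemma ev_log (a : ℝ) {d : ℝ} (hd : 0 < d) :
    ∀ᶠ n : ℕ in atTop, a * log n ≤ (n : ℝ) ^ d ∧ a ≤ (n : ℝ) ^ d := by
  have h1 := ((isLittleO_log_rpow_atTop hd).const_mul_left a).bound one_pos
  filter_upwards [tendsto_natCast_atTop_atTop.eventually h1, ((tendsto_rpow_atTop hd).comp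
    tendsto_natCast_atTop_atTop).eventually_ge_atTop a] with n hn h2
  rw [one_mul, norm_eq_abs, norm_eq_abs, abs_of_nonneg (a := (n : ℝ) ^ d) (by positivity)] at hn
  exact ⟨(le_abs_self _).trans hn, h2⟩

end Top14

open Top14

theorem topGlue : TopGlue := by
  intro ms hb
  obtain ⟨te, te0, Ce, her⟩ := er_le All.er
  have h1 : ∀ L : ℝ, ∃ T0 : ℝ, ∀ T : ℝ, ∃ c > (0 : ℝ), ∃ N : ℕ, 50000 ≤ L → T0 ≤ T →
      ∀ (n : ℕ) (t η E H : ℝ) (S0 : Set (Mx n)), Sz n L T c η E H t N → WT T 22 (η ^ 3) E t S0 →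
      Pt t ({z : V n × Mx n | z.2 ∈ S0 ∧ ¬ G1 L T η H t z.1 z.2}.indicator 1) ≤ ex (-(9 * H)) ∧
      (H ≤ η ^ 9 * n * (t * √t) → Pt t ({z : V n × Mx n | z.2 ∈ S0 ∧
        ¬ (G1 L T η H t z.1 z.2 ∧ Sh (η ^ 3) t z.1)}.indicator 1) ≤ ex (-(9 * H))) := fun L => by
    by_cases hL : 50000 ≤ L
    · obtain ⟨T0, h⟩ := hb 22 (by norm_num) L hL
      refine ⟨T0, fun T => ?_⟩
      by_cases hT : T0 ≤ T
      · obtain ⟨c, c0, N, h⟩ := h T hT
        exact ⟨c, c0, N, fun _ _ => h⟩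
      · exact ⟨1, one_pos, 0, fun _ h => absurd h hT⟩
    · exact ⟨0, fun _ => ⟨1, one_pos, 0, fun h => absurd h hL⟩⟩
  choose T0 c c0 N hN using h1
  have hn : ∀ᶠ p in FF, 0 < p.d → N p.L p.T ≤ p.n ∧ Ce ≤ p.n ∧ p.T ≤ (p.n : ℝ) ^ p.d ∧
      N p.L p.T * log p.n ≤ (p.n : ℝ) ^ p.d := O0.ev_n fun q => by
    by_cases hd : 0 < q.d
    · filter_upwards [eventually_ge_atTop (N q.L q.T), eventually_ge_atTop Ce, ev_log q.T hd,
        ev_log (N q.L q.T) hd] with n a1 a2 a3 a4 _ using ⟨a1, a2, a3.2, a4.1⟩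
    · exact .of_forall fun _ h => absurd h hd
  have key : ∀ᶠ p in FF, ∀ t ∈ Icc p.lo p.t0,
      O0.Kb t (p.Wt p.e1 t) (base.c p t) (p.Hc t) ((p.n : ℝ) ^ p.Cn) ∧
      ∀ e, p.Er e t → O0.Kb t (p.Wt e t) (base.s p e t) (p.Hs e t) ((p.n : ℝ) ^ p.Cn) := by
    filter_upwards [O0.ev_ok, O0.ev_big, hn,
      O0.ev_L (Q := fun _ x => 50000 ≤ x) fun _ => O0.ev_ge _,
      O0.ev_T fun q => O0.ev_ge (T0 q.L),
      O0.ev_A (Q := fun _ x => 66 ≤ x) fun _ => eventually_ge_atTop _,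
      O0.ev_e1 fun q => (O0.ev_sm (c q.L q.T)).and (O0.ev_sm (1 / (8 * q.T))),
      O0.ev_t0 fun q => ((O0.ev_sm te).and (O0.ev_sm ((q.e1 ^ 66 / q.L) ^ 2))).and
        (O0.ev_sm (exp (-(q.L / q.e1 ^ 33)))),
      O0.ev_Cn (Q := fun _ x => (Ce : ℝ) ≤ x) fun _ => O0.ev_ge _]
      with p h b hn hL hT hA h1 h0 hC t ht
    obtain ⟨n1, n2, n3, n4⟩ := hn h.d.1
    obtain ⟨-, -, c3⟩ := cv_le h
    have L0 := h.L0
    have e0 := h.e1.1
    have T1 := h.T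
    have hc : p.e1 ≤ c p.L p.T := h1.1.2 (c0 _ _)
    have hT8 : 8 * p.T * p.e1 ≤ 1 := by
      have : p.e1 ≤ 1 / (8 * p.T) := h1.2.2 (show 0 < 1 / (8 * p.T) by positivity)
      rwa [le_div_iff₀' (by positivity)] at this
    have t0 : 0 < t := b.lo_pos.trans_le ht.1
    have t1 : t ≤ 1 := by linarith [ht.2, h.t0.2]
    have a1 : t ≤ te := ht.2.trans (h0.1.1.2 te0)
    have a2 : t ≤ (p.e1 ^ 66 / p.L) ^ 2 :=
      ht.2.trans (h0.1.2.2 (show 0 < (p.e1 ^ 66 / p.L) ^ 2 by positivity))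
    have a3 : t ≤ exp (-(p.L / p.e1 ^ 33)) := ht.2.trans (h0.2.2 (exp_pos _))
    have er := fun WW => her p.n t WW n2 ⟨inv_le h b ht.1, a1⟩
    have n0 : 0 < p.n := lt_of_lt_of_le (by norm_num) b.n
    have M0 : 0 ≤ p.M t := Pm.M_nn t0.le
    have hB := hN p.L p.T hL hT p.n t
    constructor
    · have he := b.er h ht
      have h2 : p.e1 ^ 2 ≤ p.e1 := by nlinarith
      have H1 : p.Hc t ≤ p.L * p.M t := min_le_left _ _
      have s1 : p.L * √t ≤ p.e1 ^ 66 := by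
        rw [← le_div_iff₀' L0]; exact sqrt_le_iff.2 ⟨by positivity, a2⟩
      have s2 : p.L ≤ p.e1 ^ 33 * log (1 / t) := by
        rw [← div_le_iff₀' (by positivity), one_div, log_inv, le_neg]
        exact (log_le_iff_le_exp t0).2 a3
      refine kb (B := {z | ¬ G1 p.L p.T p.e1 (p.Hc t) t z.1 z.2}) h b ht he
        ((ms p.n p.T 0 p.e1 0 0 0 t).2.2.2.2.2.2.2.2.2 _ _).compl
        (fun x W s hW hB => det_pos n0 t0 c3 e0.le hW s (not_not.1 hB)) hC er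
        (hB _ _ _ _ (sz h b ht he h2 le_rfl hc n1 n3 n4
          ((b.Hs_ge h ht.1 he).trans (h.Hs_le t0.le he)) H1 (H1.trans ?_)
          (H1.trans (mul_le_mul_of_nonneg_right s2 M0))) (wt h b ht he h2 le_rfl hA hT8)).1
      rw [M_eq t0]
      calc _ = p.L * √t * (p.n * t) := by ring
        _ ≤ p.e1 ^ 66 * (p.n * t) := by gcongr
        _ = _ := by ring
    · intro e he
      have e0 := he.1
      have e1 : e ≤ 1 / 2 := he.2.1.trans c3
      have h2 : e ^ 2 ≤ e := by nlinarith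
      have H1 : p.Hs e t ≤ e ^ p.A * p.M t := min_le_left _ _
      have p1 : ∀ j, j ≤ 33 → e ^ p.A ≤ (e ^ 2) ^ j := fun j hj => by
        rw [← pow_mul]; exact pow_le_pow_of_le_one e0.le (by linarith) (by omega)
      have s2 : 1 ≤ log (1 / t) := by
        rw [le_log_iff_exp_le (by positivity), le_div_iff₀ t0]
        nlinarith [exp_one_lt_d9, ht.2, h.t0.2, exp_pos 1]
      refine kb (B := {z | ¬ (G1 p.L p.T (e ^ 2) (p.Hs e t) t z.1 z.2 ∧ Sh ((e ^ 2) ^ 3) t z.1)})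
        h b ht he (((ms p.n p.T 0 (e ^ 2) 0 0 0 t).2.2.2.2.2.2.2.2.2 _ _).inter
          (measurable_fst (ms p.n 0 ((e ^ 2) ^ 3) 0 0 0 0 t).2.1)).compl
        (fun x W s hW hB => det_pos n0 t0 (h2.trans e1) (by positivity) hW s (not_not.1 hB).1) hC er
        ((hB _ _ _ _ (sz h b ht he le_rfl h2 hc n1 n3 n4 (b.Hs_ge h ht.1 he)
          ((h.Hs_le t0.le he).trans (min_le_left _ _)) (H1.trans ?_) (H1.trans ?_))
          (wt h b ht he le_rfl h2 hA hT8)).2 (H1.trans ?_))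
      · rw [M_eq t0]
        calc _ = e ^ p.A * √t * (p.n * t) := by ring
          _ ≤ (e ^ 2) ^ 0 * (e ^ 2) ^ 66 * (p.n * t) := by
              have := p1 0 (by norm_num)
              have := sqrt_le h t0 t1 he le_rfl (j := 66) (by norm_num)
              gcongr
          _ = _ := by ring
      · exact mul_le_mul_of_nonneg_right ((p1 33 le_rfl).trans
          (le_mul_of_one_le_right (by positivity) s2)) M0
      · rw [mul_assoc, ← M_eq t0]
        exact mul_le_mul_of_nonneg_right (p1 9 (by norm_num)) M0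
  exact ⟨key.mono fun p h t ht => (h t ht).1, key.mono fun p h t ht => (h t ht).2⟩

end Crest.Agent.T157.Kb

end
end

-- ▼ part T157/KbBack_10
section

/-!
# Row 157, part A2, section 2 (helper10): the good event `G1` in the words of `(x, W, s)`; (T1)
-/

set_option autoImplicit false

noncomputable section

namespace Crest.Agent.T157.Kb

open MeasureTheory Matrix Set Filter
open Crest.Agent.T157.E Crest.Agent.T157.Cond Crest.Agent.T157.Tap
open Crest.Agent.T157.Qe (Le bv)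
open Crest.Agent.T157.Kp (Sl P5)
open Crest.Agent.T157.TapPl

variable {n : ℕ}

namespace Bk10

section conj
variable {O : Mx n} (hO : O * Oᵀ = 1)
include hO

lemma mv_conj (M : Mx n) (v : V n) : (O * M * Oᵀ) *ᵥ (O *ᵥ v) = O *ᵥ (M *ᵥ v) := by
  rw [mulVec_mulVec, Matrix.mul_assoc, mul_eq_one_comm.1 hO, Matrix.mul_one, mulVec_mulVec]

lemma dot_conj (u v : V n) : (O *ᵥ u) ⬝ᵥ (O *ᵥ v) = u ⬝ᵥ v := by
  rw [dotProduct_mulVec, vecMul_mulVec, mul_eq_one_comm.1 hO, vecMul_one]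

lemma bv_conj (e c : V n) : bv (O *ᵥ e) (O *ᵥ c) = O *ᵥ bv e c := by
  simp only [bv, Qe.R1, sub_mulVec, one_mulVec, vecMulVec_mulVec, dot_conj hO, mulVec_sub,
    op_smul_eq_smul, mulVec_smul]

lemma unitv_conj (u : V n) : unitv (O *ᵥ u) = O *ᵥ unitv u := by
  rw [unitv, unitv, len, len, dot_conj hO, mulVec_smul]

lemma Le_conj {A B : Mx n} (h : Le (O * A * Oᵀ) (O * B * Oᵀ)) : Le A B := fun u => by
  have := h (O *ᵥ u)
  rwa [mv_conj hO, mv_conj hO, dot_conj hO, dot_conj hO] at this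

lemma sm_conj (z : ℝ) : O * (z • (1 : Mx n)) * Oᵀ = z • (1 : Mx n) := by
  rw [Matrix.mul_smul, Matrix.mul_one, Matrix.smul_mul, hO]

lemma tr_conj (z : ℝ) (W : Mx n) :
    (z • (1 : Mx n) - O * W * Oᵀ)⁻¹.trace = (z • (1 : Mx n) - W)⁻¹.trace := by
  have h' := mul_eq_one_comm.1 hO
  rw [← sm_conj hO z, ← Matrix.sub_mul, ← Matrix.mul_sub, sm_conj hO, Matrix.mul_inv_rev,
    Matrix.mul_inv_rev, inv_eq_right_inv hO, inv_eq_right_inv h', trace_mul_comm,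
    Matrix.mul_assoc, h', Matrix.mul_one]

end conj

lemma vv_conj (O : Mx n) (u v : V n) : O * vecMulVec u v * Oᵀ = vecMulVec (O *ᵥ u) (O *ᵥ v) := by
  rw [mul_vecMulVec, vecMulVec_mul, vecMul_transpose]

section sign
variable {σ : V n} (h : Pl.IsSign σ)
include h

lemma avg_even (F : ℝ → ℝ) (hF : ∀ y, F (-y) = F y) (x : V n) :
    avg (fun i => F ((σ * x) i)) = avg fun i => F (x i) := by
  congr 1; funext i
  rcases h i with e | e <;> simp [e, hF]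

lemma aS_sign (x : V n) : aS (σ * x) = aS x :=
  avg_even h (fun y => Real.tanh y ^ 2) (fun y => by rw [Real.tanh_neg]; ring) x

lemma R4_sign (x : V n) : R4 (σ * x) = R4 x :=
  avg_even h (fun y => Real.tanh y * (y - Real.tanh y)) (fun y => by rw [Real.tanh_neg]; ring) x

lemma p4_sign (x : V n) : avg (fun i => th (σ * x) i ^ 4) = avg fun i => th x i ^ 4 :=
  avg_even h (fun y => Real.tanh y ^ 4) (fun y => by rw [Real.tanh_neg]; ring) x

lemma p6_sign (x : V n) : avg (fun i => th (σ * x) i ^ 6) = avg fun i => th x i ^ 6 :=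
  avg_even h (fun y => Real.tanh y ^ 6) (fun y => by rw [Real.tanh_neg]; ring) x

lemma e8_sign (x : V n) : avg (fun i => min ((σ * x) i ^ 8) ((σ * x) i ^ 2)) =
    avg fun i => min (x i ^ 8) (x i ^ 2) :=
  avg_even h (fun y => min (y ^ 8) (y ^ 2)) (fun y => by ring_nf) x

lemma Sl_sign (l : ℝ) (x : V n) : Sl l (σ * x) = Sl l x := by
  ext i
  simp only [Sl, Finset.mem_filter, aS_sign h, th_sign h, Pi.mul_apply, mul_pow,
    show σ i ^ 2 = 1 by rw [sq, sign_mul_self h], one_mul]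

omit h in
lemma dg_mv (σ u : V n) : diagonal σ *ᵥ u = σ * u := by funext i; simp [mulVec_diagonal]

lemma dg_orth : diagonal σ * (diagonal σ)ᵀ = (1 : Mx n) := by
  rw [diagonal_transpose, diag_mul_self h]

omit h in
lemma cj_eq (σ : V n) (W : Mx n) : cj σ W = diagonal σ * W * (diagonal σ)ᵀ := by
  rw [diagonal_transpose, cj]

lemma ee_sign (x : V n) : ee (σ * x) = σ * ee x := by
  rw [ee, th_sign h, ← dg_mv, unitv_conj (dg_orth h), dg_mv, ee]

lemma f2_sign (x : V n) : f2 (σ * x) = σ * f2 x := by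
  rw [f2, th_sign h, ← dg_mv σ x, ← dg_mv σ (th x), unitv_conj (dg_orth h), bv_conj (dg_orth h),
    unitv_conj (dg_orth h), dg_mv, f2]

lemma AT_cj (S : Finset (Fin n)) (x : V n) (W : Mx n) :
    AT S (σ * x) (cj σ W) = cj σ (AT S x W) := by
  have e : cj σ (diagonal fun i => if i ∈ S then 1 else Real.cosh (x i) ^ 2) =
      diagonal fun i => if i ∈ S then 1 else Real.cosh ((σ * x) i) ^ 2 := by
    rw [cj, diagonal_mul_diagonal, diagonal_mul_diagonal]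
    congr 1; funext i
    rcases h i with e | e <;> by_cases hi : i ∈ S <;> simp [e, hi]
  rw [AT, AT, cj_sub, cj_sub, cj_add, cj_smul, cj_smul, cj_one h, cj_vecMulVec, e, aS_sign h,
    th_sign h]

lemma P5_cj {S : Finset (Fin n)} {x : V n} {W : Mx n} (k : P5 S (σ * x) (cj σ W)) : P5 S x W := by
  refine Le_conj (dg_orth h) ?_
  rw [← cj_eq, ← cj_eq, ← AT_cj h, cj_smul, cj_sub, cj_smul, cj_one h, ← aS_sign h x]
  exact k

lemma Pos_AT_cj {l : ℝ} {S : Finset (Fin n)} {x : V n} {W : Mx n}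
    (k : Pos l (AT S (σ * x) (cj σ W))) : Pos l (AT S x W) := by
  have := Pos_cj h k
  rwa [AT_cj h, cj_cj h] at this

end sign

lemma AT_mono {S S' : Finset (Fin n)} (hS : S' ⊆ S) (x : V n) (W : Mx n) :
    Le (AT S x W) (AT S' x W) := fun u => by
  simp only [AT, sub_mulVec, add_mulVec, dotProduct_sub, dotProduct_add]
  gcongr
  refine Finset.sum_le_sum fun i _ => ?_
  rw [mulVec_diagonal, mulVec_diagonal, mul_left_comm, mul_left_comm (u i)]
  refine mul_le_mul_of_nonneg_right ?_ (mul_self_nonneg _)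
  by_cases h' : i ∈ S'
  · simp [h', hS h']
  · rw [if_neg h']
    split_ifs
    · exact one_le_pow₀ (Real.one_le_cosh _)
    · exact le_rfl

lemma Sl_anti {l l' : ℝ} (hl : l ≤ l') (x : V n) : Sl l' x ⊆ Sl l x := fun i hi => by
  simp only [Sl, Finset.mem_filter, Finset.mem_univ, true_and] at hi ⊢
  exact (mul_le_mul_of_nonneg_right hl (Cell.aS_nonneg x)).trans hi

lemma P5_mono {S S' : Finset (Fin n)} (hS : S' ⊆ S) {x : V n} {W : Mx n} (h : P5 S x W) :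
    P5 S' x W := fun u => (h u).trans (AT_mono hS x W u)


lemma pp_eq (x : V n) : th x ⬝ᵥ th x = n * aS x := by
  rcases Nat.eq_zero_or_pos n with rfl | hn
  · simp [dotProduct]
  · rw [aS, avg, mul_div_cancel₀ _ (by positivity)]; simp only [dotProduct, sq]

end Bk10

open Bk10

/-- the gauge-free facts on `x` -/
structure Xb (L T η H t : ℝ) (x : V n) : Prop where
  q1 : t ≤ T * aS x ^ 2
  q2 : aS x ^ 2 ≤ T * t
  qu : aS x ^ 2 ≤ (L / 50) ^ 2 * t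
  r4 : |R4 x - aS x ^ 2| ≤ η ^ 30 * aS x ^ 2
  p4 : |avg (fun i => th x i ^ 4) - 3 * aS x ^ 2 + 8 * aS x ^ 3| ≤ η ^ 30 * aS x ^ 3
  p6 : |avg (fun i => th x i ^ 6) - 15 * aS x ^ 3| ≤ η ^ 30 * aS x ^ 3
  e8 : avg (fun i => min (x i ^ 8) (x i ^ 2)) ≤ η ^ 30 * aS x ^ 3
  c1 : ((Sl (Real.log n ^ 2) x).card : ℝ) ≤ m1 n T H t
  c2 : ((Sl (lam T t) x).card : ℝ) ≤ η ^ 30 * aS x ^ 3 * n
  un : ee x ⬝ᵥ ee x = 1

/-- the gauge-free facts on `(x, W)` that are constant along the orbit -/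
structure Wb (T η H : ℝ) (x : V n) (W : Mx n) : Prop where
  ha : HA (η ^ 3) η x W
  tr : TR (T * H) x W
  s1 : aS x / T ≤ 2 - ee x ⬝ᵥ W *ᵥ ee x
  s2 : 2 - ee x ⬝ᵥ W *ᵥ ee x ≤ T * aS x
  s3 : |bv (ee x) (W *ᵥ ee x) ⬝ᵥ bv (ee x) (W *ᵥ ee x) - (2 - ee x ⬝ᵥ W *ᵥ ee x)| ≤
    η ^ 27 * (2 - ee x ⬝ᵥ W *ᵥ ee x)

/-- the part of the good event that is constant along the orbit -/
structure Gi (L T η H t : ℝ) (x : V n) (W : Mx n) : Prop extends Xb L T η H t x, Wb T η H x W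

/-- **the good event in the words of `(x, W)`** -/
structure Gb (L T η H t : ℝ) (x : V n) (W : Mx n) : Prop extends Gi L T η H t x W where
  pos : Pos ((1 - 2 * η ^ 3) * aS x ^ 2) (AT (Sl (lam T t) x) x W)
  p5 : P5 (Sl (lam T t) x) x W

variable {L T η H t : ℝ} {x : V n} {W : Mx n}

theorem Wb.conj {O : Mx n} (hO : O * Oᵀ = 1) {y : V n} (hq : aS y = aS x)
    (he : ee y = O *ᵥ ee x) (hf : f2 y = O *ᵥ f2 x) (h : Wb T η H y (O * W * Oᵀ)) :
    Wb T η H x W := by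
  obtain ⟨h1, h2, h3, h4, h5⟩ := h
  rw [he, mv_conj hO, dot_conj hO] at h3 h4 h5
  rw [bv_conj hO, dot_conj hO] at h5
  rw [TR, tr_conj hO, hq] at h2
  refine ⟨Le_conj hO ?_, h2, hq ▸ h3, hq ▸ h4, h5⟩
  rw [sm_conj hO, Matrix.mul_add, Matrix.add_mul, Matrix.mul_smul, Matrix.smul_mul, vv_conj, ← hf,
    ← hq]
  exact h1

theorem G1.gb (h : G1 L T η H t x W) : Gb L T η H t x W :=
  ⟨⟨⟨h.co.q1, h.co.q2, h.qu, h.co.r4, h.xm.p4, h.xm.p6, h.xm.e8, h.c1, h.c2, h.col.unit⟩,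
    ⟨h.ha, h.tr, h.col.s1, h.col.s2, h.col.s3⟩⟩, h.pos, h.p5⟩

theorem Gb.sign {σ : V n} (hσ : Pl.IsSign σ) (h : Gb L T η H t (σ * x) (cj σ W)) :
    Gb L T η H t x W := by
  have w : Wb T η H x W := Wb.conj (dg_orth hσ) (aS_sign hσ x) (by rw [dg_mv, ee_sign hσ])
    (by rw [dg_mv, f2_sign hσ]) (cj_eq σ W ▸ h.toWb)
  have a1 := Pos_AT_cj hσ h.pos
  have a2 := P5_cj hσ h.p5
  obtain ⟨h1, h2, h3, h4, h5, h6, h7, h8, h9, h10⟩ := h.toXb
  rw [ee_sign hσ, dot_sign hσ] at h10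
  rw [e8_sign hσ] at h7
  rw [p6_sign hσ] at h6
  rw [p4_sign hσ] at h5
  rw [R4_sign hσ] at h4
  rw [Sl_sign hσ] at h8 h9 a1 a2
  rw [aS_sign hσ] at h1 h2 h3 h4 h5 h6 h7 h9 a1
  exact ⟨⟨⟨h1, h2, h3, h4, h5, h6, h7, h8, h9, h10⟩, w⟩, a1, a2⟩

/-- **gauge back** -/
theorem G1.back {s : Cube n} (h : G1 L T η H t (gz s (x, W)).1 (gz s (x, W)).2) :
    Gb L T η H t x W := h.gb.sign (Pl.isSign_sv s)

theorem Sh.back {ε : ℝ} {s : Cube n} (h : Sh ε t (gz s (x, W)).1) : |aS x ^ 2 - t| ≤ ε * t :=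
  aS_sign (Pl.isSign_sv s) x ▸ h.1

theorem Xb.q0 (h : Xb L T η H t x) (ht : 0 < t) : 0 < aS x :=
  (Cell.aS_nonneg x).lt_of_ne' fun h0 => by have := h.q1; rw [h0] at this; linarith

/-- the column `(z - W) e` -/
theorem Gi.col (h : Gi L T η H t x W) (hT : 0 ≤ T) (hη : η ^ 27 ≤ 1) (z : ℝ) :
    ((z • (1 : Mx n) - W) *ᵥ ee x) ⬝ᵥ ((z • (1 : Mx n) - W) *ᵥ ee x) ≤
      2 * (z - 2) ^ 2 + 2 * (T * aS x) ^ 2 + 2 * (T * aS x) := by
  have h1 := h.un
  have h2 := h.s2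
  have h3 := abs_le.1 h.s3
  have h4 : 0 ≤ 2 - ee x ⬝ᵥ W *ᵥ ee x := (div_nonneg (Cell.aS_nonneg x) hT).trans h.s1
  simp only [bv, Qe.R1, sub_mulVec, one_mulVec, vecMulVec_mulVec, op_smul_eq_smul, smul_mulVec,
    sub_dotProduct, dotProduct_sub, smul_dotProduct, dotProduct_smul, smul_eq_mul, h1,
    dotProduct_comm (W *ᵥ ee x) (ee x)] at h3 ⊢
  generalize ee x ⬝ᵥ W *ᵥ ee x = a at *
  nlinarith [h3.2, mul_le_mul_of_nonneg_right hη h4, sq_nonneg (z - 2 - (2 - a)),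
    mul_self_le_mul_self h4 h2]

/-- the overlap of the spins with `e` -/
theorem G1.es {s : Cube n} (h : G1 L T η H t (gz s (x, W)).1 (gz s (x, W)).2) :
    (ee x ⬝ᵥ sv s) ^ 2 ≤ T ^ 2 * n * aS x := by
  have hσ := Pl.isSign_sv s
  have a := h.co.a1
  have q0 := Cell.aS_nonneg x
  simp only [gz, aS_sign hσ, bS, th_sign hσ] at a
  rcases Nat.eq_zero_or_pos n with rfl | hn
  · simp [dotProduct]
  have n0 : (0 : ℝ) < n := by positivity
  have e1 : th x ⬝ᵥ sv s = n * avg (sv s * th x) := by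
    rw [avg, mul_div_cancel₀ _ n0.ne', dotProduct_comm]; rfl
  rw [ee, unitv, smul_dotProduct, smul_eq_mul, mul_pow, inv_pow, len_sq, pp_eq, e1]
  rcases q0.eq_or_lt with e | q0
  · rw [← e]; simp
  rw [inv_mul_le_iff₀ (by positivity)]
  have := sq_le_sq' (abs_le.1 a).1 (abs_le.1 a).2
  nlinarith [mul_le_mul_of_nonneg_left this (sq_nonneg (n : ℝ))]

/-! ### the inputs of (T1) -/

open O0 (FF Pm G3 ev_ok ev_L ev_T ev_C ev_t0 ev_n ev_ge ev_sm)

theorem ev_g3 : ∀ᶠ p in FF, ∀ t ∈ Icc p.lo p.t0, ∀ (η H : ℝ) (x : V p.n) (W : Mx p.n),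
    (p.n : ℝ) ^ p.d ≤ H → p.ef * (p.n * t ^ 2) ≤ H → Gb p.L p.T η H t x W →
    G3 p t H (Real.log p.n ^ 2) x W := by
  filter_upwards [ev_ok, ev_C fun q => ev_ge q.T, ev_t0 fun q => ev_sm ((25 / q.L) ^ 2),
    ev_n (Q := fun p => 0 < p.d → 805 ≤ p.n ∧ 1 ≤ Real.log p.n ∧
      1 * Real.log p.n ^ 4 ≤ (p.n : ℝ) ^ p.d) fun q => O0.Y41.ev_log 1 q.d,
    ev_n (Q := fun p => p.Cn * p.T * (2 + 1 / p.ef) ≤ Real.log p.n) fun q =>
      (Real.tendsto_log_atTop.comp tendsto_natCast_atTop_atTop).eventually_ge_atTop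
        (q.Cn * q.T * (2 + 1 / q.ef))]
    with p ok hC h0 hn hl t ht η H x W H1 H2 h
  obtain ⟨n1, g1, hn⟩ := hn ok.d.1
  have hL := ok.L
  have hT := ok.T
  have hf := ok.ef
  have hCn := ok.Cn
  have N1 : (1 : ℝ) ≤ p.n := by exact_mod_cast (by omega : 1 ≤ p.n)
  have l0 : 0 < p.lo := by unfold Pm.lo; positivity
  have t0 : 0 < t := l0.trans_le ht.1
  have q0 := h.toXb.q0 t0
  have H0 : 0 < H := lt_of_lt_of_le (by positivity) H1
  have hC : p.T ≤ p.C := hC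
  have h0 : p.t0 ≤ (25 / p.L) ^ 2 := h0.2 (by show 0 < (25 / p.L) ^ 2; positivity)
  have H3 : Real.log p.n ≤ H := by linarith [le_self_pow₀ g1 (n := 4) (by norm_num)]
  have H4 : p.n * t ^ 2 ≤ 1 / p.ef * H := by rwa [one_div, le_inv_mul_iff₀ hf]
  have f0 : 0 < 1 / p.ef := by positivity
  have Tl : p.T ≤ Real.log p.n := by
    nlinarith [mul_le_mul hCn (le_refl p.T) (by linarith) (by linarith),
      mul_pos (show 0 < p.Cn * p.T by positivity) f0]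
  refine ⟨q0, ?_, h.q1.trans (by gcongr), ?_, P5_mono (Sl_anti ?_ x) h.p5⟩
  · refine abs_le_of_sq_le_sq' (h.qu.trans ?_) (by norm_num) |>.2
    calc _ ≤ (p.L / 50) ^ 2 * (25 / p.L) ^ 2 := by gcongr; exact ht.2.trans h0
      _ = _ := by field_simp; norm_num
  · have c := h.c1
    rw [m1, le_div_iff₀ (by positivity)] at c
    refine le_of_mul_le_mul_right ?_ (show 0 < Real.log p.n by linarith)
    calc _ = p.Cn * ((Sl (Real.log p.n ^ 2) x).card * Real.log p.n ^ 2) := by ring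
      _ ≤ p.Cn * (p.T * (H + 1 / p.ef * H + H)) := by
        refine mul_le_mul_of_nonneg_left (c.trans ?_) (by linarith)
        gcongr
      _ = H * (p.Cn * p.T * (2 + 1 / p.ef)) := by ring
      _ ≤ _ := by gcongr
  · rw [lam, sq]
    refine mul_le_mul Tl (Real.log_le_log (by positivity) ?_) (Real.log_nonneg ?_) (by linarith)
    · rw [div_le_iff₀ t0]
      refine le_trans ?_ (mul_le_mul_of_nonneg_left ht.1 (by linarith))
      rw [Pm.lo, mul_div_assoc', le_div_iff₀ (by positivity), one_mul]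
      refine le_trans ?_ (le_mul_of_one_le_right (by linarith) (Real.one_le_rpow N1 ok.d.1.le))
      exact (Real.rpow_le_rpow_of_exponent_le N1 (by norm_num)).trans_eq (Real.rpow_one _)
    · rw [le_div_iff₀ t0]
      linarith [ht.2, ok.t0.2]

/-- both levels dominate `ef n t²` -/
theorem lev_t2 {p : Pm} (ok : p.Ok) {t : ℝ} (t0 : 0 < t) (ht : t ≤ p.t0) :
    p.ef * (p.n * t ^ 2) ≤ p.Hc t ∧ ∀ e, p.Er e t → p.ef * (p.n * t ^ 2) ≤ p.Hs e t := by
  have t1 : t ≤ 1 := by linarith [ok.t0.2]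
  have hf := ok.ef
  have f1 : p.ef ≤ 1 := ok.ef'.trans (pow_le_one₀ ok.t0.1.le (by linarith [ok.t0.2]))
  have a0 : 0 ≤ p.n * t ^ 2 := by positivity
  have a1 : p.ef * (p.n * t ^ 2) ≤ p.ef * p.n * (1 + t) := by
    rw [mul_assoc]
    gcongr
    nlinarith
  have a2 : ∀ c, t ^ (1 / 2 : ℝ) ≤ c → p.ef * (p.n * t ^ 2) ≤ c * p.M t := fun c hc => by
    refine (mul_le_of_le_one_left a0 f1).trans ?_
    have : t ^ 2 = t ^ (1 / 2 : ℝ) * t ^ (3 / 2 : ℝ) := by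
      rw [← Real.rpow_add t0, ← Real.rpow_natCast]; norm_num
    rw [Pm.M, this, mul_left_comm]
    gcongr
  refine ⟨le_min (a2 _ ((Real.rpow_le_one t0.le t1 (by norm_num)).trans (by linarith [ok.L]))) a1,
    fun e he => le_min (a2 _ ?_) a1⟩
  refine le_trans ?_ (pow_le_pow_left₀ (by positivity) he.2.2.1 _)
  rw [← Real.rpow_natCast, ← Real.rpow_mul t0.le]
  refine Real.rpow_le_rpow_of_exponent_ge t0 t1 ?_
  linarith [ok.cv', ok.k3.2, ok.k2.2, ok.k4.2, ok.d.2, ok.ch.2]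

/-- **the inputs of (T1) from the base events** -/
theorem g3_of : ∀ᶠ p in FF, ∀ t ∈ Icc p.lo p.t0, ∀ (x : V p.n) (W : Mx p.n) (s : Cube p.n),
    (¬ base.c p t x W s → G3 p t (p.Hc t) (Real.log p.n ^ 2) x W) ∧
    ∀ e, p.Er e t → ¬ base.s p e t x W s → G3 p t (p.Hs e t) (Real.log p.n ^ 2) x W := by
  filter_upwards [ev_ok, ev_g3, O0.lev_ge, ev_n (Q := fun p => 1 ≤ p.n) fun _ =>
    eventually_ge_atTop 1] with p ok h1 h2 hn t ht x W s
  have t0 : 0 < t := lt_of_lt_of_le (by unfold Pm.lo; positivity) ht.1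
  have h3 := lev_t2 ok t0 ht.2
  exact ⟨fun h => h1 t ht _ _ x W (h2 t ht.1).1 h3.1 (not_not.1 h).back,
    fun e he h => h1 t ht _ _ x W ((h2 t ht.1).2 e he) (h3.2 e he) (not_not.1 h).1.back⟩

theorem meas_c (p : Pm) (t : ℝ) (s : Cube p.n) :
    MeasurableSet {z : V p.n × Mx p.n | base.c p t z.1 z.2 s} :=
  (Ga98.meas_gz s ((measG p.n p.T 0 p.e1 0 0 0 t).2.2.2.2.2.2.2.2.2 p.L (p.Hc t))).compl

theorem meas_s (p : Pm) (e t : ℝ) (s : Cube p.n) :
    MeasurableSet {z : V p.n × Mx p.n | base.s p e t z.1 z.2 s} :=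
  (Ga98.meas_gz s (((measG p.n p.T 0 (e ^ 2) 0 0 0 t).2.2.2.2.2.2.2.2.2 p.L (p.Hs e t)).inter
    (measurable_fst (measG p.n 0 ((e ^ 2) ^ 3) 0 0 0 0 t).2.1))).compl

lemma ev_lg : ∀ᶠ p in FF, Real.log p.n ^ 2 ∈ Icc 1 (Real.log p.n ^ 4) := by
  filter_upwards [ev_n (Q := fun p => 1 ≤ Real.log p.n) fun q =>
    (Real.tendsto_log_atTop.comp tendsto_natCast_atTop_atTop).eventually_ge_atTop 1] with p h
  exact ⟨one_le_pow₀ h, pow_le_pow_right₀ h (by norm_num)⟩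

/-- **(T1), crude** -/
theorem t1C : Og.T1C base := by
  filter_upwards [ev_ok, g3_of, O0.lev_ge, O0.t1FF, ev_lg] with p ok h1 h2 h3 h4 t ht
  exact h3 t ht.1 p.e1 _ _ ok.e1.1 le_rfl (h2 t ht.1).1 h4 _ (meas_c p t)
    fun x W _ h s => by_contra fun k => h ((h1 t ht x W s).1 k)

/-- **(T1), sharp** -/
theorem t1S : Og.T1S base := by
  filter_upwards [g3_of, O0.lev_ge, O0.t1FF, ev_lg] with p h1 h2 h3 h4 t ht e he
  exact h3 t ht.1 e _ _ he.1 he.2.1 ((h2 t ht.1).2 e he) h4 _ (meas_s p e t)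
    fun x W _ h s => by_contra fun k => h ((h1 t ht x W s).2 e he k)

/-! ### on the orbit -/

section orb
open Crest.Agent.Lib.OrthPoinc
open Crest.Agent.T157.Oc (SO emb emb_orth emb_mulVec)
open Crest.Agent.T157.Kp (At anE)

variable {k : ℕ} {o : Oo.Orb n k} {μ : Measure (Mat k)} [IsProbabilityMeasure μ]
  {B : V n → Mx n → Cube n → Prop}

theorem at_ee (a : At o x) : o.Eᵀ *ᵥ ee x = 0 := by
  rw [ee, unitv, mulVec_smul, ← a.p, a.ok.ep, smul_zero]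

theorem at_f2 (a : At o x) : o.Eᵀ *ᵥ f2 x = 0 := by
  have ep : o.Eᵀ *ᵥ th x = 0 := a.p ▸ a.ok.ep
  simp only [f2, unitv, bv, Qe.R1, sub_mulVec, one_mulVec, vecMulVec_mulVec, op_smul_eq_smul,
    mulVec_smul, mulVec_sub, ep, a.ex, smul_zero, sub_zero]

/-- the invariant part moves along the orbit -/
theorem Gi.orb (a : At o x) {U : Mat k} (hU : U ∈ SO k) (h : Gi L T η H t x (o.Wu U)) :
    Gi L T η H t x o.W :=
  ⟨h.toXb, Wb.conj (emb_orth a.ok.iso hU) rfl (emb_mulVec U (at_ee a)).symm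
    (emb_mulVec U (at_f2 a)).symm h.toWb⟩

variable (hμ : SOInv μ) (a : At o x) (mB : ∀ s, MeasurableSet {z : V n × Mx n | B z.1 z.2 s})
  (hB : ∀ W s, ¬ B x W s → Gb L T η H t x W)
include hμ a mB hB




end orb




end Crest.Agent.T157.Kb

end
end

-- ▼ part T157/OiG_5
section

set_option autoImplicit false
set_option linter.unusedSectionVars false

/-!
Row 157, A2 (helper19, compiled by helper5): the assembly `InGlue` of `OiDef_19`.
-/

noncomputable section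

namespace Crest.Agent.T157.Oi

open MeasureTheory Matrix Crest.Agent.Lib.OrthPoinc Filter Set
open Crest.Agent.T157.E Crest.Agent.T157.Cond Crest.Agent.T157.Tap
open Crest.Agent.T157.Oc Crest.Agent.T157.Od Crest.Agent.T157.Oo Crest.Agent.T157.O0
open Crest.Agent.T157.Kb (f2 ee HA TR)
open Crest.Agent.T157.Kp (At anE)
open Crest.Agent.T157.O4c.W31 (ha_conj tr_conj col_conj bv_conj vmv_vec)

variable {n k : ℕ}

namespace G5

/-- an event of the spins contained in the bad set has annealed mass at most `anE` -/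
theorem an_le_anE {o : Orb n k} {μ : Measure (Mat k)} [IsProbabilityMeasure μ] {x : V n}
    {B : V n → Mx n → Cube n → Prop} (hμ : SOInv μ) (h : o.Ok)
    (mB : ∀ s, MeasurableSet {z : V n × Mx n | B z.1 z.2 s}) {S : Cube n → Prop} [DecidablePred S]
    (hS : ∀ U ∈ SO k, ∀ s, S s → B x (o.Wu U) s) :
    o.an μ (fun s _ => if S s then 1 else 0) ≤ anE o μ x B := by
  classical
  have := Orb.P_prob hμ h
  have m1 : ∀ s, MeasurableSet {U : Mat k | B x (o.Wu U) s} := fun s =>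
    (by fun_prop : Measurable fun U : Mat k => (x, o.Wu U)) (mB s)
  have m3 : ∀ s, Measurable fun U => o.w U s := fun s => by
    simp only [Orb.w_ph41]
    exact (Orb.cont_ph41 s).measurable.comp (by fun_prop)
  have hp : ∀ U s, 0 ≤ prob (o.w U) s := fun U s =>
    div_nonneg (Orb.w_pos U s).le (Finset.sum_nonneg fun s _ => (Orb.w_pos U s).le)
  have h1 : ∀ U, ∑ s, prob (o.w U) s = 1 := fun U => by
    simp only [prob, ← Finset.sum_div]
    exact div_self (Orb.wt (o := o) U).pos.ne'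
  have h0 : ∀ U, 0 ≤ mean (o.w U) fun s => if B x (o.Wu U) s then 1 else 0 := fun U =>
    Finset.sum_nonneg fun s _ => mul_nonneg (hp U s) (by dsimp only; split_ifs <;> norm_num)
  have i1 : Integrable (fun U => mean (o.w U) fun s => if B x (o.Wu U) s then 1 else 0) (o.P μ) := by
    refine Integrable.of_bound (Measurable.aestronglyMeasurable ?_) 1 (ae_of_all _ fun U => ?_)
    · exact Finset.measurable_sum _ fun s _ => ((m3 s).div (Finset.measurable_sum _ fun s _ => m3 s)).mul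
        (Measurable.ite (m1 s) measurable_const measurable_const)
    · rw [Real.norm_of_nonneg (h0 U)]
      exact (Finset.sum_le_sum fun s _ => mul_le_of_le_one_right (hp U s)
        (by split_ifs <;> norm_num)).trans (h1 U).le
  refine integral_mono_of_nonneg (ae_of_all _ fun U => Finset.sum_nonneg fun s _ =>
    mul_nonneg (hp U s) (by dsimp only; split_ifs <;> norm_num)) i1
    ((Orb.P_mem (o := o) hμ).mono fun U hU => Finset.sum_le_sum fun s _ =>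
      mul_le_mul_of_nonneg_left ?_ (hp U s))
  by_cases hs : S s
  · simp only [if_pos hs, if_pos (hS U hU s hs), le_refl]
  · simp only [if_neg hs]; split_ifs <;> norm_num

theorem Et_unit {o : Orb n k} {u : V n} (h : o.Eᵀ *ᵥ u = 0) : o.Eᵀ *ᵥ unitv u = 0 := by
  rw [unitv, mulVec_smul, h, smul_zero]

theorem Et_th {o : Orb n k} {x : V n} (h : At o x) : o.Eᵀ *ᵥ th x = 0 := h.p ▸ h.ok.ep

theorem Et_f2 {o : Orb n k} {x : V n} (h : At o x) : o.Eᵀ *ᵥ f2 x = 0 := by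
  refine Et_unit ?_
  rw [Qe.bv, Qe.R1, sub_mulVec, one_mulVec, vmv_vec, mulVec_sub, mulVec_smul, Et_th h,
    Et_unit h.ex, smul_zero, sub_zero]

variable {p : Pm} {o : Orb p.n k} {x : V p.n} {t e h H : ℝ}

theorem nw_back (hx : At o x) (q0 : 0 < aS x) {U : Mat k} (hU : U ∈ SO k)
    (g : Nw p h H x (o.Wu U)) : Nw p h H x o.W := by
  have e1 : o.Eᵀ *ᵥ ee x = 0 := Et_unit (Et_th hx)
  refine ⟨(ha_conj hx.ok hU (Et_f2 hx)).1 g.ha, ?_, ?_, ?_⟩
  · have := g.tr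
    rwa [TR, tr_conj hx.ok hU] at this
  · exact (col_conj hx.ok hU e1).1 ▸ g.c1
  · exact bv_conj hx.ok hU e1 (Kb.Gn11.ee_unit q0) ▸ g.c2

/-- the context from the annealed bound -/
theorem mk_cz {μ : Measure (Mat k)} [IsProbabilityMeasure μ] {B : Bad p.n}
    (mB : ∀ s, MeasurableSet {z : V p.n × Mx p.n | B z.1 z.2 s})
    (hB : ∀ W s, ¬ B x W s → Nb p t h H x W s) (ht : t ∈ Icc p.lo p.t0) (er : p.Er e t)
    (h0 : e ^ 2 ≤ h) (h1 : h ≤ e) (n0 : 0 < p.n) (H0 : (p.n : ℝ) ^ p.d ≤ H) (H1 : H ≤ p.L * p.M t)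
    (hμ : SOInv μ) (hx : At o x) (hW : o.W ∈ p.Wt e t)
    (ha : anE o μ x B ≤ Real.exp (-(5 * H))) : Cz p t e h H o μ x := by
  have Hp : 0 < H := lt_of_lt_of_le (by positivity) H0
  have lt : anE o μ x B < 1 := ha.trans_lt (Real.exp_lt_one_iff.2 (by linarith))
  have nx : Nx p t h x := Kp.of_anE_lt hμ hx.ok mB lt fun hn U _ s =>
    by_contra fun hb => hn (hB _ s hb).nx
  refine ⟨ht.1, ht.2, er, h0, h1, H0, H1, hμ, hx, hW, nx,
    Kp.of_anE_lt hμ hx.ok mB lt fun hn U hU s =>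
      by_contra fun hb => hn (nw_back hx nx.mo.q0 hU (hB _ s hb).nw),
    (an_le_anE hμ hx.ok mB fun U _ s hs => by_contra fun hb => ?_).trans ha⟩
  exact absurd (hB _ s hb).zs (not_le.2 hs)

theorem M1_mono {μ : Measure (Mat k)} {a b : ℝ} (hab : a ≤ b) (g : Og.M1 o μ a) : Og.M1 o μ b :=
  fun v => (g v).trans (mul_le_mul_of_nonneg_right hab (O4c.W31.dnn v))

theorem M_pos (n0 : 0 < p.n) (ht : p.lo ≤ t) : 0 < t ∧ 0 < p.M t := by
  have : 0 < p.lo := by unfold Pm.lo; positivity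
  have t0 : 0 < t := by linarith
  exact ⟨t0, by unfold Pm.M; positivity⟩

end G5

open G5 in
theorem inGlue : InGlue := by
  intro hM hB hF hP hX hW hFm h1 h23 h4
  have evn : ∀ᶠ p in FF, 0 < p.cv → 0 < p.e1 → 0 < p.n ∧ (p.n : ℝ) ^ (-p.cv) ≤ p.e1 := by
    refine ev_n (Q := fun p => 0 < p.cv → 0 < p.e1 → 0 < p.n ∧ (p.n : ℝ) ^ (-p.cv) ≤ p.e1)
      fun q => ?_
    by_cases hq : 0 < q.cv ∧ 0 < q.e1
    · filter_upwards [eventually_gt_atTop 0, ((tendsto_rpow_neg_atTop hq.1).comp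
        tendsto_natCast_atTop_atTop).eventually (eventually_le_nhds hq.2)] with m a b _ _
      exact ⟨a, b⟩
    · exact Eventually.of_forall fun _ a b => absurd ⟨a, b⟩ hq
  have ev : ∀ᶠ p in FF, (2 * p.T ^ 12 ≤ p.C ∧ 2 ≤ p.C) ∧ 1000 * p.T * p.e1 ≤ 1 ∧
      (0 < p.n ∧ (p.n : ℝ) ^ (-p.cv) ≤ p.e1) := by
    filter_upwards [ev_ok, ev_C (Q := fun q y => 2 * q.T ^ 12 ≤ y ∧ 2 ≤ y) fun q =>
      (ev_ge _).and (ev_ge 2), ev_e1 fun q => ev_sm (1 / (1000 * q.T)), evn]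
      with p ok a b c
    have T1 := ok.T
    have b : p.e1 ≤ 1 / (1000 * p.T) := b.2 (by change 0 < 1 / (1000 * p.T); positivity)
    rw [le_div_iff₀ (by positivity), mul_comm] at b
    exact ⟨a, b, c ok.cv ok.e1.1⟩
  have mG : ∀ (p : Pm) (h H t : ℝ) (s : Cube p.n), MeasurableSet {z : V p.n × Mx p.n |
      Kb.G1 p.L p.T h H t (Kb.gz s (z.1, z.2)).1 (Kb.gz s (z.1, z.2)).2} := fun p h H t s =>
    Kb.Ga98.meas_gz s ((hM p.n p.T 0 h 0 0 0 t).2.2.2.2.2.2.2.2.2 p.L H)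
  have mS : ∀ (p : Pm) (ε t : ℝ) (s : Cube p.n), MeasurableSet {z : V p.n × Mx p.n |
      Kb.Sh ε t (Kb.gz s (z.1, z.2)).1} := fun p ε t s =>
    (Kb.Ga98.meas_gz s).fst (hM p.n 0 ε 0 0 0 0 t).2.1
  constructor
  · filter_upwards [hB, hF, hP, hX, hW, hFm, h1, h23, h4, ev, ev_ok, lev_ge]
      with p hB hF hP hX hW hFm h1 h23 h4 ⟨⟨C1, C2⟩, eT, n0, ne⟩ ok lv t ht x k μ _ o hμ hx hWt ha
    obtain ⟨t0, M0⟩ := M_pos n0 ht.1
    have e0 := ok.e1.1
    have T1 := ok.T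
    have e1 : p.e1 ≤ 1 / 1000 := by nlinarith
    have mB : ∀ s, MeasurableSet {z : V p.n × Mx p.n | Kb.base.c p t z.1 z.2 s} := fun s =>
      (mG p p.e1 (p.Hc t) t s).compl
    have nb : ∀ W s, ¬ Kb.base.c p t x W s → Nb p t p.e1 (p.Hc t) x W s := fun W s g =>
      hB t ht _ _ e0 le_rfl x W s (not_not.1 g)
    have c : Cz p t p.e1 p.e1 (p.Hc t) o μ x := mk_cz mB nb ht
      ⟨e0, le_rfl, (Real.rpow_le_rpow t0.le ht.2 ok.cv.le).trans ok.t0', ne⟩ (by nlinarith) le_rfl n0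
      (lv t ht.1).1 (min_le_left _ _) hμ hx hWt ha
    have xd := hX _ _ _ _ _ o μ x c
    have wd := hW _ _ _ _ _ o μ x c xd
    have fm := (hFm _ _ _ _ _ o μ x c).1
    have q0 := c.nx.mo.q0
    have q1 := c.nx.q1
    have m1 : Og.M1 o μ (p.C / t) := by
      refine M1_mono ?_ (h1 _ _ _ _ _ o μ x c xd wd _ (by positivity) fm)
      have g2 := wd.g2
      rw [div_le_div_iff₀ (lt_of_lt_of_le (by positivity) g2) t0]
      calc p.T ^ 11 * t ≤ p.T ^ 11 * (p.T * aS x ^ 2) := by gcongr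
        _ = 2 * p.T ^ 12 * (aS x ^ 2 / 2) := by ring
        _ ≤ _ := by gcongr
    obtain ⟨vt, v1, v2⟩ := hP _ _ _ _ _ o μ x c
    have H0 : 0 < p.Hc t := lt_of_lt_of_le (by positivity) c.H0
    refine ⟨⟨(hF _ _ _ _ _ o μ x c).1, fun _ => m1, fun _ => m1, (h23 _ _ _ _ _ o μ x c xd wd fm).1,
      h4 _ _ _ _ _ o μ x c xd wd, fun _ => ⟨vt, v1, ?_⟩⟩,
      fun a _ => (h23 _ _ _ _ _ o μ x c xd wd fm).2 a, fun _ => (hF _ _ _ _ _ o μ x c).2⟩
    refine le_trans (Kp.P_le_anE (x := x) hμ hx.ok mB fun U hU hn s => by_contra fun hb =>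
      (mem_ofPred_eq ▸ hn : ¬ _) (v2 U hU _ ?_ (nb _ s hb).np))
      (ha.trans (Real.exp_le_exp.2 (by linarith)))
    have a1 : p.e1 ^ 3 ≤ 1 / 4 := (pow_le_of_le_one e0.le (by linarith) (by norm_num)).trans
      (by linarith)
    have a2 : p.T ≤ p.T ^ 12 := le_self_pow₀ T1 (by norm_num)
    rw [div_le_iff₀ (by linarith)]
    have a3 : 0 ≤ (1 - 2 * p.e1 ^ 3) * aS x ^ 2 := mul_nonneg (by linarith) (sq_nonneg _)
    calc t ≤ 1 / 2 * aS x ^ 2 * (2 * p.T) := by linarith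
      _ ≤ _ := by gcongr <;> linarith
  · filter_upwards [hB, hF, hP, hX, hW, hFm, h1, h23, h4, ev, ev_ok, lev_ge]
      with p hB hF hP hX hW hFm h1 h23 h4 ⟨⟨C1, C2⟩, eT, n0, ne⟩ ok lv t ht e er x k μ _ o hμ hx hWt ha
    obtain ⟨t0, M0⟩ := M_pos n0 ht.1
    have e0 := er.1
    have T1 := ok.T
    have eT' : 1000 * p.T * e ≤ 1 := le_trans (by have := er.2.1; gcongr) eT
    have e1 : e ≤ 1 / 1000 := by nlinarith
    have e2 : e ^ 2 ≤ e / 1000 := by nlinarith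
    have mB : ∀ s, MeasurableSet {z : V p.n × Mx p.n | Kb.base.s p e t z.1 z.2 s} := fun s =>
      ((mG p (e ^ 2) (p.Hs e t) t s).inter (mS p ((e ^ 2) ^ 3) t s)).compl
    have nb : ∀ W s, ¬ Kb.base.s p e t x W s → Nb p t (e ^ 2) (p.Hs e t) x W s := fun W s g =>
      hB t ht _ _ (by positivity) (by linarith [er.2.1]) x W s (not_not.1 g).1
    have eA : e ^ p.A ≤ 1 := pow_le_one₀ e0.le (by linarith)
    have c : Cz p t e (e ^ 2) (p.Hs e t) o μ x := mk_cz mB nb ht er le_rfl (by linarith) n0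
      ((lv t ht.1).2 e er) ((min_le_left _ _).trans (by gcongr; linarith [ok.L])) hμ hx hWt ha
    have H0 : 0 < p.Hs e t := lt_of_lt_of_le (by positivity) c.H0
    have sh : |aS x ^ 2 - t| ≤ (e ^ 2) ^ 3 * t :=
      Kp.of_anE_lt hμ hx.ok mB (ha.trans_lt (Real.exp_lt_one_iff.2 (by linarith))) fun hn U _ s g =>
        hn (Og.I31.aS_gz s x ▸ g.2.1)
    have e6 : (e ^ 2) ^ 3 ≤ e / 1000 :=
      (pow_le_of_le_one (by positivity) (by linarith) (by norm_num)).trans e2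
    have sq : (1 - e / 1000) * t ≤ aS x ^ 2 := by nlinarith [(abs_le.1 sh).1]
    have xd := hX _ _ _ _ _ o μ x c
    have wd := hW _ _ _ _ _ o μ x c xd
    have fm := hFm _ _ _ _ _ o μ x c
    have q0 := c.nx.mo.q0
    have m1 : Og.M1 o μ ((1 + e / 4) / t) := by
      refine M1_mono ?_ (h1 _ _ _ _ _ o μ x c xd wd _ (by positivity)
        (fm.2 le_rfl (min_le_left _ _)))
      rw [div_le_div_iff₀ (lt_of_lt_of_le (by positivity) wd.g2) t0, gq]
      have a1 : 1 - e / 100 ≤ 1 - 3 * p.T * e ^ 2 := by nlinarith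
      calc (1 + e / 50) * t ≤ (1 + e / 4) * ((1 - e / 100) * (1 - e / 1000)) * t := by
            gcongr; nlinarith
        _ = (1 + e / 4) * ((1 - e / 100) * ((1 - e / 1000) * t)) := by ring
        _ ≤ _ := by
            have : 0 ≤ (1 - e / 1000) * t := mul_nonneg (by linarith) t0.le
            gcongr
            linarith
    obtain ⟨vt, v1, v2⟩ := hP _ _ _ _ _ o μ x c
    refine ⟨(hF _ _ _ _ _ o μ x c).1, fun _ => m1, fun _ => M1_mono (by gcongr; linarith) m1,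
      (h23 _ _ _ _ _ o μ x c xd wd fm.1).1, h4 _ _ _ _ _ o μ x c xd wd, fun _ => ⟨vt, v1, ?_⟩⟩
    refine le_trans (Kp.P_le_anE (x := x) hμ hx.ok mB fun U hU hn s => by_contra fun hb =>
      (mem_ofPred_eq ▸ hn : ¬ _) (v2 U hU _ ?_ (nb _ s hb).np))
      (ha.trans (Real.exp_le_exp.2 (by linarith)))
    rw [div_le_iff₀ (by linarith)]
    have : 0 ≤ (1 - e / 1000) * t := mul_nonneg (by linarith) t0.le
    calc t ≤ (1 - e / 500) * (1 - e / 1000) * (1 + e / 4) * t :=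
          le_mul_of_one_le_left t0.le (by nlinarith)
      _ = (1 - e / 500) * ((1 - e / 1000) * t) * (1 + e / 4) := by ring
      _ ≤ _ := by gcongr <;> linarith

end Crest.Agent.T157.Oi

end
end

-- ▼ part T157/OiBack_10
section

/-!
# Row 157, part A2 (helper10): `Oi.BackL`
-/

set_option autoImplicit false

noncomputable section

namespace Crest.Agent.T157.Kb

open MeasureTheory Matrix Set Filter
open Crest.Agent.T157.E Crest.Agent.T157.Cond Crest.Agent.T157.Tap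
open Crest.Agent.T157.Qe (Le bv)
open Crest.Agent.T157.TapPl
open Bk10

variable {n : ℕ} {L T η H t : ℝ} {x : V n} {W : Mx n}

/-! ### the projection of the spins -/

namespace Bk10

lemma bessel {f g w : V n} (hf : f ⬝ᵥ f ≤ 1) (hg : g ⬝ᵥ g ≤ 1) (h : f ⬝ᵥ g = 0) :
    (f ⬝ᵥ w) ^ 2 + (g ⬝ᵥ w) ^ 2 ≤ w ⬝ᵥ w := by
  have := dot_self_nonneg (w - (f ⬝ᵥ w) • f - (g ⬝ᵥ w) • g)
  simp only [sub_dotProduct, dotProduct_sub, smul_dotProduct, dotProduct_smul, smul_eq_mul,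
    dotProduct_comm w f, dotProduct_comm w g, dotProduct_comm g f, h] at this
  nlinarith [mul_le_mul_of_nonneg_left hf (sq_nonneg (f ⬝ᵥ w)),
    mul_le_mul_of_nonneg_left hg (sq_nonneg (g ⬝ᵥ w))]

lemma unitv_le (u : V n) : unitv u ⬝ᵥ unitv u ≤ 1 := by
  by_cases h : u = 0
  · simp [h, unitv]
  · exact (unitv_dot h).le

lemma bv_eq (e c : V n) : bv e c = c - (e ⬝ᵥ c) • e := by
  simp only [bv, Qe.R1, sub_mulVec, one_mulVec, vecMulVec_mulVec, op_smul_eq_smul]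

/-- the frames `(x / |x|, f2)` and `(e, u2)` -/
lemma frame {x : V n} (he : ee x ⬝ᵥ ee x = 1) (hx : x ≠ 0) (v : V n) :
    (unitv x ⬝ᵥ v) ^ 2 + (f2 x ⬝ᵥ v) ^ 2 ≤ (ee x ⬝ᵥ v) ^ 2 + (u2 x ⬝ᵥ bv (ee x) v) ^ 2 := by
  have hu : u2 x ⬝ᵥ u2 x ≤ 1 := unitv_le _
  have o1 : ∀ {e : V n}, e ⬝ᵥ e = 1 → ∀ c, e ⬝ᵥ unitv (bv e c) = 0 := fun he c => by
    rw [unitv, dotProduct_smul, bv_eq, dotProduct_sub, dotProduct_smul, he]; simp
  have heu : ee x ⬝ᵥ u2 x = 0 := o1 he x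
  have hue : u2 x ⬝ᵥ ee x = 0 := by rw [dotProduct_comm, heu]
  have h1 : u2 x ⬝ᵥ bv (ee x) v = u2 x ⬝ᵥ v := by
    rw [bv_eq, dotProduct_sub, dotProduct_smul, hue]; simp
  obtain ⟨w, hw⟩ : ∃ w, w = (ee x ⬝ᵥ v) • ee x + (u2 x ⬝ᵥ v) • u2 x := ⟨_, rfl⟩
  have h2 : ee x ⬝ᵥ w = ee x ⬝ᵥ v := by
    rw [hw, dotProduct_add, dotProduct_smul, dotProduct_smul, he, heu]; simp
  have h3 : bv (ee x) x ⬝ᵥ w = bv (ee x) x ⬝ᵥ v := by
    by_cases h0 : bv (ee x) x = 0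
    · simp [h0]
    · have : u2 x ⬝ᵥ w = u2 x ⬝ᵥ v := by
        rw [hw, dotProduct_add, dotProduct_smul, dotProduct_smul, hue,
          show u2 x ⬝ᵥ u2 x = 1 from unitv_dot h0]; simp
      rw [← len_smul_unitv (bv (ee x) x), smul_dotProduct, smul_dotProduct]
      exact congrArg _ this
  have h4 : th x ⬝ᵥ w = th x ⬝ᵥ v := by
    rw [← len_smul_unitv (th x), smul_dotProduct, smul_dotProduct]
    exact congrArg _ h2
  have h5 : unitv x ⬝ᵥ w = unitv x ⬝ᵥ v := by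
    rw [bv_eq, sub_dotProduct, sub_dotProduct, smul_dotProduct, smul_dotProduct, h2] at h3
    rw [unitv, smul_dotProduct, smul_dotProduct, sub_left_inj.1 h3]
  have h6 : f2 x ⬝ᵥ w = f2 x ⬝ᵥ v := by
    rw [f2, unitv.eq_1 (bv _ _), smul_dotProduct, smul_dotProduct, bv_eq, sub_dotProduct,
      sub_dotProduct, smul_dotProduct, smul_dotProduct, h4, h5]
  rw [h1, ← h5, ← h6]
  refine (bessel (unitv_le _) (unitv_le _) (o1 (unitv_dot hx) _)).trans ?_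
  rw [hw]
  simp only [add_dotProduct, dotProduct_add, smul_dotProduct, dotProduct_smul, smul_eq_mul, he, heu,
    hue]
  nlinarith [mul_le_mul_of_nonneg_left hu (sq_nonneg (u2 x ⬝ᵥ v))]

end Bk10

/-- **`|Π s|²`** -/
theorem G1.zs {s : Cube n} (h : G1 L T η H t (gz s (x, W)).1 (gz s (x, W)).2) (ht : 0 < t)
    (hT : 1 ≤ T) (hη : η ^ 30 ≤ 1 / 100) (hq : 50000 * T ^ 2 * aS x ≤ 1) :
    (unitv x ⬝ᵥ sv s) ^ 2 + (f2 x ⬝ᵥ sv s) ^ 2 ≤ 2 * T ^ 2 * n * aS x := by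
  have hσ := Pl.isSign_sv s
  have e1 := h.es
  have q0 := h.back.toXb.q0 ht
  have hn : 0 < n := Nat.pos_of_ne_zero fun h0 => by subst h0; simp [aS, avg] at q0
  have T2 : 1 ≤ T ^ 2 := one_le_pow₀ hT
  have a := aS_sign hσ x
  obtain ⟨-, k2, k3, -⟩ := Ha11.xs (x := sv s * x) hn ht hT hη (a ▸ q0) (by rw [a]; nlinarith)
    h.co h.xm
  have k4 := frame (x := sv s * x) h.col.unit (fun h0 => by simp [h0] at k2) 1
  have d : ∀ u : V n, (sv s * u) ⬝ᵥ 1 = u ⬝ᵥ sv s := fun u => by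
    simp [dotProduct, mul_comm]
  rw [f2_sign hσ, show unitv (sv s * x) = sv s * unitv x by
    rw [← dg_mv, unitv_conj (dg_orth hσ), dg_mv], d, d] at k4
  rw [a] at k3
  change _ ≤ _ + (u2 _ ⬝ᵥ tau _) ^ 2 at k4
  rw [ee_sign hσ, d] at k4
  have n0 : (0 : ℝ) ≤ n * aS x := by positivity
  have q1 : 50000 * aS x ≤ T ^ 2 := by nlinarith
  nlinarith [mul_le_mul_of_nonneg_right q1 n0]

end Crest.Agent.T157.Kb

namespace Crest.Agent.T157.Oi

open Matrix Filter Set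
open Crest.Agent.T157.Tap Crest.Agent.T157.O0

/-- **gauge back** -/
theorem backL : BackL := by
  filter_upwards [ev_ok, ev_t0 fun q => ev_sm (1 / ((50000 * q.T ^ 2) ^ 2 * q.T)),
    ev_n (Q := fun p => 1 ≤ p.n) fun _ => eventually_ge_atTop 1]
    with p ok h0 hn t ht h H h1 h2 x W s g
  have b := g.back
  have hT := ok.T
  have t0 : 0 < t := lt_of_lt_of_le (by unfold Pm.lo; positivity) ht.1
  have q0 := b.toXb.q0 t0
  have e1 : h ≤ 1 / 100 := by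
    linarith [ok.e1.2, ok.k3.2, ok.k2.2, ok.k4.2, ok.d.2, ok.ch.2]
  have e2 : h ^ 30 ≤ 1 / 100 := (pow_le_of_le_one h1.le (by linarith) (by norm_num)).trans e1
  have e3 : h ^ 27 ≤ 1 := pow_le_one₀ h1.le (by linarith)
  have h0 : p.t0 ≤ 1 / ((50000 * p.T ^ 2) ^ 2 * p.T) :=
    h0.2 (by show 0 < 1 / ((50000 * p.T ^ 2) ^ 2 * p.T); positivity)
  have hq : 50000 * p.T ^ 2 * aS x ≤ 1 := by
    refine (abs_le_of_sq_le_sq' ?_ zero_le_one).2
    rw [le_div_iff₀ (by positivity)] at h0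
    calc _ = (50000 * p.T ^ 2) ^ 2 * aS x ^ 2 := by ring
      _ ≤ (50000 * p.T ^ 2) ^ 2 * (p.T * p.t0) := by
        gcongr
        exact b.q2.trans (mul_le_mul_of_nonneg_left ht.2 (by linarith))
      _ ≤ _ := by linarith
  have a0 := (div_nonneg q0.le (by linarith)).trans b.s1
  exact ⟨⟨b.q1, b.qu, ⟨q0, b.r4, b.p4, b.p6, b.e8⟩, b.c2⟩, ⟨b.ha, b.tr, b.s2, by
    linarith [(abs_le.1 b.s3).2, mul_le_mul_of_nonneg_right e3 a0, b.s2]⟩, ⟨b.pos, b.p5⟩,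
    g.zs t0 hT e2 hq⟩

end Crest.Agent.T157.Oi

end
end

-- ▼ part T157/OgInB_31
section

/-!
# Row 157, A2 (helper31): `fx`, `pos`, `st` of `InC`, `InS` on `Kb.base`
-/

set_option autoImplicit false

noncomputable section

namespace Crest.Agent.T157.Og.I31

open MeasureTheory Matrix Set Filter Crest.Agent.Lib.OrthPoinc
open Crest.Agent.T157.E Crest.Agent.T157.Tap Crest.Agent.T157.O0 Crest.Agent.T157.Oo
open Crest.Agent.T157.Kp (At Sl P5 anE chi)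
open Crest.Agent.T157.Kb (Co XM R4 AT G1 Sh gz lam MeasG base)
open Crest.Agent.T157.Oc (SO emb_orth)
open Crest.Agent.T157.TapPl
open Crest.Agent.T157.Qe (Le)

variable {n k : ℕ}

/-! ### the gauge for matrices -/





theorem pos_mono {M : Mx n} {c c' : ℝ} (h : Tap.Pos c M) (e : c' ≤ c) : Tap.Pos c' M := fun v =>
  (mul_le_mul_of_nonneg_right e (Eig.dot_self_nonneg v)).trans (h v)

/-- the gauge-free part of `G1` used here -/
structure Gy (L T η t : ℝ) (x : V n) (W : Mx n) : Prop where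
  gx : Gx T (L / 50) (η ^ 30) t x
  c2 : ((Sl (lam T t) x).card : ℝ) ≤ η ^ 30 * aS x ^ 3 * n
  pos : Tap.Pos ((1 - 2 * η ^ 3) * aS x ^ 2) (AT (Sl (lam T t) x) x W)
  p5 : P5 (Sl (lam T t) x) x W





/-! ### numbers -/

variable {p : Pm} {o : Orb p.n k} {x : V p.n} {t e η ε H : ℝ}

theorem lam_q (h : LH p t ε H) (hT : p.T ≤ p.C) (g : Gx p.T (p.L / 50) η t x) :
    lam p.T t * aS x ≤ t ^ (9 / 20 : ℝ) ∧ t ^ (9 / 20 : ℝ) ≤ 2 / 3 := by
  have t0 := h.t0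
  have o := h.ord
  have L0 := o.ok.L
  have T0 := o.ok.T
  have h1 : Real.log (1 / t) ≤ 40 * t ^ (-(1 / 40) : ℝ) := by
    have := Real.log_le_rpow_div (x := 1 / t) (ε := 1 / 40) (by positivity) (by norm_num)
    rw [one_div t, Real.inv_rpow t0.le, ← Real.rpow_neg t0.le] at this
    rw [one_div t]; linarith
  have h2 := g.q_le (by linarith) t0.le
  have h3 := h.tB' (a := 1 / 40) (j := 2) (by norm_num)
  have h4 : p.T * p.L ≤ p.B ^ 2 := by
    rw [sq]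
    exact mul_le_mul (hT.trans (o.CK.trans o.KB)) (o.LC'.trans (o.CK.trans o.KB)) (by linarith)
      (by linarith [o.B1])
  have e1 : t ^ (-(1 / 40) : ℝ) * √t = t ^ (1 / 40 : ℝ) * t ^ (9 / 20 : ℝ) := by
    rw [Real.sqrt_eq_rpow, ← Real.rpow_add t0, ← Real.rpow_add t0]; norm_num
  have a0 := Real.rpow_pos_of_pos t0 (1 / 40)
  have a1 := Real.rpow_pos_of_pos t0 (9 / 20)
  constructor
  · calc lam p.T t * aS x ≤ p.T * (40 * t ^ (-(1 / 40) : ℝ)) * (p.L / 50 * √t) :=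
          mul_le_mul (mul_le_mul_of_nonneg_left h1 (by linarith)) h2 (aS_nn x) (by positivity)
      _ = 4 / 5 * (t ^ (1 / 40 : ℝ) * (p.T * p.L)) * t ^ (9 / 20 : ℝ) := by
          linear_combination (4 / 5 * p.T * p.L) * e1
      _ ≤ _ := mul_le_of_le_one_left a1.le (by nlinarith [mul_le_mul_of_nonneg_left h4 a0.le])
  · have h5 := h.tB' (a := 9 / 20) (j := 1) (by norm_num)
    nlinarith [o.Bb]



theorem ev_TC : ∀ᶠ p in FF, 2 * p.T ≤ p.C := by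
  filter_upwards [ev_C fun q => ev_ge (2 * q.T)] with p h using h



end Crest.Agent.T157.Og.I31

end
end

-- ▼ part T157/OiFx_31
section

/-!
# Row 157, A2 (helper31): the leaves `FxL`, `PosL`, `WdL`
-/

set_option autoImplicit false

noncomputable section

namespace Crest.Agent.T157.Oi

open MeasureTheory Matrix Set Filter Crest.Agent.Lib.OrthPoinc
open Crest.Agent.T157.E Crest.Agent.T157.Tap Crest.Agent.T157.O0 Crest.Agent.T157.Oo
open Crest.Agent.T157.Og Crest.Agent.T157.Og.I31 Crest.Agent.T157.Nm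
open Crest.Agent.T157.Kp (Sl)
open Crest.Agent.T157.Kb (lam ee f2)

namespace F31

variable {p : Pm} {k : ℕ} {t e h H : ℝ} {o : Orb p.n k} {μ : Measure (Mat k)} {x : Vn p.n}

theorem gx (c : Cz p t e h H o μ x) : Gx p.T (p.L / 50) (h ^ 30) t x :=
  ⟨c.nx.q1, c.nx.q2, c.nx.mo.r4, c.nx.mo.p4, c.nx.mo.p6, c.nx.mo.e8⟩

theorem h0 (c : Cz p t e h H o μ x) : 0 < h := (pow_pos c.er.1 2).trans_le c.h0

theorem h30 (r : Ord p) (c : Cz p t e h H o μ x) : h ^ 30 ≤ p.e1 :=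
  (pow_le_of_le_one (h0 c).le (by linarith [c.h1, c.er.2.1, r.ok.e1_1]) (by norm_num)).trans
    (c.h1.trans c.er.2.1)

theorem cnt (r : Ord p) (c : Cz p t e h H o μ x) : ((Sl (lam p.T t) x).card : ℝ) ≤ p.M t := by
  have t0 := (r.lh_c ⟨c.lo, c.hi⟩).t0
  have h1 := q3_le r t0 (gx c)
  have h3 : p.e1 * (p.L / 50) ^ 3 ≤ 1 := by
    nlinarith [mul_le_mul_of_nonneg_left (Ord.L2 r).2.1 r.ok.e1.1.le, Ord.Ce r,
      mul_pos r.ok.e1.1 (show 0 < p.C by linarith [r.ok.C])]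
  calc ((Sl (lam p.T t) x).card : ℝ) ≤ h ^ 30 * (p.n * aS x ^ 3) := c.nx.cnt.trans_eq (by ring)
    _ ≤ p.e1 * ((p.L / 50) ^ 3 * p.M t) :=
        mul_le_mul (h30 r c) h1 (by have := aS_nn x; positivity) r.ok.e1.1.le
    _ ≤ _ := by rw [← mul_assoc]; exact mul_le_of_le_one_left (Pm.M_nn t0.le) h3

/-- the numbers of `WdL` -/
theorem nums : ∀ᶠ p in FF, ∀ (t e h H : ℝ) (k : ℕ) (o : Orb p.n k) (μ : Measure (Mat k))
    (x : Vn p.n), Cz p t e h H o μ x → 6 * (p.T * h) ≤ 1 ∧ 200 * p.T ^ 2 ≤ p.T ^ 4 ∧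
      4 * p.T * aS x ≤ 1 ∧ 400 ≤ (h ^ 2) ^ 2 * (p.n * aS x ^ 3) ∧
      100 * (2 * (p.T * H) + 8) ≤ p.T ^ 4 * H / p.M t * (p.n * aS x ^ 3) := by
  filter_upwards [cz_tab 0] with p ⟨_, _, Z⟩ t e h H k o μ x c
  obtain ⟨H', a, y, r, θ, cT, -, L, A, Z⟩ := Z t e h H (aS x) c.lo c.hi c.er c.h0 c.h1 c.H0 c.H1
    (aS_nn x) c.nx.q1 c.nx.q2
  generalize aS x = q at *
  nm_cz L, A, Z
  refine ⟨?_, ?_, ?_, ?_, ?_⟩ <;> num

end F31

open F31

theorem fxL : FxL := by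
  filter_upwards [ev_ord, ev_TC] with p r hT t e h H k o μ _ x c
  have l := r.lh_c ⟨c.lo, c.hi⟩
  have hT' : p.T ≤ p.C := by linarith [r.ok.T]
  have ε1 : h ^ 30 ≤ 1 / 10 := (h30 r c).trans (by linarith [r.ok.e1_1])
  exact ⟨fx_of r l.t0 c.hi c.er.1 c.er.2.1 hT' ε1 c.pt c.W (gx c),
    st_of r l.t0 c.hi c.er.1 c.er.2.1 hT' ε1 c.pt c.W (gx c) (lam_q l hT' (gx c)).1 (cnt r c)⟩

theorem posL : PosL := by
  filter_upwards [ev_ord, ev_TC] with p r hT t e h H k o μ _ x c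
  obtain ⟨l1, l2⟩ := lam_q (r.lh_c ⟨c.lo, c.hi⟩) (by linarith [r.ok.T]) (gx c)
  exact ⟨vtS (Sl (lam p.T t) x) x, fun i => by rw [c.pt.p]; exact vtS_ok (l1.trans l2) i,
    fun U _ l hl np => pos_pt c.pt (pos_mono np.1 hl) np.2⟩

theorem wdL : WdL := by
  filter_upwards [ev_ord, nums] with p r N t e h H k o μ _ x c d
  obtain ⟨n1, n2, n3, n4, n5⟩ := N t e h H k o μ x c
  have t0 := (r.lh_c ⟨c.lo, c.hi⟩).t0
  have T1 := r.ok.T
  have q0 := c.nx.mo.q0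
  have q1 := q_small r c.hi (gx c)
  have a0 := h0 c
  have a1 : h ≤ 1 / 4 := by linarith [c.h1, c.er.2.1, r.ok.e1_1]
  have a2 : h ^ 3 ≤ p.T * h :=
    (pow_le_of_le_one a0.le (by linarith) (by norm_num)).trans (le_mul_of_one_le_left a0.le T1)
  have T2 : p.T ≤ p.T ^ 2 := le_self_pow₀ T1 (by norm_num)
  have H0 : 0 ≤ H := (Real.rpow_nonneg p.n.cast_nonneg _).trans c.H0
  have g2 : aS x ^ 2 / 2 ≤ gq p.T h x := by
    rw [gq]; nlinarith [mul_le_mul_of_nonneg_right n1 (sq_nonneg (aS x))]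
  have tr := c.nw.tr
  rw [Kb.TR, ← at_zz c.pt] at tr
  obtain ⟨ha, hw⟩ := O4c.W31.hw_q (x := x) (g := gq p.T h x) (C0 := p.T) (c0 := 1 / 100)
    (C := p.T ^ 4) (η := h ^ 2) (τ := √(p.T ^ 4 * H / p.M t)) c.pt.ok d.hx.n1 q0 (by linarith)
    (at_z c.pt) (at_pp c.pt) c.nw.ha a0.le a1 d.dq g2
    (mul_le_mul_of_nonneg_right (by linarith) (sq_nonneg _)) tr (by linarith) (by linarith)
    (by linarith) (by norm_num) (by linarith) (by
      rw [Real.sq_sqrt (div_nonneg (by positivity) (Pm.M_nn t0.le))]; linarith)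
  obtain ⟨e2, fr, -⟩ := d.fr
  have ae := (O4c.W31.Ae_le fr.e11 (ha.cvA.nn _) c.nw.c1 c.nw.c2
    (ζ := 2 * aS x ^ 2) (by linarith [(at_z2 c.pt (by linarith)).2])).2
  refine ⟨ha, hw, g2, ae.trans ?_⟩
  have b1 : p.T * aS x + 2 * aS x ^ 2 ≤ 2 * (p.T * aS x) := by nlinarith
  have b2 := pow_le_pow_left₀ (by positivity) b1 2
  nlinarith [mul_le_mul_of_nonneg_left n3 (show 0 ≤ p.T * aS x by positivity)]

end Crest.Agent.T157.Oi

end
end

-- ▼ part T157/O4xB_12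
section

/-!
# Row 157, A2 section 4 (helper12): `Hx` in the words of `Kb`, sizes of the frames
-/

set_option autoImplicit false

noncomputable section

namespace Crest.Agent.T157.O4c.X12

open Matrix Real
open Crest.Agent.T157.E Crest.Agent.T157.Cond Crest.Agent.T157.Tap Crest.Agent.T157.Od
open Crest.Agent.T157.Oo Crest.Agent.T157.Mj Crest.Agent.T157.Kb Crest.Agent.T157.Kb.Xd75

variable {n k : ℕ}

/-- `Hx` with `X = |x|`, `f1 = x / |x|`, `f2 = Kb.f2 x` -/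
theorem hx' : ∃ C0 ≥ (1 : ℝ), ∀ (n k : ℕ) (o : Oo.Orb n k) (x : V n) (e η : ℝ), Kp.At o x →
    Op2 o.W 9 → Mo e x → C0 * (e + aS x) ≤ η → C0 * η ≤ 1 → 1 ≤ η ^ 2 * (n * aS x ^ 3) →
    Hx o x (unitv x) (Kb.f2 x) (Kp.chi x) (len x) (C0 * aS x) η (6 * C0) := by
  obtain ⟨C0, h0, h⟩ := hx
  refine ⟨C0, h0, fun n k o x e η a hW m h1 h2 h3 => ?_⟩
  obtain ⟨X, X0, c, c0, β, X2, hβ, -, -, H⟩ := h n k o x e η a hW m h1 h2 h3
  have e1 : len x = X := by rw [len, ← X2, sqrt_sq X0.le]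
  have e2 : Qe.bv (unitv x) (th x) = th x - β • x := by
    rw [Qe.bv, Qe.R1, sub_mulVec, one_mulVec, unitv, e1]
    congr 1
    ext i
    have : (vecMulVec (X⁻¹ • x) (X⁻¹ • x) *ᵥ th x) i = X⁻¹ * x i * (X⁻¹ * (x ⬝ᵥ th x)) := by
      simp [mulVec, dotProduct, vecMulVec_apply, Finset.mul_sum, mul_assoc]
    rw [this, ← hβ, ← X2, Pi.smul_apply, smul_eq_mul]; field_simp
  have e3 : len (th x - β • x) = c⁻¹ := by
    have := H.n2
    rw [smul_dotProduct, dotProduct_smul, smul_eq_mul, smul_eq_mul] at this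
    rw [len, sqrt_eq_iff_mul_self_eq_of_pos (inv_pos.2 c0)]
    field_simp
    linarith
  rwa [Kb.f2, e2, unitv, unitv, e1, e3, inv_inv]

theorem dq_le {o : Oo.Orb n k} {x f1 f2 : Vn n} {χ X κ η C : ℝ} (h : Hx o x f1 f2 χ X κ η C) :
    Dq x f1 f2 ^ 2 ≤ κ ^ 2 := by
  have e : Dq x f1 f2 = -∑ i, tanh (x i) ^ 2 * f1 i * f2 i := by
    have := h.o12
    simp only [Dq, sub_mul, one_mul, Finset.sum_sub_distrib, mul_assoc, dotProduct] at this ⊢
    rw [this, zero_sub]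
  have n2 : ∑ i, f2 i ^ 2 = 1 := by simpa [dotProduct, sq] using h.n2
  rw [e, neg_sq]
  refine (Finset.sum_mul_sq_le_sq_mul_sq _ _ _).trans ?_
  rw [n2, mul_one]
  refine (Finset.sum_le_sum fun i _ => ?_).trans h.m6
  rw [mul_pow, mul_comm]
  exact mul_le_mul_of_nonneg_left (pow_le_pow_left₀ (sq_nonneg _)
    (le_min (Tay.sq_le _) (tanh_sq_lt_one _).le) 2) (sq_nonneg _)



/-- sizes of any frame `(e1, e2)` of `Fr` -/
theorem fr_sizes {o : Oo.Orb n k} {x e1 e2 : Vn n} {χ r0 e : ℝ} (a : Kp.At o x)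
    (f : Fr o x χ r0 e1 e2) (m : Mo e x) (he : e ≤ 1 / 100) (hq : aS x ≤ 1 / 100) :
    r0 ^ 2 = n * aS x ∧ ∑ i, e1 i ^ 6 ≤ 16 / (n : ℝ) ^ 2 ∧ (e2 ⬝ᵥ unitv x) ^ 2 ≤ aS x ^ 2 ∧
      vecMulVec e1 e1 = vecMulVec (ee x) (ee x) := by
  have n0 : 0 < n := by have := f.n4; omega
  have n0' : (0 : ℝ) < n := by exact_mod_cast n0
  have q0 := m.q0
  have hp : th x = r0 • e1 := a.p ▸ f.pe1
  have r2 : r0 ^ 2 = n * aS x := by
    rw [← pp_eq n0, hp, smul_dotProduct, dotProduct_smul, f.e11]; simp [sq]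
  have nq : 0 < n * aS x := by positivity
  obtain ⟨z1, -, -, -, -, -, z7⟩ := m.sizes he hq
  have v0 : 0 < n * v2 x := mul_pos n0' (by linarith)
  refine ⟨r2, ?_, ?_, ?_⟩
  · have p6 := (abs_le.1 m.p6).2
    have : (∑ i, e1 i ^ 6) * (n * aS x) ^ 3 = n * avg fun i => th x i ^ 6 := by
      rw [← sum_eq n0, ← r2, Finset.sum_mul, hp]
      exact Finset.sum_congr rfl fun i _ => by simp only [Pi.smul_apply, smul_eq_mul]; ring
    refine le_of_mul_le_mul_right ?_ (pow_pos nq 3)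
    rw [this, show 16 / (n : ℝ) ^ 2 * (n * aS x) ^ 3 = n * (16 * aS x ^ 3) by field_simp]
    exact mul_le_mul_of_nonneg_left (by
      linarith [mul_le_mul_of_nonneg_right he (pow_pos q0 3).le, pow_pos q0 3]) n0'.le
  · have Qx : Qm o *ᵥ x = x := by rw [Qm_vec, Pm_vec, a.ex, mulVec_zero, sub_zero]
    have h1 := Fr.Qsq a.ok f x
    have h2 := xp_eq n0 x
    rw [Qx, xx_eq n0] at h1
    rw [hp, dotProduct_smul, smul_eq_mul, dotProduct_comm] at h2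
    have h3 : (e2 ⬝ᵥ x) ^ 2 * (n * aS x) = n ^ 2 * (v2 x * aS x - (aS x + R4 x) ^ 2) := by
      linear_combination (-(n * aS x)) * h1 + (e1 ⬝ᵥ x) ^ 2 * r2 -
        (r0 * (e1 ⬝ᵥ x) + n * (aS x + R4 x)) * h2
    rw [unitv, dotProduct_smul, smul_eq_mul, mul_pow, inv_pow, len, xx_eq n0, sq_sqrt v0.le,
      inv_mul_le_iff₀ v0]
    refine le_of_mul_le_mul_right ?_ nq
    rw [h3, show n * v2 x * aS x ^ 2 * (n * aS x) = n ^ 2 * (v2 x * aS x ^ 3) by ring]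
    exact mul_le_mul_of_nonneg_left (by
      linarith [mul_le_mul_of_nonneg_right z1 (pow_pos q0 3).le, pow_pos q0 4]) (sq_nonneg _)
  · have l2 : len (th x) ^ 2 = r0 ^ 2 := by rw [len, pp_eq n0, sq_sqrt nq.le, r2]
    have l0 : len (th x) ≠ 0 := fun h => by rw [h, r2] at l2; linarith
    ext i j
    have : ∀ i, ee x i = (len (th x))⁻¹ * (r0 * e1 i) := fun i => by
      rw [ee, unitv, Pi.smul_apply, smul_eq_mul]
      congr 1
      rw [hp]; rfl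
    rw [vecMulVec_apply, vecMulVec_apply, this, this]
    field_simp
    rw [l2]

end Crest.Agent.T157.O4c.X12

end
end

-- ▼ part T157/OiXd_15

set_option autoImplicit false
set_option linter.unusedSectionVars false

/-!
Row 157, A2 (helper15): the data on `x` on one orbit.
-/

noncomputable section

namespace Crest.Agent.T157.Oi

open MeasureTheory Matrix Crest.Agent.Lib.OrthPoinc Filter Set
open Crest.Agent.T157.E Crest.Agent.T157.Cond Crest.Agent.T157.Tap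
open Crest.Agent.T157.Oc Crest.Agent.T157.Od Crest.Agent.T157.Oo Crest.Agent.T157.O0
open Crest.Agent.T157.Mj (Fr)
open Crest.Agent.T157.Kb (f2 ee)
open Crest.Agent.T157.Kb.Xd75 (avg_const avg_sub avg_add avg_mul sum_eq)
open Crest.Agent.T157.O4c (Hx)

namespace Xd15

variable {n k : ℕ}

theorem hx_mono {o : Orb n k} {x f1 f2 : Vn n} {χ X q η C0 T C : ℝ}
    (h : Hx o x f1 f2 χ X (C0 * q) η (6 * C0)) (q0 : 0 < q) (h0 : 1 ≤ C0) (hT : C0 ≤ T)
    (hη : T * q ≤ η) (hC : 6 * T ≤ C) : Hx o x f1 f2 χ X (T * q) η C := by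
  have h1 : C0 * q ≤ T * q := mul_le_mul_of_nonneg_right hT q0.le
  have k0 := h.k0
  have e0 : 0 < η := k0.trans_le h.ke
  have h2 := pow_le_pow_left₀ k0.le h1 2
  refine { h with
    k0 := k0.trans_le h1
    ke := hη
    C1 := by linarith
    Xn := h.Xn.trans (mul_le_mul_of_nonneg_right h1 n.cast_nonneg)
    big := h.big.trans (mul_le_mul_of_nonneg_right (mul_le_mul_of_nonneg_left h1 e0.le) h.X0.le)
    m6 := h.m6.trans h2
    f2 := fun i => ?_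
    xp := fun y hy => (h.xp y hy).trans
      (mul_le_mul_of_nonneg_right (mul_le_mul_of_nonneg_left h2 e0.le) (abs_nonneg _)) }
  have h3 : q * |f2 i| ≤ 6 * |f1 i| :=
    le_of_mul_le_mul_left (a := C0) (by linarith [h.f2 i]) (by linarith)
  have h4 := mul_le_mul_of_nonneg_left h3 (show 0 ≤ T by linarith)
  linarith [mul_le_mul_of_nonneg_right hC (abs_nonneg (f1 i))]

/-- the small numbers of a context -/
structure Sm (C0 : ℝ) (p : Pm) : Prop where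
  ok : p.Ok
  T : 100 * C0 ^ 2 ≤ p.T
  e1 : p.T * p.e1 ≤ 1
  t0 : p.t0 ≤ ((p.T * p.L)⁻¹) ^ 4
  n : p.L * p.T ^ 2 ≤ (p.n : ℝ) ^ (p.d / 2)

theorem ev_Sm (C0 : ℝ) : ∀ᶠ p in FF, Sm C0 p := by
  filter_upwards [ev_ok, ev_T (Q := fun _ x => 100 * C0 ^ 2 ≤ x) fun _ => ev_ge _,
    ev_e1 fun q => ev_sm q.T⁻¹, ev_t0 fun q => ev_sm (((q.T * q.L)⁻¹) ^ 4),
    ev_n (Q := fun p => 0 < p.d → p.L * p.T ^ 2 ≤ (p.n : ℝ) ^ (p.d / 2)) fun q => by
      by_cases hd : 0 < q.d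
      · exact (((tendsto_rpow_atTop (half_pos hd)).comp tendsto_natCast_atTop_atTop).eventually_ge_atTop
          (q.L * q.T ^ 2)).mono fun _ h _ => h
      · exact .of_forall fun _ h => absurd h hd] with p ok hT h1 h0 hn
  have T0 : 0 < p.T := by linarith [ok.T]
  have L0 : 0 < p.L := by linarith [ok.L]
  refine ⟨ok, hT, ?_, h0.2 (show 0 < ((p.T * p.L)⁻¹) ^ 4 by positivity), hn ok.d.1⟩
  have : p.e1 ≤ p.T⁻¹ := h1.2 (inv_pos.2 T0)
  rwa [← one_div, le_div_iff₀' T0] at this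

variable {p : Pm} {t e h H C0 : ℝ} {o : Orb p.n k} {μ : Measure (Mat k)} {x : Vn p.n}

/-- `T q ≤ h² / 50` and `1 ≤ h⁴ n q³` -/
theorem nums (S : Sm C0 p) (c : Cz p t e h H o μ x) : 0 < t ∧ 0 < h ∧ p.T * h ≤ 1 ∧
    p.T * aS x ≤ h ^ 2 / 50 ∧ 1 ≤ (h ^ 2) ^ 2 * (p.n * aS x ^ 3) := by
  have ok := S.ok
  have T1 := ok.T
  have L0 : 0 < p.L := by linarith [ok.L]
  have n2 : 2 < p.n := by have := c.pt.dim; have := c.pt.ok.two; omega
  have n1 : (1 : ℝ) ≤ p.n := by exact_mod_cast n2.le.trans' one_le_two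
  have n0 : (0 : ℝ) < p.n := by linarith
  have t0 : 0 < t := lt_of_lt_of_le (by unfold Pm.lo; positivity) c.lo
  have t1 : t ≤ 1 := by linarith [c.hi, ok.t0.2]
  obtain ⟨e0, e1, et, en⟩ := c.er
  have h0 : 0 < h := (pow_pos e0 2).trans_le c.h0
  have q0 := c.nx.mo.q0
  have cv : p.cv ≤ p.d / 100 := by
    have : (1 : ℝ) ≤ p.A := by exact_mod_cast ok.A
    nlinarith [ok.cv, ok.cv', ok.k3.2, ok.k2.2, ok.k4.2, ok.d.1, ok.k3.1, ok.k2.1, ok.k4.1]
  have d1 : p.d ≤ 1 := by linarith [ok.d.2, ok.ch.2]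
  have h4 : e ^ 4 ≤ h ^ 2 := (by ring : e ^ 4 = (e ^ 2) ^ 2).trans_le (by gcongr; exact c.h0)
  refine ⟨t0, h0, (mul_le_mul_of_nonneg_left (c.h1.trans e1) (by linarith)).trans S.e1, ?_, ?_⟩
  · obtain ⟨u, u0, rfl⟩ : ∃ u : ℝ, 0 < u ∧ t = u ^ 4 := ⟨t ^ ((4 : ℕ) : ℝ)⁻¹, by positivity,
      (Real.rpow_inv_natCast_pow t0.le (by norm_num)).symm⟩
    have a1 : u ≤ (p.T * p.L)⁻¹ :=
      le_of_pow_le_pow_left₀ (by norm_num) (by positivity) (c.hi.trans S.t0)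
    have a2 : aS x ≤ p.L / 50 * u ^ 2 :=
      le_of_pow_le_pow_left₀ (n := 2) (by norm_num) (by positivity) (c.nx.q2.trans_eq (by ring))
    have a3 : u ≤ e ^ 4 := by
      refine le_trans ?_ (pow_le_pow_left₀ (by positivity) et 4)
      rw [← Real.rpow_mul_natCast t0.le, mul_comm, Real.rpow_natCast_mul t0.le,
        ← Real.rpow_natCast_mul t0.le, ← Real.rpow_natCast u, ← Real.rpow_mul u0.le]
      exact Real.self_le_rpow_of_le_one u0.le
        ((pow_le_one_iff_of_nonneg u0.le (by norm_num)).1 t1) (by push_cast; linarith [ok.d.2, ok.ch.2])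
    rw [← one_div, le_div_iff₀' (by positivity)] at a1
    have a4 := mul_le_mul_of_nonneg_left a2 (show 0 ≤ p.T by linarith)
    nlinarith [mul_le_mul_of_nonneg_right a1 u0.le]
  · have b1 : (p.n : ℝ) ^ (-(p.d / 2)) ≤ (h ^ 2) ^ 2 := by
      refine le_trans ?_ ((pow_le_pow_left₀ (by positivity) en 8).trans
        ((by ring : e ^ 8 = (e ^ 4) ^ 2).trans_le (by gcongr)))
      rw [← Real.rpow_mul_natCast n0.le]
      exact Real.rpow_le_rpow_of_exponent_le n1 (by push_cast; linarith [ok.d.1])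
    have b2 : t ^ (3 / 2 : ℝ) ≤ p.T ^ 2 * aS x ^ 3 := by
      have : t ≤ (p.T ^ 2 * aS x ^ 3) ^ (2 / 3 : ℝ) := by
        rw [Real.mul_rpow (by positivity) (by positivity), ← Real.rpow_natCast,
          ← Real.rpow_natCast (aS x), ← Real.rpow_mul (by linarith), ← Real.rpow_mul q0.le]
        refine c.nx.q1.trans (mul_le_mul ?_ (le_of_eq ?_) (by positivity) (by positivity))
        · exact Real.self_le_rpow_of_one_le T1 (by norm_num)
        · rw [← Real.rpow_natCast]; norm_num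
      refine (Real.rpow_le_rpow t0.le this (by norm_num)).trans_eq ?_
      rw [← Real.rpow_mul (by positivity)]; norm_num
    have b3 : (p.n : ℝ) ^ (p.d / 2) * (p.n : ℝ) ^ (p.d / 2) ≤
        (p.n : ℝ) ^ (p.d / 2) * (p.n * aS x ^ 3) := by
      rw [← Real.rpow_add n0, add_halves]
      refine (c.H0.trans c.H1).trans ?_
      have := mul_le_mul_of_nonneg_right S.n (show 0 ≤ p.n * aS x ^ 3 by positivity)
      have := mul_le_mul_of_nonneg_left b2 (mul_pos L0 n0).le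
      unfold Pm.M
      linarith
    have b4 := mul_le_mul b1 (le_of_mul_le_mul_left b3 (by positivity)) (by positivity)
      (by positivity)
    rwa [← Real.rpow_add n0, neg_add_cancel, Real.rpow_zero] at b4

end Xd15

open Xd15 O4c.X12

theorem xdL : XdL := by
  obtain ⟨C0, C1, hC⟩ := hx'
  filter_upwards [ev_Sm C0] with p S t e h H k o μ _ x c
  obtain ⟨t0, h0, h1, h2, h3⟩ := nums S c
  have m := c.nx.mo
  have q0 := m.q0
  have n0 : 0 < p.n := by have := c.pt.dim; omega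
  have n0' : (0 : ℝ) < p.n := by exact_mod_cast n0
  have T1 : 100 * C0 ≤ p.T := by nlinarith [S.T]
  have h4 : h ≤ 1 / 100 := by nlinarith
  have h5 : C0 * h ≤ 1 / 100 := by nlinarith
  have h6 : h ^ 30 ≤ h ^ 3 := pow_le_pow_of_le_one h0.le (by linarith) (by norm_num)
  have h7 : h ^ 2 ≤ 1 / 100 := by nlinarith
  have h8 : h ^ 30 ≤ 1 / 100 := by nlinarith
  have q1 : C0 * aS x ≤ p.T * aS x := mul_le_mul_of_nonneg_right (by linarith) q0.le
  have q2 : aS x ≤ 1 / 100 := by nlinarith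
  have hχ : Kp.chi x = 1 - aS x := by
    rw [Kp.chi, aS, ← avg_const n0 1, ← avg_sub]; rfl
  have hW : Op2 o.W 9 := (Wb.Wt_op2 S.ok c.er.1 (by nlinarith [c.er.2.1, S.e1, S.ok.e1.1]) t0
    (by linarith [c.hi, S.ok.t0.2]) c.W).1
  have H0 := hC _ _ o x _ (h ^ 2) c.pt hW m (by
    nlinarith [mul_le_mul_of_nonneg_left h6 (show 0 ≤ C0 by linarith), pow_pos h0 2])
    (by nlinarith) h3
  rw [hχ] at H0
  obtain ⟨r0, e1, e2, F⟩ := H0.fr
  obtain ⟨r2, -, -, hv⟩ := fr_sizes c.pt F m h8 q2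
  have l2 : len (th x) ^ 2 = p.n * aS x := by rw [len, pp_eq n0, Real.sq_sqrt (by positivity)]
  have l0 : len (th x) ≠ 0 := fun h => by rw [h] at l2; nlinarith [mul_pos n0' q0]
  have hp : th x = r0 • e1 := c.pt.p ▸ F.pe1
  have F' : Fr o x (1 - aS x) (len (th x)) (ee x) e2 :=
    { F with
      hq := by rw [F.hq, hv]
      e11 := unitv_dot fun h => l0 (by simp [h, len])
      e12 := by rw [ee, unitv, smul_dotProduct, hp, smul_dotProduct, F.e12]; simp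
      pe1 := by rw [ee, unitv, smul_smul, mul_inv_cancel₀ l0, one_smul, c.pt.p]
      pn := by rw [l2, ← r2]; exact F.pn }
  obtain ⟨-, s1, s2, -⟩ := fr_sizes c.pt F' m h8 q2
  have q3 := pow_pos q0 2
  refine ⟨hx_mono H0 q0 C1 (by linarith) (by linarith [pow_pos h0 2]) ?_, (dq_le H0).trans ?_,
    ⟨e2, F', ?_⟩, s1, ?_⟩
  · have : (100 : ℝ) ^ 3 ≤ p.T ^ 3 := pow_le_pow_left₀ (by norm_num) (by linarith) 3
    nlinarith
  · rw [mul_pow]
    exact mul_le_mul_of_nonneg_right (by linarith [S.T, sq_nonneg C0]) q3.le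
  · rw [dotProduct_comm]
    exact s2.trans (le_mul_of_one_le_left q3.le S.ok.T)
  · have e : ∀ i, (1 - o.p i ^ 2 - (1 - aS x)) ^ 2 =
        th x i ^ 4 - 2 * aS x * th x i ^ 2 + aS x ^ 2 := fun i => by rw [c.pt.p]; ring
    simp only [e]
    rw [sum_eq n0, avg_add, avg_sub, avg_mul, avg_const n0, mul_comm 4, mul_assoc (p.n : ℝ)]
    refine mul_le_mul_of_nonneg_left ?_ n0'.le
    have := (abs_le.1 m.p4).2
    have e2 : avg (fun i => th x i ^ 2) = aS x := rfl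
    rw [e2]
    nlinarith [mul_le_mul_of_nonneg_right h8 (pow_pos q0 3).le, pow_pos q0 3]

end Crest.Agent.T157.Oi

end
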