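import Crest.Agent.T157.QsB_98
import Crest.Agent.T157.Orb_59
import Crest.Agent.R166.Gauss_286
import Crest.Agent.T157.O4TB_59
import Crest.Agent.T157.O4Hw_31

-- ▼ part T157/O4TA_59
section

/-!
# Row 157, A2 section 4 (helper59): two-sided bounds of spherical integrals on an orbit

* `shell_low` : a weighted chi-square variable hits a short interval near its mean;
* `sph_low`, `sph_up` : `∫ exp (-(v + E U'a)·M (v + E U'a) / 2) dU` up to polynomial factors.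
-/

set_option autoImplicit false
set_option linter.unusedSectionVars false

noncomputable section

namespace Crest.Agent.T157.O4T

open Matrix Finset MeasureTheory
open scoped ENNReal
open Crest.Agent.Lib.OrthPoinc Crest.Agent.T157.Oc Crest.Agent.T157.Orb
open Crest.Agent.T157.E Crest.Agent.T157.Cond Crest.Agent.T157.Dq Crest.Agent.T157.Qs
open Crest.Agent.T157.Conc (ex ex_add ex_mono ex_zero ex_ne_top)

variable {ι : Type*} [Fintype ι] [DecidableEq ι]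

lemma prod_ex {b : ι → ℝ} (hb : ∀ i, 0 < b i) :
    ENNReal.ofReal (∏ i, (√(b i))⁻¹) = ex (-(∑ i, Real.log (b i)) / 2) := by
  rw [ex, neg_div, sum_div, ← sum_neg_distrib, Real.exp_sum]
  congr 1
  refine prod_congr rfl fun i _ => ?_
  rw [Real.exp_neg, Real.exp_half, Real.exp_log (hb i)]

lemma cv_ind {B : Matrix ι ι ℝ} {b : ι → ℝ} (hB : Dg B b) (hb : ∀ i, 0 < b i) {S : Set ℝ}
    (hS : MeasurableSet S) :
    ∫⁻ x, ex ((x ⬝ᵥ x - x ⬝ᵥ B *ᵥ x) / 2) * S.indicator 1 (x ⬝ᵥ x) ∂gv ι =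
      ex (-(∑ i, Real.log (b i)) / 2) * gv ι {g | Rq b g ∈ S} := by
  rw [gauss_cv hB hb (measurable_one.indicator hS), prod_ex hb]
  congr 1
  exact lintegral_indicator_one (measurable_Rq b hS)

lemma log_le {u : ℝ} (h : |u| ≤ 1 / 2) : Real.log (1 + u) ≤ u - u ^ 2 / 5 := by
  obtain ⟨h1, h2⟩ := abs_le.1 h
  have p : 0 < 1 + u / 2 - u ^ 2 / 10 := by nlinarith
  have h3 : 1 + u ≤ (1 + u / 2 - u ^ 2 / 10) ^ 2 := by
    nlinarith [mul_nonneg (sq_nonneg u) (sub_nonneg.2 h2), sq_nonneg (u ^ 2)]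
  have h4 := Real.log_le_log (by linarith) h3
  have h5 := Real.log_le_sub_one_of_pos p
  rw [Real.log_pow] at h4
  push_cast at h4
  linarith

/-- comparison of two tilts -/
lemma tilt {b : ι → ℝ} {m D : ℝ} (hb : ∀ i, 0 < b i) (hm : ∀ i, 2 * |m| ≤ b i) {S : Set ℝ}
    (hS : MeasurableSet S) (hD : ∀ y ∈ S, m * (∑ i, (b i)⁻¹ - y) ≤ D) :
    gv ι {g | Rq (fun i => b i + m) g ∈ S} ≤
      ex (D / 2 - m ^ 2 * (∑ i, (b i)⁻¹ ^ 2) / 10) * gv ι {g | Rq b g ∈ S} := by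
  have hb' : ∀ i, 0 < b i + m := fun i => by
    have := hm i; have := neg_abs_le m; have := hb i; linarith
  have h1 := cv_ind (dg_diagonal _) hb' hS
  have h2 := cv_ind (dg_diagonal _) hb hS
  have h3 : ∫⁻ x, ex ((x ⬝ᵥ x - x ⬝ᵥ diagonal (fun i => b i + m) *ᵥ x) / 2) *
      S.indicator 1 (x ⬝ᵥ x) ∂gv ι ≤ ex ((D - m * ∑ i, (b i)⁻¹) / 2) *
      ∫⁻ x, ex ((x ⬝ᵥ x - x ⬝ᵥ diagonal b *ᵥ x) / 2) * S.indicator 1 (x ⬝ᵥ x) ∂gv ι := by
    rw [← lintegral_const_mul' _ _ (ex_ne_top _)]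
    refine lintegral_mono fun x => ?_
    by_cases hx : x ⬝ᵥ x ∈ S
    · rw [← mul_assoc, ← ex_add]
      refine mul_le_mul_left (ex_mono ?_) _
      have e : x ⬝ᵥ diagonal (fun i => b i + m) *ᵥ x = x ⬝ᵥ diagonal b *ᵥ x + m * (x ⬝ᵥ x) := by
        simp only [dotProduct, mulVec_diagonal, mul_sum, ← sum_add_distrib]
        exact sum_congr rfl fun i _ => by ring
      have := hD _ hx
      rw [e]; linarith
    · simp [hx]
  rw [h1, h2] at h3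
  have h4 := mul_le_mul_right h3 (ex ((∑ i, Real.log (b i + m)) / 2))
  rw [← mul_assoc, ← ex_add, neg_div, add_neg_cancel, ex_zero, one_mul, ← mul_assoc, ← mul_assoc,
    ← ex_add, ← ex_add] at h4
  refine h4.trans (mul_le_mul_left (ex_mono ?_) _)
  have h5 : ∑ i, Real.log (b i + m) ≤
      ∑ i, (Real.log (b i) + m * (b i)⁻¹ - m ^ 2 * (b i)⁻¹ ^ 2 / 5) := sum_le_sum fun i _ => by
    have := hb i
    have e : b i + m = b i * (1 + m * (b i)⁻¹) := by field_simp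
    have h6 : |m * (b i)⁻¹| ≤ 1 / 2 := by
      rw [abs_mul, abs_inv, abs_of_pos this, mul_inv_le_iff₀ this]; linarith [hm i]
    have := log_le h6
    rw [e, Real.log_mul (hb i).ne' (by linarith [(abs_le.1 h6).1])]
    nlinarith
  simp only [sum_sub_distrib, sum_add_distrib, ← mul_sum, ← sum_div] at h5
  linarith

lemma exists_cross {Y : ℕ → ℝ} {r h : ℝ} (hh : 0 ≤ h) {J : ℕ} (h0 : r ≤ Y 0) (hJ : Y J ≤ r)
    (hs : ∀ j < J, Y j ≤ Y (j + 1) + h) : ∃ j ≤ J, Y j ∈ Set.Icc r (r + h) := by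
  induction J with
  | zero => exact ⟨0, le_rfl, h0, by linarith⟩
  | succ J ih =>
    rcases le_total (Y J) r with H | H
    · obtain ⟨j, hj, h⟩ := ih H fun j hj => hs j (by omega)
      exact ⟨j, by omega, h⟩
    · exact ⟨J, by omega, H, by linarith [hs J (by omega)]⟩

lemma ex_two : ex (-2) ≤ 4⁻¹ := (ex_mono (by norm_num)).trans ex_quarter

/-- **the shell is hit** -/
theorem shell_low {b : ι → ℝ} {m D r h : ℝ} (m0 : 0 < m) (hm : ∀ i, 2 * m ≤ b i) (h0 : 0 < h)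
    (hV : 5 * m * D + 20 ≤ m ^ 2 * ∑ i, (b i)⁻¹ ^ 2) (hD : |r - ∑ i, (b i)⁻¹| ≤ D) {J : ℕ}
    (J0 : 0 < J) (hJ : 24 * Fintype.card ι ≤ m * h * J) (h1 : 1 ≤ Fintype.card ι) :
    1 ≤ 4 * (J + 1) * ex (m * (D + h) / 2) * gv ι {g | Rq b g ∈ Set.Icc r (r + h)} := by
  have hb : ∀ i, 0 < b i := fun i => by linarith [hm i]
  have J0' : (0 : ℝ) < J := by exact_mod_cast J0
  obtain ⟨d1, d2⟩ := abs_le.1 hD
  set μ : ℕ → ℝ := fun j => -m + 2 * m * j / J with hμ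
  have hμ1 : ∀ j ≤ J, |μ j| ≤ m := fun j hj => by
    have : (j : ℝ) ≤ J := by exact_mod_cast hj
    have h2 : 2 * m * j / J ≤ 2 * m := by rw [div_le_iff₀ J0']; nlinarith
    have h3 : 0 ≤ 2 * m * j / J := by positivity
    exact abs_le.2 ⟨by simp only [hμ]; linarith, by simp only [hμ]; linarith⟩
  have t1 : gv ι {g | Rq (fun i => b i + μ 0) g ∈ Set.Iic r} ≤ 4⁻¹ := by
    refine (tilt hb (D := m * D) (fun i => by linarith [hμ1 0 J0.le, hm i]) measurableSet_Iic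
      fun y hy => ?_).trans ((mul_le_mul' (ex_mono ?_) prob_le_one).trans (by simpa using ex_two))
    · have : y ≤ r := hy
      simp only [hμ, Nat.cast_zero, mul_zero, zero_div, add_zero]
      nlinarith
    · simp only [hμ, Nat.cast_zero, mul_zero, zero_div, add_zero, neg_sq]
      linarith
  have eJ : μ J = m := by simp only [hμ]; field_simp; ring
  have t2 : gv ι {g | Rq (fun i => b i + μ J) g ∈ Set.Ici r} ≤ 4⁻¹ := by
    refine (tilt hb (D := m * D) (fun i => by linarith [hμ1 J le_rfl, hm i]) measurableSet_Ici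
      fun y hy => ?_).trans ((mul_le_mul' (ex_mono ?_) prob_le_one).trans (by simpa using ex_two))
    · have : r ≤ y := hy
      rw [eJ]; nlinarith
    · rw [eJ]; linarith
  have t3 : gv ι {g | 12 * (Fintype.card ι : ℝ) < g ⬝ᵥ g} ≤ 4⁻¹ := by
    refine (chi_tail IsProj.one (m := Fintype.card ι) (by simp) (t := 2⁻¹) (by norm_num)
      (-3 * Fintype.card ι) fun g hg => ?_).trans ((ex_mono ?_).trans ex_quarter)
    · simp only [Set.mem_ofPred_eq, one_mulVec] at hg ⊢; linarith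
    · have := Real.log_two_lt_d9
      have m1 : (1 : ℝ) ≤ Fintype.card ι := by exact_mod_cast h1
      rw [Real.log_inv]
      nlinarith
  have t4 : ∀ j ∈ range (J + 1), gv ι {g | Rq (fun i => b i + μ j) g ∈ Set.Icc r (r + h)} ≤
      ex (m * (D + h) / 2) * gv ι {g | Rq b g ∈ Set.Icc r (r + h)} := fun j hj => by
    have hj' := hμ1 j (Nat.lt_succ_iff.1 (mem_range.1 hj))
    refine (tilt hb (D := m * (D + h)) (fun i => by linarith [hm i]) measurableSet_Icc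
      fun y hy => ?_).trans (mul_le_mul_left (ex_mono ?_) _)
    · refine (le_abs_self _).trans ?_
      rw [abs_mul]
      exact mul_le_mul hj' (abs_le.2 ⟨by linarith [hy.2], by linarith [hy.1]⟩) (abs_nonneg _) m0.le
    · have : 0 ≤ μ j ^ 2 * (∑ i, (b i)⁻¹ ^ 2) / 10 := by positivity
      linarith
  have cov : (Set.univ : Set (ι → ℝ)) ⊆ ({g | Rq (fun i => b i + μ 0) g ∈ Set.Iic r} ∪
      {g | Rq (fun i => b i + μ J) g ∈ Set.Ici r} ∪ {g | 12 * (Fintype.card ι : ℝ) < g ⬝ᵥ g}) ∪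
      ⋃ j ∈ range (J + 1), {g | Rq (fun i => b i + μ j) g ∈ Set.Icc r (r + h)} := fun g _ => by
    by_contra hn
    simp only [Set.mem_union, Set.mem_ofPred_eq, Set.mem_Iic, Set.mem_Ici, not_or, not_le, not_lt,
      Set.mem_iUnion, not_exists, mem_range] at hn
    obtain ⟨⟨⟨a1, a2⟩, a3⟩, a4⟩ := hn
    obtain ⟨j, hj, H⟩ := exists_cross (Y := fun j => Rq (fun i => b i + μ j) g) h0.le a1.le a2.le
      fun j hj => by
        have k1 := abs_le.1 (hμ1 j hj.le)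
        have k2 := abs_le.1 (hμ1 (j + 1) hj)
        have e : μ (j + 1) = μ j + 2 * m / J := by simp only [hμ]; push_cast; ring
        have k3 : Rq (fun i => b i + μ j) g ≤ ∑ i, (g i ^ 2 / (b i + μ (j + 1)) +
            2 / (m * J) * (g i * g i)) := sum_le_sum fun i _ => by
          have p1 : m ≤ b i + μ j := by linarith [hm i]
          have p2 : m ≤ b i + μ (j + 1) := by linarith [hm i]
          have p3 : g i ^ 2 / (b i + μ j) = g i ^ 2 / (b i + μ (j + 1)) +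
              2 * m / J / ((b i + μ j) * (b i + μ (j + 1))) * (g i * g i) := by
            have := m0.trans_le p1; have := m0.trans_le p2
            rw [show 2 * m / J = b i + μ (j + 1) - (b i + μ j) by rw [e]; ring]
            field_simp; ring
          rw [p3]
          refine add_le_add le_rfl (mul_le_mul_of_nonneg_right ?_ (mul_self_nonneg _))
          calc _ ≤ 2 * m / J / (m * m) := div_le_div_of_nonneg_left (by positivity)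
                (by positivity) (mul_le_mul p1 p2 m0.le (m0.le.trans p1))
            _ = _ := by field_simp
        rw [sum_add_distrib, ← mul_sum] at k3
        refine k3.trans (add_le_add le_rfl ?_)
        rw [div_mul_eq_mul_div, div_le_iff₀ (by positivity)]
        have : ∑ i, g i * g i ≤ 12 * (Fintype.card ι : ℝ) := a3
        nlinarith
    exact a4 j (by omega) H
  have h5 : (1 : ℝ≥0∞) ≤ 4⁻¹ + 4⁻¹ + 4⁻¹ +
      (J + 1) * (ex (m * (D + h) / 2) * gv ι {g | Rq b g ∈ Set.Icc r (r + h)}) := by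
    refine (measure_univ (μ := gv ι)).ge.trans <| (measure_mono cov).trans ((measure_union_le _ _).trans (add_le_add
      ((measure_union_le _ _).trans (add_le_add ((measure_union_le _ _).trans (add_le_add t1 t2)) t3))
      ((measure_biUnion_finset_le _ _).trans ((sum_le_card_nsmul _ _ _ t4).trans ?_))))
    rw [card_range, nsmul_eq_mul]; push_cast; rfl
  have h6 : (1 : ℝ≥0∞) = 4⁻¹ + 4⁻¹ + 4⁻¹ + 4⁻¹ := by
    rw [← ENNReal.mul_inv_cancel (a := 4) (by simp) (by simp)]; ring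
  replace h5 := (ENNReal.add_le_add_iff_left (by simp)).1 (h6.ge.trans h5)
  calc (1 : ℝ≥0∞) = 4 * 4⁻¹ := (ENNReal.mul_inv_cancel (by simp) (by simp)).symm
    _ ≤ _ := mul_le_mul_right h5 _
    _ = _ := by simp only [mul_assoc]

variable {k : ℕ} {μ : Measure (Mat k)} [IsProbabilityMeasure μ]

@[fun_prop] lemma _root_.Measurable.t157o4_xi {α : Type*} [MeasurableSpace α] {a : α → Fin k → ℝ}
    {U : α → Mat k} (ha : Measurable a) (hU : Measurable U) : Measurable fun x => xi (a x) (U x) := by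
  refine measurable_pi_lambda _ fun i => ?_
  simp only [xi, mulVec, dotProduct, transpose_apply, of_apply]
  fun_prop

lemma lint_xi (hμ : SOInv μ) (hk : 2 ≤ k) {F : (Fin k → ℝ) → ℝ≥0∞} (hF : Measurable F)
    {a a' : Fin k → ℝ} (h : a ⬝ᵥ a = a' ⬝ᵥ a') :
    ∫⁻ U, F (xi a U) ∂μ = ∫⁻ U, F (xi a' U) ∂μ := by
  have hij : (⟨0, by omega⟩ : Fin k) ≠ ⟨1, by omega⟩ := by simp
  have hV := (rho_R2 hij a' a).1
  rw [← lint_left hμ hV (F := fun U => F (xi a U)) (by fun_prop)]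
  simp only [xi_mm, xi_eq_of hV (rho_mulVec _ _ h.symm)]

lemma xi_smul (c : ℝ) (a : Fin k → ℝ) (U : Mat k) : xi (c • a) U = c • xi a U := mulVec_smul _ _ _

/-- the spherical integral without centre -/
theorem sph_low0 (hμ : SOInv μ) (hk : 2 ≤ k) {B : Matrix (Fin k) (Fin k) ℝ} {b : Fin k → ℝ}
    (hB : Dg B b) (hb : ∀ i, 0 < b i) {a : Fin k → ℝ} (h0 : 0 < a ⬝ᵥ a) {ρ : ℝ} (hρ : 0 < ρ) :
    ex (-(∑ i, Real.log (b i)) / 2) * gv (Fin k) {g | Rq b g ∈ Set.Icc (a ⬝ᵥ a) ρ} ≤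
      (∫⁻ U, ex (-(xi a U ⬝ᵥ B *ᵥ xi a U) / 2) ∂μ) * ex (k / 2 - k * Real.log (k / ρ) / 2) := by
  have k0 : (0 : ℝ) < k := by exact_mod_cast (by omega : 0 < k)
  have hpsd : ∀ y, 0 ≤ y ⬝ᵥ B *ᵥ y := fun y => by
    obtain ⟨O, -, rfl⟩ := hB
    rw [← mulVec_mulVec, ← mulVec_mulVec, dotProduct_mulVec, ← mulVec_transpose]
    exact sum_nonneg fun i _ => by
      rw [mulVec_diagonal]; nlinarith [mul_nonneg (hb i).le (mul_self_nonneg ((Oᵀ *ᵥ y) i))]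
  set I := Set.Icc (a ⬝ᵥ a) ρ with hI
  have mI : Measurable (I.indicator (1 : ℝ → ℝ≥0∞)) := measurable_one.indicator measurableSet_Icc
  set G : (Fin k → ℝ) → ℝ≥0∞ := fun x => ex ((x ⬝ᵥ x - x ⬝ᵥ B *ᵥ x) / 2) * I.indicator 1 (x ⬝ᵥ x)
    with hG
  have mG : Measurable G := by fun_prop
  have h1 : ∫⁻ x, G x ∂gv (Fin k) = ∫⁻ U, ∫⁻ x, G (xi x U) ∂gv (Fin k) ∂μ := by
    refine (lint_const hμ fun U hU => ?_).symm
    have hmp : MeasurePreserving (fun x => (Matrix.of U)ᵀ *ᵥ x) (gv (Fin k)) (gv (Fin k)) :=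
      ⟨R166.Gauss286.measurable_mulVec _, R166.Gauss286.gv_map_mulVec _ (tp_mul hU)⟩
    exact hmp.lintegral_comp mG
  have hB1 : PD ((k / ρ) • (1 : Matrix (Fin k) (Fin k) ℝ)) := ⟨by simp, fun x hx => by
    rw [smul_mulVec, one_mulVec, dotProduct_smul, smul_eq_mul]
    exact mul_pos (by positivity) (lt_of_le_of_ne (dot_self_nonneg x)
      fun h => hx (dotProduct_self_eq_zero.1 h.symm))⟩
  have h2 := gauss_det hB1
  rw [det_smul, det_one, mul_one, Real.log_pow, Fintype.card_fin] at h2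
  rw [← cv_ind hB hb measurableSet_Icc, h1, lintegral_lintegral_swap (by fun_prop), sub_eq_add_neg,
    ← neg_div, ex_add, ← h2, ← lintegral_const_mul' _ _ (ex_ne_top _),
    ← lintegral_const_mul _ (by fun_prop)]
  refine lintegral_mono fun x => ?_
  by_cases hx : x ⬝ᵥ x ∈ I
  swap
  · rw [lint_const hμ (c := 0) fun U hU => by simp [hG, dot_xi x hU, hx]]
    exact zero_le
  have x0 : 0 < x ⬝ᵥ x := h0.trans_le hx.1
  set c := √(a ⬝ᵥ a / (x ⬝ᵥ x)) with hc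
  have c2 : c * c = a ⬝ᵥ a / (x ⬝ᵥ x) := Real.mul_self_sqrt (by positivity)
  have c1 : c * c ≤ 1 := by rw [c2, div_le_one x0]; exact hx.1
  rw [lint_xi hμ hk (F := fun y => ex (-(y ⬝ᵥ B *ᵥ y) / 2)) (a' := c • x) (by fun_prop) (by
    rw [smul_dotProduct, dotProduct_smul, smul_eq_mul, smul_eq_mul, ← mul_assoc, c2,
      div_mul_cancel₀ _ x0.ne']), ← lintegral_mul_const' _ _ (ENNReal.mul_ne_top (ex_ne_top _)
      (ex_ne_top _))]
  refine lintegral_mono_ae ((ae_SO hμ).mono fun U hU => ?_)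
  simp only [hG, dot_xi x hU, Set.indicator_of_mem hx, Pi.one_apply, mul_one, ← ex_add, xi_smul,
    mulVec_smul, smul_dotProduct, dotProduct_smul, smul_eq_mul, smul_mulVec, one_mulVec]
  refine ex_mono ?_
  have h3 : k / ρ * (x ⬝ᵥ x) ≤ k := by
    rw [div_mul_eq_mul_div, div_le_iff₀ hρ]; exact mul_le_mul_of_nonneg_left hx.2 k0.le
  nlinarith [mul_le_mul_of_nonneg_right c1 (hpsd (xi x U))]

variable {E : Matrix ι (Fin k) ℝ}

/-- the spherical integral -/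
def Sph (μ : Measure (Mat k)) (E : Matrix ι (Fin k) ℝ) (M : Matrix ι ι ℝ) (v : ι → ℝ)
    (a : Fin k → ℝ) : ℝ≥0∞ :=
  ∫⁻ U, ex (-((v + E *ᵥ xi a U) ⬝ᵥ M *ᵥ (v + E *ᵥ xi a U)) / 2) ∂μ

lemma quad_E (M : Matrix ι ι ℝ) (y : Fin k → ℝ) :
    E *ᵥ y ⬝ᵥ M *ᵥ (E *ᵥ y) = y ⬝ᵥ (Eᵀ * M * E) *ᵥ y := by
  rw [← mulVec_mulVec, ← mulVec_mulVec, dotProduct_mulVec y, vecMul_transpose]

/-- **lower bound** -/
theorem sph_low (hμ : SOInv μ) (hk : 2 ≤ k) {M : Matrix ι ι ℝ} {b : Fin k → ℝ}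
    (hB : Dg (Eᵀ * M * E) b) (v : ι → ℝ) {a : Fin k → ℝ} (h0 : 0 < a ⬝ᵥ a) {m D : ℝ} (m0 : 0 < m)
    (hm : ∀ i, 2 * m ≤ b i) (hV : 5 * m * D + 20 ≤ m ^ 2 * ∑ i, (b i)⁻¹ ^ 2)
    (hD : |a ⬝ᵥ a - ∑ i, (b i)⁻¹| ≤ D) {J : ℕ} (J0 : 0 < J)
    (hJ : 24 * (k : ℝ) ^ 2 ≤ m * (a ⬝ᵥ a) * J) :
    ex (-(v ⬝ᵥ M *ᵥ v) / 2 - (∑ i, Real.log (b i)) / 2 - (k + 1) / 2 +
      k * Real.log (k / (a ⬝ᵥ a)) / 2 - m * (D + a ⬝ᵥ a / k) / 2) ≤ 4 * (J + 1) * Sph μ E M v a := by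
  have k0 : (0 : ℝ) < k := by exact_mod_cast (by omega : 0 < k)
  have hb : ∀ i, 0 < b i := fun i => by linarith [hm i]
  set r := a ⬝ᵥ a with hr
  have h1 := shell_low (r := r) (h := r / k) m0 hm (by positivity) hV hD J0 (by
    rw [Fintype.card_fin, mul_div_assoc', div_mul_eq_mul_div, le_div_iff₀ k0]; linarith)
    (by rw [Fintype.card_fin]; omega)
  have h2 := sph_low0 hμ hk hB hb h0 (ρ := r + r / k) (by positivity)
  have h3 : ex (-(v ⬝ᵥ M *ᵥ v) / 2) * ∫⁻ U, ex (-(xi a U ⬝ᵥ (Eᵀ * M * E) *ᵥ xi a U) / 2) ∂μ ≤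
      Sph μ E M v a := by
    have e := lint_xi hμ hk (F := fun y => ex (-((v + E *ᵥ y) ⬝ᵥ M *ᵥ (v + E *ᵥ y)) / 2))
      (a := a) (a' := (-1 : ℝ) • a) (by fun_prop) (by simp)
    refine (ENNReal.mul_le_mul_iff_right (a := 2) (by norm_num) (by norm_num)).1 ?_
    rw [two_mul (Sph _ _ _ _ _), Sph]
    nth_rewrite 2 [e]
    rw [← lintegral_add_left (by fun_prop), ← lintegral_const_mul' _ _ (ex_ne_top _),
      ← lintegral_const_mul' _ _ (by norm_num)]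
    refine lintegral_mono fun U => le_trans (le_of_eq ?_) (ex_mid _ _)
    rw [← ex_add, ← quad_E]
    simp only [xi_smul, mulVec_smul, mulVec_add, add_dotProduct, dotProduct_add, smul_dotProduct,
      dotProduct_smul, smul_eq_mul]
    congr 2; ring
  have h4 : Real.log (k / r) - 1 / k ≤ Real.log (k / (r + r / k)) := by
    have := Real.log_le_sub_one_of_pos (show 0 < 1 + 1 / (k : ℝ) by positivity)
    rw [show k / (r + r / k) = k / r / (1 + 1 / k) by field_simp,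
      Real.log_div (x := k / r) (by positivity) (by positivity)]
    linarith
  have h5 := mul_le_mul_of_nonneg_left h4 k0.le
  rw [mul_sub, mul_one_div_cancel k0.ne'] at h5
  calc _ ≤ ex (-(v ⬝ᵥ M *ᵥ v) / 2 - (∑ i, Real.log (b i)) / 2 - (k + 1) / 2 +
        k * Real.log (k / r) / 2 - m * (D + r / k) / 2) * (4 * (J + 1) * ex (m * (D + r / k) / 2) *
        gv (Fin k) {g | Rq b g ∈ Set.Icc r (r + r / k)}) := le_mul_of_one_le_right' h1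
    _ = 4 * (J + 1) * (ex (-(v ⬝ᵥ M *ᵥ v) / 2 - (k + 1) / 2 + k * Real.log (k / r) / 2) *
        (ex (-(∑ i, Real.log (b i)) / 2) * gv (Fin k) {g | Rq b g ∈ Set.Icc r (r + r / k)})) := by
        rw [← mul_assoc (ex _) (ex _), ← ex_add, mul_assoc (4 * _), mul_left_comm,
          ← mul_assoc (ex _) (ex _), ← ex_add]
        congr 3; ring
    _ ≤ 4 * (J + 1) * (ex (-(v ⬝ᵥ M *ᵥ v) / 2) *
        ∫⁻ U, ex (-(xi a U ⬝ᵥ (Eᵀ * M * E) *ᵥ xi a U) / 2) ∂μ) := by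
        refine mul_le_mul_right ((mul_le_mul_right h2 _).trans ?_) _
        rw [mul_comm (∫⁻ _, _ ∂μ), ← mul_assoc, ← ex_add]
        exact mul_le_mul_left (ex_mono (by linarith)) _
    _ ≤ _ := mul_le_mul_right h3 _

/-- **upper bound** -/
theorem sph_up (hμ : SOInv μ) (hk : 2 ≤ k) {M : Matrix ι ι ℝ} (hM : Mᵀ = M)
    (hB : PD (Eᵀ * M * E)) {K κ : ℝ} (K0 : 0 ≤ K)
    (hK : ∀ y, y ⬝ᵥ (Eᵀ * M * E) *ᵥ y ≤ K * (y ⬝ᵥ y)) {v : ι → ℝ}
    (hκ : ∀ y, κ ≤ (v + E *ᵥ y) ⬝ᵥ M *ᵥ (v + E *ᵥ y)) {a : Fin k → ℝ} (h0 : 0 < a ⬝ᵥ a)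
    {N : ℕ} (N1 : 1 ≤ N) (hN : 600 * (a ⬝ᵥ a) * K ≤ N) :
    Sph μ E M v a ≤ 2 * N * ex (1 - k / 2 + k * Real.log (k / (a ⬝ᵥ a)) / 2 - κ / 2 -
      Real.log (Eᵀ * M * E).det / 2) := by
  set B := Eᵀ * M * E with hBd
  have q : ∀ (s : ℝ) (y : Fin k → ℝ), (v + E *ᵥ (s • y)) ⬝ᵥ M *ᵥ (v + E *ᵥ (s • y)) =
      v ⬝ᵥ M *ᵥ v + 2 * s * (Eᵀ *ᵥ (M *ᵥ v) ⬝ᵥ y) + s * s * (y ⬝ᵥ B *ᵥ y) := fun s y => by
    have e1 : v ⬝ᵥ M *ᵥ (E *ᵥ y) = Eᵀ *ᵥ (M *ᵥ v) ⬝ᵥ y := by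
      rw [dot_symm hM, dotProduct_mulVec, mulVec_transpose]
    have e2 : E *ᵥ y ⬝ᵥ M *ᵥ v = Eᵀ *ᵥ (M *ᵥ v) ⬝ᵥ y := by
      rw [dotProduct_comm, dotProduct_mulVec, mulVec_transpose]
    simp only [mulVec_smul, mulVec_add, add_dotProduct, dotProduct_add, smul_dotProduct,
      dotProduct_smul, smul_eq_mul, e1, e2, quad_E, ← hBd]
    ring
  have mF : Measurable fun y : Fin k → ℝ => ex (-((v + E *ᵥ y) ⬝ᵥ M *ᵥ (v + E *ᵥ y)) / 2) := by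
    fun_prop
  have h := shell (ι := Fin k) IsProj.one (m := k) (by simp) (by omega) (Sph μ E M v)
    (Sph μ E M v a) (ex (-κ / 2 - Real.log B.det / 2)) (K := K) (z := 0) h0 (by linarith)
    (fun w _ hw => ?_) (fun α α0 => ?_) N1 (by rwa [add_zero])
  · refine h.trans (le_of_eq ?_)
    rw [mul_assoc, ← ex_add]
    congr 2; ring
  · set c := √(w ⬝ᵥ w / (a ⬝ᵥ a)) with hc
    have c1 : 1 ≤ c := Real.le_sqrt_of_sq_le (by rw [one_pow, one_le_div h0]; exact hw)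
    have c2 : c * c * (a ⬝ᵥ a) = w ⬝ᵥ w := by
      rw [hc, Real.mul_self_sqrt (div_nonneg (h0.le.trans hw) h0.le), div_mul_cancel₀ _ h0.ne']
    have d : ∀ s : ℝ, (s • a) ⬝ᵥ (s • a) = s * s * (a ⬝ᵥ a) := fun s => by
      rw [smul_dotProduct, dotProduct_smul, smul_eq_mul, smul_eq_mul, mul_assoc]
    have e0 := lint_xi hμ hk mF (a := a) (a' := (1 : ℝ) • a) (by rw [d]; ring)
    have e1 := lint_xi hμ hk mF (a := a) (a' := (-1 : ℝ) • a) (by rw [d]; ring)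
    have e2 := lint_xi hμ hk mF (a := w) (a' := c • a) (by rw [d, c2])
    have e3 := lint_xi hμ hk mF (a := w) (a' := (-c) • a) (by rw [d, ← c2]; ring)
    refine (ENNReal.mul_le_mul_iff_right (a := 2) (by norm_num) (by norm_num)).1 ?_
    rw [mul_left_comm, two_mul, two_mul, Sph, Sph]
    nth_rewrite 2 [e1, e3]
    rw [e0, e2, ← lintegral_add_left (by fun_prop), ← lintegral_add_left (by fun_prop),
      ← lintegral_const_mul' _ _ (ex_ne_top _)]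
    refine lintegral_mono_ae ((ae_SO hμ).mono fun U hU => ?_)
    simp only [xi_smul, q]
    have := @ex_cosh (-(v ⬝ᵥ M *ᵥ v + xi a U ⬝ᵥ B *ᵥ xi a U) / 2)
      (-(v ⬝ᵥ M *ᵥ v + c * c * (xi a U ⬝ᵥ B *ᵥ xi a U)) / 2) (-(Eᵀ *ᵥ (M *ᵥ v) ⬝ᵥ xi a U)) c
      (K * (w ⬝ᵥ w - a ⬝ᵥ a) / 2) c1 (by
        have := hK (xi a U)
        rw [dot_xi a hU] at this
        rw [← c2]
        nlinarith [mul_le_mul_of_nonneg_left this (show 0 ≤ c * c - 1 by nlinarith)])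
    convert this using 3 <;> ring
  · set s := (√α)⁻¹ with hs
    have ss : s * s = α⁻¹ := by rw [hs, ← mul_inv, Real.mul_self_sqrt α0.le]
    simp only [one_mulVec, Sph, zero_mul, zero_div, sub_zero]
    simp_rw [← lintegral_mul_const' _ _ (ex_ne_top _)]
    rw [lintegral_lintegral_swap (by fun_prop)]
    refine (lintegral_mono_ae ((ae_SO hμ).mono fun U hU => ?_)).trans (by
      rw [lintegral_const, measure_univ, mul_one])
    have hmp : MeasurePreserving (fun x => (Matrix.of U)ᵀ *ᵥ x) (gv (Fin k)) (gv (Fin k)) :=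
      ⟨R166.Gauss286.measurable_mulVec _, R166.Gauss286.gv_map_mulVec _ (tp_mul hU)⟩
    have hB' : PD (α⁻¹ • B) := ⟨by rw [transpose_smul, hB.symm], fun x hx => by
      rw [smul_mulVec, dotProduct_smul, smul_eq_mul]; exact mul_pos (inv_pos.2 α0) (hB.pos x hx)⟩
    have h2 := gauss_quad_le hB' (b := (-s) • Eᵀ *ᵥ (M *ᵥ v)) (κ := v ⬝ᵥ M *ᵥ v - κ) fun x => by
      have := hκ (s • x)
      rw [q, ss] at this
      rw [smul_mulVec, dotProduct_smul, smul_dotProduct, smul_eq_mul, smul_eq_mul]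
      linarith
    rw [det_smul, Fintype.card_fin, Real.log_mul (by positivity) hB.det_pos.ne', Real.log_pow,
      Real.log_inv, ← hmp.lintegral_comp (by fun_prop)] at h2
    have h5 := mul_le_mul_right h2 (ex (-(v ⬝ᵥ M *ᵥ v) / 2))
    rw [← lintegral_const_mul' _ _ (ex_ne_top _), ← ex_add] at h5
    rw [← ex_add]
    refine le_trans (le_of_eq (lintegral_congr fun g => ?_)) (h5.trans (le_of_eq ?_))
    · have e := dot_xi g hU
      rw [← ex_add, ← ex_add, xi_smul, q, ss, ← e, smul_mulVec, dotProduct_smul, smul_dotProduct,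
        smul_eq_mul, smul_eq_mul, xi]
      congr 1; ring
    · congr 1; ring

end Crest.Agent.T157.O4T

end
end

-- ▼ part T157/O4T_59
section

/-!
# Row 157, A2 section 4 (helper59): the tail lemma (M0)

Exponential moments of quadratic forms of `ξ̂` under the joint law of one orbit.
-/

set_option autoImplicit false
set_option linter.unusedSectionVars false

noncomputable section

namespace Crest.Agent.T157.O4T

open Matrix Finset MeasureTheory Real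
open scoped ENNReal
open Crest.Agent.Lib.OrthPoinc Crest.Agent.T157.Oc Crest.Agent.T157.E Crest.Agent.T157.Od
open Crest.Agent.T157.Oo Crest.Agent.T157.Mj Crest.Agent.T157.Dq Crest.Agent.T157.Qs
open Crest.Agent.T157.Conc (ex)

variable {n k : ℕ}

/-- the hypotheses of the tail lemma; `b` are the eigenvalues of `Eᵀ A E` -/
structure Tl (o : Oo.Orb n k) (x f1 f2 : Vn n) (b : Fin k → ℝ) (X χ γ B E M m D : ℝ) (J : ℕ) :
    Prop where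
  ok : o.Ok
  dim : k + 2 = n
  hp : ∀ i, o.p i = tanh (x i)
  hh : o.h = x + χ • o.p
  hz : o.z = χ + χ⁻¹
  chi : n * χ = n - o.p ⬝ᵥ o.p
  hq : Qm o = vecMulVec f1 f1 + vecMulVec f2 f2
  n1 : f1 ⬝ᵥ f1 = 1
  n2 : f2 ⬝ᵥ f2 = 1
  o12 : f1 ⬝ᵥ f2 = 0
  hx : ∀ i, x i = X * f1 i
  X0 : 0 < X
  xh : XH x γ B E M
  B1 : 1 ≤ B
  be : B ^ 2 * γ ≤ 1 / 16
  mb : M ≤ B ^ 2 * γ * (n * γ)
  big : 256 ≤ n
  op : Op2 (A0 o) 36
  dg : Dg (o.Eᵀ * A0 o * o.E) b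
  m0 : 0 < m
  bm : ∀ i, 2 * m ≤ b i
  t1 : |n * χ - ∑ i, (b i)⁻¹| + 16 * √(o.p ⬝ᵥ o.p) + 32 ≤ D
  t2 : 5 * m * D + 20 ≤ m ^ 2 * ∑ i, (b i)⁻¹ ^ 2
  hJ : 48 * (n : ℝ) ≤ m * J

variable {o : Oo.Orb n k} {μ : Measure (Mat k)} [IsProbabilityMeasure μ]
  {x f1 f2 : Vn n} {b : Fin k → ℝ} {X χ γ B E M m D : ℝ} {J : ℕ}

/-- the spherical integral at `s` -/
def II (o : Oo.Orb n k) (μ : Measure (Mat k)) (S : Mn n) (s : Cube n) : ℝ :=
  ∫ U, exp (-(xp o s (om o U) ⬝ᵥ S *ᵥ xp o s (om o U)) / 2) ∂μ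

lemma II_nonneg (S : Mn n) (s : Cube n) : 0 ≤ II o μ S s :=
  integral_nonneg fun _ => (exp_pos _).le

lemma II_eq (hμ : SOInv μ) (S : Mn n) (s : Cube n) :
    O4T.Sph μ o.E S (Qm o *ᵥ sh o s) (√(R2 o s) • e0 k) = ENNReal.ofReal (II o μ S s) := by
  rw [II, ofReal_integral_eq_lintegral_ofReal (intg hμ (by fun_prop))
    (ae_of_all _ fun _ => (exp_pos _).le), O4T.Sph]
  simp only [xp, om, xi_smul, mulVec_smul, ex]

lemma aa_eq (h : o.Ok) (s : Cube n) : (√(R2 o s) • e0 k) ⬝ᵥ (√(R2 o s) • e0 k) = R2 o s := by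
  rw [smul_dotProduct, dotProduct_smul, e0_dot h, smul_eq_mul, smul_eq_mul, mul_one,
    Real.mul_self_sqrt (R2_nonneg s)]

namespace Tl

variable (h : Tl o x f1 f2 b X χ γ B E M m D J)
include h

lemma Qv (v : Vn n) : Qm o *ᵥ v = (f1 ⬝ᵥ v) • f1 + (f2 ⬝ᵥ v) • f2 := by
  rw [h.hq, add_mulVec, vecMulVec_mulVec, vecMulVec_mulVec, op_smul_eq_smul, op_smul_eq_smul]

lemma QQ (v : Vn n) : Qm o *ᵥ v ⬝ᵥ Qm o *ᵥ v = (f1 ⬝ᵥ v) ^ 2 + (f2 ⬝ᵥ v) ^ 2 := by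
  simp only [h.Qv, add_dotProduct, dotProduct_add, smul_dotProduct, dotProduct_smul, h.n1, h.n2,
    h.o12, dotProduct_comm f2 f1, smul_eq_mul]
  ring

lemma fm : Fm x o.p f1 f2 X χ :=
  ⟨h.hp, h.chi, funext h.hx, h.X0, h.n1, h.n2, h.o12, by rw [← h.Qv, Q_p h.ok]⟩

lemma Q1 : Qm o *ᵥ f1 = f1 := by simp [h.Qv, h.n1, dotProduct_comm f2 f1, h.o12]
lemma Q2 : Qm o *ᵥ f2 = f2 := by simp [h.Qv, h.n2, h.o12]

lemma R2_div (s : Cube n) : R2 o s / n = 1 - ((f1 ⬝ᵥ sv s) ^ 2 + (f2 ⬝ᵥ sv s) ^ 2) / n := by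
  have N0 : (0 : ℝ) < n := by exact_mod_cast (by have := h.big; omega : 0 < n)
  rw [← h.QQ, ← Z2, eq_sub_iff_add_eq, ← add_div, R2_add h.ok, div_self N0.ne']

/-- factorisation of the weight -/
lemma wx_eq (s : Cube n) {ω : Vn n} (hω : Mj.Sph o ω) (Q : Mn n) :
    wx o s (xp o s ω) * exp (xp o s ω ⬝ᵥ Q *ᵥ xp o s ω / 2) =
      exp (o.z * (n + o.p ⬝ᵥ o.p) / 2 + (x ⬝ᵥ sv s - o.p ⬝ᵥ sv s / χ)) *
        exp (-(xp o s ω ⬝ᵥ (A0 o - Q) *ᵥ xp o s ω) / 2) := by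
  have e : xp o s ω ⬝ᵥ xp o s ω = n - 2 * (o.p ⬝ᵥ sv s) + o.p ⬝ᵥ o.p := by
    have e1 := pyth h.ok (sh o s)
    have e2 := R2_eq (o := o) s
    rw [P_sh h.ok, dot_P, P_P h.ok, ← e2] at e1
    rw [pyth h.ok (xp o s ω), P_xp h.ok hω, Q_xp h.ok hω, smul_dotProduct, dotProduct_smul, hω.one,
      smul_eq_mul, smul_eq_mul, mul_one, Real.mul_self_sqrt (R2_nonneg s), ← e1, sh,
      sub_dotProduct, dotProduct_sub, dotProduct_sub, sv_dot_self, dotProduct_comm (sv s)]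
    ring
  rw [wx, ← exp_add, ← exp_add, A0, sub_mulVec, sub_mulVec, dotProduct_sub, dotProduct_sub,
    smul_mulVec, one_mulVec, dotProduct_smul, e, h.hh, h.hz, add_dotProduct, smul_dotProduct]
  simp only [smul_eq_mul]
  congr 1; ring

lemma II_low (hμ : SOInv μ) {s : Cube n} (h1 : |f1 ⬝ᵥ (sv s - o.p)| ≤ 4)
    (h2 : |f2 ⬝ᵥ (sv s - o.p)| ≤ 4) :
    exp (x ⬝ᵥ sv s) * exp (-(o.p ⬝ᵥ o.p / χ) - n * log χ / 2 - 98 - (∑ i, log (b i)) / 2 - k / 2 +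
      k * log (k / n) / 2 - m * (D + 2) / 2) ≤
      4 * (J + 1) * (exp (x ⬝ᵥ sv s - o.p ⬝ᵥ sv s / χ) * II o μ (A0 o) s) := by
  have hk := h.ok.two
  have N : (256 : ℝ) ≤ n := by exact_mod_cast h.big
  have kn : (k : ℝ) + 2 = n := by exact_mod_cast h.dim
  have m0 := h.m0
  have pp := h.fm.pp h.xh
  have γ0 : 0 ≤ γ := nonneg_of_mul_nonneg_right ((Cond.dot_self_nonneg _).trans pp) (by linarith)
  have γβ : γ ≤ 1 / 16 := (le_mul_of_one_le_left γ0 (one_le_pow₀ h.B1)).trans h.be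
  have hχ := h.chi
  have χ0 : 0 < χ := (mul_pos_iff_of_pos_left (by linarith : (0 : ℝ) < n)).1 (by nlinarith)
  have eR := R2_add h.ok s
  have ps := h.fm.pdot (sv s)
  have p0 := h.fm.pdot o.p
  rw [Z2, h.QQ] at eR
  rw [dotProduct_sub] at h1 h2
  have vv := h.QQ (sh o s)
  rw [sh, dotProduct_sub, dotProduct_sub, ← sh] at vv
  have q1 : |f1 ⬝ᵥ o.p| ≤ √(o.p ⬝ᵥ o.p) :=
    abs_le_sqrt (by linarith [mul_self_nonneg (f2 ⬝ᵥ o.p)])
  have q2 : |f2 ⬝ᵥ o.p| ≤ √(o.p ⬝ᵥ o.p) :=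
    abs_le_sqrt (by linarith [mul_self_nonneg (f1 ⬝ᵥ o.p)])
  generalize f1 ⬝ᵥ sv s = y at *
  generalize f2 ⬝ᵥ sv s = τ at *
  generalize f1 ⬝ᵥ o.p = p1 at *
  generalize f2 ⬝ᵥ o.p = p2 at *
  have d1 : (y - p1) ^ 2 ≤ 4 ^ 2 := sq_le_sq.2 (by rwa [abs_of_pos (by norm_num : (0 : ℝ) < 4)])
  have d2 : (τ - p2) ^ 2 ≤ 4 ^ 2 := sq_le_sq.2 (by rwa [abs_of_pos (by norm_num : (0 : ℝ) < 4)])
  have R1 : n / 2 ≤ R2 o s := by
    nlinarith only [eR, d1, d2, pp, p0, N, mul_le_mul_of_nonneg_left γβ (by linarith : (0 : ℝ) ≤ n),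
      sq_nonneg (y - p1 - p1), sq_nonneg (τ - p2 - p2)]
  have R0 : 0 < R2 o s := by linarith
  have Rn : R2 o s ≤ n := by linarith [sq_nonneg y, sq_nonneg τ]
  have c1 := abs_le.1 ((abs_mul _ _).trans_le (mul_le_mul q1 h1 (abs_nonneg _) (sqrt_nonneg _)))
  have c2 := abs_le.1 ((abs_mul _ _).trans_le (mul_le_mul q2 h2 (abs_nonneg _) (sqrt_nonneg _)))
  have J0 : 0 < J := by
    rcases J with _ | J
    · have := h.hJ; simp only [Nat.cast_zero, mul_zero] at this; linarith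
    · omega
  have h3 := sph_low hμ hk.le h.dg (Qm o *ᵥ sh o s) (a := √(R2 o s) • e0 k) (D := D)
    (by rwa [aa_eq h.ok]) m0 h.bm h.t2 (by
      rw [aa_eq h.ok]
      have := h.t1
      exact abs_le.2 ⟨by linarith [neg_abs_le (n * χ - ∑ i, (b i)⁻¹)], by
        linarith [le_abs_self (n * χ - ∑ i, (b i)⁻¹), sq_nonneg (y - p1), sq_nonneg (τ - p2)]⟩) J0 (by
      rw [aa_eq h.ok]
      have := mul_le_mul h.hJ R1 (by linarith) (by positivity)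
      have : (k : ℝ) ^ 2 ≤ n ^ 2 := pow_le_pow_left₀ (by positivity) (by linarith) 2
      linarith)
  rw [II_eq hμ, aa_eq h.ok, ex, show (4 * (J + 1) : ℝ≥0∞) = ENNReal.ofReal (4 * (J + 1)) by
    rw [ENNReal.ofReal_mul (by norm_num), ENNReal.ofReal_add (by positivity) zero_le_one]; simp,
    ← ENNReal.ofReal_mul (by positivity), ENNReal.ofReal_le_ofReal_iff
      (mul_nonneg (by positivity) (II_nonneg _ _))] at h3
  rw [mul_left_comm]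
  refine le_trans ?_ (mul_le_mul_of_nonneg_left h3 (exp_pos _).le)
  rw [← exp_add, ← exp_add]
  refine exp_le_exp.2 ?_
  have a1 : Qm o *ᵥ sh o s ⬝ᵥ A0 o *ᵥ (Qm o *ᵥ sh o s) ≤ 192 := by
    have e1 := h.op (Qm o *ᵥ sh o s)
    have e2 := Cond.dot_self_nonneg ((6 : ℝ) • Qm o *ᵥ sh o s - A0 o *ᵥ (Qm o *ᵥ sh o s))
    simp only [sub_dotProduct, dotProduct_sub, smul_dotProduct, dotProduct_smul, smul_eq_mul,
      dotProduct_comm (A0 o *ᵥ _) (Qm o *ᵥ sh o s)] at e2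
    linarith
  have k0 : (0 : ℝ) < k := by linarith
  have a2 : m * (R2 o s / k) ≤ m * 2 :=
    mul_le_mul_of_nonneg_left (by rw [div_le_iff₀ k0]; linarith) m0.le
  have a3 : log (k / R2 o s) = log (k / n) - log (R2 o s / n) := by
    rw [← log_div (by positivity) (by positivity)]; congr 1; field_simp
  have a4 : -1 ≤ log (R2 o s / n) := le_trans (by
    rw [inv_div, le_sub_comm, div_le_iff₀ R0]; linarith) (one_sub_inv_le_log_of_pos (by positivity))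
  have a5 : n * (log (R2 o s / n) - log χ) ≤ 2 * ((o.p ⬝ᵥ o.p - o.p ⬝ᵥ sv s) / χ) := by
    refine (mul_le_mul_of_nonneg_left (log_diff (by positivity) χ0) (by linarith)).trans ?_
    rw [← mul_div_assoc, ← mul_div_assoc, mul_sub, mul_div_cancel₀ _ (by positivity)]
    exact div_le_div_of_nonneg_right (by linarith [sq_nonneg (y - p1), sq_nonneg (τ - p2)]) χ0.le
  rw [sub_div] at a5
  rw [a3]
  have a6 : k * log (R2 o s / n) = n * log (R2 o s / n) - 2 * log (R2 o s / n) := by rw [← kn]; ring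
  linarith

variable {Q : Mn n} {η a1 K : ℝ} {N : ℕ}

lemma II_up (hμ : SOInv μ) (hQ : Qᵀ = Q)
    (hA : ∀ y, a1 * (f1 ⬝ᵥ y) ^ 2 + (1 - η) * (f2 ⬝ᵥ y) ^ 2 ≤ y ⬝ᵥ (A0 o - Q) *ᵥ y)
    (hP : PD (o.Eᵀ * (A0 o - Q) * o.E)) (K0 : 0 ≤ K)
    (hK : ∀ y, y ⬝ᵥ (o.Eᵀ * (A0 o - Q) * o.E) *ᵥ y ≤ K * (y ⬝ᵥ y)) (N1 : 1 ≤ N)
    (hN : 600 * n * K ≤ N) {s : Cube n} (hs : Z2 o s ≤ B ^ 2 * (n * γ)) :
    II o μ (A0 o - Q) s ≤ 2 * N * exp (1 - k / 2 + k * log (k / n) / 2 -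
      log (o.Eᵀ * (A0 o - Q) * o.E).det / 2) *
      exp (-(n * log (1 - ((f1 ⬝ᵥ sv s) ^ 2 + (f2 ⬝ᵥ sv s) ^ 2) / n) / 2) -
      (a1 * (f1 ⬝ᵥ sv s - f1 ⬝ᵥ o.p) ^ 2 + (1 - η) * (f2 ⬝ᵥ sv s - f2 ⬝ᵥ o.p) ^ 2) / 2) := by
  have hk := h.ok.two
  have N0 : (256 : ℝ) ≤ n := by exact_mod_cast h.big
  have kn : (k : ℝ) + 2 = n := by exact_mod_cast h.dim
  have eR := R2_add h.ok s
  have R0 : 0 < R2 o s := by nlinarith [h.be]
  have Rn : R2 o s ≤ n := by linarith [Z2_nonneg (o := o) s]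
  have e : ∀ {f : Vn n}, Qm o *ᵥ f = f → ∀ y, f ⬝ᵥ (Qm o *ᵥ sh o s + o.E *ᵥ y) =
      f ⬝ᵥ sv s - f ⬝ᵥ o.p := fun {f} hf y => by
    rw [← hf, ← dot_Q, mulVec_add, Q_Q h.ok, Q_E h.ok, add_zero, dot_Q, hf, sh, dotProduct_sub]
  have h3 := sph_up hμ hk.le (E := o.E) (M := A0 o - Q) (by rw [transpose_sub, hQ, A0_symm h.ok]) hP
    K0 hK (v := Qm o *ᵥ sh o s) (a := √(R2 o s) • e0 k)
    (κ := a1 * (f1 ⬝ᵥ sv s - f1 ⬝ᵥ o.p) ^ 2 + (1 - η) * (f2 ⬝ᵥ sv s - f2 ⬝ᵥ o.p) ^ 2)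
    (fun y => by rw [← e h.Q1 y, ← e h.Q2 y]; exact hA _) (by rwa [aa_eq h.ok]) N1 (by
      rw [aa_eq h.ok]; nlinarith [mul_le_mul_of_nonneg_right Rn K0])
  rw [II_eq hμ, aa_eq h.ok, ex, show (2 * N : ℝ≥0∞) = ENNReal.ofReal (2 * N) by
    rw [ENNReal.ofReal_mul (by norm_num)]; simp, ← ENNReal.ofReal_mul (by positivity),
    ENNReal.ofReal_le_ofReal_iff (by positivity)] at h3
  refine h3.trans ?_
  rw [mul_assoc (2 * N : ℝ), ← exp_add, ← h.R2_div]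
  refine mul_le_mul_of_nonneg_left (exp_le_exp.2 ?_) (by positivity)
  have k0 : (0 : ℝ) < k := by linarith
  have a3 : log (k / R2 o s) = log (k / n) - log (R2 o s / n) := by
    rw [← log_div (by positivity) (by positivity)]; congr 1; field_simp
  have a4 : log (R2 o s / n) ≤ 0 := log_nonpos (by positivity) ((div_le_one (by linarith)).2 Rn)
  have a6 : k * log (R2 o s / n) = n * log (R2 o s / n) - 2 * log (R2 o s / n) := by rw [← kn]; ring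
  rw [a3]
  linarith

/-- **the tail lemma** -/
theorem tail (hμ : SOInv μ) (hQ : Qᵀ = Q) (η0 : 0 ≤ η) (η1 : η ≤ 1 / 4)
    (ha : 96 * η * B ^ 4 * M ≤ a1 * (n * γ))
    (hA : ∀ y, a1 * (f1 ⬝ᵥ y) ^ 2 + (1 - η) * (f2 ⬝ᵥ y) ^ 2 ≤ y ⬝ᵥ (A0 o - Q) *ᵥ y)
    (hP : PD (o.Eᵀ * (A0 o - Q) * o.E)) (K0 : 0 ≤ K)
    (hK : ∀ y, y ⬝ᵥ (o.Eᵀ * (A0 o - Q) * o.E) *ᵥ y ≤ K * (y ⬝ᵥ y)) (N1 : 1 ≤ N)
    (hN : 600 * n * K ≤ N) :
    pe o μ (fun s ω => if Z2 o s ≤ B ^ 2 * (n * γ) then exp (xp o s ω ⬝ᵥ Q *ᵥ xp o s ω / 2) else 0) ≤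
      10 ^ 4 * n ^ 4 * (J + 1) * N * exp (Et n γ B E M + m * (D + 2) / 2 + 100 +
        (log (o.Eᵀ * A0 o * o.E).det - log (o.Eᵀ * (A0 o - Q) * o.E).det) / 2) := by
  have N0 : (256 : ℝ) ≤ n := by exact_mod_cast h.big
  have hb : ∀ i, 0 < b i := fun i => by linarith [h.bm i, h.m0]
  set c0 := o.z * (n + o.p ⬝ᵥ o.p) / 2
  have e1 : ∀ (Q : Mn n) s, ∫ U, wx o s (xp o s (om o U)) *
      exp (xp o s (om o U) ⬝ᵥ Q *ᵥ xp o s (om o U) / 2) ∂μ =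
      exp c0 * (exp (x ⬝ᵥ sv s - o.p ⬝ᵥ sv s / χ) * II o μ (A0 o - Q) s) := fun Q s => by
    rw [← mul_assoc, ← exp_add, II, ← integral_const_mul]
    exact integral_congr_ae ((Orb.ae_SO hμ).mono fun U hU => h.wx_eq s (sph_om h.ok hU) Q)
  have e2 := e1 0
  simp only [zero_mulVec, dotProduct_zero, zero_div, exp_zero, mul_one, sub_zero] at e2
  rw [pe, div_le_iff₀ (Zp_pos hμ), integral_finsetSum _ fun s _ => intg hμ (by split_ifs <;> fun_prop),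
    integral_finsetSum _ fun s _ => intg hμ (by fun_prop)]
  have e3 : ∀ s, ∫ U, wx o s (xp o s (om o U)) * (if Z2 o s ≤ B ^ 2 * (n * γ) then
      exp (xp o s (om o U) ⬝ᵥ Q *ᵥ xp o s (om o U) / 2) else 0) ∂μ = if Z2 o s ≤ B ^ 2 * (n * γ) then
      exp c0 * (exp (x ⬝ᵥ sv s - o.p ⬝ᵥ sv s / χ) * II o μ (A0 o - Q) s) else 0 := fun s => by
    split_ifs
    · exact e1 Q s
    · simp
  simp only [e2, e3, ← sum_filter, ← mul_sum]
  rw [mul_left_comm _ (exp c0)]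
  refine mul_le_mul_of_nonneg_left ?_ (exp_pos _).le
  have u1 := cube_up (by have := h.big; omega) h.fm h.xh h.B1 h.be h.mb η0 η1 ha
    {s | Z2 o s ≤ B ^ 2 * (n * γ)} fun s hs => by rw [← h.QQ]; exact (mem_filter.1 hs).2
  have u2 := cube_low h.hp h.n1.le h.n2.le
  have u3 := sum_le_sum fun s (hs : s ∈ ({s | |f1 ⬝ᵥ (sv s - o.p)| ≤ 4 ∧ |f2 ⬝ᵥ (sv s - o.p)| ≤ 4} :
    Finset (Cube n))) => h.II_low hμ (mem_filter.1 hs).2.1 (mem_filter.1 hs).2.2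
  rw [← sum_mul, ← mul_sum] at u3
  replace u3 := (mul_le_mul_of_nonneg_right ((div_le_iff₀' two_pos).2 u2) (exp_pos _).le).trans
    (u3.trans (mul_le_mul_of_nonneg_left (sum_le_sum_of_subset_of_nonneg (subset_univ _)
      fun s _ _ => mul_nonneg (exp_pos _).le (II_nonneg _ _)) (by positivity)))
  refine (sum_le_sum fun s hs => mul_le_mul_of_nonneg_left (h.II_up hμ hQ hA hP K0 hK N1 hN
    (mem_filter.1 hs).2) (exp_pos _).le).trans ?_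
  simp only [mul_left_comm (exp (x ⬝ᵥ _ - _)), ← exp_add, ← mul_sum, ← add_sub_assoc,
    ← sub_eq_add_neg]
  refine (mul_le_mul_of_nonneg_left u1 (by positivity)).trans ?_
  refine le_trans ?_ (mul_le_mul_of_nonneg_left ((div_le_iff₀' (by positivity)).2 u3) (by positivity))
  have u4 : (8 * n * (2 * n : ℕ) + 1 : ℝ) ^ 2 ≤ 625 * n ^ 4 := by
    push_cast
    nlinarith [pow_le_pow_left₀ (by positivity) (show (8 * n * (2 * n) + 1 : ℝ) ≤ 25 * n ^ 2 by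
      nlinarith) 2]
  rw [h.dg.det, log_prod fun i _ => (hb i).ne']
  generalize (8 * n * (2 * n : ℕ) + 1 : ℝ) ^ 2 = G at *
  have e4 : ∀ a b c d e : ℝ, a + b = c + (d + e) → 2 * N * exp a * (G * (2 ^ n * exp b)) ≤
      10 ^ 4 * n ^ 4 * (J + 1) * N * exp c * (2 ^ n * exp d / 2 * exp e / (4 * (J + 1))) :=
    fun a b c d e H => by
    have : exp a * exp b = exp c * (exp d * exp e) := by rw [← exp_add, ← exp_add, ← exp_add, H]
    calc _ = G * (2 * N * 2 ^ n * (exp a * exp b)) := by ring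
      _ ≤ 625 * n ^ 4 * (2 * N * 2 ^ n * (exp a * exp b)) :=
        mul_le_mul_of_nonneg_right u4 (by positivity)
      _ = _ := by rw [this]; field_simp; ring
  exact e4 _ _ _ _ _ (by ring)

end Tl

end Crest.Agent.T157.O4T

end
end

-- ▼ part T157/O4TD_59
section

/-!
# Row 157, A2 section 4 (helper59): the three tails (linear, `c`, resolvent form)
-/

set_option autoImplicit false
set_option linter.unusedSectionVars false

noncomputable section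

namespace Crest.Agent.T157.O4T

open Matrix Finset MeasureTheory Real
open Crest.Agent.Lib.OrthPoinc Crest.Agent.T157.Oc Crest.Agent.T157.E Crest.Agent.T157.Od
open Crest.Agent.T157.Oo Crest.Agent.T157.Mj Crest.Agent.T157.Dq Crest.Agent.T157.Qs
open Crest.Agent.T157.O4c.W31 (Cv dnn dcs vmv_form vmv_vec)

variable {n k : ℕ}

lemma le_of_sq_le_sq' {a b : ℝ} (h : a ^ 2 ≤ b ^ 2) (hb : 0 ≤ b) : a ≤ b := (abs_le_of_sq_le_sq' h hb).2

/-! ### determinants -/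

lemma cv_pd {S : Mn k} {g : ℝ} (h : Cv S g) : PD S := ⟨h.symm, fun y hy =>
  (mul_pos h.g0 ((dnn y).lt_of_ne' fun e => hy (dotProduct_self_eq_zero.1 e))).trans_le (h.co y)⟩

lemma ld_one {S : Mn k} {g c : ℝ} {l : Vn k} (h : Cv (S - c • vecMulVec l l) g)
    (hS : 0 < S.det) (hl : ∀ y, 2 * c * (l ⬝ᵥ y) ^ 2 ≤ y ⬝ᵥ S *ᵥ y) :
    log S.det - log (S - c • vecMulVec l l).det ≤ 1 := by
  have h1 := h.G_of (b := l) (c := c) fun y => by
    rw [sub_mulVec, dotProduct_sub, smul_mulVec, dotProduct_smul, vmv_form, smul_eq_mul]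
    linarith [hl y]
  have h2 := (cv_pd h).det_pos
  set S' := S - c • vecMulVec l l with hS'
  have e : S = S' * (1 + replicateCol Unit (c • S'⁻¹ *ᵥ l) * replicateRow Unit l) := by
    rw [← vecMulVec_eq, Matrix.mul_add, Matrix.mul_one, mul_vecMulVec, mulVec_smul, h.MG,
      smul_vecMulVec, hS', sub_add_cancel]
  have e2 : S.det = S'.det * (1 + c * (l ⬝ᵥ S'⁻¹ *ᵥ l)) := by
    nth_rewrite 1 [e]
    rw [det_mul, det_one_add_replicateCol_mul_replicateRow, dotProduct_smul, smul_eq_mul]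
  refine (log_diff hS h2).trans ?_
  rw [div_le_one h2, e2]
  linarith [mul_le_mul_of_nonneg_left h1 h2.le]

lemma ld_smul {S : Mn k} (hS : 0 < S.det) {θ : ℝ} (h : |θ| ≤ 1 / 4) :
    log S.det - log ((1 - 2 * θ) • S).det ≤ 2 * (k * θ + 4 * k * θ ^ 2) := by
  obtain ⟨h1, h2⟩ := abs_le.1 h
  have h3 : 0 < 1 - 2 * θ := by linarith
  have h4 : -(2 * θ + 8 * θ ^ 2) ≤ log (1 - 2 * θ) := by
    refine le_trans ?_ (one_sub_inv_le_log_of_pos h3)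
    rw [le_sub_comm, inv_le_iff_one_le_mul₀ h3]
    nlinarith [mul_nonneg (sq_nonneg θ) (show 0 ≤ 1 - 4 * θ by linarith)]
  rw [det_smul, log_mul (pow_pos h3 _).ne' hS.ne', log_pow, Fintype.card_fin]
  linarith [mul_le_mul_of_nonneg_left h4 (Nat.cast_nonneg (α := ℝ) k)]

lemma dg_add_inv {S : Mn k} {b : Vn k} (h : Dg S b) (hb : ∀ i, b i ≠ 0) (l : ℝ) :
    Dg (S + l • S⁻¹) fun i => b i + l * (b i)⁻¹ := by
  obtain ⟨O, hO, rfl⟩ := h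
  have e : diagonal b * diagonal (fun i => (b i)⁻¹) = 1 := by
    simp only [diagonal_mul_diagonal, mul_inv_cancel₀ (hb _), diagonal_one]
  refine ⟨O, hO, ?_⟩
  rw [O4c.W31.conj_inv hO, Matrix.inv_eq_right_inv e, ← Matrix.smul_mul, ← Matrix.mul_smul,
    ← Matrix.add_mul, ← Matrix.mul_add, ← diagonal_smul, diagonal_add]
  rfl

lemma ld_inv {S : Mn k} {b : Vn k} (h : Dg S b) {g : ℝ} (g0 : 0 < g) (hb : ∀ i, g ≤ b i) :
    log S.det - log (S + g ^ 2 • S⁻¹).det ≤ -(g ^ 2 * (∑ i, (b i)⁻¹ ^ 2) / 2) := by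
  have b0 : ∀ i, 0 < b i := fun i => g0.trans_le (hb i)
  rw [h.det, (dg_add_inv h (fun i => (b0 i).ne') _).det, log_prod fun i _ => (b0 i).ne',
    log_prod fun i _ => by have := b0 i; positivity, ← sum_sub_distrib, mul_sum, sum_div,
    ← sum_neg_distrib]
  refine sum_le_sum fun i _ => ?_
  have := b0 i
  refine (log_diff this (by positivity)).trans ?_
  have h1 : g ^ 2 * (b i)⁻¹ ^ 2 ≤ 1 := by
    rw [← mul_pow]; exact pow_le_one₀ (by positivity) (by rw [mul_inv_le_iff₀ this, one_mul]; exact hb i)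
  have e : g ^ 2 * (b i)⁻¹ = g ^ 2 * (b i)⁻¹ ^ 2 * b i := by field_simp
  rw [div_le_iff₀ (by positivity), e]
  have h2 : 0 ≤ g ^ 2 * (b i)⁻¹ ^ 2 := by positivity
  generalize g ^ 2 * (b i)⁻¹ ^ 2 = u at *
  nlinarith [mul_nonneg (mul_nonneg h2 this.le) (sub_nonneg.2 h1)]

/-! ### the tails -/

/-- the coercivity of `A` and the size `ν` of the perturbation -/
structure Co (o : Oo.Orb n k) (f2 : Vn n) (γ B M g η' ν : ℝ) : Prop where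
  g0 : 0 < g
  ge : ∀ y, g * (y ⬝ᵥ y) + (1 - η') * (f2 ⬝ᵥ y) ^ 2 ≤ y ⬝ᵥ A0 o *ᵥ y
  e0 : 0 ≤ η'
  v0 : 0 < ν
  e1 : η' + ν ≤ 1 / 4
  sm : 192 * (η' + ν) * B ^ 4 * M ≤ g * (n * γ)

/-- the prefactor -/
def Pf (n : ℕ) (γ B E M m D : ℝ) (J : ℕ) : ℝ :=
  10 ^ 8 * n ^ 5 * (J + 1) * exp (Et n γ B E M + m * (D + 2) / 2 + 101)

variable {o : Oo.Orb n k} {μ : Measure (Mat k)} [IsProbabilityMeasure μ]
  {x f1 f2 : Vn n} {b : Fin k → ℝ} {X χ γ B E M m D g η' ν : ℝ} {J : ℕ}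

lemma EE (h : o.Ok) (y : Vn k) : o.E *ᵥ y ⬝ᵥ o.E *ᵥ y = y ⬝ᵥ y := by rw [dot_E, Et_E h]

lemma form_le {S : Mn n} (h : Op2 S 36) (v : Vn n) : v ⬝ᵥ S *ᵥ v ≤ 6 * (v ⬝ᵥ v) := by
  have e1 := h v
  have e2 := dnn ((6 : ℝ) • v - S *ᵥ v)
  simp only [sub_dotProduct, dotProduct_sub, smul_dotProduct, dotProduct_smul, smul_eq_mul,
    dotProduct_comm (S *ᵥ v) v] at e2
  linarith

lemma Co.g_le (c : Co o f2 γ B M g η' ν) (y : Vn n) : g * (y ⬝ᵥ y) ≤ y ⬝ᵥ A0 o *ᵥ y := by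
  nlinarith [c.ge y, c.e1, c.v0, sq_nonneg (f2 ⬝ᵥ y)]
lemma Co.f2_le (c : Co o f2 γ B M g η' ν) (y : Vn n) : 3 * (f2 ⬝ᵥ y) ^ 2 ≤ 4 * (y ⬝ᵥ A0 o *ᵥ y) := by
  nlinarith [c.ge y, c.e1, c.v0, sq_nonneg (f2 ⬝ᵥ y), mul_nonneg c.g0.le (dnn y)]
lemma Co.cv (c : Co o f2 γ B M g η' ν) (h : o.Ok) : Cv (A0 o) g := ⟨A0_symm h, c.g0, c.g_le⟩

lemma Co.cvQ (c : Co o f2 γ B M g η' ν) (h : o.Ok) {Q : Mn n} (hQ : Qᵀ = Q)
    (h1 : ∀ y, y ⬝ᵥ Q *ᵥ y ≤ ν * (y ⬝ᵥ A0 o *ᵥ y)) : Cv (o.Eᵀ * (A0 o - Q) * o.E) (g / 2) :=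
  ⟨by simp only [transpose_mul, transpose_transpose, transpose_sub, hQ, A0_symm h, Matrix.mul_assoc],
    half_pos c.g0, fun y => by
    rw [← quad_E, sub_mulVec, dotProduct_sub, ← EE h]
    have := c.g_le (o.E *ᵥ y)
    nlinarith [h1 (o.E *ᵥ y), c.e0, c.e1, mul_nonneg c.g0.le (dnn (o.E *ᵥ y))]⟩

namespace Tl

variable (h : Tl o x f1 f2 b X χ γ B E M m D J) (c : Co o f2 γ B M g η' ν) (hμ : SOInv μ)
include h

lemma det_pos : 0 < (o.Eᵀ * A0 o * o.E).det :=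
  h.dg.det ▸ prod_pos fun i _ => by linarith [h.bm i, h.m0]

include c

lemma g_le_b (i : Fin k) : g ≤ b i := Qe.ge_dg h.dg (fun y => by
  rw [← quad_E, smul_mulVec, one_mulVec, dotProduct_smul, ← EE h.ok]; exact c.g_le _) i

include hμ

/-- the tail lemma for `-6 ≤ Q ≤ ν A` -/
theorem tail' {Q : Mn n} (hQ : Qᵀ = Q) (h1 : ∀ y, y ⬝ᵥ Q *ᵥ y ≤ ν * (y ⬝ᵥ A0 o *ᵥ y))
    (h2 : ∀ y, -(6 * (y ⬝ᵥ y)) ≤ y ⬝ᵥ Q *ᵥ y) {L : ℝ}
    (hL : log (o.Eᵀ * A0 o * o.E).det - log (o.Eᵀ * (A0 o - Q) * o.E).det ≤ 2 * (L + 1))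
    {F : Cube n → Vn n → ℝ} {y : ℝ} (hF : ∀ s ω, Mj.Sph o ω →
      F s ω = xp o s ω ⬝ᵥ Q *ᵥ xp o s ω / 2 - y) :
    pe o μ (fun s ω => if Z2 o s ≤ B ^ 2 * (n * γ) then exp (F s ω) else 0) ≤
      Pf n γ B E M m D J * exp (L - y) := by
  have v0 := c.v0
  have h3 := h.tail hμ hQ (η := η' + ν) (a1 := g / 2) (K := 12) (N := 7200 * n)
    (by linarith [c.e0]) c.e1 (by linarith [c.sm]) (fun y => by
      have a1 := dcs f1 y
      rw [h.n1, one_mul] at a1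
      rw [sub_mulVec, dotProduct_sub]
      have a2 := mul_le_mul_of_nonneg_left (c.ge y) (show 0 ≤ 1 - ν by linarith [c.e0, c.e1])
      nlinarith [h1 y, mul_le_mul_of_nonneg_left a1 c.g0.le, mul_nonneg (mul_nonneg c.e0 v0.le)
        (sq_nonneg (f2 ⬝ᵥ y)), mul_nonneg (mul_nonneg c.g0.le (dnn y))
        (show 0 ≤ 1 / 2 - ν by linarith [c.e0, c.e1])]) (cv_pd (c.cvQ h.ok hQ h1)) (by norm_num)
    (fun y => by
      rw [← quad_E, sub_mulVec, dotProduct_sub, ← EE h.ok]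
      linarith [h2 (o.E *ᵥ y), form_le h.op (o.E *ᵥ y)]) (by have := h.big; omega)
    (by push_cast; linarith)
  rw [pe_congr hμ h.ok (G := fun s ω => exp (-y) * if Z2 o s ≤ B ^ 2 * (n * γ) then
    exp (xp o s ω ⬝ᵥ Q *ᵥ xp o s ω / 2) else 0) fun s ω hω => by
      rw [hF s ω hω, mul_ite, ← exp_add, mul_zero, neg_add_eq_sub], pe_mul]
  refine (mul_le_mul_of_nonneg_left h3 (exp_pos _).le).trans ?_
  rw [Pf, mul_left_comm, ← exp_add, mul_assoc (_ * _ * _) (exp _), ← exp_add]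
  refine mul_le_mul (by push_cast; nlinarith [show (0 : ℝ) ≤ n ^ 5 * (J + 1) by positivity])
    (exp_le_exp.2 (by linarith)) (exp_pos _).le (by positivity)

/-- **linear functionals** -/
theorem tail_lin {l : Vn n} {θ : ℝ} (θ0 : 0 ≤ θ)
    (hl : ∀ y, 2 * θ * (l ⬝ᵥ y) ^ 2 ≤ ν * (y ⬝ᵥ A0 o *ᵥ y)) (y : ℝ) :
    pe o μ (fun s ω => if Z2 o s ≤ B ^ 2 * (n * γ) then
      exp (θ * ((l ⬝ᵥ xp o s ω) ^ 2 - y ^ 2)) else 0) ≤ Pf n γ B E M m D J * exp (-(θ * y ^ 2)) := by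
  have q : ∀ y, y ⬝ᵥ ((2 * θ) • vecMulVec l l) *ᵥ y = 2 * θ * (l ⬝ᵥ y) ^ 2 := fun y => by
    rw [smul_mulVec, dotProduct_smul, vmv_form, smul_eq_mul]
  have hQ : ((2 * θ) • vecMulVec l l)ᵀ = (2 * θ) • vecMulVec l l := by
    rw [transpose_smul, transpose_vecMulVec]
  have h1 := c.cvQ h.ok hQ fun y => (q y).trans_le (hl y)
  have e : o.Eᵀ * (A0 o - (2 * θ) • vecMulVec l l) * o.E =
      o.Eᵀ * A0 o * o.E - (2 * θ) • vecMulVec (o.Eᵀ *ᵥ l) (o.Eᵀ *ᵥ l) := by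
    rw [Matrix.mul_sub, Matrix.sub_mul, Matrix.mul_smul, Matrix.smul_mul, mul_vecMulVec,
      vecMulVec_mul, ← mulVec_transpose]
  rw [← zero_sub]
  refine h.tail' c hμ hQ (fun y => (q y).trans_le (hl y)) (fun y => ?_) ?_ fun s ω _ => by
    rw [q]; ring
  · rw [q]; nlinarith [dnn y, mul_nonneg θ0 (sq_nonneg (l ⬝ᵥ y))]
  · rw [e] at h1 ⊢
    refine (ld_one h1 h.det_pos fun y => ?_).trans (by norm_num)
    rw [← quad_E, dotProduct_comm, ← dot_E, dotProduct_comm]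
    have := (c.cv h.ok).nn (o.E *ᵥ y)
    nlinarith [hl (o.E *ᵥ y), c.e0, c.e1]

/-- **the statistic `c`**, both signs -/
theorem tail_c {θ a : ℝ} (ha : f1 ⬝ᵥ A0 o *ᵥ f1 ≤ a) (hθ : |θ| * (19 * g + 2 * a) ≤ ν * g) (y : ℝ) :
    pe o μ (fun s ω => if Z2 o s ≤ B ^ 2 * (n * γ) then
      exp (θ * (A0 o *ᵥ xp o s ω ⬝ᵥ Pm o *ᵥ xp o s ω - k) - y) else 0) ≤
      Pf n γ B E M m D J * exp (4 * k * θ ^ 2 - y) := by
  have cA := c.cv h.ok
  have g0 := c.g0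
  have a0 : 0 ≤ a := (cA.nn f1).trans ha
  have q : ∀ y, y ⬝ᵥ (θ • (Pm o * A0 o + A0 o * Pm o)) *ᵥ y = 2 * θ * (A0 o *ᵥ y ⬝ᵥ Pm o *ᵥ y) :=
    fun y => by
    rw [smul_mulVec, dotProduct_smul, add_mulVec, dotProduct_add, ← mulVec_mulVec, ← mulVec_mulVec,
      dot_P, symm_dot cA.symm y, dotProduct_comm (Pm o *ᵥ y), smul_eq_mul]
    ring
  have θ1 : |θ| * 19 ≤ ν := le_of_mul_le_mul_right (by nlinarith [mul_nonneg (abs_nonneg θ) a0]) g0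
  have q1 : ∀ y, |2 * θ * (A0 o *ᵥ y ⬝ᵥ Pm o *ᵥ y)| ≤ ν * (y ⬝ᵥ A0 o *ᵥ y) := fun y => by
    have e1 : A0 o *ᵥ y ⬝ᵥ Pm o *ᵥ y = y ⬝ᵥ A0 o *ᵥ y - y ⬝ᵥ A0 o *ᵥ (Qm o *ᵥ y) := by
      rw [Qm_vec, mulVec_sub, dotProduct_sub, symm_dot cA.symm y (Pm o *ᵥ y)]; ring
    have e2 : ∀ u v : Vn n, 2 * |u ⬝ᵥ A0 o *ᵥ v| ≤ u ⬝ᵥ A0 o *ᵥ u + v ⬝ᵥ A0 o *ᵥ v := fun u v =>
      le_of_sq_le_sq' (by
        rw [mul_pow, sq_abs]
        linarith [cA.cs u v, sq_nonneg (u ⬝ᵥ A0 o *ᵥ u - v ⬝ᵥ A0 o *ᵥ v)]) (add_nonneg (cA.nn u) (cA.nn v))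
    have e3 := e2 ((f1 ⬝ᵥ y) • f1) ((f2 ⬝ᵥ y) • f2)
    have e4 : Qm o *ᵥ y ⬝ᵥ A0 o *ᵥ (Qm o *ᵥ y) ≤ 2 * ((f1 ⬝ᵥ y) ^ 2 * a) + 12 * (f2 ⬝ᵥ y) ^ 2 := by
      have b1 := le_abs_self (((f1 ⬝ᵥ y) • f1) ⬝ᵥ A0 o *ᵥ ((f2 ⬝ᵥ y) • f2))
      have b2 := form_le h.op f2
      have b3 : f2 ⬝ᵥ A0 o *ᵥ f1 = f1 ⬝ᵥ A0 o *ᵥ f2 := by rw [symm_dot cA.symm, dotProduct_comm]
      rw [h.n2] at b2
      simp only [h.Qv, mulVec_add, mulVec_smul, add_dotProduct, dotProduct_add, smul_dotProduct,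
        dotProduct_smul, smul_eq_mul, b3] at b1 e3 ⊢
      nlinarith [mul_le_mul_of_nonneg_left ha (sq_nonneg (f1 ⬝ᵥ y)),
        mul_le_mul_of_nonneg_left b2 (sq_nonneg (f2 ⬝ᵥ y))]
    have e5 := dcs f1 y
    rw [h.n1, one_mul] at e5
    have e6 : g * (f1 ⬝ᵥ y) ^ 2 ≤ y ⬝ᵥ A0 o *ᵥ y := (mul_le_mul_of_nonneg_left e5 g0.le).trans (c.g_le y)
    have e7 : g * (2 * |A0 o *ᵥ y ⬝ᵥ Pm o *ᵥ y|) ≤ (19 * g + 2 * a) * (y ⬝ᵥ A0 o *ᵥ y) := by
      have b1 : 2 * |A0 o *ᵥ y ⬝ᵥ Pm o *ᵥ y| ≤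
          19 * (y ⬝ᵥ A0 o *ᵥ y) + 2 * ((f1 ⬝ᵥ y) ^ 2 * a) := by
        have := abs_sub (y ⬝ᵥ A0 o *ᵥ y) (y ⬝ᵥ A0 o *ᵥ (Qm o *ᵥ y))
        rw [abs_of_nonneg (cA.nn y), ← e1] at this
        linarith [e2 y (Qm o *ᵥ y), c.f2_le y]
      nlinarith [mul_le_mul_of_nonneg_left b1 g0.le, mul_le_mul_of_nonneg_left e6 a0]
    rw [abs_mul, abs_mul, abs_two]
    refine le_of_mul_le_mul_left ?_ g0
    linarith [mul_le_mul_of_nonneg_left e7 (abs_nonneg θ), mul_le_mul_of_nonneg_right hθ (cA.nn y)]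
  have e : o.Eᵀ * (A0 o - θ • (Pm o * A0 o + A0 o * Pm o)) * o.E =
      (1 - 2 * θ) • (o.Eᵀ * A0 o * o.E) := by
    have e1 : o.Eᵀ * (Pm o * A0 o) = o.Eᵀ * A0 o := by
      rw [Pm, ← Matrix.mul_assoc, ← Matrix.mul_assoc, h.ok.iso, Matrix.one_mul]
    have e2 : o.Eᵀ * (A0 o * Pm o) * o.E = o.Eᵀ * A0 o * o.E := by
      simp only [Pm, Matrix.mul_assoc, h.ok.iso, Matrix.mul_one]
    rw [Matrix.mul_sub, Matrix.sub_mul, Matrix.mul_smul, Matrix.smul_mul, Matrix.mul_add,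
      Matrix.add_mul, e1, e2, ← two_smul ℝ, smul_smul, sub_smul, one_smul, mul_comm θ]
  rw [show 4 * k * θ ^ 2 - y = k * θ + 4 * k * θ ^ 2 - (θ * k + y) by ring]
  refine h.tail' c hμ (Q := θ • (Pm o * A0 o + A0 o * Pm o)) ?_
    (fun y => (q y).trans_le (abs_le.1 (q1 y)).2) (fun y => ?_) ?_ fun s ω _ => by rw [q]; ring
  · rw [transpose_smul, transpose_add, transpose_mul, transpose_mul, Pm_symm, cA.symm, add_comm]
  · rw [q]
    nlinarith [(abs_le.1 (q1 y)).1, form_le h.op y, cA.nn y, c.e0, c.e1]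
  · rw [e]
    linarith [ld_smul h.det_pos (θ := θ) (by linarith [c.e0, c.e1, abs_nonneg θ])]

/-- **the resolvent form is large** -/
theorem tail_inv (y : ℝ) :
    pe o μ (fun s ω => if Z2 o s ≤ B ^ 2 * (n * γ) then exp (g ^ 2 * (y - o.Eᵀ *ᵥ xp o s ω ⬝ᵥ
      (o.Eᵀ * A0 o * o.E)⁻¹ *ᵥ (o.Eᵀ *ᵥ xp o s ω) / 2)) else 0) ≤
      Pf n γ B E M m D J * exp (g ^ 2 * (y - (∑ i, (b i)⁻¹ ^ 2) / 4)) := by
  have g0 := c.g0
  have cB : Cv (o.Eᵀ * A0 o * o.E) g := ⟨h.dg.symm, g0, fun y => by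
    rw [← quad_E, ← EE h.ok]; exact c.g_le _⟩
  have g6 : g ≤ 6 := by simpa only [h.n1, mul_one] using (c.g_le f1).trans (form_le h.op f1)
  set S := o.Eᵀ * A0 o * o.E with hS
  have q : ∀ y, y ⬝ᵥ (-(g ^ 2 • (o.E * S⁻¹ * o.Eᵀ))) *ᵥ y =
      -(g ^ 2 * (o.Eᵀ *ᵥ y ⬝ᵥ S⁻¹ *ᵥ (o.Eᵀ *ᵥ y))) := fun y => by
    rw [neg_mulVec, dotProduct_neg, smul_mulVec, dotProduct_smul, quad_E, transpose_transpose,
      smul_eq_mul]
  have e : o.Eᵀ * (A0 o - -(g ^ 2 • (o.E * S⁻¹ * o.Eᵀ))) * o.E = S + g ^ 2 • S⁻¹ := by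
    rw [sub_neg_eq_add, Matrix.mul_add, Matrix.add_mul, Matrix.mul_smul, Matrix.smul_mul]
    simp only [Matrix.mul_assoc, h.ok.iso, Matrix.mul_one]
    rw [← Matrix.mul_assoc o.Eᵀ o.E, h.ok.iso, Matrix.one_mul, hS, Matrix.mul_assoc]
  rw [show g ^ 2 * (y - (∑ i, (b i)⁻¹ ^ 2) / 4) =
    -(g ^ 2 * (∑ i, (b i)⁻¹ ^ 2) / 4) - -(g ^ 2 * y) by ring]
  refine h.tail' c hμ (Q := -(g ^ 2 • (o.E * S⁻¹ * o.Eᵀ))) ?_ (fun y => ?_) (fun y => ?_) ?_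
    fun s ω _ => by rw [q]; ring
  · simp only [transpose_neg, transpose_smul, transpose_mul, transpose_transpose, cB.symm',
      Matrix.mul_assoc]
  · rw [q]
    linarith [mul_nonneg (sq_nonneg g) (cB.nn' (o.Eᵀ *ᵥ y)), mul_nonneg c.v0.le ((c.cv h.ok).nn y)]
  · have a1 := cB.G_le (o.Eᵀ *ᵥ y)
    have a2 := pyth h.ok y
    rw [Et_dot] at a1
    rw [dot_P, P_P h.ok] at a2
    rw [q]
    nlinarith [mul_le_mul_of_nonneg_left a1 g0.le, dnn (Qm o *ᵥ y), dnn y,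
      mul_le_mul_of_nonneg_right g6 (dnn y)]
  · rw [e]
    linarith [ld_inv h.dg g0 (h.g_le_b c)]

end Tl

end Crest.Agent.T157.O4T

end
end

-- ▼ part T157/O4Bd_59

/-!
# Row 157, A2 section 4 (helper59): a continuous majorant of the bad event of `O4c.M1Core`
-/

set_option autoImplicit false
set_option linter.unusedSectionVars false

noncomputable section

namespace Crest.Agent.T157.O4T

open Matrix Finset MeasureTheory Real
open Crest.Agent.Lib.OrthPoinc Crest.Agent.T157.Oc Crest.Agent.T157.E Crest.Agent.T157.Od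
open Crest.Agent.T157.Oo Crest.Agent.T157.Mj Crest.Agent.T157.Dq Crest.Agent.T157.Qs
open Crest.Agent.T157.O4c Crest.Agent.T157.O4c.W31

variable {n k : ℕ} {o : Oo.Orb n k} {μ : Measure (Mat k)} [IsProbabilityMeasure μ]
  {x f1 f2 : Vn n} {b : Fin k → ℝ} {X χ γ B E M m D g η' a : ℝ} {J : ℕ}

lemma abs_le_of_exp {θ u y : ℝ} (θ0 : 0 < θ) (y0 : 0 ≤ y) (h : exp (θ * (u ^ 2 - y ^ 2)) < 1) :
    |u| ≤ y := by
  rw [exp_lt_one_iff] at h
  exact abs_le.2 (abs_le_of_sq_le_sq' (by nlinarith) y0)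

/-- restriction of the dual form to the rotated subspace -/
lemma res_le {S : Mn n} (cS : Cv S g) {R : Mn k} (cR : Cv R g) (e : o.Eᵀ * S * o.E = R)
    (ξ : Vn n) : o.Eᵀ *ᵥ ξ ⬝ᵥ R⁻¹ *ᵥ (o.Eᵀ *ᵥ ξ) ≤ ξ ⬝ᵥ S⁻¹ *ᵥ ξ := by
  have h1 := cS.dual ξ (o.E *ᵥ (R⁻¹ *ᵥ (o.Eᵀ *ᵥ ξ)))
  rw [quad_E, e, cR.GG, dotProduct_comm ξ (o.E *ᵥ _), dot_E, dotProduct_comm (R⁻¹ *ᵥ _)] at h1
  rcases (cR.nn' (o.Eᵀ *ᵥ ξ)).eq_or_lt with h0 | h0
  · rw [← h0]; exact cS.nn' ξ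
  · exact le_of_mul_le_mul_right (by nlinarith) h0

/-- **the bad event** -/
theorem Tl.bd (h : Tl o x f1 f2 b X χ γ B E M m D J) (H : Ha o x f1 f2 η' a g) (hμ : SOInv μ)
    {ν C a11 θ y η κ T0 P δ0 : ℝ} (v0 : 0 < ν) (e1 : η' + ν ≤ 1 / 4)
    (sm : 192 * (η' + ν) * B ^ 4 * M ≤ g * (n * γ)) (hC : 4 + 2 * Dq x f1 f2 ^ 2 / g ≤ C)
    (ha : f1 ⬝ᵥ A0 o *ᵥ f1 ≤ a11) (θ0 : 0 < θ) (hθ : θ * (19 * g + 2 * a11) ≤ ν * g)
    (hy : 8 * n * θ ≤ y) (hy' : 4 * B * (y + 1) ≤ η * κ * n) (η0 : 0 ≤ η) (κ0 : 0 ≤ κ) (T00 : 0 < T0)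
    (hT : 16 * T0 ≤ ∑ i, (b i)⁻¹ ^ 2) (P1 : P ≤ ν * g * (η * X) ^ 2 / 2)
    (P2 : 48 * (1 + C) ^ 2 * P ≤ ν * (η * κ * X) ^ 2) (P3 : 18 * P ≤ ν * g ^ 2 * T0)
    (P4 : 2 * P ≤ θ * y)
    (hδ : pe o μ (fun s _ => if Z2 o s ≤ B ^ 2 * (n * γ) then 0 else 1) ≤ δ0) :
    ∃ Bd : Cube n → Vn n → ℝ, CF Bd ∧ (∀ s ξ, 0 ≤ Bd s ξ) ∧ (∀ s ω, Mj.Sph o ω →
      ¬ Gd o x f1 f2 (MM o x f1 f2)⁻¹ X κ η T0 s (xp o s ω) → 1 ≤ Bd s (xp o s ω)) ∧
      pe o μ (fun s ω => Bd s (xp o s ω)) ≤ δ0 + 8 * (Pf n γ B E M m D J * exp (-P)) := by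
  have g0 := H.g0
  have X0 := h.X0
  have c : Co o f2 γ B M g η' ν := ⟨g0, fun y => le_trans (add_le_add (mul_le_mul_of_nonneg_right
    H.g_le (dnn y)) le_rfl) (H.A_ge y), H.e0, v0, e1, sm⟩
  have cA := H.cvA
  have cM := H.cvM
  have cB : Cv (o.Eᵀ * A0 o * o.E) g := ⟨h.dg.symm, g0, fun y => by
    rw [← quad_E, ← EE h.ok]; exact c.g_le _⟩
  have C4 : 4 ≤ C := le_trans (le_add_of_nonneg_right (by positivity)) hC
  set G := (MM o x f1 f2)⁻¹ with hG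
  set S := o.Eᵀ * A0 o * o.E with hS
  set Λ := B ^ 2 * (n * γ) with hΛ
  have pG := cM.nn' o.p
  set Pp := o.p ⬝ᵥ G *ᵥ o.p + T0 with hPp
  have Pp0 : 0 < Pp := by linarith
  set t := ν / (12 * (1 + C) ^ 2) with ht
  have t0 : 0 < t := by positivity
  have f1le : ∀ y, g * (f1 ⬝ᵥ y) ^ 2 ≤ y ⬝ᵥ A0 o *ᵥ y := fun y => by
    have := dcs f1 y
    rw [h.n1, one_mul] at this
    exact (mul_le_mul_of_nonneg_left this g0.le).trans (c.g_le y)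
  have Mle : ∀ y, y ⬝ᵥ MM o x f1 f2 *ᵥ y ≤ (1 + C) * (y ⬝ᵥ A0 o *ᵥ y) := fun y => by
    have a1 : (bb x f1 f2 ⬝ᵥ y) ^ 2 ≤ 2 * (f2 ⬝ᵥ y) ^ 2 + 2 * Dq x f1 f2 ^ 2 * (f1 ⬝ᵥ y) ^ 2 := by
      rw [bb, sub_dotProduct, smul_dotProduct, smul_eq_mul]
      linarith [sq_nonneg (f2 ⬝ᵥ y + Dq x f1 f2 * (f1 ⬝ᵥ y))]
    have a2 := mul_le_mul_of_nonneg_left (f1le y) (show 0 ≤ 2 * Dq x f1 f2 ^ 2 / g by positivity)
    rw [← mul_assoc, div_mul_cancel₀ _ g0.ne'] at a2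
    rw [MM_form]
    linarith [mul_le_mul_of_nonneg_right hC (cA.nn y), c.f2_le y, sq_nonneg (f2 ⬝ᵥ y), cA.nn y]
  have tl : ∀ {u v : ℝ}, u ≤ 6 * (1 + C) ^ 2 * v → 2 * t * u ≤ ν * v := fun {u v} huv =>
    (mul_le_mul_of_nonneg_left huv (by positivity)).trans_eq (by rw [ht]; field_simp; ring)
  have lM : ∀ {f : Vn n}, f ⬝ᵥ f = 1 → ∀ y, 2 * t * (MM o x f1 f2 *ᵥ f ⬝ᵥ y) ^ 2 ≤
      ν * (y ⬝ᵥ A0 o *ᵥ y) := fun {f} hf y => tl (by
    have a1 := form_le h.op f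
    rw [← symm_dot cM.symm]
    refine (cM.cs f y).trans ((mul_le_mul ((Mle f).trans (mul_le_mul_of_nonneg_left a1 (by linarith)))
      (Mle y) (cM.nn y) (by rw [hf]; linarith)).trans_eq ?_)
    rw [hf]; ring)
  have T1 := h.tail_lin c hμ (l := f1) (θ := ν * g / 2) (by positivity) (fun y => by
    linarith [mul_le_mul_of_nonneg_left (f1le y) v0.le]) (η * X)
  have T2 := h.tail_lin c hμ (l := f2) t0.le (fun y => tl (by
    nlinarith [c.f2_le y, mul_le_mul_of_nonneg_right (one_le_pow₀ (n := 2)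
      (show 1 ≤ 1 + C by linarith)) (cA.nn y), cA.nn y])) (η * κ * X / 2)
  have T3 := h.tail_lin c hμ t0.le (lM h.n1) (η * κ * X / 2)
  have T4 := h.tail_lin c hμ t0.le (lM h.n2) (η * κ * X / 2)
  have T5 := h.tail_lin c hμ (l := G *ᵥ o.p) (θ := ν * g ^ 2 / (2 * Pp)) (by positivity) (fun y => by
    have a1 := cM.dual (G *ᵥ y) (G *ᵥ o.p)
    have a0 := cM.dual o.p (G *ᵥ y)
    rw [cM.GG] at a0
    have a2 : g ^ 2 * (y ⬝ᵥ G *ᵥ y) ≤ y ⬝ᵥ A0 o *ᵥ y := by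
      linarith [mul_le_mul_of_nonneg_left (cM.G_le y) g0.le, c.g_le y]
    have a3 := a0.trans (mul_le_mul_of_nonneg_right (show _ ≤ Pp by linarith) (cM.nn' y))
    rw [← symm_dot cM.symm', show 2 * (ν * g ^ 2 / (2 * Pp)) = ν * g ^ 2 / Pp by field_simp,
      div_mul_eq_mul_div, div_le_iff₀ Pp0]
    linarith [mul_le_mul_of_nonneg_left a3 (show 0 ≤ ν * g ^ 2 by positivity),
      mul_le_mul_of_nonneg_left a2 (show 0 ≤ ν * Pp by positivity)]) (Pp / 3)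
  have T6 := h.tail_c c hμ (θ := θ) ha (by rwa [abs_of_pos θ0]) (θ * y)
  have T7 := h.tail_c c hμ (θ := -θ) ha (by rwa [abs_neg, abs_of_pos θ0]) (θ * y)
  have T8 := h.tail_inv c hμ T0
  set F : Fin 8 → Vn n → ℝ := ![fun ξ => ν * g / 2 * ((f1 ⬝ᵥ ξ) ^ 2 - (η * X) ^ 2),
    fun ξ => t * ((f2 ⬝ᵥ ξ) ^ 2 - (η * κ * X / 2) ^ 2),
    fun ξ => t * ((MM o x f1 f2 *ᵥ f1 ⬝ᵥ ξ) ^ 2 - (η * κ * X / 2) ^ 2),
    fun ξ => t * ((MM o x f1 f2 *ᵥ f2 ⬝ᵥ ξ) ^ 2 - (η * κ * X / 2) ^ 2),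
    fun ξ => ν * g ^ 2 / (2 * Pp) * ((G *ᵥ o.p ⬝ᵥ ξ) ^ 2 - (Pp / 3) ^ 2),
    fun ξ => θ * (A0 o *ᵥ ξ ⬝ᵥ Pm o *ᵥ ξ - k) - θ * y,
    fun ξ => -θ * (A0 o *ᵥ ξ ⬝ᵥ Pm o *ᵥ ξ - k) - θ * y,
    fun ξ => g ^ 2 * (T0 - o.Eᵀ *ᵥ ξ ⬝ᵥ S⁻¹ *ᵥ (o.Eᵀ *ᵥ ξ) / 2)] with hF
  have cF : ∀ j, Continuous (F j) := fun j => by
    fin_cases j <;> simp only [hF, Fin.zero_eta, Fin.mk_one, Fin.reduceFinMk, Matrix.cons_val] <;> fun_prop
  have N0 : (256 : ℝ) ≤ n := by exact_mod_cast h.big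
  have kn : (k : ℝ) + 2 = n := by exact_mod_cast h.dim
  have Pf0 : 0 ≤ Pf n γ B E M m D J := by unfold Pf; positivity
  have cI : ∀ j, CF fun s ω => if Z2 o s ≤ Λ then exp (F j (xp o s ω)) else 0 := fun j s => by
    have := cF j
    by_cases hs : Z2 o s ≤ Λ <;> simp only [hs, if_true, if_false] <;> fun_prop
  have TT : ∀ j, pe o μ (fun s ω => if Z2 o s ≤ Λ then exp (F j (xp o s ω)) else 0) ≤
      Pf n γ B E M m D J * exp (-P) := fun j => by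
    have W : ∀ {u v : ℝ}, u ≤ Pf n γ B E M m D J * exp v → v ≤ -P → u ≤ Pf n γ B E M m D J * exp (-P) :=
      fun h1 h2 => h1.trans (mul_le_mul_of_nonneg_left (exp_le_exp.2 h2) Pf0)
    have p2 : -(t * (η * κ * X / 2) ^ 2) ≤ -P := by
      rw [neg_le_neg_iff, ht, div_mul_eq_mul_div, le_div_iff₀ (by positivity)]; linarith
    have p6 : 4 * k * θ ^ 2 - θ * y ≤ -P := by
      linarith [mul_le_mul_of_nonneg_left hy θ0.le, mul_le_mul_of_nonneg_right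
        (show (k : ℝ) ≤ n by linarith) (sq_nonneg θ)]
    fin_cases j
    · exact W T1 (by linarith)
    · exact W T2 p2
    · exact W T3 p2
    · exact W T4 p2
    · refine W T5 ?_
      rw [show ν * g ^ 2 / (2 * Pp) * (Pp / 3) ^ 2 = ν * g ^ 2 * Pp / 18 by field_simp; ring]
      linarith [mul_nonneg (show 0 ≤ ν * g ^ 2 by positivity) pG]
    · exact W T6 p6
    · exact W T7 (by rwa [neg_sq])
    · refine W T8 ?_
      have := mul_le_mul_of_nonneg_right (show ν ≤ 1 by linarith [H.e0])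
        (show 0 ≤ g ^ 2 * T0 by positivity)
      linarith [mul_le_mul_of_nonneg_left hT (sq_nonneg g), show 0 ≤ g ^ 2 * T0 by positivity]
  refine ⟨fun s ξ => (if Z2 o s ≤ Λ then 0 else 1) + ∑ j, if Z2 o s ≤ Λ then exp (F j ξ) else 0,
    fun s => ?_, fun s ξ => add_nonneg (by split_ifs <;> norm_num) (sum_nonneg fun j _ => by
      split_ifs <;> positivity), fun s ω hω hb => ?_, ?_⟩
  · by_cases hs : Z2 o s ≤ Λ <;> simp only [hs, if_true, if_false] <;> fun_prop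
  · by_cases hs : Z2 o s ≤ Λ <;> simp only [hs, if_true, if_false, zero_add, sum_const_zero,
      add_zero, le_refl]
    by_contra hn
    have L : ∀ j, exp (F j (xp o s ω)) < 1 := fun j => (single_le_sum (f := fun j =>
      exp (F j (xp o s ω))) (fun _ _ => (exp_pos _).le) (mem_univ j)).trans_lt (not_le.1 hn)
    have y0 : 0 ≤ η * κ * X / 2 := by positivity
    have z1 := abs_le_of_exp (by positivity) (by positivity) (L 0)
    have z2 := abs_le_of_exp t0 y0 (L 1)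
    have z3 := abs_le_of_exp t0 y0 (L 2)
    have z4 := abs_le_of_exp t0 y0 (L 3)
    have z5 := abs_le_of_exp (by positivity) (by positivity) (L 4)
    have z6 : θ * (_ - k) - θ * y < 0 := exp_lt_one_iff.1 (L 5)
    have z7 : -θ * (_ - k) - θ * y < 0 := exp_lt_one_iff.1 (L 6)
    have z8 : g ^ 2 * (T0 - _ / 2) < 0 := exp_lt_one_iff.1 (L 7)
    set ξ := xp o s ω
    have R1 : n / 2 ≤ R2 o s := by
      linarith [R2_add h.ok s, mul_le_mul_of_nonneg_left h.be (by linarith : (0 : ℝ) ≤ n)]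
    have R0 : 0 < R2 o s := by linarith
    have B0 : 0 < B := by linarith [h.B1]
    have ka : |cc o s ξ - (k - 1) / R2 o s| * B ≤ η * κ / 2 := by
      have a1 : |A0 o *ᵥ ξ ⬝ᵥ Pm o *ᵥ ξ - (k - 1)| ≤ y + 1 := abs_le.2
        ⟨by nlinarith only [z7, θ0], by nlinarith only [z6, θ0]⟩
      rw [cc, ← sub_div, abs_div, abs_of_pos R0, div_mul_eq_mul_div, div_le_iff₀ R0]
      linarith [mul_le_mul_of_nonneg_right a1 B0.le,
        mul_le_mul_of_nonneg_left R1 (mul_nonneg η0 κ0)]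
    have de : ∀ {f : Vn n}, Qm o *ᵥ f = f → (f ⬝ᵥ sv s) ^ 2 ≤ Z2 o s →
        |MM o x f1 f2 *ᵥ f ⬝ᵥ ξ| ≤ η * κ * X / 2 → |f ⬝ᵥ De o x f1 f2 s ξ| ≤ η * κ * X :=
      fun {f} hf h1 h2 => by
      have a1 : |f ⬝ᵥ sv s| ≤ B * X := abs_le.2 (abs_le_of_sq_le_sq' (by
        rw [mul_pow, h.fm.rr h.xh]; exact h1.trans hs) (by positivity))
      rw [De, dotProduct_sub, dotProduct_smul, dot_Q, dot_Q, hf, symm_dot cM.symm, smul_eq_mul]
      refine (abs_sub _ _).trans ?_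
      rw [abs_mul]
      linarith [mul_le_mul_of_nonneg_left a1 (abs_nonneg (cc o s ξ - (k - 1) / R2 o s)),
        mul_le_mul_of_nonneg_right ka X0.le]
    have eZ := h.QQ (sv s)
    rw [← Z2] at eZ
    refine hb ⟨z1, by linarith, de h.Q1 (by linarith [sq_nonneg (f2 ⬝ᵥ sv s)]) z3,
      de h.Q2 (by linarith [sq_nonneg (f1 ⬝ᵥ sv s)]) z4, ?_⟩
    have e0 : ∀ {f : Vn n}, Qm o *ᵥ f = f → o.Eᵀ *ᵥ f = 0 := fun {f} hf => hf ▸ Et_Q h.ok f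
    have a1 := res_le (o := o) cM cB (by
      simp only [MM, Bp, Matrix.mul_add, Matrix.mul_sub,
        mul_vecMulVec, mulVec_sub, mulVec_smul, e0 h.Q1, e0 h.Q2, smul_zero, sub_self,
        zero_vecMulVec, add_zero, hS]) ξ
    have a2 := neg_of_mul_neg_right z8 (sq_nonneg g)
    have a3 : o.p ⬝ᵥ G *ᵥ ξ = G *ᵥ o.p ⬝ᵥ ξ := symm_dot cM.symm' _ _
    simp only [mulVec_add, add_dotProduct, dotProduct_add, a3, dotProduct_comm ξ (G *ᵥ o.p)]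
    linarith [(abs_le.1 z5).1]
  · rw [pe_add hμ (fun _ => continuous_const) fun s => continuous_finsetSum _ fun j _ => cI j s,
      pe_sum hμ _ cI]
    refine add_le_add hδ ((sum_le_card_nsmul _ _ _ fun j _ => TT j).trans_eq ?_)
    simp

end Crest.Agent.T157.O4T

end
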