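import Crest.Agent.T157.O4mB_53
import Crest.Agent.T157.MjA_84

-- ▼ part T157/O4mC_53
section

set_option autoImplicit false
set_option linter.unusedSectionVars false

/-!
Row 157, A2 section 4 (helper53): Stein identity on the cube at a fixed direction, the exact
cavity field and the residual.
-/

noncomputable section

namespace Crest.Agent.T157.M4

open MeasureTheory Matrix Crest.Agent.Lib.OrthPoinc Filter Topology Set Real
open Crest.Agent.T157.Oc Crest.Agent.T157.E Crest.Agent.T157.SL Crest.Agent.T157.Ks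
open Crest.Agent.T157.Od Crest.Agent.T157.Oo Crest.Agent.T157.Mj
open Crest.ProbabilityR.SpinGlassDynamics

/-! ### real analysis -/

theorem hd_tanh (x : ℝ) : HasDerivAt tanh (1 - tanh x ^ 2) x := by
  have hc := (cosh_pos x).ne'
  have h := (hasDerivAt_sinh x).div (hasDerivAt_cosh x) hc
  have e : tanh = fun y => sinh y / cosh y := funext tanh_eq_sinh_div_cosh
  rw [e]
  refine h.congr_deriv ?_
  field_simp

@[fun_prop] theorem cont_tanh : Continuous tanh :=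
  continuous_iff_continuousAt.2 fun x => (hd_tanh x).continuousAt

theorem sech_eq (x : ℝ) : 1 - tanh x ^ 2 = 1 / cosh x ^ 2 := by
  have := (cosh_pos x).ne'
  rw [tanh_eq_sinh_div_cosh]; field_simp; exact cosh_sq_sub_sinh_sq x

theorem tanh_small (b : ℝ) : |tanh b| ≤ |b| ∧ |tanh b - b| ≤ b ^ 2 := by
  have key : ∀ b : ℝ, 0 < b → 0 ≤ tanh b ∧ tanh b ≤ b := fun b hb => by
    obtain ⟨ξ, -, h2⟩ := exists_hasDerivAt_eq_slope tanh (fun x => 1 - tanh x ^ 2) hb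
      cont_tanh.continuousOn fun x _ => hd_tanh x
    rw [tanh_zero, sub_zero, sub_zero, eq_div_iff hb.ne'] at h2
    have := tanh_sq_lt_one ξ
    constructor <;> nlinarith [sq_nonneg (tanh ξ)]
  have key2 : ∀ b : ℝ, 0 < b → |tanh b| ≤ |b| ∧ |tanh b - b| ≤ b ^ 2 := fun b hb => by
    obtain ⟨ξ, h1, h2⟩ := exists_hasDerivAt_eq_slope tanh (fun x => 1 - tanh x ^ 2) hb
      cont_tanh.continuousOn fun x _ => hd_tanh x
    rw [tanh_zero, sub_zero, sub_zero, eq_div_iff hb.ne'] at h2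
    have h3 := key b hb
    have h4 := key ξ h1.1
    have h5 := (abs_lt.1 (abs_tanh_lt_one ξ)).2
    have h6 : tanh ξ ^ 2 ≤ b := by nlinarith [h1.2]
    rw [abs_of_nonneg h3.1, abs_of_pos hb, abs_of_nonpos (by linarith)]
    exact ⟨h3.2, by nlinarith⟩
  rcases lt_trichotomy b 0 with h | rfl | h
  · have := key2 (-b) (by linarith)
    rw [tanh_neg, abs_neg, abs_neg, neg_sub_neg, abs_sub_comm, neg_sq] at this
    exact this
  · simp
  · exact key2 b h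

theorem exp_abs_le (x : ℝ) : exp |x| ≤ 2 * cosh x := by
  rw [← cosh_abs, cosh_eq]; linarith [exp_pos (-|x|)]

theorem cosh_le_exp (x : ℝ) : cosh x ≤ exp |x| := by
  rw [← cosh_abs, cosh_eq]
  linarith [exp_le_exp.2 (by linarith [abs_nonneg x] : -|x| ≤ |x|)]

theorem sech_w (x : ℝ) : (1 - tanh x ^ 2) * (1 + |x|) ^ 2 ≤ 4 := by
  rw [sech_eq, one_div_mul_eq_div, div_le_iff₀ (pow_pos (cosh_pos x) 2)]
  have h : 1 + |x| ≤ 2 * cosh x := by linarith [exp_abs_le x, add_one_le_exp |x|]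
  have := pow_le_pow_left₀ (by positivity) h 2
  linarith

/-- second order Taylor bound that keeps a factor `sech` -/
theorem tanh_res {x b : ℝ} (h : |b| ≤ (1 + |x|) / 2) :
    (tanh (x + b) - tanh x - (1 - tanh x ^ 2) * b) ^ 2 ≤ 119 * (1 - tanh x ^ 2) * b ^ 4 := by
  have c1 := cosh_pos x
  have c2 := cosh_pos b
  have c3 := cosh_pos (x + b)
  have e : tanh (x + b) - tanh x - (1 - tanh x ^ 2) * b =
      (tanh b - b - tanh x * tanh b * b) * (cosh b / cosh (x + b)) / cosh x := by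
    have h1 := cosh_sq_sub_sinh_sq x
    rw [sech_eq]
    simp only [tanh_eq_sinh_div_cosh]
    field_simp
    rw [sinh_add, cosh_add]
    linear_combination (cosh x * sinh b) * h1
  have h1 : |tanh b - b - tanh x * tanh b * b| ≤ 2 * b ^ 2 := by
    have h2 : |tanh x * tanh b * b| ≤ 1 * |b| * |b| := by
      rw [abs_mul, abs_mul]
      exact mul_le_mul_of_nonneg_right (mul_le_mul (abs_tanh_lt_one x).le (tanh_small b).1
        (abs_nonneg _) zero_le_one) (abs_nonneg _)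
    rw [one_mul, abs_mul_abs_self] at h2
    exact (abs_sub _ _).trans (by nlinarith [(tanh_small b).2])
  have h2 : cosh b / cosh (x + b) ≤ 2 * exp 1 := by
    rw [div_le_iff₀ c3]
    have h3 : |b| ≤ 1 + |x + b| := by
      have := abs_sub (x + b) b
      rw [add_sub_cancel_right] at this
      linarith
    have h4 := exp_le_exp.2 h3
    rw [exp_add] at h4
    have h5 := mul_le_mul_of_nonneg_left (exp_abs_le (x + b)) (exp_pos 1).le
    linarith [cosh_le_exp b]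
  have h3 : (tanh b - b - tanh x * tanh b * b) ^ 2 ≤ (2 * b ^ 2) ^ 2 := by
    rw [← sq_abs]; exact pow_le_pow_left₀ (abs_nonneg _) h1 2
  have h4 : (cosh b / cosh (x + b)) ^ 2 ≤ (2 * 2.7182818286) ^ 2 :=
    pow_le_pow_left₀ (by positivity) (h2.trans (by linarith [exp_one_lt_d9])) 2
  rw [e, div_pow, mul_pow, sech_eq, div_le_iff₀ (by positivity)]
  refine (mul_le_mul h3 h4 (by positivity) (by positivity)).trans ?_
  have : 119 * (1 / cosh x ^ 2) * b ^ 4 * cosh x ^ 2 = 119 * b ^ 4 := by field_simp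
  rw [this]
  nlinarith [pow_nonneg (sq_nonneg b) 2]

/-! ### Stein identity -/

variable {n k : ℕ}

/-- flip of one spin -/
def fp (i : Fin n) (s : Cube n) : Cube n := Function.update s i (!s i)

theorem fp_fp (i : Fin n) (s : Cube n) : fp i (fp i s) = s := by simp [fp]

theorem sv_sq (s : Cube n) (i : Fin n) : sv s i * sv s i = 1 := by
  rw [sv]; cases s i <;> simp [spin]

theorem sv_fp (i : Fin n) (s : Cube n) : sv (fp i s) = sv s - (2 * sv s i) • Pi.single i 1 := by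
  funext j
  by_cases h : j = i
  · subst h
    simp only [sv, fp, Function.update_self, Pi.sub_apply, Pi.smul_apply, Pi.single_eq_same]
    cases s j <;> simp [spin] <;> norm_num
  · simp [sv, fp, h]

theorem sv_fp_self (i : Fin n) (s : Cube n) : sv (fp i s) i = -sv s i := by
  rw [sv_fp]; simp; ring

/-- the cavity field -/
def cav (l : Cube n → ℝ) (i : Fin n) (s : Cube n) : ℝ := sv s i * (l s - l (fp i s)) / 2

theorem cav_fp (l : Cube n → ℝ) (i : Fin n) (s : Cube n) : cav l i (fp i s) = cav l i s := by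
  rw [cav, cav, fp_fp, sv_fp_self]; ring

theorem orth (l : Cube n → ℝ) (i : Fin n) {F : Cube n → ℝ} (hF : ∀ s, F (fp i s) = F s) :
    ∑ s, exp (l s) * (F s * (sv s i - tanh (cav l i s))) = 0 := by
  have h := Equiv.sum_comp (Function.Involutive.toPerm (fp i) (fp_fp i))
    fun s => exp (l s) * (F s * (sv s i - tanh (cav l i s)))
  have e : ∀ s, exp (l (fp i s)) * (F (fp i s) * (sv (fp i s) i - tanh (cav l i (fp i s)))) =
      -(exp (l s) * (F s * (sv s i - tanh (cav l i s)))) := fun s => by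
    have e1 : l (fp i s) = l s + -(2 * (cav l i s * sv s i)) := by
      rw [cav]; linear_combination (l s - l (fp i s)) * sv_sq s i
    rw [hF, cav_fp, sv_fp_self, e1, exp_add]
    generalize cav l i s = y
    have e2 : exp (-(2 * (y * sv s i))) * (-sv s i - tanh y) = -(sv s i - tanh y) := by
      have c := (cosh_pos y).ne'
      have p := (exp_pos y).ne'
      rw [tanh_eq_sinh_div_cosh, sv]
      cases s i <;> simp only [spin, if_true, Bool.false_eq_true, if_false, mul_one, mul_neg,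
        neg_neg, two_mul, Real.exp_neg, exp_add] <;> field_simp <;>
        rw [sinh_eq, cosh_eq, Real.exp_neg] <;>
        field_simp <;> ring
    linear_combination exp (l s) * F s * e2
  have h2 := (Finset.sum_congr rfl fun s (_ : s ∈ Finset.univ) => e s).symm.trans h
  rw [Finset.sum_neg_distrib] at h2
  linarith

/-- Stein identity for affine test functions -/
theorem stein (l : Cube n → ℝ) (p u v : Vn n) (m : ℝ) :
    ∑ s, exp (l s) * ((v ⬝ᵥ (sv s - p)) * (u ⬝ᵥ (sv s - p) - m)) =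
      ∑ s, exp (l s) * ∑ i, v i * ((tanh (cav l i s) - p i) * (u ⬝ᵥ (sv s - p) - m) +
        u i * (1 - tanh (cav l i s) ^ 2)) := by
  have h := fun i => orth l i (F := fun s => u ⬝ᵥ (sv s - p) - m - u i * sv s i - u i * tanh (cav l i s))
    fun s => by
      rw [cav_fp, sv_fp_self, sv_fp, sub_right_comm (sv s), dotProduct_sub u (sv s - p),
        dotProduct_smul, dotProduct_single, smul_eq_mul]
      ring
  rw [← sub_eq_zero, ← Finset.sum_sub_distrib, ← Finset.sum_eq_zero (s := Finset.univ)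
    fun i _ => (congrArg (v i * ·) (h i)).trans (mul_zero _)]
  simp only [Finset.mul_sum]
  rw [Finset.sum_comm]
  refine Finset.sum_congr rfl fun s _ => ?_
  rw [dotProduct.eq_1 v, Finset.sum_mul, Finset.mul_sum, ← Finset.sum_sub_distrib]
  refine Finset.sum_congr rfl fun i _ => ?_
  rw [Pi.sub_apply]
  linear_combination (exp (l s) * v i * u i) * sv_sq s i

/-! ### the cavity field at a fixed direction -/

variable (o : Oo.Orb n k) (χ : ℝ)

/-- the log-weight in polar form -/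
def lw (ω : Vn n) (s : Cube n) : ℝ := o.h ⬝ᵥ sv s + xp o s ω ⬝ᵥ o.W *ᵥ xp o s ω / 2
/-- `Π (s - p)` -/
def zh (s : Cube n) : Vn n := Qm o *ᵥ sh o s
/-- `Π A ξ` -/
def yq (s : Cube n) (ω : Vn n) : Vn n := Qm o *ᵥ (A0 o *ᵥ xp o s ω)
/-- indicator of `R² ≥ n χ / 2` -/
def ind (s : Cube n) : ℝ := if n * χ ≤ 2 * R2 o s then 1 else 0
/-- `c - 1/χ`, truncated -/
def kp (s : Cube n) (ω : Vn n) : ℝ := ind o χ s * (cc o s (xp o s ω) - χ⁻¹)
/-- the gradient of the tilt -/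
def gm (s : Cube n) (ω : Vn n) : Vn n :=
  -yq o s ω + kp o χ s ω • (Qm o *ᵥ sv s) + χ⁻¹ • zh o s
/-- conditional mean of the spin -/
def Tn (s : Cube n) (ω : Vn n) (i : Fin n) : ℝ := tanh (cav (lw o ω) i s)
/-- the residual -/
def rs (s : Cube n) (ω : Vn n) : Vn n := fun i =>
  Tn o s ω i - o.p i - (1 - o.p i ^ 2) * gm o χ s ω i

/-- deterministic hypotheses on the orbit -/
structure Hy (x : Vn n) (χ Q A S : ℝ) : Prop where
  ok : o.Ok
  px : ∀ i, o.p i = tanh (x i)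
  hh : o.h = x + χ • o.p
  hz : o.z = χ + χ⁻¹
  nχ : n * χ = n - o.p ⬝ᵥ o.p
  χQ : 2 ≤ χ * Q
  Q1 : 1 ≤ Q
  A1 : 1 ≤ A
  S0 : 0 < S
  SS : S ^ 2 = n
  nk : (n : ℝ) ≤ k + 2
  hA : Op2 (A0 o) (Q ^ 2)
  Qii : ∀ i, S ^ 2 * Qm o i i ≤ (A * (1 + |x i|)) ^ 2

variable {o χ} {x : Vn n} {Q A S : ℝ}

theorem sv_dot (s : Cube n) : sv s ⬝ᵥ sv s = n := by simp [dotProduct, sv_sq]

theorem QQ_dot (h : o.Ok) (u v : Vn n) : Qm o *ᵥ u ⬝ᵥ Qm o *ᵥ v = Qm o *ᵥ u ⬝ᵥ v := by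
  rw [dot_Q, Q_Q h]

theorem Q_le (h : o.Ok) (u : Vn n) : Qm o *ᵥ u ⬝ᵥ Qm o *ᵥ u ≤ u ⬝ᵥ u := by
  have h1 := dsq (u - Qm o *ᵥ u)
  rw [sub_dotProduct, dotProduct_sub, dotProduct_sub, dotProduct_comm u (Qm o *ᵥ u),
    ← QQ_dot h u u] at h1
  linarith

theorem R2_Q (s : Cube n) : R2 o s = n - Qm o *ᵥ sv s ⬝ᵥ sv s := by
  rw [R2_eq, Qm_vec, sub_dotProduct, sv_dot]; ring

theorem zt_eq (h : o.Ok) (s : Cube n) : Qm o *ᵥ sv s = zh o s + o.p := by
  rw [zh, sh, mulVec_sub, Q_p h, sub_add_cancel]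

theorem xp_dot (h : o.Ok) {ω : Vn n} (hω : Mj.Sph o ω) (s : Cube n) :
    xp o s ω ⬝ᵥ xp o s ω = sh o s ⬝ᵥ sh o s := by
  have h1 : Qm o *ᵥ sh o s ⬝ᵥ ω = 0 := by rw [← dot_Q, hω.q, dotProduct_zero]
  have h2 : R2 o s = Pm o *ᵥ sh o s ⬝ᵥ sh o s := by rw [← Et_dot, Et_sh h, R2]
  rw [xp]
  simp only [add_dotProduct, dotProduct_add, smul_dotProduct, dotProduct_smul, smul_eq_mul, h1,
    dotProduct_comm ω, hω.one, QQ_dot h]
  rw [mul_one, zero_add, Real.mul_self_sqrt (R2_nonneg s), h2, Qm_vec, sub_dotProduct]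
  ring

theorem Q_single (i : Fin n) (v : Vn n) : Qm o *ᵥ Pi.single i 1 ⬝ᵥ v = (Qm o *ᵥ v) i := by
  rw [← dot_Q, single_dotProduct, one_mul]

theorem Q_diag (i : Fin n) : (Qm o *ᵥ Pi.single i 1) i = Qm o i i := by simp

theorem Qe_dot (h : o.Ok) (i : Fin n) :
    Qm o *ᵥ Pi.single i 1 ⬝ᵥ Qm o *ᵥ Pi.single i 1 = Qm o i i := by
  rw [QQ_dot h, Q_single, Q_diag]

theorem Qii_mem (h : o.Ok) (i : Fin n) : 0 ≤ Qm o i i ∧ Qm o i i ≤ 1 := by
  rw [← Qe_dot h]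
  exact ⟨dsq _, by simpa using Q_le h (Pi.single i 1)⟩

theorem Q_comp (h : o.Ok) (v : Vn n) (i : Fin n) :
    (Qm o *ᵥ v) i ^ 2 ≤ Qm o i i * (Qm o *ᵥ v ⬝ᵥ Qm o *ᵥ v) := by
  rw [← Q_single, ← QQ_dot h, ← Qe_dot h]; exact cs _ _

theorem sum_Qii (h : o.Ok) : ∑ i, Qm o i i = n - k := by
  have : (Qm o).trace = n - k := by
    rw [Qm, trace_sub, trace_mul_comm, h.iso]; simp
  exact this

namespace Hy

variable (h : Hy o x χ Q A S)
include h

theorem χ0 : 0 < χ := by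
  by_contra hh
  nlinarith [h.χQ, h.Q1]

theorem p1 (i : Fin n) : o.p i ^ 2 ≤ 1 := by rw [h.px]; exact (tanh_sq_lt_one _).le

theorem pp : o.p ⬝ᵥ o.p ≤ S ^ 2 := by
  have := h.nχ; have := h.χ0; rw [h.SS]; nlinarith [Nat.cast_nonneg (α := ℝ) n]

theorem sh_le (s : Cube n) : sh o s ⬝ᵥ sh o s ≤ (2 * S) ^ 2 := by
  have h1 := dsq (sv s + o.p)
  have h2 := h.pp
  rw [mul_pow, h.SS] at *
  simp only [sh, add_dotProduct, dotProduct_add, sub_dotProduct, dotProduct_sub, sv_dot] at *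
  linarith

theorem lw_eq {ω : Vn n} (hω : Mj.Sph o ω) (s : Cube n) : lw o ω s = (x - χ⁻¹ • o.p) ⬝ᵥ sv s +
    o.z * (n + o.p ⬝ᵥ o.p) / 2 - xp o s ω ⬝ᵥ A0 o *ᵥ xp o s ω / 2 := by
  have h1 := xp_dot h.ok hω s
  rw [lw, A0, sub_mulVec, smul_mulVec, one_mulVec, dotProduct_sub, dotProduct_smul, h1, h.hh, h.hz]
  simp only [sh, add_dotProduct, sub_dotProduct, dotProduct_sub, smul_dotProduct, smul_eq_mul,
    sv_dot, dotProduct_comm (sv s) o.p]
  ring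

theorem RG {s : Cube n} (hs : n * χ ≤ 2 * R2 o s) : S ^ 2 ≤ Q * R2 o s := by
  have := h.χQ; have := h.Q1
  rw [h.SS]
  nlinarith [Nat.cast_nonneg (α := ℝ) n]

/-- the cavity field to first order -/
theorem cav_res {ω : Vn n} (hω : Mj.Sph o ω) {s : Cube n} (hs : n * χ ≤ 2 * R2 o s) (i : Fin n) :
    |cav (lw o ω) i s - (x i + gm o χ s ω i)| ≤ 51 * Q ^ 3 * Qm o i i := by
  have hQ := h.Q1; have hS := h.S0; have hRG := h.RG hs
  have hq := Qii_mem h.ok i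
  have hR2 : 0 < R2 o s := by
    by_contra hh
    nlinarith [mul_nonneg (by linarith : (0 : ℝ) ≤ Q) (neg_nonneg.2 (not_lt.1 hh)), sq_pos_of_pos hS]
  obtain ⟨R, hRd⟩ : ∃ R, R = √(R2 o s) := ⟨_, rfl⟩
  obtain ⟨R', hRd'⟩ : ∃ R, R = √(R2 o (fp i s)) := ⟨_, rfl⟩
  have hR : 0 < R := hRd ▸ Real.sqrt_pos.2 hR2
  have hR' : 0 ≤ R' := hRd' ▸ Real.sqrt_nonneg _
  have eR : R ^ 2 = R2 o s := hRd ▸ Real.sq_sqrt hR2.le
  have eR' : R' ^ 2 = R2 o (fp i s) := hRd' ▸ Real.sq_sqrt (R2_nonneg _)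
  have hσ := sv_sq s i
  have e1 : R ^ 2 - R' ^ 2 = 4 * Qm o i i - 4 * (sv s i * (Qm o *ᵥ sv s) i) := by
    rw [eR, eR', R2_Q, R2_Q, sv_fp]
    simp only [mulVec_sub, mulVec_smul, sub_dotProduct, dotProduct_sub, smul_dotProduct,
      dotProduct_smul, smul_eq_mul, Q_single, dotProduct_single, Q_diag, mul_one, Pi.sub_apply,
      Pi.smul_apply]
    linear_combination (4 * Qm o i i) * hσ
  obtain ⟨δ, hδ⟩ : ∃ δ : Vn n, δ = (2 * sv s i) • (Qm o *ᵥ Pi.single i 1) + (R - R') • ω := ⟨_, rfl⟩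
  have e2 : xp o (fp i s) ω = xp o s ω - δ := by
    rw [xp, xp, ← hRd, ← hRd', hδ, sh, sh, sv_fp, sub_right_comm (sv s), mulVec_sub (Qm o) (sv s - o.p),
      mulVec_smul, sub_smul]
    abel
  have e3 : δ ⬝ᵥ δ = 4 * Qm o i i + (R - R') ^ 2 := by
    have h1 : Qm o *ᵥ Pi.single i 1 ⬝ᵥ ω = 0 := by rw [← dot_Q, hω.q, dotProduct_zero]
    simp only [hδ, add_dotProduct, dotProduct_add, smul_dotProduct, dotProduct_smul, smul_eq_mul, h1,
      dotProduct_comm ω, hω.one, Qe_dot h.ok]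
    linear_combination (4 * Qm o i i) * hσ
  have e4 : cc o s (xp o s ω) * R = ω ⬝ᵥ A0 o *ᵥ xp o s ω := by
    rw [cc, P_xp h.ok hω, ← hRd, ← eR, dotProduct_smul, smul_eq_mul, dotProduct_comm]
    field_simp
  have e5 : δ ⬝ᵥ A0 o *ᵥ xp o s ω = 2 * sv s i * yq o s ω i + (R - R') * (cc o s (xp o s ω) * R) := by
    rw [e4, hδ, add_dotProduct, smul_dotProduct, smul_dotProduct, Q_single, yq, smul_eq_mul, smul_eq_mul]
  have e6 : cav (lw o ω) i s - (x i + gm o χ s ω i) = sv s i * (δ ⬝ᵥ A0 o *ᵥ δ / 4 -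
      cc o s (xp o s ω) * Qm o i i - cc o s (xp o s ω) * (R - R') ^ 2 / 4) := by
    have e7 : (Qm o *ᵥ sv s) i = zh o s i + o.p i := congrFun (zt_eq h.ok s) i
    rw [cav, h.lw_eq hω, h.lw_eq hω, e2, sv_fp]
    simp only [gm, kp, ind, if_pos hs, mulVec_sub, sub_dotProduct, dotProduct_sub, dotProduct_smul,
      dotProduct_single, smul_eq_mul, symm_dot (A0_symm h.ok) (xp o s ω) δ,
      dotProduct_comm (A0 o *ᵥ xp o s ω) δ, e5, Pi.add_apply, Pi.neg_apply, Pi.smul_apply,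
      Pi.sub_apply, smul_dotProduct]
    rw [e7] at e1 ⊢
    linear_combination (x i - χ⁻¹ * o.p i - yq o s ω i + cc o s (xp o s ω) * (zh o s i + o.p i)) * hσ -
      (sv s i * cc o s (xp o s ω) / 4) * e1
  have b1 : |cc o s (xp o s ω)| ≤ 2 * Q ^ 2 := by
    have c1 : |ω ⬝ᵥ A0 o *ᵥ xp o s ω| ≤ 1 * (Q * (2 * S)) :=
      abs_dot_le zero_le_one (by positivity) (by rw [hω.one]; norm_num)
        (op2_le h.hA (by rw [xp_dot h.ok hω]; exact h.sh_le s))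
    have c2 : S ≤ Q * R := by
      refine abs_le_of_sq_le_sq' ?_ (by positivity) |>.2
      rw [mul_pow, eR]
      nlinarith [mul_nonneg (mul_nonneg (by linarith : (0 : ℝ) ≤ Q) (by linarith : (0 : ℝ) ≤ Q - 1)) hR2.le]
    rw [← e4, abs_mul, abs_of_pos hR] at c1
    refine le_of_mul_le_mul_right (c1.trans ?_) hR
    nlinarith
  have b2 : (R - R') ^ 2 ≤ 64 * Q * Qm o i i := by
    have c1 : (Qm o *ᵥ sv s) i ^ 2 ≤ Qm o i i * S ^ 2 :=
      (Q_comp h.ok _ i).trans (mul_le_mul_of_nonneg_left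
        ((Q_le h.ok _).trans (by rw [sv_dot, h.SS])) hq.1)
    have c2 : 1 ≤ S ^ 2 := by
      rw [h.SS]; exact_mod_cast Fin.pos i
    have c3 : Qm o i i ^ 2 ≤ Qm o i i * S ^ 2 := by
      rw [sq]; exact mul_le_mul_of_nonneg_left (hq.2.trans c2) hq.1
    have c4 : (R ^ 2 - R' ^ 2) ^ 2 ≤ 64 * (Qm o i i * S ^ 2) := by
      rw [e1]
      have : (sv s i * (Qm o *ᵥ sv s) i) ^ 2 = (Qm o *ᵥ sv s) i ^ 2 := by
        rw [mul_pow, sq (sv s i), hσ, one_mul]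
      nlinarith [sq_nonneg (Qm o i i + sv s i * (Qm o *ᵥ sv s) i)]
    have c5 : (R - R') ^ 2 * R ^ 2 ≤ (R ^ 2 - R' ^ 2) ^ 2 := by
      rw [show (R ^ 2 - R' ^ 2) ^ 2 = (R - R') ^ 2 * (R + R') ^ 2 by ring]
      gcongr; linarith
    have c6 : Qm o i i * S ^ 2 ≤ Qm o i i * (Q * R ^ 2) := by rw [eR]; gcongr; exact hq.1
    refine le_of_mul_le_mul_right (c5.trans (c4.trans ?_)) (pow_pos hR 2)
    linarith
  have b3 : |δ ⬝ᵥ A0 o *ᵥ δ| ≤ Q * (δ ⬝ᵥ δ) := by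
    refine abs_le_of_sq_le_sq ((cs _ _).trans ?_) (mul_nonneg (by linarith) (dsq δ))
    refine (mul_le_mul_of_nonneg_left (h.hA δ) (dsq δ)).trans (le_of_eq (by ring))
  have b4 : |sv s i| = 1 := by
    rw [← sq_eq_sq₀ (abs_nonneg _) zero_le_one, sq_abs, sq, hσ, one_pow]
  rw [e6, abs_mul, b4, one_mul]
  rw [e3] at b3
  have b5 : |cc o s (xp o s ω) * Qm o i i| ≤ 2 * Q ^ 2 * Qm o i i := by
    rw [abs_mul, abs_of_nonneg hq.1]; exact mul_le_mul_of_nonneg_right b1 hq.1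
  have b6 : |cc o s (xp o s ω) * (R - R') ^ 2| ≤ 2 * Q ^ 2 * (64 * Q * Qm o i i) := by
    rw [abs_mul, abs_of_nonneg (sq_nonneg (R - R'))]
    exact mul_le_mul b1 b2 (sq_nonneg _) (by positivity)
  have b7 : Q * (R - R') ^ 2 ≤ Q * (64 * Q * Qm o i i) := by gcongr
  have b8 : Q * Qm o i i ≤ Q ^ 2 * Qm o i i := mul_le_mul_of_nonneg_right (by nlinarith) hq.1
  have b9 : Q ^ 2 * Qm o i i ≤ Q ^ 3 * Qm o i i := mul_le_mul_of_nonneg_right (by nlinarith) hq.1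
  obtain ⟨c1, c2⟩ := abs_le.1 b3
  obtain ⟨c3, c4⟩ := abs_le.1 b5
  obtain ⟨c5, c6⟩ := abs_le.1 b6
  rw [abs_le]
  constructor <;> linarith

end Hy

end Crest.Agent.T157.M4
end
end

-- ▼ part T157/O4mD_53
section

set_option autoImplicit false
set_option linter.unusedSectionVars false

/-!
Row 157, A2 section 4 (helper53): pointwise bounds for (M4).
-/

noncomputable section

namespace Crest.Agent.T157.M4

open MeasureTheory Matrix Crest.Agent.Lib.OrthPoinc Filter Topology Set Real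
open Crest.Agent.T157.Oc Crest.Agent.T157.E Crest.Agent.T157.SL Crest.Agent.T157.Ks
open Crest.Agent.T157.Od Crest.Agent.T157.Oo Crest.Agent.T157.Mj

variable {n k : ℕ} {o : Oo.Orb n k} {χ : ℝ} {x : Vn n} {Q A S : ℝ}

theorem abs_le_of_sq {a b : ℝ} (hb : 0 ≤ b) (h : a ^ 2 ≤ b ^ 2) : |a| ≤ b := abs_le_of_sq_le_sq h hb

theorem sq_le_of_abs {a b : ℝ} (h : |a| ≤ b) : a ^ 2 ≤ b ^ 2 := by
  rw [← sq_abs]; exact pow_le_pow_left₀ (abs_nonneg _) h 2

theorem Q_gm (h : o.Ok) (s : Cube n) (ω : Vn n) : Qm o *ᵥ gm o χ s ω = gm o χ s ω := by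
  simp only [gm, yq, zh, mulVec_add, mulVec_neg, mulVec_smul, Q_Q h]

/-- `D v` -/
def Dv (p v : Vn n) : Vn n := fun i => (1 - p i ^ 2) * v i

/-- the right-hand side of the Stein identity -/
def St (o : Oo.Orb n k) (u v : Vn n) (φ : ℝ) (s : Cube n) (ω : Vn n) : ℝ :=
  ∑ i, v i * ((Tn o s ω i - o.p i) * φ + u i * (1 - Tn o s ω i ^ 2))

namespace Hy

variable (h : Hy o x χ Q A S)
include h

theorem DQ (i : Fin n) : S ^ 2 * ((1 - o.p i ^ 2) * Qm o i i) ≤ 4 * A ^ 2 := by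
  have h1 := mul_le_mul_of_nonneg_left (h.Qii i) (sub_nonneg.2 (h.p1 i))
  have h2 := mul_le_mul_of_nonneg_left (sech_w (x i)) (sq_nonneg A)
  rw [← h.px] at h2
  rw [mul_pow] at h1
  linarith

theorem gm_comp {s : Cube n} {ω : Vn n} {Γ : ℝ} (hΓ : gm o χ s ω ⬝ᵥ gm o χ s ω ≤ Γ ^ 2) (i : Fin n) :
    gm o χ s ω i ^ 2 ≤ Qm o i i * Γ ^ 2 := by
  have := Q_comp h.ok (gm o χ s ω) i
  rw [Q_gm h.ok] at this
  exact this.trans (mul_le_mul_of_nonneg_left hΓ (Qii_mem h.ok i).1)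

theorem rs_le {ω : Vn n} (hω : Mj.Sph o ω) {s : Cube n} {Γ0 Γ : ℝ} (h0 : 0 ≤ Γ0)
    (hΓ : gm o χ s ω ⬝ᵥ gm o χ s ω ≤ Γ0 ^ 2) (h1 : Γ0 + 51 * Q ^ 3 ≤ Γ)
    (h2 : ¬ n * χ ≤ 2 * R2 o s → S ≤ 2 * A * Γ) :
    S ^ 2 * (rs o χ s ω ⬝ᵥ rs o χ s ω) ≤ (44 * A ^ 2 * Γ ^ 2) ^ 2 := by
  have hA := h.A1; have hS := h.S0
  have hQ3 : 1 ≤ Q ^ 3 := one_le_pow₀ h.Q1
  have hΓ1 : 1 ≤ Γ := by linarith
  have hA2 : A ^ 2 ≤ A ^ 4 := pow_le_pow_right₀ hA (by norm_num)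
  have hA3 : A ^ 2 * Γ ^ 4 ≤ A ^ 4 * Γ ^ 4 := by gcongr
  have hA4 : 0 ≤ A ^ 4 * Γ ^ 4 := by positivity
  by_cases hc : S ≤ 2 * A * Γ
  · have a1 : rs o χ s ω ⬝ᵥ rs o χ s ω ≤ ∑ i, (8 + 2 * (gm o χ s ω i * gm o χ s ω i)) := by
      refine Finset.sum_le_sum fun i _ => ?_
      have b1 := abs_lt.1 (abs_tanh_lt_one (cav (lw o ω) i s))
      have b2 := abs_lt.1 (abs_tanh_lt_one (x i))
      rw [← h.px] at b2
      have b3 : (Tn o s ω i - o.p i) ^ 2 ≤ 2 ^ 2 :=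
        sq_le_of_abs (abs_le.2 ⟨by rw [Tn]; linarith, by rw [Tn]; linarith⟩)
      have b4 : ((1 - o.p i ^ 2) * gm o χ s ω i) ^ 2 ≤ gm o χ s ω i ^ 2 := by
        rw [mul_pow]
        exact mul_le_of_le_one_left (sq_nonneg _)
          (pow_le_one₀ (sub_nonneg.2 (h.p1 i)) (sub_le_self _ (sq_nonneg _)))
      rw [rs]
      nlinarith [sq_nonneg (Tn o s ω i - o.p i + (1 - o.p i ^ 2) * gm o χ s ω i)]
    rw [Finset.sum_add_distrib, ← Finset.mul_sum, Finset.sum_const, Finset.card_univ,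
      Fintype.card_fin, nsmul_eq_mul, ← h.SS] at a1
    have a2 : Γ0 ^ 2 ≤ Γ ^ 2 := pow_le_pow_left₀ h0 (by linarith) 2
    have a3 : S ^ 2 ≤ (2 * A * Γ) ^ 2 := pow_le_pow_left₀ hS.le hc 2
    have a4 : rs o χ s ω ⬝ᵥ rs o χ s ω ≤ (2 * A * Γ) ^ 2 * 8 + 2 * Γ ^ 2 := by
      have : ∑ i, gm o χ s ω i * gm o χ s ω i ≤ Γ ^ 2 := hΓ.trans a2
      linarith
    refine (mul_le_mul a3 a4 (dsq _) (sq_nonneg _)).trans ?_
    linarith
  · have hs : n * χ ≤ 2 * R2 o s := by_contra fun hh => hc (h2 hh)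
    have a1 : S ^ 2 * (rs o χ s ω ⬝ᵥ rs o χ s ω) ≤ ∑ i, 960 * (A ^ 2 * Γ ^ 4) * Qm o i i := by
      rw [dotProduct, Finset.mul_sum]
      refine Finset.sum_le_sum fun i _ => ?_
      have hq := Qii_mem h.ok i
      have hD := sub_nonneg.2 (h.p1 i)
      have hD1 : 1 - o.p i ^ 2 ≤ 1 := sub_le_self _ (sq_nonneg _)
      obtain ⟨q, hq0, hqq⟩ : ∃ q : ℝ, 0 ≤ q ∧ Qm o i i = q ^ 2 :=
        ⟨√(Qm o i i), Real.sqrt_nonneg _, (Real.sq_sqrt hq.1).symm⟩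
      have b0 := h.cav_res hω hs i
      have b1 := h.gm_comp hΓ i
      have b2 := h.Qii i
      have b3 := h.DQ i
      rw [hqq] at hq b0 b1 b2 b3 ⊢
      have hq1 : q ≤ 1 := (abs_le.1 (abs_le_of_sq zero_le_one (by simpa using hq.2))).2
      have b4 : |gm o χ s ω i| ≤ q * Γ0 := abs_le_of_sq (by positivity) (by rwa [mul_pow])
      have b5 : S * q ≤ A * (1 + |x i|) :=
        (abs_le.1 (abs_le_of_sq (by positivity) (by rwa [mul_pow]))).2
      obtain ⟨b, hb⟩ : ∃ b, b = cav (lw o ω) i s - x i := ⟨_, rfl⟩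
      have e1 : cav (lw o ω) i s = x i + b := by rw [hb]; ring
      have b6 : |b - gm o χ s ω i| ≤ 51 * Q ^ 3 * q ^ 2 := by
        rw [hb, sub_sub]; exact b0
      have b7 : |b| ≤ q * Γ := by
        have c1 := abs_add_le (b - gm o χ s ω i) (gm o χ s ω i)
        have c2 : 51 * Q ^ 3 * q ^ 2 ≤ 51 * Q ^ 3 * q := by
          refine mul_le_mul_of_nonneg_left ?_ (by positivity)
          rw [sq]; exact mul_le_of_le_one_left hq0 hq1
        have c3 := mul_le_mul_of_nonneg_left h1 hq0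
        rw [sub_add_cancel] at c1
        linarith
      have b8 : |b| ≤ (1 + |x i|) / 2 := by
        have c1 : S * (q * Γ) ≤ A * (1 + |x i|) * Γ := by
          rw [← mul_assoc]; gcongr
        have c2 : (1 + |x i|) * (2 * A * Γ) ≤ (1 + |x i|) * S :=
          mul_le_mul_of_nonneg_left (not_le.1 hc).le (by positivity)
        refine b7.trans (le_of_mul_le_mul_left ?_ hS)
        linarith
      have b9 := tanh_res b8
      rw [← h.px] at b9
      have c1 : b ^ 4 ≤ (q * Γ) ^ 4 := by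
        rw [← Even.pow_abs (by decide) b]; exact pow_le_pow_left₀ (abs_nonneg _) b7 4
      have c2 : |b - gm o χ s ω i| ≤ Γ ^ 2 * q ^ 2 :=
        b6.trans (mul_le_mul_of_nonneg_right (by nlinarith) (sq_nonneg q))
      have c3 : ((1 - o.p i ^ 2) * (b - gm o χ s ω i)) ^ 2 ≤ (1 - o.p i ^ 2) * (q * Γ) ^ 4 := by
        rw [mul_pow]
        refine mul_le_mul (by rw [sq]; exact mul_le_of_le_one_left hD hD1)
          ((sq_le_of_abs c2).trans (le_of_eq (by ring))) (sq_nonneg _) hD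
      have c4 : (1 - o.p i ^ 2) * b ^ 4 ≤ (1 - o.p i ^ 2) * (q * Γ) ^ 4 := by gcongr
      have c5 : rs o χ s ω i * rs o χ s ω i ≤ 240 * ((1 - o.p i ^ 2) * (q * Γ) ^ 4) := by
        rw [rs, Tn, e1]
        nlinarith [sq_nonneg (tanh (x i + b) - o.p i - (1 - o.p i ^ 2) * b -
          (1 - o.p i ^ 2) * (b - gm o χ s ω i))]
      have c6 := mul_le_mul_of_nonneg_left b3 (by positivity : 0 ≤ 240 * q ^ 2 * Γ ^ 4)
      refine (mul_le_mul_of_nonneg_left c5 (sq_nonneg S)).trans ?_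
      linarith
    rw [← Finset.mul_sum, sum_Qii h.ok] at a1
    have a2 : 960 * (A ^ 2 * Γ ^ 4) * ((n : ℝ) - k) ≤ 960 * (A ^ 2 * Γ ^ 4) * 2 :=
      mul_le_mul_of_nonneg_left (by linarith [h.nk]) (by positivity)
    linarith

theorem St_le {ω : Vn n} (hω : Mj.Sph o ω) {s : Cube n} {Γ0 Γ : ℝ} (h0 : 0 ≤ Γ0)
    (hΓ : gm o χ s ω ⬝ᵥ gm o χ s ω ≤ Γ0 ^ 2) (h1 : Γ0 + 51 * Q ^ 3 ≤ Γ)
    (h2 : ¬ n * χ ≤ 2 * R2 o s → S ≤ 2 * A * Γ) {u v : Vn n} (hu : u ⬝ᵥ u ≤ 1) (hv : v ⬝ᵥ v ≤ 1)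
    (φ : ℝ) : S * |Dv o.p v ⬝ᵥ u + (Dv o.p v ⬝ᵥ gm o χ s ω) * φ - St o u v φ s ω| ≤
      44 * A ^ 2 * Γ ^ 2 * |φ| + 92 * A ^ 2 * Γ ^ 2 := by
  have hA := h.A1; have hS := h.S0
  have hQ3 : 1 ≤ Q ^ 3 := one_le_pow₀ h.Q1
  have hΓ1 : 1 ≤ Γ := by linarith
  have hr := h.rs_le hω h0 hΓ h1 h2
  have e : Dv o.p v ⬝ᵥ u + (Dv o.p v ⬝ᵥ gm o χ s ω) * φ - St o u v φ s ω =
      ∑ i, v i * u i * (Tn o s ω i ^ 2 - o.p i ^ 2) - (v ⬝ᵥ rs o χ s ω) * φ := by
    simp only [St, dotProduct, Dv, rs, Finset.sum_mul, ← Finset.sum_add_distrib,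
      ← Finset.sum_sub_distrib]
    exact Finset.sum_congr rfl fun i _ => by ring
  have a1 : |v ⬝ᵥ S • rs o χ s ω| ≤ 1 * (44 * A ^ 2 * Γ ^ 2) :=
    abs_dot_le zero_le_one (by positivity) (by rwa [one_pow])
      (by rwa [smul_dotProduct, dotProduct_smul, smul_eq_mul, smul_eq_mul, ← mul_assoc, ← sq])
  rw [dotProduct_smul, smul_eq_mul, abs_mul, abs_of_pos hS, one_mul] at a1
  have a2 : ∀ i, S * |Tn o s ω i ^ 2 - o.p i ^ 2| ≤ 92 * A ^ 2 * Γ ^ 2 := fun i => by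
    have hD := sub_nonneg.2 (h.p1 i)
    have hD1 : 1 - o.p i ^ 2 ≤ 1 := sub_le_self _ (sq_nonneg _)
    have b1 : |S * rs o χ s ω i| ≤ 44 * A ^ 2 * Γ ^ 2 := by
      refine abs_le_of_sq (by positivity) (le_trans ?_ hr)
      rw [mul_pow, sq (rs o χ s ω i)]
      exact mul_le_mul_of_nonneg_left (Finset.single_le_sum
        (f := fun j => rs o χ s ω j * rs o χ s ω j) (fun _ _ => mul_self_nonneg _)
        (Finset.mem_univ i)) (sq_nonneg S)
    have b2 : |S * ((1 - o.p i ^ 2) * gm o χ s ω i)| ≤ 2 * A * Γ := by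
      refine abs_le_of_sq (by positivity) ?_
      have c1 : Γ0 ^ 2 ≤ Γ ^ 2 := pow_le_pow_left₀ h0 (by linarith) 2
      have c2 := (h.gm_comp hΓ i).trans (mul_le_mul_of_nonneg_left c1 (Qii_mem h.ok i).1)
      have c3 : ((1 - o.p i ^ 2) * gm o χ s ω i) ^ 2 ≤ (1 - o.p i ^ 2) * (Qm o i i * Γ ^ 2) := by
        rw [mul_pow]
        exact mul_le_mul (by rw [sq]; exact mul_le_of_le_one_left hD hD1) c2 (sq_nonneg _) hD
      have c4 := mul_le_mul_of_nonneg_left c3 (sq_nonneg S)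
      have c5 := mul_le_mul_of_nonneg_left (h.DQ i) (sq_nonneg Γ)
      rw [mul_pow]
      linarith
    have b3 : |Tn o s ω i + o.p i| ≤ 2 := by
      have c1 := abs_tanh_lt_one (cav (lw o ω) i s)
      have c2 := abs_tanh_lt_one (x i)
      rw [← h.px] at c2
      exact (abs_add_le _ _).trans (by rw [Tn]; linarith)
    have b4 : |S * (Tn o s ω i - o.p i)| ≤ 44 * A ^ 2 * Γ ^ 2 + 2 * A * Γ := by
      rw [show S * (Tn o s ω i - o.p i) = S * rs o χ s ω i + S * ((1 - o.p i ^ 2) * gm o χ s ω i) by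
        rw [rs]; ring]
      exact (abs_add_le _ _).trans (add_le_add b1 b2)
    have b5 : A * Γ ≤ A ^ 2 * Γ ^ 2 := by
      rw [← mul_pow, sq]
      exact le_mul_of_one_le_left (by positivity) (one_le_mul_of_one_le_of_one_le hA hΓ1)
    rw [← abs_of_pos hS, ← abs_mul, show S * (Tn o s ω i ^ 2 - o.p i ^ 2) =
      (Tn o s ω i + o.p i) * (S * (Tn o s ω i - o.p i)) by ring, abs_mul]
    refine (mul_le_mul b3 b4 (abs_nonneg _) zero_le_two).trans ?_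
    linarith
  have a3 : S * |∑ i, v i * u i * (Tn o s ω i ^ 2 - o.p i ^ 2)| ≤ 92 * A ^ 2 * Γ ^ 2 := by
    refine (mul_le_mul_of_nonneg_left (Finset.abs_sum_le_sum_abs _ _) hS.le).trans ?_
    rw [Finset.mul_sum]
    refine (Finset.sum_le_sum (g := fun i => (v i * v i + u i * u i) / 2 * (92 * A ^ 2 * Γ ^ 2))
      fun i _ => ?_).trans ?_
    · rw [abs_mul, mul_left_comm]
      refine mul_le_mul (abs_le.2 ⟨?_, ?_⟩) (a2 i) (by positivity)
        (by nlinarith [mul_self_nonneg (v i), mul_self_nonneg (u i)])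
      · nlinarith [sq_nonneg (v i + u i)]
      · nlinarith [sq_nonneg (v i - u i)]
    · rw [← Finset.sum_mul, ← Finset.sum_div, Finset.sum_add_distrib]
      refine mul_le_of_le_one_left (by positivity) ?_
      have : v ⬝ᵥ v + u ⬝ᵥ u ≤ 2 := by linarith
      rw [dotProduct, dotProduct] at this
      linarith
  rw [e]
  refine (mul_le_mul_of_nonneg_left (abs_sub _ _) hS.le).trans ?_
  rw [mul_add, abs_mul, ← mul_assoc]
  have := mul_le_mul_of_nonneg_right a1 (abs_nonneg φ)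
  linarith

end Hy

end Crest.Agent.T157.M4
end
end

-- ▼ part T157/O4mE_53

set_option autoImplicit false
set_option linter.unusedSectionVars false

/-!
Row 157, A2 section 4 (helper53): pointwise bounds for (M4), second part, and the link with the
sphere.
-/

noncomputable section

namespace Crest.Agent.T157.M4

open MeasureTheory Matrix Crest.Agent.Lib.OrthPoinc Filter Topology Set Real
open Crest.Agent.T157.Oc Crest.Agent.T157.E Crest.Agent.T157.SL Crest.Agent.T157.Ks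
open Crest.Agent.T157.Od Crest.Agent.T157.Oo Crest.Agent.T157.Mj

variable {n k : ℕ}

theorem tri {u v : Vn n} {a b : ℝ} (ha : 0 ≤ a) (hb : 0 ≤ b) (hu : u ⬝ᵥ u ≤ a ^ 2)
    (hv : v ⬝ᵥ v ≤ b ^ 2) : (u + v) ⬝ᵥ (u + v) ≤ (a + b) ^ 2 := by
  have := (abs_le.1 (abs_dot_le ha hb hu hv)).2
  simp only [add_dotProduct, dotProduct_add, dotProduct_comm v u]
  linarith

theorem smul_le {u : Vn n} {c a : ℝ} (hu : u ⬝ᵥ u ≤ a ^ 2) : (c • u) ⬝ᵥ (c • u) ≤ (|c| * a) ^ 2 := by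
  rw [smul_dotProduct, dotProduct_smul, smul_eq_mul, smul_eq_mul, ← mul_assoc, ← sq, mul_pow, sq_abs]
  exact mul_le_mul_of_nonneg_left hu (sq_nonneg c)

variable (o : Oo.Orb n k) (χ : ℝ)

def zn (s : Cube n) : ℝ := √(zh o s ⬝ᵥ zh o s)
def yn (s : Cube n) (ω : Vn n) : ℝ := √(yq o s ω ⬝ᵥ yq o s ω)
/-- `c - k/R²`, truncated -/
def k0 (s : Cube n) (ω : Vn n) : ℝ := ind o χ s * (cc o s (xp o s ω) - k / R2 o s)
/-- the compression of `A` -/
def Bm : Matrix (Fin k) (Fin k) ℝ := o.Eᵀ * A0 o * o.E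
/-- the exact coefficient of `p pᵀ` -/
def bs (n : ℕ) (χ T2 : ℝ) : ℝ := 2 * (1 / (n * χ ^ 2) - 1 / T2)
def Ps (T1 T2 : ℝ) (s : Cube n) : ℝ := ind o χ s * ((R2 o s - T1) / T2 + (k / R2 o s - χ⁻¹)) -
  bs n χ T2 * (o.p ⬝ᵥ zh o s) - (n * χ - T1) / T2
def bad (v : Vn n) (s : Cube n) (ω : Vn n) : ℝ :=
  (1 - ind o χ s) * ((cc o s (xp o s ω) - χ⁻¹) * (Pm o *ᵥ v ⬝ᵥ sv s))

/-- all deterministic hypotheses of (M4) -/
structure Hz (x : Vn n) (Gr : Matrix (Fin k) (Fin k) ℝ) (χ Q A S g Λ : ℝ) : Prop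
    extends Hy o x χ Q A S where
  k4 : 4 ≤ k
  Qn : Q ≤ S ^ 2
  symmG : Grᵀ = Gr
  inv : Bm o * Gr = 1
  hG : Op2 Gr (g ^ 2)
  co : ∀ v, v ⬝ᵥ v ≤ Q * (v ⬝ᵥ Gr *ᵥ v)
  g1 : 1 ≤ g
  L1 : 1 ≤ Λ
  tr : |n * χ - Gr.trace| ≤ Λ * S

variable {o χ} {x : Vn n} {Gr : Matrix (Fin k) (Fin k) ℝ} {Q A S g Λ : ℝ}

theorem zn_nn (s : Cube n) : 0 ≤ zn o s := Real.sqrt_nonneg _
theorem yn_nn (s : Cube n) (ω : Vn n) : 0 ≤ yn o s ω := Real.sqrt_nonneg _
theorem zn_sq (s : Cube n) : zn o s ^ 2 = zh o s ⬝ᵥ zh o s := Real.sq_sqrt (dsq _)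
theorem yn_sq (s : Cube n) (ω : Vn n) : yn o s ω ^ 2 = yq o s ω ⬝ᵥ yq o s ω := Real.sq_sqrt (dsq _)

namespace Hy

variable (h : Hy o x χ Q A S)
include h

theorem zn_le (s : Cube n) : zn o s ≤ 2 * S :=
  (abs_le.1 (abs_le_of_sq (by linarith [h.S0]) ((zn_sq s).trans_le ((Q_le h.ok _).trans (h.sh_le s))))).2

theorem pz_le (s : Cube n) : |o.p ⬝ᵥ zh o s| ≤ S * zn o s :=
  abs_dot_le h.S0.le (zn_nn s) h.pp (zn_sq s).ge

theorem R2_w (s : Cube n) : R2 o s = n * χ - (2 * (o.p ⬝ᵥ zh o s) + zn o s ^ 2) := by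
  rw [R2_Q, ← QQ_dot h.ok, zt_eq h.ok, h.nχ, zn_sq]
  simp only [add_dotProduct, dotProduct_add, dotProduct_comm (zh o s) o.p]
  ring

theorem w_le (s : Cube n) : |2 * (o.p ⬝ᵥ zh o s) + zn o s ^ 2| ≤ 4 * (S * zn o s) := by
  have h1 := abs_le.1 (h.pz_le s)
  have h2 := mul_le_mul_of_nonneg_right (h.zn_le s) (zn_nn (o := o) s)
  rw [abs_le]
  constructor <;> nlinarith [sq_nonneg (zn o s)]

theorem nχQ : 2 * S ^ 2 ≤ Q * (n * χ) := by
  have := mul_le_mul_of_nonneg_left h.χQ (Nat.cast_nonneg (α := ℝ) n)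
  rw [h.SS]; linarith

theorem notG {s : Cube n} (hs : ¬ n * χ ≤ 2 * R2 o s) : S ≤ 4 * Q * zn o s := by
  have h1 := (abs_le.1 (h.w_le s)).2
  have h2 : n * χ ≤ 8 * (S * zn o s) := by rw [h.R2_w] at hs; linarith
  have h3 := mul_le_mul_of_nonneg_left h2 (by linarith [h.Q1] : 0 ≤ Q)
  refine le_of_mul_le_mul_left ?_ h.S0
  linarith [h.nχQ]

theorem χ1 (hn : 0 < (n : ℝ)) : χ ≤ 1 := by
  refine le_of_mul_le_mul_left ?_ hn
  linarith [h.nχ, dsq o.p]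

theorem kn : (k : ℝ) ≤ n := by
  have := sum_Qii h.ok
  have h2 : 0 ≤ ∑ i, Qm o i i := Finset.sum_nonneg fun i _ => (Qii_mem h.ok i).1
  linarith

theorem n0 : 0 < (n : ℝ) := h.SS ▸ pow_pos h.S0 2

theorem S1 : 1 ≤ S := by
  have h1 : (1 : ℝ) ≤ n := by exact_mod_cast Nat.cast_pos.1 h.n0
  rw [← h.SS] at h1
  exact (abs_le.1 (abs_le_of_sq h.S0.le (by rwa [one_pow]))).2

theorem kχ : |(k : ℝ) * χ - n * χ| ≤ 2 := by
  have := h.χ0; have := h.χ1 h.n0; have := h.kn; have := h.nk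
  rw [abs_le]; constructor <;> nlinarith

theorem Rχ {s : Cube n} (hs : n * χ ≤ 2 * R2 o s) : 0 < R2 o s ∧ 2 * S ^ 2 ≤ Q ^ 2 * (R2 o s * χ) := by
  have h1 := h.RG hs
  have h2 : 0 < R2 o s := by linarith [mul_pos h.n0 h.χ0]
  refine ⟨h2, ?_⟩
  have := mul_le_mul h1 h.χQ zero_le_two (by linarith [pow_pos h.S0 2])
  linarith

theorem χi : |χ⁻¹| ≤ Q / 2 := by
  rw [abs_of_pos (inv_pos.2 h.χ0), inv_le_iff_one_le_mul₀ h.χ0]; linarith [h.χQ]

theorem kp_le (s : Cube n) (ω : Vn n) :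
    S * |kp o χ s ω| ≤ |S * k0 o χ s ω| + Q ^ 2 * (1 + 2 * zn o s) := by
  have hz := zn_nn (o := o) s
  have hS := h.S0
  rw [kp, k0, ind]
  split_ifs with hs
  · obtain ⟨h1, h2⟩ := h.Rχ hs
    have hχ := h.χ0
    have e : S * (k / R2 o s - χ⁻¹) = S * (k * χ - R2 o s) / (R2 o s * χ) := by field_simp
    have h3 : |S * (k / R2 o s - χ⁻¹)| ≤ Q ^ 2 * (1 + 2 * zn o s) := by
      rw [e, abs_div, abs_of_pos (mul_pos h1 hχ), div_le_iff₀ (mul_pos h1 hχ), abs_mul, abs_of_pos hS]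
      have c1 : |k * χ - R2 o s| ≤ 2 + 4 * (S * zn o s) := by
        rw [h.R2_w, ← sub_add]; exact (abs_add_le _ _).trans (add_le_add h.kχ (h.w_le s))
      have c2 := mul_le_mul_of_nonneg_left c1 hS.le
      have c3 := mul_le_mul_of_nonneg_right h2 (by positivity : 0 ≤ 1 + 2 * zn o s)
      have c4 : S ≤ S ^ 2 := by rw [sq]; exact le_mul_of_one_le_left hS.le h.S1
      linarith
    rw [← abs_of_pos hS, ← abs_mul, abs_of_pos hS, show S * (1 * (cc o s (xp o s ω) - χ⁻¹)) =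
      S * (1 * (cc o s (xp o s ω) - k / R2 o s)) + S * (k / R2 o s - χ⁻¹) by ring]
    exact (abs_add_le _ _).trans (add_le_add le_rfl h3)
  · simp only [zero_mul, abs_zero, mul_zero, zero_add]; positivity

theorem gm_le (s : Cube n) (ω : Vn n) : gm o χ s ω ⬝ᵥ gm o χ s ω ≤
    (yn o s ω + |kp o χ s ω| * S + |χ⁻¹| * zn o s) ^ 2 := by
  have := h.S0; have := yn_nn (o := o) s ω; have := zn_nn (o := o) s
  refine tri (by positivity) (by positivity) (tri (by positivity) (by positivity) ?_ (smul_le ?_))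
    (smul_le (zn_sq s).ge)
  · rw [neg_dotProduct_neg, yn_sq]
  · exact (Q_le h.ok _).trans (by rw [sv_dot, h.SS])

theorem bad_le {ω : Vn n} (hω : Mj.Sph o ω) (s : Cube n) {v : Vn n} (hv : v ⬝ᵥ v ≤ 1) :
    S * |bad o χ v s ω| ≤ 48 * Q ^ 3 * zn o s ^ 2 := by
  have hS := h.S0; have hQ := h.Q1
  rw [bad, ind]
  split_ifs with hs
  · simp only [sub_self, zero_mul, abs_zero, mul_zero]; positivity
  have a1 : (Pm o *ᵥ v ⬝ᵥ sv s) ^ 2 ≤ R2 o s := by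
    have e : Pm o *ᵥ sv s ⬝ᵥ Pm o *ᵥ sv s = R2 o s := by rw [dot_P, P_P h.ok, R2_eq]
    rw [← dot_P, ← e]
    exact (cs _ _).trans (mul_le_of_le_one_left (dsq _) hv)
  have a2 : R2 o s ≤ S ^ 2 := by
    rw [R2_Q, ← QQ_dot h.ok, h.SS]; linarith [dsq (Qm o *ᵥ sv s)]
  have a3 : |χ⁻¹ * (Pm o *ᵥ v ⬝ᵥ sv s)| ≤ Q / 2 * S := by
    rw [abs_mul]
    exact mul_le_mul h.χi (abs_le_of_sq hS.le (a1.trans a2)) (abs_nonneg _) (by positivity)
  have a4 : |cc o s (xp o s ω) * (Pm o *ᵥ v ⬝ᵥ sv s)| ≤ Q * (2 * S) := by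
    refine abs_le_of_sq (by positivity) ?_
    rcases (R2_nonneg (o := o) s).eq_or_lt with h0 | h0
    · rw [cc, ← h0, div_zero, zero_mul, zero_pow two_ne_zero]; positivity
    have e : Pm o *ᵥ xp o s ω ⬝ᵥ Pm o *ᵥ xp o s ω = R2 o s := by
      rw [P_xp h.ok hω, smul_dotProduct, dotProduct_smul, hω.one, smul_eq_mul, smul_eq_mul, mul_one,
        Real.mul_self_sqrt h0.le]
    have c1 := cs (A0 o *ᵥ xp o s ω) (Pm o *ᵥ xp o s ω)
    have c2 := op2_le h.hA ((xp_dot h.ok hω s).trans_le (h.sh_le s))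
    rw [e] at c1
    rw [cc, mul_pow, div_pow, div_mul_eq_mul_div, div_le_iff₀ (pow_pos h0 2)]
    refine (mul_le_mul (c1.trans (mul_le_mul_of_nonneg_right c2 h0.le)) a1 (sq_nonneg _)
      (by positivity)).trans (le_of_eq (by ring))
  have a5 : S ^ 2 ≤ (4 * Q * zn o s) ^ 2 := pow_le_pow_left₀ hS.le (h.notG hs) 2
  have a6 := mul_le_mul_of_nonneg_left a5 (by linarith : 0 ≤ Q)
  have a7 := mul_le_mul_of_nonneg_left ((abs_sub _ _).trans (add_le_add a4 a3)) hS.le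
  rw [sub_zero, one_mul, sub_mul]
  have : 0 ≤ Q * S ^ 2 := by positivity
  linarith

end Hy

namespace Hz

variable (h : Hz o x Gr χ Q A S g Λ)
include h

theorem T2_ge : S ^ 2 ≤ 2 * Q ^ 2 * (Gr * Gr).trace := by
  have h1 : ∀ i, 1 ≤ Q ^ 2 * (Gr * Gr) i i := fun i => by
    have a1 := h.co (Pi.single i 1)
    have a2 := cs (Pi.single i 1) (Gr *ᵥ Pi.single i 1)
    have a3 : Gr *ᵥ Pi.single i 1 ⬝ᵥ Gr *ᵥ Pi.single i 1 = (Gr * Gr) i i := by
      rw [← symm_dot h.symmG, mulVec_mulVec]; simp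
    have a4 : (Pi.single i 1 : Fin k → ℝ) ⬝ᵥ Pi.single i 1 = 1 := by simp
    rw [a4] at a1 a2
    rw [a3, one_mul] at a2
    have a5 := pow_le_pow_left₀ zero_le_one a1 2
    rw [one_pow, mul_pow] at a5
    exact a5.trans (mul_le_mul_of_nonneg_left a2 (sq_nonneg Q))
  have h2 := Finset.sum_le_sum fun i (_ : i ∈ Finset.univ) => h1 i
  rw [← Finset.mul_sum, Finset.sum_const, Finset.card_univ, Fintype.card_fin, nsmul_eq_mul,
    mul_one] at h2
  have h3 : (4 : ℝ) ≤ k := by exact_mod_cast h.k4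
  have h4 : (Gr * Gr).trace = ∑ i, (Gr * Gr) i i := rfl
  rw [h4, h.SS]
  linarith [h.nk]

theorem T2_pos : 0 < (Gr * Gr).trace := by
  have := h.T2_ge.trans_lt' (pow_pos h.S0 2)
  exact (pos_iff_pos_of_mul_pos this).1 (by have := h.Q1; positivity)

theorem T2i : S ^ 2 * ((Gr * Gr).trace)⁻¹ ≤ 2 * Q ^ 2 := by
  rw [← div_eq_mul_inv, div_le_iff₀ h.T2_pos]; exact h.T2_ge

theorem Ps_le (s : Cube n) :
    S ^ 2 * |Ps o χ Gr.trace (Gr * Gr).trace s| ≤ 28 * Λ * Q ^ 3 * (1 + zn o s) ^ 2 := by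
  have hz := zn_nn (o := o) s
  have hS := h.S0; have hQ := h.Q1; have hL := h.L1; have hχ := h.χ0; have hn := h.n0
  have hT := h.T2_pos
  have hTi := h.T2i
  have hp := h.pz_le s
  have hQ3 : Q ^ 2 ≤ Q ^ 3 := pow_le_pow_right₀ hQ (by norm_num)
  have hL3 : Q ^ 3 ≤ Λ * Q ^ 3 := le_mul_of_one_le_left (by positivity) hL
  rw [← abs_of_pos (pow_pos hS 2), ← abs_mul, Ps, ind, bs]
  split_ifs with hs
  · obtain ⟨h1, h2⟩ := h.Rχ hs
    have hR := h.R2_w s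
    have hw := h.w_le s
    have hk := h.kχ
    have hN := h.nχQ
    generalize o.p ⬝ᵥ zh o s = pz at *
    generalize zn o s = z at *
    generalize R2 o s = R at *
    generalize (Gr * Gr).trace = T at *
    have e : S ^ 2 * (1 * ((R - Gr.trace) / T + (k / R - χ⁻¹)) - 2 * (1 / (n * χ ^ 2) - 1 / T) * pz -
        (n * χ - Gr.trace) / T) = -(S ^ 2 * T⁻¹ * z ^ 2) + S ^ 2 / (R * χ) * (k * χ - n * χ + z ^ 2) +
          S ^ 2 / (R * χ) * (2 * pz * (2 * pz + z ^ 2) / (n * χ)) := by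
      have e1 : 2 * pz + z ^ 2 = n * χ - R := by linarith
      have e2 : z ^ 2 = n * χ - R - 2 * pz := by linarith
      rw [e1, e2]
      field_simp
      ring
    have a1 : S ^ 2 / (R * χ) ≤ Q ^ 2 / 2 := by rw [div_le_iff₀ (mul_pos h1 hχ)]; linarith
    have a0 : 0 ≤ S ^ 2 / (R * χ) := by positivity
    have a2 : |S ^ 2 / (R * χ) * (k * χ - n * χ + z ^ 2)| ≤ Q ^ 2 / 2 * (2 + z ^ 2) := by
      rw [abs_mul, abs_of_nonneg a0]
      exact mul_le_mul a1 ((abs_add_le _ _).trans (by rw [abs_of_nonneg (sq_nonneg z)]; linarith))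
        (abs_nonneg _) (by positivity)
    have a3 : |2 * pz * (2 * pz + z ^ 2) / (n * χ)| ≤ 4 * Q * z ^ 2 := by
      rw [abs_div, abs_of_pos (mul_pos hn hχ), div_le_iff₀ (mul_pos hn hχ), abs_mul, abs_mul, abs_two]
      have c1 := mul_le_mul (mul_le_mul_of_nonneg_left hp zero_le_two) hw (abs_nonneg _) (by positivity)
      have c2 := mul_le_mul_of_nonneg_left hN (sq_nonneg z)
      linarith
    have a4 : |S ^ 2 / (R * χ) * (2 * pz * (2 * pz + z ^ 2) / (n * χ))| ≤ Q ^ 2 / 2 * (4 * Q * z ^ 2) := by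
      rw [abs_mul, abs_of_nonneg a0]
      exact mul_le_mul a1 a3 (abs_nonneg _) (by positivity)
    have a5 : S ^ 2 * T⁻¹ * z ^ 2 ≤ 2 * Q ^ 2 * z ^ 2 := by gcongr
    have a6 : 0 ≤ S ^ 2 * T⁻¹ * z ^ 2 := by positivity
    have a7 : Q ^ 2 * z ^ 2 ≤ Λ * Q ^ 3 * z ^ 2 := by gcongr; linarith
    have a8 : Q ^ 3 * z ^ 2 ≤ Λ * Q ^ 3 * z ^ 2 := by gcongr
    have a9 : 0 ≤ Λ * Q ^ 3 * z := by positivity
    have a10 : 0 ≤ Q ^ 2 * z ^ 2 := by positivity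
    have a11 : 0 ≤ Q ^ 2 := by positivity
    obtain ⟨c1, c2⟩ := abs_le.1 a2
    obtain ⟨c3, c4⟩ := abs_le.1 a4
    rw [e, abs_le]
    constructor <;> linarith
  · have hG := h.notG hs
    have htr := h.tr
    have hχi := h.χi
    generalize o.p ⬝ᵥ zh o s = pz at *
    generalize zn o s = z at *
    generalize (Gr * Gr).trace = T at *
    have e : S ^ 2 * (0 * ((R2 o s - Gr.trace) / T + (k / R2 o s - χ⁻¹)) -
        2 * (1 / (n * χ ^ 2) - 1 / T) * pz - (n * χ - Gr.trace) / T) =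
        -(2 * (χ⁻¹ ^ 2 - S ^ 2 * T⁻¹) * pz) - S ^ 2 * T⁻¹ * (n * χ - Gr.trace) := by
      rw [h.SS]; field_simp; ring
    have a0 : 0 ≤ S ^ 2 * T⁻¹ := by positivity
    have a1 : |χ⁻¹ ^ 2 - S ^ 2 * T⁻¹| ≤ 2 * Q ^ 2 := by
      have := sq_le_of_abs hχi
      rw [abs_le]; constructor <;> nlinarith [sq_nonneg χ⁻¹]
    have a2 : |pz| ≤ 4 * Q * z * z := hp.trans (mul_le_mul_of_nonneg_right hG hz)
    have a3 : |2 * (χ⁻¹ ^ 2 - S ^ 2 * T⁻¹) * pz| ≤ 2 * (2 * Q ^ 2) * (4 * Q * z * z) := by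
      rw [abs_mul, abs_mul, abs_two]
      exact mul_le_mul (mul_le_mul_of_nonneg_left a1 zero_le_two) a2 (abs_nonneg _) (by positivity)
    have a4 : |S ^ 2 * T⁻¹ * (n * χ - Gr.trace)| ≤ 2 * Q ^ 2 * (Λ * (4 * Q * z)) := by
      rw [abs_mul, abs_of_nonneg a0]
      exact mul_le_mul hTi (htr.trans (by gcongr)) (abs_nonneg _) (by positivity)
    have a8 : Q ^ 3 * z ^ 2 ≤ Λ * Q ^ 3 * z ^ 2 := by gcongr
    have a9 : 0 ≤ Λ * Q ^ 3 * z := by positivity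
    have a10 : 0 ≤ Q ^ 3 * z ^ 2 := by positivity
    have a11 : 0 ≤ Λ * Q ^ 3 := by positivity
    obtain ⟨c1, c2⟩ := abs_le.1 a3
    obtain ⟨c3, c4⟩ := abs_le.1 a4
    rw [e, abs_le]
    constructor <;> linarith

end Hz

end Crest.Agent.T157.M4
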