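import Crest.Agent.T157.KbB_24
import Crest.Agent.T157.KbAll_5
import Crest.Agent.T157.KbTr_61
import Crest.Agent.T157.O0Wb_31
import Crest.Agent.T157.O4x_12
import Crest.Agent.T157.O4TB_59
import Crest.Agent.T157.O4mE_53
import Crest.Agent.T157.MjD_84
import Crest.Agent.T157.MjE_84
import Crest.Agent.T157.O4Hw_31
import Crest.Agent.T157.OiDef_19
import Crest.Agent.T157.O4Bd_59
import Crest.Agent.T157.NumZ_27
import Crest.Agent.T157.NumT_27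
import Crest.Agent.T157.O0Def_21
import Crest.Agent.T157.OoA_9
import Crest.Agent.T157.O6Def_61
import Crest.Agent.T157.O4cDef_4
import Crest.Agent.T157.O6s_61
import Crest.Agent.T157.O6mA_17
import Crest.Agent.T157.OgIn_31
import Crest.Agent.T157.OgA_9

-- ▼ part T157/KbTrG_44
section

/-!
# Row 157, part A2 (helper44): (TR) as a first-moment event
-/

set_option autoImplicit false

noncomputable section

namespace Crest.Agent.T157.Kb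

open MeasureTheory Matrix Set
open scoped ENNReal
open Crest.Agent.T157.E Crest.Agent.T157.Cond Crest.Agent.T157.Tap
open Crest.Agent.T157.Qe (zz)
open Crest.Agent.T157.Conc (ex)

variable {n : ℕ}

namespace Tr44

lemma meas_inv : Measurable fun A : Mx n => A⁻¹ := by
  simp only [Matrix.inv_def, Ring.inverse_eq_inv']
  exact ((continuous_id.matrix_det.measurable).inv).smul continuous_id.matrix_adjugate.measurable

lemma measSet_TR (b : ℝ) : MeasurableSet {z : V n × Mx n | TR b z.1 z.2} := by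
  have h1 : Measurable fun z : V n × Mx n => zz (1 - aS z.1) := by unfold zz; fun_prop
  have h2 : Measurable fun z : V n × Mx n => (zz (1 - aS z.1) • (1 : Mx n) - z.2)⁻¹.trace :=
    (continuous_id.matrix_trace.measurable).comp
      (meas_inv.comp ((h1.smul measurable_const).sub measurable_snd))
  exact measurableSet_le (by fun_prop) measurable_const

end Tr44

theorem trGlue : TrGlue := fun ⟨C1, hC⟩ => ⟨C1, fun K hK => by
  obtain ⟨t0, ht0, Ca, hA⟩ := All.all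
  refine ⟨min (1 / (2 * K)) (min t0 1), by positivity, Ca + 2,
    fun n t ε e E Cw H S0 hn ht hε hs hK3 hH hW => ?_⟩
  have n0 : 0 < n := by omega
  have t0' : 0 < t := lt_of_lt_of_le (by positivity) ht
  have s0 := Real.sqrt_pos.2 t0'
  have s2 := Real.sq_sqrt t0'.le
  have s1 : √t ≤ 1 := hs.trans ((min_le_right _ _).trans (min_le_right _ _))
  have s3 : √t ≤ t0 := hs.trans ((min_le_right _ _).trans (min_le_left _ _))
  have s4 : 2 * K * √t ≤ 1 := (le_div_iff₀' (by positivity)).1 (hs.trans (min_le_left _ _))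
  have k0 := le_mul_of_one_le_left t0'.le hK
  have hB : MeasurableSet {z : V n × Mx n | z.2 ∈ S0 ∧ Co K e t z.1 ∧ ¬ TR (C1 * H) z.1 z.2} :=
    (measurable_snd (hW _ s0 (s2.symm ▸ k0) (s2.symm ▸ k0)).1.meas).inter
      ((measSet_Co K e t measurable_fst).inter (Tr44.measSet_TR _).compl)
  refine (Pt_le margStmt n0 t0' hB (b := 0) (b' := ex (-H)) (by simpa using Conc.ex_ne_top _)
    (G := fun _ _ => True) (fun _ _ => by simp) fun z hz ξ _ => ?_).trans ?_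
  · have co := hz.2.1
    have q0 : 0 < aS z.1 := (Id10.aS_nonneg _).lt_of_ne fun h => by
      have := co.q1; rw [← h] at this; linarith
    have q1 : aS z.1 ≤ 1 / 2 := by
      refine (pow_le_pow_iff_left₀ q0.le (by norm_num) two_ne_zero).1 (co.q2.trans ?_)
      have : K * √t ^ 2 ≤ (K * √t) ^ 2 := by
        rw [mul_pow]; gcongr; exact le_self_pow₀ hK two_ne_zero
      rw [← s2]
      exact this.trans (pow_le_pow_left₀ (by positivity) (by linarith) 2)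
    have z1 : aS z.1 ^ 2 ≤ zz (1 - aS z.1) - 2 := by
      simpa using O0.Wb.sq_le_zz (g := 1 - aS z.1) (by linarith) (by linarith)
    have q2 := pow_pos q0 2
    refine (measure_mono fun W hW' => ?_).trans (hC n (1 - aS z.1) H (ee z.1) (col t z.1 ξ) (tau z.1)
      (by omega) ⟨by linarith, by linarith⟩ hH ?_ (Gn11.ee_unit q0))
    · obtain ⟨a, ha, h1, -⟩ := (hW _ q0 co.q1 co.q2).1.sp _ hW'.1
      have h2 : ε ^ 4 * aS z.1 ^ 2 ≤ aS z.1 ^ 2 :=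
        mul_le_of_le_one_left q2.le (pow_le_one₀ hε.1.le hε.2)
      refine ⟨a, ha, fun i => by linarith [(h1 i).2], ?_⟩
      rw [← (O0.Wb.res ha fun i => by linarith [(h1 i).2]).2.2.2.1]
      exact not_le.1 hW'.2.2
    · refine le_of_mul_le_mul_left ?_ (by positivity : 0 < K ^ 3)
      calc _ ≤ (n : ℝ) ^ 2 * t ^ 3 := by rwa [mul_one]
        _ ≤ (n : ℝ) ^ 2 * (K * (zz (1 - aS z.1) - 2)) ^ 3 := by
          gcongr; exact co.q1.trans (by gcongr)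
        _ = _ := by ring
  · rw [zero_add]
    refine (mul_le_mul_left (hA n t (by omega) ⟨ht, by nlinarith⟩) _).trans ?_
    rw [← Conc.ex_add]
    refine Conc.ex_mono ?_
    push_cast
    linarith [Real.log_natCast_nonneg n]⟩

theorem trCoreB : TrCoreB :=
  let ⟨C, _, h⟩ := trCore
  ⟨C, fun n g H e c τ _ hg hH hn _ => h n g H e c τ hg.1 hg.2 hH hn⟩

theorem trPt : TrPt := trGlue trCoreB

end Crest.Agent.T157.Kb

end
end

-- ▼ part T157/O4xH_12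
section

/-!
# Row 157, A2 section 4 (helper12): `O4T.XH` from the moments of `x`
-/

set_option autoImplicit false

noncomputable section

namespace Crest.Agent.T157.O4c.X12

open Matrix Real
open Crest.Agent.T157.Tap Crest.Agent.T157.Kb Crest.Agent.T157.Kb.Xd75
open Crest.Agent.T157.O4T (lc LC XH hd_lc lc_two)

variable {n : ℕ}

lemma lc8 (y : ℝ) : |lc y - y ^ 2 / 2 + y ^ 4 / 12 - y ^ 6 / 45| ≤ y ^ 8 / 56 := by
  have := Tay.mvt (f := fun y => lc y - y ^ 2 / 2 + y ^ 4 / 12 - y ^ 6 / 45)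
    (g := fun y => -(y - tanh y - y ^ 3 / 3 + 2 * y ^ 5 / 15)) (c := 1 / 56)
    (fun y => ((((hd_lc y).sub ((hasDerivAt_pow 2 y).div_const 2)).add
      ((hasDerivAt_pow 4 y).div_const 12)).sub ((hasDerivAt_pow 6 y).div_const 45)).congr_deriv
        (by simp; ring)) (by simp [lc]) 7
    (fun y => by rw [abs_neg]; exact (Tay.t7 y).trans_eq (by push_cast; ring)) y
  rw [Even.pow_abs (by decide)] at this
  linarith

lemma lc_pw (x : ℝ) {b K : ℝ} (hb : |b| ≤ K) (K1 : 1 ≤ K) :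
    |lc (b * x) - (b ^ 2 / 2 * x ^ 2 - b ^ 4 / 12 * tanh x ^ 4 +
      (b ^ 6 / 45 - b ^ 4 / 9) * tanh x ^ 6)| ≤ K ^ 8 * Mx8 x := by
  have hk : ∀ j ≤ 4, b ^ (2 * j) ≤ K ^ 8 := fun j hj => by
    rw [← Even.pow_abs (even_two_mul j)]
    exact (pow_le_pow_left₀ (abs_nonneg _) hb _).trans (pow_le_pow_right₀ K1 (by omega))
  have b2 : b ^ 2 ≤ K ^ 8 := hk 1 (by norm_num)
  have b4 : b ^ 4 ≤ K ^ 8 := hk 2 (by norm_num)
  have b6 : b ^ 6 ≤ K ^ 8 := hk 3 (by norm_num)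
  have b8 : b ^ 8 ≤ K ^ 8 := hk 4 (by norm_num)
  have c4 : 0 ≤ b ^ 4 := by positivity
  have c6 : 0 ≤ b ^ 6 := by positivity
  rcases le_total |x| 1 with h | h
  · rw [M8_of_le h]
    have x8 : 0 ≤ x ^ 8 := by positivity
    have a := abs_le.1 (lc8 (b * x))
    have p4 := abs_le.1 (Tay.p4 x)
    have p6 := abs_le.1 (Tay.p6 x)
    rw [abs_le]
    constructor <;> linarith [a.1, a.2, mul_le_mul_of_nonneg_left p4.1 c4,
      mul_le_mul_of_nonneg_left p4.2 c4, mul_le_mul_of_nonneg_left p6.1 c4,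
      mul_le_mul_of_nonneg_left p6.2 c4, mul_le_mul_of_nonneg_left p6.1 c6,
      mul_le_mul_of_nonneg_left p6.2 c6, mul_le_mul_of_nonneg_right b4 x8,
      mul_le_mul_of_nonneg_right b6 x8, mul_le_mul_of_nonneg_right b8 x8,
      mul_nonneg c4 x8]
  · rw [M8_of_ge h]
    have a1 : 0 ≤ lc (b * x) := log_nonneg (one_le_cosh _)
    have a2 : lc (b * x) ≤ (b * x) ^ 2 / 2 := by simpa [lc] using lc_two 0 (b * x)
    have t1 := tanh_sq_lt_one x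
    have t2 := Tay.sq_le x
    have t0 := sq_nonneg (tanh x)
    have q4 : tanh x ^ 4 ≤ x ^ 2 := by nlinarith
    have q6 : tanh x ^ 6 ≤ x ^ 2 := by
      nlinarith [mul_le_mul_of_nonneg_left t1.le (sq_nonneg (tanh x ^ 2))]
    have r4 : 0 ≤ tanh x ^ 4 := by positivity
    have r6 : 0 ≤ tanh x ^ 6 := by positivity
    have K8 : 0 ≤ K ^ 8 := by positivity
    rw [abs_le]
    constructor <;> linarith [mul_le_mul b4 q4 r4 K8, mul_le_mul b4 q6 r6 K8,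
      mul_le_mul b6 q6 r6 K8, mul_le_mul_of_nonneg_right b2 (sq_nonneg x), mul_nonneg c4 r4,
      mul_nonneg c4 r6, mul_nonneg c6 r6, mul_nonneg K8 (sq_nonneg x)]

lemma pr_pw (x : ℝ) :
    |tanh x * (x - tanh x) - (1 / 3 * tanh x ^ 4 + 1 / 5 * tanh x ^ 6)| ≤ Mx8 x := by
  have key : ∀ j ≤ 6, |gx x - tanh x ^ 5 / 5| ≤ |x| ^ j * |x| := fun j hj => by
    refine mvt0 (f := fun u => gx u - tanh u ^ 5 / 5) (f' := fun u => tanh u ^ 6) (fun u => ?_)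
      (by simp [gx]) fun u hu => ?_
    · refine ((((hasDerivAt_id' u).sub (Kb.hasDerivAt_tanh u)).sub
        (((Kb.hasDerivAt_tanh u).pow 3).div_const 3)).sub
        (((Kb.hasDerivAt_tanh u).pow 5).div_const 5)).congr_deriv ?_
      simp; ring
    · rw [abs_pow]
      exact (pow_le_pow_of_le_one (abs_nonneg _) (abs_tanh_lt_one u).le hj).trans
        (pow_le_pow_left₀ (abs_nonneg _) ((Tay.t1 u).trans hu) j)
  rw [show tanh x * (x - tanh x) - (1 / 3 * tanh x ^ 4 + 1 / 5 * tanh x ^ 6) =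
    tanh x * (gx x - tanh x ^ 5 / 5) by rw [gx]; ring, abs_mul]
  refine le_min ((mul_le_mul (Tay.t1 x) (key 6 le_rfl) (abs_nonneg _) (abs_nonneg _)).trans_eq ?_)
    ((mul_le_mul (Tay.t1 x) (key 0 (by norm_num)) (abs_nonneg _) (abs_nonneg _)).trans_eq ?_)
  · rw [← Even.pow_abs (show Even 8 by decide)]; ring
  · rw [← sq_abs x]; ring

lemma m62_le (x : ℝ) : min (x ^ 6) (x ^ 2) ≤ tanh x ^ 6 + 2 * Mx8 x := by
  rcases le_total |x| 1 with h | h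
  · rw [M8_of_le h]; linarith [min_le_left (x ^ 6) (x ^ 2), (abs_le.1 (Tay.p6 x)).1]
  · rw [M8_of_ge h]
    linarith [min_le_right (x ^ 6) (x ^ 2), sq_nonneg x, show 0 ≤ tanh x ^ 6 by positivity]

namespace Mo
variable {e : ℝ} {x : V n} (h : Mo e x)
include h

/-- `R4` to third order -/
lemma r4' : |R4 x - aS x ^ 2 - aS x ^ 3 / 3| ≤ 2 * (e * aS x ^ 3) := by
  have a := abs_le.1 (avg_near fun i => pr_pw (x i))
  rw [avg_add, avg_mul, avg_mul] at a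
  have b := abs_le.1 h.p4
  have c := abs_le.1 h.p6
  have d := h.e8
  have d0 := mul_nonneg h.e0 (pow_pos h.q0 3).le
  simp only [th, Mx8] at a b c
  simp only [R4, th]
  rw [abs_le]
  constructor <;> linarith [a.1, a.2, b.1, b.2, c.1, c.2]

lemma lc_near (he : e ≤ 1 / 100) (hq : aS x ≤ 1 / 100) {b K : ℝ} (hb : |b| ≤ K) (K1 : 1 ≤ K) :
    |avg (fun i => lc (b * x i)) - (b ^ 2 * v2 x / 2 - (b ^ 2 * v2 x) ^ 2 / 4 +
      (b ^ 2 * v2 x) ^ 3 / 3)| ≤ 9 * K ^ 8 * ((e + aS x) * aS x ^ 3) := by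
  have a := abs_le.1 (avg_near fun i => lc_pw (x i) hb K1)
  rw [avg_add, avg_sub, avg_mul, avg_mul, avg_mul, avg_mul] at a
  have p4 := abs_le.1 h.p4
  have p6 := abs_le.1 h.p6
  have r4 := abs_le.1 h.r4
  have K8 : 0 ≤ K ^ 8 := by positivity
  have e8 := mul_le_mul_of_nonneg_left (show avg (fun i => Mx8 (x i)) ≤ _ from h.e8) K8
  obtain ⟨z1, z2, z3, -⟩ := h.sizes he hq
  replace z3 := abs_le.1 z3
  have hv := v2_eq x
  have q0 := h.q0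
  have e0 := h.e0
  simp only [th] at p4 p6
  rw [show (avg fun i => x i ^ 2) = v2 x from rfl] at a
  generalize aS x = q at *
  generalize v2 x = v at *
  have q2 := pow_pos q0 2
  have q3 := pow_pos q0 3
  have q4 := pow_pos q0 4
  have d0 := mul_nonneg e0 q3.le
  have w1 : v - q ≤ 3 * q ^ 2 := by
    linarith [mul_le_mul_of_nonneg_right he q2.le, mul_le_mul_of_nonneg_right hq q2.le]
  have w2 : (v - q) ^ 2 ≤ (3 * q ^ 2) ^ 2 := pow_le_pow_left₀ (by linarith) w1 2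
  have u1 := mul_le_mul_of_nonneg_left (show v - q - 2 * q ^ 2 ≤ 2 * e * q ^ 2 + 2 * q ^ 3 by
    linarith) q0.le
  have u2 := mul_le_mul_of_nonneg_left (show -(2 * e * q ^ 2 + 2 * q ^ 3) ≤ v - q - 2 * q ^ 2 by
    linarith) q0.le
  have v2' : v ^ 2 ≤ (11 / 10 * q) ^ 2 := pow_le_pow_left₀ (by linarith) z2 2
  have w3 := mul_le_mul w1 (show v ^ 2 + v * q + q ^ 2 ≤ 4 * q ^ 2 by
    linarith [mul_le_mul_of_nonneg_right z2 q0.le]) (by nlinarith) (by positivity)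
  have w4 : q ^ 3 ≤ v ^ 3 := pow_le_pow_left₀ q0.le z1 3
  have hk : ∀ j ≤ 4, b ^ (2 * j) ≤ K ^ 8 := fun j hj => by
    rw [← Even.pow_abs (even_two_mul j)]
    exact (pow_le_pow_left₀ (abs_nonneg _) hb _).trans (pow_le_pow_right₀ K1 (by omega))
  have key : ∀ {c y : ℝ}, 0 ≤ c → c ≤ K ^ 8 → |y| ≤ 4 * ((e + q) * q ^ 3) →
      |c * y| ≤ K ^ 8 * (4 * ((e + q) * q ^ 3)) := fun h0 h1 h2 => by
    rw [abs_mul, abs_of_nonneg h0]; exact mul_le_mul h1 h2 (abs_nonneg _) K8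
  have k4 := abs_le.1 (key (c := b ^ 4) (y := (avg fun i => tanh (x i) ^ 4) / 12 +
    (avg fun i => tanh (x i) ^ 6) / 9 - v ^ 2 / 4) (by positivity) (hk 2 (by norm_num))
    (abs_le.2 ⟨by linarith, by linarith [sq_nonneg (v - q)]⟩))
  have k6 := abs_le.1 (key (c := b ^ 6) (y := (avg fun i => tanh (x i) ^ 6) / 45 - v ^ 3 / 3)
    (by positivity) (hk 3 (by norm_num)) (abs_le.2 ⟨by linarith, by linarith⟩))
  have k8 := mul_nonneg K8 q4.le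
  rw [abs_le]
  constructor <;> linarith [a.1, a.2, k4.1, k4.2, k6.1, k6.2]

/-- **the statistics of the tail estimate** -/
theorem xh (hn : 0 < n) (he : e ≤ 1 / 100) (hq : aS x ≤ 1 / 100) {B : ℝ} (hB : 1 ≤ B) :
    XH x (v2 x) B (2304 * B ^ 8 * (e + aS x) * (n * aS x ^ 3)) (18 * (n * aS x ^ 3)) := by
  have n0 : (0 : ℝ) < n := by exact_mod_cast hn
  have q0 := h.q0
  have e0 := h.e0
  have q3 := pow_pos q0 3
  have key : ∀ b : ℝ, |b| ≤ 2 * B → |LC (b • x) - n * (b ^ 2 * v2 x / 2 - (b ^ 2 * v2 x) ^ 2 / 4 +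
      (b ^ 2 * v2 x) ^ 3 / 3)| ≤ 2304 * B ^ 8 * (e + aS x) * (n * aS x ^ 3) := fun b hb => by
    rw [LC, sum_eq hn, ← mul_sub, abs_mul, abs_of_pos n0]
    exact (mul_le_mul_of_nonneg_left (h.lc_near he hq hb (by linarith)) n0.le).trans_eq (by ring)
  refine ⟨xx_eq hn x, fun b hb => by linarith [(abs_le.1 (key b hb)).2], ?_, ?_, ?_⟩
  · have := (abs_le.1 (key 1 (by rw [abs_one]; linarith))).1
    simp only [one_smul, one_pow, one_mul] at this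
    linarith
  · have e1 : (1 - (th x ⬝ᵥ th x) / n) * (x ⬝ᵥ x) - x ⬝ᵥ th x =
        n * ((1 - aS x) * v2 x - (aS x + R4 x)) := by
      rw [pp_eq hn, xx_eq hn, xp_eq hn]; field_simp
    refine (congrArg abs e1).trans_le ?_
    rw [abs_mul, abs_of_pos n0]
    have a := abs_le.1 h.r4'
    have b := abs_le.1 h.s2
    have c := abs_le.1 h.r4
    have d := abs_le.1 (h.sizes he hq).2.2.1
    have f : |(1 - aS x) * v2 x - (aS x + R4 x)| ≤ 7 * ((e + aS x) * aS x ^ 3) := by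
      rw [v2_eq, abs_le]
      constructor <;> linarith [mul_le_mul_of_nonneg_left c.1 q0.le, mul_nonneg e0 q3.le,
        mul_le_mul_of_nonneg_left c.2 q0.le, mul_le_mul_of_nonneg_left d.1 q0.le,
        mul_le_mul_of_nonneg_left d.2 q0.le, pow_pos q0 4]
    have g : 0 ≤ n * ((e + aS x) * aS x ^ 3) := by positivity
    linarith [mul_le_mul_of_nonneg_left f n0.le,
      mul_le_mul_of_nonneg_right (one_le_pow₀ hB : 1 ≤ B ^ 8) g]
  · have a := avg_mono fun i => m62_le (x i)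
    rw [avg_add, avg_mul] at a
    have b := (abs_le.1 h.p6).2
    have c : avg (fun i => Mx8 (x i)) ≤ _ := h.e8
    simp only [th] at b
    rw [sum_eq hn, mul_left_comm]
    exact mul_le_mul_of_nonneg_left (by linarith [mul_le_mul_of_nonneg_right he q3.le]) n0.le

end Mo

end Crest.Agent.T157.O4c.X12

end
end

-- ▼ part T157/O4mF_53
section

set_option autoImplicit false
set_option linter.unusedSectionVars false

/-!
Row 157, A2 section 4 (helper53): (M4) in the polar model.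
-/

noncomputable section

namespace Crest.Agent.T157.M4

open MeasureTheory Matrix Crest.Agent.Lib.OrthPoinc Filter Topology Set Real
open Crest.Agent.T157.Oc Crest.Agent.T157.E Crest.Agent.T157.SL Crest.Agent.T157.Ks
open Crest.Agent.T157.Od Crest.Agent.T157.Oo Crest.Agent.T157.Mj

variable {n k : ℕ} {o : Oo.Orb n k} {χ : ℝ} {x : Vn n} {Gr : Matrix (Fin k) (Fin k) ℝ}
  {Q A S g Λ : ℝ} {μ : Measure (Mat k)} [IsProbabilityMeasure μ]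

@[fun_prop] theorem c_lw (s : Cube n) : Continuous fun ω => lw o ω s := by unfold lw; fun_prop
@[fun_prop] theorem c_yq (s : Cube n) : Continuous (yq o s) := by unfold yq; fun_prop
@[fun_prop] theorem c_yn (s : Cube n) : Continuous (yn o s) := by unfold yn; fun_prop
@[fun_prop] theorem c_kp (s : Cube n) : Continuous (kp o χ s) := by unfold kp; fun_prop
@[fun_prop] theorem c_k0 (s : Cube n) : Continuous (k0 o χ s) := by unfold k0; fun_prop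
@[fun_prop] theorem c_gm (s : Cube n) : Continuous (gm o χ s) := by unfold gm; fun_prop
@[fun_prop] theorem c_Tn (s : Cube n) (i : Fin n) : Continuous fun ω => Tn o s ω i := by
  unfold Tn cav; fun_prop
@[fun_prop] theorem c_St (u v : Vn n) (φ : ℝ) (s : Cube n) : Continuous (St o u v φ s) := by
  unfold St; fun_prop
@[fun_prop] theorem c_bad (v : Vn n) (s : Cube n) : Continuous (bad o χ v s) := by
  unfold bad; fun_prop

theorem pe_cond (hμ : SOInv μ) {F G : Cube n → Vn n → ℝ} (hF : CF F) (hG : CF G)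
    (h : ∀ s, |∫ U, wx o s (xp o s (om o U)) * F s (om o U) ∂μ| ≤
      ∫ U, wx o s (xp o s (om o U)) * G s (om o U) ∂μ) : |pe o μ F| ≤ pe o μ G := by
  rw [pe, pe, abs_div, abs_of_pos (Zp_pos hμ),
    integral_finsetSum _ fun s _ => intg hμ (by have := hF s; fun_prop),
    integral_finsetSum _ (f := fun s U => wx o s (xp o s (om o U)) * G s (om o U))
      fun s _ => intg hμ (by have := hG s; fun_prop)]
  exact div_le_div_of_nonneg_right ((Finset.abs_sum_le_sum_abs _ _).trans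
    (Finset.sum_le_sum fun s _ => h s)) (Zp_pos hμ).le

/-- Stein identity in the polar model -/
theorem pe_stein (u v : Vn n) (m : ℝ) :
    pe o μ (fun s _ => (v ⬝ᵥ sh o s) * (u ⬝ᵥ sh o s - m)) =
      pe o μ fun s ω => St o u v (u ⬝ᵥ sh o s - m) s ω := by
  unfold pe
  congr 2
  funext U
  exact stein (lw o (om o U)) o.p u v m

/-- the linear part on the sphere -/
def bv (o : Oo.Orb n k) (s : Cube n) : Fin k → ℝ := o.Eᵀ *ᵥ (A0 o *ᵥ zh o s)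

theorem Bm_vec (ξ : Fin k → ℝ) : Bm o *ᵥ ξ = o.Eᵀ *ᵥ (A0 o *ᵥ (o.E *ᵥ ξ)) := by
  simp only [Bm, mulVec_mulVec, Matrix.mul_assoc]

theorem Et_le (h : o.Ok) (v : Vn n) : o.Eᵀ *ᵥ v ⬝ᵥ o.Eᵀ *ᵥ v ≤ v ⬝ᵥ v := by
  have := sum_E_sq_le h.iso v
  simpa only [dotProduct, sq] using this

theorem E_dot (h : o.Ok) (ξ : Fin k → ℝ) : o.E *ᵥ ξ ⬝ᵥ o.E *ᵥ ξ = ξ ⬝ᵥ ξ := by rw [dot_E, Et_E h]

theorem sg_dot (h : o.Ok) (s : Cube n) : (√(R2 o s) • e0 k) ⬝ᵥ (√(R2 o s) • e0 k) = R2 o s := by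
  rw [smul_dotProduct, dotProduct_smul, e0_dot h, smul_eq_mul, smul_eq_mul, mul_one,
    Real.mul_self_sqrt (R2_nonneg s)]

theorem link (hμ : SOInv μ) (h : o.Ok) (s : Cube n) : ∃ C : ℝ, 0 < C ∧ ∀ F : ℝ → ℝ,
    ∫ U, wx o s (xp o s (om o U)) * F (cc o s (xp o s (om o U)) - k / R2 o s) ∂μ =
      C * ∫ U, F (ka (Bm o) (bv o s) ((√(R2 o s) • e0 k) ⬝ᵥ (√(R2 o s) • e0 k))
        (Orb.xi (√(R2 o s) • e0 k) U)) * ew (Bm o) (bv o s) (Orb.xi (√(R2 o s) • e0 k) U) ∂μ := by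
  refine ⟨exp (o.h ⬝ᵥ sv s + o.z * (sh o s ⬝ᵥ sh o s) / 2 - zh o s ⬝ᵥ A0 o *ᵥ zh o s / 2),
    exp_pos _, fun F => ?_⟩
  rw [← integral_const_mul]
  refine integral_congr_ae ((Orb.ae_SO hμ).mono fun U hU => ?_)
  have h1 := xp_dot h (sph_om h hU) s
  have h2 : xp o s (om o U) = zh o s + o.E *ᵥ Orb.xi (√(R2 o s) • e0 k) U := by
    simp only [xp, om, Orb.xi, mulVec_smul, zh]
  simp only
  rw [sg_dot h]
  generalize Orb.xi (√(R2 o s) • e0 k) U = ξ at h2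
  have h3 : A0 o *ᵥ zh o s ⬝ᵥ o.E *ᵥ ξ = bv o s ⬝ᵥ ξ := by
    rw [dotProduct_comm, dot_E, dotProduct_comm, bv]
  have h4 : o.E *ᵥ ξ ⬝ᵥ A0 o *ᵥ (o.E *ᵥ ξ) = ξ ⬝ᵥ Bm o *ᵥ ξ := by rw [dot_E, Bm_vec]
  have h5 : cc o s (xp o s (om o U)) - k / R2 o s = ka (Bm o) (bv o s) (R2 o s) ξ := by
    rw [cc, ka, h2, mulVec_add (Pm o), zh, P_Q h, zero_add, P_E h, mulVec_add, add_dotProduct, ← zh,
      h3, dotProduct_comm (A0 o *ᵥ (o.E *ᵥ ξ)), h4]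
    ring
  have h6 : xp o s (om o U) ⬝ᵥ o.W *ᵥ xp o s (om o U) = o.z * (sh o s ⬝ᵥ sh o s) -
      xp o s (om o U) ⬝ᵥ A0 o *ᵥ xp o s (om o U) := by
    rw [A0, sub_mulVec, smul_mulVec, one_mulVec, dotProduct_sub, dotProduct_smul, h1, smul_eq_mul]
    ring
  rw [h5, wx, h6, h2, ew, mul_left_comm, ← exp_add, mul_comm]
  congr 2
  simp only [mulVec_add, add_dotProduct, dotProduct_add, h4, symm_dot (A0_symm h) (zh o s) (o.E *ᵥ ξ),
    dotProduct_comm (o.E *ᵥ ξ) (A0 o *ᵥ zh o s), h3]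
  ring

namespace Hz

variable (h : Hz o x Gr χ Q A S g Λ)
include h

theorem sph {s : Cube n} (hs : n * χ ≤ 2 * R2 o s) :
    Sph (Bm o) Gr (bv o s) (√(R2 o s) • e0 k) Q g (Λ + 4 * Q * zn o s) S := by
  have hz := zn_nn (o := o) s
  have hQ := h.Q1; have hL := h.L1; have hS := h.S0
  have hQz : 0 ≤ Q * zn o s := by positivity
  have hR := h.RG hs
  refine ⟨?_, h.symmG, h.inv, fun v => ?_, h.hG, h.co, hQ, h.g1, by linarith, hS, ?_, ?_, ?_, ?_, ?_⟩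
  · simp only [Bm, transpose_mul, transpose_transpose, A0_symm h.ok, Matrix.mul_assoc]
  · rw [Bm_vec]
    exact (Et_le h.ok _).trans ((h.hA _).trans_eq (by rw [E_dot h.ok]))
  · rw [sg_dot h.ok]
    exact le_of_mul_le_mul_left (by linarith [h.Qn]) (by linarith : 0 < Q)
  · rw [sg_dot h.ok, R2_Q, ← QQ_dot h.ok, h.SS]; linarith [dsq (Qm o *ᵥ sv s)]
  · rwa [sg_dot h.ok]
  · exact (Et_le h.ok _).trans ((op2_le h.hA (zn_sq s).ge).trans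
      (pow_le_pow_left₀ hQz (by linarith) 2))
  · rw [sg_dot h.ok, h.R2_w, sub_right_comm]
    refine (abs_sub _ _).trans ?_
    have : S * zn o s ≤ Q * (S * zn o s) := le_mul_of_one_le_left (by positivity) hQ
    linarith [h.tr, h.w_le s]

theorem K4 (hμ : SOInv μ) : pe o μ (fun s ω => (S * k0 o χ s ω) ^ 4) ≤
    pe o μ fun s _ => 1024 * (g * (Λ + 4 * Q * zn o s) * Q ^ 2) ^ 4 := by
  refine (le_abs_self _).trans (pe_cond hμ (fun s => by fun_prop) (fun s => by fun_prop) fun s => ?_)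
  obtain ⟨C, hC, hl⟩ := link hμ h.ok s
  by_cases hs : n * χ ≤ 2 * R2 o s
  · simp only [k0, ind, if_pos hs, one_mul]
    rw [hl fun y => (S * y) ^ 4, hl fun _ => 1024 * (g * (Λ + 4 * Q * zn o s) * Q ^ 2) ^ 4,
      integral_const_mul, abs_of_nonneg (mul_nonneg hC.le (integral_nonneg fun U =>
        mul_nonneg (by positivity) (ew_pos _ _ _).le))]
    exact mul_le_mul_of_nonneg_left ((h.sph hs).k4 hμ) hC.le
  · simp only [k0, ind, if_neg hs, zero_mul, mul_zero, zero_pow four_ne_zero, integral_zero, abs_zero]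
    exact integral_nonneg fun U => mul_nonneg (exp_pos _).le (by positivity)

theorem K1 (hμ : SOInv μ) (φ : Cube n → ℝ) :
    |pe o μ fun s ω => ((Gr * Gr).trace * k0 o χ s ω - ind o χ s * (R2 o s - Gr.trace)) * φ s| ≤
    pe o μ fun s _ => 70 * g ^ 2 * (g * (Λ + 4 * Q * zn o s) * Q ^ 2) ^ 2 * |φ s| := by
  refine pe_cond hμ (fun s => by fun_prop) (fun s => by fun_prop) fun s => ?_
  obtain ⟨C, hC, hl⟩ := link hμ h.ok s
  by_cases hs : n * χ ≤ 2 * R2 o s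
  · simp only [k0, ind, if_pos hs, one_mul]
    have h1 := (h.sph hs).k1 hμ
    rw [← integral_const_mul, ← integral_const_mul, ← integral_sub (intg hμ (by fun_prop))
      (intg hμ (by fun_prop))] at h1
    rw [hl fun y => ((Gr * Gr).trace * y - (R2 o s - Gr.trace)) * φ s,
      hl fun _ => 70 * g ^ 2 * (g * (Λ + 4 * Q * zn o s) * Q ^ 2) ^ 2 * |φ s|, integral_const_mul,
      abs_mul, abs_of_pos hC]
    refine mul_le_mul_of_nonneg_left ?_ hC.le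
    refine le_trans (le_of_eq ?_) ((mul_le_mul_of_nonneg_right h1 (abs_nonneg (φ s))).trans
      (le_of_eq (by ring)))
    rw [← abs_mul, ← integral_mul_const]
    congr 2
    funext U
    rw [sg_dot h.ok]; ring
  · simp only [k0, ind, if_neg hs, zero_mul, mul_zero, sub_zero, integral_zero, abs_zero]
    exact integral_nonneg fun U => mul_nonneg (exp_pos _).le (by positivity)

/-- the pointwise error -/
theorem Z_le {ω : Vn n} (hω : Mj.Sph o ω) (s : Cube n) {u v : Vn n} (hu : u ⬝ᵥ u ≤ 1)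
    (hv : v ⬝ᵥ v ≤ 1) {φ θ : ℝ}
    (hθ : θ = 1 + zn o s + yn o s ω + |S * k0 o χ s ω| + |φ| + |Dv o.p v ⬝ᵥ sh o s|) :
    S * |Dv o.p v ⬝ᵥ u + (Dv o.p v ⬝ᵥ gm o χ s ω) * φ - St o u v φ s ω -
      kp o χ s ω * (Dv o.p v ⬝ᵥ sh o s) * φ - bad o χ (Dv o.p v) s ω * φ -
      (Dv o.p v ⬝ᵥ o.p) * (Ps o χ Gr.trace (Gr * Gr).trace s * φ)| ≤
        427000 * (A ^ 2 * Λ * Q ^ 6) * θ ^ 3 := by
  have hz := zn_nn (o := o) s
  have hy := yn_nn (o := o) s ω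
  have hQ := h.Q1; have hL := h.L1; have hS := h.S0; have hA := h.A1
  have n1 := abs_nonneg (S * k0 o χ s ω)
  have n2 := abs_nonneg φ
  have n3 := abs_nonneg (Dv o.p v ⬝ᵥ sh o s)
  have hθ1 : 1 ≤ θ := by linarith
  have hDv : Dv o.p v ⬝ᵥ Dv o.p v ≤ 1 := by
    refine le_trans (Finset.sum_le_sum fun i _ => ?_) hv
    have := h.p1 i
    rw [Dv, mul_mul_mul_comm]
    exact mul_le_of_le_one_left (mul_self_nonneg _)
      (mul_le_one₀ (sub_le_self _ (sq_nonneg _)) (by linarith) (sub_le_self _ (sq_nonneg _)))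
  have hQ2 : 1 ≤ Q ^ 2 := one_le_pow₀ hQ
  have q1 : θ ≤ Q ^ 2 * θ := le_mul_of_one_le_left (by linarith) hQ2
  have q2 : Q ^ 2 * θ ≤ Q ^ 3 * θ := by gcongr; norm_num
  have q3 : Q ^ 3 ≤ Q ^ 3 * θ := le_mul_of_one_le_right (by positivity) hθ1
  have a1 : S * |kp o χ s ω| ≤ 3 * (Q ^ 2 * θ) := by
    have : Q ^ 2 * (1 + 2 * zn o s) ≤ Q ^ 2 * (2 * θ) := by gcongr; linarith
    linarith [h.kp_le s ω]
  have a2 : |χ⁻¹| * zn o s ≤ Q ^ 2 * θ :=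
    mul_le_mul (h.χi.trans (by nlinarith)) (by linarith) hz (by positivity)
  have a3 := h.St_le hω (s := s) (Γ := 56 * (Q ^ 3 * θ)) (by positivity) (h.gm_le s ω) (by linarith)
    (fun hs => (h.notG hs).trans (by
      have c1 : Q * zn o s ≤ Q ^ 3 * θ :=
        mul_le_mul (le_self_pow₀ hQ (by norm_num)) (by linarith) hz (by positivity)
      have c2 : Q ^ 3 * θ ≤ A * (Q ^ 3 * θ) := le_mul_of_one_le_left (by positivity) hA
      have : 0 ≤ A * (Q ^ 3 * θ) := by positivity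
      linarith)) hu hv φ
  obtain ⟨K, hK⟩ : ∃ K, K = A ^ 2 * Λ * Q ^ 6 := ⟨_, rfl⟩
  have k1 : A ^ 2 * Q ^ 6 ≤ K := by
    rw [hK, mul_right_comm]; exact le_mul_of_one_le_right (by positivity) hL
  have k2 : Λ * Q ^ 3 ≤ K := by
    rw [hK, mul_assoc]
    exact (mul_le_mul_of_nonneg_left (pow_le_pow_right₀ hQ (by norm_num)) (by linarith)).trans
      (le_mul_of_one_le_left (by positivity) (one_le_pow₀ hA))
  have k3 : Q ^ 3 ≤ K := (le_mul_of_one_le_left (by positivity) hL).trans k2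
  have k4 : Q ^ 2 ≤ K := (pow_le_pow_right₀ hQ (by norm_num)).trans k3
  have t1 : |φ| ≤ θ := by linarith
  have K0 : 0 ≤ K := by rw [hK]; positivity
  have θ0 : 0 ≤ θ := by linarith
  have b1 : A ^ 2 * Q ^ 6 * θ ^ 2 * |φ| ≤ K * θ ^ 2 * θ := by gcongr
  have b2 : A ^ 2 * Q ^ 6 * θ ^ 2 * 1 ≤ K * θ ^ 2 * θ := by gcongr
  have b3 : S * |kp o χ s ω * (Dv o.p v ⬝ᵥ sh o s) * φ| ≤ 3 * (K * θ) * θ * θ := by
    rw [abs_mul, abs_mul, ← mul_assoc, ← mul_assoc]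
    exact mul_le_mul (mul_le_mul (a1.trans (by gcongr)) (by linarith) n3 (by positivity)) t1 n2
      (by positivity)
  have b4 : S * |bad o χ (Dv o.p v) s ω * φ| ≤ 48 * K * θ ^ 2 * θ := by
    rw [abs_mul, ← mul_assoc]
    exact mul_le_mul ((h.bad_le hω s hDv).trans (by gcongr; linarith)) t1 n2 (by positivity)
  have b5 : S * |(Dv o.p v ⬝ᵥ o.p) * (Ps o χ Gr.trace (Gr * Gr).trace s * φ)| ≤ 28 * K * θ ^ 2 * θ := by
    have c1 : |Dv o.p v ⬝ᵥ o.p| ≤ 1 * S := abs_dot_le zero_le_one hS.le (by rwa [one_pow]) h.pp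
    have c2 : S ^ 2 * |Ps o χ Gr.trace (Gr * Gr).trace s| ≤ 28 * K * θ ^ 2 :=
      (h.Ps_le s).trans (by rw [mul_assoc 28]; gcongr; linarith)
    rw [abs_mul, abs_mul]
    calc _ ≤ S * (1 * S * (|Ps o χ Gr.trace (Gr * Gr).trace s| * |φ|)) := by gcongr
      _ = S ^ 2 * |Ps o χ Gr.trace (Gr * Gr).trace s| * |φ| := by ring
      _ ≤ _ := by gcongr
  have b6 : 0 ≤ K * θ ^ 3 := by rw [hK]; positivity
  rw [← hK]
  refine (mul_le_mul_of_nonneg_left ((abs_sub _ _).trans (add_le_add ((abs_sub _ _).trans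
    (add_le_add (abs_sub _ _) le_rfl)) le_rfl)) hS.le).trans ?_
  linarith

end Hz

end Crest.Agent.T157.M4
end
end

-- ▼ part T157/MjF_84
section

set_option autoImplicit false
set_option linter.unusedSectionVars false

/-!
Row 157, A2 section 4 (helper84): the second moment of `c - 1 / χ`.
-/

noncomputable section

namespace Crest.Agent.T157.Mj

open MeasureTheory Matrix Crest.Agent.Lib.OrthPoinc Filter Topology Set Real
open Crest.Agent.T157.Oc Crest.Agent.T157.E Crest.Agent.T157.SL Crest.Agent.T157.Ks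
open Crest.Agent.T157.Od Crest.Agent.T157.Oo

variable {n k : ℕ}

theorem psd_cs {ι : Type*} [Fintype ι] [DecidableEq ι] {M : Matrix ι ι ℝ} (hM : Mᵀ = M)
    (h0 : ∀ v, 0 ≤ v ⬝ᵥ M *ᵥ v) (u v : ι → ℝ) :
    (u ⬝ᵥ M *ᵥ v) ^ 2 ≤ (u ⬝ᵥ M *ᵥ u) * (v ⬝ᵥ M *ᵥ v) := by
  have key : ∀ t : ℝ, 0 ≤ (u ⬝ᵥ M *ᵥ u) * (t * t) + 2 * (u ⬝ᵥ M *ᵥ v) * t + v ⬝ᵥ M *ᵥ v := fun t => by
    have := h0 (t • u + v)
    simp only [mulVec_add, mulVec_smul, add_dotProduct, dotProduct_add, smul_dotProduct,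
      dotProduct_smul, smul_eq_mul, symm_dot hM v u, dotProduct_comm (M *ᵥ v) u] at this
    linarith
  have := discrim_le_zero key
  rw [discrim] at this
  linarith

/-- second moment of `κ` on one sphere -/
theorem k2s {μ : Measure (Mat k)} [IsProbabilityMeasure μ] (hμ : SOInv μ)
    {B Gr : Matrix (Fin k) (Fin k) ℝ} {b σ : Fin k → ℝ} {g a : ℝ} (hB : Bᵀ = B) (hG : Grᵀ = Gr)
    (inv : B * Gr = 1) (psd : ∀ v, 0 ≤ v ⬝ᵥ B *ᵥ v) (h6 : ∀ v, v ⬝ᵥ B *ᵥ v ≤ 6 * (v ⬝ᵥ v))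
    (hg : ∀ v, v ⬝ᵥ Gr *ᵥ v ≤ g * (v ⬝ᵥ v)) (ha : b ⬝ᵥ Gr *ᵥ b ≤ a) (hb : b ⬝ᵥ b ≤ 49 * (σ ⬝ᵥ σ))
    (r1 : 1 ≤ σ ⬝ᵥ σ) :
    ∫ U, M4.ka B b (σ ⬝ᵥ σ) (Orb.xi σ U) ^ 2 * M4.ew B b (Orb.xi σ U) ∂μ ≤
      (72 * (σ ⬝ᵥ σ - Gr.trace) ^ 2 / (σ ⬝ᵥ σ) ^ 2 + (18 * a + 240 * g) / (σ ⬝ᵥ σ)) *
        ∫ U, M4.ew B b (Orb.xi σ U) ∂μ := by
  have h0 : 0 < σ ⬝ᵥ σ := by linarith
  have h1 := M4.ibp_w (b := b) hμ hB h0.ne' (M4.sg_ka (b := b) hB (σ ⬝ᵥ σ)) Gr 0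
  have BG : ∀ v, B *ᵥ (Gr *ᵥ v) = v := fun v => by rw [mulVec_mulVec, inv, one_mulVec]
  have pG : ∀ v, 0 ≤ v ⬝ᵥ Gr *ᵥ v := fun v => by
    have := psd (Gr *ᵥ v); rwa [BG, dotProduct_comm] at this
  have a0 := (pG b).trans ha
  have h2 := M4.int_le3 hμ (f := fun U => M4.ka B b (σ ⬝ᵥ σ) (Orb.xi σ U) ^ 2 * M4.ew B b (Orb.xi σ U))
    (f1 := fun U => M4.Ig B b (σ ⬝ᵥ σ) Gr 0 (Orb.xi σ U) (M4.ka B b (σ ⬝ᵥ σ) (Orb.xi σ U))
      (M4.ka B b (σ ⬝ᵥ σ) (Orb.xi σ U)) ((σ ⬝ᵥ σ)⁻¹ • ((2 : ℝ) • B *ᵥ Orb.xi σ U + b)) *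
      M4.ew B b (Orb.xi σ U)) (f2 := fun U => M4.ew B b (Orb.xi σ U)) (f3 := fun _ => 0)
    (c1 := 12 / (σ ⬝ᵥ σ)) (c3 := 0)
    (c2 := 72 * (σ ⬝ᵥ σ - Gr.trace) ^ 2 / (σ ⬝ᵥ σ) ^ 2 + (18 * a + 240 * g) / (σ ⬝ᵥ σ))
    (by unfold M4.ka; fun_prop) (by unfold M4.Ig M4.ka; fun_prop) (by fun_prop) (by fun_prop)
    fun U hU => by
      have hx := Orb.dot_xi σ hU
      generalize Orb.xi σ U = x at hx
      rw [mul_zero, add_zero, ← mul_assoc, ← add_mul]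
      refine mul_le_mul_of_nonneg_right ?_ (M4.ew_pos _ _ _).le
      have e1 : Gr *ᵥ x ⬝ᵥ B *ᵥ x = σ ⬝ᵥ σ := by rw [symm_dot hB, BG, hx]
      have c1 := psd_cs hB psd (Gr *ᵥ x) x
      have c2 := psd_cs hG pG x b
      have c3 := M4.cs b x
      have c4 := h6 x
      have c5 := hg x
      have c6 := pG x
      have c7 := psd x
      rw [e1, BG] at c1
      rw [symm_dot hG x b] at c2
      simp only [M4.Ig, add_zero, zero_dotProduct, zero_div, dotProduct_add, add_dotProduct,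
        dotProduct_smul, smul_dotProduct, smul_eq_mul, e1, dotProduct_comm (B *ᵥ x) x,
        dotProduct_comm (Gr *ᵥ x) x] at c1 ⊢
      rw [hx] at c3 c4 c5
      generalize M4.ka B b (σ ⬝ᵥ σ) x = κ
      generalize σ ⬝ᵥ σ = r at *
      generalize x ⬝ᵥ Gr *ᵥ x = Y at *
      generalize Gr *ᵥ x ⬝ᵥ b = β at *
      generalize x ⬝ᵥ B *ᵥ x = q at *
      generalize b ⬝ᵥ x = l at *
      generalize Gr.trace = T
      have d1 : r ≤ 6 * Y := le_of_mul_le_mul_right (by nlinarith) h0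
      have d2 : β ^ 2 ≤ Y * a := c2.trans (mul_le_mul_of_nonneg_left ha c6)
      have d3 : l ≤ 7 * r := abs_le_of_sq_le_sq' (by nlinarith) (by linarith) |>.2
      have Y0 : 0 < Y := by linarith
      have d4 : κ * β ≤ κ ^ 2 * Y / 4 + a :=
        le_of_mul_le_mul_right (by nlinarith [sq_nonneg (κ * Y / 2 - β)]) Y0
      have d5 : κ * (r - T) ≤ κ ^ 2 * r / 24 + 6 * (r - T) ^ 2 / r := by
        refine le_of_mul_le_mul_right ?_ h0
        rw [add_mul, div_mul_cancel₀ _ h0.ne']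
        nlinarith [sq_nonneg (κ * r - 12 * (r - T))]
      have d6 : -(a / 2 + g / 2) ≤ β / r := by
        rw [le_div_iff₀ h0]
        have : -β ≤ (a + Y) / 2 := abs_le_of_sq_le_sq' (by nlinarith [sq_nonneg (a - Y)])
          (by linarith) |>.2
        nlinarith
      have d7 : Y * (r⁻¹ * (2 * q + l)) / r ≤ 19 * g := by
        rw [div_le_iff₀ h0]
        have : r⁻¹ * (2 * q + l) ≤ 19 := by rw [inv_mul_le_iff₀ h0]; linarith
        nlinarith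
      have d8 : r⁻¹ * (2 * r + β) = 2 + β / r := by field_simp
      have d9 := mul_le_mul_of_nonneg_left d1 (sq_nonneg κ)
      have g0 : 0 ≤ g := le_of_mul_le_mul_right (by linarith) h0
      refine le_of_mul_le_mul_right ?_ h0
      have e : (12 / r * ((κ * Y + T - (r + β)) * κ + (r⁻¹ * (2 * r + β) - Y * (r⁻¹ * (2 * q + l)) / r)) +
          (72 * (r - T) ^ 2 / r ^ 2 + (18 * a + 240 * g) / r)) * r = 12 * ((κ * Y + T - (r + β)) * κ +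
          (r⁻¹ * (2 * r + β) - Y * (r⁻¹ * (2 * q + l)) / r)) + (12 * (6 * (r - T) ^ 2 / r) +
          (18 * a + 240 * g)) := by field_simp; ring
      rw [e, d8]
      nlinarith
  rw [h1] at h2
  simpa using h2

variable {o : Oo.Orb n k} {μ : Measure (Mat k)} [IsProbabilityMeasure μ] {x : Vn n} {χ r0 : ℝ}
  {e1 e2 : Vn n}

/-- **the law of `c`**, second moment -/
theorem mg_le (hμ : SOInv μ) (h : o.Ok) (f : Fr o x χ r0 e1 e2) (dim : k + 2 = n)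
    (hχ : n * χ = n - o.p ⬝ᵥ o.p) {Gr : Matrix (Fin k) (Fin k) ℝ} {Λ g a D m : ℝ} (hG : Grᵀ = Gr)
    (inv : M4.Bm o * Gr = 1) (psd : ∀ v, 0 ≤ v ⬝ᵥ M4.Bm o *ᵥ v)
    (hg : ∀ v, v ⬝ᵥ Gr *ᵥ v ≤ g * (v ⬝ᵥ v)) (a0 : 0 ≤ a) (g1 : 1 ≤ g)
    (ha : ∀ z, o.Eᵀ *ᵥ (A0 o *ᵥ z) ⬝ᵥ Gr *ᵥ (o.Eᵀ *ᵥ (A0 o *ᵥ z)) ≤ a * (z ⬝ᵥ z))
    (hD : (n * χ - Gr.trace) ^ 2 ≤ D) (hΛ : 4 * Λ ≤ n)
    (hm : o.an μ (fun s U => Qm o *ᵥ xh o s U ⬝ᵥ Qm o *ᵥ xh o s U) ≤ m) :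
    o.an μ (fun s U => tg o Λ s * (cc o s (xh o s U) - χ⁻¹) ^ 2) ≤
      512 * D / n ^ 2 + ((2200 + 48 * a) * m + 700 * g) / n := by
  have B := pfP hμ h
  have n4 : (4 : ℝ) ≤ n := by exact_mod_cast f.n4
  have D0 : 0 ≤ D := (sq_nonneg _).trans hD
  have hw : ∀ s, 4 * Z2 o s ≤ n → (n * χ - R2 o s) ^ 2 ≤ 4 * n * (M4.zh o s ⬝ᵥ M4.zh o s) := fun s hs => by
    have a1 := f.Qsh_le h hs
    have a2 := dot_sq_le o.p (M4.zh o s)
    have e : n * χ - R2 o s = M4.zh o s ⬝ᵥ M4.zh o s + 2 * (o.p ⬝ᵥ M4.zh o s) := by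
      have := R2_add h s
      rw [Z2, M4.zt_eq h] at this
      simp only [add_dotProduct, dotProduct_add, dotProduct_comm (M4.zh o s) o.p] at this
      linarith
    rw [f.p_sq h] at a2
    rw [← M4.zh] at a1
    have z0 := dot_self_nonneg (M4.zh o s)
    rw [e]
    nlinarith [sq_nonneg (M4.zh o s ⬝ᵥ M4.zh o s - 2 * (o.p ⬝ᵥ M4.zh o s)), mul_le_mul_of_nonneg_right a1 z0,
      mul_le_mul_of_nonneg_right f.pn z0]
  have cs : ∀ s, (tg o Λ s = 1 ∧ 4 * Z2 o s ≤ n) ∨ tg o Λ s = 0 := fun s => by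
    by_cases h : Z2 o s ≤ Λ
    · exact Or.inl ⟨if_pos h, by linarith⟩
    · exact Or.inr (if_neg h)
  have h1 : pe o μ (fun s ω => tg o Λ s * (cc o s (xp o s ω) - k / R2 o s) ^ 2) ≤ pe o μ fun s _ =>
      (1024 + 24 * a) / n * (M4.zh o s ⬝ᵥ M4.zh o s) + (256 * D / n ^ 2 + 320 * g / n) := by
    refine (le_abs_self _).trans (M4.pe_cond hμ (fun s => by fun_prop) (fun s => by fun_prop) fun s => ?_)
    have z0 := dot_self_nonneg (M4.zh o s)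
    obtain ⟨C, hC, hl⟩ := M4.link hμ h s
    rcases cs s with hs | hs
    · obtain ⟨r1, r2⟩ := f.R2_ge h hs.2
      simp only [hs.1, one_mul]
      rw [hl fun y => y ^ 2, hl fun _ => _, integral_const_mul, abs_of_nonneg (mul_nonneg hC.le
        (integral_nonneg fun U => mul_nonneg (by positivity) (M4.ew_pos _ _ _).le))]
      refine mul_le_mul_of_nonneg_left ((k2s hμ (g := g) (a := a * (M4.zh o s ⬝ᵥ M4.zh o s)) ?_ hG inv psd
        (fun v => ?_) hg (ha _) ?_ ?_).trans (mul_le_mul_of_nonneg_right ?_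
          (integral_nonneg fun U => (M4.ew_pos _ _ _).le))) hC.le
      · simp only [M4.Bm, transpose_mul, transpose_transpose, A0_symm h, Matrix.mul_assoc]
      · rw [M4.Bm_vec, ← dot_E, ← M4.E_dot h v]
        exact (le_abs_self _).trans (quad_le (f.opA h) _)
      · rw [M4.sg_dot h]
        linarith [M4.Et_le h (A0 o *ᵥ M4.zh o s), f.opA h (M4.zh o s), f.Qsh_le h hs.2,
          show M4.bv o s ⬝ᵥ M4.bv o s = o.Eᵀ *ᵥ (A0 o *ᵥ M4.zh o s) ⬝ᵥ o.Eᵀ *ᵥ (A0 o *ᵥ M4.zh o s) from rfl,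
          show M4.zh o s ⬝ᵥ M4.zh o s = Qm o *ᵥ sh o s ⬝ᵥ Qm o *ᵥ sh o s from rfl]
      · rw [M4.sg_dot h]; linarith
      · rw [M4.sg_dot h]
        have b1 := hw s hs.2
        have b2 : (R2 o s - Gr.trace) ^ 2 ≤ 8 * n * (M4.zh o s ⬝ᵥ M4.zh o s) + 2 * D := by
          nlinarith [sq_nonneg (n * χ - R2 o s + (n * χ - Gr.trace))]
        have b3 : 72 * (R2 o s - Gr.trace) ^ 2 / R2 o s ^ 2 ≤
            72 * (8 * n * (M4.zh o s ⬝ᵥ M4.zh o s) + 2 * D) / (3 * n / 4) ^ 2 :=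
          div_le_div₀ (by positivity) (by linarith) (by positivity)
            (pow_le_pow_left₀ (by positivity) (by linarith) 2)
        have b4 : (18 * (a * (M4.zh o s ⬝ᵥ M4.zh o s)) + 240 * g) / R2 o s ≤
            (18 * (a * (M4.zh o s ⬝ᵥ M4.zh o s)) + 240 * g) / (3 * n / 4) :=
          div_le_div_of_nonneg_left (by positivity) (by positivity) (by linarith)
        refine (add_le_add b3 b4).trans_eq ?_
        field_simp; ring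
    · simp only [hs, zero_mul, mul_zero, integral_zero, abs_zero]
      exact integral_nonneg fun U => mul_nonneg (exp_pos _).le (by positivity)
  have h2 := B.mono (F := fun s ω => tg o Λ s * (cc o s (xp o s ω) - χ⁻¹) ^ 2)
    (G := fun s ω => 2 * (tg o Λ s * (cc o s (xp o s ω) - k / R2 o s) ^ 2) +
      (120 / n * (M4.zh o s ⬝ᵥ M4.zh o s) + 30 / n)) (fun s => by fun_prop) (fun s => by fun_prop)
    fun s ω _ => by
      have z0 := dot_self_nonneg (M4.zh o s)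
      rcases cs s with hs | hs
      · obtain ⟨r1, r2⟩ := f.R2_ge h hs.2
        have b1 := hw s hs.2
        have χ0 : 0 < χ := by linarith [f.lo]
        have ek : (k : ℝ) = n - 2 := by rw [← dim]; push_cast; ring
        have b2 : (k * χ - R2 o s) ^ 2 ≤ 8 * n * (M4.zh o s ⬝ᵥ M4.zh o s) + 8 := by
          rw [ek]
          nlinarith [sq_nonneg (n * χ - R2 o s + 2 * χ), f.hi, mul_le_mul f.hi f.hi χ0.le zero_le_one]
        have b3 : (k / R2 o s - χ⁻¹) ^ 2 ≤ (8 * n * (M4.zh o s ⬝ᵥ M4.zh o s) + 8) / (3 * n / 8) ^ 2 := by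
          rw [show k / R2 o s - χ⁻¹ = (k * χ - R2 o s) / (R2 o s * χ) by field_simp, div_pow]
          exact div_le_div₀ (by positivity) b2 (by positivity)
            (pow_le_pow_left₀ (by positivity) (by nlinarith [f.lo]) 2)
        have b4 : (8 * n * (M4.zh o s ⬝ᵥ M4.zh o s) + 8) / (3 * n / 8) ^ 2 ≤
            60 / n * (M4.zh o s ⬝ᵥ M4.zh o s) + 15 / n := by
          rw [div_le_iff₀ (by positivity)]
          field_simp
          nlinarith [mul_nonneg (by linarith : (0 : ℝ) ≤ n) z0]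
        have b5 : (120 : ℝ) / n * (M4.zh o s ⬝ᵥ M4.zh o s) + 30 / n =
          2 * (60 / n * (M4.zh o s ⬝ᵥ M4.zh o s) + 15 / n) := by ring
        rw [hs.1, one_mul, one_mul, b5]
        nlinarith [sq_nonneg (cc o s (xp o s ω) - k / R2 o s - (k / R2 o s - χ⁻¹))]
      · simp only [hs, zero_mul, mul_zero, zero_add]; positivity
  have h3 : pe o μ (fun s _ => M4.zh o s ⬝ᵥ M4.zh o s) ≤ m := by
    refine le_trans (B.congr (fun s => by fun_prop) (fun s => by fun_prop) fun s ω hω => ?_).le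
      ((an_polar hμ h (F := fun _ ξ => Qm o *ᵥ ξ ⬝ᵥ Qm o *ᵥ ξ) fun s => by fun_prop).ge.trans hm)
    rw [Q_xp h hω, M4.zh]
  rw [B.add (fun s => by fun_prop) fun s => by fun_prop, B.mul, B.one] at h1
  rw [B.add (fun s => by fun_prop) fun s => by fun_prop,
    B.add (fun s => by fun_prop) fun s => by fun_prop, B.mul, B.mul, B.one] at h2
  rw [an_polar hμ h (F := fun s ξ => tg o Λ s * (cc o s ξ - χ⁻¹) ^ 2) fun s => by fun_prop]
  have z0 : 0 ≤ pe o μ fun s _ => M4.zh o s ⬝ᵥ M4.zh o s :=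
    B.nonneg (fun s => by fun_prop) fun _ _ _ => dot_self_nonneg _
  have h4 := mul_le_mul_of_nonneg_left h3 (by positivity : 0 ≤ (2200 + 48 * a) / n)
  have h5 : (30 : ℝ) / n ≤ 60 * g / n := div_le_div_of_nonneg_right (by linarith) (by linarith)
  have h6 : 0 ≤ 32 / n * pe o μ fun s _ => M4.zh o s ⬝ᵥ M4.zh o s := by positivity
  refine h2.trans ?_
  generalize pe o μ (fun s _ => M4.zh o s ⬝ᵥ M4.zh o s) = Z at *
  simp only [div_eq_mul_inv] at *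
  nlinarith

end Crest.Agent.T157.Mj
end
end

-- ▼ part T157/MjG_84
section

set_option autoImplicit false
set_option linter.unusedSectionVars false

/-!
Row 157, A2 section 4 (helper84): from the core of (M1) to (M1), (M2), (M3).
-/

noncomputable section

namespace Crest.Agent.T157.Mj

open MeasureTheory Matrix Crest.Agent.Lib.OrthPoinc Filter Topology Set Real
open Crest.Agent.T157.Oc Crest.Agent.T157.E Crest.Agent.T157.SL Crest.Agent.T157.Ks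
open Crest.Agent.T157.Od Crest.Agent.T157.Oo Crest.Agent.T157.O4c Crest.Agent.T157.O4c.W31

variable {n k : ℕ} {o : Oo.Orb n k} {μ : Measure (Mat k)} [IsProbabilityMeasure μ]

theorem tr_mul_nonneg {Δ M : Mn n} (hΔ : Δᵀ = Δ) (h0 : ∀ y, 0 ≤ y ⬝ᵥ Δ *ᵥ y)
    (hM : ∀ y, 0 ≤ y ⬝ᵥ M *ᵥ y) : 0 ≤ (Δ * M).trace := by
  obtain ⟨Q, l, -, h2, h3, -⟩ := exists_spec_cfc hΔ
  have h4 : ∀ i, 0 ≤ l i := fun i => by
    have := h0 fun a => Q a i
    rwa [← conj_diag_eq, h3, conj_back h2, diagonal_apply_eq] at this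
  rw [h3, Matrix.mul_assoc, Matrix.mul_assoc, trace_mul_comm, Matrix.mul_assoc, Matrix.trace]
  refine Finset.sum_nonneg fun i _ => ?_
  rw [diag_apply, diagonal_mul, conj_diag_eq]
  exact mul_nonneg (h4 i) (hM _)

section Schur

variable (h : o.Ok) {S : Mn n} {g : ℝ} (hS : Sᵀ = S) (hE : ∀ w, S *ᵥ (o.E *ᵥ w) = A0 o *ᵥ (o.E *ᵥ w))
include h hS hE

theorem Bm_form (y : Fin k → ℝ) : y ⬝ᵥ M4.Bm o *ᵥ y = o.E *ᵥ y ⬝ᵥ S *ᵥ (o.E *ᵥ y) := by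
  rw [M4.Bm_vec, ← dot_E, hE]

theorem cvB (hc : Cv S g) : Cv (M4.Bm o) g :=
  ⟨by simp only [M4.Bm, transpose_mul, transpose_transpose, A0_symm h, Matrix.mul_assoc], hc.g0,
    fun y => by rw [Bm_form h hS hE, ← M4.E_dot h y]; exact hc.co _⟩

theorem schur (h0 : ∀ y, 0 ≤ y ⬝ᵥ S *ᵥ y) (hB : Cv (M4.Bm o) g) (z : Vn n) :
    o.Eᵀ *ᵥ (S *ᵥ z) ⬝ᵥ (M4.Bm o)⁻¹ *ᵥ (o.Eᵀ *ᵥ (S *ᵥ z)) ≤ z ⬝ᵥ S *ᵥ z := by
  have h1 := psd_cs hS h0 (o.E *ᵥ ((M4.Bm o)⁻¹ *ᵥ (o.Eᵀ *ᵥ (S *ᵥ z)))) z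
  rw [← Bm_form h hS hE, hB.GG, dot_E, dotProduct_comm] at h1
  rcases (hB.nn' (o.Eᵀ *ᵥ (S *ᵥ z))).eq_or_lt with e | e
  · exact e ▸ h0 z
  · exact le_of_mul_le_mul_left (by rwa [← sq]) e

theorem tr_schur (hc : Cv S g) (dim : k + 2 = n) :
    0 ≤ S⁻¹.trace - (M4.Bm o)⁻¹.trace ∧ g * (S⁻¹.trace - (M4.Bm o)⁻¹.trace) ≤ 2 := by
  have hB := cvB h hS hE hc
  set Δ := S⁻¹ - o.E * (M4.Bm o)⁻¹ * o.Eᵀ with hΔ
  have s : Δᵀ = Δ := by
    simp only [hΔ, transpose_sub, transpose_mul, transpose_transpose, hc.symm', hB.symm',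
      Matrix.mul_assoc]
  have p : ∀ y, 0 ≤ y ⬝ᵥ Δ *ᵥ y := fun y => by
    have := schur h hS hE hc.nn hB (S⁻¹ *ᵥ y)
    rw [hc.MG, dotProduct_comm (S⁻¹ *ᵥ y)] at this
    rw [hΔ, sub_mulVec, dotProduct_sub, ← mulVec_mulVec, ← mulVec_mulVec, dotProduct_comm y (o.E *ᵥ _),
      dot_E, dotProduct_comm (_ *ᵥ (o.Eᵀ *ᵥ y))]
    linarith
  have t : Δ.trace = S⁻¹.trace - (M4.Bm o)⁻¹.trace := by
    rw [hΔ, trace_sub, trace_mul_cycle, h.iso, Matrix.one_mul]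
  have e : o.Eᵀ * S * o.E = M4.Bm o := by
    have : S * o.E = A0 o * o.E := by
      ext i j
      have := congrFun (hE (Pi.single j 1)) i
      simp only [mulVec_single_one] at this
      exact this
    rw [Matrix.mul_assoc, this, ← Matrix.mul_assoc, M4.Bm]
  have t2 : (Δ * S).trace = 2 := by
    rw [hΔ, Matrix.sub_mul, hc.inv', trace_sub, Matrix.mul_assoc, Matrix.mul_assoc, trace_mul_comm,
      Matrix.mul_assoc, e, hB.inv', trace_one, trace_one, ← dim]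
    simp
  have h1 := tr_mul_nonneg s p (M := 1) fun y => by simpa using dot_self_nonneg y
  have h2 := tr_mul_nonneg s p (M := S - g • 1) fun y => by
    simpa only [sub_mulVec, smul_mulVec, one_mulVec, dotProduct_sub, dotProduct_smul, smul_eq_mul,
      sub_nonneg] using hc.co y
  rw [Matrix.mul_one, t] at h1
  rw [Matrix.mul_sub, Matrix.mul_smul, Matrix.mul_one, trace_sub, trace_smul, t, t2, smul_eq_mul] at h2
  exact ⟨h1, by linarith⟩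

end Schur

/-- the form of (M1) -/
theorem M1_dot (hμ : SOInv μ) (h : o.Ok) (v : Vn n) :
    v ⬝ᵥ (EM (o.P μ) fun U => (o.g U)ᵀ * sm2 (o.w U) sv o.p * o.g U) *ᵥ v =
      pe o μ fun s ω => (v ⬝ᵥ xp o s ω) ^ 2 := by
  have e : (EM (o.P μ) fun U => (o.g U)ᵀ * sm2 (o.w U) sv o.p * o.g U) =
      pM (o.an μ) (xh o) (xh o) := by
    ext i j
    simp only [EM, lM, of_apply, Oo.Orb.an]
    refine integral_congr_ae (ae_of_all _ fun U => ?_)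
    have e := mean_dot2 (σ := sv) (p := o.p) (Oo.Orb.wt (o := o) U) ((o.g U)ᵀ i) ((o.g U)ᵀ j)
    refine Eq.trans ?_ e.symm
    simp only [Matrix.mul_assoc]
    simp only [Matrix.mul_apply, dotProduct, mulVec, transpose_apply]
  rw [e, (pfA hμ h).dotP (fun s => by fun_prop) fun s => by fun_prop,
    ← an_polar hμ h (F := fun _ ξ => (v ⬝ᵥ ξ) ^ 2) fun s => by fun_prop]
  simp only [sq]

theorem V_le {χ : ℝ} (hχ : n * χ = n - o.p ⬝ᵥ o.p) :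
    ∑ i, (1 - o.p i ^ 2 - χ) ^ 2 ≤ ∑ i, o.p i ^ 4 := by
  have e : ∑ i, (1 - o.p i ^ 2 - χ) ^ 2 =
      ∑ i, o.p i ^ 4 - 2 * (1 - χ) * ∑ i, o.p i ^ 2 + n * (1 - χ) ^ 2 := by
    rw [Finset.mul_sum, ← Finset.sum_sub_distrib, show (n : ℝ) * (1 - χ) ^ 2 = ∑ _i : Fin n, (1 - χ) ^ 2 by
      simp, ← Finset.sum_add_distrib]
    exact Finset.sum_congr rfl fun i _ => by ring
  rw [e, ← dot_self_eq_sq, show o.p ⬝ᵥ o.p = n * (1 - χ) by linarith]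
  nlinarith [mul_nonneg (Nat.cast_nonneg (α := ℝ) n) (sq_nonneg (1 - χ))]

/-- the hypotheses of the glue: `kA` is the constant of the core of (M1) -/
structure Gl (o : Oo.Orb n k) (μ : Measure (Mat k)) (x f1 f2 : Vn n) (G : Mn n)
    (χ X κ η C g T0 τ kA Λ κ6 δ C1 C2 K0 : ℝ) : Prop where
  inv : SOInv μ
  hx : Hx o x f1 f2 χ X κ η C
  hw : Hw o x f1 f2 G χ κ η C g T0 τ
  k4 : 4 ≤ k
  psd : ∀ y, 0 ≤ y ⬝ᵥ A0 o *ᵥ y
  g1 : g ≤ 1
  gn : 1 ≤ g * n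
  kA1 : 1 ≤ kA
  core : ∀ v, pe o μ (fun s ω => (v ⬝ᵥ xp o s ω) ^ 2) ≤ kA * (v ⬝ᵥ G *ᵥ v)
  p0 : 0 < o.p ⬝ᵥ o.p
  pΛ : o.p ⬝ᵥ o.p ≤ Λ
  Λn : 4 * Λ ≤ n
  Ap : (A0 o *ᵥ o.p ⬝ᵥ A0 o *ᵥ o.p) * n ≤ Λ * (o.p ⬝ᵥ o.p)
  p6 : ∑ i, o.p i ^ 6 ≤ κ6 * (o.p ⬝ᵥ o.p) ^ 3
  p2 : (f2 ⬝ᵥ o.p) ^ 2 ≤ C * κ ^ 2 * (o.p ⬝ᵥ o.p)
  bad : pe o μ (fun s _ => tb o Λ s) ≤ δ
  δn : n ^ 2 * δ ≤ 1
  c1 : 1 ≤ C1
  hC1 : κ6 * Λ ^ 2 ≤ C1 * g
  c2 : 0 ≤ C2
  hC2 : τ ^ 2 * T0 * g ≤ C2 * n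
  hK : 10 ^ 11 * C1 * ((1 + C2) * C ^ 2 * kA) ≤ K0

/-- the numbers of `In` -/
def nmOf (n : ℕ) (C g kA Λ κ6 δ C2 : ℝ) : Nm :=
  ⟨Λ, κ6, δ, kA / g, 4 * C ^ 2 * kA, 24 * C * kA, 20000 * ((1 + C2) * C ^ 2 * kA) / (g * n)⟩

namespace Gl

variable {x f1 f2 : Vn n} {G : Mn n} {χ X κ η C g T0 τ kA Λ κ6 δ C1 C2 K0 : ℝ}
  (H : Gl o μ x f1 f2 G χ X κ η C g T0 τ kA Λ κ6 δ C1 C2 K0)
include H

theorem cv : Cv (MM o x f1 f2) g := (H.hw.cv H.hx.ok).1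
theorem G_eq : G = (MM o x f1 f2)⁻¹ := (H.hw.cv H.hx.ok).2

theorem G_le (v : Vn n) : v ⬝ᵥ G *ᵥ v ≤ (v ⬝ᵥ v) / g := by
  rw [le_div_iff₀ H.hw.g0, mul_comm, H.G_eq]; exact H.cv.G_le v


theorem coreA (v : Vn n) : o.an μ (fun s U => (v ⬝ᵥ xh o s U) ^ 2) ≤ kA * (v ⬝ᵥ G *ᵥ v) :=
  (an_polar H.inv H.hx.ok (F := fun _ ξ => (v ⬝ᵥ ξ) ^ 2) fun s => by fun_prop).le.trans (H.core v)

theorem Qf (v : Vn n) : Qm o *ᵥ v = (f1 ⬝ᵥ v) • f1 + (f2 ⬝ᵥ v) • f2 := by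
  rw [H.hx.hq, add_mulVec, Orb.vv_mulVec, Orb.vv_mulVec]

theorem Qf_sq (v : Vn n) : Qm o *ᵥ v ⬝ᵥ Qm o *ᵥ v = (f1 ⬝ᵥ v) ^ 2 + (f2 ⬝ᵥ v) ^ 2 := by
  rw [dot_Q, Q_Q H.hx.ok, H.Qf, add_dotProduct, smul_dotProduct, smul_dotProduct]; simp [sq]

theorem MM_E (w : Fin k → ℝ) : MM o x f1 f2 *ᵥ (o.E *ᵥ w) = A0 o *ᵥ (o.E *ᵥ w) := by
  have h1 := H.Qf_sq (o.E *ᵥ w)
  rw [Q_E H.hx.ok, dotProduct_zero] at h1
  have a1 : f1 ⬝ᵥ o.E *ᵥ w = 0 := by nlinarith [sq_nonneg (f1 ⬝ᵥ o.E *ᵥ w), sq_nonneg (f2 ⬝ᵥ o.E *ᵥ w)]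
  have a2 : f2 ⬝ᵥ o.E *ᵥ w = 0 := by nlinarith [sq_nonneg (f1 ⬝ᵥ o.E *ᵥ w), sq_nonneg (f2 ⬝ᵥ o.E *ᵥ w)]
  simp only [MM, Bp, add_mulVec, sub_mulVec, Orb.vv_mulVec, sub_dotProduct, smul_dotProduct, a1, a2,
    smul_zero, sub_zero, zero_smul, add_zero]

theorem AGA {r0 : ℝ} {e1 e2 : Vn n} (f : Fr o x χ r0 e1 e2) {v : Vn n} (hv : v ⬝ᵥ v = 1) :
    A0 o *ᵥ v ⬝ᵥ G *ᵥ (A0 o *ᵥ v) ≤ 12 * C := by
  have h1 := psd_cs (A0_symm H.hx.ok) H.psd v (G *ᵥ (A0 o *ᵥ v))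
  have h2 := (le_abs_self _).trans (quad_le (f.opA H.hx.ok) v)
  have h3 := H.cv.dual f2 (G *ᵥ (A0 o *ᵥ v))
  have h4 := MM_form (o := o) (x := x) (f1 := f1) (f2 := f2) (G *ᵥ (A0 o *ᵥ v))
  have h5 := H.cv.GG (A0 o *ᵥ v)
  have h6 := H.cv.nn' (A0 o *ᵥ v)
  rw [← H.G_eq] at h3 h5 h6
  rw [h5] at h3 h4
  rw [symm_dot (A0_symm H.hx.ok)] at h1
  rw [hv] at h2
  have h7 := mul_le_mul_of_nonneg_right H.hw.G2 h6
  have h8 := mul_le_mul h2 (show G *ᵥ (A0 o *ᵥ v) ⬝ᵥ A0 o *ᵥ (G *ᵥ (A0 o *ᵥ v)) ≤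
    2 * C * (A0 o *ᵥ v ⬝ᵥ G *ᵥ (A0 o *ᵥ v)) by
      nlinarith [sq_nonneg (bb x f1 f2 ⬝ᵥ G *ᵥ (A0 o *ᵥ v)), H.hx.C1]) (H.psd _) (by norm_num)
  rcases h6.eq_or_lt with e | e
  · linarith [H.hx.C1]
  · exact le_of_mul_le_mul_right (by nlinarith) e

theorem Y1 : 1 ≤ (1 + C2) * C ^ 2 * kA :=
  one_le_mul_of_one_le_of_one_le (one_le_mul_of_one_le_of_one_le (by linarith [H.c2])
    (one_le_pow₀ H.hx.C1)) H.kA1

theorem toIn {r0 : ℝ} {e1 e2 : Vn n} (f : Fr o x χ r0 e1 e2) :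
    In o μ x χ r0 e1 e2 (nmOf n C g kA Λ κ6 δ C2) := by
  have h := H.hx.ok
  have A := pfA H.inv h
  have g0 := H.hw.g0
  have C1 := H.hx.C1
  have k1 := H.kA1
  have pr := f.p_sq h
  have r0' : 0 < r0 ^ 2 := pr ▸ H.p0
  have m1 : o.an μ (fun s U => (e1 ⬝ᵥ xh o s U) ^ 2) ≤ kA / g :=
    (H.coreA e1).trans ((mul_le_mul_of_nonneg_left (H.G_le e1) (by linarith)).trans_eq (by
      rw [f.e11]; ring))
  have m2 : o.an μ (fun s U => (e2 ⬝ᵥ xh o s U) ^ 2) ≤ 4 * C ^ 2 * kA := by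
    have a1 := f.Qsq h f1
    have a2 := H.Qf_sq e1
    have a3 := H.Qf_sq e2
    rw [H.Qf_sq, H.hx.n1, dotProduct_comm f2, H.hx.o12, dotProduct_comm e1, dotProduct_comm e2] at a1
    rw [f.Q1 h, f.e11] at a2
    rw [f.Q2 h, f.e22] at a3
    have a4 : (f1 ⬝ᵥ e2) ^ 2 ≤ C * κ ^ 2 := by
      have := H.p2
      rw [pr, f.pe1, dotProduct_smul, smul_eq_mul, mul_pow, mul_comm] at this
      linarith [le_of_mul_le_mul_right this r0']
    have a5 := form_two (A := G) (fun y => H.G_eq ▸ H.cv.nn' y) f1 f2 (f1 ⬝ᵥ e2) (f2 ⬝ᵥ e2)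
    rw [← H.Qf, f.Q2 h] at a5
    have a6 := H.G_le f1
    have a7 : 0 ≤ f1 ⬝ᵥ G *ᵥ f1 := H.G_eq ▸ H.cv.nn' f1
    rw [H.hx.n1, le_div_iff₀ g0] at a6
    have a8 := mul_le_mul_of_nonneg_right (a4.trans (mul_le_mul_of_nonneg_left H.hw.kg (by linarith))) a7
    have a9 := mul_le_mul (show (f2 ⬝ᵥ e2) ^ 2 ≤ 1 by linarith [sq_nonneg (f1 ⬝ᵥ e2)]) H.hw.G2
      (H.G_eq ▸ H.cv.nn' f2) zero_le_one
    have a10 := mul_le_mul_of_nonneg_left a6 (mul_self_nonneg C)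
    refine (H.coreA e2).trans ((mul_le_mul_of_nonneg_left (b := _) (c := 4 * C ^ 2) ?_
      (by linarith)).trans_eq (mul_comm _ _))
    nlinarith
  refine ⟨H.inv, h, H.k4, f, H.Λn, pr ▸ H.pΛ, ?_, ?_, ?_, m1, m2, ?_, ?_⟩
  · have := H.Ap
    rw [pr, f.pe1, mulVec_smul, smul_dotProduct, dotProduct_smul, smul_eq_mul, smul_eq_mul] at this
    exact le_of_mul_le_mul_right (by simp only [nmOf]; linarith) r0'
  · have := H.p6
    have e : ∑ i, o.p i ^ 6 = (∑ i, e1 i ^ 6) * (r0 ^ 2) ^ 3 := by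
      rw [Finset.sum_mul]
      exact Finset.sum_congr rfl fun i _ => by rw [f.pe1, Pi.smul_apply, smul_eq_mul]; ring
    rw [pr, e] at this
    exact le_of_mul_le_mul_right this (by positivity)
  · exact (an_polar H.inv h (F := fun s _ => tb o Λ s) fun s => by fun_prop).le.trans H.bad
  · simp only [H.Qf_sq, symm_dot (A0_symm h), nmOf]
    rw [A.add (fun s => by fun_prop) fun s => by fun_prop]
    linarith [H.coreA (A0 o *ᵥ f1), H.coreA (A0 o *ᵥ f2),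
      mul_le_mul_of_nonneg_left (H.AGA f H.hx.n1) (by linarith : 0 ≤ kA),
      mul_le_mul_of_nonneg_left (H.AGA f H.hx.n2) (by linarith : 0 ≤ kA)]
  · have hB := cvB h H.cv.symm H.MM_E H.cv
    obtain ⟨t1, t2⟩ := tr_schur h H.cv.symm H.MM_E H.cv H.hx.dim
    rw [← H.G_eq] at t1 t2
    have n0 : (0 : ℝ) < n := by nlinarith [H.gn]
    have gi : 1 ≤ g⁻¹ := (one_le_inv₀ g0).2 H.g1
    have t3 : G.trace - (M4.Bm o)⁻¹.trace ≤ 2 * g⁻¹ := by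
      rw [← div_eq_mul_inv, le_div_iff₀ g0]; linarith
    have t4 : τ ^ 2 * T0 ≤ C2 * n * g⁻¹ := by rw [← div_eq_mul_inv, le_div_iff₀ g0]; exact H.hC2
    have t5 : g⁻¹ ≤ n := by rw [inv_le_iff_one_le_mul₀ g0]; linarith [H.gn]
    refine (mg_le H.inv h f H.hx.dim H.hx.chi (g := g⁻¹) (a := 6) (D := (2 * C2 + 8) * n * g⁻¹)
      (m := kA / g + 4 * C ^ 2 * kA) hB.symm' hB.inv hB.nn (fun v => ?_) (by norm_num) gi
      (fun z => (schur h (A0_symm h) (fun _ => rfl) H.psd hB z).trans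
        ((le_abs_self _).trans (quad_le (f.opA h) z))) ?_ H.Λn ?_).trans ?_
    · rw [← div_eq_inv_mul, le_div_iff₀ g0, mul_comm]; exact hB.G_le v
    · nlinarith [H.hw.tr, sq_nonneg (n * χ - G.trace - (G.trace - (M4.Bm o)⁻¹.trace)),
        mul_self_le_mul_self t1 t3, mul_le_mul_of_nonneg_right t5 (by linarith : 0 ≤ g⁻¹)]
    · simp only [f.Qsq h]
      rw [A.add (fun s => by fun_prop) fun s => by fun_prop]
      linarith
    · have b1 : 1 ≤ C ^ 2 * kA := one_le_mul_of_one_le_of_one_le (one_le_pow₀ C1) k1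
      have b2 : kA ≤ C ^ 2 * kA := le_mul_of_one_le_left (by linarith) (one_le_pow₀ C1)
      have b3 := mul_le_mul_of_nonneg_left b1 H.c2
      have b4 := mul_le_mul_of_nonneg_left H.g1 (by linarith : 0 ≤ C ^ 2 * kA)
      simp only [nmOf]
      rw [le_div_iff₀ (by positivity)]
      field_simp
      nlinarith [H.c2]

theorem K_le : (nmOf n C g kA Λ κ6 δ C2).K n ≤ K0 ∧
    (nmOf n C g kA Λ κ6 δ C2).T n ≤ 10 ^ 5 * ((1 + C2) * C ^ 2 * kA) / g := by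
  obtain ⟨r0, e1, e2, f⟩ := H.hx.fr
  have I := H.toIn f
  have g0 := H.hw.g0
  have Y1 := H.Y1
  have n4 := I.n4
  have b1 : 1 ≤ C ^ 2 := one_le_pow₀ H.hx.C1
  have k0 : 0 ≤ kA := by linarith [H.kA1]
  have b2 : C ^ 2 * kA ≤ (1 + C2) * C ^ 2 * kA := by
    nlinarith [mul_nonneg H.c2 (mul_nonneg (sq_nonneg C) k0)]
  have b3 : kA ≤ C ^ 2 * kA := le_mul_of_one_le_left k0 b1
  have b4 : C * kA ≤ C ^ 2 * kA := mul_le_mul_of_nonneg_right (by nlinarith [H.hx.C1]) k0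
  have b5 : n * δ ≤ 1 := by nlinarith [H.δn, I.nδ0]
  set Y := (1 + C2) * C ^ 2 * kA with hY
  have g1 : (nmOf n C g kA Λ κ6 δ C2).g1 ≤ 15100 * Y / g := by
    have a1 : Λ * (20000 * Y / (g * n)) ≤ 5000 * Y / g := by
      rw [← mul_div_assoc, div_le_div_iff₀ (by positivity) g0]
      nlinarith [mul_le_mul_of_nonneg_right H.Λn (by positivity : 0 ≤ Y * g)]
    have a2 : kA / g ≤ Y / g := div_le_div_of_nonneg_right (by linarith) g0.le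
    have a3 : Y ≤ Y / g := le_div_self (by linarith) g0 H.g1
    simp only [Nm.g1, nmOf, ← hY, mul_div_assoc] at *
    linarith
  have g2 : (nmOf n C g kA Λ κ6 δ C2).g2 ≤ 720 * Y := by simp only [Nm.g2, nmOf]; linarith
  have g3 : κ6 * Λ ^ 2 * (nmOf n C g kA Λ κ6 δ C2).g1 ≤ C1 * g * (15100 * Y / g) :=
    mul_le_mul H.hC1 g1 ((I.B.nonneg (fun s => by fun_prop) fun s _ _ =>
      mul_nonneg (tg0 _ s) (sq_nonneg _)).trans I.hg1) (by nlinarith [H.c1])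
  have a3 : Y ≤ Y / g := le_div_self (by linarith) g0 H.g1
  rw [show C1 * g * (15100 * Y / g) = 15100 * (C1 * Y) by field_simp] at g3
  have a4 : Y ≤ C1 * Y := le_mul_of_one_le_left (by linarith) H.c1
  have a5 := H.hK
  rw [Nm.K, Nm.T, mul_div_assoc]
  rw [mul_div_assoc] at g1
  exact ⟨by simp only [nmOf] at *; linarith, by simp only [nmOf] at *; linarith⟩

/-- **(M2)** -/
theorem M2 : ∑ i, EV (o.P μ) (fun U => o.A U *ᵥ o.d U) i ^ 2 ≤ 700 * K0 := by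
  obtain ⟨r0, e1, e2, f⟩ := H.hx.fr
  rw [← dot_self_eq_sq]
  linarith [(H.toIn f).M2, H.K_le.1]

/-- **(M3)**, operator form -/
theorem M3op (v : Vn n) :
    v ⬝ᵥ (EM (o.P μ) fun U => o.A U * sm2 (o.w U) sv o.p * o.A U - o.A U) *ᵥ v ≤
      500 * K0 * (v ⬝ᵥ v) := by
  obtain ⟨r0, e1, e2, f⟩ := H.hx.fr
  exact ((H.toIn f).M3op v).trans (mul_le_mul_of_nonneg_right (by linarith [H.K_le.1])
    (dot_self_nonneg v))

/-- **(M3)**, Frobenius form -/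
theorem M3F : fr (EM (o.P μ) fun U => o.A U * sm2 (o.w U) sv o.p * o.A U - o.A U) ≤
    10 ^ 5 * (∑ i, o.p i ^ 4 + 4 * K0 ^ 2 / g) := by
  obtain ⟨r0, e1, e2, f⟩ := H.hx.fr
  have I := H.toIn f
  obtain ⟨h1, h2⟩ := H.K_le
  have g0 := H.hw.g0
  have Y1 := H.Y1
  have K1 := I.K1
  have n4 := I.n4
  have a4 := le_mul_of_one_le_left (zero_le_one.trans Y1) H.c1
  have a5 := H.hK
  have h3 := I.M3F (V_le H.hx.chi)
  set Y := (1 + C2) * C ^ 2 * kA with hY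
  have a6 : n * (nmOf n C g kA Λ κ6 δ C2).mg = 20000 * Y / g := by simp only [nmOf, ← hY]; field_simp
  have a7 : K0 ^ 2 ≤ K0 ^ 2 / g := le_div_self (sq_nonneg _) g0 H.g1
  have a8 : 20000 * Y / g * (nmOf n C g kA Λ κ6 δ C2).K n ≤ K0 ^ 2 / g := by
    rw [div_mul_eq_mul_div, sq]
    exact div_le_div_of_nonneg_right (mul_le_mul (by linarith) h1 (by linarith) (by linarith)) g0.le
  have a9 : 10 ^ 5 * Y / g ≤ K0 ^ 2 / g := div_le_div_of_nonneg_right (by nlinarith) g0.le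
  have a10 := pow_le_pow_left₀ (by linarith) h1 2
  rw [a6] at h3
  have a11 : (nmOf n C g kA Λ κ6 δ C2).δ = δ := rfl
  rw [a11] at h3
  rw [mul_div_assoc]
  nlinarith [H.δn]

end Gl

end Crest.Agent.T157.Mj
end
end

-- ▼ part T157/OiBd_64
section

set_option autoImplicit false

/-!
Row 157, A2 (helper64): the tails of the bad event of `O4c.M1Core` in the words of the top.
-/

noncomputable section

namespace Crest.Agent.T157.Oi

open MeasureTheory Matrix Crest.Agent.Lib.OrthPoinc Filter Set Real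
open Crest.Agent.T157.E Crest.Agent.T157.Cond Crest.Agent.T157.Tap
open Crest.Agent.T157.Oc Crest.Agent.T157.Od Crest.Agent.T157.Oo Crest.Agent.T157.O0
open Crest.Agent.T157.Mj Crest.Agent.T157.Nm Crest.Agent.T157.O4T
open Crest.Agent.T157.O4c.W31 (Cv)
open Crest.Agent.T157.O4c.X12 (v2)
open Crest.Agent.T157.Dq (Dg)
open Crest.Agent.T157.Qe (zz)
open Crest.Agent.T157.Kb (f2)

namespace Bd64

variable {n k : ℕ}

lemma tr_inv {S : Mn k} {b : Vn k} (h : Dg S b) (hb : ∀ i, 0 < b i) : S⁻¹.trace = ∑ i, (b i)⁻¹ :=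
  Qe.dg_trace (Wb.dg_inv h fun i => (hb i).ne').1

/-- difference quotient for the compressed resolvent -/
lemma tr2_low {o : Oo.Orb n k} (h : o.Ok) (dim : k + 2 = n) {g δ : ℝ} (hc : Cv (A0 o) g) {b : Vn k}
    (dg : Dg (M4.Bm o) b) (hb : ∀ i, 0 < b i) (δ0 : 0 ≤ δ) :
    (A0 o)⁻¹.trace - 2 / g - ((o.z + δ) • (1 : Mn n) - o.W)⁻¹.trace ≤ δ * ∑ i, (b i)⁻¹ ^ 2 := by
  set o' : Oo.Orb n k := { o with z := o.z + δ } with ho'
  have h' : o'.Ok := ⟨h.iso, h.symm, h.ep, h.eh, h.two⟩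
  have e1 : A0 o' = A0 o + δ • (1 : Mn n) := by simp only [A0, ho', add_smul]; abel
  have c' : Cv (A0 o') g := ⟨A0_symm h', hc.g0, fun y => by
    rw [e1, add_mulVec, dotProduct_add, smul_mulVec, one_mulVec, dotProduct_smul, smul_eq_mul]
    linarith [hc.co y, mul_nonneg δ0 (dot_self_nonneg y)]⟩
  have e2 : M4.Bm o' = (1 : ℝ) • M4.Bm o + δ • (1 : Mn k) := by
    rw [M4.Bm, e1, Matrix.mul_add, Matrix.add_mul, Matrix.mul_smul, Matrix.smul_mul, Matrix.mul_one,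
      h'.iso, one_smul]
    rfl
  have t1 := (tr_schur h hc.symm (fun _ => rfl) hc dim).2
  have t2 := (tr_schur h' c'.symm (fun _ => rfl) c' dim).1
  rw [e2, tr_inv (Qe.dg_affine dg 1 δ) fun i => by linarith [hb i]] at t2
  rw [tr_inv dg hb, ← le_div_iff₀' hc.g0] at t1
  have t3 : ∑ i, (b i)⁻¹ - ∑ i, (1 * b i + δ)⁻¹ ≤ δ * ∑ i, (b i)⁻¹ ^ 2 := by
    rw [← Finset.sum_sub_distrib, Finset.mul_sum]
    refine Finset.sum_le_sum fun i _ => ?_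
    have := hb i
    rw [one_mul, inv_sub_inv this.ne' (by positivity), add_sub_cancel_left, inv_pow, ← div_eq_mul_inv]
    exact div_le_div_of_nonneg_left δ0 (by positivity) (by nlinarith)
  change _ - _ - (A0 o')⁻¹.trace ≤ _
  linarith

/-- the numbers -/
structure Nu (p : Pm) (t e h H q : ℝ) : Prop where
  ok : p.Ok
  t0 : 0 < t
  t1 : t ≤ 1
  e1 : e ≤ 1
  h0 : 0 < h
  T : 1000 ≤ p.T
  q1 : 100 * q ≤ 1
  h1 : 100 * h ^ 30 ≤ 1
  be : 16 * ((2 * p.T) ^ 2 * (2 * q)) ≤ 1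
  mb : 18 * (p.n * q ^ 3) ≤ (2 * p.T) ^ 2 * q * (p.n * q)
  big : (256 : ℝ) ≤ p.n
  bm : 2 * (100 * p.T ^ 2 / √(p.n / q)) ≤ q ^ 2 / 2
  D : √(p.T * H) / q ^ 2 + 4 / q ^ 2 + 16 * √(p.n * q) + 32 ≤ p.T ^ 2 * √(p.n / q)
  J : 48 * (p.n : ℝ) ≤ 100 * p.T ^ 2 / √(p.n / q) * p.n ^ 2
  v : 4 * (h + (p.T ^ 5)⁻¹) ≤ 1
  sm : 192 * (h + (p.T ^ 5)⁻¹) * (2 * p.T) ^ 4 * (18 * (p.n * q ^ 3)) ≤ q ^ 2 / 2 * (p.n * q)
  y : 8 * p.n * ((p.T ^ 5)⁻¹ * q ^ 2 / 100) ≤ h ^ 2 * q * p.n / 16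
  y' : 16 ≤ h ^ 2 * q * p.n
  w1 : 8 * e ^ p.A * t ≤ q ^ 2
  w2 : 10 ^ 4 * ((e ^ p.A) ^ 2 * (8 * q ^ 2)) ≤ q ^ 2
  w3 : 10 ^ 4 * ((e ^ p.A) ^ 2 * t) ≤ q ^ 2
  w4 : 100 ≤ p.n * q ^ 3
  P1 : h ^ 4 * p.n * q ^ 3 / p.T ^ 8 ≤ (p.T ^ 5)⁻¹ * (q ^ 2 / 2) * (h ^ 4 * (p.n * q)) / 2
  P2 : 48 * (1 + p.T ^ 2) ^ 2 * (h ^ 4 * p.n * q ^ 3 / p.T ^ 8) ≤
    (p.T ^ 5)⁻¹ * ((h ^ 2 * (p.T * q)) ^ 2 * (p.n * q))
  P3 : 18 * (h ^ 4 * p.n * q ^ 3 / p.T ^ 8) ≤ (p.T ^ 5)⁻¹ * (q ^ 2 / 2) ^ 2 * (1 / 100 * p.n / q)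
  P4 : 2 * (h ^ 4 * p.n * q ^ 3 / p.T ^ 8) ≤ (p.T ^ 5)⁻¹ * q ^ 2 / 100 * (h ^ 2 * q * p.n / 16)
  f1 : 10 * log p.n + 1 ≤ 5 * H
  f2 : 16 * 10 ^ 8 * ((p.n : ℝ) ^ 2 + 1) ≤ p.n ^ 3
  f3 : 6 * (2 * p.T) * (2304 * (2 * p.T) ^ 8 * (h ^ 30 + q) * (p.n * q ^ 3)) +
    2700 * p.n * ((2 * p.T) ^ 2 * (2 * q)) ^ 4 +
    12 * ((2 * p.T) ^ 2 * (2 * q)) * ((2 * (2 * p.T)) ^ 6 * (18 * (p.n * q ^ 3))) +
    (50 * p.T ^ 4 + 1 + 101 + 18 * log p.n) ≤ h ^ 4 * p.n * q ^ 3 / p.T ^ 8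

set_option maxHeartbeats 4000000 in
lemma nu : ∀ᶠ p in FF, ∀ t e h H q : ℝ, p.lo ≤ t → t ≤ p.t0 → p.Er e t → e ^ 2 ≤ h → h ≤ e →
    (p.n : ℝ) ^ p.d ≤ H → H ≤ p.L * p.M t → 0 ≤ q → t ≤ p.T * q ^ 2 → q ^ 2 ≤ (p.L / 50) ^ 2 * t →
    Nu p t e h H q := by
  filter_upwards [cz_tab 0] with p ⟨o, _, Z⟩ t e h H q lo hi er h0 h1 H0 H1 q0 q1 q2
  obtain ⟨H', a, y, r, θ, cT, lh, L, A, Z⟩ := Z t e h H q lo hi er h0 h1 H0 H1 q0 q1 q2
  refine ⟨o.ok, A.et.pos, hi.trans (o.ok.t0.2.trans (by norm_num)), lh.e1, Z.eh.pos, ?_, ?_, ?_, ?_,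
    ?_, ?_, ?_, ?_, ?_, ?_, ?_, ?_, ?_, ?_, ?_, ?_, ?_, ?_, ?_, ?_, ?_, ?_, ?_, ?_⟩ <;>
  nm_cz L, A, Z <;> num

variable {p : Pm} {t e h H : ℝ} {o : Oo.Orb p.n k} {x : Vn p.n}

/-- the trace of the square of the compressed resolvent -/
lemma tr2 {g : ℝ} (N : Nu p t e h H (aS x)) (e0 : 0 < e) (q0 : 0 < aS x) (ho : o.Ok)
    (dim : k + 2 = p.n) (hz : o.z = zz (1 - aS x)) (hW : o.W ∈ p.Wt e t) (hc : Cv (A0 o) g)
    (hg : aS x ^ 2 / 2 ≤ g) {b : Vn k} (dg : Dg (M4.Bm o) b) (hb : ∀ i, 0 < b i) :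
    16 * T0 x ≤ ∑ i, (b i)⁻¹ ^ 2 := by
  have q1 := N.q1
  have w1 := N.w1
  have w2 := N.w2
  have w3 := N.w3
  have w4 := N.w4
  set q := aS x with hq
  have eA : 0 ≤ e ^ p.A := by positivity
  have er : ∀ s, s ≤ 8 * q ^ 2 → Wb.er1 p.n (min t p.t2) (e ^ p.A) p.k3 s ≤ 1 / 100 * p.n * q :=
    fun s hs => Wb.er1_le eA (by norm_num) q0.le
      (by nlinarith [mul_le_mul_of_nonneg_left hs (sq_nonneg (e ^ p.A))])
      (by nlinarith [mul_le_mul_of_nonneg_left (min_le_left t p.t2) (sq_nonneg (e ^ p.A))])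
  have r1 := (Wb.Wt_res N.ok e0 N.e1 N.t0 hW (g := 1 - q) ⟨by linarith, by linarith⟩
    (by nlinarith)).2.2.2.1.trans (er _ ((Wb.zz_le_sq two_pos (by linarith)).trans (by nlinarith)))
  have r2 := (Wb.Wt_res N.ok e0 N.e1 N.t0 hW (g := 1 - 2 * q) ⟨by linarith, by linarith⟩
    (by nlinarith)).2.2.2.1.trans (er _ ((Wb.zz_le_sq two_pos (by linarith)).trans (by nlinarith)))
  have d0 : 0 ≤ zz (1 - 2 * q) - zz (1 - q) :=
    sub_nonneg.2 (Wb.zz_anti (by linarith) (by linarith) (by linarith))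
  have d1 : zz (1 - 2 * q) - zz (1 - q) ≤ 4 * q ^ 2 := by
    rw [Wb.zz_diff (by linarith) (by linarith), div_le_iff₀ (mul_pos (by linarith) (by linarith))]
    nlinarith [mul_nonneg (sq_nonneg q) (show 0 ≤ 1 - 10 * q by linarith), pow_pos q0 4]
  have h1 := tr2_low ho dim hc dg hb d0
  rw [hz, add_sub_cancel, A0, hz] at h1
  have h2 : 2 / g ≤ 4 / q ^ 2 := by
    rw [div_le_div_iff₀ hc.g0 (by positivity)]; linarith
  have h3 : 4 / q ^ 2 ≤ 4 / 100 * p.n * q := by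
    rw [div_le_iff₀ (by positivity)]; linarith
  have h4 := mul_le_mul_of_nonneg_right d1
    (Finset.sum_nonneg (s := Finset.univ) fun i _ => sq_nonneg (b i)⁻¹)
  have a1 := (abs_le.1 r1).1
  have a2 := (abs_le.1 r2).2
  simp only [Oa.Az] at a1 a2
  have n0 : (0 : ℝ) ≤ p.n * q := by positivity
  rw [T0, ← hq, mul_div_assoc', div_le_iff₀ q0]
  refine le_of_mul_le_mul_left ?_ (show 0 < 4 * q by positivity)
  nlinarith

end Bd64

set_option maxHeartbeats 2000000 in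
open Bd64 in
theorem bdL : BdL := by
  filter_upwards [nu] with p nu t e h H k o μ _ x c xd wd
  have q0 := c.nx.mo.q0
  have N := nu t e h H (aS x) c.lo c.hi c.er c.h0 c.h1 c.H0 c.H1 q0.le c.nx.q1 c.nx.q2
  have hx := xd.hx
  have ho := hx.ok
  obtain ⟨e2, fr, -⟩ := xd.fr
  have T1 := N.T
  have q1 := N.q1
  have nb := N.big
  have n0 : 0 < p.n := by exact_mod_cast (show (0 : ℝ) < p.n by linarith)
  obtain ⟨v1, v2', -⟩ := c.nx.mo.sizes (by linarith [N.h1]) (by linarith)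
  have γ0 : 0 ≤ v2 x := by linarith
  have g2 := wd.g2
  have cA := wd.ha.cvA
  have g0 := cA.g0
  have hz : o.z = zz (1 - aS x) := by rw [fr.hz, zz, one_div]
  have zs : zz (1 - aS x) - 2 = aS x ^ 2 / (1 - aS x) := by
    rw [Wb.zz_sub (by linarith), sub_sub_cancel]
  have z1 : aS x ^ 2 ≤ zz (1 - aS x) - 2 := by simpa using Wb.sq_le_zz (g := 1 - aS x) (by linarith) (by linarith)
  have z2 := Wb.zz_le_sq (g := 1 - aS x) two_pos (by linarith)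
  have op : Op2 (A0 o) 36 := (Wb.Wt_op2 N.ok c.er.1 N.e1 N.t0 N.t1 c.W).2 o.z
    (by rw [hz]; constructor <;> nlinarith)
  have cB := cvB ho cA.symm (fun _ => rfl) cA
  have hB : (M4.Bm o).IsHermitian := by
    rw [IsHermitian, conjTranspose_eq_transpose_of_trivial]; exact cB.symm
  have dg := Dq.dg_herm hB
  set b := hB.eigenvalues
  have gb : ∀ i, gq p.T h x ≤ b i := Qe.ge_dg dg fun y => by
    rw [smul_mulVec, one_mulVec, dotProduct_smul]; exact cB.co y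
  have b0 : ∀ i, 0 < b i := fun i => cA.g0.trans_le (gb i)
  have hT := tr2 N c.er.1 q0 ho hx.dim hz c.W cA g2 dg b0
  have pp : o.p ⬝ᵥ o.p = p.n * aS x := by linarith [hx.chi]
  have XX : len x ^ 2 = p.n * v2 x := by rw [len_sq, O4c.X12.xx_eq n0]
  have nq : (p.n : ℝ) * aS x ≤ p.n * v2 x := mul_le_mul_of_nonneg_left v1 (by linarith)
  set w := √(p.n / aS x) with hw
  have w0 : 0 < w := sqrt_pos.2 (by positivity)
  have w2 : w ^ 2 = p.n / aS x := sq_sqrt (by positivity)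
  have mD : 100 * p.T ^ 2 / w * (p.T ^ 2 * w) = 100 * p.T ^ 4 := by field_simp
  have T4 : 1 ≤ p.T ^ 4 := one_le_pow₀ (by linarith)
  have g1 : gq p.T h x ≤ aS x ^ 2 := mul_le_of_le_one_left (sq_nonneg _)
    (by nlinarith [mul_pos (show 0 < p.T by linarith) N.h0])
  have tl : Tl o x (unitv x) (f2 x) b (len x) (1 - aS x) (v2 x) (2 * p.T)
      (2304 * (2 * p.T) ^ 8 * (h ^ 30 + aS x) * (p.n * aS x ^ 3)) (18 * (p.n * aS x ^ 3))
      (100 * p.T ^ 2 / w) (p.T ^ 2 * w) (p.n ^ 2) := by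
    refine ⟨ho, hx.dim, fr.hp, fr.hh, fr.hz, hx.chi, hx.hq, hx.n1, hx.n2, hx.o12, hx.hx, hx.X0,
      c.nx.mo.xh n0 (by linarith [N.h1]) (by linarith) (by linarith), by linarith, ?_,
      N.mb.trans (by gcongr), by exact_mod_cast nb, op, dg, by positivity,
      fun i => N.bm.trans (g2.trans (gb i)), le_trans ?_ N.D, ?_, by exact_mod_cast N.J⟩
    · linarith [N.be, mul_le_mul_of_nonneg_left (show v2 x ≤ 2 * aS x by linarith)
        (sq_nonneg (2 * p.T))]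
    · obtain ⟨t1, t2⟩ := tr_schur ho cA.symm (fun _ => rfl) cA hx.dim
      rw [tr_inv dg b0] at t1 t2
      have t3 := c.nw.tr
      rw [Kb.TR, ← hz, ← mul_pow] at t3
      have t4 := abs_le_sqrt t3
      rw [abs_mul, abs_of_nonneg (show 0 ≤ o.z - 2 by nlinarith)] at t4
      have t5 : |(A0 o)⁻¹.trace - p.n * (1 - aS x)| ≤ √(p.T * H) / aS x ^ 2 := by
        rw [le_div_iff₀ (by positivity)]
        exact (mul_le_mul_of_nonneg_left (hz ▸ z1) (abs_nonneg _)).trans t4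
      have t6 : (A0 o)⁻¹.trace - ∑ i, (b i)⁻¹ ≤ 4 / aS x ^ 2 := by
        rw [le_div_iff₀ (by positivity)]; nlinarith
      rw [pp]
      have := abs_le.1 t5
      have : |p.n * (1 - aS x) - ∑ i, (b i)⁻¹| ≤ √(p.T * H) / aS x ^ 2 + 4 / aS x ^ 2 :=
        abs_le.2 ⟨by linarith, by linarith⟩
      linarith
    · have : (100 * p.T ^ 2 / w) ^ 2 * (16 * T0 x) = 1600 * p.T ^ 4 := by
        rw [div_pow, w2, T0]; field_simp; norm_num
      rw [mul_assoc, mD]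
      linarith [mul_le_mul_of_nonneg_left hT (sq_nonneg (100 * p.T ^ 2 / w))]
  have ν0 : 0 < (p.T ^ 5)⁻¹ := by positivity
  have h0 := N.h0
  have hδ : pe o μ (fun s _ => if Z2 o s ≤ (2 * p.T) ^ 2 * (p.n * v2 x) then 0 else 1) ≤
      exp (-(5 * H)) := by
    refine le_trans (pe_mono c.inv ho (fun _ => continuous_const) (fun _ => continuous_const)
      fun s _ _ => ?_) ((an_polar c.inv ho (F := fun s _ =>
        if 2 * p.T ^ 2 * p.n * aS x < zq x s then 1 else 0) fun _ => continuous_const).ge.trans c.zs)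
    have : Z2 o s = zq x s := tl.QQ _
    split_ifs with h1 h2 h2 <;> try norm_num
    nlinarith [mul_le_mul_of_nonneg_left nq (sq_nonneg p.T), mul_nonneg (sq_nonneg p.T)
      (mul_nonneg (Nat.cast_nonneg p.n) q0.le)]
  obtain ⟨Bd, c1, c2, c3, c4⟩ := tl.bd wd.ha c.inv (ν := (p.T ^ 5)⁻¹) (C := p.T ^ 2) (a11 := 6)
    (θ := (p.T ^ 5)⁻¹ * aS x ^ 2 / 100) (y := h ^ 2 * aS x * p.n / 16) (η := h ^ 2)
    (κ := p.T * aS x) (T0 := T0 x) (P := h ^ 4 * p.n * aS x ^ 3 / p.T ^ 8) ν0 (by linarith [N.v])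
    (N.sm.trans (mul_le_mul g2 nq (by positivity) cA.g0.le)) (by
      have : 2 * O4c.Dq x (unitv x) (f2 x) ^ 2 / gq p.T h x ≤ 4 * p.T := by
        rw [div_le_iff₀ cA.g0]; nlinarith [xd.dq]
      nlinarith) (by simpa only [hx.n1, mul_one] using form_le op (unitv x)) (by positivity) (by
      have : aS x ^ 2 / 100 * (19 * gq p.T h x + 2 * 6) ≤ gq p.T h x := by
        have : gq p.T h x ≤ 1 := g1.trans (pow_le_one₀ q0.le (by linarith))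
        linarith [mul_le_mul_of_nonneg_left this (sq_nonneg (aS x))]
      linarith [mul_le_mul_of_nonneg_left this ν0.le]) N.y (by
      linarith [mul_le_mul_of_nonneg_left N.y' (show 0 ≤ p.T / 2 by linarith)]) (by positivity)
    (by positivity) (by unfold T0; positivity) hT (N.P1.trans (by
      rw [mul_pow, XX, ← pow_mul]; gcongr)) (N.P2.trans (by
      rw [mul_pow _ (len x), XX]; gcongr)) (N.P3.trans (by unfold T0; gcongr)) N.P4 hδ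
  refine ⟨Bd, c1, c2, c3, c4.trans ?_⟩
  have en : ∀ j : ℕ, exp (-(j * log p.n)) = ((p.n : ℝ) ^ j)⁻¹ := fun j => by
    rw [Real.exp_neg, Real.exp_nat_mul, exp_log (by linarith)]
  have s1 : exp (-(5 * H)) ≤ ((p.n : ℝ) ^ 10)⁻¹ / 2 := by
    have h1 : exp (-(5 * H)) ≤ exp (-((10 : ℕ) * log p.n)) * exp (-1) := by
      rw [← exp_add, exp_le_exp]; push_cast; linarith [N.f1]
    have h2 : exp (-1) ≤ 1 / 2 := by
      rw [Real.exp_neg, inv_le_comm₀ (exp_pos 1) (by norm_num)]; linarith [add_one_le_exp (1 : ℝ)]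
    rw [en] at h1
    linarith [mul_le_mul_of_nonneg_left h2 (show 0 ≤ ((p.n : ℝ) ^ 10)⁻¹ by positivity)]
  have s2 : exp (Et p.n (v2 x) (2 * p.T) (2304 * (2 * p.T) ^ 8 * (h ^ 30 + aS x) * (p.n * aS x ^ 3))
      (18 * (p.n * aS x ^ 3)) + 100 * p.T ^ 2 / w * (p.T ^ 2 * w + 2) / 2 + 101) *
      exp (-(h ^ 4 * p.n * aS x ^ 3 / p.T ^ 8)) ≤ ((p.n : ℝ) ^ 18)⁻¹ := by
    rw [← exp_add, ← en, exp_le_exp, mul_add (_ / w), mD, Et]
    have γ2 : v2 x ≤ 2 * aS x := by linarith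
    have a1 : 2700 * p.n * ((2 * p.T) ^ 2 * v2 x) ^ 4 ≤
      2700 * p.n * ((2 * p.T) ^ 2 * (2 * aS x)) ^ 4 := by gcongr
    have a2 : 12 * ((2 * p.T) ^ 2 * v2 x) * ((2 * (2 * p.T)) ^ 6 * (18 * (p.n * aS x ^ 3))) ≤
      12 * ((2 * p.T) ^ 2 * (2 * aS x)) * ((2 * (2 * p.T)) ^ 6 * (18 * (p.n * aS x ^ 3))) := by
      gcongr
    push_cast
    linarith [N.f3, N.bm, pow_le_one₀ (n := 2) q0.le (show aS x ≤ 1 by linarith)]
  rw [Pf, mul_assoc]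
  have s3 := mul_le_mul_of_nonneg_left s2
    (show 0 ≤ 10 ^ 8 * (p.n : ℝ) ^ 5 * ((p.n ^ 2 : ℕ) + 1) by positivity)
  have s4 : 10 ^ 8 * (p.n : ℝ) ^ 5 * ((p.n ^ 2 : ℕ) + 1) * ((p.n : ℝ) ^ 18)⁻¹ ≤
      ((p.n : ℝ) ^ 10)⁻¹ / 16 := by
    push_cast
    rw [← div_eq_mul_inv, inv_eq_one_div, div_div, div_le_div_iff₀ (by positivity) (by positivity)]
    linarith [mul_le_mul_of_nonneg_left N.f2 (show 0 ≤ (p.n : ℝ) ^ 15 by positivity)]
  linarith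

end Crest.Agent.T157.Oi
end
end

-- ▼ part T157/OiFm_61
section

set_option autoImplicit false
set_option linter.unusedSectionVars false

/-!
Row 157, A2 (helper19's text, compiled by helper61): `Oi.fmGlue`.
-/

noncomputable section

namespace Crest.Agent.T157.Oi

open MeasureTheory Matrix Crest.Agent.Lib.OrthPoinc Filter Set
open Crest.Agent.T157.E Crest.Agent.T157.Cond Crest.Agent.T157.Tap
open Crest.Agent.T157.Oc Crest.Agent.T157.Od Crest.Agent.T157.Oo Crest.Agent.T157.O0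
open Crest.Agent.T157.Kb (f2 ee HA TR)
open Crest.Agent.T157.Kp (At anE)

variable {n k : ℕ}

theorem Fm61.M_pos {p : Pm} {t : ℝ} (n0 : 0 < p.n) (ht : p.lo ≤ t) : 0 < t ∧ 0 < p.M t := by
  have : 0 < p.lo := by unfold Pm.lo; positivity
  have t0 : 0 < t := by linarith
  exact ⟨t0, by unfold Pm.M; positivity⟩

theorem fmGlue : FmGlue := by
  rintro ⟨K, hK⟩ hX hW hB
  filter_upwards [hX, hW, hB, ev_ok,
    ev_T (Q := fun q y => K ≤ y ∧ q.L ≤ y ∧ 2 ≤ y) fun q =>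
      (ev_ge K).and ((ev_ge q.L).and (ev_ge 2)),
    ev_A (Q := fun _ y => 3 ≤ y) fun _ => eventually_ge_atTop 3,
    ev_e1 fun q => ev_sm (1 / (10 ^ 4 * q.T ^ 17)),
    ev_n (Q := fun p => 10 ^ 4 * p.T ^ 9 ≤ (p.n : ℝ)) fun q =>
      tendsto_natCast_atTop_atTop.eventually (ev_ge (10 ^ 4 * q.T ^ 9))]
    with p hX hW hB ok hT hA he hn t e h H k o μ _ x c
  obtain ⟨TK, TL, T2⟩ : K ≤ p.T ∧ p.L ≤ p.T ∧ 2 ≤ p.T := hT
  have hA : 3 ≤ p.A := hA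
  have T1 : 1 ≤ p.T := by linarith
  have he : p.e1 ≤ 1 / (10 ^ 4 * p.T ^ 17) := he.2 (by change 0 < 1 / (10 ^ 4 * p.T ^ 17); positivity)
  have xd := hX t e h H k o μ x c
  have wd := hW t e h H k o μ x c xd
  obtain ⟨Bd, b1, b2, b3, b4⟩ := hB t e h H k o μ x c xd wd
  obtain ⟨e0, e1, -, en⟩ := c.er
  have T9 : 1 ≤ p.T ^ 9 := one_le_pow₀ T1
  have T17 : 1 ≤ p.T ^ 17 := one_le_pow₀ T1
  have N1 : (1 : ℝ) ≤ p.n := by linarith
  have n0 : 0 < p.n := by exact_mod_cast (by linarith : (0 : ℝ) < p.n)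
  obtain ⟨t0, M0⟩ := Fm61.M_pos n0 c.lo
  have H0 : 0 < H := lt_of_lt_of_le (by positivity) c.H0
  have hp : 0 < h := lt_of_lt_of_le (by positivity) c.h0
  have eT : 10 ^ 4 * p.T ^ 17 * e ≤ 1 := by
    have := e1.trans he
    rwa [le_div_iff₀ (by positivity), mul_comm] at this
  have e1' : e ≤ 1 := by nlinarith
  have ne : 1 ≤ p.n * e := by
    have a1 : (1 : ℝ) ≤ p.A := by exact_mod_cast ok.A
    have a2 : p.cv ≤ 1 := by
      nlinarith [ok.cv', ok.cv, ok.k3.2, ok.k2.2, ok.k4.2, ok.d.2, ok.ch.2]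
    have a3 : (p.n : ℝ) ^ (-1 : ℝ) ≤ e :=
      (Real.rpow_le_rpow_of_exponent_le N1 (by linarith)).trans en
    rw [Real.rpow_neg_one, inv_le_iff_one_le_mul₀' (by linarith)] at a3
    exact a3
  have G0 : ∀ v, 0 ≤ v ⬝ᵥ Gq o x *ᵥ v := wd.ha.cvM.nn'
  have key : ∀ ε a : ℝ, e / 100 ≤ ε → ε ≤ 1 → p.T ^ 17 * h ^ 2 ≤ ε ^ 2 →
      1 + ε + p.T ^ 9 * (H / p.M t) / ε ≤ a → Fm o μ x a := fun ε a l1 l2 l3 l4 v => by
    have ε0 : 0 < ε := by linarith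
    refine (hK _ _ o μ x _ _ _ _ _ _ _ _ _ _ _ ε _ Bd c.inv xd.hx wd.hw ε0 l2 ?_ ?_ b1 b2 b3 b4
      v).trans (mul_le_mul_of_nonneg_right (le_trans ?_ l4) (G0 v))
    · refine le_trans ?_ l3
      calc K * (p.T ^ 4) ^ 4 * h ^ 2 ≤ p.T * (p.T ^ 4) ^ 4 * h ^ 2 := by gcongr
        _ = _ := by ring
    · have a1 : 1 ≤ (p.n * e) ^ 2 := one_le_pow₀ ne
      have a2 : (p.n : ℝ) ^ 3 ≤ p.n ^ 7 := pow_le_pow_right₀ N1 (by norm_num)
      have a3 : (p.n : ℝ) ≤ p.n ^ 1 := by simp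
      calc K * (p.T ^ 4) ^ 2 * p.n ^ 3 * ((p.n : ℝ) ^ 10)⁻¹
          ≤ p.T * (p.T ^ 4) ^ 2 * p.n ^ 3 * ((p.n : ℝ) ^ 10)⁻¹ := by gcongr
        _ = 10 ^ 4 * p.T ^ 9 / (10 ^ 4 * p.n ^ 7) := by field_simp
        _ ≤ p.n * (p.n * e) ^ 2 / (10 ^ 4 * p.n ^ 3) := by
            exact div_le_div₀ (by positivity) (hn.trans (le_mul_of_one_le_right (by linarith) a1))
              (by positivity) (by gcongr)
        _ = (e / 100) ^ 2 := by field_simp; norm_num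
        _ ≤ ε ^ 2 := by gcongr
    · rw [Real.sq_sqrt (by positivity)]
      have : K * p.T ^ 4 * (p.T ^ 4 * H / p.M t) ≤ p.T ^ 9 * (H / p.M t) := by
        calc _ ≤ p.T * p.T ^ 4 * (p.T ^ 4 * H / p.M t) := by gcongr
          _ = _ := by ring
      gcongr
  refine ⟨key 1 _ (by linarith) le_rfl ?_ ?_, fun l1 l2 => key (e / 100) _ le_rfl (by linarith) ?_ ?_⟩
  · have a1 : h ^ 2 ≤ e := by nlinarith [c.h1]
    nlinarith [mul_le_mul_of_nonneg_left a1 (by positivity : 0 ≤ p.T ^ 17)]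
  · have a1 : H / p.M t ≤ p.T := by
      rw [div_le_iff₀ M0]; exact c.H1.trans (by gcongr)
    have a2 : p.T ^ 9 * (H / p.M t) ≤ p.T ^ 10 := by
      calc _ ≤ p.T ^ 9 * p.T := by gcongr
        _ = _ := by ring
    have a3 : 2 ≤ p.T ^ 10 := T2.trans (le_self_pow₀ T1 (by norm_num))
    nlinarith [mul_le_mul_of_nonneg_right T2 (by positivity : 0 ≤ p.T ^ 10)]
  · have a1 : h ^ 2 ≤ (e ^ 2) ^ 2 := by gcongr
    have a2 : 10 ^ 4 * p.T ^ 17 * e * e ≤ 1 := mul_le_one₀ eT e0.le e1'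
    nlinarith [mul_le_mul_of_nonneg_left a1 (by positivity : 0 ≤ p.T ^ 17),
      mul_le_mul_of_nonneg_right a2 (sq_nonneg e)]
  · have a1 : H / p.M t ≤ e ^ 3 := by
      rw [div_le_iff₀ M0]
      exact l2.trans (mul_le_mul_of_nonneg_right (pow_le_pow_of_le_one e0.le e1' hA) M0.le)
    have a2 : p.T ^ 9 ≤ p.T ^ 17 := pow_le_pow_right₀ T1 (by norm_num)
    have a3 : p.T ^ 9 * (H / p.M t) ≤ p.T ^ 17 * e ^ 3 := by gcongr
    have a4 : p.T ^ 9 * (H / p.M t) / (e / 100) ≤ e / 100 := by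
      rw [div_le_iff₀ (by positivity)]
      nlinarith [mul_le_mul_of_nonneg_right eT (sq_nonneg e)]
    linarith

end Crest.Agent.T157.Oi

end
end

-- ▼ part T157/NumS_27
section

set_option autoImplicit false

/-!
Row 157, A2 (helper27): the table of scales of `O0.Pm` for the tactic `num`.
`l = log n`, `s = -log t`, `f = -log ef`; `u, v, w` bound the constants chosen before `t0`, before
`ef`, before `n`.
-/

noncomputable section

namespace Crest.Agent.T157.Nm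

open Filter Topology Set Real
open Crest.Agent.T157.O0

/-- linear facts about the exponents (no reference to `Ub`) -/
structure Lin (p : Pm) (l s f u v w : ℝ) : Prop where
  u1 : 10 ^ 6 ≤ u
  uv : u ≤ v
  vw : v ≤ w
  us : 10 ^ 6 * u ≤ p.e1 * s
  vf : 10 ^ 6 * v ≤ p.e1 * f
  wl : 10 ^ 6 * w ≤ p.e1 * l
  fw : f ≤ w
  sl : s ≤ 2 / 3 * l - p.d * l
  l1 : p.e1 * l ≤ p.k3 * l / 100
  l2 : p.k3 * l ≤ p.k2 * l / 100
  l3 : p.k2 * l ≤ p.k4 * l / 100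
  l4 : p.k4 * l ≤ p.d * l / 100
  l5 : p.d * l ≤ p.ch * l / 100
  l6 : p.ch * l ≤ l / 1000
  s1 : p.e1 * s ≤ p.k3 * s / 100
  s2 : p.k3 * s ≤ p.k2 * s / 100
  s3 : p.k2 * s ≤ p.k4 * s / 100
  s4 : p.k4 * s ≤ p.d * s / 100
  s5 : p.d * s ≤ p.ch * s / 100
  s6 : p.ch * s ≤ s / 1000
  m1 : p.e1 * s ≤ p.e1 * l
  m2 : p.k3 * s ≤ p.k3 * l
  m3 : p.k2 * s ≤ p.k2 * l
  m4 : p.k4 * s ≤ p.k4 * l
  m5 : p.d * s ≤ p.d * l
  m6 : p.ch * s ≤ p.ch * l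
  f1 : p.e1 * f ≤ p.k3 * f / 100
  f2 : p.k3 * f ≤ f / 1000

/-- the atoms -/
structure At (p : Pm) (t l s f u v w : ℝ) : Prop where
  en : Eb (p.n : ℝ) l
  et : Eb t (-s)
  ef : Eb p.ef (-f)
  uL : Ub p.L u
  uT : Ub p.T u
  uC : Ub p.C u
  uK : Ub p.K u
  uA : Ub (p.A : ℝ) u
  uLp : Ub p.Lp u
  uB : Ub p.B u
  uK0 : Ub p.K0 v
  uB0 : Ub p.B0 v
  uB2 : Ub p.B2 w
  uCn : Ub p.Cn w
  lL : Lb p.L 0
  lT : Lb p.T 0
  lC : Lb p.C 0
  lK : Lb p.K 0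
  lA : Lb (p.A : ℝ) 0
  lLp : Lb p.Lp 0
  lB : Lb p.B 0
  lK0 : Lb p.K0 0
  lB0 : Lb p.B0 0
  lB2 : Lb p.B2 0
  lCn : Lb p.Cn 0
  ue1 : Ub p.e1 0
  le1 : Lb p.e1 (-u)
  le1A : Lb (p.e1 ^ p.A) (-u)
  uk3 : Ub p.k3 0
  lk3 : Lb p.k3 (-u)
  ucv : Ub p.cv 0
  lcv : Lb p.cv (-u)
  ueta : Ub p.eta 0
  leta : Lb p.eta (-u)
  ut0 : Ub p.t0 0
  lt0 : Lb p.t0 (-v)
  ulog : Ub (Real.log p.n) (p.e1 * l)
  llog : Lb (Real.log p.n) 0
  uls : Ub (-Real.log t) (p.e1 * s)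
  ts : Eb p.ts (p.k4 * l - l / 2)
  tss : Eb p.tss (-(p.ch * l))
  lo : Eb p.lo (p.d * l - 2 / 3 * l)
  M : Eb (p.M t) (l - 3 / 2 * s)
  ut2 : Ub p.t2 (-(2 / 3 * f))
  lt2 : Lb p.t2 (-(2 / 3 * f) - u)

/-- the constants chosen before `t0` -/
def cU (p : Pm) : ℝ := 10 ^ 6 + p.L + p.T + p.C + 4 * p.K + p.A + p.Lp + p.B + 1 / p.e1 +
  1 / p.e1 ^ p.A + 1 / p.cv + 4 / p.e1 ^ 2

theorem ev_neg_log (a c : ℝ) : ∀ᶠ x in 𝓝[>] (0 : ℝ), 0 < a → c ≤ a * -Real.log x := by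
  by_cases h : 0 < a
  · filter_upwards [(tendsto_neg_atBot_atTop.comp tendsto_log_nhdsGT_zero).eventually_ge_atTop (c / a)]
      with x hx _ using (div_le_iff₀' h).1 hx
  · exact Eventually.of_forall fun _ h' => absurd h' h

theorem ev_log_n (a c : ℝ) : ∀ᶠ n : ℕ in atTop, 0 < a → c ≤ a * Real.log n := by
  by_cases h : 0 < a
  · filter_upwards [(tendsto_log_atTop.comp tendsto_natCast_atTop_atTop).eventually_ge_atTop (c / a)]
      with x hx _ using (div_le_iff₀' h).1 hx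
  · exact Eventually.of_forall fun _ h' => absurd h' h

theorem ub_slow {e x : ℝ} (he : 0 < e) (h : 4 / e ^ 2 ≤ x) : Ub x (e * x) := by
  have h0 : 0 < x := lt_of_lt_of_le (by positivity) h
  refine ⟨h0.le, ?_⟩
  have h1 := add_one_le_exp (e * x / 2)
  have h2 : exp (e * x) = exp (e * x / 2) ^ 2 := by rw [← exp_nat_mul]; congr 1; push_cast; ring
  have h3 := pow_le_pow_left₀ (by positivity) h1 2
  rw [div_le_iff₀ (by positivity)] at h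
  rw [h2]
  nlinarith [mul_pos he h0]

set_option maxHeartbeats 1000000 in
/-- **the table**; `c1, c2, c3` are further constants of the three generations -/
theorem ev_sc (c1 c2 c3 : Pm → ℝ) : ∀ᶠ p in FF, p.Ok ∧ ∀ t ∈ Icc p.lo p.t0, ∃ l s f u v w : ℝ,
    Lin p l s f u v w ∧ At p t l s f u v w ∧ c1 p.ut0 ≤ u ∧ c2 p.uef ≤ v ∧
      c3 { p with n := 0 } ≤ w := by
  set U : Pm → ℝ := fun q => cU q + |c1 q| with hU
  set V : Pm → ℝ := fun q => U q.ut0 + q.K0 + q.B0 + 1 / q.t0 + |c2 q| with hV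
  set W : Pm → ℝ := fun q => V q.uef + q.B2 + q.Cn - Real.log q.ef + |c3 { q with n := 0 }| with hW
  filter_upwards [ev_ok, ev_t0 fun q => ev_neg_log q.e1 (10 ^ 6 * U q),
    ev_ef fun q => ev_neg_log q.e1 (10 ^ 6 * V q),
    ev_n (Q := fun q => 0 < q.e1 → 10 ^ 6 * W q ≤ q.e1 * Real.log q.n)
      fun q => ev_log_n q.e1 (10 ^ 6 * W q)] with p ok a1 a2 a3
  refine ⟨ok, fun t ht => ?_⟩
  have e0 := ok.e1.1
  have ⟨k30, k20, k40, d0, ch0, cv0, t00, f0⟩ : 0 < p.k3 ∧ 0 < p.k2 ∧ 0 < p.k4 ∧ 0 < p.d ∧ 0 < p.ch ∧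
    0 < p.cv ∧ 0 < p.t0 ∧ 0 < p.ef := ⟨ok.k3.1, ok.k2.1, ok.k4.1, ok.d.1, ok.ch.1, ok.cv, ok.t0.1, ok.ef⟩
  replace a1 : 10 ^ 6 * U p.ut0 ≤ p.e1 * -Real.log p.t0 := a1 e0
  replace a2 : 10 ^ 6 * V p.uef ≤ p.e1 * -Real.log p.ef := a2 e0
  replace a3 := a3 e0
  have A1 : (1 : ℝ) ≤ p.A := by exact_mod_cast ok.A
  have ⟨hL, hT, hC, hK, hLp, hB, hK0, hB0, hB0', hB2, hCn⟩ := And.intro ok.L <| And.intro ok.T <|
    And.intro ok.C <| And.intro ok.K <| And.intro ok.Lp <| And.intro ok.B <| And.intro ok.K0 <|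
    And.intro ok.B0 <| And.intro ok.B0' <| And.intro ok.B2 ok.Cn
  have eU : U p.ut0 = 10 ^ 6 + p.L + p.T + p.C + 4 * p.K + p.A + p.Lp + p.B + 1 / p.e1 +
    1 / p.e1 ^ p.A + 1 / p.cv + 4 / p.e1 ^ 2 + |c1 p.ut0| := rfl
  have eV : V p.uef = U p.ut0 + p.K0 + p.B0 + 1 / p.t0 + |c2 p.uef| := rfl
  have eW : W p = V p.uef + p.B2 + p.Cn - Real.log p.ef + |c3 { p with n := 0 }| := rfl
  generalize U p.ut0 = u at *
  generalize V p.uef = v at *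
  generalize W p = w at *
  clear hU hV hW
  clear_value U V W
  have ⟨p1, p2, p3, p4, p5, p6, p7, p8⟩ : 0 < 1 / p.e1 ∧ 0 < 1 / p.e1 ^ p.A ∧ 0 < 1 / p.cv ∧
      0 < 4 / p.e1 ^ 2 ∧ 0 < 1 / p.t0 ∧ 0 ≤ |c1 p.ut0| ∧ 0 ≤ |c2 p.uef| ∧ 0 ≤ |c3 { p with n := 0 }| := by
    refine ⟨?_, ?_, ?_, ?_, ?_, ?_, ?_, ?_⟩ <;> positivity
  have ⟨c6, c5, c4, c3', c2', c1'⟩ := And.intro ok.ch.2 <| And.intro ok.d.2 <| And.intro ok.k4.2 <|
    And.intro ok.k2.2 <| And.intro ok.k3.2 ok.e1.2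
  have u1 : 10 ^ 6 ≤ u := by linarith
  have ef1 : p.ef ≤ 1 := ok.ef'.trans (pow_le_one₀ t00.le (by linarith [ok.t0.2]))
  have f1 : 0 ≤ -Real.log p.ef := neg_nonneg.2 (log_nonpos f0.le ef1)
  have uv : u ≤ v := by linarith
  have vw : v ≤ w := by linarith
  have l0 : 0 < Real.log p.n := (mul_pos_iff_of_pos_left e0).1 (by linarith)
  have n1 : (1 : ℝ) < p.n := (log_pos_iff (Nat.cast_nonneg _)).1 l0
  have En : Eb (p.n : ℝ) (Real.log p.n) := Eb.log (by linarith)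
  have Elo : Eb p.lo (p.d * Real.log p.n - 2 / 3 * Real.log p.n) := En.rpow.div En.rpow
  have t0 : 0 < t := Elo.pos.trans_le ht.1
  have Et : Eb t (- -Real.log t) := by rw [neg_neg]; exact Eb.log t0
  have Ef : Eb p.ef (- -Real.log p.ef) := by rw [neg_neg]; exact Eb.log f0
  have sl := (Elo.le_iff Et).1 ht.1
  have s0 : -Real.log p.t0 ≤ -Real.log t := neg_le_neg (log_le_log t0 ht.2)
  have us := a1.trans (mul_le_mul_of_nonneg_left s0 e0.le)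
  have e1 : p.e1 ≤ 1 := by linarith
  generalize hl : Real.log p.n = l at *
  generalize hs : -Real.log t = s at *
  generalize hf : -Real.log p.ef = f at *
  have s1 : 0 < s := (mul_pos_iff_of_pos_left e0).1 (by linarith)
  have sl' : s ≤ l := by linarith [mul_pos d0 l0]
  have m : ∀ {x y z : ℝ}, 0 ≤ z → x ≤ y / 100 → x * z ≤ y * z / 100 := fun hz h => by
    linarith [mul_le_mul_of_nonneg_right h hz]
  have m' : ∀ {x : ℝ}, 0 < x → x * s ≤ x * l := fun h => mul_le_mul_of_nonneg_left sl' h.le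
  have cv1 : p.cv ≤ 1 := by nlinarith [ok.cv']
  have eta : 1 / p.eta = 4 * p.K := by rw [Pm.eta, one_div_one_div]
  have eta0 : 0 < p.eta := by unfold Pm.eta; positivity
  have uL : Ub p.L u := Ub.self (by linarith) (by linarith)
  have lL : Lb p.L 0 := Lb.of_one (by linarith)
  refine ⟨l, s, f, u, v, w, ⟨u1, uv, vw, us, a2, a3, by linarith, by linarith, m l0.le c1', m l0.le c2',
    m l0.le c3', m l0.le c4, m l0.le c5, by linarith [mul_le_mul_of_nonneg_right c6 l0.le],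
    m s1.le c1', m s1.le c2', m s1.le c3', m s1.le c4, m s1.le c5,
    by linarith [mul_le_mul_of_nonneg_right c6 s1.le], m' e0, m' k30, m' k20, m' k40, m' d0, m' ch0,
    m f1 c1', by linarith [mul_le_mul_of_nonneg_right (show p.k3 ≤ 1 / 1000 by linarith) f1]⟩,
    ⟨En, Et, Ef, uL, ?_, ?_, ?_, ?_, ?_, ?_, ?_, ?_, ?_, ?_, lL, ?_, ?_, ?_, ?_, ?_, ?_, ?_, ?_, ?_, ?_,
      Ub.of_one e0.le e1, Lb.self e0 (by linarith), Lb.self (by positivity) (by linarith),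
      Ub.of_one k30.le (by linarith),
      Lb.self k30 ((one_div_le_one_div_of_le e0 (by linarith)).trans (by linarith)),
      Ub.of_one cv0.le cv1, Lb.self cv0 (by linarith),
      Ub.of_one eta0.le (by rw [Pm.eta, div_le_one (by linarith)]; linarith),
      Lb.self eta0 (by linarith), Ub.of_one t00.le (by linarith [ok.t0.2]), Lb.self t00 (by linarith),
      ?_, ?_, ?_, ?_, ?_, Elo, ?_, ?_, ?_⟩,
    by linarith [le_abs_self (c1 p.ut0)], by linarith [le_abs_self (c2 p.uef)],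
    by linarith [le_abs_self (c3 { p with n := 0 })]⟩
  iterate 10 exact Ub.self (by linarith) (by linarith)
  iterate 10 exact Lb.of_one (by linarith)
  · rw [hl]; exact ub_slow e0 (by linarith [mul_le_mul_of_nonneg_right e1 l0.le])
  · rw [hl]; exact Lb.of_one (by linarith [mul_le_mul_of_nonneg_right e1 l0.le])
  · rw [hs]; exact ub_slow e0 (by linarith [mul_le_mul_of_nonneg_right e1 s1.le])
  · have := En.rpow (y := p.k4 - 1 / 2)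
    rwa [show (p.k4 - 1 / 2) * l = p.k4 * l - l / 2 by ring] at this
  · have := En.rpow (y := -p.ch)
    rwa [neg_mul] at this
  · have := En.mul (Et.rpow (y := 3 / 2))
    rwa [show l + 3 / 2 * -s = l - 3 / 2 * s by ring] at this
  · unfold Pm.t2; num
  · unfold Pm.t2; num

/-- the admissible errors -/
theorem At.er {p : Pm} {t l s f u v w e : ℝ} (ok : p.Ok) (L : Lin p l s f u v w)
    (h : At p t l s f u v w) (he : p.Er e t) : ∃ x, Eb e (-x) ∧ 0 ≤ x ∧ x ≤ p.A * x ∧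
      p.A * x ≤ p.k3 * s / 100 ∧ p.A * x ≤ p.k3 * l / 100 := by
  have E : Eb e (- -Real.log e) := by rw [neg_neg]; exact Eb.log he.1
  have b1 := (h.et.rpow.le_iff E).1 he.2.2.1
  have A1 : (1 : ℝ) ≤ p.A := by exact_mod_cast ok.A
  have x0 : 0 ≤ -Real.log e := neg_nonneg.2 (log_nonpos he.1.le (he.2.1.trans (by
    linarith [ok.e1.2, ok.k3.2, ok.k2.2, ok.k4.2, ok.d.2, ok.ch.2])))
  have s0 : 0 ≤ s := ((mul_pos_iff_of_pos_left ok.e1.1).1 (by linarith [L.u1, L.us])).le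
  have b2 := mul_le_mul_of_nonneg_left (show -Real.log e ≤ p.cv * s by linarith) (zero_le_one.trans A1)
  have b3 := mul_le_mul_of_nonneg_right ok.cv' s0
  exact ⟨_, E, x0, le_mul_of_one_le_left x0 A1, by linarith, by linarith [L.m2]⟩

end Crest.Agent.T157.Nm

end
end

-- ▼ part T157/NumR_27
section

set_option autoImplicit false

/-!
Row 157, A2 (helper27): the regimes of `O0.Pm` in the words of `num`.
-/

noncomputable section

namespace Crest.Agent.T157.Nm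

open Set Real
open Crest.Agent.T157.O0

variable {p : Pm} {t l s f u v w : ℝ}

namespace Lin
variable (L : Lin p l s f u v w) (ok : p.Ok)
include L ok

theorem s0 : 0 < s := (mul_pos_iff_of_pos_left ok.e1.1).1 (by linarith [L.u1, L.us])
theorem l0 : 0 < l := (mul_pos_iff_of_pos_left ok.e1.1).1 (by linarith [L.u1, L.uv, L.vw, L.wl])

end Lin

namespace At
variable (h : At p t l s f u v w)
include h

theorem pos : 0 < t := h.et.pos
theorem ts_iff : p.ts ≤ t ↔ s ≤ l / 2 - p.k4 * l := by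
  rw [h.ts.le_iff h.et]; constructor <;> intro <;> linarith
theorem base (h2 : p.t0 / 2 ≤ t) : s ≤ v + 2 := by
  have h1 := h.lt0.div (Ub.ofNat 2) two_pos
  have := exp_le_exp.1 ((h1.of_le h2).trans h.et.ub.2); linarith


/-- `t ≥ t**` -/
theorem R3 (h3 : p.tss ≤ t) (hs : p.ts ≤ t) : Eb (p.kk t) 0 ∧ Eb (p.al t) (-(s / 3)) ∧
    Eb (max t p.ts) (-s) := by
  refine ⟨by rw [Pm.kk, if_pos h3]; exact Eb.one, ?_, by rw [max_eq_left hs]; exact h.et⟩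
  rw [Pm.al, max_eq_left h3, show -(s / 3) = 1 / 3 * -s by ring]; exact h.et.rpow








end At

/-- all facts of `Lin` and `At` as hypotheses -/
macro "nm_open " L:term ", " h:term : tactic => `(tactic|
  (have ⟨_, _, _, _, _, _, _, _, _, _, _, _, _, _, _, _, _, _, _, _, _, _, _, _, _, _, _, _⟩ := $L
   have ⟨_, _, _, _, _, _, _, _, _, _, _, _, _, _, _, _, _, _, _, _, _, _, _, _, _, _, _, _, _, _, _, _,
     _, _, _, _, _, _, _, _, _, _, _, _, _⟩ := $h))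


end Crest.Agent.T157.Nm

end
end

-- ▼ part T157/OiM_84
section

set_option autoImplicit false
set_option linter.unusedSectionVars false

/-!
Row 157, A2 (helper84): the leaves `M1L` and `M23L`.
-/

noncomputable section

namespace Crest.Agent.T157.Oi

open MeasureTheory Matrix Crest.Agent.Lib.OrthPoinc Filter Set
open Crest.Agent.T157.E Crest.Agent.T157.Cond Crest.Agent.T157.Tap
open Crest.Agent.T157.Oc Crest.Agent.T157.Od Crest.Agent.T157.Oo Crest.Agent.T157.O0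
open Crest.Agent.T157.Mj Crest.Agent.T157.Nm
open Crest.Agent.T157.Kb (f2 ee)

theorem m1L : M1L := Eventually.of_forall fun p t e h H k o μ _ x c X W a a0 F v => by
  have hc := (W.hw.cv X.hx.ok).1.G_le v
  refine (M1_dot c.inv X.hx.ok v).le.trans ((F v).trans ?_)
  rw [div_mul_eq_mul_div, le_div_iff₀ W.hw.g0, mul_assoc, mul_comm _ (gq _ _ _)]
  exact mul_le_mul_of_nonneg_left hc a0

/-- the constant of (M2), (M3) -/
def K84 (L T : ℝ) : ℝ := 10 ^ 11 * (800 * T ^ 4) * ((1 + T ^ 4 * L) * (T ^ 4) ^ 2 * T ^ 11)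

theorem num84 : ∀ᶠ p : O0.Pm in FF, p.Ok ∧ 700 * K84 p.L p.T ≤ p.C ∧ 10 ^ 5 * (3 * (p.L / 50) ^ 2 + 1) ≤ p.C ∧
    ∀ t : ℝ, p.lo ≤ t → t ≤ p.t0 → 0 < t ∧ 400 * p.T ^ 4 * ((p.L / 50) ^ 2 * t) ≤ 1 ∧
      2 * p.T ≤ t * p.n ∧ (p.n : ℝ) ^ 2 ≤ Real.exp (5 * (p.n : ℝ) ^ p.d) ∧
      (p.ts ≤ t → 8 * K84 p.L p.T ^ 2 * p.T ≤ p.n * t ^ 2) := by
  filter_upwards [ev_sc 0 0 0, ev_C fun q => ev_ge (700 * K84 q.L q.T),
    ev_C fun q => ev_ge (10 ^ 5 * (3 * (q.L / 50) ^ 2 + 1))] with p ⟨ok, H⟩ c1 c2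
  refine ⟨ok, c1, c2, fun t lo hi => ?_⟩
  obtain ⟨l, s, f, u, v, w, L, h, -⟩ := H t ⟨lo, hi⟩
  have d0 := ok.d.1
  have hs := h.ts_iff.1
  have t0 := h.pos
  have n0 := h.en.pos
  nm_open L, h
  refine ⟨t0, by num, by num, ?_, fun h1 => ?_⟩
  · rw [← Real.exp_log n0, ← Real.exp_nat_mul, Real.exp_log n0]
    exact Real.exp_le_exp.2 (by push_cast; num)
  · have := hs h1
    unfold K84; num

theorem m23L : M23L := by
  filter_upwards [num84] with p ⟨ok, C1, C2, N⟩ t e h H k o μ _ x c X W F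
  obtain ⟨t0, n1, n2, n3, n4⟩ := N t c.lo c.hi
  obtain ⟨e2, f, fe⟩ := X.fr
  have hx := X.hx
  have T1 := ok.T
  have L1 := ok.L
  have q0 := c.nx.mo.q0
  have q1 := c.nx.q1
  have q2 := c.nx.q2
  have g2 := W.g2
  have h0 : 0 ≤ h := (sq_nonneg e).trans c.h0
  have h1 : h ≤ 1 := by
    linarith [c.h1, c.er.2.1, ok.e1.2, ok.k3.2, ok.k2.2, ok.k4.2, ok.d.2, ok.ch.2]
  have n0 : 0 < p.n := by have := f.n4; omega
  have n0' : (0 : ℝ) < p.n := by exact_mod_cast n0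
  have pp : o.p ⬝ᵥ o.p = p.n * aS x := by rw [c.pt.p, O4c.X12.pp_eq n0]
  have pr := f.p_sq hx.ok
  have T2 : 1 ≤ p.T ^ 2 := one_le_pow₀ T1
  have T4 : 1 ≤ p.T ^ 4 := one_le_pow₀ T1
  have g1 : gq p.T h x ≤ aS x ^ 2 :=
    mul_le_of_le_one_left (sq_nonneg _) (by linarith [mul_nonneg (zero_le_one.trans T1) h0])
  have a1 : 20 * p.T ^ 2 * aS x ≤ 1 := abs_le_of_sq_le_sq' (by
    nlinarith [mul_le_mul_of_nonneg_left q2 (by positivity : 0 ≤ 400 * p.T ^ 4)]) zero_le_one |>.2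
  have a2 : aS x ≤ 1 / 20 := by nlinarith
  have a3 : 2 ≤ aS x ^ 2 * p.n := le_of_mul_le_mul_left (a := p.T) (by
    nlinarith [mul_le_mul_of_nonneg_right q1 n0'.le]) (by linarith)
  have a4 : 40 ≤ p.n * aS x := by nlinarith [mul_pos n0' q0]
  have a5 : (800 : ℝ) ≤ p.n := by nlinarith
  have nq := mul_pos n0' q0
  have M0 : 0 < p.M t := mul_pos n0' (Real.rpow_pos_of_pos t0 _)
  have H0 : 0 ≤ H := (Real.rpow_nonneg n0'.le _).trans c.H0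
  have Qf : ∀ v, Qm o *ᵥ v ⬝ᵥ Qm o *ᵥ v = (unitv x ⬝ᵥ v) ^ 2 + (f2 x ⬝ᵥ v) ^ 2 := fun v => by
    rw [dot_Q, Q_Q hx.ok, hx.hq, add_mulVec, Orb.vv_mulVec, Orb.vv_mulVec, add_dotProduct,
      smul_dotProduct, smul_dotProduct]; simp [sq]
  have G : Gl o μ x (unitv x) (f2 x) (Gq o x) (1 - aS x) (len x) (p.T * aS x) (h ^ 2) (p.T ^ 4)
      (gq p.T h x) (T0 x) (√(p.T ^ 4 * H / p.M t)) (p.T ^ 11) (5 * p.T ^ 2 * (p.n * aS x))
      (16 / (p.n : ℝ) ^ 2) (Real.exp (-(5 * H))) (800 * p.T ^ 4) (p.T ^ 4 * p.L) (K84 p.L p.T) := by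
    refine ⟨c.inv, hx, W.hw, ?_, W.ha.cvA.nn, by nlinarith, by nlinarith, one_le_pow₀ T1, F,
      pp ▸ nq, by rw [pp]; nlinarith, by nlinarith, ?_, ?_, ?_, ?_, ?_, by linarith, ?_,
      by positivity, ?_, le_rfl⟩
    · have := hx.dim
      have : 800 ≤ p.n := by exact_mod_cast a5
      omega
    · rw [pr, f.pe1, mulVec_smul, smul_dotProduct, dotProduct_smul, smul_eq_mul, smul_eq_mul]
      have := mul_le_mul_of_nonneg_left (W.ae.trans (show _ ≤ 5 * p.T ^ 2 * aS x by nlinarith))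
        (by positivity : 0 ≤ len (th x) ^ 2 * p.n)
      linarith
    · have e : ∑ i, o.p i ^ 6 = (∑ i, ee x i ^ 6) * (len (th x) ^ 2) ^ 3 := by
        rw [Finset.sum_mul]
        exact Finset.sum_congr rfl fun i _ => by rw [f.pe1, Pi.smul_apply, smul_eq_mul]; ring
      rw [pr, e]
      exact mul_le_mul_of_nonneg_right X.e6 (by positivity)
    · have b1 := f.Qsq hx.ok (unitv x)
      have b2 := Qf (ee x)
      rw [Qf, hx.n1, dotProduct_comm (f2 x), hx.o12, dotProduct_comm (ee x), dotProduct_comm e2] at b1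
      rw [f.Q1 hx.ok, f.e11] at b2
      rw [pr, f.pe1, dotProduct_smul, smul_eq_mul, mul_pow, mul_comm]
      refine mul_le_mul_of_nonneg_right ?_ (sq_nonneg _)
      have b3 : p.T ≤ p.T ^ 4 * p.T ^ 2 := by nlinarith
      nlinarith [mul_le_mul_of_nonneg_right b3 (sq_nonneg (aS x))]
    · refine (an_polar c.inv hx.ok (F := fun s _ => tb o _ s) fun s => by fun_prop).ge.trans
        (((pfA c.inv hx.ok).mono (fun s => by fun_prop) (fun s => by fun_prop) fun s _ _ => ?_).trans c.zs)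
      rw [tb, Z2, Qf, zq]
      split_ifs with b1 b2 <;> first | (exfalso; nlinarith) | norm_num
    · rw [Real.exp_neg, mul_inv_le_iff₀ (Real.exp_pos _), one_mul]
      exact n3.trans (Real.exp_le_exp.2 (by linarith [c.H0]))
    · rw [show 16 / (p.n : ℝ) ^ 2 * (5 * p.T ^ 2 * (p.n * aS x)) ^ 2 = 800 * p.T ^ 4 * (aS x ^ 2 / 2) by
        field_simp; ring]
      exact mul_le_mul_of_nonneg_left g2 (by positivity)
    · rw [Real.sq_sqrt (by positivity), mul_assoc, mul_div_assoc]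
      refine mul_le_mul (mul_le_mul_of_nonneg_left ((div_le_iff₀ M0).2 c.H1) (by positivity)) ?_
        (mul_nonneg (by unfold T0; positivity) W.hw.g0.le) (by positivity)
      rw [T0, div_mul_eq_mul_div, div_le_iff₀ q0]
      nlinarith [mul_le_mul_of_nonneg_left g1 n0'.le]
  have K0 : 0 ≤ K84 p.L p.T := by unfold K84; positivity
  refine ⟨G.M2.trans C1, fun hs => ⟨fun v => (G.M3op v).trans
    (mul_le_mul_of_nonneg_right (by linarith) (dot_self_nonneg v)), G.M3F.trans ?_⟩⟩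
  have b1 : ∑ i, o.p i ^ 4 ≤ p.n * (3 * ((p.L / 50) ^ 2 * t)) := by
    have := (abs_le.1 c.nx.mo.p4).2
    rw [c.pt.p, Kb.Xd75.sum_eq n0]
    refine mul_le_mul_of_nonneg_left ?_ n0'.le
    linarith [mul_le_mul_of_nonneg_right (pow_le_one₀ (n := 30) h0 h1) (pow_pos q0 3).le, pow_pos q0 3]
  have b2 : 4 * K84 p.L p.T ^ 2 / gq p.T h x ≤ p.n * t := by
    rw [div_le_iff₀ W.hw.g0]
    refine le_of_mul_le_mul_right (a := 2 * p.T) ?_ (by linarith)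
    have := mul_le_mul_of_nonneg_left (q1.trans (mul_le_mul_of_nonneg_left
      (show aS x ^ 2 ≤ 2 * gq p.T h x by linarith) (by linarith))) (mul_pos n0' t0).le
    linarith [n4 hs]
  linarith [mul_le_mul_of_nonneg_right C2 (mul_pos n0' t0).le]

end Crest.Agent.T157.Oi

end
end

-- ▼ part T157/O4m_53
section

set_option autoImplicit false
set_option linter.unusedSectionVars false

/-!
Row 157, A2 section 4 (helper53): **(M4)**.
-/

noncomputable section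

namespace Crest.Agent.T157.M4

open MeasureTheory Matrix Crest.Agent.Lib.OrthPoinc Filter Topology Set Real
open Crest.Agent.T157.Oc Crest.Agent.T157.E Crest.Agent.T157.SL Crest.Agent.T157.Ks
open Crest.Agent.T157.Od Crest.Agent.T157.Oo Crest.Agent.T157.Mj

variable {n k : ℕ} {o : Oo.Orb n k} {χ : ℝ} {x : Vn n} {Gr : Matrix (Fin k) (Fin k) ℝ}
  {Q A S g Λ M : ℝ} {μ : Measure (Mat k)} [IsProbabilityMeasure μ]

theorem an_s (hμ : SOInv μ) (h : o.Ok) (f : Cube n → ℝ) :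
    o.an μ (fun s _ => f s) = pe o μ fun s _ => f s :=
  an_polar hμ h (F := fun s _ => f s) fun _ => continuous_const

/-- the conditional mean of `A_U ŝ` given `(s, ξ)` -/
theorem an_yv (hμ : SOInv μ) (h : o.Ok) (hk : 4 ≤ k) (v : Vn n) (φ : Cube n → ℝ) :
    o.an μ (fun s U => (v ⬝ᵥ yv o s U) * φ s) =
      pe o μ fun s ω => (v ⬝ᵥ yq o s ω + cc o s (xp o s ω) * (Pm o *ᵥ v ⬝ᵥ sv s)) * φ s := by
  refine Eq.trans ?_ (an_polar hμ h (F := fun s ξ =>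
    (v ⬝ᵥ Qm o *ᵥ (A0 o *ᵥ ξ) + cc o s ξ * (Pm o *ᵥ v ⬝ᵥ sv s)) * φ s) fun s => by fun_prop)
  refine an_congr hμ h (fun s => by fun_prop) (fun s => by fun_prop) fun s => ?_
  have h1 := coset hμ h hk s (a := fun ξ => (wx o s ξ * φ s) • (A0 o *ᵥ ξ)) (by fun_prop) v
  have e1 : ∫ U, o.w U s * ((v ⬝ᵥ yv o s U) * φ s) ∂μ =
      ∫ U, (wx o s (xh o s U) * ((v ⬝ᵥ Qm o *ᵥ (A0 o *ᵥ xh o s U)) * φ s) +
        Pm o *ᵥ v ⬝ᵥ o.g U *ᵥ ((wx o s (xh o s U) * φ s) • (A0 o *ᵥ xh o s U))) ∂μ := by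
    refine integral_congr_ae ((Orb.ae_SO hμ).mono fun U hU => ?_)
    simp only
    rw [w_xh, yv_eq h hU, mulVec_smul, dotProduct_smul, dot_Q, ← Q_dot_g h U]
    nth_rewrite 1 [← Pm_add_Qm (o := o) v]
    rw [add_dotProduct, smul_eq_mul]; ring
  rw [e1, integral_add (intg hμ (by fun_prop)) (intg hμ (by fun_prop)), h1,
    ← integral_add (intg hμ (by fun_prop)) (intg hμ (by fun_prop))]
  refine integral_congr_ae (ae_of_all _ fun U => ?_)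
  simp only [w_xh, cc, smul_dotProduct, smul_eq_mul]
  ring

theorem dot_EV {ν : Measure (Mat k)} [IsProbabilityMeasure ν] (hν : ∀ᵐ U ∂ν, U ∈ SO k)
    {y : Mat k → Vn n} (hy : Continuous y) (a : Vn n) : a ⬝ᵥ EV ν y = ∫ U, a ⬝ᵥ y U ∂ν := by
  simp only [dotProduct, EV]
  rw [integral_finsetSum _ (f := fun i U => a i * y U i) fun i _ =>
    int_of hν (by fun_prop : Continuous _).continuousOn]
  simp only [integral_const_mul]

/-- centred second moments as annealed means -/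
theorem an_cov (hμ : SOInv μ) (h : o.Ok) {B : Mat k → Mn n} (hB : Continuous B) (a u : Vn n) :
    a ⬝ᵥ (EM (o.P μ) (fun U => B U * O6.sq2 o U) -
      vecMulVec (EV (o.P μ) fun U => B U *ᵥ o.d U) (EV (o.P μ) o.d)) *ᵥ u =
    o.an μ fun s U => (a ⬝ᵥ B U *ᵥ sh o s) * (u ⬝ᵥ sh o s - u ⬝ᵥ EV (o.P μ) o.d) := by
  have := Oo.Orb.P_prob hμ h
  have hν := Oo.Orb.P_mem (o := o) hμ
  have c1 : Continuous o.d := Oo.Orb.c_d
  have c2 : Continuous (O6.sq2 o) := Oo.Orb.c_C.add (c1.matrix_vecMulVec c1)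
  have c3 : Continuous fun U => B U * O6.sq2 o U := hB.mul c2
  have c4 : Continuous fun U => B U *ᵥ o.d U := hB.matrix_mulVec c1
  have e1 := dot_EV hν c4 a
  rw [sub_mulVec, dotProduct_sub, dot_EM hν (fun i j => (by fun_prop : Continuous _).continuousOn),
    Orb.vv_mulVec, dotProduct_smul, smul_eq_mul, e1, ← integral_const_mul,
    ← integral_sub (int_of hν (by fun_prop : Continuous _).continuousOn)
      (int_of hν (by fun_prop : Continuous _).continuousOn), Oo.Orb.an]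
  refine integral_congr_ae (ae_of_all _ fun U => ?_)
  have hw := Oo.Orb.wt (o := o) U
  simp only [mul_sub, mean_sub, mean_mul_const, dotProduct_mulVec a, sh, mean_dot2 hw,
    ← mulVec_mulVec]
  rw [dotProduct_comm u (EV _ _), mul_comm]
  simp only [dotProduct_sub, mean_sub, hw.mean_const, meanV_dot]

theorem an_mean (hμ : SOInv μ) (h : o.Ok) (u : Vn n) :
    pe o μ (fun s _ => u ⬝ᵥ sh o s) = u ⬝ᵥ EV (o.P μ) o.d := by
  have := Oo.Orb.P_prob hμ h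
  have hν := Oo.Orb.P_mem (o := o) hμ
  rw [← an_s hμ h, Oo.Orb.an, dot_EV hν Oo.Orb.c_d]
  refine integral_congr_ae (ae_of_all _ fun U => ?_)
  have hw := Oo.Orb.wt (o := o) U
  change _ = u ⬝ᵥ o.d U
  simp only [sh, dotProduct_sub, mean_sub, hw.mean_const, meanV_dot]

theorem op2_of_bil {X : Mn n} {e : ℝ} (h : ∀ u v : Vn n, u ⬝ᵥ u ≤ 1 → v ⬝ᵥ v ≤ 1 → |v ⬝ᵥ X *ᵥ u| ≤ e) :
    Op2 X (e ^ 2) := fun u => by
  have unit : ∀ w : Vn n, ∃ w' : Vn n, w' ⬝ᵥ w' ≤ 1 ∧ w = √(w ⬝ᵥ w) • w' := fun w => by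
    rcases (dsq w).eq_or_lt with h0 | h0
    · exact ⟨0, by simp, by rw [dotProduct_self_eq_zero.1 h0.symm]; simp⟩
    · have := Real.sqrt_pos.2 h0
      refine ⟨(√(w ⬝ᵥ w))⁻¹ • w, le_of_eq ?_, by rw [smul_smul, mul_inv_cancel₀ this.ne', one_smul]⟩
      rw [smul_dotProduct, dotProduct_smul, smul_eq_mul, smul_eq_mul, ← mul_assoc, ← mul_inv,
        Real.mul_self_sqrt h0.le, inv_mul_cancel₀ h0.ne']
  obtain ⟨u', hu, eu⟩ := unit u
  obtain ⟨v', hv, ev⟩ := unit (X *ᵥ u)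
  have h1 := sq_le_of_abs (h u' v' hu hv)
  have h2 : X *ᵥ u ⬝ᵥ X *ᵥ u = √(X *ᵥ u ⬝ᵥ X *ᵥ u) * (√(u ⬝ᵥ u) * (v' ⬝ᵥ X *ᵥ u')) := by
    calc _ = (√(X *ᵥ u ⬝ᵥ X *ᵥ u) • v') ⬝ᵥ X *ᵥ (√(u ⬝ᵥ u) • u') := by rw [← ev, ← eu]
      _ = _ := by rw [mulVec_smul, smul_dotProduct, dotProduct_smul, smul_eq_mul, smul_eq_mul]
  have h3 := Real.sq_sqrt (dsq (X *ᵥ u))
  have h4 := Real.sq_sqrt (dsq u)
  rcases (dsq (X *ᵥ u)).eq_or_lt with h0 | h0
  · rw [← h0]; exact mul_nonneg (sq_nonneg e) (dsq u)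
  refine le_of_mul_le_mul_left ?_ h0
  calc _ = (X *ᵥ u ⬝ᵥ X *ᵥ u) ^ 2 := (sq _).symm
    _ = (X *ᵥ u ⬝ᵥ X *ᵥ u) * ((u ⬝ᵥ u) * (v' ⬝ᵥ X *ᵥ u') ^ 2) := by
        nth_rewrite 1 [h2]; rw [mul_pow, mul_pow, h3, h4]
    _ ≤ _ := by
        rw [mul_comm (e ^ 2)]
        exact mul_le_mul_of_nonneg_left (mul_le_mul_of_nonneg_left h1 (dsq u)) h0.le

theorem pow4_le (a b : ℝ) : (a + b) ^ 4 ≤ 8 * (a ^ 4 + b ^ 4) := by
  nlinarith [sq_nonneg (a - b), sq_nonneg (a + b), sq_nonneg (a ^ 2 - b ^ 2),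
    mul_nonneg (sq_nonneg (a - b)) (sq_nonneg (a + b)), sq_nonneg ((a - b) ^ 2)]

theorem pow6_le {a b c d e f : ℝ} (ha : 0 ≤ a) (hb : 0 ≤ b) (hc : 0 ≤ c) (hd : 0 ≤ d) (he : 0 ≤ e)
    (hf : 0 ≤ f) : (a + b + c + d + e + f) ^ 4 ≤ 216 * (a ^ 4 + b ^ 4 + c ^ 4 + d ^ 4 + e ^ 4 + f ^ 4) := by
  have := pow_sum_le_card_mul_sum_pow (s := Finset.univ) (f := ![a, b, c, d, e, f])
    (fun i _ => by fin_cases i <;> simpa) 3
  simp only [Fin.sum_univ_succ, Finset.card_univ, Fintype.card_fin] at this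
  simp at this
  linarith

/-- the moment hypotheses of (M4) -/
structure Mo (o : Oo.Orb n k) (μ : Measure (Mat k)) (M : ℝ) : Prop where
  M1 : 1 ≤ M
  mz : o.an μ (fun s _ => (Qm o *ᵥ sh o s ⬝ᵥ Qm o *ᵥ sh o s) ^ 2) ≤ M ^ 4
  my : o.an μ (fun s U => (Qm o *ᵥ yv o s U ⬝ᵥ Qm o *ᵥ yv o s U) ^ 2) ≤ M ^ 4
  mv : ∀ v, o.an μ (fun s _ => (v ⬝ᵥ sh o s) ^ 4) ≤ M ^ 4 * (v ⬝ᵥ v) ^ 2

theorem Mo.zn (hμ : SOInv μ) (h : o.Ok) (m : Mo o μ M) : pe o μ (fun s _ => zn o s ^ 4) ≤ M ^ 4 := by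
  refine le_trans (le_of_eq ?_) m.mz
  rw [an_s hμ h]
  exact pe_congr hμ h fun s _ _ => by rw [← zh, ← zn_sq]; ring

theorem Mo.yn (hμ : SOInv μ) (h : o.Ok) (m : Mo o μ M) : pe o μ (fun s ω => yn o s ω ^ 4) ≤ M ^ 4 := by
  refine le_trans (le_of_eq ?_) m.my
  have h1 := an_polar hμ h (F := fun _ ξ => (Qm o *ᵥ (A0 o *ᵥ ξ) ⬝ᵥ Qm o *ᵥ (A0 o *ᵥ ξ)) ^ 2)
    fun s => by fun_prop
  refine ((pe_congr hμ h fun s ω _ => ?_).trans h1.symm).trans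
    (an_congr hμ h (fun s => by fun_prop) (fun s => by fun_prop) fun s => ?_)
  · rw [← yq, ← yn_sq]; ring
  · refine integral_congr_ae ((Orb.ae_SO hμ).mono fun U hU => ?_)
    have : Qm o *ᵥ yv o s U = Qm o *ᵥ (A0 o *ᵥ xh o s U) := funext fun i => by
      rw [← Q_single, ← Q_single, yv_eq h hU, Q_dot_g h]
    simp only [this]

theorem Mo.lin (hμ : SOInv μ) (h : o.Ok) (m : Mo o μ M) {v : Vn n} (hv : v ⬝ᵥ v ≤ 1) :
    pe o μ (fun s _ => (v ⬝ᵥ sh o s) ^ 4) ≤ M ^ 4 := by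
  rw [← an_s hμ h]
  exact (m.mv v).trans (mul_le_of_le_one_right (by positivity) (pow_le_one₀ (dsq v) hv))

theorem Mo.cen (hμ : SOInv μ) (h : o.Ok) (m : Mo o μ M) {u : Vn n} (hu : u ⬝ᵥ u ≤ 1) :
    pe o μ (fun s _ => (u ⬝ᵥ sh o s - u ⬝ᵥ EV (o.P μ) o.d) ^ 4) ≤ 16 * M ^ 4 := by
  have h1 := m.lin hμ h hu
  have h2 := an_mean hμ h u
  generalize u ⬝ᵥ EV (o.P μ) o.d = c at *
  have cf : ∀ f : Cube n → ℝ, CF fun s (_ : Vn n) => f s := fun _ _ => continuous_const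
  have h3 := pe_mono hμ h (cf fun s => 4 * c ^ 3 * (u ⬝ᵥ sh o s) + -(3 * c ^ 4))
    (cf fun s => (u ⬝ᵥ sh o s) ^ 4) fun s _ _ => by
      nlinarith [mul_nonneg (sq_nonneg (u ⬝ᵥ sh o s - c)) (sq_nonneg (u ⬝ᵥ sh o s + c)),
        mul_nonneg (sq_nonneg (u ⬝ᵥ sh o s - c)) (sq_nonneg c)]
  rw [pe_add hμ (cf _) (cf _), pe_mul, pe_const hμ, h2] at h3
  have h4 := pe_mono hμ h (cf fun s => (u ⬝ᵥ sh o s - c) ^ 4)
    (cf fun s => 8 * (u ⬝ᵥ sh o s) ^ 4 + 8 * c ^ 4) fun s _ _ => by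
      have := pow4_le (u ⬝ᵥ sh o s) (-c)
      rw [← sub_eq_add_neg, Even.neg_pow (by decide)] at this
      linarith
  rw [pe_add hμ (cf _) (cf _), pe_mul, pe_const hμ] at h4
  linarith

theorem Dv_le (h : Hy o x χ Q A S) {v : Vn n} (hv : v ⬝ᵥ v ≤ 1) : Dv o.p v ⬝ᵥ Dv o.p v ≤ 1 := by
  refine le_trans (Finset.sum_le_sum fun i _ => ?_) hv
  have := h.p1 i
  rw [Dv, mul_mul_mul_comm]
  exact mul_le_of_le_one_left (mul_self_nonneg _)
    (mul_le_one₀ (sub_le_self _ (sq_nonneg _)) (by linarith) (sub_le_self _ (sq_nonneg _)))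

theorem dot_Dm (p v w : Vn n) : v ⬝ᵥ O6.Dm p *ᵥ w = Dv p v ⬝ᵥ w := by
  simp only [dotProduct, O6.Dm, mulVec_diagonal, Dv]
  exact Finset.sum_congr rfl fun i _ => by ring

/-- fourth moment of the size function -/
theorem Hz.theta (h : Hz o x Gr χ Q A S g Λ) (hμ : SOInv μ) (m : Mo o μ M) {u v : Vn n}
    (hu : u ⬝ᵥ u ≤ 1) (hv : v ⬝ᵥ v ≤ 1) :
    pe o μ (fun s ω => (1 + zn o s + yn o s ω + |S * k0 o χ s ω| +
      |u ⬝ᵥ sh o s - u ⬝ᵥ EV (o.P μ) o.d| + |v ⬝ᵥ sh o s|) ^ 4) ≤ 10 ^ 9 * (g * Λ * Q ^ 3 * M) ^ 4 := by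
  have hQ := h.Q1; have hL := h.L1; have hg := h.g1
  have hM : 1 ≤ M ^ 4 := one_le_pow₀ m.M1
  have h1 := m.zn hμ h.ok
  have h2 := m.yn hμ h.ok
  have h3 := h.K4 hμ
  have h4 := m.cen hμ h.ok hu
  have h5 := m.lin hμ h.ok hv
  have h6 := pe_mono hμ h.ok (F := fun s _ => 1024 * (g * (Λ + 4 * Q * zn o s) * Q ^ 2) ^ 4)
    (G := fun s _ => 2097152 * (g * Λ * Q ^ 3) ^ 4 * (1 + zn o s ^ 4)) (fun s => by fun_prop)
    (fun s => by fun_prop) fun s _ _ => by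
      have hz := zn_nn (o := o) s
      have a1 : Λ + 4 * Q * zn o s ≤ 4 * Q * Λ * (1 + zn o s) := by
        have : Λ ≤ Q * Λ := le_mul_of_one_le_left (by linarith) hQ
        have : Q * zn o s ≤ Q * zn o s * Λ := le_mul_of_one_le_right (by positivity) hL
        linarith
      have a2 := pow4_le 1 (zn o s)
      calc _ ≤ 1024 * (g * (4 * Q * Λ * (1 + zn o s)) * Q ^ 2) ^ 4 := by gcongr
        _ = 262144 * (g * Λ * Q ^ 3) ^ 4 * (1 + zn o s) ^ 4 := by ring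
        _ ≤ 262144 * (g * Λ * Q ^ 3) ^ 4 * (8 * (1 ^ 4 + zn o s ^ 4)) := by gcongr
        _ = _ := by ring
  rw [pe_mul (2097152 * _), pe_add hμ (fun s => by fun_prop) (fun s => by fun_prop),
    pe_const hμ] at h6
  refine (pe_mono hμ h.ok (G := fun s ω => 216 * (1 + zn o s ^ 4 + yn o s ω ^ 4 + (S * k0 o χ s ω) ^ 4 +
    (u ⬝ᵥ sh o s - u ⬝ᵥ EV (o.P μ) o.d) ^ 4 + (v ⬝ᵥ sh o s) ^ 4)) (fun s => by fun_prop)
    (fun s => by fun_prop) fun s ω _ => ?_).trans ?_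
  · have := pow6_le zero_le_one (zn_nn (o := o) s) (yn_nn (o := o) s ω) (abs_nonneg (S * k0 o χ s ω))
      (abs_nonneg (u ⬝ᵥ sh o s - u ⬝ᵥ EV (o.P μ) o.d)) (abs_nonneg (v ⬝ᵥ sh o s))
    simpa only [Even.pow_abs (by decide : Even 4), one_pow] using this
  rw [pe_mul, pe_add hμ (fun s => by fun_prop) (fun s => by fun_prop),
    pe_add hμ (fun s => by fun_prop) (fun s => by fun_prop),
    pe_add hμ (fun s => by fun_prop) (fun s => by fun_prop),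
    pe_add hμ (fun s => by fun_prop) (fun s => by fun_prop),
    pe_add hμ (fun s => by fun_prop) (fun s => by fun_prop), pe_const hμ, mul_pow (g * Λ * Q ^ 3)]
  have a1 : 1 ≤ (g * Λ * Q ^ 3) ^ 4 := one_le_pow₀ (one_le_mul_of_one_le_of_one_le
    (one_le_mul_of_one_le_of_one_le hg hL) (one_le_pow₀ hQ))
  generalize (g * Λ * Q ^ 3) ^ 4 = K at *
  have a2 : K * (1 + pe o μ fun s _ => zn o s ^ 4) ≤ K * (2 * M ^ 4) := by gcongr; linarith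
  have a3 : M ^ 4 ≤ K * M ^ 4 := le_mul_of_one_le_left (by positivity) a1
  linarith

/-- **(M4)**, bilinear form -/
theorem m4_bil (h : Hz o x Gr χ Q A S g Λ) (hμ : SOInv μ) (m : Mo o μ M) {β ε : ℝ}
    (hβ : |β - bs n χ (Gr * Gr).trace| * n ≤ ε) {u v : Vn n} (hu : u ⬝ᵥ u ≤ 1) (hv : v ⬝ᵥ v ≤ 1) :
    |v ⬝ᵥ O6.Er4 o (o.P μ) (χ⁻¹ • (1 : Mn n) + β • vecMulVec o.p o.p) *ᵥ u| ≤
      10 ^ 15 * (A ^ 2 * g ^ 8 * Λ ^ 6 * Q ^ 20 * M ^ 4) / S + 3 * ε * M ^ 2 := by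
  have hQ := h.Q1; have hL := h.L1; have hg := h.g1; have hS := h.S0; have hA := h.A1
  have hM := m.M1
  have hT := h.T2_pos
  have hDv := Dv_le h.toHy hv
  have hθ := h.theta hμ m hu hDv
  have hm := an_mean hμ h.ok u
  have hc := m.cen hμ h.ok hu
  have c1 := an_cov hμ h.ok (B := o.A) cont_A (Dv o.p v) u
  have c2 := fun a => an_cov hμ h.ok (B := fun _ => 1) continuous_const a u
  simp only [Matrix.one_mul, one_mulVec] at c2
  have c3 := an_yv hμ h.ok h.k4 (Dv o.p v) fun s => u ⬝ᵥ sh o s - u ⬝ᵥ EV (o.P μ) o.d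
  have e0 : ∀ w, v ⬝ᵥ (1 - O6.Dm o.p * (χ⁻¹ • (1 : Mn n) + β • vecMulVec o.p o.p)) *ᵥ w =
      v ⬝ᵥ w - (χ⁻¹ * (Dv o.p v ⬝ᵥ w) + β * (Dv o.p v ⬝ᵥ o.p) * (o.p ⬝ᵥ w)) := fun w => by
    rw [sub_mulVec, one_mulVec, ← mulVec_mulVec, dotProduct_sub, dot_Dm, add_mulVec, smul_mulVec,
      smul_mulVec, one_mulVec, Orb.vv_mulVec, dotProduct_add, dotProduct_smul, dotProduct_smul,
      dotProduct_smul]
    simp only [smul_eq_mul]; ring
  rw [O6.Er4, sub_mulVec, sub_mulVec, dotProduct_sub, dotProduct_sub, ← mulVec_mulVec,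
    ← mulVec_mulVec, dot_Dm, dot_Dm, e0, c1, c2, c2, c2]
  erw [c3]
  rw [an_s hμ h.ok, an_s hμ h.ok, an_s hμ h.ok, pe_stein]
  have k1 := h.K1 hμ fun s => u ⬝ᵥ sh o s - u ⬝ᵥ EV (o.P μ) o.d
  generalize u ⬝ᵥ EV (o.P μ) o.d = c at *
  obtain ⟨φ, hφ⟩ : ∃ φ : Cube n → ℝ, ∀ s, u ⬝ᵥ sh o s - c = φ s := ⟨_, fun _ => rfl⟩
  have h0 : pe o μ (fun s _ => φ s) = 0 := by
    simp only [← hφ]
    rw [pe_sub hμ (fun s => by fun_prop) (fun s => by fun_prop), hm, pe_const hμ, sub_self]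
  simp only [hφ] at *
  obtain ⟨Z, hZ⟩ : ∃ Z : Cube n → Vn n → ℝ, Z = fun s ω =>
      Dv o.p v ⬝ᵥ u + (Dv o.p v ⬝ᵥ gm o χ s ω) * φ s - St o u v (φ s) s ω -
      kp o χ s ω * (Dv o.p v ⬝ᵥ sh o s) * φ s - bad o χ (Dv o.p v) s ω * φ s -
      (Dv o.p v ⬝ᵥ o.p) * (Ps o χ Gr.trace (Gr * Gr).trace s * φ s) := ⟨_, rfl⟩
  have cZ : CF Z := fun s => by rw [hZ]; fun_prop
  have e1 : Dv o.p v ⬝ᵥ u - pe o μ (fun s ω => (Dv o.p v ⬝ᵥ yq o s ω +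
        cc o s (xp o s ω) * (Pm o *ᵥ Dv o.p v ⬝ᵥ sv s)) * φ s) -
      (pe o μ (fun s ω => St o u v (φ s) s ω) - (χ⁻¹ * pe o μ (fun s _ => (Dv o.p v ⬝ᵥ sh o s) * φ s) +
        β * (Dv o.p v ⬝ᵥ o.p) * pe o μ fun s _ => (o.p ⬝ᵥ sh o s) * φ s)) =
      pe o μ Z - (Dv o.p v ⬝ᵥ o.p) * ((Gr * Gr).trace)⁻¹ * pe o μ (fun s ω =>
        ((Gr * Gr).trace * k0 o χ s ω - ind o χ s * (R2 o s - Gr.trace)) * φ s) -
      (Dv o.p v ⬝ᵥ o.p) * ((n * χ - Gr.trace) / (Gr * Gr).trace) * pe o μ (fun s _ => φ s) +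
      (β - bs n χ (Gr * Gr).trace) * (Dv o.p v ⬝ᵥ o.p) * pe o μ fun s _ => (o.p ⬝ᵥ sh o s) * φ s := by
    rw [← pe_const (o := o) hμ (Dv o.p v ⬝ᵥ u)]
    simp only [← pe_mul]
    rw [← pe_sub hμ (fun s => by fun_prop) (fun s => by fun_prop),
      ← pe_add hμ (fun s => by fun_prop) (fun s => by fun_prop),
      ← pe_sub hμ (fun s => by fun_prop) (fun s => by fun_prop),
      ← pe_sub hμ (fun s => by fun_prop) (fun s => by fun_prop),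
      ← pe_sub hμ cZ (fun s => by fun_prop),
      ← pe_sub hμ (fun s => by have := cZ s; fun_prop) (fun s => by fun_prop),
      ← pe_add hμ (fun s => by have := cZ s; fun_prop) (fun s => by fun_prop)]
    refine pe_congr hμ h.ok fun s ω _ => ?_
    have a1 : o.p ⬝ᵥ zh o s = o.p ⬝ᵥ sh o s := by rw [zh, dot_Q, Q_p h.ok]
    have a2 : Dv o.p v ⬝ᵥ Qm o *ᵥ sv s = Dv o.p v ⬝ᵥ sh o s + Dv o.p v ⬝ᵥ o.p -
        Pm o *ᵥ Dv o.p v ⬝ᵥ sv s := by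
      rw [Qm_vec, dotProduct_sub, dot_P, sh, dotProduct_sub]; ring
    have a3 : Dv o.p v ⬝ᵥ zh o s = Dv o.p v ⬝ᵥ sh o s - Pm o *ᵥ Dv o.p v ⬝ᵥ sv s := by
      rw [zh, Qm_vec, dotProduct_sub, P_sh h.ok, dot_P]
    simp only [hZ, gm, dotProduct_add, dotProduct_neg, dotProduct_smul, smul_eq_mul, a1, a2, a3, kp,
      k0, bad, Ps]
    field_simp
    ring
  rw [e1, h0, mul_zero, sub_zero]
  have p1 : |Dv o.p v ⬝ᵥ o.p| ≤ 1 * S := abs_dot_le zero_le_one hS.le (by rwa [one_pow]) h.pp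
  rw [one_mul] at p1
  obtain ⟨θ, hθd⟩ : ∃ θ : Cube n → Vn n → ℝ, ∀ s ω, 1 + zn o s + yn o s ω + |S * k0 o χ s ω| +
      |φ s| + |Dv o.p v ⬝ᵥ sh o s| = θ s ω := ⟨_, fun _ _ => rfl⟩
  have cθ : CF θ := fun s => by rw [← funext (hθd s)]; fun_prop
  have θ1 : ∀ s ω, 1 + zn o s ≤ θ s ω ∧ |φ s| ≤ θ s ω := fun s ω => by
    have := zn_nn (o := o) s; have := yn_nn (o := o) s ω
    have := abs_nonneg (S * k0 o χ s ω); have := abs_nonneg (φ s)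
    have := abs_nonneg (Dv o.p v ⬝ᵥ sh o s)
    rw [← hθd]; constructor <;> linarith
  have θ2 : ∀ s ω, θ s ω ^ 3 ≤ θ s ω ^ 4 := fun s ω =>
    pow_le_pow_right₀ (by linarith [(θ1 s ω).1, zn_nn (o := o) s]) (by norm_num)
  simp only [hθd] at hθ
  have b1 : S * |pe o μ Z| ≤ 427000 * (A ^ 2 * Λ * Q ^ 6) * pe o μ fun s ω => θ s ω ^ 4 := by
    rw [← abs_of_pos hS, ← abs_mul, ← pe_mul, ← pe_mul]
    refine pe_abs_le hμ h.ok (fun s => by have := cZ s; fun_prop) (fun s => by have := cθ s; fun_prop)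
      fun s ω hω => ?_
    rw [abs_mul, abs_of_pos hS, hZ]
    exact (h.Z_le hω s hu hv (hθd s ω).symm).trans
      (mul_le_mul_of_nonneg_left (θ2 s ω) (by positivity))
  have b2 := k1.trans (pe_mono hμ h.ok (G := fun s ω => 1120 * (g ^ 4 * Λ ^ 2 * Q ^ 6) * θ s ω ^ 4)
    (fun s => by fun_prop) (fun s => by have := cθ s; fun_prop) fun s ω _ => by
      have hz := zn_nn (o := o) s
      have a1 : Λ + 4 * Q * zn o s ≤ 4 * Q * Λ * θ s ω := by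
        have : Λ ≤ Q * Λ := le_mul_of_one_le_left (by linarith) hQ
        have : Q * zn o s ≤ Q * zn o s * Λ := le_mul_of_one_le_right (by positivity) hL
        have := mul_le_mul_of_nonneg_left (θ1 s ω).1 (by positivity : 0 ≤ 4 * Q * Λ)
        linarith
      calc _ ≤ 70 * g ^ 2 * (g * (4 * Q * Λ * θ s ω) * Q ^ 2) ^ 2 * θ s ω := by
            gcongr; exact (θ1 s ω).2
        _ = 1120 * (g ^ 4 * Λ ^ 2 * Q ^ 6) * θ s ω ^ 3 := by ring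
        _ ≤ _ := mul_le_mul_of_nonneg_left (θ2 s ω) (by positivity))
  rw [pe_mul] at b2
  have b3 : |pe o μ fun s _ => (o.p ⬝ᵥ sh o s) * φ s| ≤ S * (3 * M ^ 2) := by
    have a0 : (S⁻¹ • o.p) ⬝ᵥ (S⁻¹ • o.p) ≤ 1 := (smul_le h.pp).trans_eq (by
      rw [abs_of_pos (inv_pos.2 hS), inv_mul_cancel₀ hS.ne', one_pow])
    have a1 := m.lin hμ h.ok a0
    refine (pe_abs_le hμ h.ok (G := fun s _ => S * ((4 * M ^ 2)⁻¹ * ((S⁻¹ • o.p) ⬝ᵥ sh o s) ^ 4 +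
      (16 * M ^ 2)⁻¹ * φ s ^ 4 + 5 / 4 * M ^ 2)) (fun s => by fun_prop) (fun s => by fun_prop)
      fun s _ _ => ?_).trans ?_
    · have e : o.p ⬝ᵥ sh o s = S * ((S⁻¹ • o.p) ⬝ᵥ sh o s) := by
        rw [smul_dotProduct, smul_eq_mul, mul_inv_cancel_left₀ hS.ne']
      rw [e, mul_assoc, abs_mul, abs_of_pos hS]
      refine mul_le_mul_of_nonneg_left ?_ hS.le
      generalize (S⁻¹ • o.p) ⬝ᵥ sh o s = a
      generalize φ s = b
      have e1 : (4 * M ^ 2)⁻¹ * a ^ 4 = (a ^ 2 / (2 * M)) ^ 2 := by field_simp; ring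
      have e2 : (16 * M ^ 2)⁻¹ * b ^ 4 = (b ^ 2 / (4 * M)) ^ 2 := by field_simp; ring
      have e3 : a ^ 2 = 2 * M * (a ^ 2 / (2 * M)) := by field_simp
      have e4 : b ^ 2 = 4 * M * (b ^ 2 / (4 * M)) := by field_simp
      rw [e1, e2, abs_le]
      constructor <;> nlinarith [sq_nonneg (a ^ 2 / (2 * M) - M / 2), sq_nonneg (b ^ 2 / (4 * M) - M),
        sq_nonneg (a + b), sq_nonneg (a - b)]
    · rw [pe_mul, pe_add hμ (fun s => by fun_prop) (fun s => by fun_prop),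
        pe_add hμ (fun s => by fun_prop) (fun s => by fun_prop), pe_mul, pe_mul, pe_const hμ]
      refine mul_le_mul_of_nonneg_left ?_ hS.le
      have c1 := mul_le_mul_of_nonneg_left a1 (by positivity : 0 ≤ (4 * M ^ 2)⁻¹)
      have c2 := mul_le_mul_of_nonneg_left hc (by positivity : 0 ≤ (16 * M ^ 2)⁻¹)
      have e1 : (4 * M ^ 2)⁻¹ * M ^ 4 = M ^ 2 / 4 := by field_simp
      have e2 : (16 * M ^ 2)⁻¹ * (16 * M ^ 4) = M ^ 2 := by field_simp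
      linarith [sq_nonneg M]
  have b4 : |(β - bs n χ (Gr * Gr).trace) * (Dv o.p v ⬝ᵥ o.p) *
      pe o μ fun s _ => (o.p ⬝ᵥ sh o s) * φ s| ≤ 3 * ε * M ^ 2 := by
    rw [abs_mul, abs_mul]
    calc _ ≤ |β - bs n χ (Gr * Gr).trace| * S * (S * (3 * M ^ 2)) := by gcongr
      _ = |β - bs n χ (Gr * Gr).trace| * n * (3 * M ^ 2) := by rw [← h.SS]; ring
      _ ≤ ε * (3 * M ^ 2) := by gcongr
      _ = _ := by ring
  refine (abs_add_le _ _).trans (add_le_add ?_ b4)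
  rw [le_div_iff₀ hS, mul_comm]
  refine (mul_le_mul_of_nonneg_left (abs_sub _ _) hS.le).trans ?_
  rw [mul_add, abs_mul, abs_mul, abs_of_pos (inv_pos.2 hT)]
  generalize (pe o μ fun s ω => θ s ω ^ 4) = Θ at *
  have Y0 := abs_nonneg (pe o μ fun s ω => ((Gr * Gr).trace * k0 o χ s ω -
    ind o χ s * (R2 o s - Gr.trace)) * φ s)
  generalize |pe o μ fun s ω => ((Gr * Gr).trace * k0 o χ s ω -
    ind o χ s * (R2 o s - Gr.trace)) * φ s| = Y at *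
  have Θ0 : 0 ≤ Θ := nonneg_of_mul_nonneg_right (Y0.trans b2) (by positivity)
  obtain ⟨K, hK⟩ : ∃ K, K = A ^ 2 * g ^ 4 * Λ ^ 2 * Q ^ 8 := ⟨_, rfl⟩
  have d1 : A ^ 2 * Λ * Q ^ 6 * Θ ≤ K * Θ := by
    refine mul_le_mul_of_nonneg_right ?_ Θ0
    calc _ = A ^ 2 * 1 * Λ ^ 1 * Q ^ 6 := by ring
      _ ≤ A ^ 2 * g ^ 4 * Λ ^ 2 * Q ^ 8 := by
          gcongr
          · exact one_le_pow₀ hg
          · norm_num
          · norm_num
      _ = K := hK.symm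
  have d2 : S * (|Dv o.p v ⬝ᵥ o.p| * ((Gr * Gr).trace)⁻¹ * Y) ≤ 2240 * (K * Θ) := by
    calc _ ≤ S * (S * ((Gr * Gr).trace)⁻¹ * Y) := by gcongr
      _ = S ^ 2 * ((Gr * Gr).trace)⁻¹ * Y := by ring
      _ ≤ 2 * Q ^ 2 * (1120 * (g ^ 4 * Λ ^ 2 * Q ^ 6) * Θ) := mul_le_mul h.T2i b2 Y0 (by positivity)
      _ = 2240 * (1 * g ^ 4 * Λ ^ 2 * Q ^ 8 * Θ) := by ring
      _ ≤ 2240 * (A ^ 2 * g ^ 4 * Λ ^ 2 * Q ^ 8 * Θ) := by gcongr; exact one_le_pow₀ hA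
      _ = _ := by rw [hK]
  have d3 : K * Θ ≤ K * (10 ^ 9 * (g * Λ * Q ^ 3 * M) ^ 4) :=
    mul_le_mul_of_nonneg_left hθ (by rw [hK]; positivity)
  have d4 : K * (10 ^ 9 * (g * Λ * Q ^ 3 * M) ^ 4) =
      10 ^ 9 * (A ^ 2 * g ^ 8 * Λ ^ 6 * Q ^ 20 * M ^ 4) := by rw [hK]; ring
  have d5 : 0 ≤ A ^ 2 * g ^ 8 * Λ ^ 6 * Q ^ 20 * M ^ 4 := by positivity
  linarith

/-- **(M4)** -/
theorem m4 (h : Hz o x Gr χ Q A S g Λ) (hμ : SOInv μ) (m : Mo o μ M) {β ε : ℝ}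
    (hβ : |β - bs n χ (Gr * Gr).trace| * n ≤ ε) :
    Op2 (O6.Er4 o (o.P μ) (χ⁻¹ • (1 : Mn n) + β • vecMulVec o.p o.p))
      ((10 ^ 15 * (A ^ 2 * g ^ 8 * Λ ^ 6 * Q ^ 20 * M ^ 4) / S + 3 * ε * M ^ 2) ^ 2) :=
  op2_of_bil fun _ _ hu hv => m4_bil h hμ m hβ hu hv

end Crest.Agent.T157.M4
end
end

-- ▼ part T157/O4n_53
section

set_option autoImplicit false
set_option linter.unusedSectionVars false

/-!
Row 157, A2 section 4 (helper53): (M4) in the words of the orbit (`O4c.Hx`, `O6.Ctx`, traces of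
`(z - W)⁻¹`).
-/

noncomputable section

namespace Crest.Agent.T157.M4

open MeasureTheory Matrix Crest.Agent.Lib.OrthPoinc Filter Topology Set Real
open Crest.Agent.T157.Oc Crest.Agent.T157.E Crest.Agent.T157.SL Crest.Agent.T157.Ks
open Crest.Agent.T157.Od Crest.Agent.T157.Oo Crest.Agent.T157.Mj

variable {n k : ℕ} {o : Oo.Orb n k} {χ : ℝ} {x : Vn n} {Q A S g Λ M : ℝ}

/-! ### the inverse of the compression -/

theorem op2_inv {ι : Type*} [Fintype ι] [DecidableEq ι] {B G : Matrix ι ι ℝ} (e : B * G = 1)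
    (g0 : 0 ≤ g) (co : ∀ v, v ⬝ᵥ v ≤ g * (v ⬝ᵥ B *ᵥ v)) : Op2 G (g ^ 2) := fun v => by
  have h1 := co (G *ᵥ v)
  rw [mulVec_mulVec, e, one_mulVec] at h1
  have h2 := cs (G *ᵥ v) v
  have h3 := dsq (G *ᵥ v)
  rcases h3.eq_or_lt with h0 | h0
  · rw [← h0]; exact mul_nonneg (sq_nonneg _) (dsq v)
  · refine le_of_mul_le_mul_left ?_ h0
    have h4 := pow_le_pow_left₀ h3 h1 2
    nlinarith [mul_le_mul_of_nonneg_left h2 (sq_nonneg g)]

theorem Bm_symm (h : o.Ok) : (Bm o)ᵀ = Bm o := by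
  simp only [Bm, transpose_mul, transpose_transpose, A0_symm h, Matrix.mul_assoc]

theorem Bm_quad (u : Fin k → ℝ) : u ⬝ᵥ Bm o *ᵥ u = o.E *ᵥ u ⬝ᵥ A0 o *ᵥ (o.E *ᵥ u) := by
  rw [Bm_vec, dot_E]

theorem exists_Gr (h : o.Ok) (g0 : 0 < g) (Q0 : 0 < Q) (hA : Op2 (A0 o) (Q ^ 2))
    (co : ∀ v, v ⬝ᵥ v ≤ g * (v ⬝ᵥ A0 o *ᵥ v)) : ∃ Gr : Matrix (Fin k) (Fin k) ℝ, Grᵀ = Gr ∧
      Bm o * Gr = 1 ∧ Op2 Gr (g ^ 2) ∧ ∀ v, v ⬝ᵥ v ≤ Q * (v ⬝ᵥ Gr *ᵥ v) := by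
  have c1 : ∀ u, u ⬝ᵥ u ≤ g * (u ⬝ᵥ Bm o *ᵥ u) := fun u => by
    rw [Bm_quad, ← E_dot h]; exact co _
  have hd := O6m.det_pos_of (Bm_symm h) (inv_pos.2 g0) fun u => by
    rw [inv_mul_le_iff₀ g0]; exact c1 u
  have e : Bm o * (Bm o)⁻¹ = 1 := mul_nonsing_inv _ (isUnit_iff_ne_zero.2 hd.ne')
  refine ⟨(Bm o)⁻¹, by rw [transpose_nonsing_inv, Bm_symm h], e, op2_inv e g0.le c1, fun v => ?_⟩
  have h1 := O6m.psd_am (Bm_symm h) (fun u => nonneg_of_mul_nonneg_right ((dsq u).trans (c1 u)) g0)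
    (inv_pos.2 Q0) ((Bm o)⁻¹ *ᵥ v) v
  have h2 : v ⬝ᵥ Bm o *ᵥ v ≤ Q * (v ⬝ᵥ v) := by
    rw [Bm_quad, ← E_dot h]; exact O6m.quad_le hA Q0.le _
  rw [symm_dot (Bm_symm h), mulVec_mulVec, e, one_mulVec, dotProduct_comm ((Bm o)⁻¹ *ᵥ v) v] at h1
  have h3 : Q⁻¹ / 2 * (v ⬝ᵥ Bm o *ᵥ v) ≤ v ⬝ᵥ v / 2 :=
    (mul_le_mul_of_nonneg_left h2 (by positivity)).trans_eq (by field_simp)
  have h4 : v ⬝ᵥ (Bm o)⁻¹ *ᵥ v / (2 * Q⁻¹) = Q * (v ⬝ᵥ (Bm o)⁻¹ *ᵥ v) / 2 := by field_simp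
  linarith

/-! ### traces -/

theorem tr_Q (h : o.Ok) (nk : (n : ℝ) ≤ k + 2) {X : Mn n} {c : ℝ} (c0 : 0 ≤ c) (hX : Op2 X (c ^ 2)) :
    |(Qm o * X).trace| ≤ 2 * c := by
  have QQ : Qm o * Qm o = Qm o := ext_of_mulVec_single fun i => by rw [← mulVec_mulVec, Q_Q h]
  have e : (Qm o * X).trace = ∑ i, Qm o *ᵥ Pi.single i 1 ⬝ᵥ X *ᵥ (Qm o *ᵥ Pi.single i 1) := by
    rw [← QQ, Matrix.mul_assoc, trace_mul_comm, QQ]
    refine Finset.sum_congr rfl fun i _ => ?_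
    rw [Q_single, mulVec_mulVec, mulVec_mulVec]; simp
  rw [e]
  refine (Finset.abs_sum_le_sum_abs _ _).trans ((Finset.sum_le_sum fun i _ =>
    (O6m.abs_quad hX c0 _).trans_eq (by rw [Qe_dot h])).trans ?_)
  rw [← Finset.mul_sum, sum_Qii h]
  nlinarith

theorem tr_cmp (h : o.Ok) (nk : (n : ℝ) ≤ k + 2) {G : Mn n} {Gr : Matrix (Fin k) (Fin k) ℝ}
    (g1 : 1 ≤ g) (Q1 : 1 ≤ Q) (hA : Op2 (A0 o) (Q ^ 2)) (e : A0 o * G = 1) (hG : Op2 G (g ^ 2))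
    (er : Bm o * Gr = 1) (hr : Op2 Gr (g ^ 2)) : |G.trace - Gr.trace| ≤ 4 * Q * g ^ 2 ∧
      |(G * G).trace - (Gr * Gr).trace| ≤ 8 * Q * g ^ 3 := by
  set Y : Mn n := o.E * Gr * o.Eᵀ with hY
  have g0 : 0 ≤ g := by linarith
  have Q0 : 0 ≤ Q := by linarith
  have e' : G * A0 o = 1 := mul_eq_one_comm.1 e
  have er' : Gr * (o.Eᵀ * A0 o * o.E) = 1 := mul_eq_one_comm.1 er
  have oY : Op2 Y (g ^ 2) := fun v => by
    rw [hY, ← mulVec_mulVec, ← mulVec_mulVec, E_dot h]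
    exact (hr _).trans (mul_le_mul_of_nonneg_left (Et_le h v) (sq_nonneg _))
  have x1 : (1 - Y * A0 o) * o.E = 0 := by
    have : Y * A0 o * o.E = o.E * (Gr * (o.Eᵀ * A0 o * o.E)) := by simp only [hY, Matrix.mul_assoc]
    rw [Matrix.sub_mul, this, er', Matrix.mul_one, Matrix.one_mul, sub_self]
  have x2 : G - Y = (1 - Y * A0 o) * Qm o * G := by
    rw [Qm, Matrix.mul_sub, ← Matrix.mul_assoc, x1, Matrix.zero_mul, sub_zero, Matrix.mul_one,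
      Matrix.sub_mul, Matrix.one_mul, Matrix.mul_assoc Y, e, Matrix.mul_one]
  have o1 : ∀ v, (1 - Y * A0 o) *ᵥ v ⬝ᵥ (1 - Y * A0 o) *ᵥ v ≤ (2 * g * Q * √(v ⬝ᵥ v)) ^ 2 := fun v => by
    have hv : v ⬝ᵥ v ≤ √(v ⬝ᵥ v) ^ 2 := (Real.sq_sqrt (dsq v)).ge
    have s0 := Real.sqrt_nonneg (v ⬝ᵥ v)
    have h2 := op2_le oY (op2_le hA hv)
    have h3 := tri (b := g * (Q * √(v ⬝ᵥ v))) s0 (by positivity) hv (v := -(Y *ᵥ (A0 o *ᵥ v)))
      (by rw [neg_dotProduct_neg]; exact h2)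
    rw [sub_mulVec, one_mulVec, ← mulVec_mulVec, sub_eq_add_neg]
    refine h3.trans (pow_le_pow_left₀ (by positivity) ?_ 2)
    have : 1 ≤ g * Q := one_le_mul_of_one_le_of_one_le g1 Q1
    nlinarith
  have tY : Y.trace = Gr.trace := by rw [hY, trace_mul_comm, ← Matrix.mul_assoc, h.iso, Matrix.one_mul]
  have YY : (Y * Y).trace = (Gr * Gr).trace := by
    have : Y * Y = o.E * (Gr * Gr) * o.Eᵀ := by
      calc Y * Y = o.E * Gr * (o.Eᵀ * o.E) * Gr * o.Eᵀ := by simp only [hY, Matrix.mul_assoc]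
        _ = _ := by rw [h.iso, Matrix.mul_one, Matrix.mul_assoc o.E]
    rw [this, trace_mul_comm, ← Matrix.mul_assoc, h.iso, Matrix.one_mul]
  constructor
  · rw [← tY, ← trace_sub, x2, Matrix.mul_assoc, trace_mul_comm, Matrix.mul_assoc]
    refine (tr_Q h nk (c := g * (2 * g * Q)) (by positivity) fun v => ?_).trans_eq (by ring)
    rw [← mulVec_mulVec]
    refine (op2_le hG (o1 v)).trans_eq ?_
    rw [mul_pow g, mul_pow _ √_, Real.sq_sqrt (dsq v)]; ring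
  · have x3 : (G * G).trace - (Y * Y).trace = ((G - Y) * (G + Y)).trace := by
      rw [Matrix.sub_mul, Matrix.mul_add, Matrix.mul_add, trace_sub, trace_add, trace_add,
        trace_mul_comm G Y]; ring
    rw [← YY, x3, x2, Matrix.mul_assoc, Matrix.mul_assoc, trace_mul_comm, Matrix.mul_assoc]
    refine (tr_Q h nk (c := g * (2 * g * (2 * g * Q))) (by positivity) fun v => ?_).trans_eq (by ring)
    rw [← mulVec_mulVec, ← mulVec_mulVec, add_mulVec]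
    have s0 := Real.sqrt_nonneg (v ⬝ᵥ v)
    refine (op2_le hG (tri (by positivity) (by positivity) (op2_le hG (o1 v))
      (op2_le oY (o1 v)))).trans_eq ?_
    linear_combination (16 * g ^ 6 * Q ^ 2) * Real.sq_sqrt (dsq v)

/-- **(M4)** with the traces of `G = (z - W)⁻¹`; `β` is exact, `β n` is close to `2` -/
theorem m4x {μ : Measure (Mat k)} [IsProbabilityMeasure μ] (h : Hy o x χ Q A S) (k4 : 4 ≤ k)
    (Qn : Q ≤ S ^ 2) {G : Mn n} (e : A0 o * G = 1) (g1 : 1 ≤ g)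
    (co : ∀ v, v ⬝ᵥ v ≤ g * (v ⬝ᵥ A0 o *ᵥ v)) {τ1 τ2 : ℝ} (t1 : |n * χ - G.trace| ≤ τ1)
    (t2 : |(1 - χ ^ 2) * (G * G).trace - n * χ ^ 2| ≤ τ2) (L1 : 1 ≤ Λ)
    (hΛ : τ1 + 4 * Q * g ^ 2 ≤ Λ * S) (hμ : SOInv μ) (m : Mo o μ M) :
    ∃ β : ℝ, |β * n - 2| * n ≤ Q ^ 4 * (τ2 + 8 * Q * g ^ 3) ∧ ∀ β' ε : ℝ, |β' - β| * n ≤ ε →
      Op2 (O6.Er4 o (o.P μ) (χ⁻¹ • (1 : Mn n) + β' • vecMulVec o.p o.p))
        ((10 ^ 15 * (A ^ 2 * g ^ 8 * Λ ^ 6 * Q ^ 20 * M ^ 4) / S + 3 * ε * M ^ 2) ^ 2) := by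
  have Q1 := h.Q1
  obtain ⟨Gr, r1, r2, r3, r4⟩ := exists_Gr h.ok (by linarith) (by linarith) h.hA co
  obtain ⟨c1, c2⟩ := tr_cmp h.ok h.nk g1 Q1 h.hA e (op2_inv e (by linarith) co) r2 r3
  have hz : Hz o x Gr χ Q A S g Λ := { h with
    k4 := k4, Qn := Qn, symmG := r1, inv := r2, hG := r3, co := r4, g1 := g1, L1 := L1
    tr := ((abs_sub_le _ G.trace _).trans (add_le_add t1 c1)).trans hΛ }
  refine ⟨bs n χ (Gr * Gr).trace, ?_, fun β' ε hβ => m4 hz hμ m hβ⟩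
  have n0 := hz.n0
  have χ0 := h.χ0
  have χ1 := hz.χ1 n0
  have T0 := hz.T2_pos
  have Ti := hz.T2i
  set T := (Gr * Gr).trace
  have e1 : (bs n χ T * n - 2) * n =
      2 * χ⁻¹ ^ 2 * (S ^ 2 * T⁻¹) * ((1 - χ ^ 2) * T - n * χ ^ 2) := by
    rw [h.SS, bs]; field_simp; ring
  have e2 : |(1 - χ ^ 2) * T - n * χ ^ 2| ≤ τ2 + 8 * Q * g ^ 3 := by
    have : (1 - χ ^ 2) * T - n * χ ^ 2 =
      ((1 - χ ^ 2) * (G * G).trace - n * χ ^ 2) - (1 - χ ^ 2) * ((G * G).trace - T) := by ring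
    rw [this]
    refine (abs_sub _ _).trans (add_le_add t2 ?_)
    have a1 : |1 - χ ^ 2| ≤ 1 := abs_le.2 ⟨by nlinarith, by nlinarith⟩
    rw [abs_mul]
    exact (mul_le_mul a1 c2 (abs_nonneg _) zero_le_one).trans_eq (one_mul _)
  have e3 : χ⁻¹ ^ 2 ≤ (Q / 2) ^ 2 := sq_le_of_abs hz.χi
  rw [← abs_of_pos n0, ← abs_mul, abs_of_pos n0, e1, abs_mul, abs_of_nonneg (by positivity)]
  refine mul_le_mul ?_ e2 (abs_nonneg _) (by positivity)
  exact (mul_le_mul (mul_le_mul_of_nonneg_left e3 zero_le_two) Ti (by positivity)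
    (by positivity)).trans_eq (by ring)



/-! ### the moments -/

theorem mom4 {w : Cube n → ℝ} (hw : Wt w) {ψ : Cube n → Vn n} {c v : Vn n} {v4 κ d : ℝ}
    (h4 : var w (fun s => (v ⬝ᵥ ψ s - mean w fun s => v ⬝ᵥ ψ s) ^ 2) ≤ v4 * (v ⬝ᵥ v) ^ 2)
    (hκ : CB w ψ κ) (hd : (meanV w ψ - c) ⬝ᵥ (meanV w ψ - c) ≤ d) :
    mean w (fun s => (v ⬝ᵥ (ψ s - c)) ^ 4) ≤ 8 * (v4 + κ ^ 2 + d ^ 2) * (v ⬝ᵥ v) ^ 2 := by
  set m := mean w fun s => v ⬝ᵥ ψ s with hm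
  have h1 := mean_sq_eq hw fun s => (v ⬝ᵥ ψ s - m) ^ 2
  have h2 : mean w (fun s => (v ⬝ᵥ ψ s - m) ^ 2) ≤ κ * (v ⬝ᵥ v) := by
    have := hκ v
    rwa [covMat_quad, ← var_eq_cov] at this
  have h3 := pow_le_pow_left₀ (hw.mean_nonneg fun s => sq_nonneg _) h2 2
  have h5 : (m - v ⬝ᵥ c) ^ 2 ≤ v ⬝ᵥ v * d := by
    rw [hm, ← meanV_dot, ← dotProduct_sub]
    exact (cs _ _).trans (mul_le_mul_of_nonneg_left hd (dsq v))
  have h6 := pow_le_pow_left₀ (sq_nonneg _) h5 2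
  have h7 : mean w (fun s => (v ⬝ᵥ (ψ s - c)) ^ 4) ≤
      mean w fun s => 8 * ((v ⬝ᵥ ψ s - m) ^ 2) ^ 2 + 8 * ((m - v ⬝ᵥ c) ^ 2) ^ 2 :=
    hw.mean_mono fun s => by
      have := pow4_le (v ⬝ᵥ ψ s - m) (m - v ⬝ᵥ c)
      rw [sub_add_sub_cancel] at this
      rw [dotProduct_sub]; linarith
  rw [mean_add, mean_const_mul, hw.mean_const, h1] at h7
  linarith

theorem Qf_sq {f1 f2 : Vn n} (h : o.Ok) (hq : Qm o = vecMulVec f1 f1 + vecMulVec f2 f2) (y : Vn n) :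
    (Qm o *ᵥ y ⬝ᵥ Qm o *ᵥ y) ^ 2 ≤ 2 * (f1 ⬝ᵥ y) ^ 4 + 2 * (f2 ⬝ᵥ y) ^ 4 := by
  rw [QQ_dot h, hq, add_mulVec, vecMulVec_mulVec, vecMulVec_mulVec, add_dotProduct, op_smul_eq_smul,
    op_smul_eq_smul, smul_dotProduct, smul_dotProduct, smul_eq_mul, smul_eq_mul]
  nlinarith [sq_nonneg ((f1 ⬝ᵥ y) ^ 2 - (f2 ⬝ᵥ y) ^ 2)]

theorem c_an {f : Cube n → Mat k → ℝ} (hf : ∀ s, Continuous (f s)) :
    Continuous fun U => mean (o.w U) fun s => f s U :=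
  c_mean (v := o.w) (f := fun U s => f s U) Orb.c_w Orb.wt hf

/-- what the moments need from the a priori list -/
structure Cy (o : Oo.Orb n k) (μ : Measure (Mat k)) (c : Cs) (R : ℝ) : Prop where
  ok : o.Ok
  inv : SOInv μ
  nn : c.Nn
  cr : ∃ a, ∀ U ∈ SO k, U ∈ o.G (crude a R)
  PG : 10 ^ 4 * R ^ 2 * (o.P μ).real (o.G c)ᶜ ≤ 1

theorem Cy.of_ctx {μ : Measure (Mat k)} [IsProbabilityMeasure μ] {c : Cs} {R η K δ : ℝ}
    (h : O6.Ctx o μ c R η K δ) : Cy o μ c R :=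
  ⟨h.ok, h.inv, h.nn, ⟨_, fun _ => h.crG⟩, (mul_le_mul_of_nonneg_right
    (O6.le_MM (x := 10 ^ 4) h.R1 2 (by norm_num) (by norm_num)) measureReal_nonneg).trans h.PG⟩

section
variable {μ : Measure (Mat k)} [IsProbabilityMeasure μ] {c : Cs} {R : ℝ} (h : Cy o μ c R)
include h

theorem ctx_int {f : Mat k → ℝ} (hf : Continuous f) {B b : ℝ} (B0 : 0 ≤ B) (b0 : 0 ≤ b)
    (h1 : ∀ U ∈ o.G c, f U ≤ B * b) (h2 : ∀ a, ∀ U ∈ o.G (crude a R), f U ≤ 10 ^ 4 * R ^ 2 * b) :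
    ∫ U, f U ∂o.P μ ≤ (B + 1) * b := by
  have := Orb.P_prob h.inv h.ok
  obtain ⟨a, ha⟩ := h.cr
  refine (int_le_bad (Orb.P_mem h.inv) hf.continuousOn (mul_nonneg B0 b0) (o.G c)ᶜ
    (fun U _ hU => h1 U (not_not.1 hU)) fun U hU => h2 a U (ha U hU)).trans ?_
  nlinarith [mul_le_mul_of_nonneg_left h.PG b0]

theorem ctx_s (v : Vn n) : o.an μ (fun s _ => (v ⬝ᵥ sh o s) ^ 4) ≤
    (8 * (c.v4 + c.k1 ^ 2 + c.d0 ^ 2) + 1) * (v ⬝ᵥ v) ^ 2 := by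
  have := h.nn.v4
  have key : ∀ {c' : Cs} {U : Mat k}, U ∈ o.G c' → mean (o.w U) (fun s => (v ⬝ᵥ sh o s) ^ 4) ≤
      8 * (c'.v4 + c'.k1 ^ 2 + c'.d0 ^ 2) * (v ⬝ᵥ v) ^ 2 := fun {c' U} hU =>
    mom4 (c := o.p) (Orb.wt U) (hU.2.v4 v) hU.2.k1 hU.2.d0
  refine ctx_int h (c_an (f := fun s _ => (v ⬝ᵥ sh o s) ^ 4) fun s => continuous_const)
    (by positivity) (sq_nonneg _)
    (fun U hU => key hU) fun a U hU => (key hU).trans (mul_le_mul_of_nonneg_right ?_ (sq_nonneg _))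
  simp only [crude]; nlinarith [sq_nonneg R]

theorem ctx_y (v : Vn n) : o.an μ (fun s U => (v ⬝ᵥ yv o s U) ^ 4) ≤
    (8 * (c.v4' + c.k2 ^ 2 + c.e0 ^ 2) + 1) * (v ⬝ᵥ v) ^ 2 := by
  have := h.nn.v4'
  have key : ∀ {c' : Cs} {U : Mat k}, U ∈ o.G c' → mean (o.w U) (fun s => (v ⬝ᵥ yv o s U) ^ 4) ≤
      8 * (c'.v4' + c'.k2 ^ 2 + c'.e0 ^ 2) * (v ⬝ᵥ v) ^ 2 := fun {c' U} hU => by
    simpa only [yv, sh, mulVec_sub] using mom4 (c := o.A U *ᵥ o.p) (Orb.wt U) (hU.2.v4' v) hU.2.k2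
      (by rw [meanV_fA, ← mulVec_sub]; exact hU.2.e0)
  refine ctx_int h (c_an (f := fun s U => (v ⬝ᵥ yv o s U) ^ 4) fun s => by fun_prop)
    (by positivity) (sq_nonneg _)
    (fun U hU => key hU) fun a U hU => (key hU).trans (mul_le_mul_of_nonneg_right ?_ (sq_nonneg _))
  simp only [crude]; nlinarith [sq_nonneg R]

theorem ctx_Q {f1 f2 : Vn n} (hq : Qm o = vecMulVec f1 f1 + vecMulVec f2 f2) (n1 : f1 ⬝ᵥ f1 = 1)
    (n2 : f2 ⬝ᵥ f2 = 1) {y : Cube n → Mat k → Vn n} (hy : ∀ s, Continuous (y s)) {B : ℝ}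
    (hB : ∀ v, o.an μ (fun s U => (v ⬝ᵥ y s U) ^ 4) ≤ B * (v ⬝ᵥ v) ^ 2) :
    o.an μ (fun s U => (Qm o *ᵥ y s U ⬝ᵥ Qm o *ᵥ y s U) ^ 2) ≤ 4 * B := by
  have := Orb.P_prob h.inv h.ok
  have hm := Orb.P_mem (o := o) h.inv
  have ci : ∀ v : Vn n, Integrable (fun U => mean (o.w U) fun s => (v ⬝ᵥ y s U) ^ 4) (o.P μ) := fun v =>
    O6.int_of hm (c_an (f := fun s U => (v ⬝ᵥ y s U) ^ 4) fun s => by
      have := hy s; fun_prop).continuousOn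
  have h1 := hB f1
  have h2 := hB f2
  rw [n1] at h1
  rw [n2] at h2
  refine (integral_mono (O6.int_of hm (c_an (f := fun s U => (Qm o *ᵥ y s U ⬝ᵥ Qm o *ᵥ y s U) ^ 2)
    fun s => by have := hy s; fun_prop).continuousOn) (((ci f1).const_mul 2).add ((ci f2).const_mul 2))
      fun U => ((Orb.wt U).mean_mono fun s => Qf_sq h.ok hq (y s U)).trans_eq ?_).trans ?_
  · rw [mean_add, mean_const_mul, mean_const_mul]; rfl
  · simp only [Pi.add_apply]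
    rw [integral_add ((ci f1).const_mul 2) ((ci f2).const_mul 2), integral_const_mul,
      integral_const_mul]
    unfold Oo.Orb.an at h1 h2
    linarith

/-- the moments of (M4) from the a priori list -/
theorem Mo.of_ctx {f1 f2 : Vn n} (hq : Qm o = vecMulVec f1 f1 + vecMulVec f2 f2) (n1 : f1 ⬝ᵥ f1 = 1)
    (n2 : f2 ⬝ᵥ f2 = 1) (M1 : 1 ≤ M) (hs : 32 * (c.v4 + c.k1 ^ 2 + c.d0 ^ 2) + 4 ≤ M ^ 4)
    (hy : 32 * (c.v4' + c.k2 ^ 2 + c.e0 ^ 2) + 4 ≤ M ^ 4) : Mo o μ M where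
  M1 := M1
  mz := (ctx_Q h hq n1 n2 (y := fun s _ => sh o s) (fun _ => continuous_const) (ctx_s h)).trans
    (by linarith)
  my := (ctx_Q h hq n1 n2 (fun s => cont_yv s) (ctx_y h)).trans (by linarith)
  mv := fun v => (ctx_s h v).trans (mul_le_mul_of_nonneg_right (by
    have := h.nn.v4
    nlinarith [sq_nonneg c.k1, sq_nonneg c.d0]) (sq_nonneg _))

end

/-! ### the frame -/

theorem hy_of_hx {f1 f2 : Vn n} {X κ η C : ℝ} (h : O4c.Hx o x f1 f2 χ X κ η C) (A1 : 1 ≤ A)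
    (hA : n * (κ ^ 2 + C ^ 2) ≤ (A * κ * X) ^ 2) : Hy o x χ 6 A √n := by
  obtain ⟨r0, e1, e2, f⟩ := h.fr
  have n4 : (4 : ℝ) ≤ n := by exact_mod_cast f.n4
  have SS : √(n : ℝ) ^ 2 = n := Real.sq_sqrt (by linarith)
  refine ⟨h.ok, f.hp, f.hh, f.hz, h.chi, by linarith [f.lo], by norm_num, A1,
    Real.sqrt_pos.2 (by linarith), SS, by rw [← h.dim]; push_cast; rfl,
    by rw [show (6 : ℝ) ^ 2 = 36 by norm_num]; exact f.opA h.ok, fun i => ?_⟩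
  have k0 := h.k0
  have h1 : (κ * |f2 i|) ^ 2 ≤ (C * |f1 i|) ^ 2 := pow_le_pow_left₀ (by positivity) (h.f2 i) 2
  rw [mul_pow, mul_pow, sq_abs, sq_abs] at h1
  have h2 : x i ^ 2 ≤ (1 + |x i|) ^ 2 := by nlinarith [abs_nonneg (x i), sq_abs (x i)]
  rw [SS, h.hq, Matrix.add_apply, vecMulVec_apply, vecMulVec_apply, mul_pow]
  refine le_trans (le_of_mul_le_mul_left ?_ (pow_pos k0 2)) (mul_le_mul_of_nonneg_left h2 (sq_nonneg A))
  rw [h.hx i]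
  nlinarith [mul_le_mul_of_nonneg_left h1 (by linarith : (0 : ℝ) ≤ n),
    mul_le_mul_of_nonneg_right hA (sq_nonneg (f1 i))]

theorem pp_of_hx {f1 f2 : Vn n} {X κ η C : ℝ} (h : O4c.Hx o x f1 f2 χ X κ η C) :
    4 * (o.p ⬝ᵥ o.p) ≤ n := by
  obtain ⟨r0, e1, e2, f⟩ := h.fr
  rw [f.pe1, smul_dotProduct, dotProduct_smul, f.e11, smul_eq_mul, smul_eq_mul]; linarith [f.pn]

section
variable {μ : Measure (Mat k)} [IsProbabilityMeasure μ] {f1 f2 : Vn n} {X κ η C : ℝ}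
  (h : O4c.Hx o x f1 f2 χ X κ η C) (n6 : 6 ≤ n) (A1 : 1 ≤ A)
  (hA : n * (κ ^ 2 + C ^ 2) ≤ (A * κ * X) ^ 2) {G : Mn n} (e : A0 o * G = 1) (g1 : 1 ≤ g)
  (co : ∀ v, v ⬝ᵥ v ≤ g * (v ⬝ᵥ A0 o *ᵥ v)) {τ1 τ2 ε : ℝ} (t1 : |n * χ - G.trace| ≤ τ1)
  (t2 : |(1 - χ ^ 2) * (G * G).trace - n * χ ^ 2| ≤ τ2) (L1 : 1 ≤ Λ)
  (hΛ : τ1 + 24 * g ^ 2 ≤ Λ * √n) (hε : 1296 * (τ2 + 48 * g ^ 3) ≤ ε * n)
include h n6 A1 hA e g1 co t1 t2 L1 hΛ hε

theorem m4Y {c : Cs} {R : ℝ} (hc : Cy o μ c R) (M1 : 1 ≤ M)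
    (hs : 32 * (c.v4 + c.k1 ^ 2 + c.d0 ^ 2) + 4 ≤ M ^ 4)
    (hy : 32 * (c.v4' + c.k2 ^ 2 + c.e0 ^ 2) + 4 ≤ M ^ 4) :
    ∃ β : ℝ, |β * n - 2| ≤ ε ∧ ∀ β' ε' : ℝ, |β' - β| * n ≤ ε' →
      Op2 (O6.Er4 o (o.P μ) (χ⁻¹ • (1 : Mn n) + β' • vecMulVec o.p o.p))
        ((10 ^ 31 * (A ^ 2 * g ^ 8 * Λ ^ 6 * M ^ 4) / √n + 3 * ε' * M ^ 2) ^ 2) := by
  have hy' := hy_of_hx h A1 hA
  have n6' : (6 : ℝ) ≤ n := by exact_mod_cast n6
  have dim := h.dim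
  obtain ⟨β, b1, b2⟩ := m4x hy' (by omega) (by rw [hy'.SS]; exact n6') e g1 co t1 t2 L1
    (by linarith) hc.inv (Mo.of_ctx hc h.hq h.n1 h.n2 M1 hs hy)
  refine ⟨β, le_of_mul_le_mul_right (by linarith) (by linarith : (0 : ℝ) < n), fun β' ε' hβ => ?_⟩
  have e0 : 0 ≤ ε' := le_trans (by positivity) hβ
  refine O6m.op_mono (b2 β' ε' hβ) (pow_le_pow_left₀ (by positivity) (add_le_add
    (div_le_div_of_nonneg_right ?_ (Real.sqrt_nonneg _)) le_rfl) 2)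
  have : 0 ≤ A ^ 2 * g ^ 8 * Λ ^ 6 * M ^ 4 := by positivity
  linarith


/-- **(M4)** with `β = 2 / n` -/
theorem m4Z (hμ : SOInv μ) {c : Cs} (nn : c.Nn) (hG : 10 ^ 8 * (n : ℝ) ^ 2 * (o.P μ).real (o.G c)ᶜ ≤ 1)
    (M1 : 1 ≤ M) (hs : 32 * (c.v4 + c.k1 ^ 2 + c.d0 ^ 2) + 4 ≤ M ^ 4)
    (hy : 32 * (c.v4' + c.k2 ^ 2 + c.e0 ^ 2) + 4 ≤ M ^ 4) :
    Op2 (O6.Er4 o (o.P μ) (χ⁻¹ • (1 : Mn n) + (2 / (n : ℝ)) • vecMulVec o.p o.p))
      ((10 ^ 31 * (A ^ 2 * g ^ 8 * Λ ^ 6 * M ^ 4) / √n + 3 * ε * M ^ 2) ^ 2) := by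
  have n6' : (6 : ℝ) ≤ n := by exact_mod_cast n6
  have pp := pp_of_hx h
  have hc : Cy o μ c (36 * n) := ⟨h.ok, hμ, nn, ⟨6, fun U hU => Orb.crude_all h.ok
    (hy_of_hx h A1 hA).hA (by linarith) (by linarith) (by linarith) (by linarith) hU⟩, by
      nlinarith [mul_nonneg (sq_nonneg (n : ℝ)) (measureReal_nonneg (μ := o.P μ) (s := (o.G c)ᶜ))]⟩
  obtain ⟨β, b1, b2⟩ := m4Y h n6 A1 hA e g1 co t1 t2 L1 hΛ hε hc M1 hs hy
  refine b2 _ ε ?_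
  rw [← abs_of_nonneg (Nat.cast_nonneg (α := ℝ) n), ← abs_mul, abs_of_nonneg (Nat.cast_nonneg (α := ℝ) n),
    sub_mul, div_mul_cancel₀ _ (by linarith), abs_sub_comm]
  exact b1

end

end Crest.Agent.T157.M4
end
end

-- ▼ part T157/OiM4_53

set_option autoImplicit false
set_option linter.unusedSectionVars false

/-!
Row 157, A2 (helper53): (M4) in the words of `Pm`.
-/

noncomputable section

namespace Crest.Agent.T157.M4

open MeasureTheory Matrix Crest.Agent.Lib.OrthPoinc Set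
open Crest.Agent.T157.Oc Crest.Agent.T157.E Crest.Agent.T157.Od Crest.Agent.T157.Oo
open Crest.Agent.T157.O0 Crest.Agent.T157.Og Crest.Agent.T157.O0.Wb
open Crest.Agent.T157.Qe (zz)
open Crest.Agent.T157.Oa (Az)
open Crest.Agent.T157.Tap (aS)

/-- the two traces from the spectral event, mesh `m` -/
theorem tr12 {n : ℕ} {t e κ q m E : ℝ} {W : Mn n} (h : Cw.WW t e κ W) (e0 : 0 < e) (e1 : e ≤ 1)
    (t0 : 0 < t) (q0 : 0 < q) (q1 : q ≤ 1 / 2) (h8 : 8 * e * t ≤ q ^ 2) (m0 : 0 < m) (mq : 2 * m ≤ q)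
    (hE : (n : ℝ) ^ κ * (2 * √n / q) ≤ E) : ∃ G : Mn n, Az (zz (1 - q)) W * G = 1 ∧
      |n * (1 - q) - G.trace| ≤ E ∧
      |(1 - (1 - q) ^ 2) * (G * G).trace - n * (1 - q) ^ 2| ≤ 23 * m * n / q + 2 * E / m := by
  obtain ⟨a, h1, h2⟩ := ww_iff.1 h
  have h0 : 0 < e * t := by positivity
  have n0 := Nat.cast_nonneg (α := ℝ) n
  have E0 : 0 ≤ E := le_trans (by positivity) hE
  have hz : ∀ g, 0 < g → g ≤ 1 - q + m → q ^ 2 / 4 ≤ zz g - 2 := fun g g0 g1 =>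
    le_trans (by nlinarith) (sq_le_zz g0 (by linarith))
  have er : ∀ g, 0 < g → g ≤ 1 - q + m → er1 n t e κ (zz g - 2) ≤ E := fun g g0 g1 => by
    refine ((min_le_right _ _).trans (min_le_left _ _)).trans (le_trans
      (mul_le_mul_of_nonneg_left (Real.sqrt_le_iff.2 ⟨by positivity, ?_⟩) (by positivity)) hE)
    rw [div_pow, mul_pow, Real.sq_sqrt n0]
    refine (div_le_div_of_nonneg_left n0 (by positivity) (hz g g0 g1)).trans_eq (by field_simp; ring)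
  have c1 : 2 * e * t ≤ zz (1 - q) - 2 := by linarith [hz (1 - q) (by linarith) (by linarith)]
  obtain ⟨r1, -, -, r4, -, r6⟩ := res h1 (h2.lt h0 c1)
  have u0 := h2.tr2_le e0 e1 t0 (g := 1 - q) ⟨by linarith, by linarith⟩ (by rwa [sub_sub_cancel])
  obtain ⟨u1, u2⟩ := h2.tr2 h0 (g₁ := 1 - q - m) (g := 1 - q) (g₂ := 1 - q + m) (by linarith)
    (by linarith) (by linarith) (by linarith) (by linarith [hz (1 - q + m) (by linarith) le_rfl])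
  refine ⟨_, r1, ?_, ?_⟩
  · rw [r4, abs_sub_comm]
    exact (h2.tr _ ⟨by linarith, by linarith⟩ c1).trans (er _ (by linarith) (by linarith))
  rw [r6]
  set T := ∑ i, ((zz (1 - q) - a i) ^ 2)⁻¹
  have T0 : 0 ≤ T := Finset.sum_nonneg fun _ _ => by positivity
  have e2 := er (1 - q) (by linarith) (by linarith)
  have e3 := er (1 - q - m) (by linarith) (by linarith)
  have e4 := er (1 - q + m) (by linarith) le_rfl
  rw [sub_sub_cancel] at u0 u1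
  rw [add_sub_cancel_left] at u2
  rw [div_mul_eq_mul_div, div_le_iff₀ (by nlinarith)] at u1
  rw [div_mul_eq_mul_div, le_div_iff₀ (by nlinarith)] at u2
  set r := 2 * E / m with hr
  have r0 : 0 ≤ r := by positivity
  have f1 := (div_le_div_of_nonneg_right (add_le_add e2 e3) m0.le).trans_eq
    (show (E + E) / m = r by rw [hr]; ring)
  have f2 := (div_le_div_of_nonneg_right (add_le_add e2 e4) m0.le).trans_eq
    (show (E + E) / m = r by rw [hr]; ring)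
  have g1 : (1 - q) * (1 - q - m) ≤ 1 := by nlinarith
  have g2 : (1 - q) * (1 - q + m) ≤ 1 := by nlinarith
  have f3 := (mul_le_mul_of_nonneg_left f1 (show 0 ≤ (1 - q) * (1 - q - m) by nlinarith)).trans
    (mul_le_of_le_one_left r0 g1)
  have f4 := (mul_le_mul_of_nonneg_left f2 (show 0 ≤ (1 - q) * (1 - q + m) by nlinarith)).trans
    (mul_le_of_le_one_left r0 g2)
  have f5 : m * T + m * n ≤ 23 * m * n / q := by
    have h3 : (n : ℝ) ≤ n / q := le_div_self n0 q0 (by linarith)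
    calc m * T + m * n ≤ m * (22 * n / q) + m * (n / q) := by gcongr
      _ = _ := by ring
  have f6 : 0 ≤ q * (m * T) := by positivity
  have f7 : 0 ≤ q * (m * n) := by positivity
  rw [abs_le]
  constructor <;> linarith

/-- the numbers: `n = y ^ 20`, every constant is below `w`, `w ^ 50 ≤ y` -/
theorem num4 {w y : ℝ} (w1 : 10 ^ 40 ≤ w) (wy : w ^ 50 ≤ y) :
    2 * (y ^ 5)⁻¹ * w ≤ 1 ∧ w ^ 3 * y ^ 10 + 24 * (w ^ 3) ^ 2 ≤ w ^ 4 * y ^ 10 ∧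
    1296 * (23 * (y ^ 5)⁻¹ * y ^ 20 * w + 2 * (w ^ 3 * y ^ 10) / (y ^ 5)⁻¹ + 48 * (w ^ 3) ^ 3) ≤
      w ^ 4 / y ^ 5 * y ^ 20 ∧
    10 ^ 31 * ((w ^ 5) ^ 2 * (w ^ 3) ^ 8 * (w ^ 4) ^ 6 * w ^ 4) / y ^ 10 + 3 * (w ^ 4 / y ^ 5) * w ^ 2 ≤
      (y ^ 4)⁻¹ := by
  have w0 : 1 ≤ w := by linarith
  have pw : ∀ j ≤ 50, w ^ j ≤ y := fun j hj => (pow_le_pow_right₀ w0 hj).trans wy
  have y1 : 1 ≤ y := by simpa using pw 0 (by norm_num)
  have py : ∀ j ≠ 0, y ≤ y ^ j := fun j hj => le_self_pow₀ y1 hj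
  have cw : ∀ (c : ℝ) (j i : ℕ), j + 1 = i → c ≤ 10 ^ 40 → c * w ^ j ≤ w ^ i := fun c j i e hc => by
    rw [← e, pow_succ']; exact mul_le_mul_of_nonneg_right (hc.trans w1) (by positivity)
  refine ⟨?_, ?_, ?_, ?_⟩
  · rw [mul_right_comm, mul_inv_le_iff₀ (by positivity), one_mul]
    have := cw 2 1 2 rfl (by norm_num)
    linarith [pw 2 (by norm_num), py 5 (by norm_num)]
  · have h1 := mul_le_mul_of_nonneg_right (cw 2 3 4 rfl (by norm_num)) (by positivity : 0 ≤ y ^ 10)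
    have h2 := ((cw 24 6 7 rfl (by norm_num)).trans (pw _ (by norm_num))).trans (py 10 (by norm_num))
    have h3 : y ^ 10 ≤ w ^ 3 * y ^ 10 := le_mul_of_one_le_left (by positivity) (one_le_pow₀ w0)
    linarith
  · have e : 1296 * (23 * (y ^ 5)⁻¹ * y ^ 20 * w + 2 * (w ^ 3 * y ^ 10) / (y ^ 5)⁻¹ + 48 * (w ^ 3) ^ 3) =
      1296 * (23 * w * y ^ 15 + 2 * w ^ 3 * y ^ 15 + 48 * w ^ 9) := by field_simp
    have e' : w ^ 4 / y ^ 5 * y ^ 20 = w ^ 4 * y ^ 15 := by field_simp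
    rw [e, e']
    have h1 := mul_le_mul_of_nonneg_right (cw (10 ^ 6) 3 4 rfl (by norm_num)) (by positivity : 0 ≤ y ^ 15)
    have h2 := mul_le_mul_of_nonneg_right (le_self_pow₀ w0 (n := 3) (by norm_num))
      (by positivity : 0 ≤ y ^ 15)
    have h3 := (pw 9 (by norm_num)).trans (py 15 (by norm_num))
    have h4 : y ^ 15 ≤ w ^ 3 * y ^ 15 := le_mul_of_one_le_left (by positivity) (one_le_pow₀ w0)
    have h5 : 0 ≤ w ^ 3 * y ^ 15 := by positivity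
    linarith
  · have h1 : 2 * 10 ^ 31 * w ^ 62 ≤ y ^ 6 := ((cw _ 62 63 rfl (by norm_num)).trans
      ((pow_le_pow_right₀ w0 (by norm_num : 63 ≤ 50 * 6)).trans_eq (pow_mul _ _ _))).trans
        (pow_le_pow_left₀ (by positivity) wy 6)
    have h2 := (cw 6 6 7 rfl (by norm_num)).trans (pw _ (by norm_num))
    have h3 := mul_le_mul_of_nonneg_right h2 (by positivity : 0 ≤ y ^ 5)
    have e : 10 ^ 31 * ((w ^ 5) ^ 2 * (w ^ 3) ^ 8 * (w ^ 4) ^ 6 * w ^ 4) / y ^ 10 +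
      3 * (w ^ 4 / y ^ 5) * w ^ 2 = (10 ^ 31 * w ^ 62 + 3 * w ^ 6 * y ^ 5) / y ^ 10 := by field_simp
    rw [e, div_le_iff₀ (by positivity), show (y ^ 4)⁻¹ * y ^ 10 = y ^ 6 by field_simp]
    linarith

/-- **(M4)** above `t**` -/
theorem m4P {p : Pm} {k : ℕ} {o : Orb p.n k} {μ : Measure (Mat k)} [IsProbabilityMeasure μ]
    {x f1 f2 : Vn p.n} {t e X η : ℝ} (od : Ord p) (TC : p.T ≤ p.C) (ht : t ∈ Icc p.lo p.t0)
    (hs : p.tss ≤ t) (e0 : 0 < e) (e1 : e ≤ p.e1) (hμ : SOInv μ) (pt : Kp.At o x)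
    (hW : o.W ∈ p.Wt e t) (q1 : t ≤ p.T * aS x ^ 2) (η1 : η ≤ 1 / 2)
    (hx : O4c.Hx o x f1 f2 (1 - aS x) X (p.T * aS x) η (p.T ^ 4))
    (hG : (o.P μ).real (o.G (c1 p t))ᶜ ≤ dl p) :
    Op2 (O6.Er4 o (o.P μ) (Bz o x)) (e4 p ^ 2) := by
  have lh := od.lh_c ht
  have t0 := lh.t0
  have T1 := od.ok.T
  have N0 := od.N0
  have Nb := od.Nb
  obtain ⟨x1, x2, x3, x4, x5, x6, x7, -⟩ := od.ex
  set q := aS x with hq
  set w := (p.n : ℝ) ^ p.ch with hw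
  set y := (p.n : ℝ) ^ (1 / 20 : ℝ) with hy
  have y0 : 0 < y := od.rp_pos _
  have yp : ∀ j : ℕ, y ^ j = (p.n : ℝ) ^ (j / 20 : ℝ) := fun j => by
    rw [hy, od.rp_pow]; congr 1; ring
  have y20 : y ^ 20 = p.n := by rw [yp]; norm_num
  have y10 : √(p.n : ℝ) = y ^ 10 := by rw [yp, Real.sqrt_eq_rpow]; norm_num
  have y4 : e4 p = (y ^ 4)⁻¹ := by rw [yp, od.rp_inv, e4]; norm_num
  have wy : w ^ 50 ≤ y := by rw [hw, od.rp_pow]; exact od.rp_le (by push_cast; linarith)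
  have cv : (p.n : ℝ) ^ p.cv ≤ w := od.rp_le (by linarith)
  have w1 : 10 ^ 40 ≤ w := le_trans (le_trans (by norm_num) (pow_le_pow_left₀ (by norm_num) od.lgb 4))
    ((od.lg_pow (by norm_num)).trans cv)
  have B8 : 100 * p.B0 ^ 8 ≤ w := (od.cstB0 (by norm_num) (by norm_num)).trans cv
  have B1 := od.B01
  have Bp : ∀ j ≤ 8, p.B0 ^ j ≤ p.B0 ^ 8 := fun j hj => pow_le_pow_right₀ B1 hj
  have Tw : p.T ≤ w := by
    have := TC.trans (od.CK.trans (od.KB.trans od.ok.B0))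
    have := Bp 1 (by norm_num)
    nlinarith [one_le_pow₀ (n := 8) B1]
  have tw : t⁻¹ ≤ w := lh.inv_hi hs
  have w0 : 1 ≤ w := by linarith
  have q0 : 0 < q := pos_of_mul_pos_right hx.k0 (by linarith)
  have q2 : q ≤ 1 / 2 := by nlinarith [hx.ke]
  have qw : 1 ≤ q * w := by
    have h1 : 1 ≤ t * w := by rwa [inv_le_iff_one_le_mul₀' t0] at tw
    have h2 : t * w ≤ (q * w) ^ 2 := by
      calc t * w ≤ w * q ^ 2 * w := by gcongr; exact q1.trans (by gcongr)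
        _ = _ := by ring
    exact (one_le_sq_iff₀ (by positivity)).1 (h1.trans h2)
  have qi : q⁻¹ ≤ w := by rwa [inv_le_iff_one_le_mul₀' q0]
  have ee : e ≤ 1 := by linarith [od.ok.e1_1]
  obtain ⟨a0, a1⟩ := Wt_et od.ok e0 t0
  have h8 : 8 * e ^ p.A * min t p.t2 ≤ q ^ 2 := by
    have h1 : e ^ p.A ≤ p.e1 := (pow_A_le od.ok e0 ee).trans e1
    have h2 : e ^ p.A * t ≤ p.e1 * (p.C * q ^ 2) :=
      mul_le_mul h1 (q1.trans (by gcongr)) t0.le od.ok.e1.1.le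
    nlinarith [mul_le_mul_of_nonneg_right (I31.Ord.Ce od) (sq_nonneg q), sq_nonneg q]
  obtain ⟨n1, n2, n3, n4⟩ := num4 w1 wy
  obtain ⟨G, r1, r2, r3⟩ := tr12 hW (pow_pos e0 _) (pow_le_one₀ e0.le ee) (lt_min t0 od.t2_pos) q0 q2 h8
    (m := (y ^ 5)⁻¹) (E := w ^ 3 * y ^ 10) (by positivity)
    (le_of_mul_le_mul_right (n1.trans qw) (by linarith)) (by
      have h1 : (p.n : ℝ) ^ p.k3 ≤ w := od.rp_le (by linarith)
      rw [y10, div_eq_mul_inv]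
      calc _ ≤ w * (w * y ^ 10 * w) := by gcongr; linarith
        _ = _ := by ring)
  have hz := I31.at_zz pt
  have nn := lh.c1_nn
  have kk := lh.kk_hi hs
  have key := m4Z (μ := μ) (A := w ^ 5) (g := w ^ 3) (Λ := w ^ 4) (M := w) (G := G)
    (τ2 := 23 * (y ^ 5)⁻¹ * y ^ 20 * w + 2 * (w ^ 3 * y ^ 10) / (y ^ 5)⁻¹) (ε := w ^ 4 / y ^ 5) hx
    (by exact_mod_cast (show (6 : ℝ) ≤ p.n by linarith)) (one_le_pow₀ w0) ?_
    (by rw [Mj.A0, hz]; exact r1) (one_le_pow₀ w0) (fun v => ?_) r2 (r3.trans ?_) (one_le_pow₀ w0)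
    (y10 ▸ n2) (n3.trans_eq (by rw [y20])) hμ nn ?_ w0 ?_ ?_
  · rw [Bz, Kp.W41.chi_eq (I31.at_n pt), y4]
    rw [y10] at key
    exact O6m.op_mono key (pow_le_pow_left₀ (by positivity) n4 2)
  · have h1 : p.n * q ≤ X ^ 2 := by
      rw [← I31.at_pp pt, ← mul_one (X ^ 2), ← hx.n1, pt.p, dotProduct, dotProduct, Finset.mul_sum]
      refine Finset.sum_le_sum fun i _ => ?_
      have h2 := sq_le_of_abs (tanh_small (x i)).1
      rw [sq_abs] at h2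
      calc _ = Real.tanh (x i) ^ 2 := (sq _).symm
        _ ≤ x i ^ 2 := h2
        _ = _ := by rw [hx.hx i]; ring
    have h2 : (p.T * q) ^ 2 ≤ (p.T ^ 4) ^ 2 :=
      pow_le_pow_left₀ hx.k0.le (by linarith [hx.ke, hx.C1]) 2
    have h3 : 2 * p.T ^ 6 ≤ w ^ 10 * q ^ 3 :=
      calc 2 * p.T ^ 6 ≤ w * w ^ 6 * 1 := by rw [mul_one]; gcongr; linarith
        _ ≤ w * w ^ 6 * (q * w) ^ 3 := by gcongr; exact one_le_pow₀ qw
        _ = _ := by ring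
    calc (p.n : ℝ) * ((p.T * q) ^ 2 + (p.T ^ 4) ^ 2) ≤ p.n * (p.T ^ 2 * (2 * p.T ^ 6)) := by
          gcongr; linarith
      _ ≤ p.n * (p.T ^ 2 * (w ^ 10 * q ^ 3)) := by gcongr
      _ = (w ^ 5 * (p.T * q)) ^ 2 * (p.n * q) := by ring
      _ ≤ (w ^ 5 * (p.T * q)) ^ 2 * X ^ 2 := by gcongr
      _ = _ := by ring
  · have h1 := (ww_form hW o.z v).1
    have h2 := (I31.at_z2 pt q2).1
    have h3 : q ^ 2 / 2 * (v ⬝ᵥ v) ≤ v ⬝ᵥ Mj.A0 o *ᵥ v :=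
      (mul_le_mul_of_nonneg_right (by linarith) (dsq v)).trans h1
    have h4 : 1 ≤ w ^ 3 * (q ^ 2 / 2) := by nlinarith [one_le_pow₀ (n := 2) qw]
    nlinarith [mul_le_mul_of_nonneg_left h3 (by positivity : 0 ≤ w ^ 3),
      mul_le_mul_of_nonneg_right h4 (dsq v)]
  · rw [y20, div_eq_mul_inv _ q]; gcongr
  · refine (mul_le_mul_of_nonneg_left hG (by positivity)).trans ?_
    rw [Og.dl, mul_inv_le_iff₀ (by positivity), one_mul, show 20 = 18 + 2 from rfl, pow_add]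
    exact mul_le_mul_of_nonneg_right (le_trans (by linarith) (le_self_pow₀ od.N1.le (by norm_num)))
      (by positivity)
  · have h1 : p.Bt t ^ 2 ≤ p.B0 ^ 8 :=
      (pow_le_pow_left₀ (by linarith [lh.Bt1, od.B1]) lh.Bt_le 2).trans (Bp 2 (by norm_num))
    have h2 : t⁻¹ ^ 2 ≤ w ^ 2 := by gcongr
    have h3 := Bp 1 (by norm_num)
    have h4 : (p.B0 + p.Bt t ^ 2 + p.B0 ^ 8) * t⁻¹ ^ 2 ≤ 3 * p.B0 ^ 8 * w ^ 2 := by gcongr; linarith
    have h5 : 100 * p.B0 ^ 8 * w ^ 2 ≤ w * w ^ 2 := by gcongr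
    have h6 : 1 ≤ p.B0 ^ 8 * w ^ 2 := one_le_mul_of_one_le_of_one_le (one_le_pow₀ B1) (one_le_pow₀ w0)
    have h7 : w ^ 3 ≤ w ^ 4 := pow_le_pow_right₀ w0 (by norm_num)
    simp only [c1, Cs.ctr, Pm.cq, div_eq_mul_inv, ← inv_pow]
    linarith
  · have h1 : (t ^ p.k3)⁻¹ ≤ w := lh.uu_le.trans (od.rp_le (by linarith))
    have h2 := Bp 2 (by norm_num)
    have h3 := Bp 1 (by norm_num)
    have h4 : p.B0 * (t ^ p.k3)⁻¹ ≤ p.B0 ^ 8 * w := by gcongr; linarith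
    have h5 : p.B0 ^ 8 ≤ p.B0 ^ 8 * w := le_mul_of_one_le_right (by positivity) w0
    have h6 : 100 * p.B0 ^ 8 * w ≤ w * w := by gcongr
    have h7 : w ^ 2 ≤ w ^ 4 := pow_le_pow_right₀ w0 (by norm_num)
    have h8 : 1 ≤ p.B0 ^ 8 := one_le_pow₀ B1
    simp only [c1, Cs.ctr, Pm.cq, div_eq_mul_inv, kk, one_pow, mul_one]
    linarith

theorem _root_.Crest.Agent.T157.Oi.m4L : Oi.M4L := by
  filter_upwards [ev_ord, ev_C fun q => ev_ge q.T] with p od TC t e h H k o μ _ x c xd _ hs hG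
  have h0 : 0 ≤ h := (sq_nonneg e).trans c.h0
  have h1 : h ≤ 1 / 2 := by linarith [c.h1, c.er.2.1, od.ok.e1_1]
  exact m4P od TC ⟨c.lo, c.hi⟩ hs c.er.1 c.er.2.1 c.inv c.pt c.W c.nx.q1 (by nlinarith) xd.hx hG

end Crest.Agent.T157.M4
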