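import Crest.Agent.T157.O0I_21
import Crest.Agent.T157.O0S4_5_Mg
import Crest.Agent.T157.Kp_12
import Crest.Agent.T157.OaP_48
import Crest.Agent.T157.KbAll_5
import Crest.Agent.T157.KbMg_67
import Crest.Agent.T157.OiXd_15_Mg
import Crest.Agent.T157.OiM4_53_Mg
import Crest.Agent.T157.KbBg_9_Mg
import Crest.Agent.T157.FinF_88

-- ▼ part T157/O0All_21
section

/-!
# Row 157, block A2: the joint planted theorem from its leaves (helper21)
-/

set_option autoImplicit false

namespace Crest.Agent.T157.O0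

theorem in_base : Og.InC Kb.base ∧ Og.InS Kb.base :=
  Oi.inGlue Kb.measG Oi.backL Oi.fxL Oi.posL Oi.xdL Oi.wdL
    (Oi.fmGlue O4c.m1Core Oi.xdL Oi.wdL Oi.bdL) Oi.m1L Oi.m23L Oi.m4L

theorem orbC_base : OrbC Kb.base := Og.orbC_of in_base.1 Kb.t1C

theorem orbS_base : OrbS Kb.base := Og.orbS_of in_base.2 Kb.t1S

/-- the joint planted theorem from the first-moment bound of the good event -/
theorem thm_of_base (hb : Kb.BaseGlue) : Thm :=
  have h := Kb.topGlue Kb.measG
    (hb Kb.measG (Kb.colStmt Kb.measG Kb.margStmt Kb.All.all Kb.xdStmt) Kb.trPt)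
  indGlue wStmt gmStmt Kp.stepStmt Oa.pack startStmt Kb.base h.1 h.2 orbC_base orbS_base


end Crest.Agent.T157.O0
end

-- ▼ part T157/O0Thm_1

/-!
# Row 157, block A2: the joint planted theorem, unconditional (assembly, helper1)
-/

set_option autoImplicit false

namespace Crest.Agent.T157

theorem Kb.baseGlue1 : Kb.BaseGlue :=
  Kb.Bg9.base_of Kb.margStmt (fun _ _ a b c => Kb.All.b1G a b c) Kb.All.b1s Kb.All.b2 Kb.All.b3
    Kb.All.cnt Kb.All.cntS Kb.All.pos Kb.atStmt (Kb.haStmt Kb.margStmt Kb.All.all Kb.xdStmt)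

/-- the joint planted theorem -/
theorem O0.thm1 : O0.Thm := O0.thm_of_base Kb.baseGlue1


theorem TopZ.r29_1 : Top.R29 := TopZ.r29_thm O0.thm1

end Crest.Agent.T157
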