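import Crest.Agent.T157.OaDef_48
import Crest.Agent.T157.OaG_5
import Crest.Agent.T157.O0Def_21
import Crest.Agent.T157.OaN_48

-- ▼ part T157/OaA_48
section

set_option autoImplicit false
set_option linter.unusedSectionVars false

/-!
Row 157, A2 (helper48): calculus of the properties derivable from the future (`Dv`).
-/

noncomputable section

namespace Crest.Agent.T157.Oa

open MeasureTheory Matrix Filter Topology Set
open Crest.Agent.T157.E Crest.Agent.T157.SL Crest.Agent.T157.Ks Crest.Agent.T157.Od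
open Crest.Agent.T157.Oo

variable {n : ℕ}

/-- the numerical frame: `R` bounds all features, `ε` bounds all conditional failures -/
structure Ctx (I : Finset (Tst n)) (ρ ε R : ℝ) : Prop where
  pos : ∀ τ ∈ I, 0 < τ.lam
  lam1 : ∀ τ ∈ I, τ.lam ≤ 1
  ρ0 : 0 < ρ
  ρε : ρ ≤ ε
  card : I.card * ρ ≤ ε
  R2 : 2 ≤ R
  nR : 36 * (n : ℝ) ≤ R
  small : 10 ^ 12 * R ^ 16 * ε ≤ 1

variable {I : Finset (Tst n)} {W : Mn n} {ρ ε R t u u' a b a' b' h : ℝ} {v : Cube n → ℝ} {m m' : ℕ}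
  {Q Q' : ℝ → (Cube n → ℝ) → Prop}

namespace Ctx

theorem ε0 (c : Ctx I ρ ε R) : 0 < ε := c.ρ0.trans_le c.ρε

theorem R1 (c : Ctx I ρ ε R) : 1 ≤ R := by linarith [c.R2]

theorem R0 (c : Ctx I ρ ε R) : 0 < R := by linarith [c.R2]

/-- every error term `A * ε` with `A ≤ 10^12 R^16` is at most one -/
theorem err (c : Ctx I ρ ε R) {A : ℝ} (hA : A ≤ 10 ^ 12 * R ^ 16) : A * ε ≤ 1 :=
  (mul_le_mul_of_nonneg_right hA c.ε0.le).trans c.small

theorem err' (c : Ctx I ρ ε R) {A : ℝ} {k : ℕ} (hA : A ≤ 10 ^ 12) (hk : k ≤ 16) :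
    A * R ^ k * ε ≤ 1 :=
  c.err (mul_le_mul hA (pow_le_pow_right₀ c.R1 hk) (pow_nonneg c.R0.le _) (by positivity))

/-- an error term is smaller than `1 / R ^ j` -/
theorem err_div (c : Ctx I ρ ε R) {A : ℝ} {k j : ℕ} (hA : A ≤ 10 ^ 12) (hk : k + j ≤ 16) :
    A * R ^ k * ε ≤ 1 / R ^ j := by
  rw [le_div_iff₀ (pow_pos c.R0 j)]
  have := c.err' hA hk
  rw [pow_add] at this
  linarith

theorem ε1 (c : Ctx I ρ ε R) : ε ≤ 1 := by
  have := c.err' (A := 1) (k := 0) (by norm_num) (by norm_num)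
  simpa using this

theorem ρ1 (c : Ctx I ρ ε R) : ρ ≤ 1 := c.ρε.trans c.ε1

theorem bd (c : Ctx I ρ ε R) : Bd (sv (n := n)) R :=
  Oo.bd_sv.mono (by linarith [c.nR, Nat.cast_nonneg (α := ℝ) n])

theorem bdA (c : Ctx I ρ ε R) {A : Mn n} {a : ℝ} (hA : Op2 A (a ^ 2)) (ha : a ^ 2 ≤ 36) :
    Bd (fA A sv) R :=
  (bd_fA hA).mono ((mul_le_mul_of_nonneg_right ha (Nat.cast_nonneg n)).trans c.nR)

end Ctx

theorem FG.depth (c : Ctx I ρ ε R) (e : m ≤ m') (hv : FG I W (ρ ^ m') u v) : FG I W (ρ ^ m) u v :=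
  hv.le c.pos (pow_le_pow_of_le_one c.ρ0.le c.ρ1 e)

/-- a test of the family, seen from an earlier time -/
theorem FG.test (c : Ctx I ρ ε R) (hv : FG I W (ρ ^ (m + 1)) u v) {τ : Tst n} (hτ : τ ∈ I)
    (hu : u ≤ τ.s) : Fut sv (τ.s - u) (ε * τ.lam) (τ.P W) v :=
  (hv.2 τ hτ hu).le (mul_le_mul_of_nonneg_right
    (((pow_le_pow_of_le_one c.ρ0.le c.ρ1 (Nat.le_add_left 1 m)).trans_eq (pow_one ρ)).trans c.ρε)
    (c.pos τ hτ).le)

theorem FG.test' (c : Ctx I ρ ε R) (hv : FG I W (ρ ^ (m + 1)) u v) {τ : Tst n} (hτ : τ ∈ I)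
    (hu : u ≤ τ.s) : Fut sv (τ.s - u) ε (τ.P W) v :=
  (hv.test c hτ hu).le (mul_le_of_le_one_right c.ε0.le (c.lam1 τ hτ))

namespace Dv

theorem depth (c : Ctx I ρ ε R) (hQ : Dv I W ρ m a b Q) (e : m ≤ m') : Dv I W ρ m' a b Q :=
  fun u hu v hv => hQ u hu v (hv.depth c e)

theorem sub (hQ : Dv I W ρ m a b Q) (ha : a ≤ a') (hb : b' ≤ b) : Dv I W ρ m a' b' Q :=
  fun u hu => hQ u ⟨ha.trans hu.1, hu.2.trans hb⟩

theorem imp (hQ : Dv I W ρ m a b Q) (e : ∀ u ∈ Icc a b, ∀ v, (∀ x, 0 < v x) → Q u v → Q' u v) :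
    Dv I W ρ m a b Q' := fun u hu v hv => e u hu v hv.1 (hQ u hu v hv)

theorem and (hQ : Dv I W ρ m a b Q) (hQ' : Dv I W ρ m a b Q') :
    Dv I W ρ m a b fun u v => Q u v ∧ Q' u v := fun u hu v hv => ⟨hQ u hu v hv, hQ' u hu v hv⟩

theorem union (hQ : Dv I W ρ m a b Q) (hQ' : Dv I W ρ m b b' Q) : Dv I W ρ m a b' Q :=
  fun u hu => (le_total u b).elim (fun e => hQ u ⟨hu.1, e⟩) fun e => hQ' u ⟨e, hu.2⟩

theorem pos : Dv I W ρ m a b fun _ v => ∀ x, 0 < v x := fun _ _ _ hv => hv.1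

/-- a derivable property holds at later times, up to `ε` -/
theorem fut (c : Ctx I ρ ε R) (hQ : Dv I W ρ m a b Q) (hv : FG I W (ρ ^ (m + 1)) u v) (e : u ≤ u')
    (hu : u' ∈ Icc a b) : Fut sv (u' - u) ε (Q u') v := by
  have h1 := hv.inherit c.pos (pow_nonneg c.ρ0.le _) (pow_pos c.ρ0 m) e
  rw [pow_succ, mul_div_cancel_left₀ _ (pow_pos c.ρ0 m).ne'] at h1
  exact (h1.le c.card).mono hv.wt fun v' _ h2 => hQ u' hu v' h2

/-- a derivable property holds along a window, up to `ε` -/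
theorem ap (c : Ctx I ρ ε R) (hQ : Dv I W ρ m a b Q) (hv : FG I W (ρ ^ (m + 1)) u v) (ha : a ≤ u)
    (hb : u + h ≤ b) {P : (Cube n → ℝ) → Prop}
    (e : ∀ u' ∈ Icc u (u + h), ∀ v', Wt v' → Q u' v' → P v') : AP sv v h ε P := fun r hr => by
  have h1 := hQ.fut c hv (u' := u + r) (by linarith [hr.1]) ⟨by linarith [hr.1], by linarith [hr.2]⟩
  rw [add_sub_cancel_left] at h1
  exact h1.mono hv.wt (e _ ⟨by linarith [hr.1], by linarith [hr.2]⟩)

theorem ap' (c : Ctx I ρ ε R) {P : (Cube n → ℝ) → Prop} (hQ : Dv I W ρ m a b fun _ => P)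
    (hv : FG I W (ρ ^ (m + 1)) u v) (ha : a ≤ u) (hb : u + h ≤ b) : AP sv v h ε P :=
  hQ.ap c hv ha hb fun _ _ _ _ h => h

end Dv

end Crest.Agent.T157.Oa
end
end

-- ▼ part T157/OaB_48
section

set_option autoImplicit false
set_option linter.unusedSectionVars false

/-!
Row 157, A2 (helper48): the short range part of the a priori list ((S1)-(S5) with explicit constants).
-/

noncomputable section

namespace Crest.Agent.T157.Oa

open MeasureTheory Matrix Filter Topology Set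
open Crest.Agent.T157.E Crest.Agent.T157.SL Crest.Agent.T157.Ks Crest.Agent.T157.Od
open Crest.Agent.T157.Oo

variable {n : ℕ}

/-- the parameters from which the list of constants is computed -/
structure Pm where
  (a h κ k al be ga N N' v4' : ℝ)

namespace Pm

variable (q : Pm)

def s1 : ℝ := 4 * q.be / q.h + 32 * (q.k + q.h) * q.al + 1
def s1' : ℝ := 4 * q.al / q.h + 16 * q.k * q.ga + 1

/-- the constants of `APt` -/
def cs : Cs where
  a := q.a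
  k1 := q.κ
  k2 := q.k
  a1 := q.al
  b := q.be
  c2 := q.ga
  N := q.N
  N' := q.N'
  s1 := q.s1
  s1' := q.s1'
  s2 := (4 * q.a ^ 2 / q.h + 144 * q.k) * q.s1 + 1
  s2' := 52 * q.s1 / q.h + 96 * q.k * q.s1' + 1
  t4 := 2960 * q.k / q.h ^ 3 + 1
  t3 := 20 * q.k / q.h ^ 2 + 1
  t3' := 20 / q.h ^ 3 + 1
  q4 := q.a ^ 2 * (2960 * q.k ^ 2 / q.h ^ 2 + 1)
  q3 := q.a ^ 2 * (20 * q.k ^ 2 / q.h + 1)
  q3' := 20 * q.k ^ 2 / q.h + 1
  v4 := 60 / q.h ^ 2
  v4' := q.v4'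
  d0 := 0
  e0 := 0

/-- admissible parameters -/
structure Ok (R : ℝ) : Prop where
  a0 : 0 < q.a
  a6 : q.a ^ 2 ≤ 36
  h1 : q.h ≤ 1
  hR : 1 ≤ q.h * R
  κ0 : 0 ≤ q.κ
  κh : q.κ * q.h ≤ 1
  k0 : 0 ≤ q.k
  kR : q.k ≤ R
  al0 : 0 ≤ q.al
  be0 : 0 ≤ q.be
  ga0 : 0 ≤ q.ga

end Pm

/-- the five second order bounds -/
def B2 (q : Pm) (A : Mn n) (v : Cube n → ℝ) : Prop :=
  CB v sv q.κ ∧ CB v (fA A sv) q.k ∧ fr (A * covMat v sv - 1) ≤ q.al ∧
    fr (A * covMat v sv * A - A) ≤ q.be ∧ fr (covMat v sv) ≤ q.ga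

theorem fr_C (v : Cube n → ℝ) : fr (covMat v sv) = T2 v sv sv 0 := by
  simp only [fr, T2, covMat, Pi.zero_apply, sub_zero]

theorem T4_swap {Ω J L M K : Type*} [Fintype Ω] [Fintype J] [Fintype L] [Fintype M] [Fintype K]
    (w : Ω → ℝ) (ψ : Ω → J → ℝ) (χ : Ω → L → ℝ) (ρ : Ω → M → ℝ) (φ : Ω → K → ℝ) :
    T4 w ψ χ ρ φ = T4 w χ ψ ρ φ := by
  have e : ∀ f g l k : Ω → ℝ, cum4 w f g l k = cum4 w g f l k := fun f g l k => by
    simp only [cum4, mul_comm (f _ - _) (g _ - _), cov_comm w f g]; ring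
  simp only [T4]; rw [Finset.sum_comm]; simp only [e fun x => ψ x _]

theorem T4_swap' {Ω J L M K : Type*} [Fintype Ω] [Fintype J] [Fintype L] [Fintype M] [Fintype K]
    (w : Ω → ℝ) (ψ : Ω → J → ℝ) (χ : Ω → L → ℝ) (ρ : Ω → M → ℝ) (φ : Ω → K → ℝ) :
    T4 w ψ χ ρ φ = T4 w ψ ρ χ φ := by
  simp only [T4]
  refine Finset.sum_congr rfl fun j _ => ?_
  rw [Finset.sum_comm]; simp only [cum4_comm' w _ fun x => χ x _]

theorem T4_swap'' {Ω J L M K : Type*} [Fintype Ω] [Fintype J] [Fintype L] [Fintype M] [Fintype K]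
    (w : Ω → ℝ) (ψ : Ω → J → ℝ) (χ : Ω → L → ℝ) (ρ : Ω → M → ℝ) (φ : Ω → K → ℝ) :
    T4 w ψ χ ρ φ = T4 w ψ χ φ ρ := by
  simp only [T4]
  refine Finset.sum_congr rfl fun j _ => Finset.sum_congr rfl fun l _ => ?_
  rw [Finset.sum_comm]; simp only [cum4_comm w _ _ fun x => ρ x _]

theorem op2_rows {A : Mn n} {a : ℝ} (h : Op2 A a) (v : Vn n) : ∑ m, (A m ⬝ᵥ v) ^ 2 ≤ a * ∑ i, v i ^ 2 := by
  have := h v
  simpa only [dotProduct, mulVec, sq] using this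

theorem fr_le_of_op2 {A : Mn n} {a : ℝ} (h : Op2 A a) : fr A ≤ a * n := by
  simpa only [Matrix.mul_one, fr_one] using h.fr_left 1

theorem sm_num {κ h X Y : ℝ} (hh : 0 < h) (hκ : κ * h ≤ 1) (hX : 0 ≤ X) (hY : 0 ≤ Y) :
    2 * (1 + κ * h) * (X / h + 4 * h * Y) ≤ 4 * X / h + 16 * h * Y := by
  have : 0 ≤ X / h + 4 * h * Y := by positivity
  calc _ ≤ 2 * (1 + 1) * (X / h + 4 * h * Y) := by gcongr
    _ = _ := by ring

variable {I : Finset (Tst n)} {W A : Mn n} {ρ ε R t u : ℝ} {v : Cube n → ℝ} {m : ℕ} {q : Pm}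

namespace Pm.Ok

theorem h0 (c : Ctx I ρ ε R) (o : q.Ok R) : 0 < q.h := by
  by_contra h
  nlinarith [o.hR, c.R0, not_lt.1 h]

theorem inv_le (c : Ctx I ρ ε R) (o : q.Ok R) : 1 / q.h ≤ R := by
  rw [div_le_iff₀ (o.h0 c)]; linarith [o.hR]

theorem κ_le (c : Ctx I ρ ε R) (o : q.Ok R) : q.κ ≤ 1 / q.h := by
  rw [le_div_iff₀ (o.h0 c)]; exact o.κh

theorem κR (c : Ctx I ρ ε R) (o : q.Ok R) : q.κ ≤ R := (o.κ_le c).trans (o.inv_le c)

theorem div_le (c : Ctx I ρ ε R) (o : q.Ok R) {x : ℝ} (hx : 0 ≤ x) : x / q.h ≤ R * x := by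
  rw [div_eq_mul_one_div, mul_comm]; exact mul_le_mul_of_nonneg_right (o.inv_le c) hx

theorem s1_nn (c : Ctx I ρ ε R) (o : q.Ok R) : 0 ≤ q.s1 := by
  have := o.h0 c; have := o.k0; have := o.al0; have := o.be0; unfold s1; positivity

theorem s1'_nn (c : Ctx I ρ ε R) (o : q.Ok R) : 0 ≤ q.s1' := by
  have := o.h0 c; have := o.k0; have := o.al0; have := o.ga0; unfold s1'; positivity

theorem nn (c : Ctx I ρ ε R) (o : q.Ok R) (h1 : 0 ≤ q.N) (h2 : 0 ≤ q.N') (h3 : 0 ≤ q.v4') : q.cs.Nn := by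
  have := o.h0 c; have := o.k0; have := o.al0; have := o.ga0; have := o.be0; have := o.κ0
  have := o.s1_nn c; have := o.s1'_nn c; have := o.a0
  constructor <;> simp only [cs] <;> positivity

end Pm.Ok

theorem sc1_le {κ h : ℝ} (hh : 0 < h) (κ0 : 0 ≤ κ) (hκ : κ * h ≤ 1) : sc1 κ h ≤ 20 / h := by
  have h1 := sm_num hh hκ zero_le_one (sq_nonneg κ)
  have h2 : h * κ ^ 2 ≤ 1 / h := by
    rw [le_div_iff₀ hh]; nlinarith [mul_nonneg κ0 hh.le]
  unfold sc1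
  have e : 20 / h = 4 * 1 / h + 16 * (1 / h) := by ring
  rw [e]; nlinarith

theorem sc1_crude {κ h R : ℝ} (hh : 0 < h) (h1 : h ≤ 1) (hR : 1 / h ≤ R) (κ0 : 0 ≤ κ) (hκ : κ ≤ R)
    (R1 : 1 ≤ R) : sc1 (κ + R) h ≤ 102 * R ^ 3 := by
  unfold sc1
  have a1 : 1 + (κ + R) * h ≤ 3 * R := by nlinarith
  have a2 : 1 / h + 4 * h * (κ + R) ^ 2 ≤ 17 * R ^ 2 := by
    have : (κ + R) ^ 2 ≤ (2 * R) ^ 2 := by gcongr; linarith
    nlinarith [sq_nonneg (κ + R)]
  calc _ ≤ 2 * (3 * R) * (17 * R ^ 2) := by gcongr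
    _ = _ := by ring

theorem S3P.mono {J L : Type*} [Fintype J] [Fintype L] {ψ : Cube n → J → ℝ} {χ : Cube n → L → ℝ}
    {a a' e e' : ℝ} (hv : Wt v) (h : S3P sv ψ χ a e v) (ha : a ≤ a') (he : e ≤ e') :
    S3P sv ψ χ a' e' v := fun x => (h x).trans (add_le_add
  (mul_le_mul_of_nonneg_right ha (hv.var_nonneg _)) (mul_le_mul_of_nonneg_right he (dot_self_nonneg x)))

/-- third cumulants with one fixed slot, on a window of length `h` -/
theorem s3p_of (c : Ctx I ρ ε R) {ψ : Cube n → Fin n → ℝ} (hψ : Bd ψ R) {κ h k : ℝ} (hh : 0 < h)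
    (h1 : h ≤ 1) (hR : 1 / h ≤ R) (κ0 : 0 ≤ κ) (hκ : κ * h ≤ 1) (k0 : 0 ≤ k) (hv : Wt v)
    (hC : CB v sv κ) (hP : AP sv v h ε fun v => CB v sv κ ∧ CB v ψ k) :
    S3P sv ψ sv (20 * k / h) (1632 * R ^ 5 * ε) v := by
  have κR : κ ≤ R := ((le_div_iff₀ hh).2 hκ).trans hR
  refine S3P.mono hv (S3P_of hv hh κ0 hC c.bd hψ k0 hP) ?_ ?_
  · exact (mul_le_mul_of_nonneg_right (sc1_le hh κ0 hκ) k0).trans_eq (by ring)
  · have := c.ε0
    have := c.R0
    exact (mul_le_mul_of_nonneg_right (sc1_crude hh h1 hR κ0 κR c.R1) (by positivity)).trans_eq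
      (by ring)

/-- the third order bounds -/
def B3 (q : Pm) (e : ℝ) (A : Mn n) (v : Cube n → ℝ) : Prop :=
  T3 v (fA A sv) (fA A sv) sv ≤ q.s1 ∧ T3 v (fA A sv) sv sv ≤ q.s1' ∧
    S3P sv (fA A sv) sv (20 * q.k / q.h) e v ∧ S3P sv sv sv (20 * q.κ / q.h) e v

theorem b3_of (c : Ctx I ρ ε R) (o : q.Ok R) (hA : Aᵀ = A) (ha : Op2 A (q.a ^ 2))
    (hD : Dv I W ρ m t (t + 2 * q.h) fun _ => B2 q A) :
    Dv I W ρ (m + 1) t (t + q.h) fun _ => B3 q (1632 * R ^ 5 * ε) A := by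
  intro u hu v hv
  have h0 := o.h0 c
  have hw := hv.wt
  have ε0 := c.ε0
  have R0 := c.R0
  have R1 := c.R1
  have bA := c.bdA ha o.a6
  have now := hD u ⟨hu.1, by linarith [hu.2]⟩ v (hv.depth c (Nat.le_succ m))
  have ap := hD.ap' c hv hu.1 (h := q.h) (by linarith [hu.2])
  have RR : R ≤ R ^ 2 := by nlinarith
  have nR : (n : ℝ) ≤ R := by linarith [c.nR, Nat.cast_nonneg (α := ℝ) n]
  have f1 : ∑ j, ∑ l, (1 : Mn n) j l ^ 2 ≤ R ^ 2 := (fr_one (n := n)).trans_le (nR.trans RR)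
  have fA' : ∑ j, ∑ l, A j l ^ 2 ≤ R ^ 2 := (fr_le_of_op2 ha).trans
    (((mul_le_mul_of_nonneg_right o.a6 (Nat.cast_nonneg n)).trans c.nR).trans RR)
  have k0 := o.k0
  have κ0 := o.κ0
  have e2 := o.div_le c (x := 34 * R ^ 2 * ε) (by positivity)
  have e3 : q.h * (34 * R ^ 4 * ε) ≤ 34 * R ^ 4 * ε := mul_le_of_le_one_left (by positivity) o.h1
  have e4 := c.err' (A := 272) (k := 3) (by norm_num) (by norm_num)
  have e5 := c.err' (A := 1088) (k := 4) (by norm_num) (by norm_num)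
  refine ⟨?_, ?_, s3p_of c bA h0 o.h1 (o.inv_le c) κ0 o.κh k0 hw now.1
    (ap.mono hw fun _ _ h => ⟨h.1, h.2.1⟩), s3p_of c c.bd h0 o.h1 (o.inv_le c) κ0 o.κh κ0 hw now.1
    (ap.mono hw fun _ _ h => ⟨h.1, h.1⟩)⟩
  · have al0 := o.al0
    have be0 := o.be0
    refine (S1 (c := A) (c' := (1 : Mn n)) hw h0 κ0 now.1 R1 c.bd bA bA fA' f1 be0
      (β := 2 * (q.k * q.κ + 1) * q.al) (by positivity) (ap.mono hw fun w hw' h =>
        ⟨fr_ACA hA A ▸ h.2.2.2.1, (D2_one_le hw' h.2.1 k0 h.1).trans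
          (mul_le_mul_of_nonneg_left (fr_AC hA 1 ▸ h.2.2.1) (by positivity))⟩)).trans
      ((sm_num h0 o.κh (by positivity) (by positivity)).trans ?_)
    have e6 : q.k * (q.κ * q.h) * q.al ≤ q.k * 1 * q.al := by gcongr; exact o.κh
    unfold Pm.s1
    rw [mul_add, add_div, mul_div_assoc 4 (34 * R ^ 2 * ε)]
    nlinarith
  · have al0 := o.al0
    have ga0 := o.ga0
    refine (S1 (c := (1 : Mn n)) (c' := 0) hw h0 κ0 now.1 R1 c.bd bA c.bd f1 (by simp; positivity) al0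
      (β := q.k * q.κ * q.ga) (by positivity) (ap.mono hw fun w hw' h =>
        ⟨fr_AC hA 1 ▸ h.2.2.1, (D2_zero_le hw' h.2.1 k0 h.1).trans
          (mul_le_mul_of_nonneg_left (fr_C w ▸ h.2.2.2.2) (by positivity))⟩)).trans
      ((sm_num h0 o.κh (by positivity) (by positivity)).trans ?_)
    have e6 : q.k * (q.κ * q.h) * q.ga ≤ q.k * 1 * q.ga := by gcongr; exact o.κh
    unfold Pm.s1'
    rw [mul_add, add_div, mul_div_assoc 4 (34 * R ^ 2 * ε)]
    nlinarith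

/-- fourth cumulants with one fixed slot -/
theorem t4_of (c : Ctx I ρ ε R) (o : q.Ok R) {ψ : Cube n → Fin n → ℝ} (hψ : Bd ψ R) {k : ℝ}
    (k0 : 0 ≤ k) (kR : k ≤ R) (hv : Wt v) (hC : CB v sv q.κ)
    (hP : AP sv v q.h ε fun v => CB v sv q.κ ∧ CB v ψ k ∧
      S3P sv ψ sv (20 * k / q.h) (1632 * R ^ 5 * ε) v ∧
      S3P sv sv sv (20 * q.κ / q.h) (1632 * R ^ 5 * ε) v) (x : Vn n) :
    T4 v (sg fun s => x ⬝ᵥ sv s) ψ sv sv ≤
      2960 * k / q.h ^ 2 * var v (fun s => x ⬝ᵥ sv s) + 1 / 36 * (x ⬝ᵥ x) := by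
  have h0 := o.h0 c
  have ε0 := c.ε0
  have R0 := c.R0
  have R1 := c.R1
  have κ0 := o.κ0
  refine (S3b hv h0 κ0 hC c.bd hψ k0 (by positivity) (by positivity) (by positivity) hP x).trans ?_
  have v0 := hv.var_nonneg fun s => x ⬝ᵥ sv s
  have x0 := dot_self_nonneg x
  have κh := o.κh
  have a1 : 20 * k / q.h / q.h + 12 * q.h * q.κ * (2 * q.κ * (20 * k / q.h) + k * (20 * q.κ / q.h)) ≤
      740 * k / q.h ^ 2 := by
    have e : 20 * k / q.h / q.h + 12 * q.h * q.κ * (2 * q.κ * (20 * k / q.h) + k * (20 * q.κ / q.h)) =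
        k / q.h ^ 2 * (20 + 720 * (q.κ * q.h) ^ 2) := by field_simp; ring
    have : (q.κ * q.h) ^ 2 ≤ 1 := pow_le_one₀ (by positivity) κh
    rw [e]
    calc _ ≤ k / q.h ^ 2 * (20 + 720 * 1) := by gcongr
      _ = _ := by ring
  have a2 : (1632 * R ^ 5 * ε + 64 * R ^ 3 * ε) / q.h +
      4 * q.h * (3 * q.κ * (2 * q.κ + k) * (1632 * R ^ 5 * ε) + 576 * R ^ 5 * ε) ≤ 1 / 144 := by
    have b1 := o.div_le c (x := 1632 * R ^ 5 * ε + 64 * R ^ 3 * ε) (by positivity)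
    have κR := o.κR c
    have b2 : 4 * q.h * (3 * q.κ * (2 * q.κ + k) * (1632 * R ^ 5 * ε) + 576 * R ^ 5 * ε) ≤
        4 * 1 * (3 * R * (2 * R + R) * (1632 * R ^ 5 * ε) + 576 * R ^ 5 * ε) := by
      gcongr; exact o.h1
    have b3 := c.err' (A := 10 ^ 9) (k := 7) (by norm_num) (by norm_num)
    have b4 := c.err' (A := 10 ^ 9) (k := 6) (by norm_num) (by norm_num)
    have b5 := c.err' (A := 10 ^ 9) (k := 5) (by norm_num) (by norm_num)
    have b6 := c.err' (A := 10 ^ 9) (k := 4) (by norm_num) (by norm_num)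
    nlinarith
  calc _ ≤ 2 * (1 + 1) * (740 * k / q.h ^ 2 * var v (fun s => x ⬝ᵥ sv s) + 1 / 144 * (x ⬝ᵥ x)) := by
        gcongr
    _ = _ := by ring

/-- **the short range part of the list** -/
theorem apt_short (c : Ctx I ρ ε R) (o : q.Ok R) (hA : Aᵀ = A) (ha : Op2 A (q.a ^ 2))
    (hD : Dv I W ρ m t (t + 2 * q.h) fun _ => B2 q A) (hv : FG I W (ρ ^ (m + 2)) t v)
    (hN : ∀ U : Mn n, NV (fA A sv) sv U v ≤ q.N * fr U)
    (hN' : ∀ U : Mn n, NV (fA A sv) (fA A sv) U v ≤ q.N' * fr U)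
    (h4 : ∀ x, var v (fun s => (x ⬝ᵥ fA A sv s - mean v fun s => x ⬝ᵥ fA A sv s) ^ 2) ≤
      q.v4' * (x ⬝ᵥ x) ^ 2) : APt q.cs v A (meanV v sv) := by
  have h0 := o.h0 c
  have hw := hv.wt
  have ε0 := c.ε0
  have R0 := c.R0
  have R1 := c.R1
  have k0 := o.k0
  have κ0 := o.κ0
  have κh := o.κh
  have bA := c.bdA ha o.a6
  have hD3 := b3_of c o hA ha hD
  have hD2 := (hD.depth c (Nat.le_succ m)).sub le_rfl (show t + q.h ≤ t + 2 * q.h by linarith)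
  have tI : t ∈ Icc t (t + q.h) := ⟨le_rfl, by linarith⟩
  obtain ⟨b1, b2, b3, b4, b5⟩ := hD2 t tI v (hv.depth c (Nat.le_succ _))
  obtain ⟨c1, c2, c3, c4⟩ := hD3 t tI v (hv.depth c (Nat.le_succ _))
  have ap := (hD2.and hD3).ap' c hv le_rfl (h := q.h) le_rfl
  have s10 := o.s1_nn c
  have s10' := o.s1'_nn c
  have e1 : 1632 * R ^ 5 * ε ≤ 1 / 36 := by
    have := c.err' (A := 1632 * 36) (k := 5) (by norm_num) (by norm_num)
    linarith
  have e2 := o.div_le c (x := 64 * R ^ 3 * ε) (by positivity)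
  have e3 : q.h * (576 * R ^ 5 * ε) ≤ 576 * R ^ 5 * ε := mul_le_of_le_one_left (by positivity) o.h1
  have e4 := c.err' (A := 512) (k := 4) (by norm_num) (by norm_num)
  have e5 := c.err' (A := 18432) (k := 5) (by norm_num) (by norm_num)
  have rows := op2_rows ha
  have lin3 : ∀ {J L : Type} [Fintype J] [Fintype L] (w : Cube n → ℝ) (ψ : Cube n → J → ℝ)
      (χ : Cube n → L → ℝ), T3 w ψ χ (fA A sv) ≤ q.a ^ 2 * T3 w ψ χ sv :=
    fun w ψ χ => T3_lin (φ := sv) rows fun _ _ => rfl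
  have κle := o.κ_le c
  have tA := t4_of c o bA k0 o.kR hw b1
    (ap.mono hw fun _ _ h => ⟨h.1.1, h.1.2.1, h.2.2.2.1, h.2.2.2.2⟩)
  have tφ := t4_of c o c.bd κ0 (o.κR c) hw b1
    (ap.mono hw fun _ _ h => ⟨h.1.1, h.1.1, h.2.2.2.2, h.2.2.2.2⟩)
  have vκ : ∀ x : Vn n, var v (fun s => x ⬝ᵥ sv s) ≤ 1 / q.h * (x ⬝ᵥ x) := (b1.mono κle).var_le
  have vk : ∀ x : Vn n, var v (fun s => A *ᵥ x ⬝ᵥ sv s) ≤ q.k * (x ⬝ᵥ x) := fun x => by
    rw [← dot_fA hA x]; exact b2.var_le x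
  have aA : ∀ x : Vn n, 1 / 36 * (A *ᵥ x ⬝ᵥ A *ᵥ x) ≤ x ⬝ᵥ x := fun x => by
    nlinarith [ha x, o.a6, dot_self_nonneg x]
  have q3' : ∀ x : Vn n, T3 v (fA A sv) (sg fun s => x ⬝ᵥ fA A sv s) sv ≤
      (20 * q.k ^ 2 / q.h + 1) * (x ⬝ᵥ x) := fun x => by
    rw [T3_comm, dot_fA hA]
    have := mul_le_mul_of_nonneg_left (vk x) (show 0 ≤ 20 * q.k / q.h by positivity)
    have := mul_le_mul_of_nonneg_right e1 (dot_self_nonneg (A *ᵥ x))
    have e : (20 * q.k ^ 2 / q.h + 1) * (x ⬝ᵥ x) = 20 * q.k / q.h * (q.k * (x ⬝ᵥ x)) + x ⬝ᵥ x := by ring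
    linarith [c3 (A *ᵥ x), aA x]
  refine ⟨ha, b1, b2, b3, b4, b5, hN, hN', c1, c2, ?_, ?_, fun x => ?_, fun x => ?_, fun x => ?_,
    fun x => ?_, fun x => ?_, q3', fun x => ?_, h4, by simp [Pm.cs], by simp [Pm.cs]⟩
  · refine (S2 hw h0 κ0 b1 c.bd bA bA bA k0 k0 k0 κ0 (α := q.a ^ 2 * q.s1) (ap.mono hw fun w _ h =>
      ⟨h.1.1, h.1.2.1, h.1.2.1, h.1.2.1, (lin3 w _ _).trans
        (mul_le_mul_of_nonneg_left h.2.1 (sq_nonneg _)), h.2.1, h.2.1, h.2.1⟩) (by positivity)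
        s10 s10 s10).trans ((sm_num h0 κh (by positivity) (by positivity)).trans ?_)
    have e6 : q.k * (q.κ * q.h) * q.s1 ≤ q.k * 1 * q.s1 := by gcongr
    change _ ≤ (4 * q.a ^ 2 / q.h + 144 * q.k) * q.s1 + 1
    have e : (4 * q.a ^ 2 / q.h + 144 * q.k) * q.s1 = 4 * (q.a ^ 2 * q.s1) / q.h + 144 * q.k * q.s1 := by
      ring
    rw [e, mul_add, add_div, mul_div_assoc 4 (64 * R ^ 3 * ε)]
    nlinarith
  · refine (S2 hw h0 κ0 b1 c.bd bA c.bd bA k0 κ0 k0 κ0 (α := q.s1) (ap.mono hw fun w _ h =>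
      ⟨h.1.1, h.1.2.1, h.1.1, h.1.2.1, T3_comm'.trans_le h.2.1, h.2.2.1, h.2.1,
        T3_comm.trans_le h.2.2.1⟩) s10 s10' s10 s10').trans
      ((sm_num h0 κh (by positivity) (by positivity)).trans ?_)
    have e6 : q.k * (q.κ * q.h) * q.s1' ≤ q.k * 1 * q.s1' := by gcongr
    have e7 : q.κ * q.h * q.κ * q.s1 ≤ 1 * (1 / q.h) * q.s1 := by gcongr
    change _ ≤ 52 * q.s1 / q.h + 96 * q.k * q.s1' + 1
    have e : 52 * q.s1 / q.h = 4 * q.s1 / q.h + 48 * (1 * (1 / q.h) * q.s1) := by ring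
    rw [e, mul_add, add_div, mul_div_assoc 4 (64 * R ^ 3 * ε)]
    nlinarith
  · rw [T4_swap, T4_swap']
    have := mul_le_mul_of_nonneg_left (vκ x) (show 0 ≤ 2960 * q.k / q.h ^ 2 by positivity)
    change _ ≤ (2960 * q.k / q.h ^ 3 + 1) * (x ⬝ᵥ x)
    have e : (2960 * q.k / q.h ^ 3 + 1) * (x ⬝ᵥ x) =
      2960 * q.k / q.h ^ 2 * (1 / q.h * (x ⬝ᵥ x)) + x ⬝ᵥ x := by field_simp
    linarith [tA x, dot_self_nonneg x]
  · rw [T3_comm, T3_comm']
    have := mul_le_mul_of_nonneg_left (vκ x) (show 0 ≤ 20 * q.k / q.h by positivity)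
    have := mul_le_mul_of_nonneg_right e1 (dot_self_nonneg x)
    change _ ≤ (20 * q.k / q.h ^ 2 + 1) * (x ⬝ᵥ x)
    have e : (20 * q.k / q.h ^ 2 + 1) * (x ⬝ᵥ x) =
      20 * q.k / q.h * (1 / q.h * (x ⬝ᵥ x)) + x ⬝ᵥ x := by field_simp
    linarith [c3 x, dot_self_nonneg x]
  · rw [T3_comm]
    have x0 := dot_self_nonneg x
    have : 20 * q.κ / q.h * var v (fun s => x ⬝ᵥ sv s) ≤ 20 * (1 / q.h) / q.h * (1 / q.h * (x ⬝ᵥ x)) := by
      have := hw.var_nonneg fun s => x ⬝ᵥ sv s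
      gcongr; exact vκ x
    have := mul_le_mul_of_nonneg_right e1 x0
    change _ ≤ (20 / q.h ^ 3 + 1) * (x ⬝ᵥ x)
    have e : (20 / q.h ^ 3 + 1) * (x ⬝ᵥ x) =
      20 * (1 / q.h) / q.h * (1 / q.h * (x ⬝ᵥ x)) + x ⬝ᵥ x := by field_simp
    linarith [c4 x]
  · rw [T4_swap, T4_swap'', dot_fA hA]
    refine (T4_lin rows fun _ _ => rfl).trans ?_
    change _ ≤ q.a ^ 2 * (2960 * q.k ^ 2 / q.h ^ 2 + 1) * (x ⬝ᵥ x)
    rw [mul_assoc]
    refine mul_le_mul_of_nonneg_left ?_ (sq_nonneg _)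
    have := mul_le_mul_of_nonneg_left (vk x) (show 0 ≤ 2960 * q.k / q.h ^ 2 by positivity)
    have e : (2960 * q.k ^ 2 / q.h ^ 2 + 1) * (x ⬝ᵥ x) =
      2960 * q.k / q.h ^ 2 * (q.k * (x ⬝ᵥ x)) + x ⬝ᵥ x := by ring
    linarith [tA (A *ᵥ x), aA x]
  · refine (lin3 v _ _).trans ?_
    change _ ≤ q.a ^ 2 * (20 * q.k ^ 2 / q.h + 1) * (x ⬝ᵥ x)
    rw [mul_assoc]
    exact mul_le_mul_of_nonneg_left (q3' x) (sq_nonneg _)
  · have x0 := dot_self_nonneg x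
    have v0 := hw.var_nonneg fun s => x ⬝ᵥ sv s
    refine (hw.var_le_mean _ 0).trans ?_
    simp only [sub_zero, ← pow_mul]
    refine (four_le v x).trans ?_
    have i1 : 1 ≤ 1 / q.h := one_le_one_div h0 o.h1
    set i := 1 / q.h with hi
    have a1 : T4 v (sg fun s => x ⬝ᵥ sv s) sv sv sv ≤ (57 * i ^ 2) ^ 2 * (x ⬝ᵥ x) := by
      have a2 : 2960 * q.κ / q.h ^ 2 * var v (fun s => x ⬝ᵥ sv s) ≤
          2960 * i / q.h ^ 2 * (i * (x ⬝ᵥ x)) := by gcongr; exact vκ x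
      have a3 : 2960 * i / q.h ^ 2 * (i * (x ⬝ᵥ x)) = 2960 * i ^ 4 * (x ⬝ᵥ x) := by
        rw [hi]; field_simp
      have a4 : 1 * (x ⬝ᵥ x) ≤ i ^ 4 * (x ⬝ᵥ x) := by gcongr; exact one_le_pow₀ i1
      nlinarith [tφ x]
    have a5 : √((x ⬝ᵥ x) ^ 3 * T4 v (sg fun s => x ⬝ᵥ sv s) sv sv sv) ≤ 57 * i ^ 2 * (x ⬝ᵥ x) ^ 2 :=
      Real.sqrt_le_iff.2 ⟨by positivity,
        (mul_le_mul_of_nonneg_left a1 (by positivity)).trans_eq (by ring)⟩
    have a6 := pow_le_pow_left₀ v0 (vκ x) 2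
    change _ ≤ 60 / q.h ^ 2 * (x ⬝ᵥ x) ^ 2
    have e : 60 / q.h ^ 2 = 60 * i ^ 2 := by rw [hi]; field_simp
    rw [e]
    nlinarith

end Crest.Agent.T157.Oa
end
end

-- ▼ part T157/OaC_48
section

set_option autoImplicit false
set_option linter.unusedSectionVars false

/-!
Row 157, A2 (helper48): the long range part of the a priori list ((N), (N'), (S5)).
-/

noncomputable section

namespace Crest.Agent.T157.Oa

open MeasureTheory Matrix Filter Topology Set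
open Crest.Agent.T157.E Crest.Agent.T157.SL Crest.Agent.T157.Ks Crest.Agent.T157.Od
open Crest.Agent.T157.Oo
open Crest.Agent.T157.Oa.G5 (Gp)

variable {n : ℕ} {I : Finset (Tst n)} {W A : Mn n} {ρ ε R t T u : ℝ} {v : Cube n → ℝ} {m : ℕ}

/-- **(N), (N')** along a grid -/
theorem nD (c : Ctx I ρ ε R) {ψ χ : Cube n → Fin n → ℝ} (bψ : Bd ψ R) (bχ : Bd χ R) {s : ℕ → ℝ}
    {J : ℕ} (s0 : s 0 = t) (sm : ∀ j, s j ≤ s (j + 1)) (sJ : s J = T) (sI : ∀ j, s j ∈ Icc t T)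
    (hT : T - t ≤ R) {κ : ℝ → ℝ} {k1 k2 : ℕ → ℝ} (κ0 : ∀ j, 0 ≤ κ (s j)) (p1 : ∀ j, 0 ≤ k1 j)
    (p2 : ∀ j, 0 ≤ k2 j)
    (hD : ∀ j < J, Dv I W ρ m (s j) (s (j + 1)) fun _ v =>
      CB v sv (κ (s j)) ∧ CB v ψ (k1 j) ∧ CB v χ (k2 j))
    {γ : ℝ} (γ0 : 0 ≤ γ) (hF : Dv I W ρ m T T fun _ v => ∀ U : Mn n, NV ψ χ U v ≤ γ * fr U)
    {e G S : ℝ} (e0 : 0 < e) (hG : ∀ j ≤ J, Gp κ s e j ≤ G)
    (hS : ∑ j ∈ Finset.range J, Gp κ s e (j + 1) * (k1 j * k2 j) ≤ S) (GR : G ≤ R ^ 2)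
    (JR : (J : ℝ) ≤ R) (hv : FG I W (ρ ^ (m + 2)) t v) (U : Mn n) :
    NV ψ χ U v ≤ (G * γ + 4 * S / e + 1) * fr U := by
  have hw := hv.wt
  have ε0 := c.ε0
  have R0 := c.R0
  have R1 := c.R1
  have e1 : ∀ j, s (j + 1) - t - (s j - t) = s (j + 1) - s j := fun j => by ring
  have key := N_chain hw c.bd bψ bχ (r := fun j => s j - t) (κ := fun j => κ (s j)) (k1 := k1) (k2 := k2)
    e0 γ0 ε0.le (by simp [s0]) (fun j => sub_le_sub_right (sm j) t) κ0 p1 p2 J (fun j hj => by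
      have d : Dv I W ρ (m + 1) (s j) (s j) fun _ v =>
          NP sv ψ χ (s (j + 1) - s j) ε (κ (s j)) (k1 j) (k2 j) v := fun u hu v' hv' => by
        obtain rfl : u = s j := le_antisymm hu.2 hu.1
        exact ⟨(hD j hj).ap' c hv' le_rfl (by linarith),
          ((hD j hj) _ ⟨le_rfl, sm j⟩ v' (hv'.depth c (Nat.le_succ m))).2⟩
      simp only [e1]
      exact d.fut c hv (sI j).1 ⟨le_rfl, le_rfl⟩) U (by
      have := (hF.depth c (Nat.le_succ m)).fut c hv ((sI 0).1.trans (sI 0).2) ⟨le_rfl, le_rfl⟩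
      rw [sJ]
      exact this.mono hw fun _ _ h => h U)
  simp only [e1] at key
  refine key.trans (mul_le_mul_of_nonneg_right ?_ fr_nonneg)
  have gp : ∀ j, 0 ≤ Gp κ s e j := fun j => Finset.prod_nonneg fun _ _ => by positivity
  have a1 : ∀ j ∈ Finset.range J, Gp κ s e j * (Real.exp (κ (s j) * (s (j + 1) - s j)) *
      ((1 + e⁻¹) * (4 * (k1 j * k2 j)) + 16 * (1 + (s (j + 1) - s j) * R) * R ^ 2 * ε) +
      16 * R ^ 2 * ε) ≤ 4 / e * (Gp κ s e (j + 1) * (k1 j * k2 j)) + 48 * R ^ 6 * ε := by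
    intro j hj
    have hj' := Finset.mem_range.1 hj
    have g1 : Gp κ s e (j + 1) = Gp κ s e j * (Real.exp (κ (s j) * (s (j + 1) - s j)) * (1 + e)) :=
      Finset.prod_range_succ _ _
    have g2 : Gp κ s e j * Real.exp (κ (s j) * (s (j + 1) - s j)) ≤ R ^ 2 := by
      refine le_trans ?_ ((hG (j + 1) hj').trans GR)
      rw [g1, ← mul_assoc]
      exact le_mul_of_one_le_right (mul_nonneg (gp j) (Real.exp_pos _).le) (by linarith)
    have g3 := (hG j hj'.le).trans GR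
    have g4 : 1 + (s (j + 1) - s j) * R ≤ 2 * R ^ 2 := by
      have : s (j + 1) - s j ≤ R := by linarith [(sI j).1, (sI (j + 1)).2]
      nlinarith
    have g5 : 0 ≤ 1 + (s (j + 1) - s j) * R := by have := sub_nonneg.2 (sm j); positivity
    have g6 : Gp κ s e j * Real.exp (κ (s j) * (s (j + 1) - s j)) *
        (16 * (1 + (s (j + 1) - s j) * R) * R ^ 2 * ε) ≤ R ^ 2 * (16 * (2 * R ^ 2) * R ^ 2 * ε) := by
      gcongr
    have g7 : Gp κ s e j * (16 * R ^ 2 * ε) ≤ R ^ 2 * (16 * R ^ 4 * ε) := by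
      gcongr; norm_num
    have g8 : Gp κ s e j * Real.exp (κ (s j) * (s (j + 1) - s j)) * ((1 + e⁻¹) * (4 * (k1 j * k2 j))) =
        4 / e * (Gp κ s e (j + 1) * (k1 j * k2 j)) := by rw [g1]; field_simp; ring
    nlinarith
  have a2 := Finset.sum_le_sum a1
  rw [Finset.sum_add_distrib, ← Finset.mul_sum, Finset.sum_const, Finset.card_range, nsmul_eq_mul] at a2
  have a3 : (J : ℝ) * (48 * R ^ 6 * ε) ≤ R * (48 * R ^ 6 * ε) := by gcongr
  have a4 := mul_le_mul_of_nonneg_left hS (show 0 ≤ 4 / e by positivity)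
  have a5 : Gp κ s e J * (γ + 16 * R ^ 2 * ε) ≤ G * γ + R ^ 2 * (16 * R ^ 2 * ε) := by
    rw [mul_add]
    exact add_le_add (mul_le_mul_of_nonneg_right (hG J le_rfl) γ0)
      (mul_le_mul_of_nonneg_right ((hG J le_rfl).trans GR) (by positivity))
  have a6 := c.err' (A := 96) (k := 7) (by norm_num) (by norm_num)
  have a7 := c.err' (A := 32) (k := 4) (by norm_num) (by norm_num)
  have a8 : 4 * S / e = 4 / e * S := by ring
  change Gp κ s e J * _ + ∑ j ∈ Finset.range J, Gp κ s e j * _ ≤ _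
  nlinarith

/-- terminal bounds from the Poincaré inequality -/
theorem term_of {K0 γ a : ℝ} (hA : Aᵀ = A) (ha : Op2 A (a ^ 2)) (a6 : a ^ 2 ≤ 36) (K00 : 0 ≤ K0)
    (γ0 : 0 ≤ γ) (hv : ∀ x, 0 < v x) (hC : CB v sv K0) (hP : Top.Poin v γ) :
    (∀ U : Mn n, NV (fA A sv) sv U v ≤ 1296 * (γ * (8 * K0 + 18)) * fr U) ∧
    (∀ U : Mn n, NV (fA A sv) (fA A sv) U v ≤ 1296 * (γ * (8 * K0 + 18)) * fr U) ∧
    ∀ x : Vn n, var v (fun s => (x ⬝ᵥ fA A sv s - mean v fun s => x ⬝ᵥ fA A sv s) ^ 2) ≤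
      1296 * (γ * (8 * K0 + 18)) * (x ⬝ᵥ x) ^ 2 := by
  have h36 : ∀ x, Aᵀ *ᵥ x ⬝ᵥ Aᵀ *ᵥ x ≤ 36 * (x ⬝ᵥ x) := fun x => by
    rw [hA]; exact (ha x).trans (mul_le_mul_of_nonneg_right a6 (dot_self_nonneg x))
  have g0 : 0 ≤ γ * (8 * K0 + 18) := by positivity
  have h2 : ∀ U : Mn n, NV (fA A sv) (fA A sv) U v ≤ 1296 * (γ * (8 * K0 + 18)) * fr U := fun U =>
    (NV_term hv hC γ0 hP A A U).trans ((mul_le_mul_of_nonneg_left
      (fr_mul_le (by norm_num) h36 h36 U) g0).trans_eq (by ring))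
  refine ⟨fun U => ?_, h2, fun x => ?_⟩
  · have h3 := NV_term hv hC γ0 hP A 1 U
    simp only [one_mulVec] at h3
    refine h3.trans ((mul_le_mul_of_nonneg_left (fr_mul_le (b := 36) (by norm_num) h36
      (fun x => ?_) U) g0).trans_eq (by ring))
    simp only [transpose_one, one_mulVec]
    linarith [dot_self_nonneg x]
  · have h3 := h2 (vecMulVec x x)
    have e1 : fr (vecMulVec x x) = (x ⬝ᵥ x) ^ 2 := by
      simp only [fr, vecMulVec_apply, mul_pow, ← Finset.mul_sum, ← Finset.sum_mul, dotProduct, ← sq]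
    have e2 : qf v (fA A sv) (fA A sv) (vecMulVec x x) =
        fun s => (x ⬝ᵥ fA A sv s - mean v fun s => x ⬝ᵥ fA A sv s) ^ 2 := by
      funext s
      rw [qf, vecMulVec_mulVec, ← meanV_dot, ← dotProduct_sub, sq]
      simp only [dotProduct_smul, MulOpposite.smul_eq_mul_unop, MulOpposite.unop_op,
        dotProduct_comm x]
    rwa [NV, e1, e2] at h3

/-- **(S5)** for `A σ`, logarithmic loss -/
theorem fourD (c : Ctx I ρ ε R) {ψ : Cube n → Fin n → ℝ} (bψ : Bd ψ R) {K' k γ : ℝ} (ht : 0 < t)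
    (htT : t ≤ T) (hT : T ≤ K') (hR : K' ≤ R * t) (TR : T ≤ R) (k0 : 0 ≤ k) (γ0 : 0 ≤ γ)
    (hD : Dv I W ρ m t (T + 1) fun u v => CB v sv (K' / u) ∧ CB v ψ k)
    (hF : Dv I W ρ m T T fun _ v => ∀ x : Vn n,
      var v (fun s => (x ⬝ᵥ ψ s - mean v fun s => x ⬝ᵥ ψ s) ^ 2) ≤ γ * (x ⬝ᵥ x) ^ 2)
    (hv : FG I W (ρ ^ (m + 2)) t v) (x : Vn n) :
    var v (fun s => (x ⬝ᵥ ψ s - mean v fun s => x ⬝ᵥ ψ s) ^ 2) ≤
      (2 * γ + 8 * k ^ 2 + 48 * K' * k ^ 2 * Real.log (T / t) + 1) * (x ⬝ᵥ x) ^ 2 := by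
  have hw := hv.wt
  have ε0 := c.ε0
  have R0 := c.R0
  have R1 := c.R1
  have K0 : 0 < K' := by linarith
  set X := x ⬝ᵥ x with hX
  have X0 : 0 ≤ X := dot_self_nonneg x
  set f := fun s => x ⬝ᵥ ψ s with hf
  have bf : Bd (sg f) (R * X) := bψ.sg_dot x
  have d1 : Dv I W ρ (m + 1) t T fun u v =>
      T3 v (sg f) (sg f) sv ≤ (20 * K' * k ^ 2 / u + 1632 * R ^ 5 * ε) * X ^ 2 ∧
        covV v f sv ⬝ᵥ covV v f sv ≤ K' / u * (k * X) := fun u hu w hw' => by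
    have u0 : 0 < u := ht.trans_le hu.1
    have h1 : u / K' ≤ 1 := (div_le_one K0).2 (hu.2.trans hT)
    have h0 : 0 < u / K' := by positivity
    have κh : K' / u * (u / K') ≤ 1 := le_of_eq (by field_simp)
    have κR : K' / u ≤ R := (div_le_iff₀ u0).2 (hR.trans (by gcongr; exact hu.1))
    have now := hD u ⟨hu.1, by linarith [hu.2]⟩ w (hw'.depth c (Nat.le_succ m))
    have ww := hw'.wt
    have vf : var w f ≤ k * X := now.2.var_le x
    refine ⟨?_, (now.1.covV_le ww (by positivity) f).trans (by gcongr)⟩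
    have ap := hD.ap c hw' hu.1 (h := u / K') (by linarith [hu.2])
      (P := fun v => CB v sv (K' / u) ∧ CB v (sg f) (k * X)) fun u' hu' v' _ h =>
        ⟨h.1.mono (div_le_div_of_nonneg_left K0.le u0 hu'.1), (CB_sg v' f).mono (h.2.var_le x)⟩
    rcases X0.eq_or_lt with hx | hx
    · have : R * X = 0 := by rw [← hx, mul_zero]
      have h3 := T3_crude ww bf bf c.bd
      rw [this] at h3
      rw [← hx]
      simpa using h3
    -- rescale the second slot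
    have bf' : Bd (sg fun s => (√X)⁻¹ * f s) R := fun s => by
      have := bf s
      simp only [Finset.univ_unique, Finset.sum_singleton] at this ⊢
      rw [mul_pow, inv_pow, Real.sq_sqrt X0, inv_mul_le_iff₀ hx]
      linarith
    have sX : 0 < √X := Real.sqrt_pos.2 hx
    have h3 := S3 ww h0 (by positivity) now.1 c.bd bf' bf k0 (ap.mono ww fun v' hv' h => ⟨h.1,
      (CB_sg v' _).mono (by
        have := h.2.var_le fun _ => (√X)⁻¹
        simp only [dotProduct, Finset.univ_unique, Finset.sum_singleton] at this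
        refine this.trans_eq ?_
        rw [← mul_inv, Real.mul_self_sqrt X0]; field_simp)⟩)
    have e3 : T3 w (sg f) (sg f) sv = X * T3 w (sg f) (sg fun s => (√X)⁻¹ * f s) sv := by
      have : ∀ l : Cube n → ℝ, cum3 w f (fun s => (√X)⁻¹ * f s) l = (√X)⁻¹ * cum3 w f f l := fun l => by
        simp only [cum3, mean_const_mul, ← mul_sub, mul_left_comm _ (√X)⁻¹, mul_assoc (√X)⁻¹]
      simp only [T3, Finset.univ_unique, Finset.sum_singleton, this, mul_pow, inv_pow, Real.sq_sqrt X0,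
        ← Finset.mul_sum]
      field_simp
    have b1 : sc1 (K' / u) (u / K') ≤ 20 * K' / u :=
      (sc1_le h0 (by positivity) κh).trans_eq (by field_simp)
    have b2 := sc1_crude h0 h1 (by rwa [one_div_div]) (by positivity) κR R1
    have b3 : sc1 (K' / u) (u / K') * k * var w f ≤ 20 * K' / u * k * (k * X) := by
      have := ww.var_nonneg f
      gcongr
    have b4 : sc1 (K' / u + R) (u / K') * (16 * R * (R * X) * ε) ≤
        102 * R ^ 3 * (16 * R * (R * X) * ε) := by gcongr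
    rw [e3]
    refine (mul_le_mul_of_nonneg_left (h3.trans (add_le_add b3 b4)) X0).trans_eq ?_
    ring
  have T0 := sub_nonneg.2 htT
  have pos : ∀ r ∈ Icc 0 (T - t), 0 < t + r := fun r hr => by linarith [hr.1]
  have cinv : ContinuousOn (fun r => (t + r)⁻¹) (Icc 0 (T - t)) :=
    (continuousOn_const.add continuousOn_id).inv₀ fun r hr => (pos r hr).ne'
  have now := hD t ⟨le_rfl, by linarith⟩ v (hv.depth c (Nat.le_add_right m 2))
  have vf : var v f ≤ k * X := now.2.var_le x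
  have v0 := hw.var_nonneg f
  have fin := ((hF.and (hD.sub htT (by linarith))).depth c (Nat.le_succ m)).fut c hv htT
    ⟨le_rfl, le_rfl⟩
  have key := four_var hw T0 c.bd bf
    (a := fun r => (20 * K' * k ^ 2 * (t + r)⁻¹ + 1632 * R ^ 5 * ε) * X ^ 2)
    (b := fun r => K' * (t + r)⁻¹ * (k * X))
    (((continuousOn_const.mul cinv).add continuousOn_const).mul continuousOn_const)
    ((continuousOn_const.mul cinv).mul continuousOn_const)
    (fun r hr => by have := pos r hr; positivity) (fun r hr => by have := pos r hr; positivity)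
    (fun r hr => by
      have := d1.fut c hv (u' := t + r) (by linarith [hr.1]) ⟨by linarith [hr.1], by linarith [hr.2]⟩
      rw [add_sub_cancel_left] at this
      simpa only [div_eq_mul_inv, Fut] using this)
    (γ := γ * X ^ 2) (k := k * X) (by positivity) (by positivity) fin
    fun y hy => ⟨(not_not.1 hy).2.2.var_le x, (not_not.1 hy).1 x⟩
  refine key.trans ?_
  have i1 : ∫ r in (0 : ℝ)..T - t, (t + r)⁻¹ = Real.log (T / t) := by
    rw [intervalIntegral.integral_comp_add_left (fun r => r⁻¹), add_zero, add_sub_cancel,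
      integral_inv_of_pos ht (ht.trans_le htT)]
  have ii : IntervalIntegrable (fun r => (t + r)⁻¹) volume 0 (T - t) :=
    cinv.intervalIntegrable_of_Icc T0
  have i2 : ∫ r in (0 : ℝ)..T - t, (2 * ((20 * K' * k ^ 2 * (t + r)⁻¹ + 1632 * R ^ 5 * ε) * X ^ 2) +
      8 * (K' * (t + r)⁻¹ * (k * X)) * var v f + 16 * R * (R * X) ^ 2 * ε) =
      (40 * K' * k ^ 2 * X ^ 2 + 8 * K' * k * X * var v f) * Real.log (T / t) +
        (T - t) * ((3264 * R ^ 5 + 16 * R ^ 3) * ε * X ^ 2) := by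
    rw [← i1, ← intervalIntegral.integral_const_mul, ← sub_zero (T - t), ← smul_eq_mul (T - t - 0),
      ← intervalIntegral.integral_const, sub_zero,
      ← intervalIntegral.integral_add (ii.const_mul _) intervalIntegrable_const]
    exact intervalIntegral.integral_congr fun r _ => by ring
  rw [i2]
  have l0 : 0 ≤ Real.log (T / t) := Real.log_nonneg ((one_le_div ht).2 htT)
  have a1 : 8 * K' * k * X * var v f * Real.log (T / t) ≤ 8 * K' * k * X * (k * X) * Real.log (T / t) := by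
    gcongr
  have a2 : (T - t) * ((3264 * R ^ 5 + 16 * R ^ 3) * ε * X ^ 2) ≤
      R * ((3264 * R ^ 5 + 16 * R ^ 5) * ε * X ^ 2) := by
    gcongr
    · linarith
    · norm_num
  have a3 : 8 * (k * X) * var v f ≤ 8 * (k * X) * (k * X) := by gcongr
  have a4 := mul_le_mul_of_nonneg_right (c.err' (A := 6560) (k := 6) (by norm_num) (by norm_num))
    (sq_nonneg X)
  have a5 := mul_le_mul_of_nonneg_right (c.err' (A := 96) (k := 2) (by norm_num) (by norm_num))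
    (sq_nonneg X)
  nlinarith

end Crest.Agent.T157.Oa
end
end

-- ▼ part T157/OaR_5
section

set_option autoImplicit false
set_option linter.unusedSectionVars false

/-!
Row 157, A2 (helper5): backward propagation with time dependent rates, in `Dv` words.
-/

noncomputable section

namespace Crest.Agent.T157.Oa

open MeasureTheory Matrix Filter Topology Set Real
open Crest.Agent.T157.E Crest.Agent.T157.SL Crest.Agent.T157.Ks Crest.Agent.T157.Od
open Crest.Agent.T157.Oo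

section
variable {Ω ι J L : Type*} [Fintype Ω] [Fintype ι] [DecidableEq ι] [Fintype J] [Fintype L]
  {φ : Ω → ι → ℝ} {ψ : Ω → J → ℝ} {χ : Ω → L → ℝ} {w : Ω → ℝ} {h δ R R' K α : ℝ} {κ β : ℝ → ℝ}

/-- `cb_prop` with a time dependent ceiling -/
theorem cb_propT (hw : Wt w) (hh : 0 ≤ h) (hκ : ContinuousOn κ (Icc 0 h))
    (κ0 : ∀ r ∈ Icc 0 h, 0 ≤ κ r) (hR : Bd φ R) (hR' : Bd ψ R')
    (hP : ∀ r ∈ Icc 0 h, Fut φ r δ (fun v => CB v φ (κ r)) w) (K0 : 0 ≤ K)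
    (hS : Fut φ h δ (fun v => CB v ψ K) w) :
    CB w ψ (exp (∫ r in (0 : ℝ)..h, κ r) * (K + (1 + h * R) * R' * δ)) :=
  CB_iff.2 fun v => by
  have v0 := dot_self_nonneg v
  have R0 := hR.nonneg hw
  have R0' := hR'.nonneg hw
  have δ0 := hS.nonneg
  set f := fun x => v ⬝ᵥ ψ x with hf
  have hV : ∀ q, Wt q → var q f ≤ R' * (v ⬝ᵥ v) := fun q hq => (hR'.cb hq).var_le v
  have h1 := (ito_var (φ := φ) hw f).ex_lower hw le_rfl hh (eg_var hw f) (κ := κ)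
    (ε := fun _ => R * (R' * (v ⬝ᵥ v)) * δ) hκ continuousOn_const κ0
    (fun _ _ => by positivity) fun r hr => by
      have hr' := Ioo_subset_Icc_self hr
      have := ex_le_bad (H := fun p => κ r * var (pw φ w p) f)
        (G := fun p => covV (pw φ w p) f φ ⬝ᵥ covV (pw φ w p) f φ) hw (hP r hr')
        ((eg_covV_dot hw f f).mg (mem_univ r)) (((eg_var hw f).const_mul _).mg (mem_univ r))
        (C := R * (R' * (v ⬝ᵥ v))) (by positivity)
        (fun y hy => (not_not.1 hy).covV_le (hw.post _ _ _) (κ0 r hr') f) fun y => by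
          have hq := hw.post φ r y
          have := ((hR.cb hq).covV_le hq R0 f).trans (mul_le_mul_of_nonneg_left (hV _ hq) R0)
          have := mul_nonneg (κ0 r hr') (hq.var_nonneg f)
          simp only [pw]; linarith
      rw [ex_const_mul] at this
      rw [ex_neg]
      linarith
  simp only [ex_pw_zero hw fun q => var q f, intervalIntegral.integral_const, sub_zero,
    smul_eq_mul] at h1
  have h2 := ex_le_bad' (G := fun p => var (pw φ w p) f) hw hS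
    ((eg_var hw _).mg (mem_univ h)) (a := K * (v ⬝ᵥ v)) (C := R' * (v ⬝ᵥ v)) (by positivity)
    (by positivity) (fun y hy => (not_not.1 hy).var_le v) fun y => hV _ (hw.post _ _ _)
  refine h1.trans ?_
  rw [mul_assoc (exp _)]
  exact mul_le_mul_of_nonneg_left (by nlinarith) (exp_pos _).le

/-- `fp` with a time dependent bound on the drift -/
theorem fpT (hw : Wt w) (hh : 0 ≤ h) {G a : J → Pt ι → ℝ} {b : J → ι → Pt ι → ℝ}
    (hG : ∀ k, Ito (md φ w) (Icc 0 h) (G k) (a k) (b k)) {c : J → ℝ}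
    (hβ : ContinuousOn β (Icc 0 h)) (h1 : ex φ w (fun p => ∑ k, (G k p - c k) ^ 2) h ≤ α)
    (h2 : ∀ u ∈ Ioo 0 h, ex φ w (fun p => ∑ k, a k p ^ 2) u ≤ β u) :
    √(∑ k, (G k (0, 0) - c k) ^ 2) ≤ √α + ∫ r in (0 : ℝ)..h, √(β r) := by
  set U : J → ℝ := fun k => G k (0, 0) - c k with hU
  set N := ∑ k, U k ^ 2 with hN
  have N0 : 0 ≤ N := by positivity
  have cs : ∀ {F : J → Pt ι → ℝ} {u A : ℝ}, (∀ k, MG fun y => F k (u, y)) →
      ex φ w (fun p => ∑ k, F k p ^ 2) u ≤ A → |ex φ w (fun p => ∑ k, U k * F k p) u| ≤ √N * √A := by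
    intro F u A hF hA
    rw [← sqrt_mul N0]
    have m : MG fun y => ∑ k, U k * F k (u, y) := .sum _ fun k _ => (hF k).const_mul _
    have m2 : MG fun y => ∑ k, F k (u, y) ^ 2 := .sum _ fun k _ => by
      simpa only [sq] using (hF k).mul (hF k)
    refine abs_le_sqrt ((ex_sq_le hw m).trans ((ex_mono (H := fun p => N * ∑ k, F k p ^ 2) hw
      (by simpa only [sq] using m.mul m) (m2.const_mul N) fun y =>
      Finset.sum_mul_sq_le_sq_mul_sq _ _ _).trans ?_))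
    rw [ex_const_mul]; gcongr
  have it := Ito.sum Finset.univ fun k _ => ((hG k).sub (.const (c k))).const_mul (U k)
  have mG := fun k u (hu : u ∈ Icc 0 h) => ((hG k).eg.sub (.const (c k))).mg hu
  have key := (it.mono Ioo_subset_Icc_self).ex_lower hw le_rfl hh it.eg (κ := fun _ => 0)
    (ε := fun r => √N * √(β r)) continuousOn_const (continuousOn_const.mul hβ.sqrt)
    (fun _ _ => le_rfl) (fun _ _ => by positivity) fun u hu => by
      have ma := fun k => ((hG k).eg_a (eg_md hw)).mg (Ioo_subset_Icc_self hu)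
      have := neg_le_of_abs_le (cs ma (h2 u hu))
      simp only [sub_zero]
      linarith
  rw [ex_zero hw, intervalIntegral.integral_const_mul] at key
  have h3 := le_of_abs_le (cs (F := fun k p => G k p - c k) (fun k => mG k h (right_mem_Icc.2 hh)) h1)
  have h4 : √N * √N ≤ √N * (√α + ∫ r in (0 : ℝ)..h, √(β r)) := by
    rw [mul_self_sqrt N0]
    have : ∑ k, U k * (G k (0, 0) - c k) = N := by simp only [hN, hU, sq]
    simp only [this, intervalIntegral.integral_zero, exp_zero, one_mul] at key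
    linarith
  rcases (sqrt_nonneg N).eq_or_lt with h9 | h9
  · rw [← h9]
    exact add_nonneg (sqrt_nonneg _) (intervalIntegral.integral_nonneg hh fun _ _ => sqrt_nonneg _)
  · exact le_of_mul_le_mul_left h4 h9

theorem fpT_T2 (hw : Wt w) (hh : 0 ≤ h) {c : J → L → ℝ} (hβ : ContinuousOn β (Icc 0 h))
    (h1 : ex φ w (fun p => T2 (pw φ w p) ψ χ c) h ≤ α)
    (h2 : ∀ u ∈ Ioo 0 h, ex φ w (fun p => D2 φ (pw φ w p) ψ χ 0) u ≤ β u) :
    √(T2 w ψ χ c) ≤ √α + ∫ r in (0 : ℝ)..h, √(β r) := by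
  have := fpT (J := J × L) hw hh (fun q => ito_cov hw (fun x => ψ x q.1) fun x => χ x q.2)
    (c := fun q => c q.1 q.2) (α := α) hβ
    (by simpa only [Fintype.sum_prod_type, T2] using h1) fun u hu => by
      simpa only [Fintype.sum_prod_type, neg_sq, D2, Pi.zero_apply, sub_zero] using h2 u hu
  simpa only [Fintype.sum_prod_type, pw, post_zero, T2] using this

end

variable {n : ℕ} {J L : Type*} [Fintype J] [Fintype L] {I : Finset (Tst n)} {W : Mn n}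
  {ρ ε R t s a b K al : ℝ} {m : ℕ} {kap be : ℝ → ℝ} {ψ : Cube n → J → ℝ} {χ : Cube n → L → ℝ}

theorem shift_mem {u r : ℝ} (hu : u ∈ Icc t s) (hr : r ∈ Icc 0 (s - u)) : u + r ∈ Icc t s :=
  ⟨by linarith [hu.1, hr.1], by linarith [hr.2]⟩

theorem shift_cont {u : ℝ} (hu : u ∈ Icc t s) (hk : ContinuousOn kap (Icc t s)) :
    ContinuousOn (fun r => kap (u + r)) (Icc 0 (s - u)) :=
  hk.comp (by fun_prop) fun _ hr => shift_mem hu hr

theorem shift_int (f : ℝ → ℝ) (u : ℝ) : ∫ r in (0 : ℝ)..(s - u), f (u + r) = ∫ r in u..s, f r := by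
  rw [intervalIntegral.integral_comp_add_left, add_zero, add_sub_cancel]

theorem Dv.fut' {Q : ℝ → (Cube n → ℝ) → Prop} (c : Ctx I ρ ε R) (hQ : Dv I W ρ m t s Q) {u r : ℝ}
    {v : Cube n → ℝ} (hv : FG I W (ρ ^ (m + 1)) u v) (hu : u ∈ Icc t s) (hr : r ∈ Icc 0 (s - u)) :
    Fut sv r ε (Q (u + r)) v := by
  have := hQ.fut c hv (u' := u + r) (by linarith [hr.1]) (shift_mem hu hr)
  rwa [add_sub_cancel_left] at this

/-- the core: the end condition is given as a future event, the error is `R⁻¹³` -/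
theorem cbC' (c : Ctx I ρ ε R) (hk : ContinuousOn kap (Icc t s)) (k0 : ∀ u ∈ Icc t s, 0 ≤ kap u)
    (hD : Dv I W ρ m t s fun u v => CB v sv (kap u)) (hψ : Bd ψ R)
    (hE : ∀ u ∈ Icc t s, ∀ v, FG I W (ρ ^ (m + 1)) u v → Fut sv (s - u) ε (fun v => CB v ψ K) v)
    (K0 : 0 ≤ K) (hst : s - t ≤ R) :
    Dv I W ρ (m + 1) t s fun u v => CB v ψ (exp (∫ r in u..s, kap r) * (K + 1 / R ^ 13)) :=
  fun u hu v hv => by
  have h0 : 0 ≤ s - u := sub_nonneg.2 hu.2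
  have := cb_propT hv.wt h0 (shift_cont hu hk) (fun r hr => k0 _ (shift_mem hu hr)) c.bd hψ
    (fun r hr => hD.fut' c hv hu hr) K0 (hE u hu v hv)
  rw [shift_int] at this
  refine this.mono (mul_le_mul_of_nonneg_left (add_le_add_right ?_ K) (exp_pos _).le)
  refine le_trans (mul_le_mul_of_nonneg_right ?_ c.ε0.le)
    (c.err_div (A := 2) (k := 3) (j := 13) (by norm_num) (by norm_num))
  have R1 := c.R1
  have : (s - u) * R ≤ R * R := mul_le_mul_of_nonneg_right (by linarith [hu.1]) c.R0.le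
  nlinarith [mul_le_mul_of_nonneg_right (show 1 + (s - u) * R ≤ 2 * (R * R) by nlinarith) c.R0.le]

theorem cbC (c : Ctx I ρ ε R) (hk : ContinuousOn kap (Icc t s)) (k0 : ∀ u ∈ Icc t s, 0 ≤ kap u)
    (hD : Dv I W ρ m t s fun u v => CB v sv (kap u)) (hψ : Bd ψ R)
    (hE : ∀ u ∈ Icc t s, ∀ v, FG I W (ρ ^ (m + 1)) u v → Fut sv (s - u) ε (fun v => CB v ψ K) v)
    (K0 : 0 ≤ K) (hst : s - t ≤ R) :
    Dv I W ρ (m + 1) t s fun u v => CB v ψ (exp (∫ r in u..s, kap r) * (K + 1 / R ^ 5)) :=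
  (cbC' c hk k0 hD hψ hE K0 hst).imp fun _ _ _ _ h => h.mono (mul_le_mul_of_nonneg_left
    (add_le_add_right (one_div_le_one_div_of_le (pow_pos c.R0 _)
      (pow_le_pow_right₀ c.R1 (by norm_num))) K) (exp_pos _).le)

theorem Ctx.div5 (c : Ctx I ρ ε R) : 1 / R ^ 5 ≤ 1 / R / 16 := by
  rw [div_div]
  refine one_div_le_one_div_of_le (by have := c.R0; positivity) ?_
  have := pow_le_pow_left₀ zero_le_two c.R2 4
  nlinarith [c.R0]

/-- **(b)** propagation of `Cov ψ ≤ K` from `s` backwards -/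
theorem cbL (c : Ctx I ρ ε R) (hk : ContinuousOn kap (Icc t s)) (k0 : ∀ u ∈ Icc t s, 0 ≤ kap u)
    (hD : Dv I W ρ m t s fun u v => CB v sv (kap u)) (hψ : Bd ψ R)
    (hE : Dv I W ρ m s s fun _ v => CB v ψ K) (K0 : 0 ≤ K) (hst : s - t ≤ R) :
    Dv I W ρ (m + 1) t s fun u v => CB v ψ (exp (∫ r in u..s, kap r) * (K + 1 / R)) :=
  (cbC c hk k0 hD hψ (fun _ hu _ hv => hE.fut c hv hu.2 ⟨le_rfl, le_rfl⟩) K0 hst).imp
    fun _ _ _ _ h => h.mono (mul_le_mul_of_nonneg_left (add_le_add_right (c.div5.trans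
      (div_le_self (by have := c.R0; positivity) (by norm_num))) K) (exp_pos _).le)

/-- **(c)** propagation of `|Cov(ψ, χ) - c|_F` from `s` backwards -/
theorem t2L (c : Ctx I ρ ε R) (hb : ContinuousOn be (Icc t s)) (b0 : ∀ u ∈ Icc t s, 0 ≤ be u)
    (hD : Dv I W ρ m t s fun u v => D2 sv v ψ χ 0 ≤ be u) {c0 : J → L → ℝ}
    (hE : Dv I W ρ m s s fun _ v => T2 v ψ χ c0 ≤ al) (a0 : 0 ≤ al) (hψ : Bd ψ R) (hχ : Bd χ R)
    (hc : ∑ j, ∑ l, c0 j l ^ 2 ≤ R ^ 2) :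
    Dv I W ρ (m + 1) t s fun u v => √(T2 v ψ χ c0) ≤ √(al + 1) + ∫ r in u..s, √(be r + 1) :=
  fun u hu v hv => by
  have hw := hv.wt
  have R0 := c.R0
  beta_reduce
  rw [← shift_int (fun r => √(be r + 1))]
  refine fpT_T2 (φ := sv) (β := fun r => be (u + r) + 1) hw (sub_nonneg.2 hu.2)
    ((shift_cont hu hb).add continuousOn_const) ?_ fun r hr => ?_
  · refine (ex_le_bad' (G := fun p => T2 (pw sv v p) ψ χ c0) hw (hE.fut c hv hu.2 ⟨le_rfl, le_rfl⟩)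
      ((eg_T2 hw c0).mg (mem_univ _)) a0 (C := 34 * R ^ 2) (by positivity)
      (fun y hy => not_not.1 hy) fun y => ?_).trans
      (add_le_add_right (c.err' (by norm_num) (by norm_num)) al)
    have := T2_le (w := post sv v (s - u) y) (ψ := ψ) (χ := χ) c0
    have := T2_crude (hw.post sv (s - u) y) hψ hχ
    simp only [pw]; nlinarith
  · have hr' := Ioo_subset_Icc_self hr
    exact (ex_le_bad' (G := fun p => D2 sv (pw sv v p) ψ χ 0) hw (hD.fut' c hv hu hr')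
      ((eg_D2 hw 0).mg (mem_univ _)) (b0 _ (shift_mem hu hr')) (C := 16 * R ^ 4) (by positivity)
      (fun y hy => not_not.1 hy) fun y =>
        (D2_crude (hw.post sv r y) c.bd hψ hχ).trans_eq (by ring)).trans
      (add_le_add_right (c.err' (by norm_num) (by norm_num)) _)

theorem exp_half_le {x : ℝ} (hx : x ≤ 1 / 2) : exp x ≤ 7 / 4 := by
  refine (exp_le_exp.2 hx).trans (abs_le_of_sq_le_sq' ?_ (by norm_num)).2
  rw [← exp_nat_mul]
  norm_num
  linarith [exp_one_lt_d9]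



theorem exp_le_of_pow {x y : ℝ} {j : ℕ} (i : ℕ) (hj : j ≠ 0) (hx : j * x ≤ i) (y0 : 0 ≤ y)
    (hy : 2.7182818286 ^ i ≤ y ^ j) : exp x ≤ y := by
  refine le_of_pow_le_pow_left₀ hj y0 (le_trans ?_ hy)
  rw [← exp_nat_mul]
  refine (exp_le_exp.2 hx).trans ?_
  rw [← mul_one (i : ℝ), exp_nat_mul]
  exact pow_le_pow_left₀ (exp_pos _).le exp_one_lt_d9.le _

/-- constant rate with `exp (κ (s - t)) ≤ E` -/
theorem cbK' (c : Ctx I ρ ε R) {κ k E : ℝ} (κ0 : 0 ≤ κ) (hD : Dv I W ρ m t s fun _ v => CB v sv κ)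
    (hE : ∀ u ∈ Icc t s, ∀ v, FG I W (ρ ^ (m + 1)) u v → Fut sv (s - u) ε (fun v => CB v sv K) v)
    (K0 : 0 ≤ K) (hst : s - t ≤ R) (hκ : exp (κ * (s - t)) ≤ E) (hk : 1 / R ≤ k) :
    Dv I W ρ (m + 1) t s fun _ v => CB v sv (E * (K + k / 4096)) := by
  have R0 := c.R0
  have e : 1 / R ^ 13 ≤ 1 / R / 4096 := by
    rw [div_div]
    refine one_div_le_one_div_of_le (by positivity) ?_
    have := pow_le_pow_left₀ zero_le_two c.R2 12
    nlinarith
  exact (cbC' c (kap := fun _ => κ) continuousOn_const (fun _ _ => κ0) hD c.bd hE K0 hst).imp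
    fun u hu _ _ h => h.mono (mul_le_mul (le_trans (exp_le_exp.2 (by
      rw [intervalIntegral.integral_const, smul_eq_mul]
      nlinarith [hu.1])) hκ) (by linarith) (by positivity) ((exp_pos _).le.trans hκ))

/-- **(a')** the Riccati step with `4 k d ≤ 1` -/
theorem ricD' (c : Ctx I ρ ε R) {Lam k d : ℝ} (hL : Dv I W ρ m a b fun _ v => CB v sv Lam)
    {τ : Tst n} (hτ : τ ∈ I) (ha : a ≤ τ.s - d) (hb : τ.s ≤ b) (hP : ∀ v, τ.P W v → CB v sv k)
    (hk : 1 / R ≤ k) (kL : k ≤ Lam) (d0 : 0 ≤ d) (dR : d ≤ R) (kd : 4 * k * d ≤ 1) {M : ℕ}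
    (hM : 4 * Lam * d ≤ M) : Dv I W ρ (m + 2 * M + 1) (τ.s - d) τ.s fun _ v => CB v sv (2 * k) := by
  have k0 : 0 < k := (one_div_pos.2 c.R0).trans_le hk
  have L0 : 0 < Lam := k0.trans_le kL
  obtain ⟨η, η0, ηM, ηL⟩ : ∃ η, 0 ≤ η ∧ M * η = d ∧ Lam * η ≤ 1 / 4 := by
    rcases (Nat.cast_nonneg (α := ℝ) M).eq_or_lt with h | h
    · exact ⟨0, le_rfl, by nlinarith, by norm_num⟩
    · refine ⟨d / M, by positivity, by field_simp, ?_⟩
      rw [← mul_div_assoc, div_le_iff₀ h]; linarith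
  have fin : ∀ {m' : ℕ} {t κ : ℝ}, 0 ≤ κ → τ.s - t ≤ d → κ * (τ.s - t) ≤ 2 / 3 →
      (Dv I W ρ m' t τ.s fun _ v => CB v sv κ) →
      Dv I W ρ (m' + 1) t τ.s fun _ v => CB v sv (2 * k) := fun κ0 h1 h2 h3 =>
    (cbK' c (E := 39 / 20) κ0 h3 (fun _ hu _ hv => (hv.test' c hτ hu.2).mono hv.wt fun v _ => hP v)
      k0.le (h1.trans dR) (exp_le_of_pow (j := 3) 2 (by norm_num) (by push_cast; linarith)
        (by norm_num) (by norm_num)) hk).imp fun _ _ _ _ h => h.mono (by linarith)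
  have key : ∀ j : ℕ, j ≤ M →
      Dv I W ρ (m + 2 * j + 1) (τ.s - j * η) τ.s fun _ v => CB v sv (2 * k) := by
    intro j
    induction j with
    | zero => exact fun _ => fin L0.le (by simpa) (by norm_num) (hL.sub (by simpa using by linarith) hb)
    | succ j ih =>
      intro hj
      have h1 := ih (Nat.le_of_succ_le hj)
      have e1 : ((j + 1 : ℕ) : ℝ) * η ≤ d := ηM ▸ mul_le_mul_of_nonneg_right (Nat.cast_le.2 hj) η0
      have e2 : ((j + 1 : ℕ) : ℝ) * η = j * η + η := by push_cast; ring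
      have e3 : 0 ≤ (j : ℝ) * η := by positivity
      have h2 := cbK' c (m := m + 2 * j + 1) (t := τ.s - (j + 1 : ℕ) * η) (s := τ.s - j * η)
        (E := 129 / 100) L0.le ((hL.sub (by linarith) (by linarith)).depth c (by omega))
        (fun _ hu _ hv => h1.fut c hv hu.2 ⟨le_rfl, by linarith⟩) (by linarith) (by linarith)
        (exp_le_of_pow (j := 4) 1 (by norm_num) (by rw [e2]; push_cast; linarith) (by norm_num)
          (by norm_num)) hk
      exact fin (κ := 13 / 5 * k) (by linarith) (by linarith) (by nlinarith)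
        ((h2.imp fun _ _ _ _ h => h.mono (by linarith)).union
          ((h1.depth c (Nat.le_succ _)).imp fun _ _ _ _ h => h.mono (by linarith)))
  simpa only [ηM] using key M le_rfl

end Crest.Agent.T157.Oa
end
end

-- ▼ part T157/OaD_48
section

set_option autoImplicit false
set_option linter.unusedSectionVars false

/-!
Row 157, A2 (helper48): from tests to derivable properties (cap, grids, residual, `tr C²`, change of `z`).
-/

noncomputable section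

namespace Crest.Agent.T157.Oa

open MeasureTheory Matrix Filter Topology Set
open Crest.Agent.T157.E Crest.Agent.T157.SL Crest.Agent.T157.Ks Crest.Agent.T157.Od
open Crest.Agent.T157.Oo

variable {n : ℕ} {I : Finset (Tst n)} {W A : Mn n} {ρ ε R t u a b μ : ℝ} {v : Cube n → ℝ} {m : ℕ}

theorem fut_zero {δ : ℝ} {P : (Cube n → ℝ) → Prop} (hv : Wt v) (h : Fut sv 0 δ P v) (hδ : δ < 1) :
    P v := by
  by_contra hP
  obtain ⟨B, hB, sB, eB⟩ := exists_meas sv v 0 {y | ¬ P (post sv v 0 y)}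
  have h0 : (0 : Vn n) ∈ B := sB (by simpa only [mem_ofPred_eq, post_zero] using hP)
  have h1 := ex_ind (φ := sv) (u := 0) hv hB
  rw [ex_zero hv, eB, indicator_of_mem h0] at h1
  have h2 : (1 : ℝ) ≤ δ := h1.trans_le h
  linarith

theorem Ctx.ε_lt (c : Ctx I ρ ε R) : ε < 1 := by
  have := c.err' (A := 2) (k := 0) (by norm_num) (by norm_num)
  linarith

theorem testD (c : Ctx I ρ ε R) {τ : Tst n} (hτ : τ ∈ I) :
    Dv I W ρ (m + 1) τ.s τ.s fun _ v => τ.P W v := fun u hu v hv => by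
  obtain rfl : u = τ.s := le_antisymm hu.2 hu.1
  have := hv.test' c hτ le_rfl
  rw [sub_self] at this
  exact fut_zero hv.wt this c.ε_lt

/-- a grid of tests of mesh `μ` on `[a, b]` -/
theorem exists_grid (mk : ℝ → Tst n) (a b : ℝ) (hμ : 0 < μ) {J : ℕ} (hJ : b - a ≤ J * μ) :
    ∃ I : Finset (Tst n), I.card ≤ J + 1 ∧ (∀ τ ∈ I, ∃ s ∈ Icc a b, τ = mk s) ∧
      (∀ u ∈ Icc a b, ∃ s ∈ Icc u (u + μ), s ≤ b ∧ mk s ∈ I) ∧ (a ≤ b → mk a ∈ I) := by
  classical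
  rcases lt_or_ge b a with h | h
  · exact ⟨∅, by simp, by simp, fun u hu => absurd (hu.1.trans hu.2) (not_le.2 h),
      fun h' => absurd h' (not_le.2 h)⟩
  refine ⟨(Finset.range (J + 1)).image fun j : ℕ => mk (min (a + j * μ) b),
    Finset.card_image_le.trans (by simp), fun τ hτ => ?_, fun u hu => ?_, fun _ => ?_⟩
  · obtain ⟨j, -, rfl⟩ := Finset.mem_image.1 hτ
    exact ⟨_, ⟨le_min (le_add_of_nonneg_right (by positivity)) h, min_le_right _ _⟩, rfl⟩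
  · have h0 : 0 ≤ (u - a) / μ := div_nonneg (sub_nonneg.2 hu.1) hμ.le
    have h1 := Nat.le_ceil ((u - a) / μ)
    have h2 := (Nat.ceil_lt_add_one h0).le
    rw [div_le_iff₀ hμ] at h1
    have h3 : (⌈(u - a) / μ⌉₊ : ℝ) * μ ≤ u - a + μ := by
      have := mul_le_mul_of_nonneg_right h2 hμ.le
      rwa [add_mul, div_mul_cancel₀ _ hμ.ne', one_mul] at this
    refine ⟨min (a + ⌈(u - a) / μ⌉₊ * μ) b, ⟨le_min (by linarith) hu.2,
      (min_le_left _ _).trans (by linarith)⟩, min_le_right _ _, Finset.mem_image.2 ⟨_, ?_, rfl⟩⟩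
    refine Finset.mem_range.2 (Nat.lt_succ_of_le (Nat.ceil_le.2 ?_))
    rw [div_le_iff₀ hμ]; linarith [hu.2]
  · exact Finset.mem_image.2 ⟨0, by simp, by simp [h]⟩

theorem exp_le_three {x : ℝ} (hx : x ≤ 1) : Real.exp x ≤ 3 :=
  (Real.exp_le_exp.2 hx).trans (by linarith [Real.exp_one_lt_d9])

/-- the cap from one test, paid by its price -/
theorem capT (c : Ctx I ρ ε R) {τ : Tst n} (hτ : τ ∈ I) {k L : ℝ} (k0 : 0 ≤ k) (L0 : 0 ≤ L)
    (hP : ∀ v, Wt v → τ.P W v → CB v sv k ∧ ∑ i, meanV v sv i ^ 2 ≤ L)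
    (hv : FG I W (ρ ^ (m + 1)) u v) (hu : u ≤ τ.s) (h1 : k * (τ.s - u) ≤ 1 / 4) (h2 : τ.s - u ≤ 1 / 4)
    (h3 : Real.exp (L * (τ.s - u)) * τ.lam ≤ 3) : CB v sv (k / (1 - k * (τ.s - u)) + 1 / R) := by
  have h0 := sub_nonneg.2 hu
  refine (((hv.test c hτ hu).mono hv.wt hP).cap hv.wt h0 c.R1 c.bd k0 (by linarith) L0).mono ?_
  unfold capK
  refine add_le_add_right ?_ _
  set d := τ.s - u
  have a1 : k / (1 - k * d) * d ≤ 1 / 3 := by
    rw [div_mul_eq_mul_div, div_le_iff₀ (by linarith)]; linarith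
  have a2 : Real.exp ((k / (1 - k * d) + (k + L) + 1) * d) ≤ 3 * Real.exp (L * d) := by
    rw [show (k / (1 - k * d) + (k + L) + 1) * d = (k / (1 - k * d) * d + k * d + d) + L * d by ring,
      Real.exp_add]
    exact mul_le_mul_of_nonneg_right (exp_le_three (by linarith)) (Real.exp_pos _).le
  have ε0 := c.ε0
  have R0 := c.R0
  have l0 := c.pos τ hτ
  have a3 := c.err_div (A := 18) (k := 3) (j := 1) (by norm_num) (by norm_num)
  calc _ ≤ 2 * R ^ 3 * (3 * Real.exp (L * d)) * (ε * τ.lam) := by gcongr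
    _ = 6 * R ^ 3 * ε * (Real.exp (L * d) * τ.lam) := by ring
    _ ≤ 6 * R ^ 3 * ε * 3 := by gcongr
    _ ≤ 1 / R := by rw [pow_one] at a3; linarith

/-- on a fine grid the cap is free -/
theorem gridD (c : Ctx I ρ ε R) (hμ : R * μ ≤ 1 / 4) {k : ℝ → ℝ} (k1 : ∀ u ∈ Icc a b, 1 ≤ k u)
    (kR : ∀ u ∈ Icc a b, k u ≤ R)
    (h : ∀ u ∈ Icc a b, ∃ τ ∈ I, τ.s ∈ Icc u (u + μ) ∧ ∀ v, τ.P W v → CB v sv (k u)) :
    Dv I W ρ 1 a b fun u v => CB v sv (k u * (1 + (2 * R * μ + 1 / R))) := fun u hu v hv => by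
  obtain ⟨τ, hτ, hs, hP⟩ := h u hu
  have R1 := c.R1
  have d0 := sub_nonneg.2 hs.1
  have d1 : τ.s - u ≤ μ := by linarith [hs.2]
  have k1 := k1 u hu
  have d2 : R * (τ.s - u) ≤ R * μ := by gcongr
  have d3 : k u * (τ.s - u) ≤ R * (τ.s - u) := by gcongr; exact kR u hu
  refine (capT (m := 0) c hτ (k := k u) (L := R) (by linarith) c.R0.le
    (fun v hw h => ⟨hP v h, c.bd.meanV_le hw⟩) hv hs.1 (by linarith) (by nlinarith) ?_).mono ?_
  · exact (mul_le_mul (exp_le_three (by linarith)) (c.lam1 τ hτ) (c.pos τ hτ).le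
      (by norm_num)).trans (by norm_num)
  · have a1 : k u / (1 - k u * (τ.s - u)) ≤ k u * (1 + 2 * R * μ) := by
      rw [div_le_iff₀ (by linarith), mul_assoc]
      refine le_mul_of_one_le_right (by linarith) ?_
      have : 0 ≤ k u * (τ.s - u) := by positivity
      nlinarith
    have a2 : 1 / R ≤ k u * (1 / R) := le_mul_of_one_le_left (by positivity) k1
    linarith

/-- `Cov ψ` on a fine grid -/
theorem gridK (c : Ctx I ρ ε R) (hμ : R * μ ≤ 1 / 4) {ψ : Cube n → Fin n → ℝ} (bψ : Bd ψ R) {κ K b' : ℝ}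
    (κ0 : 0 ≤ κ) (κR : κ ≤ R) (K1 : 1 ≤ K) (hκ : Dv I W ρ m a b' fun _ v => CB v sv κ)
    (h : ∀ u ∈ Icc a b, ∃ τ ∈ I, τ.s ∈ Icc u (u + μ) ∧ τ.s ≤ b' ∧ ∀ v, τ.P W v → CB v ψ K) :
    Dv I W ρ (m + 1) a b fun _ v => CB v ψ (4 * K) := fun u hu v hv => by
  obtain ⟨τ, hτ, hs, hb, hP⟩ := h u hu
  have R1 := c.R1
  have ε0 := c.ε0
  have d0 := sub_nonneg.2 hs.1
  have d1 : τ.s - u ≤ μ := by linarith [hs.2]
  have d2 : (τ.s - u) * R ≤ 1 / 4 := by nlinarith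
  refine (cb_prop hv.wt d0 κ0 c.bd bψ (hκ.ap' c hv hu.1 (by linarith)) (by linarith : 0 ≤ K)
    (hv.test' c hτ hs.1) fun y hy => hP _ (not_not.1 hy)).mono ?_
  have a1 := exp_half_le (x := κ * (τ.s - u)) (by nlinarith)
  have a2 : (1 + (τ.s - u) * R) * R * ε ≤ 2 * R * ε := by gcongr; linarith
  have a3 := c.err' (A := 2) (k := 1) (by norm_num) (by norm_num)
  calc _ ≤ 7 / 4 * (K + 1) := by gcongr; linarith
    _ ≤ _ := by linarith

theorem meanV_fA (v : Cube n → ℝ) (A : Mn n) : meanV v (fA A sv) = A *ᵥ meanV v sv := by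
  funext j; exact (meanV_dot v sv (A j)).symm

/-- the residual and the mean from one test -/
theorem resT (c : Ctx I ρ ε R) (bA : Bd (fA A sv) R) {τ : Tst n} (hτ : τ ∈ I) {α β : ℝ} (α0 : 0 ≤ α)
    (β0 : 0 ≤ β) (hP : ∀ v, τ.P W v → (A *ᵥ meanV v sv - fld v) ⬝ᵥ (A *ᵥ meanV v sv - fld v) ≤ α ∧
      meanV v sv ⬝ᵥ meanV v sv ≤ β) (hv : FG I W (ρ ^ (m + 1)) u v) (hu : u ≤ τ.s)
    (h1 : τ.s - u ≤ 1) : (A *ᵥ meanV v sv - fld v) ⬝ᵥ (A *ᵥ meanV v sv - fld v) ≤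
      3 * (α + 1 + (τ.s - u) ^ 2 * β) ∧ meanV v sv ⬝ᵥ meanV v sv ≤ β + 1 := by
  have d0 := sub_nonneg.2 hu
  have R1 := c.R1
  have ε0 := c.ε0
  obtain ⟨h2, h3⟩ := res_prop hv.wt d0 c.bd bA (fld v) α0 β0 (hv.test' c hτ hu) fun y hy => by
    have := hP _ (not_not.1 hy)
    rw [fld_post hv.1, ← meanV_fA] at this
    simpa only [dotProduct, sq, Pi.sub_apply] using this
  have e1 := c.err' (A := 1) (k := 1) (by norm_num) (by norm_num)
  refine ⟨?_, by simp only [dotProduct, ← sq]; linarith⟩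
  set d := τ.s - u
  set X := ∑ j, (meanV v (fA A sv) j - fld v j) ^ 2 with hX
  set Y := ∑ j, fld v j ^ 2 with hY
  have eX : (A *ᵥ meanV v sv - fld v) ⬝ᵥ (A *ᵥ meanV v sv - fld v) = X := by
    simp only [hX, meanV_fA, dotProduct, sq, Pi.sub_apply]
  have X0 : 0 ≤ X := by positivity
  have Y0 : 0 ≤ Y := by positivity
  have hYX : Y ≤ 2 * (X + R) := by
    have a1 := dot_sub_le (meanV v (fA A sv)) (meanV v (fA A sv) - fld v)
    have a2 := bA.meanV_le hv.wt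
    simp only [sub_sub_cancel, dotProduct, ← sq, Pi.sub_apply] at a1
    linarith
  have nR : (n : ℝ) ≤ R := by linarith [c.nR, Nat.cast_nonneg (α := ℝ) n]
  have a3 : √(27 * (R ^ 2 + Y ^ 2 + 8 * d ^ 4 * R ^ 2 + 24 * d ^ 2 * (Fintype.card (Fin n) : ℝ) ^ 2) * ε) ≤
      1 / 10 + X / 50 := by
    refine Real.sqrt_le_iff.2 ⟨by positivity, ?_⟩
    have b1 : 8 * d ^ 4 * R ^ 2 ≤ 8 * 1 ^ 4 * R ^ 2 := by gcongr
    have b2 : 24 * d ^ 2 * (Fintype.card (Fin n) : ℝ) ^ 2 ≤ 24 * 1 ^ 2 * R ^ 2 := by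
      rw [Fintype.card_fin]; gcongr
    have b3 : Y ^ 2 ≤ 8 * X ^ 2 + 8 * R ^ 2 := by nlinarith [sq_nonneg (X - R)]
    have b4 := c.err' (A := 27 * 41 * 100) (k := 2) (by norm_num) (by norm_num)
    have b5 := mul_le_mul_of_nonneg_right
      (c.err' (A := 27 * 8 * 2500) (k := 0) (by norm_num) (by norm_num)) (sq_nonneg X)
    have b6 : 27 * (R ^ 2 + Y ^ 2 + 8 * d ^ 4 * R ^ 2 + 24 * d ^ 2 * (Fintype.card (Fin n) : ℝ) ^ 2) * ε ≤
        27 * (41 * R ^ 2 + 8 * X ^ 2) * ε :=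
      mul_le_mul_of_nonneg_right (mul_le_mul_of_nonneg_left (by linarith) (by norm_num)) ε0.le
    nlinarith
  have a4 := h2.trans (add_le_add (Real.sqrt_le_sqrt (add_le_add_right a3 α))
    (mul_le_mul_of_nonneg_left (Real.sqrt_le_sqrt (show β + R * ε ≤ β + 1 by linarith)) d0))
  have a5 := pow_le_pow_left₀ (Real.sqrt_nonneg _) a4 2
  have a6 := Real.sq_sqrt (show 0 ≤ α + (1 / 10 + X / 50) by positivity)
  have a7 := Real.sq_sqrt (show 0 ≤ β + 1 by positivity)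
  rw [Real.sq_sqrt X0] at a5
  have a8 : (d * √(β + 1)) ^ 2 = d ^ 2 * β + d ^ 2 := by rw [mul_pow, a7]; ring
  have a9 : d ^ 2 ≤ 1 := pow_le_one₀ d0 h1
  rw [eX]
  nlinarith [sq_nonneg (√(α + (1 / 10 + X / 50)) - d * √(β + 1)), mul_nonneg (sq_nonneg d) β0]

/-- `tr C²` from the mean at one test -/
theorem c2T (c : Ctx I ρ ε R) {τ : Tst n} (hτ : τ ∈ I) {β κ d : ℝ} (β0 : 0 ≤ β) (κ0 : 0 ≤ κ)
    (hP : ∀ v, τ.P W v → meanV v sv ⬝ᵥ meanV v sv ≤ β) (hv : FG I W (ρ ^ (m + 1)) u v) (d0 : 0 < d)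
    (hd : d ≤ τ.s - u) (h1 : τ.s - u ≤ 1) (hκ : κ * (τ.s - u) ≤ 3 / 2)
    (hC : AP sv v (τ.s - u) ε fun v => CB v sv κ) : fr (covMat v sv) ≤ 27 * ((β + 1) / d + 1) := by
  have hu : u ≤ τ.s := by linarith
  have h2 := ex_le_bad' (G := fun p => ∑ j, meanV (pw sv v p) sv j ^ 2) hv.wt (hv.test' c hτ hu)
    ((eg_msq hv.wt).mg (mem_univ _)) β0 c.R0.le
    (fun y hy => by simpa only [dotProduct, sq, pw] using hP _ (not_not.1 hy))
    fun y => c.bd.meanV_le (hv.wt.post _ _ _)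
  rw [fr_C]
  refine (trC2_le hv.wt (by linarith) κ0 c.bd hC h2).trans ?_
  have e1 := c.err' (A := 1) (k := 1) (by norm_num) (by norm_num)
  have e2 := c.err' (A := 32) (k := 3) (by norm_num) (by norm_num)
  have ε0 := c.ε0
  have R0 := c.R0
  have a1 : Real.exp (2 * κ * (τ.s - u)) ≤ 27 := by
    refine (Real.exp_le_exp.2 (show _ ≤ ((3 : ℕ) : ℝ) * 1 by push_cast; linarith)).trans ?_
    rw [Real.exp_nat_mul]
    exact (pow_le_pow_left₀ (Real.exp_pos _).le (exp_le_three le_rfl) 3).trans (by norm_num)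
  have a2 : (τ.s - u) * (32 * R ^ 3 * ε) ≤ 1 * 1 := by gcongr
  have a3 : (β + R * ε) / (τ.s - u) ≤ (β + 1) / d := by gcongr; linarith
  gcongr
  linarith

/-! ### change of `z` -/

theorem Az_eq (z : ℝ) (W : Mn n) : Az z W = Az 2 W + (z - 2) • (1 : Mn n) := by
  simp only [Az, sub_smul]; abel

theorem fr_smul (x : ℝ) (M : Mn n) : fr (x • M) = x ^ 2 * fr M := by
  simp only [fr, Matrix.smul_apply, smul_eq_mul, mul_pow, Finset.mul_sum]

theorem cb_Az {z ζ k κ : ℝ} (hv : Wt v) (hz : z ∈ Icc 2 (2 + ζ)) (κ0 : 0 ≤ κ)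
    (h1 : CB v (fA (Az 2 W) sv) k) (h2 : CB v sv κ) : CB v (fA (Az z W) sv) (2 * k + 2 * ζ ^ 2 * κ) :=
  CB_iff.2 fun x => by
  have e : (fun s : Cube n => x ⬝ᵥ fA (Az z W) sv s) =
      fun s => x ⬝ᵥ fA (Az 2 W) sv s + ((z - 2) • x) ⬝ᵥ sv s := by
    funext s
    rw [fA, Az_eq, add_mulVec, smul_mulVec, one_mulVec, dotProduct_add, dotProduct_smul, smul_dotProduct]
  have a1 := var_add_le hv (fun s => x ⬝ᵥ fA (Az 2 W) sv s) (fun s => ((z - 2) • x) ⬝ᵥ sv s) one_pos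
  have a2 := h2.var_le ((z - 2) • x)
  have a3 : (z - 2) ^ 2 ≤ ζ ^ 2 := pow_le_pow_left₀ (by linarith [hz.1]) (by linarith [hz.2]) 2
  have a4 := mul_le_mul_of_nonneg_right a3 (mul_nonneg κ0 (dot_self_nonneg x))
  rw [smul_dotProduct, dotProduct_smul, smul_eq_mul, smul_eq_mul] at a2
  rw [e]
  rw [inv_one] at a1
  nlinarith [h1.var_le x]

theorem a1_Az {z ζ al ga : ℝ} (hz : z ∈ Icc 2 (2 + ζ)) (h1 : fr (Az 2 W * covMat v sv - 1) ≤ al)
    (h2 : fr (covMat v sv) ≤ ga) : fr (Az z W * covMat v sv - 1) ≤ 2 * al + 2 * ζ ^ 2 * ga := by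
  have e : Az z W * covMat v sv - 1 = (Az 2 W * covMat v sv - 1) + (z - 2) • covMat v sv := by
    rw [Az_eq z, Matrix.add_mul, Matrix.smul_mul, Matrix.one_mul]; abel
  have a3 : (z - 2) ^ 2 ≤ ζ ^ 2 := pow_le_pow_left₀ (by linarith [hz.1]) (by linarith [hz.2]) 2
  have a4 := mul_le_mul a3 h2 fr_nonneg (sq_nonneg ζ)
  rw [e]
  refine (fr_add_le _ _).trans ?_
  rw [fr_smul]; linarith

theorem b_Az {z ζ al be ga : ℝ} (hW : Wᵀ = W) (hz : z ∈ Icc 2 (2 + ζ))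
    (h1 : fr (Az 2 W * covMat v sv - 1) ≤ al) (h2 : fr (covMat v sv) ≤ ga)
    (h3 : fr (Az 2 W * covMat v sv * Az 2 W - Az 2 W) ≤ be) :
    fr (Az z W * covMat v sv * Az z W - Az z W) ≤
      2 * be + 16 * ζ ^ 2 * al + 8 * ζ ^ 2 * n + 8 * ζ ^ 4 * ga := by
  set X := Az 2 W * covMat v sv - 1 with hX
  have eT : Xᵀ = covMat v sv * Az 2 W - 1 := by
    simp only [hX, transpose_sub, transpose_mul, covMat_transpose, transpose_smul, transpose_one, hW]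
  have e : Az z W * covMat v sv * Az z W - Az z W = (Az 2 W * covMat v sv * Az 2 W - Az 2 W) +
      (z - 2) • ((X + Xᵀ) + (1 + (z - 2) • covMat v sv)) := by
    rw [eT, hX, Az_eq z]
    simp only [Matrix.add_mul, Matrix.mul_add, Matrix.smul_mul, Matrix.mul_smul, Matrix.one_mul,
      Matrix.mul_one, smul_add, smul_sub]
    abel
  have a3 : (z - 2) ^ 2 ≤ ζ ^ 2 := pow_le_pow_left₀ (by linarith [hz.1]) (by linarith [hz.2]) 2
  have a4 := mul_le_mul a3 h2 fr_nonneg (sq_nonneg ζ)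
  have a5 := fr_add_le X Xᵀ
  have a6 := fr_add_le (1 : Mn n) ((z - 2) • covMat v sv)
  have a7 := fr_add_le (X + Xᵀ) (1 + (z - 2) • covMat v sv)
  rw [fr_transpose] at a5
  rw [fr_smul, fr_one] at a6
  have a8 := mul_le_mul a3 (show fr ((X + Xᵀ) + (1 + (z - 2) • covMat v sv)) ≤
    8 * al + 4 * n + 4 * (ζ ^ 2 * ga) by linarith) fr_nonneg (sq_nonneg ζ)
  rw [e]
  refine (fr_add_le _ _).trans ?_
  rw [fr_smul]; linarith

theorem d2_zero_le {ψ : Cube n → Fin n → ℝ} :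
    D2 sv v ψ ψ 0 ≤ 2 * D2 sv v ψ ψ (1 : Mn n) + 2 * n := by
  have := sum_sub_sq_le (fun j l => covV v (fun x => ψ x j) sv ⬝ᵥ covV v (fun x => ψ x l) sv -
    (1 : Mn n) j l) fun j l => -(1 : Mn n) j l
  have e : ∑ j, ∑ l, (1 : Mn n) j l ^ 2 = n := fr_one
  simpa only [D2, sub_neg_eq_add, sub_add_cancel, neg_sq, e, Pi.zero_apply, sub_zero] using this

/-- the spectrum of `W` bounds `z - W` -/
theorem op2_Az {l : Vn n} (h : Dq.Dg W l) {z : ℝ} (hl : ∀ i, |z - l i| ≤ 6) :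
    Wᵀ = W ∧ Op2 (Az z W) (6 ^ 2) := by
  obtain ⟨O, hO, rfl⟩ := h
  have hO' : Oᵀ * O = 1 := mul_eq_one_comm.1 hO
  refine ⟨by simp only [transpose_mul, transpose_transpose, diagonal_transpose, Matrix.mul_assoc],
    fun x => ?_⟩
  have e : Az z (O * diagonal l * Oᵀ) = O * diagonal (fun i => z - l i) * Oᵀ := by
    rw [← diagonal_sub, Matrix.mul_sub, Matrix.sub_mul, ← smul_one_eq_diagonal, Matrix.mul_smul,
      Matrix.smul_mul, Matrix.mul_one, hO]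
  rw [e, ← mulVec_mulVec, ← mulVec_mulVec, Op2.orth hO', ← Op2.orth (G := Oᵀ) (by simpa using hO) x]
  simp only [dotProduct, mulVec_diagonal, Finset.mul_sum]
  refine Finset.sum_le_sum fun i _ => ?_
  have := sq_le_sq' (abs_le.1 (hl i)).1 (abs_le.1 (hl i)).2
  nlinarith [mul_le_mul_of_nonneg_right this (sq_nonneg ((Oᵀ *ᵥ x) i))]

/-! ### integrals of powers -/

theorem int_rpow_lt {p s : ℝ} (hu : 0 < u) (hp : p < 1) :
    ∫ r in u..s, r ^ (-p) ≤ s ^ (1 - p) / (1 - p) := by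
  rw [integral_rpow (Or.inl (by linarith)), show -p + 1 = 1 - p by ring]
  exact div_le_div_of_nonneg_right (sub_le_self _ (by positivity)) (by linarith)

theorem int_rpow_gt {p s : ℝ} (hu : 0 < u) (hs : u ≤ s) (hp : 1 < p) :
    ∫ r in u..s, r ^ (-p) ≤ u ^ (1 - p) / (p - 1) := by
  rw [integral_rpow (Or.inr ⟨by linarith, fun h => by
    rw [uIcc_of_le hs] at h; linarith [h.1]⟩), show -p + 1 = 1 - p by ring,
    ← neg_div_neg_eq, neg_sub, neg_sub]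
  have := hu.trans_le hs
  exact div_le_div_of_nonneg_right (sub_le_self _ (by positivity)) (by linarith)

theorem cont_rpow {p s : ℝ} (hu : 0 < u) : ContinuousOn (fun r : ℝ => r ^ p) (Icc u s) :=
  continuousOn_id.rpow_const fun _ hr => Or.inl (hu.trans_le hr.1).ne'

end Crest.Agent.T157.Oa
end
end

-- ▼ part T157/OaE_48

set_option autoImplicit false
set_option linter.unusedSectionVars false

/-!
Row 157, A2 (helper48): monotonicity of the list, two integrals, consequences of `Num`.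
-/

noncomputable section

namespace Crest.Agent.T157.Oa

open MeasureTheory Matrix Filter Topology Set
open Crest.Agent.T157.E Crest.Agent.T157.SL Crest.Agent.T157.Ks Crest.Agent.T157.Od
open Crest.Agent.T157.Oo

section
variable {n : ℕ} {I : Finset (Tst n)} {W A : Mn n} {ρ ε R t u s : ℝ} {v : Cube n → ℝ} {m : ℕ}

theorem cb_fA {κ : ℝ} (hA : Aᵀ = A) (ha : Op2 A (6 ^ 2)) (κ0 : 0 ≤ κ) (h : CB v sv κ) :
    CB v (fA A sv) (36 * κ) := CB_iff.2 fun x => by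
  rw [dot_fA hA]
  have := mul_le_mul_of_nonneg_left (ha x) κ0
  linarith [h.var_le (A *ᵥ x)]

theorem b2_crude {κ : ℝ} (hv : Wt v) (hA : Aᵀ = A) (ha : Op2 A (6 ^ 2)) (κ1 : 1 ≤ κ) (h : CB v sv κ) :
    fr (A * covMat v sv - 1) ≤ 74 * (κ ^ 2 * n) ∧ fr (A * covMat v sv * A - A) ≤ 2664 * (κ ^ 2 * n) ∧
      fr (covMat v sv) ≤ κ ^ 2 * n := by
  have κ0 : 0 ≤ κ := by linarith
  have h2 := cb_fA hA ha κ0 h
  have a1 := fr_le_of_op2 (op2_C hv κ0 h)
  have a2 := fr_le_of_op2 (op2_AC hv h (by positivity) h2)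
  have a3 := fr_le_of_op2 (op2_ACA hv hA (by positivity) h2)
  have a4 := fr_le_of_op2 ha
  have a5 := fr_sub_le (A * covMat v sv) 1
  have a6 := fr_sub_le (A * covMat v sv * A) A
  have a7 : 1 * (n : ℝ) ≤ κ ^ 2 * n := by gcongr; exact one_le_pow₀ κ1
  rw [fr_one] at a5
  exact ⟨by nlinarith, by nlinarith, by nlinarith⟩

/-- fieldwise comparison of two lists -/
structure CsLe (c d : Cs) : Prop where
  a : c.a = d.a
  k1 : c.k1 ≤ d.k1
  k2 : c.k2 ≤ d.k2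
  a1 : c.a1 ≤ d.a1
  b : c.b ≤ d.b
  c2 : c.c2 ≤ d.c2
  N : c.N ≤ d.N
  N' : c.N' ≤ d.N'
  s1 : c.s1 ≤ d.s1
  s1' : c.s1' ≤ d.s1'
  s2 : c.s2 ≤ d.s2
  s2' : c.s2' ≤ d.s2'
  t4 : c.t4 ≤ d.t4
  t3 : c.t3 ≤ d.t3
  t3' : c.t3' ≤ d.t3'
  q4 : c.q4 ≤ d.q4
  q3 : c.q3 ≤ d.q3
  q3' : c.q3' ≤ d.q3'
  v4 : c.v4 ≤ d.v4
  v4' : c.v4' ≤ d.v4'
  d0 : c.d0 ≤ d.d0
  e0 : c.e0 ≤ d.e0

theorem apt_mono {c d : Cs} {p : Vn n} (e : CsLe c d) (h : APt c v A p) : APt d v A p :=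
  have M : ∀ {x y : ℝ}, x ≤ y → ∀ z : Vn n, x * (z ⬝ᵥ z) ≤ y * (z ⬝ᵥ z) := fun h z =>
    mul_le_mul_of_nonneg_right h (dot_self_nonneg z)
  ⟨e.a ▸ h.a, h.k1.mono e.k1, h.k2.mono e.k2, h.a1.trans e.a1, h.b.trans e.b, h.c2.trans e.c2,
    fun U => (h.N U).trans (mul_le_mul_of_nonneg_right e.N fr_nonneg),
    fun U => (h.N' U).trans (mul_le_mul_of_nonneg_right e.N' fr_nonneg),
    h.s1.trans e.s1, h.s1'.trans e.s1', h.s2.trans e.s2, h.s2'.trans e.s2',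
    fun z => (h.t4 z).trans (M e.t4 z), fun z => (h.t3 z).trans (M e.t3 z),
    fun z => (h.t3' z).trans (M e.t3' z), fun z => (h.q4 z).trans (M e.q4 z),
    fun z => (h.q3 z).trans (M e.q3 z), fun z => (h.q3' z).trans (M e.q3' z),
    fun z => (h.v4 z).trans (mul_le_mul_of_nonneg_right e.v4 (sq_nonneg _)),
    fun z => (h.v4' z).trans (mul_le_mul_of_nonneg_right e.v4' (sq_nonneg _)),
    h.d0.trans e.d0, h.e0.trans e.e0⟩

/-- propagation of `|Cov(ψ, χ) - c|_F` with a source that is a sum of two powers -/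
theorem t2G (c : Ctx I ρ ε R) {ψ χ : Cube n → Fin n → ℝ} {α β a b al : ℝ} (ht : 0 < t) (α0 : 0 ≤ α)
    (β0 : 0 ≤ β) (ha : a < 1) (hb : 1 < b) (hs : s - t ≤ 1)
    (hD : Dv I W ρ m t s fun u v => D2 sv v ψ χ 0 ≤ α * (u ^ (-a)) ^ 2 + β * (u ^ (-b)) ^ 2)
    {c0 : Fin n → Fin n → ℝ} (hE : Dv I W ρ m s s fun _ v => T2 v ψ χ c0 ≤ al) (a0 : 0 ≤ al)
    (hψ : Bd ψ R) (hχ : Bd χ R) (hc : ∑ j, ∑ l, c0 j l ^ 2 ≤ R ^ 2) :
    Dv I W ρ (m + 1) t s fun _ v => T2 v ψ χ c0 ≤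
      4 * (al + 2 + α * (s ^ (1 - a) / (1 - a)) ^ 2 + β * (t ^ (1 - b) / (b - 1)) ^ 2) := by
  set g : ℝ → ℝ := fun r => 1 + (√α * r ^ (-a) + √β * r ^ (-b)) with hg
  have gc : ∀ u, 0 < u → ContinuousOn g (Icc u s) := fun u hu => continuousOn_const.add
    ((continuousOn_const.mul (cont_rpow hu)).add (continuousOn_const.mul (cont_rpow hu)))
  have g1 : ∀ r, 0 < r → 0 ≤ √α * r ^ (-a) ∧ 0 ≤ √β * r ^ (-b) := fun r hr =>
    ⟨by positivity, by positivity⟩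
  refine (t2L c (be := fun r => g r ^ 2 - 1) (((gc t ht).pow 2).sub continuousOn_const)
    (fun u hu => ?_) (hD.imp fun u hu v _ h => h.trans ?_) hE a0 hψ hχ hc).imp fun u hu v _ h => ?_
  · obtain ⟨h1, h2⟩ := g1 u (ht.trans_le hu.1)
    simp only [hg]; nlinarith
  · obtain ⟨h1, h2⟩ := g1 u (ht.trans_le hu.1)
    have e1 : α * (u ^ (-a)) ^ 2 = (√α * u ^ (-a)) ^ 2 := by rw [mul_pow, Real.sq_sqrt α0]
    have e2 : β * (u ^ (-b)) ^ 2 = (√β * u ^ (-b)) ^ 2 := by rw [mul_pow, Real.sq_sqrt β0]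
    rw [e1, e2]
    simp only [hg]; nlinarith [mul_nonneg h1 h2]
  · have u0 := ht.trans_le hu.1
    have s0 := u0.trans_le hu.2
    have i1 : ∀ x : ℝ, IntervalIntegrable (fun r : ℝ => r ^ x) volume u s := fun x =>
      ((cont_rpow u0).mono (uIcc_of_le hu.2).le).intervalIntegrable
    have e : ∫ r in u..s, √(g r ^ 2 - 1 + 1) =
        (s - u) + (√α * (∫ r in u..s, r ^ (-a)) + √β * ∫ r in u..s, r ^ (-b)) := by
      rw [intervalIntegral.integral_congr (g := g) fun r hr => by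
        rw [uIcc_of_le hu.2] at hr
        obtain ⟨h1, h2⟩ := g1 r (u0.trans_le hr.1)
        rw [sub_add_cancel, Real.sqrt_sq (by simp only [hg]; linarith)], hg,
        intervalIntegral.integral_add intervalIntegrable_const
          (((i1 _).const_mul _).add ((i1 _).const_mul _)),
        intervalIntegral.integral_add ((i1 _).const_mul _) ((i1 _).const_mul _),
        intervalIntegral.integral_const_mul, intervalIntegral.integral_const_mul,
        intervalIntegral.integral_const, smul_eq_mul, mul_one]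
    have b1 := mul_le_mul_of_nonneg_left (int_rpow_lt (s := s) u0 ha) (Real.sqrt_nonneg α)
    have b2 := mul_le_mul_of_nonneg_left ((int_rpow_gt u0 hu.2 hb).trans (div_le_div_of_nonneg_right
      (Real.rpow_le_rpow_of_nonpos ht hu.1 (by linarith)) (by linarith))) (Real.sqrt_nonneg β)
    rw [e] at h
    have b3 : √(T2 v ψ χ c0) ≤ √(al + 1) + 1 + √α * (s ^ (1 - a) / (1 - a)) +
      √β * (t ^ (1 - b) / (b - 1)) := by linarith [hu.1]
    have b4 := pow_le_pow_left₀ (Real.sqrt_nonneg _) b3 2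
    rw [Real.sq_sqrt (T2_nonneg _)] at b4
    have e1 := Real.sq_sqrt (show 0 ≤ al + 1 by linarith)
    have e2 : α * (s ^ (1 - a) / (1 - a)) ^ 2 = (√α * (s ^ (1 - a) / (1 - a))) ^ 2 := by
      rw [mul_pow, Real.sq_sqrt α0]
    have e3 : β * (t ^ (1 - b) / (b - 1)) ^ 2 = (√β * (t ^ (1 - b) / (b - 1))) ^ 2 := by
      rw [mul_pow, Real.sq_sqrt β0]
    rw [e2, e3]
    generalize √α * (s ^ (1 - a) / (1 - a)) = y at *
    generalize √β * (t ^ (1 - b) / (b - 1)) = z at *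
    generalize √(al + 1) = x at *
    nlinarith [sq_nonneg (x - 1), sq_nonneg (x - y), sq_nonneg (x - z), sq_nonneg (y - 1),
      sq_nonneg (z - 1), sq_nonneg (y - z)]

/-- the growth factor of the majorant -/
theorem int_maj {θ a : ℝ} (ht : 0 < t) (hu : t ≤ u) (hs : u ≤ s) (a0 : 0 ≤ a) :
    Real.exp (∫ r in u..s, θ * r⁻¹ + a * t * r ^ (-2 : ℝ)) ≤ (s / u) ^ θ * Real.exp a := by
  have u0 := ht.trans_le hu
  have s0 := u0.trans_le hs
  have n0 : (0 : ℝ) ∉ uIcc u s := fun h => by rw [uIcc_of_le hs] at h; linarith [h.1]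
  rw [intervalIntegral.integral_add ((intervalIntegral.intervalIntegrable_inv
      (fun x hx => (ne_of_mem_of_not_mem hx n0)) continuousOn_id).const_mul _)
      ((((cont_rpow u0).mono (uIcc_of_le hs).le).intervalIntegrable).const_mul _),
    intervalIntegral.integral_const_mul, intervalIntegral.integral_const_mul, integral_inv n0,
    Real.exp_add, Real.rpow_def_of_pos (div_pos s0 u0), mul_comm θ]
  refine mul_le_mul_of_nonneg_left (Real.exp_le_exp.2 ?_) (Real.exp_pos _).le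
  have h := int_rpow_gt u0 hs (show (1 : ℝ) < 2 by norm_num)
  rw [show (1 : ℝ) - 2 = -1 by norm_num, show (2 : ℝ) - 1 = 1 by norm_num, Real.rpow_neg_one, div_one] at h
  calc _ ≤ a * t * u⁻¹ := mul_le_mul_of_nonneg_left h (by positivity)
    _ ≤ a := by rw [mul_assoc]; exact mul_le_of_le_one_right a0 (by rw [← div_eq_mul_inv, div_le_one u0]; exact hu)

end

/-! ### consequences of the numerical leaf -/

/-- the leaf at an admissible time -/
structure Nm (p : O0.Pm) (t : ℝ) : Prop extends Num p t where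
  t0 : 0 < t
  t1 : t ≤ p.t0

namespace Nm

variable {p : O0.Pm} {t : ℝ} (N : Nm p t)
include N

theorem K0 : 0 < p.K := by linarith [N.ok.K]
theorem e0 : 0 < p.e1 := N.ok.e1.1
theorem k3 : 100 * p.e1 ≤ p.k3 := by linarith [N.ok.e1.2]
theorem k3' : p.k3 ≤ 1 / 1000 := by
  linarith [N.ok.k3.2, N.ok.k2.2, N.ok.k4.2, N.ok.d.2, N.ok.ch.2, N.ok.k2.1, N.ok.k4.1, N.ok.d.1]
theorem tt : t ≤ 1 / 100 := N.t1.trans N.ok.t0.2
theorem n1' : (1000 : ℝ) ≤ p.n := le_trans (by norm_num) N.n1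
theorem n0 : (0 : ℝ) < p.n := by linarith [N.n1']
theorem cG4 : 4 ≤ cG p := by
  have := Real.one_le_exp (show 0 ≤ 3 * p.K * p.Lp by have := N.K0; have := N.ok.Lp; positivity)
  unfold cG; linarith
theorem cC1 : 1400 * p.K ≤ cC p := by unfold cC; nlinarith [N.ok.L, N.K0]
theorem cA1 : 16 ≤ cA p := by
  have := N.cG4; have := N.cC1; have := N.K0
  have : 0 ≤ 1152 * cG p * p.K ^ 2 * cC p := by have : 0 ≤ cC p := by linarith
                                                positivity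
  unfold cA; linarith
theorem cB1 : 6 * p.K + 21 + 24 * cA p + 288 * (cG p * p.K ^ 2 * cA p / p.e1 ^ 2) = cB p := by
  unfold cB; ring
theorem cB0 : 0 ≤ cG p * p.K ^ 2 * cA p / p.e1 ^ 2 := by
  have := N.cG4; have := N.cA1; positivity
theorem cK1 : 3 * p.K + 2 * p.K0 * p.T + 2 * p.K0 = cK p := by unfold cK; ring
theorem Ga1 : 1 ≤ G5.Ga (cK p) p.Lp (2 * p.K0) p.T := by
  have := N.cK1; have := N.K0; have := N.ok.K0; have := N.ok.T
  have : 0 ≤ cK p := by nlinarith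
  have := Real.log_nonneg (show 1 ≤ p.Lp by linarith [N.ok.Lp])
  exact Real.one_le_exp (by positivity)

/-- the four summands of `XX` -/
theorem parts : 0 ≤ XB p ∧ 0 ≤ 10 * cG p * p.K ∧ 0 ≤ 10 ^ 6 * p.K0 ^ 2 / p.t0 ^ 2 ∧ 0 ≤
    10 ^ 6 * (cK p + 2) ^ 2 * G5.Ga (cK p) p.Lp (2 * p.K0) p.T * p.T ^ 2 * p.K0 ^ 2 / p.e1 ^ 4 := by
  have := N.cG4; have := N.K0; have := N.Ga1
  refine ⟨?_, by positivity, by positivity, by positivity⟩
  unfold XB; linarith [N.cB1, N.cB0, N.cA1, N.cC1, N.ok.L]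

theorem XBX : XB p ≤ XX p := by unfold XX; linarith [N.parts.2.1, N.parts.2.2.1, N.parts.2.2.2]
theorem XB1 : 10 ^ 4 * p.K + 100 * p.L ≤ XB p := by
  unfold XB; linarith [N.cB1, N.cB0, N.cA1, N.cC1, N.ok.L, N.K0]
theorem X1 : 10 ^ 4 ≤ XX p := by linarith [N.XBX, N.XB1, N.ok.K, N.ok.L]
theorem XK : 10 ^ 4 * p.K ≤ XX p := by linarith [N.XBX, N.XB1, N.ok.L]
theorem XK0 : 10 ^ 6 * p.K0 ^ 2 ≤ XX p * p.t0 ^ 2 := by
  rw [← div_le_iff₀ (pow_pos N.ok.t0.1 2)]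
  unfold XX; linarith [N.parts.1, N.parts.2.1, N.parts.2.2.2]
theorem XK0' : 10 ^ 6 * p.K0 ^ 2 / p.t0 ^ 2 ≥ 10 ^ 6 * p.K0 := by
  have := N.ok.t0; have := N.ok.K0
  rw [ge_iff_le, le_div_iff₀ (pow_pos N.ok.t0.1 2)]
  have : p.t0 ^ 2 ≤ 1 := pow_le_one₀ N.ok.t0.1.le (by linarith [N.ok.t0.2])
  nlinarith
theorem Xk : 10 * cG p * p.K + 6 * p.K + 72 * p.K0 ≤ XX p := by
  unfold XX; linarith [N.XB1, N.XK0', N.parts.2.2.2, N.K0, N.ok.K0, N.ok.L]
theorem XG : 10 ^ 6 * (cK p + 2) ^ 2 * G5.Ga (cK p) p.Lp (2 * p.K0) p.T * p.T ^ 2 * p.K0 ^ 2 ≤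
    XX p * p.e1 ^ 4 := by
  rw [← div_le_iff₀ (pow_pos N.e0 4)]
  unfold XX; linarith [N.parts.1, N.parts.2.1, N.parts.2.2.1]
theorem e4 : p.e1 ^ 4 ≤ p.e1 := by
  have := N.e0
  exact pow_le_of_le_one this.le (by linarith [N.k3, N.k3']) (by norm_num)
theorem XG' : 10 ^ 6 * ((cK p + 2) * p.T) ≤ XX p * p.e1 := by
  have := N.cK1; have := N.K0; have hK := N.ok.K0; have hT := N.ok.T; have := N.Ga1
  have h0 : 1 ≤ cK p + 2 := by nlinarith
  refine le_trans ?_ (N.XG.trans (mul_le_mul_of_nonneg_left N.e4 (by linarith [N.X1])))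
  calc _ = 10 ^ 6 * (cK p + 2) ^ 1 * 1 * p.T ^ 1 * 1 ^ 2 := by ring
    _ ≤ _ := by gcongr <;> first | assumption | norm_num
theorem XcK : cK p + 2 ≤ XX p := by
  have := N.XG'; have := N.cK1; have := N.K0; have hK := N.ok.K0; have hT := N.ok.T
  have h0 : 1 ≤ cK p + 2 := by nlinarith
  have : XX p * p.e1 ≤ XX p * 1 := by gcongr <;> linarith [N.X1, N.k3, N.k3']
  nlinarith
theorem TcK : 2 * (p.T + 1) ≤ cK p := by nlinarith [N.cK1, N.K0, N.ok.K0, N.ok.T]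
theorem Xn : 100 * XX p ≤ p.n := by nlinarith [N.nX, N.tt, N.n0]
theorem XB0 : XX p ≤ p.B0 := by
  have := N.X1
  refine le_trans ?_ N.hB0
  calc _ = 1 * XX p ^ 1 := by ring
    _ ≤ _ := by gcongr <;> linarith
theorem nt : 10 ^ 4 ≤ p.n * t := N.X1.trans N.nX
/-- the mesh is far below `t / K` -/
theorem mu : 1000 * p.K * (1 / (p.n : ℝ) ^ 2) ≤ t := by
  have := N.n0
  rw [mul_one_div, div_le_iff₀ (by positivity)]
  nlinarith [N.XK, N.nX, N.n1', N.t0, mul_pos this N.t0]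
theorem mu' : 1000 * (1 / (p.n : ℝ) ^ 2) ≤ t := by
  have := N.n0
  exact le_trans (by gcongr; linarith [N.ok.K]) N.mu
theorem eta0 : 0 < p.eta := by have := N.K0; unfold O0.Pm.eta; positivity
theorem eta1 : p.K * p.eta = 1 / 4 := by have := N.K0; unfold O0.Pm.eta; field_simp
theorem eta2 : p.eta ≤ 1 / 4 := by nlinarith [N.eta0, N.eta1, N.ok.K]
theorem ts0 : 0 < p.ts := Real.rpow_pos_of_pos N.n0 _
theorem kk01 : 1 ≤ kk0 p t := by
  unfold kk0; split_ifs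
  exacts [le_rfl, N.ok.K.trans N.nK]
theorem kk_eq : p.kk t = kk0 p t * max 1 (p.ts / t) ^ (1 + p.k3) := by
  unfold O0.Pm.kk kk0; split_ifs with h
  · rw [max_eq_left ((div_le_one N.t0).2 (N.ts.trans h)), Real.one_rpow, one_mul]
  · rfl
theorem kk1' : 1 ≤ p.kk t := by
  rw [N.kk_eq]
  exact one_le_mul_of_one_le_of_one_le N.kk01
    (Real.one_le_rpow (le_max_left _ _) (by linarith [N.ok.k3.1]))
theorem m1 : max t p.tss ≤ 1 / 100 := max_le N.tt (by linarith [N.tss, N.ok.t0.2])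
theorem al0 : 0 < p.al t := Real.rpow_pos_of_pos (N.t0.trans_le (le_max_left _ _)) _
theorem al1 : p.al t ≤ 1 :=
  Real.rpow_le_one (N.t0.le.trans (le_max_left _ _)) (by linarith [N.m1]) (by norm_num)
theorem sq1 : √t ≤ 1 := Real.sqrt_le_one.2 (by linarith [N.tt])
theorem sq0 : 0 < √t := Real.sqrt_pos.2 N.t0
theorem tsq : t ≤ √t := by nlinarith [Real.mul_self_sqrt N.t0.le, N.sq1, N.sq0]
theorem sqal : √t ≤ p.al t := le_trans (le_mul_of_one_le_left N.sq0.le N.kk1') N.kks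
theorem ze : (p.L ^ 2 * t / 100) ^ 2 ≤ t := by
  have := mul_le_mul_of_nonneg_left N.t1 (pow_nonneg (show 0 ≤ p.L by linarith [N.ok.L]) 4)
  nlinarith [N.t0L, N.t0]

end Nm

theorem rpow32 {x : ℝ} (hx : 0 ≤ x) : x ^ (3 / 2 : ℝ) = x * √x := by
  rw [Real.sqrt_eq_rpow, ← Real.rpow_one_add' hx (by norm_num)]; norm_num

end Crest.Agent.T157.Oa
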