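import Mathlib
import Crest.Agent.T157.OcB_9
import Crest.Agent.T157.OcD_9

-- ▼ part T157/OcC_9
section

set_option autoImplicit false

/-!
Row 157, A2 tools (helper9).  Herbst argument, Herbst argument with a defect (HD), Gaussian
concentration of Frobenius-Lipschitz functions on `SO(n)`, two-set concentration.
-/

namespace Crest.Agent.T157.Oc

open MeasureTheory ProbabilityTheory Crest.Agent.Lib.OrthPoinc Filter Topology Set

section Abstract

variable {Ω : Type*} [MeasurableSpace Ω] {P : Measure Ω} [IsProbabilityMeasure P]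

/-- `Ent(e^{u f})` -/
noncomputable def entE (P : Measure Ω) (f : Ω → ℝ) (u : ℝ) : ℝ :=
  ∫ x, u * f x * Real.exp (u * f x) ∂P - mgf f P u * Real.log (mgf f P u)

/-- **Herbst argument.** -/
theorem herbst {f : Ω → ℝ} (hi : ∀ u, Integrable (fun x => Real.exp (u * f x)) P) {c t : ℝ}
    (ht : 0 ≤ t) (hE : ∀ u, 0 < u → u < t → entE P f u ≤ c * u ^ 2 * mgf f P u) :
    mgf f P t ≤ Real.exp (t * ∫ x, f x ∂P + c * t ^ 2) := by
  have hint : ∀ u, u ∈ interior (integrableExpSet f P) := fun u => by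
    have : integrableExpSet f P = univ := eq_univ_of_forall hi
    rw [this, interior_univ]; trivial
  have hpos : ∀ u, 0 < mgf f P u := fun u => mgf_pos (hi u)
  have hd : ∀ u, HasDerivAt (fun u => Real.log (mgf f P u))
      ((∫ x, f x * Real.exp (u * f x) ∂P) / mgf f P u) u := fun u =>
    (hasDerivAt_mgf (hint u)).log (hpos u).ne'
  rw [← Real.log_le_iff_le_exp (hpos t)]
  rcases ht.eq_or_lt with h0 | h0
  · rw [← h0]; simp
  have hanti : AntitoneOn (fun u => Real.log (mgf f P u) / u - c * u) (Ioc 0 t) := by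
    have hd2 : ∀ u, 0 < u → HasDerivAt (fun u => Real.log (mgf f P u) / u - c * u)
        (entE P f u / mgf f P u / u ^ 2 - c) u := fun u hu => by
      have d1 := (hd u).fun_div (hasDerivAt_id u) hu.ne'
      have d2 := (hasDerivAt_id u).const_mul c
      refine (d1.sub d2).congr_deriv ?_
      have e : ∫ x, u * f x * Real.exp (u * f x) ∂P = u * ∫ x, f x * Real.exp (u * f x) ∂P := by
        rw [← integral_const_mul]; congr 1; funext x; ring
      have := (hpos u).ne'
      have := hu.ne'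
      simp only [entE, e, id]
      generalize (∫ x, f x * Real.exp (u * f x) ∂P) = I
      field_simp
    refine antitoneOn_of_hasDerivWithinAt_nonpos (convex_Ioc 0 t)
      (fun u hu => (hd2 u hu.1).continuousAt.continuousWithinAt)
      (fun u hu => (hd2 u (interior_subset hu).1).hasDerivWithinAt) fun u hu => ?_
    rw [interior_Ioc] at hu
    have h1 := hE u hu.1 hu.2
    have h2 := hpos u
    have h3 : 0 < u ^ 2 := pow_pos hu.1 2
    rw [sub_nonpos, div_le_iff₀ h3, div_le_iff₀ h2]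
    exact h1
  have hl : Tendsto (fun u => Real.log (mgf f P u) / u - c * u) (𝓝[>] 0) (𝓝 (∫ x, f x ∂P - c * 0)) := by
    refine Tendsto.sub ?_ ((continuous_const.mul continuous_id).continuousAt.tendsto.mono_left
      nhdsWithin_le_nhds)
    have h1 := (hd 0).tendsto_slope_zero_right
    simp only [zero_add, mgf_zero', probReal_univ, Real.log_one, sub_zero, smul_eq_mul, zero_mul,
      Real.exp_zero, mul_one, div_one] at h1
    simpa only [div_eq_inv_mul] using h1
  have h2 : Real.log (mgf f P t) / t - c * t ≤ ∫ x, f x ∂P - c * 0 := by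
    refine ge_of_tendsto hl ?_
    filter_upwards [Ioo_mem_nhdsGT h0] with u hu
    exact hanti ⟨hu.1, hu.2.le⟩ ⟨h0, le_rfl⟩ hu.2.le
  rw [sub_le_iff_le_add, div_le_iff₀ h0] at h2
  nlinarith

/-- **(HD) Herbst argument with a defect.** -/
theorem herbst_defect {f : Ω → ℝ} (hi : ∀ u, Integrable (fun x => Real.exp (u * f x)) P)
    {a M δ x : ℝ} (ha : 0 < a) (hx : 0 ≤ x) (hMδ : 0 ≤ M * δ) (hm : ∫ y, f y ∂P ≤ x / 2)
    (hE : ∀ u, 0 < u → entE P f u ≤ u ^ 2 * (a * mgf f P u + M * δ * Real.exp (u * x))) :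
    P.real {y | x ≤ f y} ≤ Real.exp (-x ^ 2 / (32 * a)) + M / a * δ := by
  have hd0 : 0 ≤ M / a * δ := by rw [div_mul_eq_mul_div]; positivity
  by_cases h : ∀ u, 0 < u → M * δ * Real.exp (u * x) ≤ a * mgf f P u
  · have ht : 0 ≤ x / (8 * a) := by positivity
    have h1 := herbst hi (c := 2 * a) ht fun u hu _ => by
      have h2 := hE u hu
      have h3 := mul_le_mul_of_nonneg_left (h u hu) (sq_nonneg u)
      nlinarith
    have h2 := measure_ge_le_exp_mul_mgf (μ := P) (X := f) x ht (hi _)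
    have h3 : Real.exp (-(x / (8 * a)) * x) * mgf f P (x / (8 * a)) ≤
        Real.exp (-x ^ 2 / (32 * a)) := by
      refine (mul_le_mul_of_nonneg_left h1 (Real.exp_pos _).le).trans ?_
      rw [← Real.exp_add, Real.exp_le_exp]
      have h4 := mul_le_mul_of_nonneg_left hm ht
      have h5 : -(x / (8 * a)) * x + (x / (8 * a) * (x / 2) + 2 * a * (x / (8 * a)) ^ 2) =
          -x ^ 2 / (32 * a) := by field_simp; ring
      linarith
    linarith
  · push Not at h
    obtain ⟨u, hu, h1⟩ := h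
    have h2 := measure_ge_le_exp_mul_mgf (μ := P) (X := f) x hu.le (hi _)
    have h3 : Real.exp (-u * x) * mgf f P u ≤ M / a * δ := by
      rw [div_mul_eq_mul_div, le_div_iff₀ ha, neg_mul, Real.exp_neg, mul_assoc, inv_mul_eq_div,
        div_le_iff₀ (Real.exp_pos _)]
      linarith
    linarith [Real.exp_pos (-x ^ 2 / (32 * a))]

end Abstract

variable {n : ℕ} {μ : Measure (Mat n)} [IsProbabilityMeasure μ]

theorem int_exp (hμ : SOInv μ) {f : Mat n → ℝ} (hf : ContinuousOn f (SO n)) (u : ℝ) :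
    Integrable (fun x => Real.exp (u * f x)) μ :=
  integrable_of hμ (Real.continuous_exp.comp_continuousOn (continuousOn_const.mul hf))

theorem RD.entE_le (hμ : SOInv μ) (hn : 2 < n) {f : Mat n → ℝ} {D : Fin n × Fin n → Mat n → ℝ}
    (hf : RD f D) (u : ℝ) :
    entE μ f u ≤ u ^ 2 * ((2 * ((n : ℝ) - 2))⁻¹ * ∫ U, sqD D U * Real.exp (u * f U) ∂μ) := by
  have h := (hf.const_mul u).lsi hμ hn
  have e : ∀ U, sqD (fun a U => u * D a U) U * Real.exp (u * f U) =
      u ^ 2 * (sqD D U * Real.exp (u * f U)) := fun U => by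
    unfold sqD
    simp only [mul_pow, ← Finset.mul_sum]; ring
  simp only [e, integral_const_mul] at h
  unfold entE mgf
  linarith

/-- Herbst bound for `C^1` functions with bounded gradient. -/
theorem RD.mgf_le (hμ : SOInv μ) (hn : 2 < n) {f : Mat n → ℝ} {D : Fin n × Fin n → Mat n → ℝ}
    (hf : RD f D) {G : ℝ} (hG : ∀ U ∈ SO n, sqD D U ≤ G) {t : ℝ} (ht : 0 ≤ t) :
    mgf f μ t ≤ Real.exp (t * ∫ U, f U ∂μ + G / (2 * ((n : ℝ) - 2)) * t ^ 2) := by
  have hρ0 : (0 : ℝ) < (n : ℝ) - 2 := by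
    have : (2 : ℝ) < n := by exact_mod_cast hn
    linarith
  refine herbst (int_exp hμ hf.c) ht fun u _ _ => (hf.entE_le hμ hn u).trans ?_
  have h1 : ∫ U, sqD D U * Real.exp (u * f U) ∂μ ≤ G * mgf f μ u := by
    rw [mgf, ← integral_const_mul]
    refine integral_mono_ae (integrable_of hμ (hf.cD.mul
      (Real.continuous_exp.comp_continuousOn (continuousOn_const.mul hf.c))))
      ((int_exp hμ hf.c u).const_mul G) ?_
    filter_upwards [hμ.mem] with U hU using mul_le_mul_of_nonneg_right (hG U hU) (Real.exp_pos _).le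
  calc _ ≤ u ^ 2 * ((2 * ((n : ℝ) - 2))⁻¹ * (G * mgf f μ u)) := by gcongr
    _ = _ := by ring

/-- **Herbst bound for Frobenius-Lipschitz functions on `SO(n)`** (variance proxy `4L²/(n-2)`). -/
theorem lip_mgf_le (hμ : SOInv μ) (hn : 2 < n) {f : Mat n → ℝ} {L : ℝ}
    (hL : ∀ U ∈ SO n, ∀ W ∈ SO n, |f U - f W| ≤ L * √(fd U W)) {t : ℝ} (ht : 0 ≤ t) :
    mgf f μ t ≤ Real.exp (t * ∫ U, f U ∂μ + 2 * L ^ 2 / ((n : ℝ) - 2) * t ^ 2) := by
  have hρ0 : (0 : ℝ) < (n : ℝ) - 2 := by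
    have : (2 : ℝ) < n := by exact_mod_cast hn
    linarith
  have hf := contOn_of_lip hL
  have key : ∀ ε : ℝ, 0 < ε → mgf f μ t ≤
      Real.exp (t * ∫ U, f U ∂μ + 2 * L ^ 2 / ((n : ℝ) - 2) * t ^ 2 + 2 * t * ε) := by
    intro ε hε
    obtain ⟨p, hp⟩ := lip_approx hμ (by omega) hL hε
    have h1 := (RD.poly p).mgf_le hμ hn (G := 4 * L ^ 2)
      (fun U hU => by have := (hp U hU).2; rwa [Gam_eq] at this) ht
    have h2 : mgf f μ t ≤ Real.exp (t * ε) * mgf (ev p) μ t := by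
      rw [mgf, mgf, ← integral_const_mul]
      refine integral_mono_ae (int_exp hμ hf t)
        ((int_exp hμ (continuous_ev p).continuousOn t).const_mul _) ?_
      filter_upwards [hμ.mem] with U hU
      rw [← Real.exp_add, Real.exp_le_exp]
      have := (abs_le.mp (hp U hU).1).1
      nlinarith
    have h3 : ∫ U, ev p U ∂μ ≤ ∫ U, f U ∂μ + ε := by
      have : ∫ U, ev p U ∂μ ≤ ∫ U, (f U + ε) ∂μ := by
        refine integral_mono_ae (integrable_of hμ (continuous_ev p).continuousOn)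
          ((integrable_of hμ hf).add (integrable_const _)) ?_
        filter_upwards [hμ.mem] with U hU
        have := (abs_le.mp (hp U hU).1).2
        linarith
      rw [integral_add (integrable_of hμ hf) (integrable_const _)] at this
      simpa using this
    refine h2.trans ((mul_le_mul_of_nonneg_left h1 (Real.exp_pos _).le).trans ?_)
    rw [← Real.exp_add, Real.exp_le_exp]
    have h4 := mul_le_mul_of_nonneg_left h3 ht
    have h5 : 4 * L ^ 2 / (2 * ((n : ℝ) - 2)) = 2 * L ^ 2 / ((n : ℝ) - 2) := by field_simp; ring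
    rw [h5]
    linarith
  have hc : Continuous fun ε : ℝ =>
      Real.exp (t * ∫ U, f U ∂μ + 2 * L ^ 2 / ((n : ℝ) - 2) * t ^ 2 + 2 * t * ε) := by fun_prop
  have hl := (hc.tendsto 0).mono_left (nhdsWithin_le_nhds (s := Ioi 0))
  simp only [mul_zero, add_zero] at hl
  exact ge_of_tendsto hl (eventually_nhdsWithin_of_forall key)



/-- upper tail of a `C^1` function with bounded gradient -/
theorem RD.tail (hμ : SOInv μ) (hn : 2 < n) {f : Mat n → ℝ} {D : Fin n × Fin n → Mat n → ℝ}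
    (hf : RD f D) {G : ℝ} (hG0 : 0 < G) (hG : ∀ U ∈ SO n, sqD D U ≤ G) {r : ℝ} (hr : 0 ≤ r) :
    μ.real {U | ∫ V, f V ∂μ + r ≤ f U} ≤ Real.exp (-(((n : ℝ) - 2) * r ^ 2 / (2 * G))) := by
  have hρ0 : (0 : ℝ) < (n : ℝ) - 2 := by
    have : (2 : ℝ) < n := by exact_mod_cast hn
    linarith
  have ht : 0 ≤ ((n : ℝ) - 2) * r / G := by positivity
  refine (measure_ge_le_exp_mul_mgf _ ht (int_exp hμ hf.c _)).trans
    ((mul_le_mul_of_nonneg_left (hf.mgf_le hμ hn hG ht) (Real.exp_pos _).le).trans ?_)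
  rw [← Real.exp_add]
  apply le_of_eq
  congr 1
  field_simp; ring

/-- **two-set concentration** on `SO(n)` for the Frobenius distance -/
theorem two_set (hμ : SOInv μ) (hn : 2 < n) {S T : Set (Mat n)} {r : ℝ} (hr : 0 ≤ r)
    (hST : ∀ U ∈ S, ∀ W ∈ T, r ^ 2 ≤ fd U W) :
    μ.real S * μ.real T ≤ Real.exp (-(((n : ℝ) - 2) * r ^ 2 / 16)) := by
  have hρ0 : (0 : ℝ) < (n : ℝ) - 2 := by
    have : (2 : ℝ) < n := by exact_mod_cast hn
    linarith
  rcases S.eq_empty_or_nonempty with hS | hS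
  · rw [hS]; simp [(Real.exp_pos _).le]
  set e : Mat n → EuclideanSpace ℝ (Fin n × Fin n) := fun U => WithLp.toLp 2 fun ab => U ab.1 ab.2
    with he
  have hd : ∀ U W, dist (e U) (e W) = √(fd U W) := fun U W => by
    rw [EuclideanSpace.dist_eq, fd, Fintype.sum_prod_type]
    simp [he, Real.dist_eq]
  set f : Mat n → ℝ := fun U => Metric.infDist (e U) (e '' S) with hf
  have hL : ∀ U ∈ SO n, ∀ W ∈ SO n, |f U - f W| ≤ 1 * √(fd U W) := fun U _ W _ => by
    have := (Metric.lipschitz_infDist_pt (e '' S)).dist_le_mul (e U) (e W)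
    rw [hd] at this
    simpa [Real.dist_eq] using this
  have hL' : ∀ U ∈ SO n, ∀ W ∈ SO n, |(fun U => -f U) U - (fun U => -f U) W| ≤ 1 * √(fd U W) :=
    fun U hU W hW => by
      simp only [neg_sub_neg]; rw [abs_sub_comm]; exact hL U hU W hW
  set t := ((n : ℝ) - 2) * r / 8 with ht
  have ht0 : 0 ≤ t := by positivity
  have h1 : μ.real T ≤ Real.exp (-t * r) * mgf f μ t := by
    refine le_trans (measureReal_mono fun W hW => ?_)
      (measure_ge_le_exp_mul_mgf r ht0 (int_exp hμ (contOn_of_lip hL) _))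
    simp only [Set.mem_ofPred_eq, hf]
    rw [Metric.le_infDist (hS.image e)]
    rintro _ ⟨U, hU, rfl⟩
    rw [dist_comm, hd]
    exact Real.le_sqrt_of_sq_le (hST U hU W hW)
  have h2 : μ.real S ≤ Real.exp (-t * 0) * mgf (fun U => -f U) μ t := by
    refine le_trans (measureReal_mono fun U hU => ?_)
      (measure_ge_le_exp_mul_mgf 0 ht0 (int_exp hμ (contOn_of_lip hL') _))
    simp only [Set.mem_ofPred_eq, hf]
    rw [Metric.infDist_zero_of_mem (mem_image_of_mem e hU)]; simp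
  have h3 := h1.trans (mul_le_mul_of_nonneg_left (lip_mgf_le hμ hn hL ht0) (Real.exp_pos _).le)
  have h4 := h2.trans (mul_le_mul_of_nonneg_left (lip_mgf_le hμ hn hL' ht0) (Real.exp_pos _).le)
  refine (mul_le_mul h4 h3 measureReal_nonneg (by positivity)).trans (le_of_eq ?_)
  rw [← Real.exp_add, ← Real.exp_add, ← Real.exp_add, integral_neg, ht]
  congr 1
  field_simp; ring

/-! ### (HD) on `SO(n)` -/

/-- (HD), mean form: `f ≤ x`, `E f ≤ x/2`, `|Df|² ≤ A` on `G`, `≤ M` everywhere. -/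
theorem RD.hd (hμ : SOInv μ) (hn : 2 < n) {f : Mat n → ℝ} {D : Fin n × Fin n → Mat n → ℝ}
    (hf : RD f D) {G : Set (Mat n)} (hGm : MeasurableSet G) {A M x : ℝ} (hA : 0 < A) (hx : 0 ≤ x)
    (hM0 : 0 ≤ M) (hG : ∀ U ∈ SO n, U ∈ G → sqD D U ≤ A) (hM : ∀ U ∈ SO n, sqD D U ≤ M)
    (hfx : ∀ U ∈ SO n, f U ≤ x) (hm : ∫ U, f U ∂μ ≤ x / 2) :
    μ.real {U | x ≤ f U} ≤ Real.exp (-(((n : ℝ) - 2) * x ^ 2 / (16 * A))) + M / A * μ.real Gᶜ := by
  have hρ0 : (0 : ℝ) < (n : ℝ) - 2 := by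
    have : (2 : ℝ) < n := by exact_mod_cast hn
    linarith
  have h := herbst_defect (P := μ) (int_exp hμ hf.c) (a := A / (2 * ((n : ℝ) - 2)))
    (M := M / (2 * ((n : ℝ) - 2))) (δ := μ.real Gᶜ) (by positivity) hx (by positivity) hm
    fun u hu => (hf.entE_le hμ hn u).trans ?_
  · refine h.trans (le_of_eq ?_)
    congr 1
    · congr 1; field_simp; ring
    · field_simp
  · have h1 : ∫ U, sqD D U * Real.exp (u * f U) ∂μ ≤
        A * mgf f μ u + M * Real.exp (u * x) * μ.real Gᶜ := by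
      have i1 := (int_exp hμ hf.c u).const_mul A
      have i2 : Integrable (Gᶜ.indicator fun _ => M * Real.exp (u * x)) μ :=
        (integrable_const _).indicator hGm.compl
      have h2 : ∫ U, sqD D U * Real.exp (u * f U) ∂μ ≤
          ∫ U, (A * Real.exp (u * f U) + Gᶜ.indicator (fun _ => M * Real.exp (u * x)) U) ∂μ := by
        refine integral_mono_ae (integrable_of hμ (hf.cD.mul
          (Real.continuous_exp.comp_continuousOn (continuousOn_const.mul hf.c)))) (i1.add i2) ?_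
        filter_upwards [hμ.mem] with U hU
        by_cases hUG : U ∈ G
        · rw [Set.indicator_of_notMem (by simpa using hUG), add_zero]
          exact mul_le_mul_of_nonneg_right (hG U hU hUG) (Real.exp_pos _).le
        · rw [Set.indicator_of_mem (by simpa using hUG)]
          have h3 : Real.exp (u * f U) ≤ Real.exp (u * x) :=
            Real.exp_le_exp.mpr (mul_le_mul_of_nonneg_left (hfx U hU) hu.le)
          have h4 := mul_le_mul (hM U hU) h3 (Real.exp_pos _).le hM0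
          have h5 : 0 ≤ A * Real.exp (u * f U) := by positivity
          linarith
      rw [integral_add i1 i2, integral_const_mul, integral_indicator_const _ hGm.compl,
        smul_eq_mul] at h2
      unfold mgf
      linarith
    refine mul_le_mul_of_nonneg_left ?_ (sq_nonneg u)
    calc _ ≤ (2 * ((n : ℝ) - 2))⁻¹ * (A * mgf f μ u + M * Real.exp (u * x) * μ.real Gᶜ) := by
          gcongr
      _ = _ := by ring

/-- derivative of the step -/
noncomputable def st' (s : ℝ) : ℝ := max 0 (6 * s * (1 - s))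

/-- a `C^1` step from `0` (on `u ≤ 0`) to `1` (on `u ≥ 1`) -/
noncomputable def st (u : ℝ) : ℝ := ∫ s in (0 : ℝ)..u, st' s

theorem continuous_st' : Continuous st' := by unfold st'; fun_prop

theorem st'_nonneg (s : ℝ) : 0 ≤ st' s := le_max_left _ _

theorem st'_le (s : ℝ) : st' s ≤ 3 / 2 := max_le (by norm_num) (by nlinarith [sq_nonneg (2 * s - 1)])

theorem hasDerivAt_st (u : ℝ) : HasDerivAt st (st' u) u :=
  continuous_st'.deriv_integral st' 0 u ▸ (intervalIntegral.differentiable_integral_of_continuous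
    continuous_st' u).hasDerivAt

theorem st_mono : Monotone st :=
  monotone_of_hasDerivAt_nonneg hasDerivAt_st fun u => st'_nonneg u

theorem st_of_nonpos {u : ℝ} (hu : u ≤ 0) : st u = 0 := by
  unfold st
  rw [intervalIntegral.integral_congr (g := fun _ => (0 : ℝ))]
  · simp
  · intro s hs
    rw [uIcc_of_ge hu] at hs
    exact max_eq_left (by nlinarith [hs.2])

theorem st_one : st 1 = 1 := by
  unfold st
  rw [intervalIntegral.integral_congr (g := fun s => 6 * s - 6 * s ^ 2)]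
  · rw [intervalIntegral.integral_sub (by apply Continuous.intervalIntegrable; fun_prop)
      (by apply Continuous.intervalIntegrable; fun_prop), intervalIntegral.integral_const_mul,
      intervalIntegral.integral_const_mul]
    simp; norm_num
  · intro s hs
    rw [uIcc_of_le zero_le_one] at hs
    unfold st'
    rw [max_eq_right (by nlinarith [hs.1, hs.2])]; ring

theorem st_of_one_le {u : ℝ} (hu : 1 ≤ u) : st u = 1 := by
  have h1 : st u = st 1 + ∫ s in (1 : ℝ)..u, st' s :=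
    (intervalIntegral.integral_add_adjacent_intervals (continuous_st'.intervalIntegrable _ _)
      (continuous_st'.intervalIntegrable _ _)).symm
  rw [h1, st_one, intervalIntegral.integral_congr (g := fun _ => (0 : ℝ))]
  · simp
  · intro s hs
    rw [uIcc_of_le hu] at hs
    exact max_eq_left (by nlinarith [hs.1])

theorem st_le_one (u : ℝ) : st u ≤ 1 := by
  rw [← st_of_one_le (le_max_right u 1)]; exact st_mono (le_max_left _ _)

/-- **(HD), median form**: if `P(F > c) ≤ 1/2`, `|DF|² ≤ A` on `G ∩ {c < F < c + x}` and `≤ M` on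
`{c < F < c + x}`, then `P(F ≥ c + x) ≤ exp(-(n-2)x²/(36A)) + (M/A) P(Gᶜ)`. -/
theorem RD.hd_med (hμ : SOInv μ) (hn : 2 < n) {F : Mat n → ℝ} {D : Fin n × Fin n → Mat n → ℝ}
    (hF : RD F D) {G : Set (Mat n)} (hGm : MeasurableSet G) {A M x c : ℝ} (hA : 0 < A) (hx : 0 < x)
    (hM0 : 0 ≤ M) (hG : ∀ U ∈ SO n, U ∈ G → c < F U → F U < c + x → sqD D U ≤ A)
    (hM : ∀ U ∈ SO n, c < F U → F U < c + x → sqD D U ≤ M)
    (hc : μ.real {U | c < F U} ≤ 1 / 2) :
    μ.real {U | c + x ≤ F U} ≤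
      Real.exp (-(((n : ℝ) - 2) * x ^ 2 / (36 * A))) + M / A * μ.real Gᶜ := by
  have hφ : ∀ y, HasDerivAt (fun y => x * st ((y - c) / x)) (st' ((y - c) / x)) y := fun y => by
    have h1 : HasDerivAt (fun y => (y - c) / x) (1 / x) y := ((hasDerivAt_id y).sub_const c).div_const x
    refine (((hasDerivAt_st _).comp y h1).const_mul x).congr_deriv ?_
    field_simp
  have hf := hF.comp (S := univ) (fun _ _ => trivial) (fun y _ => hφ y)
    (continuous_st'.comp (by fun_prop)).continuousOn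
  have hb : ∀ U, ∀ B : ℝ, 0 ≤ B → (c < F U → F U < c + x → sqD D U ≤ B) →
      sqD (fun a U => st' ((F U - c) / x) * D a U) U ≤ 9 / 4 * B := by
    intro U B hB h
    have e : sqD (fun a U => st' ((F U - c) / x) * D a U) U = st' ((F U - c) / x) ^ 2 * sqD D U := by
      unfold sqD; simp only [mul_pow, Finset.mul_sum]
    rw [e]
    by_cases h1 : c < F U ∧ F U < c + x
    · have h2 := st'_nonneg ((F U - c) / x)
      have h3 := st'_le ((F U - c) / x)
      exact mul_le_mul (by nlinarith) (h h1.1 h1.2) (sqD_nonneg _ _) (by norm_num)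
    · have h2 : st' ((F U - c) / x) = 0 := by
        refine max_eq_left ?_
        rcases not_and_or.mp h1 with h2 | h2
        · have : (F U - c) / x ≤ 0 := div_nonpos_of_nonpos_of_nonneg (by linarith) hx.le
          nlinarith
        · have : 1 ≤ (F U - c) / x := (one_le_div hx).mpr (by linarith)
          nlinarith
      rw [h2]; simp; positivity
  have hm : ∫ U, x * st ((F U - c) / x) ∂μ ≤ x / 2 := by
    have hms : NullMeasurableSet {U | c < F U} μ :=
      nullMeasurableSet_lt aemeasurable_const (aesm_of hμ hF.c).aemeasurable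
    have h1 : ∫ U, x * st ((F U - c) / x) ∂μ ≤ ∫ U, {U | c < F U}.indicator (fun _ => x) U ∂μ := by
      refine integral_mono_ae (integrable_of hμ hf.c) ((integrable_const _).indicator₀ hms)
        (Eventually.of_forall fun U => ?_)
      by_cases h : c < F U
      · simp only
        rw [Set.indicator_of_mem (by simpa using h)]
        exact mul_le_of_le_one_right hx.le (st_le_one _)
      · simp only
        rw [Set.indicator_of_notMem (by simpa using h),
          st_of_nonpos (div_nonpos_of_nonpos_of_nonneg (by linarith) hx.le), mul_zero]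
    rw [integral_indicator₀ hms, setIntegral_const, smul_eq_mul] at h1
    nlinarith
  have h := hf.hd hμ hn hGm (A := 9 / 4 * A) (M := 9 / 4 * M) (by positivity) hx.le (by positivity)
    (fun U hU hUG => hb U A hA.le (hG U hU hUG)) (fun U hU => hb U M hM0 (hM U hU))
    (fun U _ => mul_le_of_le_one_right hx.le (st_le_one _)) hm
  refine le_trans (measureReal_mono fun U hU => ?_) (h.trans (le_of_eq ?_))
  · simp only [Set.mem_ofPred_eq] at hU ⊢
    rw [st_of_one_le ((one_le_div hx).mpr (by linarith)), mul_one]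
  · congr 1
    · congr 1; field_simp; ring
    · field_simp

end Crest.Agent.T157.Oc
end

-- ▼ part T157/OcE_9

set_option autoImplicit false

/-!
Row 157, A2 tools (helper9).  User forms of (HD): Gibbs averages, norms, operator norms, trace
functions; the embedding of `SO(k)` as the stabiliser of a subspace.
-/

namespace Crest.Agent.T157.Oc

open MeasureTheory Matrix Crest.Agent.Lib.OrthPoinc Filter Topology Set

variable {n : ℕ}

/-! ### Gibbs averages -/

section Gibbs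

variable {S : Type*} [Fintype S] {w : S → ℝ} {H f : S → Mat n → ℝ}
  {DH Df : S → Fin n × Fin n → Mat n → ℝ}

/-- partition function -/
noncomputable def gZ (w : S → ℝ) (H : S → Mat n → ℝ) (U : Mat n) : ℝ := ∑ s, w s * Real.exp (H s U)

/-- Gibbs average -/
noncomputable def gAv (w : S → ℝ) (H : S → Mat n → ℝ) (f : S → ℝ) (U : Mat n) : ℝ :=
  (∑ s, w s * Real.exp (H s U) * f s) / gZ w H U

theorem RD.gZ (hH : ∀ s, RD (H s) (DH s)) :
    RD (gZ w H) fun a U => ∑ s, w s * Real.exp (H s U) * DH s a U :=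
  (RD.sum Finset.univ fun s _ => (hH s).exp.const_mul (w s)).congr (fun _ _ => rfl)
    fun _ _ _ => Finset.sum_congr rfl fun _ _ => by ring

theorem RD.logZ (hH : ∀ s, RD (H s) (DH s)) (hZ : ∀ U ∈ SO n, 0 < Oc.gZ w H U) :
    RD (fun U => Real.log (Oc.gZ w H U)) fun a U => gAv w H (fun s => DH s a U) U :=
  ((RD.gZ hH).log hZ).congr (fun _ _ => rfl) fun _ _ _ => by rw [gAv, div_eq_inv_mul]

/-- `D⟨f⟩ = ⟨Df⟩ + Cov(f, DH)` -/
theorem RD.gibbs (hH : ∀ s, RD (H s) (DH s)) (hf : ∀ s, RD (f s) (Df s))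
    (hZ : ∀ U ∈ SO n, 0 < Oc.gZ w H U) :
    RD (fun U => gAv w H (fun s => f s U) U) fun a U => gAv w H (fun s => Df s a U) U +
      (gAv w H (fun s => f s U * DH s a U) U -
        gAv w H (fun s => f s U) U * gAv w H (fun s => DH s a U) U) := by
  have h1 := RD.sum Finset.univ fun s _ => ((hH s).exp.const_mul (w s)).mul (hf s)
  have h2 : RD (fun U => (Oc.gZ w H U)⁻¹) fun a U =>
      -(Oc.gZ w H U)⁻¹ ^ 2 * ∑ s, w s * Real.exp (H s U) * DH s a U :=
    ⟨(RD.gZ hH).c.inv₀ fun U hU => (hZ U hU).ne', fun a => ((RD.gZ hH).r a).inv hZ⟩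
  refine (h1.mul h2).congr (fun U _ => by rw [gAv, div_eq_mul_inv]) fun a U _ => ?_
  have e : ∑ s, (w s * (Real.exp (H s U) * DH s a U) * f s U + w s * Real.exp (H s U) * Df s a U) =
      ∑ s, w s * Real.exp (H s U) * (f s U * DH s a U) + ∑ s, w s * Real.exp (H s U) * Df s a U := by
    rw [← Finset.sum_add_distrib]
    exact Finset.sum_congr rfl fun _ _ => by ring
  simp only [gAv, div_eq_mul_inv, e]
  ring

end Gibbs

variable {μ : Measure (Mat n)} [IsProbabilityMeasure μ]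

theorem real_mono_SO (hμ : SOInv μ) {A B : Set (Mat n)} (h : ∀ U ∈ SO n, U ∈ A → U ∈ B) :
    μ.real A ≤ μ.real B := by
  refine ENNReal.toReal_mono (measure_ne_top _ _) (measure_mono_ae ?_)
  filter_upwards [hμ.mem] with U hU using h U hU

/-! ### norms -/

section Norm

variable {ι : Type*} [Fintype ι] {x : ι → Mat n → ℝ} {D : ι → Fin n × Fin n → Mat n → ℝ}

/-- Poincare and Markov: the median of `|x - E x|`. -/
theorem norm_med (hμ : SOInv μ) (hn : 2 < n) (hx : ∀ i, RD (x i) (D i)) {c : ℝ} (hc : 0 < c)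
    (h : 2 * (((n : ℝ) - 2)⁻¹ * ∫ U, ∑ i, sqD (D i) U ∂μ) ≤ c ^ 2) :
    μ.real {U | c ^ 2 < ∑ i, (x i U - ∫ V, x i V ∂μ) ^ 2} ≤ 1 / 2 := by
  have i1 : ∀ i, Integrable (fun U => (x i U - ∫ V, x i V ∂μ) ^ 2) μ := fun i =>
    integrable_of hμ (((hx i).c.sub continuousOn_const).pow 2)
  have h1 := mul_meas_ge_le_integral_of_nonneg (μ := μ)
    (f := fun U => ∑ i, (x i U - ∫ V, x i V ∂μ) ^ 2)
    (Eventually.of_forall fun U => Finset.sum_nonneg fun _ _ => sq_nonneg _)
    (integrable_finsetSum _ fun i _ => i1 i) (c ^ 2)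
  rw [integral_finsetSum _ fun i _ => i1 i] at h1
  have h2 := Finset.sum_le_sum fun i (_ : i ∈ Finset.univ) => (hx i).poincare hμ hn
  rw [← Finset.mul_sum, ← integral_finsetSum _ fun i _ => integrable_of hμ (hx i).cD] at h2
  have h3 : μ.real {U | c ^ 2 < ∑ i, (x i U - ∫ V, x i V ∂μ) ^ 2} ≤
      μ.real {U | c ^ 2 ≤ ∑ i, (x i U - ∫ V, x i V ∂μ) ^ 2} :=
    measureReal_mono fun U hU => by
      simp only [Set.mem_ofPred_eq] at hU ⊢
      exact hU.le
  have h4 : 0 < c ^ 2 := by positivity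
  have h5 := mul_le_mul_of_nonneg_left h3 h4.le
  refine le_of_mul_le_mul_left ?_ h4
  linarith

/-- **(HD) for a Euclidean norm**; the gradient bounds are in one direction `v` at a time and are
only needed while `|x| ≤ c + 2y`. -/
theorem norm_hd (hμ : SOInv μ) (hn : 2 < n) (hx : ∀ i, RD (x i) (D i)) {G : Set (Mat n)}
    (hGm : MeasurableSet G) {A M c y : ℝ} (hA : 0 < A) (hM0 : 0 ≤ M) (hc : 0 ≤ c) (hy : 0 < y)
    (hG : ∀ U ∈ SO n, U ∈ G → ∑ i, x i U ^ 2 ≤ (c + 2 * y) ^ 2 →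
      ∀ v : ι → ℝ, ∑ a, (∑ i, v i * D i a U) ^ 2 ≤ A * ∑ i, v i ^ 2)
    (hM : ∀ U ∈ SO n, ∀ v : ι → ℝ, ∑ a, (∑ i, v i * D i a U) ^ 2 ≤ M * ∑ i, v i ^ 2)
    (hm : μ.real {U | c ^ 2 < ∑ i, x i U ^ 2} ≤ 1 / 2) :
    μ.real {U | (c + 2 * y) ^ 2 ≤ ∑ i, x i U ^ 2} ≤
      Real.exp (-(((n : ℝ) - 2) * y ^ 2 / (36 * A))) + M / A * μ.real Gᶜ := by
  have h1 := (RD.const (y ^ 2)).add (RD.sum Finset.univ fun i _ => (hx i).mul (hx i))
  have hp : ∀ U, 0 < y ^ 2 + ∑ i, x i U * x i U := fun U =>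
    add_pos_of_pos_of_nonneg (by positivity) (Finset.sum_nonneg fun _ _ => mul_self_nonneg _)
  have h2 := h1.comp (S := Ioi 0) (fun U _ => hp U) (φ := fun s => √s) (φ' := fun s => 1 / (2 * √s))
    (fun s hs => Real.hasDerivAt_sqrt (ne_of_gt hs))
    (continuousOn_const.div (by fun_prop) fun s hs => by
      have : 0 < √s := Real.sqrt_pos.mpr hs
      positivity)
  have hsq : ∀ U, ∑ i, x i U * x i U = ∑ i, x i U ^ 2 := fun U => by simp only [sq]
  have hb : ∀ U, ∀ B : ℝ, 0 ≤ B → (∀ v : ι → ℝ, ∑ a, (∑ i, v i * D i a U) ^ 2 ≤ B * ∑ i, v i ^ 2) →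
      sqD (fun a U => 1 / (2 * √(y ^ 2 + ∑ i, x i U * x i U)) *
        (0 + ∑ i, (D i a U * x i U + x i U * D i a U))) U ≤ B := by
    intro U B hB h
    have h3 := h fun i => x i U
    have h4 := hp U
    have e : ∀ a, (1 / (2 * √(y ^ 2 + ∑ i, x i U * x i U)) *
        (0 + ∑ i, (D i a U * x i U + x i U * D i a U))) ^ 2 =
        (y ^ 2 + ∑ i, x i U * x i U)⁻¹ * (∑ i, x i U * D i a U) ^ 2 := by
      intro a
      have e1 : ∑ i, (D i a U * x i U + x i U * D i a U) = 2 * ∑ i, x i U * D i a U := by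
        rw [Finset.mul_sum]; exact Finset.sum_congr rfl fun _ _ => by ring
      have e2 := Real.sq_sqrt h4.le
      have e3 : 0 < √(y ^ 2 + ∑ i, x i U * x i U) := Real.sqrt_pos.mpr h4
      rw [e1, mul_pow, div_pow, mul_pow, e2]
      field_simp
      ring
    unfold sqD
    simp only [e, ← Finset.mul_sum]
    rw [inv_mul_le_iff₀ h4, hsq]
    nlinarith [sq_nonneg y]
  have h5 := h2.hd_med hμ hn hGm (c := c + y) (x := y) hA hy hM0
    (fun U hU hUG _ hlt => hb U A hA.le (hG U hU hUG (by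
      have h6 : y ^ 2 + ∑ i, x i U * x i U < (c + y + y) ^ 2 := by
        rwa [Real.sqrt_lt' (by linarith)] at hlt
      rw [hsq] at h6
      nlinarith [sq_nonneg y])))
    (fun U hU _ _ => hb U M hM0 (hM U hU))
    (le_trans (measureReal_mono fun U hU => by
      simp only [Set.mem_ofPred_eq] at hU ⊢
      rw [Real.lt_sqrt (by linarith), hsq] at hU
      nlinarith) hm)
  refine le_trans (measureReal_mono fun U hU => ?_) h5
  simp only [Set.mem_ofPred_eq] at hU ⊢
  refine Real.le_sqrt_of_sq_le ?_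
  rw [hsq]
  nlinarith [sq_nonneg y]

end Norm

/-! ### operator norms and trace functions -/

section Op

variable {m : Type*} [Fintype m] [DecidableEq m]

/-- `‖X‖ ≤ c` for a symmetric matrix, as a quadratic form -/
def OpLe (X : Matrix m m ℝ) (c : ℝ) : Prop := ∀ u : m → ℝ, u ⬝ᵥ u = 1 → |u ⬝ᵥ X *ᵥ u| ≤ c

omit [DecidableEq m] in
theorem conj_diag_eq (Q X : Matrix m m ℝ) (i : m) :
    (Qᵀ * X * Q) i i = (fun a => Q a i) ⬝ᵥ X *ᵥ fun a => Q a i := by
  simp only [Matrix.mul_apply, transpose_apply, dotProduct, mulVec, Finset.sum_mul, Finset.mul_sum]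
  rw [Finset.sum_comm]
  exact Finset.sum_congr rfl fun _ _ => Finset.sum_congr rfl fun _ _ => by ring

theorem col_unit {Q : Matrix m m ℝ} (h : Qᵀ * Q = 1) (i : m) :
    ((fun a => Q a i) ⬝ᵥ fun a => Q a i) = 1 := by
  have := congrFun (congrFun h i) i
  simpa [Matrix.mul_apply, dotProduct] using this

theorem trace_dp (g D : Matrix m m ℝ) (r : ℕ) :
    (dp g D r).trace = ((r : ℝ) + 1) * (g ^ r * D).trace := by
  have key : ∀ r j : ℕ, (dp g D r * g ^ j).trace = ((r : ℝ) + 1) * (g ^ (r + j) * D).trace := by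
    intro r
    induction r with
    | zero => intro j; rw [dp, trace_mul_comm]; simp
    | succ r ih =>
      intro j
      rw [dp, Matrix.add_mul, trace_add, Matrix.mul_assoc, ← pow_succ', ih, trace_mul_cycle,
        ← pow_add, show r + (j + 1) = r + 1 + j by ring, show j + (r + 1) = r + 1 + j by ring]
      push_cast; ring
  simpa using key r 0

/-- **(HD) for the operator norm of a symmetric matrix**; `k = r+1` even, `card m + 1 ≤ κ^k`. -/
theorem op_hd (hμ : SOInv μ) (hn : 2 < n) {X : Mat n → Matrix m m ℝ}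
    {D : Fin n × Fin n → Mat n → Matrix m m ℝ}
    (hX : ∀ k l, RD (fun U => X U k l) fun a U => D a U k l) (sX : ∀ U ∈ SO n, (X U)ᵀ = X U)
    {r : ℕ} (hr : Even (r + 1)) {κ : ℝ} (hκ0 : 0 < κ) (hκ : (Fintype.card m : ℝ) + 1 ≤ κ ^ (r + 1))
    {G : Set (Mat n)} (hGm : MeasurableSet G) {A M c x : ℝ} (hA : 0 < A) (hM0 : 0 ≤ M) (hc : 0 < c)
    (hx : 0 < x)
    (hG : ∀ U ∈ SO n, U ∈ G → OpLe (X U) (κ * c + x) →
      ∀ v : m → ℝ, v ⬝ᵥ v = 1 → ∑ a, (v ⬝ᵥ D a U *ᵥ v) ^ 2 ≤ A)
    (hM : ∀ U ∈ SO n, ∀ v : m → ℝ, v ⬝ᵥ v = 1 → ∑ a, (v ⬝ᵥ D a U *ᵥ v) ^ 2 ≤ M)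
    (hm : μ.real {U | ¬ OpLe (X U) c} ≤ 1 / 2) :
    μ.real {U | ¬ OpLe (X U) (κ * c + x)} ≤
      Real.exp (-(((n : ℝ) - 2) * x ^ 2 / (36 * (κ ^ 2 * A)))) + M / A * μ.real Gᶜ := by
  have h1 : RD (fun U => c ^ (r + 1) + (X U ^ (r + 1)).trace)
      fun a U => ((r : ℝ) + 1) * (X U ^ r * D a U).trace :=
    ((RD.const (c ^ (r + 1))).add (RD.sum Finset.univ fun i _ =>
      (pcl_RD hμ hn).pow hX r i i)).congr (fun _ _ => rfl) fun a U _ => by
        rw [← trace_dp, zero_add]; rfl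
  have hT : ∀ U ∈ SO n, 0 ≤ (X U ^ (r + 1)).trace := fun U hU => by
    obtain ⟨Q, l, a1, a2, a3⟩ := exists_spec (sX U hU)
    rw [← trace_conj a1, a3, conj_back a2, trace_diagonal]
    exact Finset.sum_nonneg fun i _ => hr.pow_nonneg _
  have hp : ∀ U ∈ SO n, 0 < c ^ (r + 1) + (X U ^ (r + 1)).trace := fun U hU =>
    add_pos_of_pos_of_nonneg (pow_pos hc _) (hT U hU)
  set e : ℝ := ((r + 1 : ℕ) : ℝ)⁻¹ with he
  set F : Mat n → ℝ := fun U => (c ^ (r + 1) + (X U ^ (r + 1)).trace) ^ e with hF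
  have hF0 : ∀ U ∈ SO n, 0 < F U := fun U hU => Real.rpow_pos_of_pos (hp U hU) e
  have hFp : ∀ U ∈ SO n, F U ^ (r + 1) = c ^ (r + 1) + (X U ^ (r + 1)).trace := fun U hU =>
    Real.rpow_inv_natCast_pow (hp U hU).le (Nat.succ_ne_zero r)
  have h2 : RD F fun a U => (F U ^ r)⁻¹ * (X U ^ r * D a U).trace := by
    refine (h1.comp (S := Ioi 0) hp (φ := fun s => s ^ e) (φ' := fun s => e * s ^ (e - 1))
      (fun s hs => Real.hasDerivAt_rpow_const (Or.inl (ne_of_gt hs)))
      (continuousOn_const.mul (continuousOn_id.rpow_const fun s hs => Or.inl (ne_of_gt hs)))).congr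
      (fun _ _ => rfl) fun a U hU => ?_
    have a1 := hF0 U hU
    have a2 : (c ^ (r + 1) + (X U ^ (r + 1)).trace) ^ (e - 1) = (F U ^ r)⁻¹ := by
      rw [Real.rpow_sub_one (hp U hU).ne']
      change F U / _ = _
      rw [← hFp U hU, pow_succ]
      field_simp
    rw [a2, he]
    push_cast
    field_simp
  have hle : ∀ U ∈ SO n, OpLe (X U) (F U) := fun U hU u hu => by
    have a1 := quad_pow_le_trace (sX U hU) hu hr
    refine le_of_pow_le_pow_left₀ (Nat.succ_ne_zero r) (hF0 U hU).le ?_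
    rw [hr.pow_abs, hFp U hU]
    linarith [pow_pos hc (r + 1)]
  have hb : ∀ U ∈ SO n, ∀ B : ℝ, (∀ v : m → ℝ, v ⬝ᵥ v = 1 → ∑ a, (v ⬝ᵥ D a U *ᵥ v) ^ 2 ≤ B) →
      0 ≤ B → sqD (fun a U => (F U ^ r)⁻¹ * (X U ^ r * D a U).trace) U ≤ κ ^ 2 * B := by
    intro U hU B h hB
    obtain ⟨Q, l, a1, a2, a3⟩ := exists_spec (sX U hU)
    have hFU := hF0 U hU
    set u : m → ℝ := fun i => l i / F U with hu
    have e1 : ∀ a, (F U ^ r)⁻¹ * (X U ^ r * D a U).trace = ∑ i, u i ^ r * (Qᵀ * D a U * Q) i i := by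
      intro a
      rw [a3, Matrix.mul_assoc, Matrix.mul_assoc, trace_mul_comm, Matrix.mul_assoc, Matrix.mul_assoc]
      simp only [Matrix.trace, diag_apply, diagonal_mul, Finset.mul_sum, hu, div_pow]
      exact Finset.sum_congr rfl fun i _ => by field_simp
    have e2 : ∑ i, |u i| ^ (r + 1) ≤ 1 := by
      have b1 : (X U ^ (r + 1)).trace = ∑ i, l i ^ (r + 1) := by
        rw [← trace_conj a1, a3, conj_back a2, trace_diagonal]
      simp only [hr.pow_abs, hu, div_pow, ← Finset.sum_div]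
      rw [div_le_one (pow_pos hFU _), hFp U hU, b1]
      linarith [pow_pos hc (r + 1)]
    have e3 : ∑ i, |u i| ^ r ≤ κ := by
      have b1 := Finset.sum_le_sum fun i (_ : i ∈ Finset.univ) =>
        young_pow (abs_nonneg (u i)) (inv_pos.mpr hκ0).le r
      simp only [Finset.sum_add_distrib, ← Finset.mul_sum, ← Finset.sum_mul, Finset.sum_const,
        Finset.card_univ, nsmul_eq_mul] at b1
      have b2 : (Fintype.card m : ℝ) * κ⁻¹ ^ (r + 1) ≤ 1 := by
        rw [inv_pow, ← div_eq_mul_inv, div_le_one (pow_pos hκ0 _)]; linarith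
      have b3 : (r : ℝ) * ∑ i, |u i| ^ (r + 1) ≤ r * 1 :=
        mul_le_mul_of_nonneg_left e2 (Nat.cast_nonneg r)
      have b4 : ((r : ℝ) + 1) * ((∑ i, |u i| ^ r) * κ⁻¹) ≤ ((r : ℝ) + 1) * 1 := by linarith
      have b5 := le_of_mul_le_mul_left b4 (by positivity)
      rwa [← div_eq_mul_inv, div_le_one hκ0] at b5
    have e4 : ∀ a, (∑ i, u i ^ r * (Qᵀ * D a U * Q) i i) ^ 2 ≤
        (∑ i, |u i| ^ r) * ∑ i, |u i| ^ r * (Qᵀ * D a U * Q) i i ^ 2 := fun a =>
      Finset.sum_sq_le_sum_mul_sum_of_sq_le_mul _ (fun _ _ => by positivity)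
        (fun _ _ => by positivity) fun i _ => by
          have : (u i ^ r) ^ 2 = |u i| ^ r * |u i| ^ r := by rw [← abs_pow, abs_mul_abs_self, sq]
          rw [mul_pow, this]; exact le_of_eq (by ring)
    have e5 : ∑ a, ∑ i, |u i| ^ r * (Qᵀ * D a U * Q) i i ^ 2 ≤ (∑ i, |u i| ^ r) * B := by
      rw [Finset.sum_comm, Finset.sum_mul]
      refine Finset.sum_le_sum fun i _ => ?_
      rw [← Finset.mul_sum]
      refine mul_le_mul_of_nonneg_left ?_ (by positivity)
      simp only [conj_diag_eq]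
      exact h _ (col_unit a2 i)
    have e6 : 0 ≤ ∑ i, |u i| ^ r := by positivity
    unfold sqD
    simp only [e1]
    calc _ ≤ ∑ a, (∑ i, |u i| ^ r) * ∑ i, |u i| ^ r * (Qᵀ * D a U * Q) i i ^ 2 :=
          Finset.sum_le_sum fun a _ => e4 a
      _ ≤ (∑ i, |u i| ^ r) * ((∑ i, |u i| ^ r) * B) := by
          rw [← Finset.mul_sum]; exact mul_le_mul_of_nonneg_left e5 e6
      _ ≤ κ * (κ * B) := by gcongr
      _ = _ := by ring
  have h5 := h2.hd_med hμ hn hGm (A := κ ^ 2 * A) (M := κ ^ 2 * M) (c := κ * c) (x := x)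
    (by positivity) hx (by positivity)
    (fun U hU hUG _ hlt => hb U hU A (hG U hU hUG fun u hu => (hle U hU u hu).trans hlt.le) hA.le)
    (fun U hU _ _ => hb U hU M (hM U hU) hM0)
    (le_trans (real_mono_SO hμ fun U hU h => ?_) hm)
  · refine le_trans (real_mono_SO hμ fun U hU h => ?_) (h5.trans (le_of_eq ?_))
    · simp only [Set.mem_ofPred_eq] at h ⊢
      by_contra h'
      exact h fun u hu => (hle U hU u hu).trans (not_le.mp h').le
    · congr 2
      field_simp
  · simp only [Set.mem_ofPred_eq] at h ⊢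
    intro h'
    obtain ⟨Q, l, a1, a2, a3⟩ := exists_spec (sX U hU)
    have b1 : (X U ^ (r + 1)).trace = ∑ i, l i ^ (r + 1) := by
      rw [← trace_conj a1, a3, conj_back a2, trace_diagonal]
    have b2 : ∀ i, l i ^ (r + 1) ≤ c ^ (r + 1) := fun i => by
      have b3 := h' _ (col_unit a2 i)
      have b4 := a3 1
      rw [pow_one] at b4
      rw [← conj_diag_eq, b4, conj_back a2] at b3
      simp only [pow_one, diagonal_apply_eq] at b3
      rw [← hr.pow_abs]
      exact pow_le_pow_left₀ (abs_nonneg _) b3 _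
    have b5 : (X U ^ (r + 1)).trace ≤ Fintype.card m * c ^ (r + 1) := by
      rw [b1]
      simpa using Finset.sum_le_sum fun i (_ : i ∈ Finset.univ) => b2 i
    have b6 : F U ^ (r + 1) ≤ (κ * c) ^ (r + 1) := by
      rw [hFp U hU, mul_pow]
      nlinarith [pow_pos hc (r + 1)]
    exact absurd (le_of_pow_le_pow_left₀ (Nat.succ_ne_zero r) (by positivity) b6) (not_le.mpr h)

theorem exists_spec_cfc {g : Matrix m m ℝ} (hg : gᵀ = g) : ∃ (Q : Matrix m m ℝ) (l : m → ℝ),
    Q * Qᵀ = 1 ∧ Qᵀ * Q = 1 ∧ g = Q * diagonal l * Qᵀ ∧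
      ∀ φ : ℝ → ℝ, cfc φ g = Q * diagonal (fun i => φ (l i)) * Qᵀ := by
  have h : g.IsHermitian := by
    unfold Matrix.IsHermitian
    rwa [conjTranspose_eq_transpose_of_trivial]
  have h1 : (h.eigenvectorUnitary : Matrix m m ℝ) * (h.eigenvectorUnitary : Matrix m m ℝ)ᵀ = 1 := by
    have := (h.eigenvectorUnitary).2.2
    rwa [star_eq_conjTranspose, conjTranspose_eq_transpose_of_trivial] at this
  refine ⟨h.eigenvectorUnitary, h.eigenvalues, h1, mul_eq_one_comm.mp h1, ?_, fun φ => ?_⟩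
  · have := h.spectral_theorem
    simp only [Unitary.conjStarAlgAut_apply, star_eq_conjTranspose,
      conjTranspose_eq_transpose_of_trivial] at this
    simpa using this
  · rw [h.cfc_eq, IsHermitian.cfc]
    simp only [Unitary.conjStarAlgAut_apply, star_eq_conjTranspose,
      conjTranspose_eq_transpose_of_trivial]
    rfl

theorem frob_two {Q R : Matrix m m ℝ} (q1 : Q * Qᵀ = 1) (q2 : Qᵀ * Q = 1) (r1 : R * Rᵀ = 1)
    (r2 : Rᵀ * R = 1) (f g : m → ℝ) :
    ∑ k, ∑ l, (Q * diagonal f * Qᵀ - R * diagonal g * Rᵀ) k l ^ 2 =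
      ∑ i, ∑ j, (Qᵀ * R) i j ^ 2 * (f i - g j) ^ 2 := by
  set Z := Q * diagonal f * Qᵀ - R * diagonal g * Rᵀ with hZ
  have e1 : Qᵀ * Z * R = diagonal f * (Qᵀ * R) - Qᵀ * R * diagonal g := by
    have a1 : Qᵀ * (Q * diagonal f * Qᵀ) * R = (Qᵀ * Q) * diagonal f * (Qᵀ * R) := by
      simp only [Matrix.mul_assoc]
    have a2 : Qᵀ * (R * diagonal g * Rᵀ) * R = Qᵀ * R * diagonal g * (Rᵀ * R) := by
      simp only [Matrix.mul_assoc]
    rw [hZ, Matrix.mul_sub, Matrix.sub_mul, a1, a2, q2, r2, Matrix.one_mul, Matrix.mul_one]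
  have e2 : ∑ k, ∑ l, Z k l ^ 2 = ∑ i, ∑ j, (Qᵀ * Z * R) i j ^ 2 := by
    rw [frob_eq_trace, frob_eq_trace, ← trace_conj q1 (Z * Zᵀ)]
    congr 1
    have : Qᵀ * Z * R * (Qᵀ * Z * R)ᵀ = Qᵀ * Z * (R * Rᵀ) * Zᵀ * Q := by
      simp only [transpose_mul, transpose_transpose, Matrix.mul_assoc]
    rw [this, r1]
    simp only [Matrix.mul_one, Matrix.mul_assoc]
  rw [e2, e1]
  refine Finset.sum_congr rfl fun i _ => Finset.sum_congr rfl fun j _ => ?_
  rw [Matrix.sub_apply, diagonal_mul, mul_diagonal]; ring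

/-- a Lipschitz function is Lipschitz on symmetric matrices for the Frobenius norm -/
theorem frob_cfc_le {X Y : Matrix m m ℝ} (hX : Xᵀ = X) (hY : Yᵀ = Y) {ψ : ℝ → ℝ} {K : ℝ}
    (hψ : ∀ a b, |ψ a - ψ b| ≤ K * |a - b|) :
    ∑ k, ∑ l, (cfc ψ X - cfc ψ Y) k l ^ 2 ≤ K ^ 2 * ∑ k, ∑ l, (X - Y) k l ^ 2 := by
  obtain ⟨Q, f, q1, q2, q3, q4⟩ := exists_spec_cfc hX
  obtain ⟨R, g, r1, r2, r3, r4⟩ := exists_spec_cfc hY
  rw [q4, r4, q3, r3, frob_two q1 q2 r1 r2, frob_two q1 q2 r1 r2, Finset.mul_sum]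
  refine Finset.sum_le_sum fun i _ => ?_
  rw [Finset.mul_sum]
  refine Finset.sum_le_sum fun j _ => ?_
  have h1 := pow_le_pow_left₀ (abs_nonneg _) (hψ (f i) (g j)) 2
  rw [mul_pow, sq_abs, sq_abs] at h1
  nlinarith [sq_nonneg ((Qᵀ * R) i j)]

/-- the identity behind Klein's inequality -/
theorem klein_le {X Y : Matrix m m ℝ} (hX : Xᵀ = X) (hY : Yᵀ = Y) {φ φ' : ℝ → ℝ} {K : ℝ}
    (h : ∀ a b, φ b - φ a - φ' a * (b - a) ≤ K * (a - b) ^ 2) :
    (cfc φ Y).trace - (cfc φ X).trace - (cfc φ' X * (Y - X)).trace ≤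
      K * ∑ k, ∑ l, (X - Y) k l ^ 2 := by
  obtain ⟨Q, f, q1, q2, q3, q4⟩ := exists_spec_cfc hX
  obtain ⟨R, g, r1, r2, r3, r4⟩ := exists_spec_cfc hY
  set W := Qᵀ * R with hW
  have w1 : ∀ i, ∑ j, W i j ^ 2 = 1 := fun i => by
    have a1 : W * Wᵀ = 1 := by
      have : W * Wᵀ = Qᵀ * (R * Rᵀ) * Q := by
        simp only [hW, transpose_mul, transpose_transpose, Matrix.mul_assoc]
      rw [this, r1, Matrix.mul_one, q2]
    simpa [Matrix.mul_apply, sq] using congrFun (congrFun a1 i) i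
  have w2 : ∀ j, ∑ i, W i j ^ 2 = 1 := fun j => by
    have a1 : Wᵀ * W = 1 := by
      have : Wᵀ * W = Rᵀ * (Q * Qᵀ) * R := by
        simp only [hW, transpose_mul, transpose_transpose, Matrix.mul_assoc]
      rw [this, q1, Matrix.mul_one, r2]
    simpa [Matrix.mul_apply, sq] using congrFun (congrFun a1 j) j
  have e1 : (cfc φ Y).trace = ∑ i, ∑ j, W i j ^ 2 * φ (g j) := by
    rw [← trace_conj r1, r4, conj_back r2, trace_diagonal, Finset.sum_comm]
    simp only [← Finset.sum_mul, w2, one_mul]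
  have e2 : (cfc φ X).trace = ∑ i, ∑ j, W i j ^ 2 * φ (f i) := by
    rw [← trace_conj q1, q4, conj_back q2, trace_diagonal]
    simp only [← Finset.sum_mul, w1, one_mul]
  have e3 : (cfc φ' X * (Y - X)).trace = ∑ i, ∑ j, W i j ^ 2 * (φ' (f i) * (g j - f i)) := by
    rw [q4, Matrix.mul_assoc, Matrix.mul_assoc, trace_mul_comm, Matrix.mul_assoc, Matrix.mul_assoc]
    simp only [Matrix.trace, diag_apply, diagonal_mul]
    refine Finset.sum_congr rfl fun i _ => ?_
    have a1 : Qᵀ * ((Y - X) * Q) = W * diagonal g * Wᵀ - diagonal f := by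
      rw [← Matrix.mul_assoc, Matrix.mul_sub, Matrix.sub_mul]
      congr 1
      · rw [r3]; simp only [hW, transpose_mul, transpose_transpose, Matrix.mul_assoc]
      · rw [q3, conj_back q2]
    rw [a1, Matrix.sub_apply, diag_conj, diagonal_apply_eq]
    have a2 : f i = ∑ j, W i j ^ 2 * f i := by rw [← Finset.sum_mul, w1, one_mul]
    conv_lhs => rw [show (∑ j, W i j ^ 2 * g j - f i) = ∑ j, W i j ^ 2 * g j - ∑ j, W i j ^ 2 * f i by
      rw [← a2]]
    rw [← Finset.sum_sub_distrib, Finset.mul_sum]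
    exact Finset.sum_congr rfl fun j _ => by ring
  have e4 : ∑ k, ∑ l, (X - Y) k l ^ 2 = ∑ i, ∑ j, W i j ^ 2 * (f i - g j) ^ 2 := by
    rw [← frob_two q1 q2 r1 r2, ← q3, ← r3]
  rw [e1, e2, e3, e4]
  simp only [← Finset.sum_sub_distrib, Finset.mul_sum]
  refine Finset.sum_le_sum fun i _ => Finset.sum_le_sum fun j _ => ?_
  nlinarith [mul_le_mul_of_nonneg_left (h (f i) (g j)) (sq_nonneg (W i j))]

theorem taylor_lip {φ φ' : ℝ → ℝ} {K : ℝ} (hφ : ∀ x, HasDerivAt φ (φ' x) x)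
    (hK : ∀ a b, |φ' a - φ' b| ≤ K * |a - b|) (a b : ℝ) :
    |φ b - φ a - φ' a * (b - a)| ≤ K * (a - b) ^ 2 := by
  have hK0 : 0 ≤ K := by
    have := (abs_nonneg _).trans (hK 1 0)
    simpa using this
  have h := (convex_uIcc a b).norm_image_sub_le_of_norm_hasDerivWithin_le
    (f := fun x => φ x - φ' a * x) (f' := fun x => φ' x - φ' a) (C := K * |a - b|)
    (fun x _ => by
      simpa using ((hφ x).fun_sub ((hasDerivAt_id x).const_mul (φ' a))).hasDerivWithinAt)
    (fun x hx => (hK x a).trans (mul_le_mul_of_nonneg_left (by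
      rw [abs_sub_comm a b]; exact abs_sub_left_of_mem_uIcc hx) hK0))
    left_mem_uIcc right_mem_uIcc
  rw [Real.norm_eq_abs, Real.norm_eq_abs, abs_sub_comm b a, mul_assoc, abs_mul_abs_self] at h
  rw [sq]
  convert h using 2
  ring

/-- **Klein**: second order bound for trace functions with Lipschitz derivative -/
theorem klein_abs {X Y : Matrix m m ℝ} (hX : Xᵀ = X) (hY : Yᵀ = Y) {φ φ' : ℝ → ℝ} {K : ℝ}
    (hφ : ∀ x, HasDerivAt φ (φ' x) x) (hK : ∀ a b, |φ' a - φ' b| ≤ K * |a - b|) :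
    |(cfc φ Y).trace - (cfc φ X).trace - (cfc φ' X * (Y - X)).trace| ≤
      K * ∑ k, ∑ l, (X - Y) k l ^ 2 := by
  have h1 := klein_le hX hY (φ := φ) (φ' := φ') (K := K)
    fun a b => (abs_le.mp (taylor_lip hφ hK a b)).2
  have h2 := klein_le hX hY (φ := fun x => -φ x) (φ' := fun x => -φ' x) (K := K)
    fun a b => by linarith [(abs_le.mp (taylor_lip hφ hK a b)).1]
  rw [cfc_neg, cfc_neg, cfc_neg, trace_neg, trace_neg, Matrix.neg_mul, trace_neg] at h2
  rw [abs_le]; constructor <;> linarith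

omit [DecidableEq m] in
theorem sq_le_sum_sum (Z : m → m → ℝ) (a b : m) : Z a b ^ 2 ≤ ∑ k, ∑ l, Z k l ^ 2 :=
  calc Z a b ^ 2 ≤ ∑ l, Z a l ^ 2 :=
        Finset.single_le_sum (f := fun l => Z a l ^ 2) (fun _ _ => sq_nonneg _) (Finset.mem_univ b)
    _ ≤ _ := Finset.single_le_sum (f := fun k => ∑ l, Z k l ^ 2) (fun _ _ => by positivity)
          (Finset.mem_univ a)

/-- **trace functions are `C^1`**: `D tr φ(X) = tr(φ'(X) DX)` -/
theorem RD.trfun {X : Mat n → Matrix m m ℝ} {D : Fin n × Fin n → Mat n → Matrix m m ℝ}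
    (hX : ∀ k l, RD (fun U => X U k l) fun a U => D a U k l) (sX : ∀ U ∈ SO n, (X U)ᵀ = X U)
    {φ φ' : ℝ → ℝ} {K : ℝ} (hφ : ∀ x, HasDerivAt φ (φ' x) x)
    (hK : ∀ a b, |φ' a - φ' b| ≤ K * |a - b|) :
    RD (fun U => (cfc φ (X U)).trace) fun a U => (cfc φ' (X U) * D a U).trace := by
  have hfr : ∀ U ∈ SO n, Tendsto (fun W => ∑ k, ∑ l, (X U - X W) k l ^ 2) (𝓝[SO n] U) (𝓝 0) := by
    intro U hU
    have : ContinuousOn (fun W => ∑ k, ∑ l, (X U k l - X W k l) ^ 2) (SO n) :=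
      continuousOn_finsetSum _ fun k _ => continuousOn_finsetSum _ fun l _ =>
        (continuousOn_const.sub (hX k l).c).pow 2
    simpa using (this U hU).tendsto
  have hc' : ∀ k l, ContinuousOn (fun U => cfc φ' (X U) k l) (SO n) := by
    intro k l U hU
    rw [ContinuousWithinAt, tendsto_iff_dist_tendsto_zero]
    have t1 := ((hfr U hU).const_mul (K ^ 2)).sqrt
    rw [mul_zero, Real.sqrt_zero] at t1
    refine squeeze_zero' (Eventually.of_forall fun _ => dist_nonneg) ?_ t1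
    filter_upwards [self_mem_nhdsWithin] with W hW
    rw [dist_comm, Real.dist_eq]
    refine Real.abs_le_sqrt (le_trans ?_ (frob_cfc_le (sX U hU) (sX W hW) hK))
    exact sq_le_sum_sum (fun k l => (cfc φ' (X U) - cfc φ' (X W)) k l) k l
  have htr : ∀ (B : Matrix m m ℝ) (Y : Matrix m m ℝ), (B * Y).trace = ∑ k, ∑ l, B k l * Y l k :=
    fun B Y => by simp [Matrix.trace, Matrix.mul_apply]
  have hc : ContinuousOn (fun U => (cfc φ (X U)).trace) (SO n) := by
    intro U hU
    have hl : ContinuousOn (fun W => (cfc φ' (X U) * (X W - X U)).trace) (SO n) := by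
      simp only [htr]
      exact continuousOn_finsetSum _ fun k _ => continuousOn_finsetSum _ fun l _ =>
        continuousOn_const.mul ((hX l k).c.sub continuousOn_const)
    have t1 : Tendsto (fun W => (cfc φ' (X U) * (X W - X U)).trace) (𝓝[SO n] U) (𝓝 0) := by
      simpa using (hl U hU).tendsto
    have t2 : Tendsto (fun W => (cfc φ (X W)).trace - (cfc φ (X U)).trace -
        (cfc φ' (X U) * (X W - X U)).trace) (𝓝[SO n] U) (𝓝 0) := by
      have t3 := (hfr U hU).const_mul K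
      rw [mul_zero] at t3
      refine squeeze_zero_norm' ?_ t3
      filter_upwards [self_mem_nhdsWithin] with W hW using klein_abs (sX U hU) (sX W hW) hφ hK
    have t4 := (t2.add t1).add_const (cfc φ (X U)).trace
    simpa [ContinuousWithinAt] using t4
  refine ⟨hc, fun a => ⟨hc, ?_, fun U hU => ?_⟩⟩
  · simp only [htr]
    exact continuousOn_finsetSum _ fun k _ => continuousOn_finsetSum _ fun l _ =>
      (hc' k l).mul ((hX l k).r a).c'
  · have d1 : HasDerivAt (fun t => (cfc φ' (X U) * (X (ro a t U) - X U)).trace)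
        (cfc φ' (X U) * D a U).trace 0 := by
      simp only [htr]
      exact HasDerivAt.fun_sum fun k _ => HasDerivAt.fun_sum fun l _ =>
        ((((hX l k).r a).d U hU).sub_const _).const_mul _
    have d2 : HasDerivAt (fun t => K * ∑ k, ∑ l, (X U k l - X (ro a t U) k l) ^ 2) 0 0 := by
      have := (HasDerivAt.fun_sum (u := Finset.univ) fun k _ =>
        HasDerivAt.fun_sum (u := Finset.univ) fun l _ =>
          ((((hX k l).r a).d U hU).const_sub (X U k l)).fun_pow 2).const_mul K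
      simpa [ro_zero] using this
    have d3 : HasDerivAt (fun t => (cfc φ (X (ro a t U))).trace - (cfc φ (X U)).trace -
        (cfc φ' (X U) * (X (ro a t U) - X U)).trace) 0 0 := by
      rw [hasDerivAt_iff_isLittleO] at d2 ⊢
      refine Asymptotics.IsBigO.trans_isLittleO (Asymptotics.IsBigO.of_bound 1
        (Eventually.of_forall fun t => ?_)) d2
      have := klein_abs (sX U hU) (sX _ (ro_mem a t hU)) hφ hK
      simp only [ro_zero, sub_self, trace_zero, sub_zero, smul_zero, one_mul,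
        Real.norm_eq_abs, ne_eq, OfNat.ofNat_ne_zero, not_false_eq_true, zero_pow,
        Finset.sum_const_zero, mul_zero]
      exact this.trans (le_abs_self _)
    have d4 := (d3.add d1).add_const (cfc φ (X U)).trace
    rw [zero_add] at d4
    refine d4.congr_of_eventuallyEq (Eventually.of_forall fun t => ?_)
    simp

end Op

/-! ### the stabiliser of a subspace -/

section Emb

variable {ι : Type*} [Fintype ι] [DecidableEq ι]

/-- `SO(n)` acting on the range of the isometry `E`, trivially on its complement. -/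
noncomputable def emb (E : Matrix ι (Fin n) ℝ) (U : Mat n) : Matrix ι ι ℝ :=
  1 + E * (Matrix.of U - 1) * Eᵀ

/-- the generator of the rotation `a` -/
def th0 (a : Fin n × Fin n) : Matrix (Fin n) (Fin n) ℝ :=
  Matrix.single a.1 a.2 1 - Matrix.single a.2 a.1 1

/-- the generator of the rotation `a` in the big space -/
noncomputable def thE (E : Matrix ι (Fin n) ℝ) (a : Fin n × Fin n) : Matrix ι ι ℝ := E * th0 a * Eᵀ

variable {E : Matrix ι (Fin n) ℝ}

theorem emb_mul_E (hE : Eᵀ * E = 1) (U : Mat n) : emb E U * E = E * Matrix.of U := by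
  rw [emb, Matrix.add_mul, Matrix.one_mul, Matrix.mul_assoc, hE, Matrix.mul_one, Matrix.mul_sub,
    Matrix.mul_one]
  abel

theorem emb_mul (hE : Eᵀ * E = 1) (U V : Mat n) : emb E (mm U V) = emb E U * emb E V := by
  have h : Matrix.of (mm U V) = Matrix.of U * Matrix.of V := rfl
  conv_rhs => rw [emb.eq_1 E V, Matrix.mul_add, Matrix.mul_one, ← Matrix.mul_assoc,
    ← Matrix.mul_assoc, emb_mul_E hE]
  simp only [emb, h, Matrix.mul_sub, Matrix.sub_mul, Matrix.mul_one, Matrix.mul_assoc]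
  abel

omit [Fintype ι] in
theorem emb_transpose (U : Mat n) : (emb E U)ᵀ = emb E fun a b => U b a := by
  simp only [emb, transpose_add, transpose_one, transpose_mul, transpose_transpose, transpose_sub,
    Matrix.mul_assoc]
  rfl

theorem emb_orth (hE : Eᵀ * E = 1) {U : Mat n} (hU : U ∈ SO n) : emb E U * (emb E U)ᵀ = 1 := by
  rw [emb_transpose, ← emb_mul hE]
  have : Matrix.of (mm U fun a b => U b a) = 1 := by
    ext a b
    simp only [of_apply, mm_apply, so_rows' hU, one_apply]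
  simp [emb, this]


theorem emb_mulVec (U : Mat n) {v : ι → ℝ} (hv : Eᵀ *ᵥ v = 0) : emb E U *ᵥ v = v := by
  rw [emb, add_mulVec, one_mulVec, ← mulVec_mulVec, hv, mulVec_zero, add_zero]

theorem th0_transpose (a : Fin n × Fin n) : (th0 a)ᵀ = -th0 a := by
  simp [th0, transpose_sub, transpose_single]

omit [Fintype ι] [DecidableEq ι] in
theorem thE_transpose (a : Fin n × Fin n) : (thE E a)ᵀ = -thE E a := by
  simp only [thE, transpose_mul, transpose_transpose, th0_transpose, Matrix.neg_mul,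
    Matrix.mul_neg, Matrix.mul_assoc]

theorem RD.entry (k l : Fin n) : RD (fun U : Mat n => U k l) fun a U => (Matrix.of U * th0 a) k l := by
  refine (RD.poly (MvPolynomial.X (k, l))).congr (fun U _ => ev_X k l U) fun a U _ => ?_
  have : XL a (MvPolynomial.X (k, l)) = Xd a.1 a.2 (MvPolynomial.X (k, l)) := rfl
  rw [this, Xd_X, ev_sub, th0, Matrix.mul_sub, Matrix.sub_apply]
  congr 1
  · split_ifs with h
    · rw [h, mul_single_apply_same, ev_X]; simp
    · rw [mul_single_apply_of_ne _ _ _ _ _ h, ev_zero]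
  · split_ifs with h
    · rw [h, mul_single_apply_same, ev_X]; simp
    · rw [mul_single_apply_of_ne _ _ _ _ _ h, ev_zero]

/-- `D g = g θ` -/
theorem RD.emb (hE : Eᵀ * E = 1) (k l : ι) :
    RD (fun U => Oc.emb E U k l) fun a U => (Oc.emb E U * thE E a) k l := by
  have h := (RD.const ((1 : Matrix ι ι ℝ) k l)).add (RD.sum Finset.univ fun j _ =>
    (RD.sum Finset.univ fun i _ => (((RD.entry i j).sub (RD.const ((1 : Matrix _ _ ℝ) i j))).const_mul
      (E k i))).const_mul (E l j))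
  refine h.congr (fun U _ => ?_) fun a U _ => ?_
  · simp only [Oc.emb, Matrix.add_apply, Matrix.mul_apply, transpose_apply, Matrix.sub_apply, of_apply]
    congr 1
    exact Finset.sum_congr rfl fun j _ => mul_comm _ _
  · rw [thE, ← Matrix.mul_assoc, ← Matrix.mul_assoc, emb_mul_E hE, Matrix.mul_assoc E, zero_add,
      Matrix.mul_apply]
    refine Finset.sum_congr rfl fun j _ => ?_
    rw [Matrix.mul_apply, mul_comm]
    simp

omit [DecidableEq ι] in
theorem dot_thE (a : Fin n × Fin n) (u v : ι → ℝ) :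
    u ⬝ᵥ thE E a *ᵥ v = (Eᵀ *ᵥ u) a.1 * (Eᵀ *ᵥ v) a.2 - (Eᵀ *ᵥ u) a.2 * (Eᵀ *ᵥ v) a.1 := by
  rw [thE, ← mulVec_mulVec, ← mulVec_mulVec, dotProduct_mulVec, ← mulVec_transpose, th0, sub_mulVec,
    dotProduct_sub, single_mulVec, single_mulVec]
  simp [dotProduct, Function.update_apply]

omit [DecidableEq ι] in
theorem sum_E_sq_le (hE : Eᵀ * E = 1) (u : ι → ℝ) : ∑ i, (Eᵀ *ᵥ u) i ^ 2 ≤ u ⬝ᵥ u := by
  set w := Eᵀ *ᵥ u with hw
  have h1 : (E *ᵥ w) ⬝ᵥ (E *ᵥ w) = w ⬝ᵥ w := by
    rw [dotProduct_mulVec, ← mulVec_transpose, mulVec_mulVec, hE, one_mulVec]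
  have h2 : u ⬝ᵥ (E *ᵥ w) = w ⬝ᵥ w := by rw [dotProduct_mulVec, ← mulVec_transpose]
  have h3 : 0 ≤ (u - E *ᵥ w) ⬝ᵥ (u - E *ᵥ w) := Finset.sum_nonneg fun _ _ => mul_self_nonneg _
  rw [sub_dotProduct, dotProduct_sub, dotProduct_sub, h1, h2, dotProduct_comm (E *ᵥ w) u, h2] at h3
  have h4 : ∑ i, w i ^ 2 = w ⬝ᵥ w := by simp [dotProduct, sq]
  linarith


omit [DecidableEq ι] in
theorem trace_thE (a : Fin n × Fin n) (M : Matrix ι ι ℝ) :
    (M * thE E a).trace = (Eᵀ * M * E) a.2 a.1 - (Eᵀ * M * E) a.1 a.2 := by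
  rw [thE, ← Matrix.mul_assoc, trace_mul_comm, ← Matrix.mul_assoc, ← Matrix.mul_assoc, th0,
    Matrix.mul_sub, trace_sub, trace_mul_single, trace_mul_single]
  simp

theorem frob_compress_le (hE : Eᵀ * E = 1) (M : Matrix ι ι ℝ) :
    ∑ i, ∑ j, (Eᵀ * M * E) i j ^ 2 ≤ ∑ k, ∑ l, M k l ^ 2 := by
  have h1 : ∀ i, ∑ j, (Eᵀ * M * E) i j ^ 2 ≤ ∑ l, (Eᵀ * M) i l ^ 2 := fun i => by
    have := sum_E_sq_le hE fun l => (Eᵀ * M) i l
    simp only [dotProduct, ← sq] at this
    refine le_trans (le_of_eq (Finset.sum_congr rfl fun j _ => ?_)) this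
    rw [Matrix.mul_apply]
    simp only [mulVec, dotProduct, transpose_apply, mul_comm]
  have h2 : ∀ l, ∑ i, (Eᵀ * M) i l ^ 2 ≤ ∑ k, M k l ^ 2 := fun l => by
    have := sum_E_sq_le hE fun k => M k l
    simp only [dotProduct, ← sq] at this
    exact this
  calc _ ≤ ∑ i, ∑ l, (Eᵀ * M) i l ^ 2 := Finset.sum_le_sum fun i _ => h1 i
    _ = ∑ l, ∑ i, (Eᵀ * M) i l ^ 2 := Finset.sum_comm
    _ ≤ ∑ l, ∑ k, M k l ^ 2 := Finset.sum_le_sum fun l _ => h2 l
    _ = _ := Finset.sum_comm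

/-- `∑_θ tr(M θ)² ≤ 4 |M|_F²` (sum over ordered pairs) -/
theorem sum_trace_thE_le (hE : Eᵀ * E = 1) (M : Matrix ι ι ℝ) :
    ∑ a, (M * thE E a).trace ^ 2 ≤ 4 * ∑ k, ∑ l, M k l ^ 2 := by
  simp only [trace_thE]
  have h1 := frob_compress_le hE M
  set N := Eᵀ * M * E
  have h2 : ∑ a : Fin n × Fin n, (N a.2 a.1 - N a.1 a.2) ^ 2 ≤
      ∑ a : Fin n × Fin n, (2 * N a.2 a.1 ^ 2 + 2 * N a.1 a.2 ^ 2) :=
    Finset.sum_le_sum fun a _ => by nlinarith [sq_nonneg (N a.2 a.1 + N a.1 a.2)]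
  have e1 : ∑ a : Fin n × Fin n, N a.1 a.2 ^ 2 = ∑ i, ∑ j, N i j ^ 2 := Fintype.sum_prod_type _
  have e2 : ∑ a : Fin n × Fin n, N a.2 a.1 ^ 2 = ∑ i, ∑ j, N i j ^ 2 :=
    Fintype.sum_prod_type_right _
  rw [Finset.sum_add_distrib, ← Finset.mul_sum, ← Finset.mul_sum, e1, e2] at h2
  linarith

end Emb

/-- **orbit Fubini**: an invariant measure is the mixture of the Haar laws on the orbits. -/
theorem orbit_lintegral (hμ : SOInv μ) {Ω : Type*} [MeasurableSpace Ω] (P : Measure Ω) [SFinite P]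
    {act : Mat n → Ω → Ω} (ha : Measurable fun z : Ω × Mat n => act z.2 z.1)
    (hP : ∀ U ∈ SO n, P.map (act U) = P) {F : Ω → ENNReal} (hF : Measurable F) :
    ∫⁻ ω, F ω ∂P = ∫⁻ ω, ∫⁻ U, F (act U ω) ∂μ ∂P := by
  rw [lintegral_lintegral_swap (f := fun ω U => F (act U ω)) (hF.comp ha).aemeasurable]
  have h1 : ∀ᵐ U ∂μ, ∫⁻ ω, F (act U ω) ∂P = ∫⁻ ω, F ω ∂P := by
    filter_upwards [hμ.mem] with U hU
    have hm : Measurable (act U) := ha.comp (f := fun ω => (ω, U)) (by fun_prop)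
    rw [← lintegral_map hF hm, hP U hU]
  rw [lintegral_congr_ae h1]
  simp

end Crest.Agent.T157.Oc
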