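import Crest.Agent.T157.OcE_9
import Crest.Agent.T157.KsB_5
import Crest.Agent.T157.KsE_5

-- ▼ part T157/OdA_9
section

set_option autoImplicit false
set_option linter.unusedSectionVars false

/-!
Row 157, A2 (helper9): calculus on the orbits `W ↦ g W gᵀ` (section 3 of crit19), cube frame.
-/

noncomputable section

namespace Crest.Agent.T157.Od

open MeasureTheory Matrix Crest.Agent.Lib.OrthPoinc Filter Topology Set
open Crest.Agent.T157.Oc Crest.Agent.T157.E Crest.Agent.T157.SL Crest.Agent.T157.Ks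

variable {k : ℕ}

/-! ### matrices and vectors of `C^1` functions -/

/-- entrywise `RD`, matrices -/
def RDM {α β : Type*} (F : Mat k → Matrix α β ℝ) (D : Fin k × Fin k → Mat k → Matrix α β ℝ) : Prop :=
  ∀ i j, RD (fun U => F U i j) fun a U => D a U i j

/-- entrywise `RD`, vectors -/
def RDV {α : Type*} (x : Mat k → α → ℝ) (D : Fin k × Fin k → Mat k → α → ℝ) : Prop :=
  ∀ i, RD (fun U => x U i) fun a U => D a U i

section Calc

variable {α β γ : Type*} [Fintype α] [Fintype β] [Fintype γ]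
  {F G : Mat k → Matrix α β ℝ} {D D' : Fin k × Fin k → Mat k → Matrix α β ℝ}
  {x y : Mat k → β → ℝ} {d d' : Fin k × Fin k → Mat k → β → ℝ}

theorem RDM.const (A : Matrix α β ℝ) : RDM (k := k) (fun _ => A) fun _ _ => 0 := fun _ _ => RD.const _

theorem RDM.add (hF : RDM F D) (hG : RDM G D') :
    RDM (fun U => F U + G U) fun a U => D a U + D' a U := fun i j => (hF i j).add (hG i j)

theorem RDM.sub (hF : RDM F D) (hG : RDM G D') :
    RDM (fun U => F U - G U) fun a U => D a U - D' a U := fun i j => (hF i j).sub (hG i j)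

theorem RDM.smul (hF : RDM F D) (c : ℝ) : RDM (fun U => c • F U) fun a U => c • D a U :=
  fun i j => (hF i j).const_mul c

theorem RDM.transpose (hF : RDM F D) : RDM (fun U => (F U)ᵀ) fun a U => (D a U)ᵀ :=
  fun i j => hF j i

theorem RDM.congr (hF : RDM F D) (h1 : ∀ U ∈ SO k, F U = G U) (h2 : ∀ a, ∀ U ∈ SO k, D a U = D' a U) :
    RDM G D' := fun i j =>
  (hF i j).congr (fun U hU => by rw [h1 U hU]) fun a U hU => by rw [h2 a U hU]

theorem RDM.mul {H : Mat k → Matrix β γ ℝ} {D'' : Fin k × Fin k → Mat k → Matrix β γ ℝ}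
    (hF : RDM F D) (hH : RDM H D'') :
    RDM (fun U => F U * H U) fun a U => D a U * H U + F U * D'' a U := fun i j =>
  (RD.sum Finset.univ fun l _ => (hF i l).mul (hH l j)).congr (fun _ _ => rfl) fun a U _ => by
    simp only [Matrix.add_apply, Matrix.mul_apply, Finset.sum_add_distrib]

theorem RDV.const (v : β → ℝ) : RDV (k := k) (fun _ => v) fun _ _ => 0 := fun _ => RD.const _

theorem RDV.add (hx : RDV x d) (hy : RDV y d') :
    RDV (fun U => x U + y U) fun a U => d a U + d' a U := fun i => (hx i).add (hy i)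

theorem RDV.sub (hx : RDV x d) (hy : RDV y d') :
    RDV (fun U => x U - y U) fun a U => d a U - d' a U := fun i => (hx i).sub (hy i)

theorem RDV.congr (hx : RDV x d) (h1 : ∀ U ∈ SO k, x U = y U) (h2 : ∀ a, ∀ U ∈ SO k, d a U = d' a U) :
    RDV y d' := fun i =>
  (hx i).congr (fun U hU => by rw [h1 U hU]) fun a U hU => by rw [h2 a U hU]

theorem RDM.mulVec (hF : RDM F D) (hx : RDV x d) :
    RDV (fun U => F U *ᵥ x U) fun a U => D a U *ᵥ x U + F U *ᵥ d a U := fun i =>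
  (RD.sum Finset.univ fun l _ => (hF i l).mul (hx l)).congr (fun _ _ => rfl) fun a U _ => by
    simp only [Pi.add_apply, Matrix.mulVec, dotProduct, Finset.sum_add_distrib]

theorem RDV.dot (hx : RDV x d) (hy : RDV y d') :
    RD (fun U => x U ⬝ᵥ y U) fun a U => d a U ⬝ᵥ y U + x U ⬝ᵥ d' a U :=
  (RD.sum Finset.univ fun l _ => (hx l).mul (hy l)).congr (fun _ _ => rfl) fun a U _ => by
    simp only [dotProduct, Finset.sum_add_distrib]

theorem RD.unique {f : Mat k → ℝ} {e e' : Fin k × Fin k → Mat k → ℝ} (h : RD f e) (h' : RD f e')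
    (a : Fin k × Fin k) {U : Mat k} (hU : U ∈ SO k) : e a U = e' a U :=
  ((h.r a).d U hU).unique ((h'.r a).d U hU)

theorem exists_RD_prod {κ : Type*} (s : Finset κ) {f : κ → Mat k → ℝ} (h : ∀ i, ∃ e, RD (f i) e) :
    ∃ e, RD (fun U => ∏ i ∈ s, f i U) e := by
  classical
  induction s using Finset.induction_on with
  | empty => exact ⟨_, by simpa using RD.const 1⟩
  | insert j s hj ih =>
    obtain ⟨e, he⟩ := ih
    obtain ⟨e', he'⟩ := h j
    exact ⟨_, (he'.mul he).congr (fun U _ => by rw [Finset.prod_insert hj]) fun _ _ _ => rfl⟩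

theorem exists_RD_det [DecidableEq α] {M : Mat k → Matrix α α ℝ}
    (h : ∀ i j, ∃ e, RD (fun U => M U i j) e) : ∃ e, RD (fun U => (M U).det) e := by
  choose e he using fun σ : Equiv.Perm α =>
    exists_RD_prod (k := k) Finset.univ (f := fun i U => M U (σ i) i) fun i => h _ _
  exact ⟨_, (RD.sum Finset.univ fun σ _ => (he σ).const_mul (Equiv.Perm.sign σ : ℝ)).congr
    (fun U _ => (det_apply' (M U)).symm) fun _ _ _ => rfl⟩

/-- `D (M⁻¹) = - M⁻¹ (D M) M⁻¹` -/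
theorem RDM.inv [DecidableEq α] {M : Mat k → Matrix α α ℝ} {DM : Fin k × Fin k → Mat k → Matrix α α ℝ}
    (hM : RDM M DM) (h0 : ∀ U ∈ SO k, 0 < (M U).det) :
    RDM (fun U => (M U)⁻¹) fun a U => -((M U)⁻¹ * DM a U * (M U)⁻¹) := by
  obtain ⟨e, he⟩ := exists_RD_det fun i j => ⟨_, hM i j⟩
  have h1 : RD (fun U => ((M U).det)⁻¹) fun a U => -((M U).det)⁻¹ ^ 2 * e a U :=
    ⟨he.c.inv₀ fun U hU => (h0 U hU).ne', fun a => (he.r a).inv h0⟩
  have h2 : ∀ i j, ∃ e, RD (fun U => (M U).adjugate i j) e := by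
    intro i j
    simp only [adjugate_apply]
    refine exists_RD_det fun a b => ?_
    by_cases hab : a = j
    · subst hab
      simp only [updateRow_self]
      exact ⟨_, RD.const _⟩
    · simp only [updateRow_ne hab]
      exact ⟨_, hM a b⟩
  choose e2 he2 using h2
  have h3 : RDM (fun U => (M U)⁻¹) fun a U => Matrix.of fun i j =>
      -((M U).det)⁻¹ ^ 2 * e a U * (M U).adjugate i j + ((M U).det)⁻¹ * e2 i j a U := fun i j =>
    (h1.mul (he2 i j)).congr (fun U _ => by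
      simp only [Matrix.inv_def, Ring.inverse_eq_inv', Matrix.smul_apply, smul_eq_mul]) fun _ _ _ => rfl
  refine h3.congr (fun _ _ => rfl) fun a U hU => ?_
  have hu : ∀ U ∈ SO k, IsUnit (M U).det := fun U hU => (h0 U hU).ne'.isUnit
  have h4 := (hM.mul h3).congr (G := fun _ => 1) (fun U hU => mul_nonsing_inv _ (hu U hU))
    fun _ _ _ => rfl
  set Y := Matrix.of fun i j => -((M U).det)⁻¹ ^ 2 * e a U * (M U).adjugate i j +
    ((M U).det)⁻¹ * e2 i j a U with hY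
  have h5 : DM a U * (M U)⁻¹ + M U * Y = 0 := by
    ext i j
    exact RD.unique (h4 i j) (RDM.const (k := k) (1 : Matrix α α ℝ) i j) a hU
  have h6 : (M U)⁻¹ * (DM a U * (M U)⁻¹ + M U * Y) = 0 := by rw [h5, Matrix.mul_zero]
  rw [Matrix.mul_add, ← Matrix.mul_assoc, ← Matrix.mul_assoc, nonsing_inv_mul _ (hu U hU),
    Matrix.one_mul] at h6
  exact eq_neg_of_add_eq_zero_right h6

end Calc

/-! ### Gibbs weights -/

section Gibbs

variable {Ω : Type*} [Fintype Ω] {w0 : Ω → ℝ} {H f g : Ω → Mat k → ℝ}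
  {DH Df Dg : Ω → Fin k × Fin k → Mat k → ℝ}

/-- the weight `w0 e^H` -/
def gw (w0 : Ω → ℝ) (H : Ω → Mat k → ℝ) (U : Mat k) (x : Ω) : ℝ := w0 x * Real.exp (H x U)

theorem wt_gw (hw : Wt w0) (U : Mat k) : Wt (gw w0 H U) := hw.mul_pos fun _ => Real.exp_pos _

theorem gAv_eq (u : Ω → ℝ) (U : Mat k) : gAv w0 H u U = mean (gw w0 H U) u := by
  rw [mean_eq_div]; rfl

theorem rd_logZ (hw : Wt w0) (hH : ∀ x, RD (H x) (DH x)) :
    RD (fun U => Real.log (Zw (gw w0 H U))) fun a U => mean (gw w0 H U) fun x => DH x a U := by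
  have := RD.logZ (w := w0) hH fun U _ => (wt_gw hw U).pos
  simp only [gAv_eq] at this
  exact this

theorem rd_mean (hw : Wt w0) (hH : ∀ x, RD (H x) (DH x)) (hf : ∀ x, RD (f x) (Df x)) :
    RD (fun U => mean (gw w0 H U) fun x => f x U) fun a U => (mean (gw w0 H U) fun x => Df x a U) +
      cov (gw w0 H U) (fun x => f x U) fun x => DH x a U := by
  have := RD.gibbs (w := w0) hH hf fun U _ => (wt_gw hw U).pos
  simp only [gAv_eq] at this
  exact this.congr (fun _ _ => rfl) fun a U _ => by rw [(wt_gw hw U).cov_eq]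

theorem rd_mean' (hw : Wt w0) (hH : ∀ x, RD (H x) (DH x)) (u : Ω → ℝ) :
    RD (fun U => mean (gw w0 H U) u) fun a U => cov (gw w0 H U) u fun x => DH x a U :=
  (rd_mean (f := fun x _ => u x) hw hH fun x => RD.const (u x)).congr (fun _ _ => rfl)
    fun a U _ => by rw [(wt_gw hw U).mean_const, zero_add]

theorem rd_cov' (hw : Wt w0) (hH : ∀ x, RD (H x) (DH x)) (u v : Ω → ℝ) :
    RD (fun U => cov (gw w0 H U) u v) fun a U => cum3 (gw w0 H U) u v fun x => DH x a U :=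
  ((rd_mean' hw hH fun x => u x * v x).sub ((rd_mean' hw hH u).mul (rd_mean' hw hH v))).congr
    (fun U _ => ((wt_gw hw U).cov_eq u v).symm) fun a U _ => by rw [(wt_gw hw U).cum3_eq]

end Gibbs

/-! ### the orbit -/

section Orbit

variable {Ω ι : Type*} [Fintype Ω] [Fintype ι] [DecidableEq ι]

/-- `g W gᵀ` -/
def WU (E : Matrix ι (Fin k) ℝ) (W : Matrix ι ι ℝ) (U : Mat k) : Matrix ι ι ℝ :=
  emb E U * W * (emb E U)ᵀ

/-- `z - g W gᵀ` -/
def AU (E : Matrix ι (Fin k) ℝ) (W : Matrix ι ι ℝ) (z : ℝ) (U : Mat k) : Matrix ι ι ℝ :=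
  z • (1 : Matrix ι ι ℝ) - WU E W U

/-- the generators in the cube frame -/
def thU (E : Matrix ι (Fin k) ℝ) (a : Fin k × Fin k) (U : Mat k) : Matrix ι ι ℝ :=
  thE (E * Matrix.of U) a

/-- the Hamiltonian `(σ - p)·W_U (σ - p) / 2` -/
def HU (E : Matrix ι (Fin k) ℝ) (W : Matrix ι ι ℝ) (p : ι → ℝ) (σ : Ω → ι → ℝ) (x : Ω) (U : Mat k) : ℝ :=
  (σ x - p) ⬝ᵥ WU E W U *ᵥ (σ x - p) / 2

/-- the Gibbs weight on the orbit -/
abbrev cw (E : Matrix ι (Fin k) ℝ) (W : Matrix ι ι ℝ) (p : ι → ℝ) (σ : Ω → ι → ℝ) (w0 : Ω → ℝ) :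
    Mat k → Ω → ℝ := gw w0 (HU E W p σ)

/-- the score `(σ - p)·A θ (σ - p)` -/
def hq (A θ : Matrix ι ι ℝ) (p : ι → ℝ) (σ : Ω → ι → ℝ) (x : Ω) : ℝ :=
  A *ᵥ (σ x - p) ⬝ᵥ θ *ᵥ (σ x - p)

variable {E : Matrix ι (Fin k) ℝ} {W : Matrix ι ι ℝ} {p : ι → ℝ} {σ : Ω → ι → ℝ} {w0 : Ω → ℝ} {z : ℝ}

theorem of_orth' {U : Mat k} (hU : U ∈ SO k) : (Matrix.of U)ᵀ * Matrix.of U = 1 := by
  ext i j
  simp only [Matrix.mul_apply, transpose_apply, of_apply, so_cols hU, one_apply]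

theorem EU_iso (hE : Eᵀ * E = 1) {U : Mat k} (hU : U ∈ SO k) :
    (E * Matrix.of U)ᵀ * (E * Matrix.of U) = 1 := by
  rw [transpose_mul, Matrix.mul_assoc, ← Matrix.mul_assoc Eᵀ, hE, Matrix.one_mul, of_orth' hU]

theorem thU_transpose (a : Fin k × Fin k) (U : Mat k) : (thU E a U)ᵀ = -thU E a U := thE_transpose a


theorem emb_orth' (hE : Eᵀ * E = 1) {U : Mat k} (hU : U ∈ SO k) : (emb E U)ᵀ * emb E U = 1 :=
  mul_eq_one_comm.mp (emb_orth hE hU)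

theorem emb_thE (hE : Eᵀ * E = 1) (a : Fin k × Fin k) {U : Mat k} (hU : U ∈ SO k) :
    emb E U * thE E a = thU E a U * emb E U := by
  rw [thU, ← emb_mul_E hE, thE, thE, transpose_mul]
  simp only [Matrix.mul_assoc]
  rw [emb_orth' hE hU, Matrix.mul_one]

theorem WU_symm (hW : Wᵀ = W) (U : Mat k) : (WU E W U)ᵀ = WU E W U := by
  simp only [WU, transpose_mul, transpose_transpose, hW, Matrix.mul_assoc]

theorem AU_symm (hW : Wᵀ = W) (U : Mat k) : (AU E W z U)ᵀ = AU E W z U := by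
  simp only [AU, transpose_sub, transpose_smul, transpose_one, WU_symm hW]

theorem AU_eq (hE : Eᵀ * E = 1) {U : Mat k} (hU : U ∈ SO k) :
    AU E W z U = emb E U * (z • (1 : Matrix ι ι ℝ) - W) * (emb E U)ᵀ := by
  rw [AU, WU, Matrix.mul_sub, Matrix.sub_mul, Matrix.mul_smul, Matrix.mul_one, Matrix.smul_mul,
    emb_orth hE hU]

theorem rd_emb (hE : Eᵀ * E = 1) : RDM (emb E) fun a U => thU E a U * emb E U :=
  RDM.congr (F := emb E) (RD.emb hE) (fun _ _ => rfl) fun a _ hU => emb_thE hE a hU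

theorem rd_embT (hE : Eᵀ * E = 1) :
    RDM (fun U => (emb E U)ᵀ) fun a U => -((emb E U)ᵀ * thU E a U) :=
  (rd_emb hE).transpose.congr (fun _ _ => rfl) fun a U _ => by
    rw [transpose_mul, thU_transpose, Matrix.mul_neg]

theorem rd_WU (hE : Eᵀ * E = 1) :
    RDM (WU E W) fun a U => thU E a U * WU E W U - WU E W U * thU E a U :=
  (((rd_emb hE).mul (RDM.const W)).mul (rd_embT hE)).congr (fun _ _ => rfl) fun a U _ => by
    simp only [WU, Matrix.mul_zero, add_zero, Matrix.mul_neg, Matrix.mul_assoc, sub_eq_add_neg]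

theorem rd_AU (hE : Eᵀ * E = 1) :
    RDM (AU E W z) fun a U => thU E a U * AU E W z U - AU E W z U * thU E a U :=
  ((RDM.const _).sub (rd_WU hE)).congr (fun _ _ => rfl) fun a U _ => by
    simp only [AU, Matrix.mul_sub, Matrix.sub_mul, Matrix.mul_smul, Matrix.smul_mul, Matrix.mul_one,
      Matrix.one_mul]
    abel

theorem skew_dot {θ : Matrix ι ι ℝ} (hθ : θᵀ = -θ) (u v : ι → ℝ) : u ⬝ᵥ θ *ᵥ v = -(v ⬝ᵥ θ *ᵥ u) := by
  rw [dotProduct_mulVec, ← mulVec_transpose, hθ, neg_mulVec, neg_dotProduct, dotProduct_comm]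

theorem symm_dot {A : Matrix ι ι ℝ} (hA : Aᵀ = A) (u v : ι → ℝ) : u ⬝ᵥ A *ᵥ v = A *ᵥ u ⬝ᵥ v := by
  rw [dotProduct_mulVec, ← mulVec_transpose, hA]

theorem rd_HU (hE : Eᵀ * E = 1) (hW : Wᵀ = W) (z : ℝ) (x : Ω) :
    RD (HU E W p σ x) fun a U => hq (AU E W z U) (thU E a U) p σ x := by
  have h := ((RDV.const (σ x - p)).dot ((rd_WU (W := W) hE).mulVec (RDV.const (σ x - p)))).const_mul
    (1 / 2)
  refine h.congr (fun U _ => by rw [HU]; ring) fun a U _ => ?_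
  rw [hq]
  generalize σ x - p = s
  have h1 := skew_dot (thU_transpose (E := E) a U) s (WU E W U *ᵥ s)
  have h2 := skew_dot (thU_transpose (E := E) a U) s s
  have h3 := symm_dot (WU_symm (E := E) hW U) s (thU E a U *ᵥ s)
  simp only [AU, sub_mulVec, smul_mulVec, one_mulVec, sub_dotProduct, smul_dotProduct,
    zero_dotProduct, mulVec_zero, add_zero, zero_add, dotProduct_sub, ← mulVec_mulVec, smul_eq_mul]
  have h4 : s ⬝ᵥ thU E a U *ᵥ s = 0 := by linarith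
  rw [h4]
  linarith

/-- third cumulant matrix `κ₃(σ, σ, h)` -/
def c3 (w : Ω → ℝ) (σ : Ω → ι → ℝ) (h : Ω → ℝ) : Matrix ι ι ℝ :=
  Matrix.of fun i j => cum3 w (fun x => σ x i) (fun x => σ x j) h

/-- derivative of `gᵀ(m - p)`, rotated back -/
def dDel (w : Ω → ℝ) (σ : Ω → ι → ℝ) (p : ι → ℝ) (A θ : Matrix ι ι ℝ) : ι → ℝ :=
  covV w (hq A θ p σ) σ - θ *ᵥ (meanV w σ - p)

/-- derivative of `A (m - p)` -/
def dAd (w : Ω → ℝ) (σ : Ω → ι → ℝ) (p : ι → ℝ) (A θ : Matrix ι ι ℝ) : ι → ℝ :=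
  (θ * A - A * θ) *ᵥ (meanV w σ - p) + A *ᵥ covV w (hq A θ p σ) σ

/-- derivative of `gᵀ C g`, rotated back -/
def dCx (w : Ω → ℝ) (σ : Ω → ι → ℝ) (p : ι → ℝ) (A θ : Matrix ι ι ℝ) : Matrix ι ι ℝ :=
  c3 w σ (hq A θ p σ) + (covMat w σ * θ - θ * covMat w σ)

/-- derivative of `A C A - A` -/
def dPhi (w : Ω → ℝ) (σ : Ω → ι → ℝ) (p : ι → ℝ) (A θ : Matrix ι ι ℝ) : Matrix ι ι ℝ :=
  A * c3 w σ (hq A θ p σ) * A + ((θ * A - A * θ) * covMat w σ * A + A * covMat w σ * (θ * A - A * θ)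
    - (θ * A - A * θ))

/-- derivative of `(A C - 1) g`, rotated back -/
def dX1 (w : Ω → ℝ) (σ : Ω → ι → ℝ) (p : ι → ℝ) (A θ : Matrix ι ι ℝ) : Matrix ι ι ℝ :=
  A * c3 w σ (hq A θ p σ) + ((θ * A - A * θ) * covMat w σ + (A * covMat w σ - 1) * θ)

variable (hE : Eᵀ * E = 1) (hW : Wᵀ = W) (hw : Wt w0) (z : ℝ)
include hE hW hw

theorem rd_lZ : RD (fun U => Real.log (Zw (cw E W p σ w0 U))) fun a U =>
    mean (cw E W p σ w0 U) (hq (AU E W z U) (thU E a U) p σ) := rd_logZ hw (rd_HU hE hW z)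

theorem rd_obs (u : Ω → ℝ) : RD (fun U => mean (cw E W p σ w0 U) u) fun a U =>
    cov (cw E W p σ w0 U) u (hq (AU E W z U) (thU E a U) p σ) := rd_mean' hw (rd_HU hE hW z) u

theorem rd_cv (u v : Ω → ℝ) : RD (fun U => cov (cw E W p σ w0 U) u v) fun a U =>
    cum3 (cw E W p σ w0 U) u v (hq (AU E W z U) (thU E a U) p σ) := rd_cov' hw (rd_HU hE hW z) u v

theorem rd_del : RDV (fun U => meanV (cw E W p σ w0 U) σ - p) fun a U =>
    covV (cw E W p σ w0 U) (hq (AU E W z U) (thU E a U) p σ) σ := fun i =>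
  ((rd_obs hE hW hw z fun x => σ x i).sub (RD.const (p i))).congr (fun _ _ => rfl) fun a U _ => by
    rw [sub_zero, cov_comm]; rfl

theorem rd_C : RDM (fun U => covMat (cw E W p σ w0 U) σ) fun a U =>
    c3 (cw E W p σ w0 U) σ (hq (AU E W z U) (thU E a U) p σ) := fun _ _ => rd_cv hE hW hw z _ _

theorem rd_delx : RDV (fun U => (emb E U)ᵀ *ᵥ (meanV (cw E W p σ w0 U) σ - p)) fun a U =>
    (emb E U)ᵀ *ᵥ dDel (cw E W p σ w0 U) σ p (AU E W z U) (thU E a U) :=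
  ((rd_embT hE).mulVec (rd_del hE hW hw z)).congr (fun _ _ => rfl) fun a U _ => by
    rw [dDel, mulVec_sub _ (covV _ _ _), neg_mulVec, mulVec_mulVec]; abel

theorem rd_Ad : RDV (fun U => AU E W z U *ᵥ (meanV (cw E W p σ w0 U) σ - p)) fun a U =>
    dAd (cw E W p σ w0 U) σ p (AU E W z U) (thU E a U) := (rd_AU hE).mulVec (rd_del hE hW hw z)

theorem rd_Cx : RDM (fun U => (emb E U)ᵀ * covMat (cw E W p σ w0 U) σ * emb E U) fun a U =>
    (emb E U)ᵀ * dCx (cw E W p σ w0 U) σ p (AU E W z U) (thU E a U) * emb E U :=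
  (((rd_embT hE).mul (rd_C hE hW hw z)).mul (rd_emb hE)).congr (fun _ _ => rfl) fun a U _ => by
    simp only [dCx, Matrix.mul_add, Matrix.add_mul, Matrix.mul_sub, Matrix.sub_mul, Matrix.neg_mul,
      Matrix.mul_assoc]
    abel

theorem rd_Phi : RDM (fun U => AU E W z U * covMat (cw E W p σ w0 U) σ * AU E W z U - AU E W z U)
    fun a U => dPhi (cw E W p σ w0 U) σ p (AU E W z U) (thU E a U) :=
  ((((rd_AU hE).mul (rd_C hE hW hw z)).mul (rd_AU hE)).sub (rd_AU hE)).congr (fun _ _ => rfl)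
    fun a U _ => by
      simp only [dPhi, Matrix.add_mul]
      abel

theorem rd_X1 : RDM (fun U => (AU E W z U * covMat (cw E W p σ w0 U) σ - 1) * emb E U)
    fun a U => dX1 (cw E W p σ w0 U) σ p (AU E W z U) (thU E a U) * emb E U :=
  ((((rd_AU hE).mul (rd_C hE hW hw z)).sub (RDM.const 1)).mul (rd_emb hE)).congr (fun _ _ => rfl)
    fun a U _ => by
      simp only [dX1, Matrix.add_mul, sub_zero, Matrix.mul_assoc]
      abel

end Orbit

end Crest.Agent.T157.Od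
end
end

-- ▼ part T157/OdB_9
section

set_option autoImplicit false
set_option linter.unusedSectionVars false

/-!
Row 157, A2 (helper9): exact formulas and gradient sums on the orbits (sections 3, 5, 6 of crit19).
Everything is pointwise algebra for a finite weight `w`, features `σ`, a symmetric `A`, a centre `p`
and a family `θ a` of skew matrices (`Fam`).
-/

noncomputable section

namespace Crest.Agent.T157.Od

open MeasureTheory Matrix Crest.Agent.Lib.OrthPoinc Filter Topology Set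
open Crest.Agent.T157.Oc Crest.Agent.T157.E Crest.Agent.T157.SL Crest.Agent.T157.Ks

variable {Ω ι κ I J : Type*} [Fintype Ω] [Fintype ι] [DecidableEq ι] [Fintype κ] [Fintype I]
  [Fintype J]

/-- Frobenius pairing -/
def ipF (θ M : ι → ι → ℝ) : ℝ := ∑ j, ∑ l, θ j l * M j l

/-- a Bessel family of skew matrices -/
structure Fam (θ : κ → Matrix ι ι ℝ) : Prop where
  skew : ∀ a, (θ a)ᵀ = -θ a
  bd : ∀ M : ι → ι → ℝ, ∑ a, ipF (θ a) M ^ 2 ≤ fr fun j l => M j l - M l j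

theorem ipF_skew {θ : Matrix ι ι ℝ} (h : θᵀ = -θ) (M : ι → ι → ℝ) :
    ipF θ (fun j l => M j l - M l j) = 2 * ipF θ M := by
  have h1 : ∑ j, ∑ l, θ j l * M l j = -∑ j, ∑ l, θ j l * M j l := by
    rw [Finset.sum_comm, ← Finset.sum_neg_distrib]
    refine Finset.sum_congr rfl fun j _ => ?_
    rw [← Finset.sum_neg_distrib]
    refine Finset.sum_congr rfl fun l _ => ?_
    have := congrFun (congrFun h j) l
    simp only [transpose_apply, Matrix.neg_apply] at this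
    rw [this]; ring
  simp only [ipF, mul_sub, Finset.sum_sub_distrib, h1]
  ring

theorem ipF_eq_trace (θ M : Matrix ι ι ℝ) : ipF θ M = (Mᵀ * θ).trace := by
  simp only [ipF, Matrix.trace, diag_apply, Matrix.mul_apply, transpose_apply]
  rw [Finset.sum_comm]
  exact Finset.sum_congr rfl fun _ _ => Finset.sum_congr rfl fun _ _ => mul_comm _ _

theorem fam_thE {k : ℕ} {E : Matrix ι (Fin k) ℝ} (hE : Eᵀ * E = 1) : Fam (thE E) := by
  refine ⟨thE_transpose, fun M => ?_⟩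
  have h := sum_trace_thE_le hE (Matrix.of fun j l => M j l - M l j)ᵀ
  simp only [← ipF_eq_trace] at h
  have e : ∀ a, ipF (thE E a) (Matrix.of fun j l => M j l - M l j) = 2 * ipF (thE E a) M :=
    fun a => ipF_skew (thE_transpose a) M
  simp only [e, mul_pow, ← Finset.mul_sum, transpose_apply, of_apply] at h
  rw [Finset.sum_comm] at h
  unfold fr
  linarith

theorem fam_thU {k : ℕ} {E : Matrix ι (Fin k) ℝ} (hE : Eᵀ * E = 1) {U : Mat k} (hU : U ∈ SO k) :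
    Fam fun a => thU E a U := fam_thE (EU_iso hE hU)

variable {θ : κ → Matrix ι ι ℝ}

theorem Fam.bd4 (h : Fam θ) (M : ι → ι → ℝ) : ∑ a, ipF (θ a) M ^ 2 ≤ 4 * fr M := by
  refine (h.bd M).trans ?_
  have h1 : fr (fun j l => M j l - M l j) ≤ ∑ j, ∑ l, (2 * M j l ^ 2 + 2 * M l j ^ 2) :=
    Finset.sum_le_sum fun j _ => Finset.sum_le_sum fun l _ => by
      nlinarith [sq_nonneg (M j l + M l j)]
  simp only [Finset.sum_add_distrib, ← Finset.mul_sum] at h1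
  rw [Finset.sum_comm (f := fun j l => M l j ^ 2)] at h1
  unfold fr at *
  linarith

theorem dot_eq_ipF (B : Matrix ι ι ℝ) (u v : ι → ℝ) : u ⬝ᵥ B *ᵥ v = ipF B fun j l => u j * v l := by
  simp only [ipF, dotProduct, mulVec, Finset.mul_sum]
  exact Finset.sum_congr rfl fun _ _ => Finset.sum_congr rfl fun _ _ => by ring

theorem Fam.dot (h : Fam θ) (u v : ι → ℝ) :
    ∑ a, (u ⬝ᵥ θ a *ᵥ v) ^ 2 ≤ 2 * ((u ⬝ᵥ u) * (v ⬝ᵥ v)) := by
  simp only [dot_eq_ipF]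
  refine (h.bd _).trans ?_
  have e : fr (fun j l => u j * v l - u l * v j) =
      2 * ((u ⬝ᵥ u) * (v ⬝ᵥ v)) - 2 * (u ⬝ᵥ v) ^ 2 := by
    have e1 : (u ⬝ᵥ u) * (v ⬝ᵥ v) = ∑ i, ∑ j, u i * u i * (v j * v j) := Finset.sum_mul_sum _ _ _ _
    have e2 : (u ⬝ᵥ u) * (v ⬝ᵥ v) = ∑ i, ∑ j, u j * u j * (v i * v i) := by rw [e1, Finset.sum_comm]
    have e3 : (u ⬝ᵥ v) ^ 2 = ∑ i, ∑ j, u i * v i * (u j * v j) := by
      rw [sq]; exact Finset.sum_mul_sum _ _ _ _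
    rw [two_mul ((u ⬝ᵥ u) * _)]
    nth_rewrite 1 [e1]
    rw [e2, e3, fr]
    simp only [Finset.mul_sum, ← Finset.sum_add_distrib, ← Finset.sum_sub_distrib]
    exact Finset.sum_congr rfl fun i _ => Finset.sum_congr rfl fun j _ => by ring
  rw [e]
  nlinarith [sq_nonneg (u ⬝ᵥ v)]

/-! ### the centred quadratic form -/

/-- the feature `A σ` -/
abbrev fA (A : Matrix ι ι ℝ) (σ : Ω → ι → ℝ) : Ω → ι → ℝ := fun x => A *ᵥ σ x

/-- `A x̄ · θ x̄` -/
abbrev Qf (w : Ω → ℝ) (σ : Ω → ι → ℝ) (A θ : Matrix ι ι ℝ) : Ω → ℝ := qf w (fA A σ) σ θ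

/-- (N): `Var(A x̄ · θ x̄) ≤ N |θ|_F²` for skew `θ` -/
def NB (w : Ω → ℝ) (σ : Ω → ι → ℝ) (A : Matrix ι ι ℝ) (N : ℝ) : Prop :=
  ∀ θ : Matrix ι ι ℝ, θᵀ = -θ → NV (fA A σ) σ θ w ≤ N * fr θ

variable {w f g : Ω → ℝ} {σ : Ω → ι → ℝ} {p : ι → ℝ} {A B : Matrix ι ι ℝ}

theorem meanV_fA : meanV w (fA A σ) = A *ᵥ meanV w σ := by
  ext i
  exact (meanV_dot w σ (A i)).symm

theorem covV_fA : covV w f (fA A σ) = A *ᵥ covV w f σ := by
  ext i
  exact (covV_dot w f σ (A i)).symm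

theorem covV_lin (u : ι → ℝ) : covV w (fun x => u ⬝ᵥ σ x) σ = covMat w σ *ᵥ u :=
  (covMat_mulVec w σ u).symm

theorem dot_fA (hA : Aᵀ = A) (u : ι → ℝ) : (fun x => u ⬝ᵥ fA A σ x) = fun x => A *ᵥ u ⬝ᵥ σ x :=
  funext fun _ => symm_dot hA _ _

theorem cov_center (hw : Wt w) (f g l : Ω → ℝ) :
    cov w f (fun x => (g x - mean w g) * (l x - mean w l)) = cum3 w f g l := by
  rw [cov_comm, hw.cov_eq', cum3]
  congr 1; funext x; ring

theorem cov_Qf (hw : Wt w) (f : Ω → ℝ) (B : Matrix ι ι ℝ) : cov w f (Qf w σ A B) =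
    ipF B fun j l => cum3 w f (fun x => fA A σ x j) fun x => σ x l := by
  have e : Qf w σ A B = fun x => ∑ j, ∑ l, B j l * ((fA A σ x j - mean w fun x => fA A σ x j) *
      (σ x l - mean w fun x => σ x l)) := funext fun x => dot_eq_ipF _ _ _
  simp only [e, cov_sum, cov_const_mul, cov_center hw, ipF]

theorem hq_eq (x : Ω) : hq A B p σ x = Qf w σ A B x + ((B *ᵥ (meanV w σ - p)) ⬝ᵥ fA A σ x +
    ((A *ᵥ (meanV w σ - p)) ᵥ* B ⬝ᵥ σ x + (A *ᵥ (meanV w σ - p) ⬝ᵥ B *ᵥ (meanV w σ - p) -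
      (B *ᵥ (meanV w σ - p)) ⬝ᵥ A *ᵥ meanV w σ - (A *ᵥ (meanV w σ - p)) ᵥ* B ⬝ᵥ meanV w σ))) := by
  have e : σ x - p = (σ x - meanV w σ) + (meanV w σ - p) := by abel
  rw [hq, Qf, qf, meanV_fA, e]
  generalize meanV w σ - p = d
  simp only [← dotProduct_mulVec, fA, mulVec_add, mulVec_sub, add_dotProduct, dotProduct_add,
    sub_dotProduct, dotProduct_sub, dotProduct_comm (B *ᵥ d)]
  ring

/-- `Cov(f, h) = Cov(f, Q) + Cov(f, Aσ)·θ δ + Aδ·θ Cov(f, σ)` -/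
theorem cov_hq (hw : Wt w) (f : Ω → ℝ) : cov w f (hq A B p σ) = cov w f (Qf w σ A B) +
    (covV w f (fA A σ) ⬝ᵥ B *ᵥ (meanV w σ - p) + A *ᵥ (meanV w σ - p) ⬝ᵥ B *ᵥ covV w f σ) := by
  rw [show hq A B p σ = _ from funext (hq_eq (w := w)), cov_add, cov_add, cov_add, hw.cov_const,
    ← covV_dot, ← covV_dot, add_zero, dotProduct_comm (B *ᵥ _), ← dotProduct_mulVec]

theorem Fam.cov_Qf_le (h : Fam θ) (hw : Wt w) {N : ℝ} (hN0 : 0 ≤ N) (hN : NB w σ A N) (f : Ω → ℝ) :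
    ∑ a, cov w f (Qf w σ A (θ a)) ^ 2 ≤ 4 * N * var w f := by
  simp only [cov_Qf hw]
  set M : ι → ι → ℝ := fun j l => cum3 w f (fun x => fA A σ x j) fun x => σ x l with hM
  set S : Matrix ι ι ℝ := Matrix.of fun j l => M j l - M l j with hS
  have hsk : Sᵀ = -S := by ext j l; simp [hS]
  have h1 : fr S = 2 * cov w f (Qf w σ A S) := by
    rw [cov_Qf hw, ← ipF_skew hsk]
    simp only [fr, ipF, hS, of_apply, sq, hM]
  have h2 := hw.cov_sq_le f (Qf w σ A S)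
  have h3 : var w f * var w (Qf w σ A S) ≤ _ := mul_le_mul_of_nonneg_left (hN S hsk) (hw.var_nonneg f)
  have h4 := fr_nonneg (U := S)
  have h5 := mul_nonneg hN0 (hw.var_nonneg f)
  refine (h.bd M).trans ?_
  change fr S ≤ _
  by_contra hc
  push Not at hc
  nlinarith

theorem sq3_le (a b c : ℝ) : (a + (b + c)) ^ 2 ≤ 3 * (a ^ 2 + b ^ 2 + c ^ 2) := by
  nlinarith [sq_nonneg (a - b), sq_nonneg (a - c), sq_nonneg (b - c)]

theorem sum_sq3_le (a b c : κ → ℝ) {x y z : ℝ} (ha : ∑ i, a i ^ 2 ≤ x) (hb : ∑ i, b i ^ 2 ≤ y)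
    (hc : ∑ i, c i ^ 2 ≤ z) : ∑ i, (a i + (b i + c i)) ^ 2 ≤ 3 * (x + y + z) := by
  have := Finset.sum_le_sum fun i (_ : i ∈ Finset.univ) => sq3_le (a i) (b i) (c i)
  simp only [← Finset.mul_sum, Finset.sum_add_distrib] at this
  linarith

/-- the constant of the key lemma -/
def Lam (w : Ω → ℝ) (σ : Ω → ι → ℝ) (p : ι → ℝ) (A : Matrix ι ι ℝ) (N k1 k2 : ℝ) : ℝ :=
  3 * (4 * N + 2 * (k2 * ((meanV w σ - p) ⬝ᵥ (meanV w σ - p))) +
    2 * ((A *ᵥ (meanV w σ - p) ⬝ᵥ A *ᵥ (meanV w σ - p)) * k1))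

/-- **KEY**: `∑_θ Cov(f, h_θ)² ≤ Λ Var f` for every observable `f`. -/
theorem Fam.key (h : Fam θ) (hw : Wt w) {N k1 k2 : ℝ} (hN0 : 0 ≤ N) (hN : NB w σ A N) (h1 : 0 ≤ k1)
    (c1 : CB w σ k1) (h2 : 0 ≤ k2) (c2 : CB w (fA A σ) k2) (f : Ω → ℝ) :
    ∑ a, cov w f (hq A (θ a) p σ) ^ 2 ≤ Lam w σ p A N k1 k2 * var w f := by
  simp only [cov_hq hw]
  refine (sum_sq3_le _ _ _ (h.cov_Qf_le hw hN0 hN f) (h.dot _ _) (h.dot _ _)).trans ?_
  have a1 := mul_le_mul_of_nonneg_right (c2.covV_le hw h2 f) (dot_self_nonneg (meanV w σ - p))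
  have a2 := mul_le_mul_of_nonneg_left (c1.covV_le hw h1 f) (dot_self_nonneg (A *ᵥ (meanV w σ - p)))
  unfold Lam
  nlinarith

theorem cum3_eq_cov (hw : Wt w) (f g l : Ω → ℝ) :
    cum3 w f g l = cov w (fun x => (f x - mean w f) * (g x - mean w g)) l := by
  rw [cov_comm, cov_center hw, cum3_comm w l, cum3_comm' w f l]

/-- KEY for third cumulants ((W) in the cube frame: `f = g = v·σ`) -/
theorem Fam.key3 (h : Fam θ) (hw : Wt w) {N k1 k2 : ℝ} (hN0 : 0 ≤ N) (hN : NB w σ A N) (h1 : 0 ≤ k1)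
    (c1 : CB w σ k1) (h2 : 0 ≤ k2) (c2 : CB w (fA A σ) k2) (f g : Ω → ℝ) :
    ∑ a, cum3 w f g (hq A (θ a) p σ) ^ 2 ≤
      Lam w σ p A N k1 k2 * var w fun x => (f x - mean w f) * (g x - mean w g) := by
  simp only [cum3_eq_cov hw f g]
  exact h.key hw hN0 hN h1 c1 h2 c2 _

/-! ### first order objects -/

theorem dot_dDel (hw : Wt w) (hA : Aᵀ = A) (u : ι → ℝ) :
    u ⬝ᵥ dDel w σ p A B = cov w (fun x => u ⬝ᵥ σ x) (Qf w σ A B) +
      (((A * covMat w σ - 1) *ᵥ u) ⬝ᵥ B *ᵥ (meanV w σ - p) +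
        A *ᵥ (meanV w σ - p) ⬝ᵥ B *ᵥ (covMat w σ *ᵥ u)) := by
  have _ := hA
  rw [dDel, dotProduct_sub, covV_dot, cov_comm, cov_hq hw, covV_fA, covV_lin, sub_mulVec, one_mulVec,
    sub_dotProduct, ← mulVec_mulVec]
  ring

theorem dot_dAd (hw : Wt w) (hA : Aᵀ = A) (hB : Bᵀ = -B) (u : ι → ℝ) :
    u ⬝ᵥ dAd w σ p A B = cov w (fun x => u ⬝ᵥ fA A σ x) (Qf w σ A B) +
      (((A * covMat w σ * A - A) *ᵥ u) ⬝ᵥ B *ᵥ (meanV w σ - p) +
        A *ᵥ (meanV w σ - p) ⬝ᵥ B *ᵥ ((covMat w σ * A - 1) *ᵥ u)) := by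
  rw [dAd, dotProduct_add, symm_dot hA u (covV _ _ _), covV_dot, cov_comm, cov_hq hw, covV_fA,
    covV_lin, dot_fA hA]
  generalize meanV w σ - p = d
  have h1 := skew_dot hB u (A *ᵥ d)
  have h2 := symm_dot hA u (B *ᵥ d)
  simp only [sub_mulVec, one_mulVec, sub_dotProduct, ← mulVec_mulVec, dotProduct_sub, mulVec_sub]
  linarith

theorem sum_single_dot (M : Matrix ι ι ℝ) :
    ∑ i, (M *ᵥ Pi.single i 1 ⬝ᵥ M *ᵥ Pi.single i 1) = fr M := by
  simp only [mulVec_single_one, dotProduct, col_apply, fr, sq]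
  exact Finset.sum_comm

theorem single_dot (i : ι) (v : ι → ℝ) : (Pi.single i 1 : ι → ℝ) ⬝ᵥ v = v i := by simp


/-- centre, `A δ`: total gradient -/
theorem Fam.dAd_total (h : Fam θ) (hw : Wt w) (hA : Aᵀ = A) :
    ∑ i, ∑ a, dAd w σ p A (θ a) i ^ 2 ≤ 3 * (4 * T3 w (fA A σ) (fA A σ) σ +
      2 * (fr (A * covMat w σ * A - A) * ((meanV w σ - p) ⬝ᵥ (meanV w σ - p))) +
      2 * ((A *ᵥ (meanV w σ - p) ⬝ᵥ A *ᵥ (meanV w σ - p)) * fr (covMat w σ * A - 1))) := by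
  have h0 : ∀ i, ∑ a, cov w (fun x => (Pi.single i 1 : ι → ℝ) ⬝ᵥ fA A σ x) (Qf w σ A (θ a)) ^ 2 ≤
      4 * ∑ j, ∑ l, cum3 w (fun x => fA A σ x i) (fun x => fA A σ x j) (fun x => σ x l) ^ 2 := by
    intro i
    simp only [cov_Qf hw, single_dot]
    exact h.bd4 _
  have h1 := Finset.sum_le_sum fun i (_ : i ∈ Finset.univ) =>
    sum_sq3_le _ _ _ (h0 i) (h.dot ((A * covMat w σ * A - A) *ᵥ Pi.single i 1) (meanV w σ - p))
      (h.dot (A *ᵥ (meanV w σ - p)) ((covMat w σ * A - 1) *ᵥ Pi.single i 1))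
  simp only [← dot_dAd hw hA (h.skew _)] at h1
  simp only [single_dot, ← Finset.mul_sum, Finset.sum_add_distrib,
    ← Finset.sum_mul, sum_single_dot] at h1
  exact h1

theorem sum_sq2_le (a b : κ → ℝ) {x y : ℝ} (ha : ∑ i, a i ^ 2 ≤ x) (hb : ∑ i, b i ^ 2 ≤ y) :
    ∑ i, (a i + b i) ^ 2 ≤ 2 * (x + y) := by
  have := Finset.sum_le_sum fun i (_ : i ∈ Finset.univ) =>
    (by nlinarith [sq_nonneg (a i - b i)] : (a i + b i) ^ 2 ≤ 2 * (a i ^ 2 + b i ^ 2))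
  simp only [← Finset.mul_sum, Finset.sum_add_distrib] at this
  linarith

section OneDir

variable (h : Fam θ) (hw : Wt w) (hA : Aᵀ = A) {N k1 k2 : ℝ} (hN0 : 0 ≤ N) (hN : NB w σ A N)
  (h1 : 0 ≤ k1) (c1 : CB w σ k1) (h2 : 0 ≤ k2) (c2 : CB w (fA A σ) k2)
include h hw hA hN0 hN h1 c1 h2 c2

theorem Lam_nonneg : 0 ≤ Lam w σ p A N k1 k2 := by
  have := dot_self_nonneg (meanV w σ - p)
  have := dot_self_nonneg (A *ᵥ (meanV w σ - p))
  unfold Lam; positivity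

/-- centre, `δ`: one direction -/
theorem Fam.dDel_dir (u : ι → ℝ) : ∑ a, (u ⬝ᵥ dDel w σ p A (θ a)) ^ 2 ≤
    2 * (Lam w σ p A N k1 k2 * k1 + 2 * ((meanV w σ - p) ⬝ᵥ (meanV w σ - p))) * (u ⬝ᵥ u) := by
  have e : ∀ a, u ⬝ᵥ dDel w σ p A (θ a) = cov w (fun x => u ⬝ᵥ σ x) (hq A (θ a) p σ) +
      (meanV w σ - p) ⬝ᵥ θ a *ᵥ u := fun a => by
    rw [dDel, dotProduct_sub, covV_dot, cov_comm, skew_dot (h.skew a) u]; ring
  simp only [e]
  refine (sum_sq2_le _ _ (h.key hw hN0 hN h1 c1 h2 c2 _) (h.dot _ _)).trans ?_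
  have := mul_le_mul_of_nonneg_left (c1.var_le u) (Lam_nonneg (p := p) h hw hA hN0 hN h1 c1 h2 c2)
  nlinarith

/-- centre, `A δ`: one direction -/
theorem Fam.dAd_dir (u : ι → ℝ) : ∑ a, (u ⬝ᵥ dAd w σ p A (θ a)) ^ 2 ≤
    3 * (Lam w σ p A N k1 k2 * k2 * (u ⬝ᵥ u) +
      2 * ((u ⬝ᵥ u) * (A *ᵥ (meanV w σ - p) ⬝ᵥ A *ᵥ (meanV w σ - p))) +
      2 * (((meanV w σ - p) ⬝ᵥ (meanV w σ - p)) * (A *ᵥ u ⬝ᵥ A *ᵥ u))) := by
  have e : ∀ a, u ⬝ᵥ dAd w σ p A (θ a) = cov w (fun x => u ⬝ᵥ fA A σ x) (hq A (θ a) p σ) +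
      (u ⬝ᵥ θ a *ᵥ (A *ᵥ (meanV w σ - p)) + (meanV w σ - p) ⬝ᵥ θ a *ᵥ (A *ᵥ u)) := fun a => by
    rw [dAd, dotProduct_add, symm_dot hA u (covV _ _ _), covV_dot, cov_comm, dot_fA hA, sub_mulVec,
      dotProduct_sub, ← mulVec_mulVec, ← mulVec_mulVec, symm_dot hA u,
      skew_dot (h.skew a) (A *ᵥ u)]
    ring
  simp only [e]
  refine (sum_sq3_le _ _ _ (h.key hw hN0 hN h1 c1 h2 c2 _) (h.dot _ _) (h.dot _ _)).trans ?_
  have := mul_le_mul_of_nonneg_left (c2.var_le u) (Lam_nonneg (p := p) h hw hA hN0 hN h1 c1 h2 c2)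
  nlinarith

end OneDir

/-! ### second order objects -/

/-- the cumulant part of `κ₃(f, g, h_θ)` -/
def Rm (w : Ω → ℝ) (σ : Ω → ι → ℝ) (p : ι → ℝ) (A B : Matrix ι ι ℝ) (f g : Ω → ℝ) : ℝ :=
  (ipF B fun j l => cum4 w f g (fun x => fA A σ x j) fun x => σ x l) +
    ((fun j => cum3 w f g fun x => fA A σ x j) ⬝ᵥ B *ᵥ (meanV w σ - p) +
      A *ᵥ (meanV w σ - p) ⬝ᵥ B *ᵥ fun j => cum3 w f g fun x => σ x j)

theorem cum3_center (f g l k : Ω → ℝ) :
    cum3 w (fun x => (f x - mean w f) * (g x - mean w g)) l k =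
      cum4 w f g l k + (cov w f l * cov w g k + cov w f k * cov w g l) := by
  have : cum3 w (fun x => (f x - mean w f) * (g x - mean w g)) l k = mean w (fun x => (f x - mean w f) *
      (g x - mean w g) * (l x - mean w l) * (k x - mean w k)) - cov w f g * cov w l k := by
    rw [cum3, ← cov_eq_mean w f g, cov_eq_mean w l k, ← mean_const_mul w _ (cov w f g), ← mean_sub]
    congr 1; ext x; ring
  rw [this, cum4]; ring

theorem ipF_add (B : Matrix ι ι ℝ) (M M' : ι → ι → ℝ) :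
    ipF B (fun j l => M j l + M' j l) = ipF B M + ipF B M' := by
  simp only [ipF, mul_add, Finset.sum_add_distrib]

/-- the exact form of `κ₃(f, g, h_θ)` -/
theorem cum3_hq (hw : Wt w) (f g : Ω → ℝ) : cum3 w f g (hq A B p σ) = Rm w σ p A B f g +
    (covV w f (fA A σ) ⬝ᵥ B *ᵥ covV w g σ + covV w g (fA A σ) ⬝ᵥ B *ᵥ covV w f σ) := by
  have e : ∀ ψ : Ω → ι → ℝ, covV w (fun x => (f x - mean w f) * (g x - mean w g)) ψ =
      fun j => cum3 w f g fun x => ψ x j := fun ψ => funext fun j => (cum3_eq_cov hw _ _ _).symm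
  rw [cum3_eq_cov hw, cov_hq hw, cov_Qf hw, e, e, Rm, dot_eq_ipF B (covV _ _ _),
    dot_eq_ipF B (covV _ _ _)]
  simp only [cum3_center, ipF_add, mul_comm (cov w f fun x => σ x _)]
  simp only [covV]
  ring

/-- the size of the cumulant part, for two families of observables -/
def RB (w : Ω → ℝ) (σ : Ω → ι → ℝ) (p : ι → ℝ) (A : Matrix ι ι ℝ) (α : Ω → I → ℝ) (β : Ω → J → ℝ) : ℝ :=
  3 * (4 * T4 w α β (fA A σ) σ + 2 * (T3 w α β (fA A σ) * ((meanV w σ - p) ⬝ᵥ (meanV w σ - p))) +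
    2 * ((A *ᵥ (meanV w σ - p) ⬝ᵥ A *ᵥ (meanV w σ - p)) * T3 w α β σ))

theorem Fam.Rm_le (h : Fam θ) (α : Ω → I → ℝ) (β : Ω → J → ℝ) :
    ∑ i, ∑ j, ∑ a, Rm w σ p A (θ a) (fun x => α x i) (fun x => β x j) ^ 2 ≤ RB w σ p A α β := by
  have h1 := Finset.sum_le_sum fun i (_ : i ∈ Finset.univ) => Finset.sum_le_sum
    fun j (_ : j ∈ Finset.univ) => sum_sq3_le _ _ _
      (h.bd4 fun j' l => cum4 w (fun x => α x i) (fun x => β x j) (fun x => fA A σ x j') fun x => σ x l)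
      (h.dot (fun j' => cum3 w (fun x => α x i) (fun x => β x j) fun x => fA A σ x j') (meanV w σ - p))
      (h.dot (A *ᵥ (meanV w σ - p)) fun j' => cum3 w (fun x => α x i) (fun x => β x j) fun x => σ x j')
  simp only [← Finset.mul_sum, Finset.sum_add_distrib, ← Finset.sum_mul] at h1
  simp only [RB, T4, T3, sq (cum3 _ _ _ _)]
  exact h1

end Crest.Agent.T157.Od
end
end

-- ▼ part T157/OdC_9

set_option autoImplicit false
set_option linter.unusedSectionVars false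

/-!
Row 157, A2 (helper9): exact second order formulas and their gradient sums ((W), (F), (m1), (m2) of
section 6 of crit19), in the words of `OdA_9`, `OdB_9`.
-/

noncomputable section

namespace Crest.Agent.T157.Od

open MeasureTheory Matrix Crest.Agent.Lib.OrthPoinc Filter Topology Set
open Crest.Agent.T157.Oc Crest.Agent.T157.E Crest.Agent.T157.SL Crest.Agent.T157.Ks

variable {Ω ι κ I J : Type*} [Fintype Ω] [Fintype ι] [DecidableEq ι] [Fintype κ] [Fintype I]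
  [Fintype J] {θ : κ → Matrix ι ι ℝ} {w f g : Ω → ℝ} {σ : Ω → ι → ℝ} {p : ι → ℝ}
  {A B : Matrix ι ι ℝ}

theorem dot_c3 (h : Ω → ℝ) (u v : ι → ℝ) :
    u ⬝ᵥ c3 w σ h *ᵥ v = cum3 w (fun x => u ⬝ᵥ σ x) (fun x => v ⬝ᵥ σ x) h := by
  rw [cum3_comm', cum3_dot]
  simp only [cum3_comm w (fun x => u ⬝ᵥ σ x) h, cum3_comm' w h (fun x => u ⬝ᵥ σ x), cum3_dot]
  simp only [dotProduct, mulVec, c3, of_apply, Finset.mul_sum]
  rw [Finset.sum_comm]
  refine Finset.sum_congr rfl fun j _ => Finset.sum_congr rfl fun i _ => ?_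
  rw [cum3_comm w h, cum3_comm' w _ h, cum3_comm w (fun x => σ x j)]
  ring


theorem dot_mul3 (P M Q : Matrix ι ι ℝ) (u v : ι → ℝ) :
    u ⬝ᵥ (P * M * Q) *ᵥ v = Pᵀ *ᵥ u ⬝ᵥ M *ᵥ (Q *ᵥ v) := by
  rw [← mulVec_mulVec, ← mulVec_mulVec, dotProduct_mulVec u P, ← mulVec_transpose]

section Exact

variable (hw : Wt w) (hA : Aᵀ = A) (hB : Bᵀ = -B) (u v : ι → ℝ)
include hw hA hB

/-- `u · D(gᵀ C g) v` -/
theorem dot_dCx : u ⬝ᵥ dCx w σ p A B *ᵥ v =
    ((A * covMat w σ - 1) *ᵥ u) ⬝ᵥ B *ᵥ (covMat w σ *ᵥ v) +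
      (((A * covMat w σ - 1) *ᵥ v) ⬝ᵥ B *ᵥ (covMat w σ *ᵥ u) +
        Rm w σ p A B (fun x => u ⬝ᵥ σ x) fun x => v ⬝ᵥ σ x) := by
  have _ := hA
  rw [dCx, add_mulVec, dotProduct_add, dot_c3, cum3_hq hw, covV_fA, covV_fA, covV_lin, covV_lin]
  have h1 := skew_dot hB v (covMat w σ *ᵥ u)
  have h2 := symm_dot (covMat_transpose w σ) u (B *ᵥ v)
  simp only [sub_mulVec, one_mulVec, sub_dotProduct, ← mulVec_mulVec, dotProduct_sub]
  linarith

/-- `u · D(A C A - A) v` -/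
theorem dot_dPhi : u ⬝ᵥ dPhi w σ p A B *ᵥ v =
    ((A * covMat w σ * A - A) *ᵥ u) ⬝ᵥ B *ᵥ ((covMat w σ * A - 1) *ᵥ v) +
      (((A * covMat w σ * A - A) *ᵥ v) ⬝ᵥ B *ᵥ ((covMat w σ * A - 1) *ᵥ u) +
        Rm w σ p A B (fun x => u ⬝ᵥ fA A σ x) fun x => v ⬝ᵥ fA A σ x) := by
  rw [dPhi, add_mulVec, dotProduct_add, dot_mul3, dot_c3, hA, cum3_hq hw, covV_fA, covV_fA, covV_lin,
    covV_lin, dot_fA hA, dot_fA hA]
  have hC := covMat_transpose w σ
  generalize covMat w σ = C at *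
  have h1 := skew_dot hB u (A *ᵥ (C *ᵥ (A *ᵥ v)))
  have h2 := skew_dot hB (A *ᵥ v) (C *ᵥ (A *ᵥ u))
  have h3 := skew_dot hB u (A *ᵥ v)
  simp only [sub_mulVec, add_mulVec, one_mulVec, sub_dotProduct, ← mulVec_mulVec, dotProduct_sub,
    dotProduct_add, mulVec_sub, symm_dot hA u, symm_dot hC (A *ᵥ u), symm_dot hA (C *ᵥ (A *ᵥ u))]
  linarith



end Exact

/-! ### gradient sums -/

theorem dot_self_eq (y : ι → ℝ) : y ⬝ᵥ y = ∑ i, ((Pi.single i 1 : ι → ℝ) ⬝ᵥ y) ^ 2 := by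
  simp only [single_dot]; simp only [dotProduct, sq]

theorem fr_eq_single (D : Matrix ι ι ℝ) :
    fr D = ∑ i, ∑ j, ((Pi.single i 1 : ι → ℝ) ⬝ᵥ D *ᵥ Pi.single j 1) ^ 2 := by
  simp only [single_dot, mulVec_single_one, col_apply, fr]

/-- operator form: `∑_θ |D_θ v|²` -/
theorem Fam.op_gen (h : Fam θ) {D : κ → Matrix ι ι ℝ} {P Q : Matrix ι ι ℝ} {v q r : ι → ℝ}
    {α : Ω → ι → ℝ} (e : ∀ a u, u ⬝ᵥ D a *ᵥ v = (P *ᵥ u) ⬝ᵥ θ a *ᵥ q + (r ⬝ᵥ θ a *ᵥ (Q *ᵥ u) +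
      Rm w σ p A (θ a) (fun x => u ⬝ᵥ α x) g)) :
    ∑ a, D a *ᵥ v ⬝ᵥ D a *ᵥ v ≤
      3 * (2 * (fr P * (q ⬝ᵥ q)) + 2 * ((r ⬝ᵥ r) * fr Q) + RB w σ p A α (sg g)) := by
  simp only [dot_self_eq (D _ *ᵥ v), e]
  rw [Finset.sum_comm]
  have h1 := Finset.sum_le_sum fun i (_ : i ∈ Finset.univ) => sum_sq3_le _ _ _
    (h.dot (P *ᵥ Pi.single i 1) q) (h.dot r (Q *ᵥ Pi.single i 1))
    (le_refl (∑ a, Rm w σ p A (θ a) (fun x => (Pi.single i 1 : ι → ℝ) ⬝ᵥ α x) g ^ 2))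
  refine h1.trans ?_
  have h2 := h.Rm_le (w := w) (σ := σ) (p := p) (A := A) α (sg g)
  simp only [Finset.univ_unique, Finset.sum_singleton] at h2
  simp only [single_dot, ← Finset.mul_sum, Finset.sum_add_distrib, ← Finset.sum_mul, sum_single_dot]
  linarith

/-- Frobenius form: `∑_θ |D_θ|_F²` -/
theorem Fam.fr_gen (h : Fam θ) {D : κ → Matrix ι ι ℝ} {P Q P' Q' : Matrix ι ι ℝ}
    {α β : Ω → ι → ℝ} (e : ∀ a u v, u ⬝ᵥ D a *ᵥ v = (P *ᵥ u) ⬝ᵥ θ a *ᵥ (Q *ᵥ v) +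
      ((P' *ᵥ v) ⬝ᵥ θ a *ᵥ (Q' *ᵥ u) + Rm w σ p A (θ a) (fun x => u ⬝ᵥ α x) fun x => v ⬝ᵥ β x)) :
    ∑ a, fr (D a) ≤ 3 * (2 * (fr P * fr Q) + 2 * (fr P' * fr Q') + RB w σ p A α β) := by
  simp only [fr_eq_single (D _), e]
  rw [Finset.sum_comm]
  simp only [Finset.sum_comm (s := (Finset.univ : Finset κ))]
  have h1 := Finset.sum_le_sum fun i (_ : i ∈ Finset.univ) => Finset.sum_le_sum
    fun j (_ : j ∈ Finset.univ) => sum_sq3_le _ _ _
    (h.dot (P *ᵥ Pi.single i 1) (Q *ᵥ Pi.single j 1)) (h.dot (P' *ᵥ Pi.single j 1) (Q' *ᵥ Pi.single i 1))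
    (le_refl (∑ a, Rm w σ p A (θ a) (fun x => (Pi.single i 1 : ι → ℝ) ⬝ᵥ α x)
      (fun x => (Pi.single j 1 : ι → ℝ) ⬝ᵥ β x) ^ 2))
  refine h1.trans ?_
  have h2 := h.Rm_le (w := w) (σ := σ) (p := p) (A := A) α β
  simp only [single_dot, ← Finset.mul_sum, Finset.sum_add_distrib, ← Finset.sum_mul, sum_single_dot]
  linarith

section Sums

variable (h : Fam θ) (hw : Wt w) (hA : Aᵀ = A)
include h hw hA

/-- (m1), matrix variance of `gᵀ C g` -/
theorem Fam.dCx_op (v : ι → ℝ) : ∑ a, dCx w σ p A (θ a) *ᵥ v ⬝ᵥ dCx w σ p A (θ a) *ᵥ v ≤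
    3 * (2 * (fr (A * covMat w σ - 1) * (covMat w σ *ᵥ v ⬝ᵥ covMat w σ *ᵥ v)) +
      2 * (((A * covMat w σ - 1) *ᵥ v ⬝ᵥ (A * covMat w σ - 1) *ᵥ v) * fr (covMat w σ)) +
        RB w σ p A σ (sg fun x => v ⬝ᵥ σ x)) :=
  h.op_gen fun a u => dot_dCx hw hA (h.skew a) u v

/-- (m1), matrix variance of `A C A - A` -/
theorem Fam.dPhi_op (v : ι → ℝ) : ∑ a, dPhi w σ p A (θ a) *ᵥ v ⬝ᵥ dPhi w σ p A (θ a) *ᵥ v ≤
    3 * (2 * (fr (A * covMat w σ * A - A) *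
      ((covMat w σ * A - 1) *ᵥ v ⬝ᵥ (covMat w σ * A - 1) *ᵥ v)) +
      2 * (((A * covMat w σ * A - A) *ᵥ v ⬝ᵥ (A * covMat w σ * A - A) *ᵥ v) *
        fr (covMat w σ * A - 1)) + RB w σ p A (fA A σ) (sg fun x => v ⬝ᵥ fA A σ x)) :=
  h.op_gen fun a u => dot_dPhi hw hA (h.skew a) u v

/-- (F), total gradient of `A C A - A` -/
theorem Fam.dPhi_fr : ∑ a, fr (dPhi w σ p A (θ a)) ≤
    3 * (2 * (fr (A * covMat w σ * A - A) * fr (covMat w σ * A - 1)) +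
      2 * (fr (A * covMat w σ * A - A) * fr (covMat w σ * A - 1)) + RB w σ p A (fA A σ) (fA A σ)) :=
  h.fr_gen fun a u v => dot_dPhi hw hA (h.skew a) u v



end Sums

/-! ### one direction at a time -/

theorem ipF_comm (M N : ι → ι → ℝ) : ipF M N = ipF N M := by simp only [ipF, mul_comm]

theorem ipF_mul3 (U P M Q : Matrix ι ι ℝ) : ipF U (P * M * Q) = ipF M (Pᵀ * U * Qᵀ) := by
  rw [ipF_eq_trace, ipF_comm, ipF_eq_trace]
  simp only [transpose_mul, Matrix.mul_assoc]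
  rw [trace_mul_comm]
  simp only [Matrix.mul_assoc]

theorem ipF_madd (U M N : Matrix ι ι ℝ) : ipF U (M + N) = ipF U M + ipF U N := ipF_add U M N

theorem ipF_msub (U M N : Matrix ι ι ℝ) : ipF U (M - N) = ipF U M - ipF U N := by
  simp only [ipF, Matrix.sub_apply, mul_sub, Finset.sum_sub_distrib]

theorem ipF_sq_le (U M : Matrix ι ι ℝ) : ipF U M ^ 2 ≤ fr U * fr M := by
  simp only [ipF, fr, ← Finset.sum_product']
  exact Finset.sum_mul_sq_le_sq_mul_sq _ _ _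

theorem cov_qf (hw : Wt w) (α β : Ω → ι → ℝ) (U : Matrix ι ι ℝ) (l : Ω → ℝ) :
    cov w (qf w α β U) l = ipF U fun i j => cum3 w (fun x => α x i) (fun x => β x j) l := by
  have e : qf w α β U = fun x => ∑ j, ∑ l, U j l * ((α x j - mean w fun x => α x j) *
      (β x l - mean w fun x => β x l)) := funext fun x => dot_eq_ipF _ _ _
  simp only [cov_comm w _ l, e, cov_sum, cov_const_mul, cov_center hw, ipF, cum3_comm w l,
    cum3_comm' w _ l]

theorem c3_AA (hA : Aᵀ = A) (l : Ω → ℝ) : A * c3 w σ l * A =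
    Matrix.of fun i j => cum3 w (fun x => fA A σ x i) (fun x => fA A σ x j) l := by
  ext i j
  have := dot_mul3 A (c3 w σ l) A (Pi.single i 1) (Pi.single j 1)
  rw [dot_c3, hA, ← dot_fA hA, ← dot_fA hA] at this
  simpa only [single_dot, mulVec_single_one, col_apply, of_apply] using this

theorem c3_A1 (hA : Aᵀ = A) (l : Ω → ℝ) : A * c3 w σ l =
    Matrix.of fun i j => cum3 w (fun x => fA A σ x i) (fun x => σ x j) l := by
  ext i j
  have := dot_mul3 A (c3 w σ l) 1 (Pi.single i 1) (Pi.single j 1)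
  rw [dot_c3, hA, ← dot_fA hA, one_mulVec, Matrix.mul_one] at this
  simpa only [single_dot, mulVec_single_one, col_apply, of_apply] using this

/-- `‖M‖² ≤ a` -/
def Op2 (M : Matrix ι ι ℝ) (a : ℝ) : Prop := ∀ v, M *ᵥ v ⬝ᵥ M *ᵥ v ≤ a * (v ⬝ᵥ v)

theorem dot_add_le (x y : ι → ℝ) : (x + y) ⬝ᵥ (x + y) ≤ 2 * (x ⬝ᵥ x + y ⬝ᵥ y) := by
  have := dot_self_nonneg (x - y)
  simp only [add_dotProduct, dotProduct_add, sub_dotProduct, dotProduct_sub] at *
  linarith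

theorem dot_sub_le (x y : ι → ℝ) : (x - y) ⬝ᵥ (x - y) ≤ 2 * (x ⬝ᵥ x + y ⬝ᵥ y) := by
  have := dot_self_nonneg (x + y)
  simp only [add_dotProduct, dotProduct_add, sub_dotProduct, dotProduct_sub] at *
  linarith

theorem Op2.one : Op2 (1 : Matrix ι ι ℝ) 1 := fun v => by simp

theorem Op2.sub {M M' : Matrix ι ι ℝ} {a b : ℝ} (h : Op2 M a) (h' : Op2 M' b) :
    Op2 (M - M') (2 * (a + b)) := fun v => by
  rw [sub_mulVec]; linarith [dot_sub_le (M *ᵥ v) (M' *ᵥ v), h v, h' v]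

theorem Op2.add {M M' : Matrix ι ι ℝ} {a b : ℝ} (h : Op2 M a) (h' : Op2 M' b) :
    Op2 (M + M') (2 * (a + b)) := fun v => by
  rw [add_mulVec]; linarith [dot_add_le (M *ᵥ v) (M' *ᵥ v), h v, h' v]

theorem Op2.orth {G : Matrix ι ι ℝ} (h : Gᵀ * G = 1) (v : ι → ℝ) : G *ᵥ v ⬝ᵥ G *ᵥ v = v ⬝ᵥ v := by
  rw [dotProduct_mulVec, ← mulVec_transpose, mulVec_mulVec, h, one_mulVec]

theorem Op2.fr_left {P : Matrix ι ι ℝ} {a : ℝ} (h : Op2 P a) (M : Matrix ι ι ℝ) :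
    fr (P * M) ≤ a * fr M := by
  rw [← sum_single_dot, ← sum_single_dot, Finset.mul_sum]
  exact Finset.sum_le_sum fun i _ => by rw [← mulVec_mulVec]; exact h _

theorem Op2.fr_right {Q : Matrix ι ι ℝ} {b : ℝ} (h : Op2 Qᵀ b) (M : Matrix ι ι ℝ) :
    fr (M * Q) ≤ b * fr M := by
  rw [← fr_transpose, transpose_mul, ← fr_transpose (U := M)]; exact h.fr_left _

theorem fr_orth_left {G : Matrix ι ι ℝ} (h : Gᵀ * G = 1) (M : Matrix ι ι ℝ) : fr (G * M) = fr M := by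
  simp only [← sum_single_dot, ← mulVec_mulVec, Op2.orth h]

theorem fr_orth_right {G : Matrix ι ι ℝ} (h : G * Gᵀ = 1) (M : Matrix ι ι ℝ) : fr (M * G) = fr M := by
  rw [← fr_transpose, transpose_mul, fr_orth_left (by rwa [transpose_transpose]), fr_transpose]

theorem fr_add_le (M N : Matrix ι ι ℝ) : fr (M + N) ≤ 2 * (fr M + fr N) := by
  simp only [← sum_single_dot, add_mulVec, ← Finset.sum_add_distrib, Finset.mul_sum]
  exact Finset.sum_le_sum fun i _ => dot_add_le _ _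

theorem fr_sub_le (M N : Matrix ι ι ℝ) : fr (M - N) ≤ 2 * (fr M + fr N) := by
  simp only [← sum_single_dot, sub_mulVec, ← Finset.sum_add_distrib, Finset.mul_sum]
  exact Finset.sum_le_sum fun i _ => dot_sub_le _ _

section Op

variable {k1 k2 : ℝ} (hw : Wt w)
include hw

theorem op2_C (h1 : 0 ≤ k1) (c1 : CB w σ k1) : Op2 (covMat w σ) (k1 * k1) := fun v => by
  rw [← covV_lin, mul_assoc]
  exact (c1.covV_le hw h1 _).trans (mul_le_mul_of_nonneg_left (c1.var_le v) h1)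

theorem op2_AC (c1 : CB w σ k1) (h2 : 0 ≤ k2) (c2 : CB w (fA A σ) k2) :
    Op2 (A * covMat w σ) (k2 * k1) := fun v => by
  rw [← mulVec_mulVec, ← covV_lin, ← covV_fA, mul_assoc]
  exact (c2.covV_le hw h2 _).trans (mul_le_mul_of_nonneg_left (c1.var_le v) h2)

theorem op2_CA (hA : Aᵀ = A) (h1 : 0 ≤ k1) (c1 : CB w σ k1) (c2 : CB w (fA A σ) k2) :
    Op2 (covMat w σ * A) (k2 * k1) := fun v => by
  rw [← mulVec_mulVec, ← covV_lin, ← dot_fA hA, mul_comm k2, mul_assoc]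
  exact (c1.covV_le hw h1 _).trans (mul_le_mul_of_nonneg_left (c2.var_le v) h1)

theorem op2_ACA (hA : Aᵀ = A) (h2 : 0 ≤ k2) (c2 : CB w (fA A σ) k2) :
    Op2 (A * covMat w σ * A) (k2 * k2) := fun v => by
  rw [← mulVec_mulVec, ← mulVec_mulVec, ← covV_lin, ← dot_fA hA, ← covV_fA, mul_assoc]
  exact (c2.covV_le hw h2 _).trans (mul_le_mul_of_nonneg_left (c2.var_le v) h2)

end Op

section OneDir

variable (h : Fam θ) (hw : Wt w) (hA : Aᵀ = A) {N k1 k2 : ℝ} (hN0 : 0 ≤ N) (hN : NB w σ A N)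
  (h1 : 0 ≤ k1) (c1 : CB w σ k1) (h2 : 0 ≤ k2) (c2 : CB w (fA A σ) k2)
include h hw hA hN0 hN h1 c1 h2 c2

/-- (W) for `C` (cube frame, `rd_C`) -/
theorem Fam.c3_dir (v : ι → ℝ) : ∑ a, (v ⬝ᵥ c3 w σ (hq A (θ a) p σ) *ᵥ v) ^ 2 ≤
    Lam w σ p A N k1 k2 * var w fun x => (v ⬝ᵥ σ x - mean w fun x => v ⬝ᵥ σ x) ^ 2 := by
  have _ := hA
  simp only [dot_c3, sq (_ - mean _ _)]
  exact h.key3 hw hN0 hN h1 c1 h2 c2 _ _

/-- (W) for `A C A` (cube frame, `rd_ACA`) -/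
theorem Fam.dACA_dir (v : ι → ℝ) :
    ∑ a, (v ⬝ᵥ (dPhi w σ p A (θ a) + (θ a * A - A * θ a)) *ᵥ v) ^ 2 ≤
      3 * (Lam w σ p A N k1 k2 * var w (fun x => (v ⬝ᵥ fA A σ x - mean w fun x => v ⬝ᵥ fA A σ x) ^ 2) +
        8 * ((v ⬝ᵥ v) * ((A * covMat w σ * A) *ᵥ v ⬝ᵥ (A * covMat w σ * A) *ᵥ v)) +
        8 * (((covMat w σ * A) *ᵥ v ⬝ᵥ (covMat w σ * A) *ᵥ v) * (A *ᵥ v ⬝ᵥ A *ᵥ v))) := by
  have e : ∀ a, v ⬝ᵥ (dPhi w σ p A (θ a) + (θ a * A - A * θ a)) *ᵥ v =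
      cum3 w (fun x => v ⬝ᵥ fA A σ x) (fun x => v ⬝ᵥ fA A σ x) (hq A (θ a) p σ) +
        (2 * (v ⬝ᵥ θ a *ᵥ ((A * covMat w σ * A) *ᵥ v)) +
          2 * ((covMat w σ * A) *ᵥ v ⬝ᵥ θ a *ᵥ (A *ᵥ v))) := fun a => by
    rw [dPhi, add_mulVec, dotProduct_add, add_mulVec, dotProduct_add, dot_mul3, dot_c3, hA, dot_fA hA]
    have hC := covMat_transpose w σ
    generalize covMat w σ = C at *
    have b1 := skew_dot (h.skew a) v (A *ᵥ (C *ᵥ (A *ᵥ v)))
    have b2 := skew_dot (h.skew a) (A *ᵥ v) (C *ᵥ (A *ᵥ v))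
    simp only [sub_mulVec, add_mulVec, ← mulVec_mulVec, dotProduct_sub,
      dotProduct_add, mulVec_sub, symm_dot hA v, symm_dot hC (A *ᵥ v), symm_dot hA (C *ᵥ (A *ᵥ v))]
    linarith
  simp only [e, sq (_ - mean _ _)]
  refine sum_sq3_le _ _ _ (h.key3 hw hN0 hN h1 c1 h2 c2 _ _) ?_ ?_
  · simp only [mul_pow, ← Finset.mul_sum]; linarith [h.dot v ((A * covMat w σ * A) *ᵥ v)]
  · simp only [mul_pow, ← Finset.mul_sum]; linarith [h.dot ((covMat w σ * A) *ᵥ v) (A *ᵥ v)]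

/-- (F), weak variance of `A C A - A` -/
theorem Fam.dPhi_dir {a : ℝ} (a0 : 0 ≤ a) (ha : Op2 A a) (U : Matrix ι ι ℝ) :
    ∑ b, ipF U (dPhi w σ p A (θ b)) ^ 2 ≤ 2 * (Lam w σ p A N k1 k2 * NV (fA A σ) (fA A σ) U w +
      32 * (2 * (k2 * k2 + a) + a * (k2 * k1)) * fr U) := by
  have hC := covMat_transpose w σ
  have e : ∀ b, ipF U (dPhi w σ p A (θ b)) = cov w (qf w (fA A σ) (fA A σ) U) (hq A (θ b) p σ) +
      ipF (θ b) ((U * (A * covMat w σ * A - A) - (A * covMat w σ * A - A) * U) +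
        (covMat w σ * A * U * A - A * U * (A * covMat w σ))) := fun b => by
    have e1 : dPhi w σ p A (θ b) = A * c3 w σ (hq A (θ b) p σ) * A +
        ((1 * θ b * (A * covMat w σ * A - A) - (A * covMat w σ * A - A) * θ b * 1) +
          (A * covMat w σ * θ b * A - A * θ b * (covMat w σ * A))) := by
      simp only [dPhi, Matrix.mul_sub, Matrix.sub_mul, Matrix.mul_assoc, Matrix.one_mul, Matrix.mul_one]
      abel
    rw [e1, ipF_madd, c3_AA hA, cov_qf hw, ipF_madd, ipF_msub, ipF_msub, ipF_mul3 U, ipF_mul3 U, ipF_mul3 U,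
      ipF_mul3 U, ipF_madd, ipF_msub, ipF_msub]
    simp only [transpose_mul, transpose_sub, transpose_one, hA, hC, Matrix.one_mul, Matrix.mul_one,
      Matrix.mul_assoc]
    rfl
  simp only [e]
  refine (sum_sq2_le _ _ (h.key hw hN0 hN h1 c1 h2 c2 _) (h.bd4 _)).trans ?_
  have x1 := (op2_ACA hw hA h2 c2).sub ha
  have x2 : Op2 (A * covMat w σ * A - A)ᵀ (2 * (k2 * k2 + a)) := by
    simpa only [transpose_mul, transpose_sub, hA, hC, Matrix.mul_assoc] using x1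
  have y1 := op2_CA hw hA h1 c1 c2
  have y2 : Op2 (A * covMat w σ)ᵀ (k2 * k1) := by rwa [transpose_mul, hA, hC]
  have f1 := x1.fr_left U
  have f2 := x2.fr_right U
  have f3 := (Op2.fr_right (Q := A) (by rwa [hA]) (covMat w σ * A * U)).trans
    (mul_le_mul_of_nonneg_left (y1.fr_left U) a0)
  have f4 := (y2.fr_right (A * U)).trans (mul_le_mul_of_nonneg_left (ha.fr_left U) (by positivity))
  have f5 := fr_add_le (U * (A * covMat w σ * A - A) - (A * covMat w σ * A - A) * U)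
    (covMat w σ * A * U * A - A * U * (A * covMat w σ))
  have f6 := fr_sub_le (U * (A * covMat w σ * A - A)) ((A * covMat w σ * A - A) * U)
  have f7 := fr_sub_le (covMat w σ * A * U * A) (A * U * (A * covMat w σ))
  unfold NV
  linarith

/-- (F), weak variance of `(A C - 1) g` -/
theorem Fam.dX1_dir {a : ℝ} (ha : Op2 A a) (U : Matrix ι ι ℝ) :
    ∑ b, ipF U (dX1 w σ p A (θ b)) ^ 2 ≤ 2 * (Lam w σ p A N k1 k2 * NV (fA A σ) σ U w +
      16 * (2 * (k2 * k1) + k1 * k1 * a + 1) * fr U) := by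
  have hC := covMat_transpose w σ
  have e : ∀ b, ipF U (dX1 w σ p A (θ b)) = cov w (qf w (fA A σ) σ U) (hq A (θ b) p σ) +
      ipF (θ b) ((U * (covMat w σ * A) - A * U * covMat w σ) + (covMat w σ * A - 1) * U :
        Matrix ι ι ℝ) := fun b => by
    have e1 : dX1 w σ p A (θ b) = A * c3 w σ (hq A (θ b) p σ) +
        ((1 * θ b * (A * covMat w σ) - A * θ b * covMat w σ) + (A * covMat w σ - 1) * θ b * 1) := by
      simp only [dX1, Matrix.sub_mul, Matrix.mul_assoc, Matrix.one_mul, Matrix.mul_one]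
    rw [e1, ipF_madd, c3_A1 hA, cov_qf hw, ipF_madd, ipF_msub, ipF_mul3 U, ipF_mul3 U, ipF_mul3 U,
      ipF_madd, ipF_msub]
    simp only [transpose_mul, transpose_sub, transpose_one, hA, hC, Matrix.one_mul, Matrix.mul_one,
      Matrix.mul_assoc]
    rfl
  simp only [e]
  refine (sum_sq2_le _ _ (h.key hw hN0 hN h1 c1 h2 c2 _) (h.bd4 _)).trans ?_
  have y1 := op2_CA hw hA h1 c1 c2
  have y2 : Op2 (covMat w σ * A)ᵀ (k2 * k1) := by
    rw [transpose_mul, hA, hC]; exact op2_AC hw c1 h2 c2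
  have y3 : Op2 (covMat w σ)ᵀ (k1 * k1) := by rw [hC]; exact op2_C hw h1 c1
  have f1 := y2.fr_right U
  have f2 := (y3.fr_right (A * U)).trans (mul_le_mul_of_nonneg_left (ha.fr_left U) (by positivity))
  have f3 := (y1.sub Op2.one).fr_left U
  have f5 := fr_add_le (U * (covMat w σ * A) - A * U * covMat w σ) ((covMat w σ * A - 1) * U)
  have f6 := fr_sub_le (U * (covMat w σ * A)) (A * U * covMat w σ)
  unfold NV
  linarith

end OneDir

end Crest.Agent.T157.Od
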