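import Crest.Agent.T157.Weak_90
import Crest.Agent.T157.Bar_33

-- ▼ part T157/PathD_90
section

/-!
# Row 157, part C: the rescaled autocorrelations as random paths (helper90)

`An`, `Bn` (rescaled stationary and quench autocorrelations as plain real functions), `Rn` (Laplace
transform of `An` = rescaled resolvent trace), continuity in the couplings, measurability of
`toPath`, `toPathPair`, spectral form of `An` and `Rn`, variational formula for `Rn`, elementary
bounds (monotonicity, Lipschitz bound, Jensen lower bound, decay from a Poincaré inequality).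
-/

set_option autoImplicit false

noncomputable section

namespace Crest.Agent.T157.Soft

open MeasureTheory Filter Topology Set Matrix
open Crest.ProbabilityR.SpinGlassDynamics
open Crest.Agent.T157

/-- rescaled stationary autocorrelation -/
def An (n : ℕ) (g : Pair n → ℝ) (s : ℝ) : ℝ :=
  (n : ℝ) ^ (1 / 3 : ℝ) * autocorr n g (s * (n : ℝ) ^ (2 / 3 : ℝ))

/-- rescaled quench autocorrelation -/
def Bn (n : ℕ) (g : Pair n → ℝ) (s t : ℝ) : ℝ :=
  (n : ℝ) ^ (1 / 3 : ℝ) * quenchCorr n g (s * (n : ℝ) ^ (2 / 3 : ℝ)) (t * (n : ℝ) ^ (2 / 3 : ℝ))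

/-- rescaled resolvent trace `n^{-2/3} ∑ᵢ ⟨σᵢ, (a - n^{2/3} L)⁻¹ σᵢ⟩`, as a Laplace transform -/
def Rn (n : ℕ) (g : Pair n → ℝ) (a : ℝ) : ℝ := ∫ s in Ioi (0 : ℝ), Real.exp (-(a * s)) * An n g s

variable {n : ℕ}


/-! ### continuity in the couplings -/

lemma continuous_gibbsWeight (β : ℝ) (x : E.Cube n) :
    Continuous fun g : Pair n → ℝ => gibbsWeight n β g x := by
  unfold gibbsWeight; fun_prop

lemma continuous_gibbsProb (β : ℝ) (x : E.Cube n) :
    Continuous fun g : Pair n → ℝ => gibbsProb n β g x :=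
  (continuous_gibbsWeight β x).div (continuous_finsetSum _ fun y _ => continuous_gibbsWeight β y)
    fun g => (Finset.sum_pos (fun y _ => E.gibbsWeight_pos β g y) Finset.univ_nonempty).ne'

lemma continuous_heatBathKernel (β : ℝ) (x y : E.Cube n) :
    Continuous fun g : Pair n → ℝ => heatBathKernel n β g x y := by
  unfold heatBathKernel
  refine continuous_const.mul (continuous_finsetSum _ fun i _ => ?_)
  split_ifs
  · exact (continuous_gibbsWeight β y).div
      ((continuous_gibbsWeight β _).add (continuous_gibbsWeight β _))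
      fun g => (add_pos (E.gibbsWeight_pos β g _) (E.gibbsWeight_pos β g _)).ne'
  · exact continuous_const

lemma continuous_kernelPow (β : ℝ) (k : ℕ) (x y : E.Cube n) :
    Continuous fun g : Pair n → ℝ => kernelPow n β g k x y := by
  induction k generalizing y with
  | zero => exact continuous_const
  | succ k ih =>
    exact continuous_finsetSum _ fun z _ => (ih z).mul (continuous_heatBathKernel β z y)

lemma abs_kernelPow_le_one (β : ℝ) (g : Pair n → ℝ) (k : ℕ) (x y : E.Cube n) :
    |kernelPow n β g k x y| ≤ 1 := by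
  rcases Nat.eq_zero_or_pos n with rfl | hn
  · cases k with
    | zero => simp only [kernelPow]; split_ifs <;> simp
    | succ k => simp [kernelPow, heatBathKernel]
  · rw [E.kernelPow_eq, Bar.hbPow_eq hn (E.gibbsWeight_pos β g),
      abs_of_nonneg ((Bar.rc hn _).pow_nn k x y)]
    exact (Bar.rc hn _).pow_le_one k x y

lemma continuous_poisson_tsum {X : Type*} [TopologicalSpace X] {F : ℕ → X → ℝ} {t : X → ℝ}
    (hF : ∀ k, Continuous (F k)) (hb : ∀ k z, |F k z| ≤ 1) (ht : Continuous t) :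
    Continuous fun z => ∑' k : ℕ, Real.exp (-t z) * t z ^ k / (k.factorial : ℝ) * F k z := by
  rw [continuous_iff_continuousAt]
  intro p
  set T := |t p| + 1 with hT
  have ho : IsOpen {q | |t q| < T} := isOpen_lt (by fun_prop) continuous_const
  refine ContinuousOn.continuousAt (s := {q | |t q| < T}) ?_ (ho.mem_nhds (by simp [hT]))
  refine continuousOn_tsum (u := fun k : ℕ => Real.exp T * (T ^ k / (k.factorial : ℝ)))
    (fun k => ?_) ((Real.summable_pow_div_factorial _).mul_left _) (fun k z hz => ?_)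
  · have := hF k
    fun_prop
  · have hz' : |t z| ≤ T := le_of_lt hz
    rw [Real.norm_eq_abs, abs_mul, abs_div, abs_mul, Nat.abs_cast, abs_pow,
      abs_of_pos (Real.exp_pos _)]
    have h1 : Real.exp (-t z) ≤ Real.exp T := Real.exp_le_exp.2 ((neg_le_abs _).trans hz')
    calc Real.exp (-t z) * |t z| ^ k / (k.factorial : ℝ) * |F k z|
        ≤ Real.exp T * T ^ k / (k.factorial : ℝ) * 1 := by
          gcongr
          exact hb k z
      _ = _ := by ring

lemma continuous_ctKernel' {X : Type*} [TopologicalSpace X] {G : X → Pair n → ℝ} {t : X → ℝ}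
    (hG : Continuous G) (ht : Continuous t) (β : ℝ) (x y : E.Cube n) :
    Continuous fun z => ctKernel n β (G z) (t z) x y :=
  continuous_poisson_tsum (F := fun k z => kernelPow n β (G z) k x y) (t := fun z => n * t z)
    (fun k => (continuous_kernelPow β k x y).comp hG) (fun k _ => abs_kernelPow_le_one β _ k x y)
    (ht.const_mul _)


lemma continuous_An : Continuous fun p : (Pair n → ℝ) × ℝ => An n p.1 p.2 := by
  have h1 : ∀ x, Continuous fun p : (Pair n → ℝ) × ℝ => gibbsProb n 1 p.1 x := fun x =>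
    (continuous_gibbsProb 1 x).comp continuous_fst
  have h2 : ∀ x y, Continuous fun p : (Pair n → ℝ) × ℝ =>
      ctKernel n 1 p.1 (p.2 * (n : ℝ) ^ (2 / 3 : ℝ)) x y := fun x y =>
    continuous_ctKernel' continuous_fst (continuous_snd.mul continuous_const) 1 x y
  unfold An autocorr
  fun_prop

lemma continuous_Bn : Continuous fun p : (Pair n → ℝ) × ℝ × ℝ => Bn n p.1 p.2.1 p.2.2 := by
  have h1 : ∀ x y, Continuous fun p : (Pair n → ℝ) × ℝ × ℝ =>
      ctKernel n 1 p.1 (p.2.1 * (n : ℝ) ^ (2 / 3 : ℝ)) x y := fun x y =>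
    continuous_ctKernel' continuous_fst (continuous_snd.fst.mul continuous_const) 1 x y
  have h2 : ∀ x y, Continuous fun p : (Pair n → ℝ) × ℝ × ℝ =>
      ctKernel n 1 p.1 (p.2.2 * (n : ℝ) ^ (2 / 3 : ℝ)) x y := fun x y =>
    continuous_ctKernel' continuous_fst (continuous_snd.snd.mul continuous_const) 1 x y
  have h3 : ∀ (i : Fin n) (x y z : E.Cube n), Continuous fun p : (Pair n → ℝ) × ℝ × ℝ =>
      (Fintype.card (Fin n → Bool) : ℝ)⁻¹ * ctKernel n 1 p.1 (p.2.1 * (n : ℝ) ^ (2 / 3 : ℝ)) x y *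
        ctKernel n 1 p.1 (p.2.2 * (n : ℝ) ^ (2 / 3 : ℝ)) y z * spin (y i) * spin (z i) :=
    fun i x y z => ((((h1 x y).const_mul _).mul (h2 y z)).mul_const _).mul_const _
  unfold Bn quenchCorr
  exact ((continuous_finsetSum _ fun i _ => continuous_finsetSum _ fun x _ =>
    continuous_finsetSum _ fun y _ => continuous_finsetSum _ fun z _ =>
      h3 i x y z).const_mul _).const_mul _

lemma continuous_An_left (s : ℝ) : Continuous fun g : Pair n → ℝ => An n g s :=
  continuous_An.comp (f := fun g : Pair n → ℝ => (g, s)) (by fun_prop)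


lemma continuous_Bn_left (s t : ℝ) : Continuous fun g : Pair n → ℝ => Bn n g s t :=
  continuous_Bn.comp (f := fun g : Pair n → ℝ => (g, s, t)) (by fun_prop)

lemma continuous_autocorrPath : Continuous (autocorrPath n) :=
  ContinuousMap.continuous_of_continuous_uncurry _
    (continuous_An.comp (f := fun p : (Pair n → ℝ) × Ioi (0 : ℝ) => (p.1, p.2.1)) (by fun_prop))

lemma continuous_quenchPath : Continuous (quenchPath n) :=
  ContinuousMap.continuous_of_continuous_uncurry _
    (continuous_Bn.comp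
      (f := fun p : (Pair n → ℝ) × Ioi (0 : ℝ) × Ioi (0 : ℝ) => (p.1, p.2.1.1, p.2.2.1))
      (by fun_prop))

lemma continuous_toPath : Continuous (toPath n) := continuous_autocorrPath

lemma continuous_toPathPair : Continuous (toPathPair n) :=
  continuous_autocorrPath.prodMk continuous_quenchPath

lemma measurable_toPath : Measurable (toPath n) := continuous_toPath.measurable

lemma measurable_toPathPair : Measurable (toPathPair n) := continuous_toPathPair.measurable


instance : LocallyCompactSpace (Ioi (0 : ℝ)) := isOpen_Ioi.locallyCompactSpace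

instance : PolishSpace Path := inferInstanceAs (PolishSpace C(Ioi (0 : ℝ), ℝ))

instance : PolishSpace PathPair :=
  inferInstanceAs (PolishSpace (C(Ioi (0 : ℝ), ℝ) × C(Ioi (0 : ℝ) × Ioi (0 : ℝ), ℝ)))

/-! ### spectral form -/

/-- the heat-bath chain of the critical SK weight -/
abbrev ch (hn : 0 < n) (g : Pair n → ℝ) : Chain22.RC (E.Cube n) :=
  Bar.rc hn (E.gibbsWeight_pos 1 g)

/-- the spin at site `i` -/
def sp (i : Fin n) : E.Cube n → ℝ := fun x => spin (x i)

lemma rpow_third (hn : 0 < n) : (n : ℝ) ^ (1 / 3 : ℝ) * (1 / n) = ((n : ℝ) ^ (2 / 3 : ℝ))⁻¹ := by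
  have h : (0 : ℝ) < n := by exact_mod_cast hn
  have h1 : (n : ℝ) ^ (1 / 3 : ℝ) * (n : ℝ) ^ (2 / 3 : ℝ) = n := by
    rw [← Real.rpow_add h]; norm_num
  have h2 : (0 : ℝ) < (n : ℝ) ^ (2 / 3 : ℝ) := by positivity
  field_simp
  exact h1

lemma An_eq_ip (hn : 0 < n) (g : Pair n → ℝ) (s : ℝ) :
    An n g s = ((n : ℝ) ^ (2 / 3 : ℝ))⁻¹ * ∑ i, Chain22.ip (ch hn g).π (sp i)
      ((ch hn g).H (n * (s * (n : ℝ) ^ (2 / 3 : ℝ))) *ᵥ sp i) := by
  rw [An, autocorr, ← mul_assoc, rpow_third hn]
  congr 1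
  refine Finset.sum_congr rfl fun i _ => Finset.sum_congr rfl fun x _ => ?_
  simp only [mulVec, dotProduct, Finset.mul_sum, E.ctKernel_eq,
    Bar.hbCt_eq hn (E.gibbsWeight_pos 1 g), sp]
  refine Finset.sum_congr rfl fun y _ => ?_
  have : gibbsProb n 1 g x = (ch hn g).π x := rfl
  rw [this]
  ring

/-- spectral weights of `An` -/
def cA (hn : 0 < n) (g : Pair n → ℝ) (j : E.Cube n) : ℝ :=
  ((n : ℝ) ^ (2 / 3 : ℝ))⁻¹ * ∑ i, Chain22.ip (ch hn g).π (sp i) ((ch hn g).φ j) ^ 2

/-- rescaled eigenvalues of the generator -/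
def lA (hn : 0 < n) (g : Pair n → ℝ) (j : E.Cube n) : ℝ :=
  (n : ℝ) ^ (2 / 3 : ℝ) * (n * (1 - (ch hn g).ev j))

lemma cA_nonneg (hn : 0 < n) (g : Pair n → ℝ) (j : E.Cube n) : 0 ≤ cA hn g j := by
  unfold cA; positivity

lemma lA_nonneg (hn : 0 < n) (g : Pair n → ℝ) (j : E.Cube n) : 0 ≤ lA hn g j := by
  have := sub_nonneg.2 ((ch hn g).ev_le_one j)
  unfold lA; positivity

lemma An_eq_sum (hn : 0 < n) (g : Pair n → ℝ) (s : ℝ) :
    An n g s = ∑ j, cA hn g j * Real.exp (-(s * lA hn g j)) := by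
  rw [An_eq_ip hn]
  simp only [Chain22.RC.ip_H_spec, cA, lA, mul_assoc, ← Finset.mul_sum]
  congr 1
  rw [Finset.sum_comm]
  refine Finset.sum_congr rfl fun j _ => ?_
  rw [Finset.sum_mul]
  refine Finset.sum_congr rfl fun i _ => ?_
  rw [sq, mul_comm]
  congr 3
  ring

lemma integral_exp_sum {J : Type*} [Fintype J] (c lam : J → ℝ) (hl : ∀ j, 0 ≤ lam j) {a : ℝ}
    (ha : 0 < a) : ∫ s in Ioi (0 : ℝ), Real.exp (-(a * s)) * ∑ j, c j * Real.exp (-(s * lam j)) =
      ∑ j, c j / (a + lam j) := by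
  have e : ∀ s : ℝ, Real.exp (-(a * s)) * ∑ j, c j * Real.exp (-(s * lam j)) =
      ∑ j, c j * Real.exp (-(a + lam j) * s) := fun s => by
    rw [Finset.mul_sum]
    refine Finset.sum_congr rfl fun j _ => ?_
    rw [mul_left_comm, ← Real.exp_add]
    congr 2; ring
  simp_rw [e]
  rw [integral_finsetSum _ fun j _ =>
    (exp_neg_integrableOn_Ioi 0 (add_pos_of_pos_of_nonneg ha (hl j))).const_mul (c j)]
  refine Finset.sum_congr rfl fun j _ => ?_
  have h : -(a + lam j) < 0 := by linarith [hl j]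
  rw [integral_const_mul, integral_exp_mul_Ioi h]
  simp only [mul_zero, Real.exp_zero]
  rw [neg_div_neg_eq, mul_one_div]

lemma Rn_eq_sum (hn : 0 < n) (g : Pair n → ℝ) {a : ℝ} (ha : 0 < a) :
    Rn n g a = ∑ j, cA hn g j / (a + lA hn g j) := by
  simp only [Rn, An_eq_sum hn]
  exact integral_exp_sum _ _ (lA_nonneg hn g) ha

lemma An_zero (g : Pair 0 → ℝ) (s : ℝ) : An 0 g s = 0 := by simp [An, autocorr]

/-- `An` is a finite positive combination of exponentials and `Rn` its Laplace transform -/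
theorem An_spec (g : Pair n → ℝ) : ∃ c lam : E.Cube n → ℝ, (∀ j, 0 ≤ c j) ∧ (∀ j, 0 ≤ lam j) ∧
    (∀ s, An n g s = ∑ j, c j * Real.exp (-(s * lam j))) ∧
    ∀ a, 0 < a → Rn n g a = ∑ j, c j / (a + lam j) := by
  rcases Nat.eq_zero_or_pos n with rfl | hn
  · exact ⟨0, 0, fun _ => le_rfl, fun _ => le_rfl, fun s => by simp [An_zero],
      fun a _ => by simp [Rn, An_zero]⟩
  · exact ⟨_, _, cA_nonneg hn g, lA_nonneg hn g, An_eq_sum hn g, fun a => Rn_eq_sum hn g⟩

lemma An_nonneg (g : Pair n → ℝ) (s : ℝ) : 0 ≤ An n g s := by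
  obtain ⟨c, lam, hc, -, h, -⟩ := An_spec g
  rw [h]
  exact Finset.sum_nonneg fun j _ => mul_nonneg (hc j) (Real.exp_pos _).le


lemma An_anti (g : Pair n → ℝ) : Antitone (An n g) := by
  obtain ⟨c, lam, hc, hl, h, -⟩ := An_spec g
  intro s t hst
  rw [h, h]
  refine Finset.sum_le_sum fun j _ => mul_le_mul_of_nonneg_left (Real.exp_le_exp.2 ?_) (hc j)
  nlinarith [hl j]

/-- Lipschitz bound away from `0` -/
lemma An_lip (g : Pair n → ℝ) {a s t : ℝ} (ha : 0 < a) (hs : a ≤ s) (ht : a ≤ t) :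
    |An n g s - An n g t| ≤ 2 / a * An n g (a / 2) * |s - t| := by
  wlog hst : s ≤ t generalizing s t
  · rw [abs_sub_comm, abs_sub_comm s]; exact this ht hs (le_of_not_ge hst)
  obtain ⟨c, lam, hc, hl, h, -⟩ := An_spec g
  rw [abs_of_nonneg (sub_nonneg.2 (An_anti g hst)), abs_sub_comm, abs_of_nonneg (sub_nonneg.2 hst),
    h, h, h, ← Finset.sum_sub_distrib, Finset.mul_sum, Finset.sum_mul]
  refine Finset.sum_le_sum fun j _ => ?_
  have hj := hl j
  have h1 : Real.exp (-(s * lam j)) - Real.exp (-(t * lam j)) ≤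
      Real.exp (-(s * lam j)) * ((t - s) * lam j) := by
    have e : Real.exp (-(t * lam j)) = Real.exp (-(s * lam j)) * Real.exp (-((t - s) * lam j)) := by
      rw [← Real.exp_add]; congr 1; ring
    have := Real.add_one_le_exp (-((t - s) * lam j))
    rw [e]
    nlinarith [Real.exp_pos (-(s * lam j))]
  have h2 : Real.exp (-(s * lam j)) * lam j ≤ 2 / a * Real.exp (-(a / 2 * lam j)) := by
    have e1 : Real.exp (-(s * lam j)) ≤
        Real.exp (-(a / 2 * lam j)) * Real.exp (-(a / 2 * lam j)) := by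
      rw [← Real.exp_add]; exact Real.exp_le_exp.2 (by nlinarith)
    have e2 : Real.exp (-(a / 2 * lam j)) * (a / 2 * lam j) ≤ 1 := by
      rw [Real.exp_neg, inv_mul_le_iff₀ (Real.exp_pos _)]
      linarith [Real.add_one_le_exp (a / 2 * lam j)]
    have e3 : Real.exp (-(a / 2 * lam j)) * lam j ≤ 2 / a := by
      rw [le_div_iff₀ ha]; nlinarith
    calc Real.exp (-(s * lam j)) * lam j
        ≤ Real.exp (-(a / 2 * lam j)) * Real.exp (-(a / 2 * lam j)) * lam j := by gcongr
      _ = Real.exp (-(a / 2 * lam j)) * lam j * Real.exp (-(a / 2 * lam j)) := by ring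
      _ ≤ _ := by gcongr
  have h3 : 0 ≤ t - s := sub_nonneg.2 hst
  calc c j * Real.exp (-(s * lam j)) - c j * Real.exp (-(t * lam j))
      = c j * (Real.exp (-(s * lam j)) - Real.exp (-(t * lam j))) := by ring
    _ ≤ c j * (Real.exp (-(s * lam j)) * lam j * (t - s)) := by
        refine mul_le_mul_of_nonneg_left (h1.trans (le_of_eq (by ring))) (hc j)
    _ ≤ c j * (2 / a * Real.exp (-(a / 2 * lam j)) * (t - s)) := by gcongr; exact hc j
    _ = _ := by ring



end Crest.Agent.T157.Soft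

end
end

-- ▼ part T157/PathA_90

/-!
# Row 157, part C: the soft top of S0232 (helper90)

`s0232_of_fdd`: finite-dimensional convergence of `An`, tightness at each time and three
non-degeneracy properties (for the Gaussian couplings) give the statement S0232.
`s0232_of_res`: the same from joint convergence of the resolvent values `Rn`.
-/

set_option autoImplicit false

noncomputable section

namespace Crest.Agent.T157.Soft

open MeasureTheory Filter Topology Set BoundedContinuousFunction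
open Crest.ProbabilityR.SpinGlassDynamics
open Crest.Agent.T157

/-- finite-dimensional convergence of `An`, same limit for both coupling laws -/
def AFddStmt : Prop := ∀ φ : (Ioi (0 : ℝ) → ℝ) → ℝ, IsCyl φ → ∃ L, ∀ b,
  Tendsto (fun n => ∫ g, φ (fun s => An n g s) ∂couplingLaw b n) atTop (𝓝 L)


/-- tightness of `An` at every positive time -/
def ATightStmt : Prop := ∀ (b : Bool) (s ε : ℝ), 0 < s → 0 < ε → ∃ M : ℝ, ∀ᶠ n in atTop,
  couplingLaw b n {g | M < An n g s} ≤ ENNReal.ofReal ε


/-- the limit path is not zero -/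
def NonzeroStmt : Prop := ∀ ε : ℝ, 0 < ε → ∃ s δ : ℝ, 0 < s ∧ 0 < δ ∧ ∃ᶠ n in atTop,
  disorderLaw n {g | An n g s < δ} ≤ ENNReal.ofReal ε

/-- the limit path tends to zero -/
def DecayStmt : Prop := ∀ ε : ℝ, 0 < ε → ∃ s : ℝ, 0 < s ∧ ∃ᶠ n in atTop,
  disorderLaw n {g | ε < An n g s} ≤ ENNReal.ofReal ε

/-- the limit law is not a point mass -/
def SpreadStmt : Prop := ∃ s a a' c : ℝ, 0 < s ∧ a < a' ∧ 0 < c ∧
  (∃ᶠ n in atTop, ENNReal.ofReal c ≤ disorderLaw n {g | An n g s ≤ a}) ∧
  ∃ᶠ n in atTop, ENNReal.ofReal c ≤ disorderLaw n {g | a' ≤ An n g s}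

/-- `An` at some time has unbounded support in the limit -/
def UnboundedStmt : Prop := ∃ s : ℝ, 0 < s ∧ ∀ M : ℝ, ∃ c : ℝ, 0 < c ∧ ∃ᶠ n in atTop,
  ENNReal.ofReal c ≤ disorderLaw n {g | M ≤ An n g s}



theorem spread_of_unbounded (ht : ATightStmt) (h : UnboundedStmt) : SpreadStmt := by
  obtain ⟨s, hs, h⟩ := h
  obtain ⟨M, hM⟩ := ht false s (1 / 2) hs (by norm_num)
  obtain ⟨c, hc, hc'⟩ := h (M + 1)
  refine ⟨s, M, M + 1, min c (1 / 2), hs, by linarith, by positivity,
    (hM.mono fun n hn => ?_).frequently, hc'.mono fun n hn =>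
      le_trans (ENNReal.ofReal_le_ofReal (min_le_left _ _)) hn⟩
  refine le_trans (ENNReal.ofReal_le_ofReal (min_le_right _ _)) ?_
  have hm : MeasurableSet {g : Pair n → ℝ | M < An n g s} :=
    measurableSet_lt measurable_const (continuous_An_left s).measurable
  have e : {g : Pair n → ℝ | An n g s ≤ M} = {g | M < An n g s}ᶜ := by ext g; simp
  rw [e, prob_compl_eq_one_sub hm]
  refine ENNReal.le_sub_of_add_le_right (measure_ne_top _ _) ?_
  calc ENNReal.ofReal (1 / 2) + disorderLaw n {g | M < An n g s}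
      ≤ ENNReal.ofReal (1 / 2) + ENNReal.ofReal (1 / 2) := add_le_add le_rfl hn
    _ = 1 := by rw [← ENNReal.ofReal_add (by norm_num) (by norm_num)]; norm_num

/-- compact exhaustion of `(0, ∞)` -/
def Kx (j : ℕ) : Set (Ioi (0 : ℝ)) := {s | 1 / ((j : ℝ) + 1) ≤ s.1 ∧ s.1 ≤ j + 1}

lemma isCompact_sub_Icc {a : ℝ} (ha : 0 < a) (b : ℝ) :
    IsCompact {s : Ioi (0 : ℝ) | a ≤ s.1 ∧ s.1 ≤ b} := by
  rw [Subtype.isCompact_iff]
  convert isCompact_Icc (a := a) (b := b) using 1
  ext x
  constructor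
  · rintro ⟨s, hs, rfl⟩; exact hs
  · intro hx; exact ⟨⟨x, ha.trans_le hx.1⟩, hx, rfl⟩

lemma isCompact_Kx (j : ℕ) : IsCompact (Kx j) := isCompact_sub_Icc Nat.one_div_pos_of_nat _

lemma Kx_eventually (x : Ioi (0 : ℝ)) : ∀ᶠ j in atTop, Kx j ∈ 𝓝 x := by
  have h1 : ∀ᶠ j : ℕ in atTop, 1 / ((j : ℝ) + 1) < x.1 :=
    tendsto_one_div_add_atTop_nhds_zero_nat.eventually (gt_mem_nhds x.2)
  have h2 : ∀ᶠ j : ℕ in atTop, x.1 < (j : ℝ) + 1 :=
    (tendsto_atTop_add_const_right _ 1 tendsto_natCast_atTop_atTop).eventually_gt_atTop x.1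
  filter_upwards [h1, h2] with j hj hj'
  exact continuous_subtype_val.continuousAt.preimage_mem_nhds (Icc_mem_nhds hj hj')

/-- the laws of the paths `An` are tight -/
theorem isTight_toPath (ht : ATightStmt) (b : Bool) :
    IsTightMeasureSet {(couplingLaw b n).map (toPath n) | n} := by
  let _ : MeasurableSpace C(Ioi (0 : ℝ), ℝ) := (inferInstance : MeasurableSpace Path)
  have : BorelSpace C(Ioi (0 : ℝ), ℝ) := (inferInstance : BorelSpace Path)
  have key : ∀ (n : ℕ) (S : Set Path), IsOpen S →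
      (couplingLaw b n).map (toPath n) S = couplingLaw b n (toPath n ⁻¹' S) := fun n S hS =>
    Measure.map_apply measurable_toPath hS.measurableSet
  let μ : ℕ → Measure C(Ioi (0 : ℝ), ℝ) := fun n => (couplingLaw b n).map (toPath n)
  have : ∀ n, IsFiniteMeasure (μ n) := fun n =>
    (inferInstance : IsFiniteMeasure ((couplingLaw b n).map (toPath n)))
  refine isTight_of_modulus Kx isCompact_Kx (fun x => (Kx_eventually x).exists) μ
    (fun j ε hε => ?_) (fun j η ε hη hε => ?_)
  · obtain ⟨ε', -, hε', hle⟩ := ENNReal.lt_iff_exists_real_btwn.1 hε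
    obtain ⟨M, hM⟩ := ht b (1 / ((j : ℝ) + 1)) ε' Nat.one_div_pos_of_nat
      (ENNReal.ofReal_pos.1 hε')
    refine ⟨M, hM.mono fun n hn => (key n _ ?_).trans_le ?_⟩
    swap
    · refine le_trans (measure_mono ?_) (hn.trans hle.le)
      rintro g ⟨x, hx, h⟩
      have h' : M < |An n g x| := h
      rw [abs_of_nonneg (An_nonneg g _)] at h'
      exact h'.trans_le (An_anti g hx.1)
    · change IsOpen {f : C(Ioi (0 : ℝ), ℝ) | ∃ x ∈ Kx j, M < |f x|}
      simp only [ofPred_exists, ofPred_and]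
      exact isOpen_iUnion fun x => isOpen_const.inter (isOpen_lt (by fun_prop) (by fun_prop))
  · obtain ⟨ε', -, hε', hle⟩ := ENNReal.lt_iff_exists_real_btwn.1 hε
    have ha : (0 : ℝ) < 1 / ((j : ℝ) + 1) := Nat.one_div_pos_of_nat
    set a : ℝ := 1 / ((j : ℝ) + 1)
    obtain ⟨M, hM⟩ := ht b (a / 2) ε' (by positivity) (ENNReal.ofReal_pos.1 hε')
    have hM1 : 0 < max M 1 := lt_of_lt_of_le one_pos (le_max_right _ _)
    refine ⟨η / (2 / a * max M 1), by positivity, hM.mono fun n hn => (key n _ ?_).trans_le ?_⟩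
    swap
    · refine le_trans (measure_mono ?_) (hn.trans hle.le)
      rintro g ⟨x, hx, y, hy, hd, h⟩
      have h' : η < |An n g x - An n g y| := h
      by_contra hcon
      have h1 : An n g (a / 2) ≤ max M 1 := (not_lt.1 hcon).trans (le_max_left _ _)
      have h2 := An_lip g ha hx.1 hy.1
      have h3 : |x.1 - y.1| < η / (2 / a * max M 1) := hd
      rw [lt_div_iff₀ (by positivity)] at h3
      have h4 : 2 / a * An n g (a / 2) * |x.1 - y.1| ≤ 2 / a * max M 1 * |x.1 - y.1| := by gcongr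
      linarith
    · change IsOpen {f : C(Ioi (0 : ℝ), ℝ) | ∃ x ∈ Kx j, ∃ y ∈ Kx j, dist x y < _ ∧ η < |f x - f y|}
      simp only [ofPred_exists, ofPred_and]
      exact isOpen_iUnion fun x => isOpen_const.inter (isOpen_iUnion fun y => isOpen_const.inter
        (isOpen_const.inter (isOpen_lt (by fun_prop) (by fun_prop))))

/-- portmanteau along a subsequence, open sets -/
lemma measure_open_le {X : Type*} [TopologicalSpace X] [PolishSpace X] [MeasurableSpace X]
    [BorelSpace X] {μ : ℕ → ProbabilityMeasure X} {Q : ProbabilityMeasure X}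
    (h : Tendsto μ atTop (𝓝 Q)) {S : Set X} (hS : IsOpen S) {c : ENNReal}
    (hc : ∃ᶠ n in atTop, (μ n : Measure X) S ≤ c) : (Q : Measure X) S ≤ c := by
  let _ := TopologicalSpace.upgradeIsCompletelyMetrizable X
  exact (ProbabilityMeasure.le_liminf_measure_open_of_tendsto h hS).trans
    (liminf_le_of_frequently_le hc)

/-- portmanteau along a subsequence, closed sets -/
lemma le_measure_closed {X : Type*} [TopologicalSpace X] [PolishSpace X] [MeasurableSpace X]
    [BorelSpace X] {μ : ℕ → ProbabilityMeasure X} {Q : ProbabilityMeasure X}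
    (h : Tendsto μ atTop (𝓝 Q)) {S : Set X} (hS : IsClosed S) {c : ENNReal}
    (hc : ∃ᶠ n in atTop, c ≤ (μ n : Measure X) S) : c ≤ (Q : Measure X) S := by
  let _ := TopologicalSpace.upgradeIsCompletelyMetrizable X
  exact (le_limsup_of_frequently_le hc).trans
    (ProbabilityMeasure.limsup_measure_closed_le_of_tendsto h hS)

lemma continuous_path_eval (s : Ioi (0 : ℝ)) : Continuous fun f : Path => f s :=
  continuous_eval_const (F := C(Ioi (0 : ℝ), ℝ)) s

/-- the law of `toPath n` -/
def lawA (b : Bool) (n : ℕ) : ProbabilityMeasure Path :=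
  ⟨(couplingLaw b n).map (toPath n), Measure.isProbabilityMeasure_map measurable_toPath.aemeasurable⟩

lemma lawA_apply (b : Bool) (n : ℕ) {S : Set Path} (hS : MeasurableSet S) :
    (lawA b n : Measure Path) S = couplingLaw b n (toPath n ⁻¹' S) :=
  Measure.map_apply measurable_toPath hS

lemma eq_zero_of_forall_le {x : ENNReal} (h : ∀ ε : ℝ, 0 < ε → x ≤ ENNReal.ofReal ε) : x = 0 := by
  refine le_antisymm (ENNReal.le_of_forall_pos_le_add fun ε hε _ => ?_) bot_le
  simpa using h ε hε

/-- **S0232 from finite-dimensional convergence.** -/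
theorem s0232_of_fdd (h1 : AFddStmt) (h2 : ATightStmt) (h3 : NonzeroStmt) (h4 : DecayStmt)
    (h5 : SpreadStmt) :
    ∃ Q : Measure Path, IsProbabilityMeasure Q ∧ (¬ ∃ f : Path, Q = Measure.dirac f) ∧
      (∀ᶠ f in ae Q, (∀ s, 0 ≤ f s) ∧ (∃ s, f s ≠ 0) ∧ (∀ s s', s ≤ s' → f s' ≤ f s) ∧
        Tendsto (fun s => f s) atTop (𝓝 0)) ∧
      ∀ (b : Bool) (F : Path →ᵇ ℝ),
        Tendsto (fun n : ℕ => ∫ g, F (toPath n g) ∂(couplingLaw b n)) atTop (𝓝 (∫ f, F f ∂Q)) := by
  obtain ⟨Q, hQ⟩ := exists_weak_limit (fun (f : Path) (s : Ioi (0 : ℝ)) => f s) continuous_path_eval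
    DFunLike.coe_injective lawA (isTight_toPath h2) fun φ hφ => by
      obtain ⟨L, hL⟩ := h1 φ hφ
      refine ⟨L, fun b => (hL b).congr fun n => ?_⟩
      exact (integral_map measurable_toPath.aemeasurable
        (hφ.continuous.comp (continuous_pi continuous_path_eval)).aestronglyMeasurable).symm
  have hopen : ∀ (S : Set Path) (c : ENNReal), IsOpen S →
      (∃ᶠ n in atTop, disorderLaw n (toPath n ⁻¹' S) ≤ c) → (Q : Measure Path) S ≤ c :=
    fun S c hS hc => measure_open_le (hQ false) hS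
      (hc.mono fun n hn => by rw [lawA_apply _ _ hS.measurableSet]; exact hn)
  have hclosed : ∀ (S : Set Path) (c : ENNReal), IsClosed S →
      (∃ᶠ n in atTop, c ≤ disorderLaw n (toPath n ⁻¹' S)) → c ≤ (Q : Measure Path) S :=
    fun S c hS hc => le_measure_closed (hQ false) hS
      (hc.mono fun n hn => by rw [lawA_apply _ _ hS.measurableSet]; exact hn)
  have hmono : ∀ᵐ f ∂(Q : Measure Path), (∀ s, 0 ≤ f s) ∧ ∀ s s', s ≤ s' → f s' ≤ f s := by
    rw [ae_iff]
    refine le_antisymm (hopen _ 0 ?_ (Eventually.of_forall fun n => ?_).frequently) bot_le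
    · refine IsClosed.isOpen_compl (s := {f : Path | (∀ s, 0 ≤ f s) ∧ ∀ s s', s ≤ s' → f s' ≤ f s})
        (self := ?_)
      simp only [ofPred_and, ofPred_forall]
      exact (isClosed_iInter fun s => isClosed_le continuous_const (continuous_path_eval s)).inter
        (isClosed_iInter fun s => isClosed_iInter fun s' => isClosed_iInter fun _ =>
          isClosed_le (continuous_path_eval s') (continuous_path_eval s))
    · refine le_of_eq (measure_mono_null (t := ∅) (fun g hg => hg ?_) measure_empty)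
      exact ⟨fun s => An_nonneg g s, fun s s' h => An_anti g h⟩
  have hne : ∀ᵐ f ∂(Q : Measure Path), ∃ s, f s ≠ 0 := by
    rw [ae_iff]
    refine eq_zero_of_forall_le fun ε hε => ?_
    obtain ⟨s, δ, hs, hδ, h⟩ := h3 ε hε
    refine le_trans (measure_mono fun f hf => ?_) (hopen {f | f ⟨s, hs⟩ < δ} _
      (isOpen_lt (continuous_path_eval _) continuous_const) h)
    simp only [ne_eq, not_exists, not_not, mem_ofPred_eq] at hf ⊢
    rw [hf]; exact hδ
  have hdec : ∀ᵐ f ∂(Q : Measure Path), ∀ k : ℕ, ∃ s, f s ≤ 1 / ((k : ℝ) + 1) := by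
    rw [ae_all_iff]
    intro k
    rw [ae_iff]
    refine eq_zero_of_forall_le fun ε hε => ?_
    have hk : (0 : ℝ) < 1 / ((k : ℝ) + 1) := Nat.one_div_pos_of_nat
    obtain ⟨s, hs, h⟩ := h4 (min ε (1 / ((k : ℝ) + 1))) (lt_min hε hk)
    refine le_trans (measure_mono fun f hf => ?_) ((hopen {f | min ε (1 / ((k : ℝ) + 1)) < f ⟨s, hs⟩}
      _ (isOpen_lt continuous_const (continuous_path_eval _)) h).trans
        (ENNReal.ofReal_le_ofReal (min_le_left _ _)))
    simp only [not_exists, not_le, mem_ofPred_eq] at hf ⊢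
    exact (min_le_right _ _).trans_lt (hf _)
  refine ⟨Q, inferInstance, ?_, ?_, fun b F => ?_⟩
  · rintro ⟨f, hf⟩
    obtain ⟨s, a, a', c, hs, haa, hc, hl, hu⟩ := h5
    have e1 := hclosed {f | f ⟨s, hs⟩ ≤ a} _ (isClosed_le (continuous_path_eval _) continuous_const) hl
    have e2 := hclosed {f | a' ≤ f ⟨s, hs⟩} _ (isClosed_le continuous_const (continuous_path_eval _)) hu
    have hc' : ENNReal.ofReal c ≠ 0 := (ENNReal.ofReal_pos.2 hc).ne'
    rw [hf] at e1 e2
    have key : ∀ S : Set Path, IsClosed S → ENNReal.ofReal c ≤ Measure.dirac f S → f ∈ S := by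
      intro S hS h
      by_contra hf
      rw [Measure.dirac_apply' _ hS.measurableSet, indicator_of_notMem hf] at h
      exact hc' (le_antisymm h bot_le)
    have k1 := key _ (isClosed_le (continuous_path_eval _) continuous_const) e1
    have k2 := key _ (isClosed_le continuous_const (continuous_path_eval _)) e2
    exact absurd (le_trans k2 k1) (not_le.2 haa)
  · filter_upwards [hmono, hne, hdec] with f hf hf' hf''
    refine ⟨hf.1, hf', hf.2, ?_⟩
    rw [Metric.tendsto_atTop]
    intro ε hε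
    obtain ⟨k, hk⟩ := exists_nat_one_div_lt hε
    obtain ⟨s, hs⟩ := hf'' k
    refine ⟨s, fun s' hs' => ?_⟩
    rw [Real.dist_eq, sub_zero, abs_of_nonneg (hf.1 s')]
    exact ((hf.2 s s' hs').trans hs).trans_lt hk
  · refine ((ProbabilityMeasure.tendsto_iff_forall_integral_tendsto.1 (hQ b)) F).congr fun n => ?_
    exact integral_map measurable_toPath.aemeasurable F.continuous.aestronglyMeasurable


end Crest.Agent.T157.Soft

end
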