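import Crest.Agent.T157.CascDef_65
import Crest.Agent.R339.Guerra

/-!
# Row 157: polynomial-rate Parisi lower bound — definitions and interface statements (helper78)
-/

set_option autoImplicit false
set_option linter.unusedSectionVars false

noncomputable section

namespace Crest.Agent.T157.Plb

open MeasureTheory Real
open Crest.Agent.T157.E Crest.Agent.T157.Casc Crest.Agent.T157.SL
open Crest.ProbabilityR.SpinGlassDynamics

/-! ### comparison of a cascade with an extension -/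

section ext
variable {Ω Ω' : Type}

/-- a level pulled back along `pr` -/
abbrev pull (pr : Ω' → Ω) (l : Lv Ω) : Lv Ω' := ⟨l.ι, fun x => l.A (pr x), l.m⟩

/-- the shared levels -/
def base : List (Lv Ω ⊕ Lv Ω') → List (Lv Ω)
  | [] => []
  | .inl l :: M => l :: base M
  | .inr _ :: M => base M

/-- the extended list: shared levels pulled back, extra levels kept -/
def extL (pr : Ω' → Ω) : List (Lv Ω ⊕ Lv Ω') → List (Lv Ω')
  | [] => []
  | .inl l :: M => pull pr l :: extL pr M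
  | .inr l :: M => l :: extL pr M

/-- exponents are monotone; an extra level repeats the previous exponent, keeps the class `C`
and uses part of the variance budget `V` -/
def Adm (C : (Ω' → ℝ) → Prop) : ℝ → ℝ → List (Lv Ω ⊕ Lv Ω') → Prop
  | m0, V, [] => m0 ≤ 1 ∧ 0 ≤ V
  | m0, V, .inl l :: M => m0 ≤ l.m ∧ Adm C l.m V M
  | m0, V, .inr l :: M => l.m = m0 ∧ (∀ b g, C b → C (b + l.fld g)) ∧
      ∃ v, (∀ x, l.cov x x ≤ v) ∧ Adm C m0 (V - v) M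

/-- domination of kernels at the positions which carry a coefficient -/
def Rel (pr : Ω' → Ω) : List (Lv Ω ⊕ Lv Ω') → (ℕ → Ω' → Ω' → ℝ) → (ℕ → Ω → Ω → ℝ) → Prop
  | [], K', K => ∀ x y, K' 0 x y ≤ K 0 (pr x) (pr y)
  | .inl _ :: M, K', K => (∀ x y, K' 0 x y ≤ K 0 (pr x) (pr y)) ∧
      Rel pr M (fun j => K' (j + 1)) (fun j => K (j + 1))
  | .inr _ :: M, K', K => Rel pr M (fun j => K' (j + 1)) K

end ext

/-- **density bound**: the two-replica functional of the extension is dominated by the one of the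
base cascade -/
def DenStmt : Prop :=
  ∀ (Ω Ω' : Type) [Fintype Ω] [Fintype Ω'] [DecidableEq Ω] [Nonempty Ω] [Nonempty Ω']
    (pr : Ω' → Ω) (r : ℕ), (∀ s, (Finset.univ.filter fun x => pr x = s).card ≤ r) →
    ∀ (C : (Ω' → ℝ) → Prop) (κ : ℝ), 0 ≤ κ →
    (∀ (h : Ω → ℝ) (b : Ω' → ℝ), C b →
      X (fun _ => 1) [] h - κ ≤ X (fun _ => 1) [] (fun x => h (pr x) + b x)) →
    ∀ (M : List (Lv Ω ⊕ Lv Ω')) (V : ℝ), Adm C 0 V M →
    ∀ (K' : ℕ → Ω' → Ω' → ℝ) (K : ℕ → Ω → Ω → ℝ), Rel pr M K' K → (∀ j x y, 0 ≤ K j x y) →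
    ∀ (h : Ω → ℝ) (b : Ω' → ℝ) (B : ℝ), C b → (∀ x, b x ≤ B) →
      pair (fun _ => 1) (extL pr M) 0 K' (fun x => h (pr x) + b x) ≤
        (r : ℝ) ^ 2 * exp (2 * B + 2 * V + 2 * κ) * pair (fun _ => 1) (base M) 0 K h

/-- **variance of a linear observable at a node** (Stein) -/
def VarStmt : Prop :=
  ∀ (Ω : Type) [Fintype Ω] (w : Ω → ℝ), Wt w → ∀ (l : Lv Ω) (L : List (Lv Ω)) (μ : ℝ),
    0 ≤ l.m → 0 < μ → Mono μ L → ∀ (h : Ω → ℝ) (v : l.ι → ℝ) (a Vf : ℝ),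
    a = ∑ x, P w (l :: L) h x * l.fld v x →
    Vf = tE l (X w L) (fun h' => (∑ x, P w L h' x * l.fld v x - a) ^ 2) h →
    ∑ x, P w (l :: L) h x * (l.fld v x - a) ^ 2 ≤ Vf + √(∑ i, v i ^ 2) * √Vf / μ

/-- **comparison through the upper levels** -/
def CmpStmt : Prop :=
  ∀ (Ω : Type) [Fintype Ω] (w : Ω → ℝ), Wt w → ∀ (L₁ L₂ Lp Lm : List (Lv Ω)) (ζ : ℝ), 0 < ζ →
    (∀ l ∈ L₁, ζ ≤ l.m) → (∀ l ∈ L₂, 0 ≤ l.m) → (∀ l ∈ Lp, 0 ≤ l.m) → (∀ l ∈ Lm, 0 ≤ l.m) →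
    ∀ (a : (Ω → ℝ) → ℝ) (A : ℝ), Continuous a → (∀ h, |a h| ≤ A) →
    (∀ h, X w L₂ h + a h ≤ X w Lp h) → (∀ h, X w L₂ h - a h ≤ X w Lm h) → ∀ h,
    ζ * node w (L₁ ++ L₂) L₁.length (fun h' => |a h' - node w (L₁ ++ L₂) L₁.length a h|) h ≤
      log 2 + ζ * (X w (L₁ ++ Lp) h + X w (L₁ ++ Lm) h - 2 * X w (L₁ ++ L₂) h)

/-- second difference in the coordinate `j` -/
def d2 (Ψ : (ℕ → ℝ) → ℝ) (u : ℝ) (lam : ℕ → ℝ) (j : ℕ) : ℝ :=
  Ψ (Function.update lam j (lam j + u)) + Ψ (Function.update lam j (lam j - u)) - 2 * Ψ lam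

/-- the box `[1,2]^ℕ` -/
def Box (lam : ℕ → ℝ) : Prop := ∀ j, 1 ≤ lam j ∧ lam j ≤ 2

/-- **a point where all second differences are small** -/
def FlatStmt : Prop :=
  ∀ (k M : ℕ), 2 ≤ M → ∀ (Ψ : (ℕ → ℝ) → ℝ) (Lp : ℝ), 0 < Lp →
    (∀ lam j a b, Box lam → 1 ≤ a → a ≤ 2 → 1 ≤ b → b ≤ 2 →
      |Ψ (Function.update lam j a) - Ψ (Function.update lam j b)| ≤ Lp * |a - b|) →
    ∃ lam, Box lam ∧ ∀ j < k, d2 Ψ (1 / M) lam j ≤ 8 * Lp / (M : ℝ) ^ 2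

/-! ### the perturbed SK model -/

/-- normalised overlap -/
def ov {N : ℕ} (x y : Cube N) : ℝ := (sv x ⬝ᵥ sv y) / N

/-- a level of external fields: exponent `a.1`, amplitude `a.2` -/
abbrev fl (N : ℕ) (a : ℝ × ℝ) : Lv (Cube N) := ⟨Fin N, fun x i => a.2 * sv x i, a.1⟩

/-- list of field levels -/
def fL (N : ℕ) (ℓ : List (ℝ × ℝ)) : List (Lv (Cube N)) := ℓ.map (fl N)

/-- exponents `(j+1)/(k+1)`, amplitudes `s * lam j` -/
def par (k : ℕ) (s : ℝ) (lam : ℕ → ℝ) : List (ℝ × ℝ) :=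
  (List.range k).map fun j : ℕ => (((j : ℝ) + 1) / ((k : ℝ) + 1), s * lam j)

/-- mean overlap of two replicas sharing `j` levels -/
def pj {N : ℕ} (w : Cube N → ℝ) (L : List (Lv (Cube N))) (h : Cube N → ℝ) (j : ℕ) : ℝ :=
  pi2 w L j ov h

/-- the synchronisation defect -/
def sync {N : ℕ} (w : Cube N → ℝ) (L : List (Lv (Cube N))) (h : Cube N → ℝ) : ℝ :=
  pair w L 0 (fun j x y => |ov x y - pj w L h j|) h

/-- `∑_j (ζ_{j+1} - ζ_j) p_j ^ 2` -/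
def pp {N : ℕ} (w : Cube N → ℝ) (L : List (Lv (Cube N))) (h : Cube N → ℝ) : ℝ :=
  pair w L 0 (fun j _ _ => pj w L h j ^ 2) h

/-- **synchronisation**, for any Hamiltonian and any weight -/
def SyncStmt : Prop :=
  ∀ (N k : ℕ) (w : Cube N → ℝ), Wt w → 0 < N → ∀ (s u η : ℝ), 0 < s → 0 < u → 0 < η →
    ∀ (lam : ℕ → ℝ), (∀ j, 1 ≤ lam j) → ∀ h : Cube N → ℝ,
    sync w (fL N (par k s lam)) h ≤ 6 / (k + 1) + 1 / ((k + 1) * η) + η +
      2 * √((k + 1) / (s * √N)) +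
      2 * ∑ j ∈ Finset.range k, ((k + 1) * log 2 +
        d2 (fun lam => X w (fL N (par k s lam)) h) u lam j) / (u * s ^ 2 * N)

/-- the SK level (plain expectation) at inverse temperature `β` -/
abbrev lW (N : ℕ) (β : ℝ) : Lv (Cube N) :=
  ⟨Pair N, fun x p => β / √N * (sv x p.1.1 * sv x p.1.2), 0⟩

/-- the cavity level -/
abbrev lz (N : ℕ) (β : ℝ) : Lv (Cube (N + 1)) :=
  ⟨Fin N, fun x i => β / √((N : ℝ) + 1) * (sv x 0 * sv x i.succ), 0⟩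

/-- `P` is a lower bound of the Parisi functional (words of `R339.Guerra.guerra_free` with
`q = 0`; `Good = Adm`, the right side is `PL β ℓ` of `R339/Var71G`) -/
def IsLB (β P : ℝ) : Prop :=
  ∀ ℓ : R339.Guerra.Lev, R339.Guerra.Good β ℓ → (ℓ.map Prod.snd).sum = 1 →
    P ≤ R339.Guerra.Phi β ℓ 0 - R339.Guerra.pen 0 ℓ / 4

/-- **cavity step, new spin** -/
def AStmt : Prop :=
  ∀ β : ℝ, 0 < β → ∃ C : ℝ, 0 ≤ C ∧ ∀ P : ℝ, IsLB β P → ∀ (N k : ℕ), 0 < N →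
    ∀ (s : ℝ) (lam : ℕ → ℝ), Box lam → k * s ^ 2 ≤ 1 → ∀ h : Cube N → ℝ,
    X (fun _ => 1) (fL N (par k s lam)) h + β * P +
        β ^ 2 / 4 * (1 - pp (fun _ => 1) (fL N (par k s lam)) h) -
        C * (sync (fun _ => 1) (fL N (par k s lam)) h + 1 / N + k * s ^ 2 + 1 / (k + 1)) ≤
      X (fun _ => 1) (lz N β :: fL (N + 1) (par k s lam)) fun x => h (Fin.tail x)

/-- the weight which controls the change of temperature -/
def om (N : ℕ) (h : Cube N → ℝ) : ℝ := exp (4 * ‖h‖ / N)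

/-- **the weight has a bounded mean** -/
def OmStmt : Prop :=
  ∀ (N : ℕ), 0 < N → ∀ β : ℝ,
    ∫ g, om N ((lW N β).fld g) ∂gv (Pair N) ≤ 6 * exp (4 * β ^ 2)

/-- **cavity step, change of temperature** (`β' = β √(N/(N+1))`) -/
def BStmt : Prop :=
  ∀ (β : ℝ), 0 < β → ∀ (N k : ℕ), 0 < N → ∀ (s : ℝ) (lam : ℕ → ℝ) (Em : (Cube N → ℝ) → ℝ),
    Eg Em → (∀ h, sync (fun _ => 1) (fL N (par k s lam)) h ≤ Em h) →
    ∀ β' : ℝ, β' = β * √(N / (N + 1)) →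
    X (fun _ => 1) (lW N β :: fL N (par k s lam)) 0 ≤
      X (fun _ => 1) (lW N β' :: fL N (par k s lam)) 0 +
      β ^ 2 / 4 * ∫ g, (1 - pp (fun _ => 1) (fL N (par k s lam)) ((lW N β').fld g)) ∂gv (Pair N) +
      β ^ 2 / 2 * ∫ g, om N ((lW N β').fld g) * Em ((lW N β').fld g) ∂gv (Pair N)

/-- **the polynomial-rate Parisi lower bound** -/
def PlbStmt : Prop :=
  ∀ β : ℝ, 0 < β → ∃ C : ℝ, ∀ P : ℝ, IsLB β P → ∀ n : ℕ,
    n * (β * P) - C * (n : ℝ) ^ ((10 : ℝ) / 11) ≤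
      ∫ g, log (∑ x, gibbsWeight n β g x) ∂disorderLaw n

end Crest.Agent.T157.Plb

end
private theorem rz_1a074664d1 : type_of% @_root_.Crest.Agent.T157.Plb.Rel.eq_def := @_root_.Crest.Agent.T157.Plb.Rel.eq_def -- L48
private theorem rz_5f86b832b5 : type_of% @_root_.Crest.Agent.T157.Plb.Rel.eq_1 := @_root_.Crest.Agent.T157.Plb.Rel.eq_1 -- L48
private theorem rz_9c848f919d : type_of% @_root_.Crest.Agent.T157.Plb.base.eq_def := @_root_.Crest.Agent.T157.Plb.base.eq_def -- L28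
private theorem rz_4babb8440b : type_of% @_root_.Crest.Agent.T157.Plb.base.eq_1 := @_root_.Crest.Agent.T157.Plb.base.eq_1 -- L28
private theorem rz_3265f63ed8 : type_of% @_root_.Crest.Agent.T157.Plb.extL.eq_def := @_root_.Crest.Agent.T157.Plb.extL.eq_def -- L34
private theorem rz_d1dda027ce : type_of% @_root_.Crest.Agent.T157.Plb.extL.eq_1 := @_root_.Crest.Agent.T157.Plb.extL.eq_1 -- L34
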