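import Crest.Agent.T157.DqC_9

-- ▼ part T157/Qs_98
section

/-!
# Row 157, part A2 (helper98): the quenched spherical bound (QS)

`μ` is any law of symmetric matrices which is invariant under the rotations of `ran P`.
* `gauss_quad` : `E exp(b·g + (g·g - g·B g)/2) = det B^{-1/2} exp(b·B⁻¹b/2)`;
* `det_pinch` : `det M ≤ c^k det (1 - P + P M P)`;
* the bound of `∫ exp((v+w)·W(v+w)/2) dμ` itself is `qs` in `QsB_98`.
-/

set_option autoImplicit false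
set_option maxHeartbeats 400000
set_option linter.unusedSectionVars false

noncomputable section

namespace Crest.Agent.T157.Qs

open Matrix Finset MeasureTheory ProbabilityTheory
open scoped ENNReal NNReal
open Crest.Agent.T157.E Crest.Agent.T157.Cond Crest.Agent.T157.Dq
open Crest.Agent.T157.Conc (ex ex_add ex_mono ex_zero)

variable {ι : Type*} [Fintype ι] [DecidableEq ι]

/-- symmetric with a positive form -/
structure PD (B : Matrix ι ι ℝ) : Prop where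
  symm : Bᵀ = B
  pos : ∀ x : ι → ℝ, x ≠ 0 → 0 < x ⬝ᵥ B *ᵥ x

lemma herm_of {B : Matrix ι ι ℝ} (h : Bᵀ = B) : B.IsHermitian := by
  rwa [Matrix.IsHermitian, conjTranspose_eq_transpose_of_trivial]

lemma PD.posDef {B : Matrix ι ι ℝ} (h : PD B) : B.PosDef :=
  Matrix.PosDef.of_dotProduct_mulVec_pos (herm_of h.symm) fun x hx => by simpa using h.pos x hx

lemma PD.det_pos {B : Matrix ι ι ℝ} (h : PD B) : 0 < B.det := h.posDef.det_pos

lemma PD.exists_solve {B : Matrix ι ι ℝ} (h : PD B) (b : ι → ℝ) : ∃ c, B *ᵥ c = b :=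
  ⟨B⁻¹ *ᵥ b, by rw [mulVec_mulVec, mul_nonsing_inv _ (h.det_pos.ne'.isUnit), one_mulVec]⟩

lemma gauss_det {B : Matrix ι ι ℝ} (h : PD B) :
    ∫⁻ x, ex ((x ⬝ᵥ x - x ⬝ᵥ B *ᵥ x) / 2) ∂gv ι = ex (-Real.log B.det / 2) := by
  have hD := dg_herm (herm_of h.symm)
  have hb := fun i => h.posDef.eigenvalues_pos i
  have := gauss_cv hD hb (G := fun _ => 1) measurable_const
  simp only [mul_one, lintegral_const, measure_univ] at this
  rw [this, ex, hD.det]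
  congr 1
  rw [Real.log_prod fun i _ => (hb i).ne', ← Finset.sum_neg_distrib, Finset.sum_div, Real.exp_sum]
  refine prod_congr rfl fun i _ => ?_
  rw [Real.sqrt_eq_rpow, ← Real.rpow_neg (hb i).le, Real.rpow_def_of_pos (hb i)]
  congr 1
  ring

/-- the Gaussian integral of an exponential quadratic form -/
theorem gauss_quad {B : Matrix ι ι ℝ} (h : PD B) {b c : ι → ℝ} (hc : B *ᵥ c = b) :
    ∫⁻ x, ex (b ⬝ᵥ x + (x ⬝ᵥ x - x ⬝ᵥ B *ᵥ x) / 2) ∂gv ι = ex (b ⬝ᵥ c / 2 - Real.log B.det / 2) := by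
  have h1 := Kr.lintegral_gv_tilt c
    (G := fun x => ex (b ⬝ᵥ x - c ⬝ᵥ x + (x ⬝ᵥ x - x ⬝ᵥ B *ᵥ x) / 2)) (by fun_prop)
  have e1 : ∀ g : ι → ℝ, ENNReal.ofReal (Real.exp (c ⬝ᵥ g)) *
      ex (b ⬝ᵥ g - c ⬝ᵥ g + (g ⬝ᵥ g - g ⬝ᵥ B *ᵥ g) / 2) =
      ex (b ⬝ᵥ g + (g ⬝ᵥ g - g ⬝ᵥ B *ᵥ g) / 2) := fun g => by
    rw [← ex, ← ex_add]; congr 1; ring
  have e2 : ∀ g : ι → ℝ, ex (b ⬝ᵥ (g + c) - c ⬝ᵥ (g + c) +
      ((g + c) ⬝ᵥ (g + c) - (g + c) ⬝ᵥ B *ᵥ (g + c)) / 2) =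
      ex (b ⬝ᵥ c / 2 - c ⬝ᵥ c / 2) * ex ((g ⬝ᵥ g - g ⬝ᵥ B *ᵥ g) / 2) := fun g => by
    rw [← ex_add]; congr 1
    have : c ⬝ᵥ B *ᵥ g = b ⬝ᵥ g := by rw [dot_symm h.symm, hc]
    simp only [mulVec_add, add_dotProduct, dotProduct_add, hc, this, dotProduct_comm g c,
      dotProduct_comm g b, dotProduct_comm c b]
    ring
  simp only [e1, e2] at h1
  rw [h1, lintegral_const_mul _ (by fun_prop), gauss_det h, ← ex, ← ex_add, ← ex_add]
  congr 1; ring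

lemma det_proj {P : Matrix ι ι ℝ} (hP : IsProj P) {m : ℕ} (hm : P.trace = m) (s t : ℝ) :
    (s • (1 - P) + t • P).det = s ^ (Fintype.card ι - m) * t ^ m ∧ m ≤ Fintype.card ι := by
  obtain ⟨O, hO, e⟩ := dg_herm (herm_of hP.symm)
  set d := (herm_of hP.symm).eigenvalues
  have hO' : Oᵀ * O = 1 := mul_eq_one_comm.1 hO
  have hd : diagonal d = Oᵀ * P * O := by
    rw [e]; simp only [← Matrix.mul_assoc, hO', Matrix.one_mul]
    rw [Matrix.mul_assoc, hO', Matrix.mul_one]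
  have h2 : ∀ i, d i = 0 ∨ d i = 1 := fun i => by
    have : diagonal d * diagonal d = diagonal d := by
      rw [hd]
      calc Oᵀ * P * O * (Oᵀ * P * O) = Oᵀ * (P * (O * Oᵀ) * P) * O := by
            simp only [Matrix.mul_assoc]
        _ = _ := by rw [hO, Matrix.mul_one, hP.idem]
    rw [diagonal_mul_diagonal] at this
    have h3 : d i * d i = d i := congrFun (diagonal_injective this) i
    rcases mul_eq_zero.1 (show d i * (d i - 1) = 0 by linear_combination h3) with h | h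
    · exact Or.inl h
    · exact Or.inr (by linarith)
  have htr : ((univ.filter fun i => d i = 1).card : ℝ) = m := by
    rw [← hm, e, trace_mul_cycle, hO', Matrix.one_mul, trace_diagonal, card_filter]
    push_cast
    exact sum_congr rfl fun i _ => by rcases h2 i with h | h <;> simp [h]
  have hc : (univ.filter fun i => d i = 1).card = m := by exact_mod_cast htr
  have hc' := card_filter_add_card_filter_not (s := (univ : Finset ι)) fun i => d i = 1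
  rw [hc, card_univ] at hc'
  refine ⟨?_, by omega⟩
  have : Dg (s • (1 - P) + t • P) fun i => if d i = 1 then t else s := by
    refine ⟨O, hO, ?_⟩
    have : (diagonal fun i => if d i = 1 then t else s) = s • (1 - diagonal d) + t • diagonal d := by
      ext i j
      by_cases hij : i = j
      · subst hij; rcases h2 i with h | h <;> simp [h]
      · simp [hij, one_apply_ne hij]
    rw [this]
    conv_lhs => rw [e]
    simp only [Matrix.mul_add, Matrix.add_mul, Matrix.mul_smul, Matrix.smul_mul, Matrix.mul_sub,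
      Matrix.sub_mul, Matrix.mul_one, hO]
  rw [this.det, prod_ite, prod_const, prod_const, hc, mul_comm]
  congr 2
  omega

/-- the compression of `M` to `ran P`, completed by the identity -/
def cp (P M : Matrix ι ι ℝ) : Matrix ι ι ℝ := 1 - P + P * M * P

lemma quad_split {P : Matrix ι ι ℝ} (hP : IsProj P) (M : Matrix ι ι ℝ) (s t : ℝ) (x : ι → ℝ) :
    x ⬝ᵥ (s • (1 - P) + t • (P * M * P)) *ᵥ x =
      s * (x ⬝ᵥ x - P *ᵥ x ⬝ᵥ P *ᵥ x) + t * (P *ᵥ x ⬝ᵥ M *ᵥ (P *ᵥ x)) := by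
  rw [add_mulVec, smul_mulVec, smul_mulVec, sub_mulVec, one_mulVec, ← mulVec_mulVec,
    ← mulVec_mulVec, dotProduct_add, dotProduct_smul, dotProduct_smul, dotProduct_sub,
    hP.dot x (M *ᵥ _), hP.dot_self, smul_eq_mul, smul_eq_mul]

lemma pd_split {P M : Matrix ι ι ℝ} (hP : IsProj P) (hM : Mᵀ = M)
    (h : ∀ x, P *ᵥ x = x → x ≠ 0 → 0 < x ⬝ᵥ M *ᵥ x) {s t : ℝ} (hs : 0 < s) (ht : 0 < t) :
    PD (s • (1 - P) + t • (P * M * P)) := by
  refine ⟨by simp [transpose_mul, hP.symm, hM, Matrix.mul_assoc], fun x hx => ?_⟩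
  rw [quad_split hP]
  have h1 := hP.dot_le x
  by_cases h0 : P *ᵥ x = 0
  · have : 0 < x ⬝ᵥ x := lt_of_le_of_ne (dot_self_nonneg x) fun h =>
      hx (dotProduct_self_eq_zero.1 h.symm)
    simp [h0, mul_pos hs this]
  · have := h _ (hP.mulVec_mulVec x) h0
    nlinarith [mul_pos ht this, mul_nonneg hs.le (sub_nonneg.2 h1)]

lemma det_split {P : Matrix ι ι ℝ} (hP : IsProj P) {m : ℕ} (hm : P.trace = m) (M : Matrix ι ι ℝ)
    (s t : ℝ) : (s • (1 - P) + t • (P * M * P)).det =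
      s ^ (Fintype.card ι - m) * t ^ m * (cp P M).det := by
  rw [← (det_proj hP hm s t).1, ← det_mul, cp]
  congr 1
  have h1 : P * (P * M * P) = P * M * P := by
    rw [← Matrix.mul_assoc, ← Matrix.mul_assoc, hP.idem]
  simp only [Matrix.add_mul, Matrix.mul_add, Matrix.smul_mul, Matrix.sub_mul, Matrix.mul_sub,
    Matrix.one_mul, Matrix.mul_one, hP.idem, h1, sub_self, smul_zero, sub_zero, add_zero, zero_add]
  abel

lemma pd_cp {P M : Matrix ι ι ℝ} (hP : IsProj P) (hM : Mᵀ = M)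
    (h : ∀ x, P *ᵥ x = x → x ≠ 0 → 0 < x ⬝ᵥ M *ᵥ x) : PD (cp P M) := by
  simpa [cp] using pd_split hP hM h one_pos one_pos

lemma ex_mid (a b : ℝ) : 2 * ex ((a + b) / 2) ≤ ex a + ex b := by
  rw [ex, ex, ex, ← ENNReal.ofReal_add (Real.exp_pos _).le (Real.exp_pos _).le,
    ← ENNReal.ofReal_ofNat, ← ENNReal.ofReal_mul (by norm_num)]
  refine ENNReal.ofReal_le_ofReal ?_
  have ha : Real.exp a = Real.exp (a / 2) ^ 2 := by rw [← Real.exp_nat_mul]; congr 1; push_cast; ring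
  have hb : Real.exp b = Real.exp (b / 2) ^ 2 := by rw [← Real.exp_nat_mul]; congr 1; push_cast; ring
  rw [ha, hb, add_div, Real.exp_add]
  nlinarith [sq_nonneg (Real.exp (a / 2) - Real.exp (b / 2))]

lemma refl_orth {P : Matrix ι ι ℝ} (hP : IsProj P) :
    (1 - (2 : ℝ) • P) * (1 - (2 : ℝ) • P)ᵀ = 1 := by
  simp only [transpose_sub, transpose_one, transpose_smul, hP.symm, Matrix.mul_sub, Matrix.sub_mul,
    Matrix.one_mul, Matrix.mul_one, Matrix.smul_mul, Matrix.mul_smul, hP.idem]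
  module


/-- pinching: `det M ≤ c^k det (1 - P + P M P)` if `0 < M`, `M ≤ c` on `ker P` -/
theorem det_pinch {P M : Matrix ι ι ℝ} (hP : IsProj P) {m : ℕ} (hm : P.trace = m) (hM : PD M)
    {c : ℝ} (hc : 0 < c) (h : ∀ x, P *ᵥ x = 0 → x ⬝ᵥ M *ᵥ x ≤ c * (x ⬝ᵥ x)) :
    M.det ≤ c ^ (Fintype.card ι - m) * (cp P M).det := by
  have hB := pd_split hP hM.symm (fun x _ hx => hM.pos x hx) hc one_pos
  have hd := det_split hP hm M c 1
  rw [one_pow, mul_one] at hd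
  rw [← hd]
  set O : Matrix ι ι ℝ := 1 - (2 : ℝ) • P with hO
  have hOO : O * Oᵀ = 1 := refl_orth hP
  have hOt : Oᵀ = O := by simp [hO, hP.symm]
  have hq : ∀ x, x ⬝ᵥ (O * M * O) *ᵥ x = O *ᵥ x ⬝ᵥ M *ᵥ (O *ᵥ x) := fun x => by
    rw [← mulVec_mulVec, ← mulVec_mulVec, dot_symm hOt]
  have hM' : PD (O * M * O) := ⟨by simp [transpose_mul, hOt, hM.symm, Matrix.mul_assoc],
    fun x hx => by
      rw [hq]
      refine hM.pos _ fun h0 => hx ?_
      rw [← one_mulVec x, ← hOO, hOt, ← mulVec_mulVec, h0, mulVec_zero]⟩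
  have hdet : (O * M * O).det = M.det := by
    have := congrArg det hOO
    rw [det_mul, hOt, det_one] at this
    rw [det_mul, det_mul]; linear_combination M.det * this
  have key : 2 * ex (-Real.log (c • (1 - P) + (1 : ℝ) • (P * M * P)).det / 2) ≤
      2 * ex (-Real.log M.det / 2) := by
    conv_rhs => rw [two_mul]; enter [2]; rw [← hdet, ← gauss_det hM']
    rw [← gauss_det hM, ← gauss_det hB, ← lintegral_add_left (by fun_prop),
      ← lintegral_const_mul _ (by fun_prop)]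
    refine lintegral_mono fun x => le_trans (mul_le_mul_right (ex_mono ?_) 2) (ex_mid _ _)
    rw [quad_split hP, hq]
    set w := P *ᵥ x with hw
    have hx : x = (x - w) + w := by abel
    have hOx : O *ᵥ x = (x - w) - w := by
      rw [hO, sub_mulVec, one_mulVec, smul_mulVec, ← hw]; module
    have h0 : P *ᵥ (x - w) = 0 := by rw [mulVec_sub, hw, hP.mulVec_mulVec, sub_self]
    have h1 := h _ h0
    have h2 : (x - w) ⬝ᵥ (x - w) = x ⬝ᵥ x - w ⬝ᵥ w := by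
      have : w ⬝ᵥ w = x ⬝ᵥ w := hP.dot_self x x
      simp only [sub_dotProduct, dotProduct_sub, dotProduct_comm w x]; linarith
    rw [hOx, ← h2]
    generalize x - w = v at *
    have h3 : x ⬝ᵥ M *ᵥ x = (v + w) ⬝ᵥ M *ᵥ (v + w) := by rw [← hx]
    rw [h3]
    simp only [mulVec_add, mulVec_sub, add_dotProduct, sub_dotProduct, dotProduct_add,
      dotProduct_sub]
    linarith
  rw [ENNReal.mul_le_mul_iff_right (by norm_num) (by norm_num), Conc.ex_le_iff] at key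
  exact (Real.log_le_log_iff hM.det_pos hB.det_pos).1 (by linarith)

end Crest.Agent.T157.Qs
end
end

-- ▼ part T157/QsB_98

/-!
# Row 157, part A2 (helper98): the quenched spherical bound (QS), second part

* `shell` : a function of `w ∈ ran P` which is almost increasing in `|w|` is bounded by its
  Gaussian integral;
* `qs`, `qs_const` : the bound of `∫ exp((v+w)·W(v+w)/2) dμ`;
* `inv_goe`, `Refl.conj_glue` : the invariance hypothesis for a conditioned GOE matrix on an invariant event.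
-/

set_option autoImplicit false
set_option maxHeartbeats 400000
set_option linter.unusedSectionVars false

noncomputable section

namespace Crest.Agent.T157.Qs

open Matrix Finset MeasureTheory ProbabilityTheory
open scoped ENNReal NNReal
open Crest.Agent.T157.E Crest.Agent.T157.Cond Crest.Agent.T157.Dq
open Crest.Agent.T157.Conc (ex ex_add ex_mono ex_zero)

variable {ι : Type*} [Fintype ι] [DecidableEq ι]

lemma gauss_quad_le {B : Matrix ι ι ℝ} (h : PD B) {b : ι → ℝ} {κ : ℝ}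
    (hκ : ∀ x, 2 * (b ⬝ᵥ x) - x ⬝ᵥ B *ᵥ x ≤ κ) :
    ∫⁻ x, ex (b ⬝ᵥ x + (x ⬝ᵥ x - x ⬝ᵥ B *ᵥ x) / 2) ∂gv ι ≤ ex (κ / 2 - Real.log B.det / 2) := by
  obtain ⟨c, hc⟩ := h.exists_solve b
  rw [gauss_quad h hc]
  have := hκ c
  rw [hc, dotProduct_comm c b] at this
  exact ex_mono (by linarith)

lemma chi_tail {P : Matrix ι ι ℝ} (hP : IsProj P) {m : ℕ} (hm : P.trace = m) {t : ℝ} (ht : 0 < t)
    (c : ℝ) {S : Set (ι → ℝ)} (hS : ∀ g ∈ S, 0 ≤ c + (1 - t) * (P *ᵥ g ⬝ᵥ P *ᵥ g) / 2) :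
    gv ι S ≤ ex (c - m * Real.log t / 2) := by
  have hB : PD ((1 : ℝ) • (1 - P) + t • (P * 1 * P)) := pd_split hP transpose_one
    (fun x _ hx => by
      rw [one_mulVec]
      exact lt_of_le_of_ne (dot_self_nonneg x) fun h => hx (dotProduct_self_eq_zero.1 h.symm))
    one_pos ht
  have hd : ((1 : ℝ) • (1 - P) + t • (P * 1 * P)).det = t ^ m := by
    rw [Matrix.mul_one, hP.idem, (det_proj hP hm 1 t).1, one_pow, one_mul]
  have h1 := gauss_det hB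
  rw [hd, Real.log_pow] at h1
  have h2 : ex (c - m * Real.log t / 2) = ex c * ex (-(m * Real.log t) / 2) := by
    rw [← ex_add]; congr 1; ring
  rw [h2, ← h1, ← lintegral_const_mul _ (by fun_prop)]
  refine meas_le_lintegral₀ (by fun_prop) fun g hg => ?_
  rw [← ex_add, ← ex_zero, quad_split hP, one_mulVec]
  exact ex_mono (by have := hS g hg; linarith)

lemma ex_quarter : ex (-(3 / 2)) ≤ 4⁻¹ := by
  have h1 : (4 : ℝ) ≤ Real.exp (3 / 2) := by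
    have := Real.add_one_le_exp (1 / 2 : ℝ)
    have h2 := Real.exp_one_gt_d9
    rw [show (3 / 2 : ℝ) = 1 + 1 / 2 by norm_num, Real.exp_add]
    nlinarith
  rw [ex, Real.exp_neg, ← ENNReal.ofReal_ofNat, ← ENNReal.ofReal_inv_of_pos (by norm_num)]
  exact ENNReal.ofReal_le_ofReal (inv_anti₀ (by norm_num) h1)

/-- the window `m/100 ≤ |P g|² ≤ 12 m` has mass at least one half -/
lemma window {P : Matrix ι ι ℝ} (hP : IsProj P) {m : ℕ} (hm : P.trace = m) (h1 : 1 ≤ m) :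
    2⁻¹ ≤ gv ι {g | (m : ℝ) / 100 ≤ P *ᵥ g ⬝ᵥ P *ᵥ g ∧ P *ᵥ g ⬝ᵥ P *ᵥ g ≤ 12 * m} := by
  have m1 : (1 : ℝ) ≤ m := by exact_mod_cast h1
  have hl : gv ι {g | P *ᵥ g ⬝ᵥ P *ᵥ g < (m : ℝ) / 100} ≤ 4⁻¹ := by
    refine (chi_tail hP hm (t := 101) (by norm_num) (m / 2) fun g hg => ?_).trans
      ((ex_mono ?_).trans ex_quarter)
    · simp only [Set.mem_setOf_eq] at hg; linarith
    · have : 4 ≤ Real.log 101 := by
        rw [Real.le_log_iff_exp_le (by norm_num), show (4 : ℝ) = (4 : ℕ) * 1 by norm_num,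
          Real.exp_nat_mul]
        exact (pow_le_pow_left₀ (Real.exp_pos _).le Real.exp_one_lt_d9.le 4).trans (by norm_num)
      nlinarith
  have hh : gv ι {g | 12 * (m : ℝ) < P *ᵥ g ⬝ᵥ P *ᵥ g} ≤ 4⁻¹ := by
    refine (chi_tail hP hm (t := 2⁻¹) (by norm_num) (-3 * m) fun g hg => ?_).trans
      ((ex_mono ?_).trans ex_quarter)
    · simp only [Set.mem_setOf_eq] at hg; linarith
    · have := Real.log_two_lt_d9
      rw [Real.log_inv]
      nlinarith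
  have h2 : (1 : ℝ≥0∞) ≤ gv ι {g | (m : ℝ) / 100 ≤ P *ᵥ g ⬝ᵥ P *ᵥ g ∧ P *ᵥ g ⬝ᵥ P *ᵥ g ≤ 12 * m} +
      (4⁻¹ + 4⁻¹) := by
    rw [← measure_univ (μ := gv ι)]
    refine le_trans (measure_mono fun g _ => ?_) ((measure_union_le _ _).trans
      (add_le_add le_rfl ((measure_union_le _ _).trans (add_le_add hl hh))))
    simp only [Set.mem_union, Set.mem_setOf_eq]
    by_cases a : (m : ℝ) / 100 ≤ P *ᵥ g ⬝ᵥ P *ᵥ g
    · by_cases b : P *ᵥ g ⬝ᵥ P *ᵥ g ≤ 12 * m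
      · exact Or.inl ⟨a, b⟩
      · exact Or.inr (Or.inr (not_le.1 b))
    · exact Or.inr (Or.inl (not_le.1 a))
  have h3 : (4⁻¹ + 4⁻¹ : ℝ≥0∞) = 2⁻¹ := by
    rw [← two_mul, show (4 : ℝ≥0∞) = 2 * 2 by norm_num, ENNReal.mul_inv (by simp) (by simp),
      ← mul_assoc, ENNReal.mul_inv_cancel (by simp) (by simp), one_mul]
  rw [h3, ← ENNReal.inv_two_add_inv_two] at h2
  exact (ENNReal.add_le_add_iff_right (by simp)).1 h2

/-- **the shell lemma** -/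
theorem shell {P : Matrix ι ι ℝ} (hP : IsProj P) {m : ℕ} (hm : P.trace = m) (h1 : 1 ≤ m)
    (Φ : (ι → ℝ) → ℝ≥0∞) (φ A : ℝ≥0∞) {r K z : ℝ} (hr : 0 < r) (hK : 0 ≤ K + z)
    (hΦ : ∀ w, P *ᵥ w = w → r ≤ w ⬝ᵥ w → φ ≤ ex (K * (w ⬝ᵥ w - r) / 2) * Φ w)
    (hI : ∀ a : ℝ, 0 < a → ∫⁻ g, Φ ((√a)⁻¹ • P *ᵥ g) *
      ex ((P *ᵥ g ⬝ᵥ P *ᵥ g - z * (P *ᵥ g ⬝ᵥ P *ᵥ g) / a) / 2) ∂gv ι ≤ ex (m * Real.log a / 2) * A)
    {N : ℕ} (hN1 : 1 ≤ N) (hN : 600 * r * (K + z) ≤ N) :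
    φ ≤ 2 * N * ex (1 + z * r / 2 - m / 2 + m * Real.log (m / r) / 2) * A := by
  have m1 : (1 : ℝ) ≤ m := by exact_mod_cast h1
  have N1 : (1 : ℝ) ≤ N := by exact_mod_cast hN1
  set h : ℝ := 12 * m / N with hh
  have h0 : 0 < h := by positivity
  set S : ℕ → Set (ι → ℝ) := fun j => {g | (m : ℝ) / 100 + j * h ≤ P *ᵥ g ⬝ᵥ P *ᵥ g ∧
    P *ᵥ g ⬝ᵥ P *ᵥ g ≤ m / 100 + j * h + h} with hS
  have key : ∀ j, φ * gv ι (S j) ≤ ex (1 + z * r / 2 - m / 2 + m * Real.log (m / r) / 2) * A := by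
    intro j
    set x : ℝ := m / 100 + j * h with hx
    have x1 : (m : ℝ) / 100 ≤ x := le_add_of_nonneg_right (by positivity)
    have x0 : 0 < x := lt_of_lt_of_le (by positivity) x1
    have a0 : 0 < x / r := by positivity
    have mq : Measurable fun g : ι → ℝ => P *ᵥ g ⬝ᵥ P *ᵥ g := by fun_prop
    have hms : MeasurableSet (S j) :=
      (measurableSet_le measurable_const mq).inter (measurableSet_le mq measurable_const)
    have e1 : ex (1 + z * r / 2 - x / 2) * (ex (m * Real.log (x / r) / 2) * A) ≤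
        ex (1 + z * r / 2 - m / 2 + m * Real.log (m / r) / 2) * A := by
      rw [← mul_assoc, ← ex_add]
      refine mul_le_mul_left (ex_mono ?_) _
      have := Real.log_le_sub_one_of_pos (show 0 < x / m by positivity)
      have e : Real.log (x / r) = Real.log (m / r) + Real.log (x / m) := by
        rw [← Real.log_mul (by positivity) (by positivity)]; congr 1; field_simp
      have e' : (m : ℝ) * (x / m - 1) = x - m := by field_simp
      rw [e]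
      nlinarith [mul_le_mul_of_nonneg_left this (by positivity : (0 : ℝ) ≤ m)]
    refine le_trans ?_ ((mul_le_mul_right (hI _ a0) _).trans e1)
    rw [← lintegral_indicator_const hms, ← lintegral_const_mul' _ _ (Conc.ex_ne_top _)]
    refine lintegral_mono fun g => ?_
    by_cases hg : g ∈ S j
    swap
    · simp [hg]
    rw [Set.indicator_of_mem hg]
    obtain ⟨g1, g2⟩ := hg
    set q := P *ᵥ g ⬝ᵥ P *ᵥ g with hq
    have hw : ((√(x / r))⁻¹ • P *ᵥ g) ⬝ᵥ ((√(x / r))⁻¹ • P *ᵥ g) = q / (x / r) := by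
      rw [smul_dotProduct, dotProduct_smul, smul_eq_mul, smul_eq_mul, ← mul_assoc, ← mul_inv,
        Real.mul_self_sqrt a0.le, ← hq, div_eq_inv_mul q]
    have r1 : r ≤ q / (x / r) := by rw [le_div_iff₀ a0, mul_div_cancel₀ _ hr.ne']; exact g1
    have r2 : q / (x / r) - r ≤ 1200 * r / N := by
      have : q / (x / r) - r = (q - x) * r / x := by field_simp
      rw [this, div_le_div_iff₀ x0 (by positivity)]
      have h3 : (q - x) * N ≤ 12 * m := by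
        have : q - x ≤ 12 * m / N := by linarith
        rwa [le_div_iff₀ (by positivity)] at this
      nlinarith [mul_le_mul_of_nonneg_left h3 hr.le, mul_le_mul_of_nonneg_left x1 hr.le]
    have r3 : (K + z) * (q / (x / r) - r) ≤ 2 := by
      refine (mul_le_mul_of_nonneg_left r2 hK).trans ?_
      rw [← mul_div_assoc, div_le_iff₀ (by positivity)]
      linarith
    refine (hΦ _ (by rw [mulVec_smul, hP.mulVec_mulVec]) (hw ▸ r1)).trans ?_
    rw [hw, mul_comm (Φ _), ← mul_assoc, ← ex_add]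
    refine mul_le_mul_left (ex_mono ?_) _
    rw [mul_div_assoc z q]
    linarith
  have cov : {g | (m : ℝ) / 100 ≤ P *ᵥ g ⬝ᵥ P *ᵥ g ∧ P *ᵥ g ⬝ᵥ P *ᵥ g ≤ 12 * m} ⊆
      ⋃ j ∈ range N, S j := fun g hg => by
    obtain ⟨g1, g2⟩ := hg
    set q := P *ᵥ g ⬝ᵥ P *ᵥ g with hq
    have u0 : 0 ≤ (q - m / 100) / h := div_nonneg (by linarith) h0.le
    have f1 := Nat.floor_le u0
    have f2 := Nat.lt_floor_add_one ((q - m / 100) / h)
    rw [le_div_iff₀ h0] at f1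
    rw [div_lt_iff₀ h0] at f2
    refine Set.mem_biUnion (s := (range N : Set ℕ)) (x := ⌊(q - m / 100) / h⌋₊) ?_ ⟨?_, ?_⟩
    · rw [coe_range, Set.mem_Iio, Nat.floor_lt u0, div_lt_iff₀ h0, hh, mul_div_cancel₀ _ (by positivity)]
      linarith
    · linarith
    · linarith
  have h2 : φ * 2⁻¹ ≤ N * (ex (1 + z * r / 2 - m / 2 + m * Real.log (m / r) / 2) * A) :=
    calc φ * 2⁻¹ ≤ φ * ∑ j ∈ range N, gv ι (S j) := mul_le_mul_right
          ((window hP hm h1).trans ((measure_mono cov).trans (measure_biUnion_finset_le _ _))) _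
      _ ≤ _ := by
        rw [mul_sum]
        refine (sum_le_card_nsmul _ _ _ fun j _ => key j).trans ?_
        rw [card_range, nsmul_eq_mul]
  calc φ = 2 * (φ * 2⁻¹) := by
        rw [mul_comm φ, ← mul_assoc, ENNReal.mul_inv_cancel (by simp) (by simp), one_mul]
    _ ≤ 2 * (N * (ex (1 + z * r / 2 - m / 2 + m * Real.log (m / r) / 2) * A)) :=
        mul_le_mul_right h2 _
    _ = _ := by simp only [mul_assoc]

/-- reflections of `ran P` -/
structure Refl (P O : Matrix ι ι ℝ) : Prop where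
  symm : Oᵀ = O
  inv : O * O = 1
  fix : ∀ x, P *ᵥ x = 0 → O *ᵥ x = x

lemma exists_refl {P : Matrix ι ι ℝ} (hP : IsProj P) {w w' : ι → ℝ} (hw : P *ᵥ w = w)
    (hw' : P *ᵥ w' = w') (h : w ⬝ᵥ w = w' ⬝ᵥ w') : ∃ O, Refl P O ∧ O *ᵥ w = w' := by
  by_cases h0 : w = w'
  · exact ⟨1, ⟨transpose_one, Matrix.mul_one _, fun x _ => one_mulVec x⟩, by rw [one_mulVec, h0]⟩
  set a := w - w' with ha
  have a0 : a ⬝ᵥ a ≠ 0 := fun h => h0 (sub_eq_zero.1 (dotProduct_self_eq_zero.1 h))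
  have hv : ∀ x, (1 - (2 / (a ⬝ᵥ a)) • vecMulVec a a) *ᵥ x = x - (2 / (a ⬝ᵥ a) * (a ⬝ᵥ x)) • a :=
    fun x => by
      rw [sub_mulVec, one_mulVec, smul_mulVec, vecMulVec_mulVec]
      ext i; simp [mul_comm, mul_left_comm, mul_assoc]
  refine ⟨1 - (2 / (a ⬝ᵥ a)) • vecMulVec a a, ⟨by simp [transpose_vecMulVec], ?_, fun x hx => ?_⟩, ?_⟩
  · refine ext_iff_mulVec.2 fun x => ?_
    rw [← mulVec_mulVec, hv, hv, one_mulVec, dotProduct_sub a x, dotProduct_smul, smul_eq_mul, sub_sub,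
      ← add_smul]
    have : 2 / (a ⬝ᵥ a) * (a ⬝ᵥ x) + 2 / (a ⬝ᵥ a) * (a ⬝ᵥ x - 2 / (a ⬝ᵥ a) * (a ⬝ᵥ x) * (a ⬝ᵥ a)) = 0 := by
      field_simp; ring
    rw [this, zero_smul, sub_zero]
  · have : a ⬝ᵥ x = 0 := by
      have h1 : P *ᵥ a = a := by rw [ha, mulVec_sub, hw, hw']
      rw [← h1, ← hP.dot, hx, dotProduct_zero]
    rw [hv, this, mul_zero, zero_smul, sub_zero]
  · have : a ⬝ᵥ a = 2 * (a ⬝ᵥ w) := by
      simp only [ha, sub_dotProduct, dotProduct_sub, dotProduct_comm w' w]; linarith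
    have h2 : 2 / (a ⬝ᵥ a) * (a ⬝ᵥ w) = 1 := by
      rw [div_mul_eq_mul_div, ← this, div_self a0]
    rw [hv, h2, one_smul, ha, sub_sub_cancel]

lemma ex_cosh {A B y c k : ℝ} (hc : 1 ≤ c) (h : A ≤ k + B) :
    ex (A + y) + ex (A - y) ≤ ex k * (ex (B + c * y) + ex (B - c * y)) := by
  have e : ∀ A y : ℝ, ex (A + y) + ex (A - y) = ENNReal.ofReal (Real.exp A * (2 * Real.cosh y)) :=
    fun A y => by
      rw [ex, ex, ← ENNReal.ofReal_add (Real.exp_pos _).le (Real.exp_pos _).le, Real.cosh_eq,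
        sub_eq_add_neg, Real.exp_add, Real.exp_add]
      congr 1; ring
  rw [e, e, ex, ← ENNReal.ofReal_mul (Real.exp_pos _).le, ← mul_assoc (Real.exp k), ← Real.exp_add]
  refine ENNReal.ofReal_le_ofReal (mul_le_mul (Real.exp_le_exp.2 h) ?_ (by positivity)
    (Real.exp_pos _).le)
  refine mul_le_mul_of_nonneg_left (Real.cosh_le_cosh.2 ?_) (by norm_num)
  rw [abs_mul, abs_of_nonneg (by linarith : 0 ≤ c)]
  nlinarith [abs_nonneg y]

section main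
variable {Ω : Type*} [MeasurableSpace Ω]

/-- the Laplace transform of the quadratic form -/
def Lap (μ : Measure Ω) (W : Ω → Matrix ι ι ℝ) (x : ι → ℝ) : ℝ≥0∞ :=
  ∫⁻ ω, ex (x ⬝ᵥ W ω *ᵥ x / 2) ∂μ

/-- invariance under the reflections of `ran P` -/
def Inv (P : Matrix ι ι ℝ) (μ : Measure Ω) (W : Ω → Matrix ι ι ℝ) : Prop :=
  ∀ O, Refl P O → ∀ x, Lap μ W (O *ᵥ x) = Lap μ W x

lemma lap_mono {P : Matrix ι ι ℝ} (hP : IsProj P) {μ : Measure Ω} {W : Ω → Matrix ι ι ℝ}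
    (hW : Measurable W) (hi : Inv P μ W) {K : ℝ}
    (hK : ∀ᵐ ω ∂μ, (W ω)ᵀ = W ω ∧ ∀ x, P *ᵥ x = x → -K * (x ⬝ᵥ x) ≤ x ⬝ᵥ W ω *ᵥ x)
    {v w w' : ι → ℝ} (hv : P *ᵥ v = 0) (hw : P *ᵥ w = w) (hw' : P *ᵥ w' = w') (h0 : 0 < w ⬝ᵥ w)
    (h : w ⬝ᵥ w ≤ w' ⬝ᵥ w') :
    Lap μ W (v + w) ≤ ex (K * (w' ⬝ᵥ w' - w ⬝ᵥ w) / 2) * Lap μ W (v + w') := by
  have eq : ∀ a b, P *ᵥ a = a → P *ᵥ b = b → a ⬝ᵥ a = b ⬝ᵥ b →
      Lap μ W (v + b) = Lap μ W (v + a) := fun a b ha hb hab => by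
    obtain ⟨O, hO, e⟩ := exists_refl hP ha hb hab
    rw [← hi O hO (v + a), mulVec_add, hO.fix v hv, e]
  set c := √(w' ⬝ᵥ w' / (w ⬝ᵥ w)) with hc
  have c1 : 1 ≤ c := Real.le_sqrt_of_sq_le (by rw [one_pow, one_le_div h0]; exact h)
  have c2 : c * c * (w ⬝ᵥ w) = w' ⬝ᵥ w' := by
    rw [hc, Real.mul_self_sqrt (div_nonneg (h0.le.trans h) h0.le), div_mul_cancel₀ _ h0.ne']
  have p : ∀ s : ℝ, P *ᵥ (s • w) = s • w := fun s => by rw [mulVec_smul, hw]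
  have d : ∀ s : ℝ, (s • w) ⬝ᵥ (s • w) = s * s * (w ⬝ᵥ w) := fun s => by
    rw [smul_dotProduct, dotProduct_smul, smul_eq_mul, smul_eq_mul, mul_assoc]
  have e1 := eq w ((-1 : ℝ) • w) hw (p _) (by rw [d]; ring)
  have e2 := eq w' (c • w) hw' (p _) (by rw [d, c2])
  have e3 := eq w' ((-c) • w) hw' (p _) (by rw [d, ← c2]; ring)
  have key : Lap μ W (v + w) + Lap μ W (v + (-1 : ℝ) • w) ≤
      ex (K * (w' ⬝ᵥ w' - w ⬝ᵥ w) / 2) * (Lap μ W (v + c • w) + Lap μ W (v + (-c) • w)) := by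
    unfold Lap
    rw [← lintegral_add_left (by fun_prop), ← lintegral_add_left (by fun_prop),
      ← lintegral_const_mul' _ _ (Conc.ex_ne_top _)]
    refine lintegral_mono_ae (hK.mono fun ω hω => ?_)
    have q : ∀ s : ℝ, (v + s • w) ⬝ᵥ W ω *ᵥ (v + s • w) / 2 =
        (v ⬝ᵥ W ω *ᵥ v + s * s * (w ⬝ᵥ W ω *ᵥ w)) / 2 + s * (v ⬝ᵥ W ω *ᵥ w) := fun s => by
      have : w ⬝ᵥ W ω *ᵥ v = v ⬝ᵥ W ω *ᵥ w := by rw [dot_symm hω.1, dotProduct_comm]
      simp only [mulVec_add, mulVec_smul, add_dotProduct, dotProduct_add, smul_dotProduct,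
        dotProduct_smul, smul_eq_mul, this]
      ring
    have q1 := q 1
    rw [one_smul] at q1
    rw [q1, q, q, q]
    have := @ex_cosh ((v ⬝ᵥ W ω *ᵥ v + w ⬝ᵥ W ω *ᵥ w) / 2)
      ((v ⬝ᵥ W ω *ᵥ v + c * c * (w ⬝ᵥ W ω *ᵥ w)) / 2) (v ⬝ᵥ W ω *ᵥ w) c
      (K * (w' ⬝ᵥ w' - w ⬝ᵥ w) / 2) c1 (by
        rw [← c2]
        nlinarith [mul_le_mul_of_nonneg_left (hω.2 w hw) (show 0 ≤ c * c - 1 by nlinarith)])
    convert this using 3 <;> ring
  rw [e1, e2, e3, ← two_mul, ← two_mul, mul_left_comm] at key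
  exact (ENNReal.mul_le_mul_iff_right (by norm_num) (by norm_num)).1 key

/-- **(QS)** -/
theorem qs {P : Matrix ι ι ℝ} (hP : IsProj P) {m : ℕ} (hm : P.trace = m) (h1 : 1 ≤ m)
    {μ : Measure Ω} [SFinite μ] {W : Ω → Matrix ι ι ℝ} (hW : Measurable W) (hi : Inv P μ W)
    {K z : ℝ} (hKz : 0 ≤ K + z) {v w : ι → ℝ} (hv : P *ᵥ v = 0) (hw : P *ᵥ w = w) (h0 : 0 < w ⬝ᵥ w)
    (κ : Ω → ℝ)
    (hK : ∀ᵐ ω ∂μ, (W ω)ᵀ = W ω ∧ ∀ x, P *ᵥ x = x → -K * (x ⬝ᵥ x) ≤ x ⬝ᵥ W ω *ᵥ x ∧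
      (x ≠ 0 → x ⬝ᵥ W ω *ᵥ x < z * (x ⬝ᵥ x)) ∧ (v + x) ⬝ᵥ W ω *ᵥ (v + x) - z * (x ⬝ᵥ x) ≤ κ ω)
    {N : ℕ} (hN1 : 1 ≤ N) (hN : 600 * (w ⬝ᵥ w) * (K + z) ≤ N) :
    Lap μ W (v + w) ≤
      2 * N * ex (1 + z * (w ⬝ᵥ w) / 2 - m / 2 + m * Real.log (m / (w ⬝ᵥ w)) / 2) *
        ∫⁻ ω, ex (κ ω / 2 - Real.log (cp P (z • 1 - W ω)).det / 2) ∂μ := by
  refine shell hP hm h1 (fun w' => Lap μ W (v + w')) _ _ h0 hKz (fun w' hw' h => lap_mono hP hW hi
    (hK.mono fun ω hω => ⟨hω.1, fun x hx => (hω.2 x hx).1⟩) hv hw hw' h0 h) (fun a ha => ?_) hN1 hN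
  unfold Lap
  simp_rw [← lintegral_mul_const' _ _ (Conc.ex_ne_top _)]
  rw [lintegral_lintegral_swap (by
    refine Measurable.aemeasurable ?_
    unfold Function.uncurry; fun_prop), ← lintegral_const_mul' _ _ (Conc.ex_ne_top _)]
  refine lintegral_mono_ae (hK.mono fun ω hω => ?_)
  have hM : (z • (1 : Matrix ι ι ℝ) - W ω)ᵀ = z • 1 - W ω := by simp [hω.1]
  have hq : ∀ x, x ⬝ᵥ (z • (1 : Matrix ι ι ℝ) - W ω) *ᵥ x = z * (x ⬝ᵥ x) - x ⬝ᵥ W ω *ᵥ x :=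
    fun x => by rw [sub_mulVec, smul_mulVec, one_mulVec, dotProduct_sub, dotProduct_smul, smul_eq_mul]
  have hp : ∀ x, P *ᵥ x = x → x ≠ 0 → 0 < x ⬝ᵥ (z • (1 : Matrix ι ι ℝ) - W ω) *ᵥ x :=
    fun x hx h => by rw [hq]; exact sub_pos.2 ((hω.2 x hx).2.1 h)
  have hB := pd_split hP hM hp one_pos (inv_pos.2 ha)
  have hd := det_split hP hm (z • 1 - W ω) 1 a⁻¹
  rw [one_pow, one_mul] at hd
  set s := (√a)⁻¹ with hs
  have ss : s * s = a⁻¹ := by rw [hs, ← mul_inv, Real.mul_self_sqrt ha.le]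
  have q : ∀ g, (v + s • P *ᵥ g) ⬝ᵥ W ω *ᵥ (v + s • P *ᵥ g) = v ⬝ᵥ W ω *ᵥ v +
      2 * ((s • P *ᵥ (W ω *ᵥ v)) ⬝ᵥ g) + a⁻¹ * (P *ᵥ g ⬝ᵥ W ω *ᵥ (P *ᵥ g)) := fun g => by
    have e1 : v ⬝ᵥ W ω *ᵥ (P *ᵥ g) = P *ᵥ (W ω *ᵥ v) ⬝ᵥ g := by rw [dot_symm hω.1, hP.dot]
    have e2 : P *ᵥ g ⬝ᵥ W ω *ᵥ v = P *ᵥ (W ω *ᵥ v) ⬝ᵥ g := by rw [dotProduct_comm, hP.dot]
    simp only [mulVec_add, mulVec_smul, add_dotProduct, dotProduct_add, smul_dotProduct,
      dotProduct_smul, smul_eq_mul, e1, e2, ← ss]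
    ring
  have h2 := gauss_quad_le hB (b := s • P *ᵥ (W ω *ᵥ v)) (κ := κ ω - v ⬝ᵥ W ω *ᵥ v) fun x => by
    have h3 := (hω.2 (s • P *ᵥ x) (by rw [mulVec_smul, hP.mulVec_mulVec])).2.2
    have h4 := hP.dot_le x
    rw [q, smul_dotProduct s (P *ᵥ x), dotProduct_smul, smul_eq_mul, smul_eq_mul,
      ← mul_assoc s s, ss] at h3
    rw [quad_split hP, hq]
    linarith
  rw [hd, Real.log_mul (by positivity) (pd_cp hP hM hp).det_pos.ne', Real.log_pow, Real.log_inv]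
    at h2
  have h5 := mul_le_mul_right h2 (ex (v ⬝ᵥ W ω *ᵥ v / 2))
  rw [← lintegral_const_mul' _ _ (Conc.ex_ne_top _), ← ex_add] at h5
  rw [← ex_add]
  refine le_trans (le_of_eq (lintegral_congr fun g => ?_)) (h5.trans (le_of_eq ?_))
  · rw [← ex_add, ← ex_add, q, quad_split hP, hq]
    congr 1
    ring
  · congr 1
    ring

/-- **(QS)** with constants: `e^L ≤ det (z - W)`, `k = dim ker P` -/
theorem qs_const {P : Matrix ι ι ℝ} (hP : IsProj P) {m : ℕ} (hm : P.trace = m) (h1 : 1 ≤ m)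
    {μ : Measure Ω} [SFinite μ] {W : Ω → Matrix ι ι ℝ} (hW : Measurable W) (hi : Inv P μ W)
    {K z κ L : ℝ} (hKz : 0 < K + z) {v w : ι → ℝ} (hv : P *ᵥ v = 0) (hw : P *ᵥ w = w)
    (h0 : 0 < w ⬝ᵥ w)
    (hK : ∀ᵐ ω ∂μ, (W ω)ᵀ = W ω ∧ (∀ x, -K * (x ⬝ᵥ x) ≤ x ⬝ᵥ W ω *ᵥ x ∧
      (x ≠ 0 → x ⬝ᵥ W ω *ᵥ x < z * (x ⬝ᵥ x))) ∧ L ≤ Real.log (z • 1 - W ω).det ∧
      ∀ x, P *ᵥ x = x → (v + x) ⬝ᵥ W ω *ᵥ (v + x) - z * (x ⬝ᵥ x) ≤ κ)
    {N : ℕ} (hN1 : 1 ≤ N) (hN : 600 * (w ⬝ᵥ w) * (K + z) ≤ N) :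
    Lap μ W (v + w) ≤
      2 * N * ex (1 + z * (w ⬝ᵥ w) / 2 - m / 2 + m * Real.log (m / (w ⬝ᵥ w)) / 2 + κ / 2 - L / 2 +
        (Fintype.card ι - m : ℕ) * Real.log (K + z) / 2) * μ Set.univ := by
  refine (qs hP hm h1 hW hi hKz.le hv hw h0 (fun _ => κ) (hK.mono fun ω hω =>
    ⟨hω.1, fun x hx => ⟨(hω.2.1 x).1, (hω.2.1 x).2, hω.2.2.2 x hx⟩⟩) hN1 hN).trans ?_
  have : ∫⁻ ω, ex (κ / 2 - Real.log (cp P (z • 1 - W ω)).det / 2) ∂μ ≤
      ex (κ / 2 - L / 2 + (Fintype.card ι - m : ℕ) * Real.log (K + z) / 2) * μ Set.univ := by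
    rw [← lintegral_const]
    refine lintegral_mono_ae (hK.mono fun ω hω => ex_mono ?_)
    have hM : (z • (1 : Matrix ι ι ℝ) - W ω)ᵀ = z • 1 - W ω := by simp [hω.1]
    have hq : ∀ x, x ⬝ᵥ (z • (1 : Matrix ι ι ℝ) - W ω) *ᵥ x = z * (x ⬝ᵥ x) - x ⬝ᵥ W ω *ᵥ x :=
      fun x => by
        rw [sub_mulVec, smul_mulVec, one_mulVec, dotProduct_sub, dotProduct_smul, smul_eq_mul]
    have hB : PD (z • (1 : Matrix ι ι ℝ) - W ω) :=
      ⟨hM, fun x h => by rw [hq]; exact sub_pos.2 ((hω.2.1 x).2 h)⟩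
    have h2 := det_pinch hP hm hB hKz fun x _ => by rw [hq]; have := (hω.2.1 x).1; linarith
    have h3 := Real.log_le_log hB.det_pos h2
    rw [Real.log_mul (by positivity) (pd_cp hP hM fun x _ => hB.pos x).det_pos.ne',
      Real.log_pow] at h3
    have := hω.2.2.1
    linarith
  refine (mul_le_mul_right this _).trans (le_of_eq ?_)
  rw [← mul_assoc, mul_assoc (2 * (N : ℝ≥0∞)), ← ex_add]
  congr 3
  ring

end main



end Crest.Agent.T157.Qs
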