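import Crest.Agent.T157.DaGr_82
import Crest.Agent.T157.EntE_34
import Crest.Agent.T157.Top_97

/-!
# Row 157, part B (helper94): regularity of `P_u Φ` at warm measures (REG): words and leaves

The gradient `ω = grad F` of `F = (1 + h L)^m Φ` follows the step `stp` with source `bb ω`.
Clipping the source (`clf`) gives a field that is bounded and has a bounded Jacobian everywhere;
the unclipped flow `lin` is controlled in the fourth Schatten norm under the Gibbs measure.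
-/

set_option autoImplicit false

noncomputable section

namespace Crest.Agent.T157.Reg

open Matrix Real Filter Topology
open Crest.ProbabilityR.SpinGlassDynamics (disorderLaw)
open Crest.Agent.T157.E hiding mean
open Crest.Agent.T157.Eig
open Crest.Agent.T157.Tap (V Mx)
open Crest.Agent.T157.Rec (grad fl)
open Crest.Agent.T157.Da.Gr (loc tt)
open Crest.Agent.T157.Chain22 (sg IsP mean)

variable {n : ℕ}

/-- vector fields on the cube -/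
abbrev VF (n : ℕ) : Type := Cube n → V n

/-- couplings: symmetric, bounded operator norm, fourth moments of the rows -/
def Nice (W : Mx n) (K : ℝ) : Prop := Wᵀ = W ∧ opn W ≤ K ∧ ∀ i, ∑ k, W i k ^ 4 ≤ K ^ 4 / n
/-- the Gibbs weight -/
def mu (W : Mx n) : Cube n → ℝ := ising W 0
/-- flip Jacobian -/
def jac (ω : VF n) (x : Cube n) : Mx n := of fun i j => ω (fl x j) i - ω x i
/-- squared length -/
def sq2 (ω : VF n) (x : Cube n) : ℝ := ω x ⬝ᵥ ω x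
/-- fourth power of the fourth Schatten norm -/
def S4 (M : Mx n) : ℝ := ∑ i, ∑ j, (M * Mᵀ) i j ^ 2
/-- off-diagonal part -/
def off (M : Mx n) : Mx n := of fun i j => if i = j then 0 else M i j
/-- the functional propagated under the Gibbs measure -/
def So (M : Mx n) : ℝ := S4 (off M) + ∑ i, M i i ^ 4
/-- Frobenius pairing -/
def fp (A B : Mx n) : ℝ := ∑ i, ∑ j, A i j * B i j
/-- flip rate -/
def Tk (W : Mx n) (x : Cube n) (k : Fin n) : ℝ := (1 - sv x k * tt W 0 x k) / 2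
/-- change of the rate of `k` when `i` is flipped -/
def al (W : Mx n) (x : Cube n) : Mx n :=
  of fun i k => -(sv x k * (tt W 0 (fl x i) k - tt W 0 x k)) / 2
/-- mixed second difference of the rate of `k` -/
def mx (W : Mx n) (x : Cube n) (i j k : Fin n) : ℝ :=
  -(sv x k * (tt W 0 (fl (fl x i) j) k - tt W 0 (fl x i) k - tt W 0 (fl x j) k + tt W 0 x k)) / 2
/-- gradient of the conditional means -/
def am (W : Mx n) (x : Cube n) : Mx n := of fun i k => grad (fun z => tt W 0 z k) x i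
/-- the source of the intertwined equation -/
def bb (W : Mx n) (ω : VF n) : VF n := fun x => am W x *ᵥ ω x
/-- one step of the intertwined equation with source `σ` -/
def stp (W : Mx n) (h : ℝ) (ω σ : VF n) : VF n := fun x i =>
  ω x i + h * (∑ k, (Tk W x k + al W x i k) * jac ω x i k - ω x i + σ x i)
/-- soft clip at level `η` -/
def clip (η z : ℝ) : ℝ := η * tanh (z / η)
/-- the linear flow -/
def lin (W : Mx n) (h : ℝ) (ω0 : VF n) : ℕ → VF n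
  | 0 => ω0
  | m + 1 => stp W h (lin W h ω0 m) (bb W (lin W h ω0 m))
/-- the clipped flow, level `η r ^ m` at step `m` -/
def clf (W : Mx n) (h η r : ℝ) (ω0 : VF n) : ℕ → VF n
  | 0 => ω0
  | m + 1 => stp W h (clf W h η r ω0 m) fun x i => clip (η * r ^ m) (bb W (clf W h η r ω0 m) x i)
/-- Euler step of the semigroup -/
def Qh (W : Mx n) (h : ℝ) (f : Cube n → ℝ) : Cube n → ℝ := fun x => f x + h * gen (mu W) f x
/-- global spin flip -/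
def neg (x : Cube n) : Cube n := fun i => !x i
/-- odd fields -/
def Odd (ω : VF n) : Prop := ∀ x, ω (neg x) = -ω x
/-- warm probability vectors: density at most `exp H` -/
def Wm (w : Cube n → ℝ) (H : ℝ) (v : Cube n → ℝ) : Prop := IsP v ∧ ∀ x, v x ≤ exp H * prob w x
/-- velocity of the Jacobian: `jac (stp W h ω σ) x = jac ω x + h • dj W ω σ x` -/
def dj (W : Mx n) (ω σ : VF n) (x : Cube n) : Mx n := jac (stp W 1 ω σ) x - jac ω x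

/-! ### leaves -/

/-- intertwining, warm vectors, the limit `h → 0`, oddness -/
structure BasStmt : Prop where
  int : ∀ (n : ℕ) (W : Mx n), Wᵀ = W → ∀ h f, grad (Qh W h f) = stp W h (grad f) (bb W (grad f))
  gen_eq : ∀ (n : ℕ) (W : Mx n), Wᵀ = W → ∀ f x,
    gen (mu W) f x = ∑ k, Tk W x k * (f (fl x k) - f x)
  wm : ∀ (n : ℕ) (W : Mx n), Wᵀ = W → ∀ h H v, 0 ≤ h → h * n ≤ 1 → Wm (mu W) H v →
    ∃ v', Wm (mu W) H v' ∧ ∀ f, mean v (Qh W h f) = mean v' f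
  lim : ∀ (n : ℕ) (W : Mx n), 0 < n → ∀ u, 0 ≤ u → ∀ f x,
    Tendsto (fun h : ℝ => (Qh W h)^[⌊u / h⌋₊] f x) (𝓝[>] 0) (𝓝 (sg (mu W) u f x))
  odd_bb : ∀ (n : ℕ) (W : Mx n) (ω : VF n), Odd ω → Odd (bb W ω)
  odd_stp : ∀ (n : ℕ) (W : Mx n) (h : ℝ) (ω σ : VF n), Odd ω → Odd σ → Odd (stp W h ω σ)
  dir_eq : ∀ (n : ℕ) (W : Mx n), Wᵀ = W → ∀ f,
    dir (mu W) f = mean (prob (mu W)) fun x => ∑ k, (1 - tt W 0 x k ^ 2) * grad f x k ^ 2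

/-- exact evolution of the Jacobian -/
structure JacStmt : Prop where
  lin : ∀ (n : ℕ) (W : Mx n) (h : ℝ) (ω σ : VF n) (x : Cube n),
    jac (stp W h ω σ) x = jac ω x + h • dj W ω σ x
  offd : ∀ (n : ℕ) (W : Mx n) (ω σ : VF n) (x : Cube n) (i j : Fin n), i ≠ j → dj W ω σ x i j =
    ∑ k, (Tk W x k + al W x i k + al W x j k + mx W x i j k) * (jac ω (fl x k) - jac ω x) i j +
      ∑ k, (al W x j k + mx W x i j k) * jac ω x i k +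
      (2 * Tk W x j + 2 * al W x i j - 2) * jac ω x i j + jac σ x i j
  diag : ∀ (n : ℕ) (W : Mx n) (ω σ : VF n) (x : Cube n) (i : Fin n), dj W ω σ x i i =
    ∑ k, Tk W x k * (jac ω (fl x k) - jac ω x) i i - ∑ k, al W x i k * jac ω x i k +
      (2 * Tk W x i - 2) * jac ω x i i + jac σ x i i
  ydiag : ∀ (n : ℕ) (ω : VF n) (x : Cube n) (i k : Fin n), i ≠ k →
    (jac ω (fl x k) - jac ω x) i i = jac ω (fl x i) i k - jac ω x i k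
  jb : ∀ (n : ℕ) (W : Mx n) (ω : VF n) (x : Cube n) (i j : Fin n), jac (bb W ω) x i j =
    (am W x * jac ω x) i j + if i = j then 0 else
      ∑ k, sv x i * sv x k * mx W x i j k * (jac ω x k j + ω x k)

/-- bounds on the coefficients -/
def CoefStmt : Prop := ∀ K : ℝ, ∃ C ≥ (1 : ℝ), ∀ (n : ℕ) (W : Mx n), Nice W K → ∀ x,
  (∀ k, 0 < Tk W x k ∧ Tk W x k < 1) ∧
  (∀ i k, 0 ≤ Tk W x k + al W x i k ∧ Tk W x k + al W x i k ≤ 1) ∧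
  (∀ i k, |al W x i k| ≤ C * |W i k| * (Tk W x k * (1 - Tk W x k))) ∧
  opn (al W x) ≤ C ∧ opn (am W x) ≤ C ∧
  (∀ i j k, i ≠ j → |mx W x i j k| ≤ C * |W i k| * |W j k| * (Tk W x k * (1 - Tk W x k))) ∧
  ∃ (d P : Mx n) (q : V n), opn d ≤ C ∧ opn P ≤ C ∧
    (∀ i k, |d i k| ≤ C * |W i k| ∧ |P i k| ≤ C * |W i k|) ∧ (∀ k, |q k| ≤ C) ∧
    ∀ i j k, i ≠ j → |mx W x i j k - (P i k * d j k + d i k * P j k + q k * (d i k * d j k))| ≤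
      C * (W i k ^ 2 * W j k ^ 2)

/-- matrix toolbox -/
structure ToolStmt : Prop where
  op_dom : ∀ (n : ℕ) (M N : Mx n), (∀ i j, |M i j| ≤ N i j) → opn M ≤ opn N
  op_schur : ∀ (n : ℕ) (M : Mx n) (r : ℝ), 0 ≤ r → (∀ i, ∑ j, |M i j| ≤ r) →
    (∀ j, ∑ i, |M i j| ≤ r) → opn M ≤ r
  op_had : ∀ (n : ℕ) (A B M : Mx n) (a b : ℝ), 0 ≤ a → 0 ≤ b → (∀ i, ∑ j, A i j ^ 2 ≤ a ^ 2) →
    (∀ j, ∑ i, B i j ^ 2 ≤ b ^ 2) → (∀ i j, |M i j| ≤ |A i j| * |B i j|) → opn M ≤ a * b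
  row_le : ∀ (n : ℕ) (M : Mx n) (i : Fin n),
    ∑ j, M i j ^ 2 ≤ opn M ^ 2 ∧ ∑ j, M j i ^ 2 ≤ opn M ^ 2
  op_off : ∀ (n : ℕ) (M : Mx n), opn (off M) ≤ 2 * opn M
  s4_tr : ∀ (n : ℕ) (M : Mx n), S4 Mᵀ = S4 M
  s4_add : ∀ (n : ℕ) (A B : Mx n), S4 (A + B) ≤ 8 * (S4 A + S4 B)
  s4_mul : ∀ (n : ℕ) (P M Q : Mx n), S4 (P * M * Q) ≤ opn P ^ 4 * opn Q ^ 4 * S4 M
  s4_dom : ∀ (n : ℕ) (M N : Mx n), (∀ i j, |M i j| ≤ N i j) → S4 M ≤ S4 N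
  s4_fro : ∀ (n : ℕ) (M : Mx n), S4 M ≤ fp M M ^ 2 ∧ fp M M ^ 2 ≤ n * S4 M
  s4_op : ∀ (n : ℕ) (M : Mx n), S4 M ≤ n * opn M ^ 4
  s4_row : ∀ (n : ℕ) (M : Mx n), ∑ i, (∑ j, M i j ^ 2) ^ 2 ≤ S4 M
  s4_diag : ∀ (n : ℕ) (θ : V n), S4 (diagonal θ) = ∑ i, θ i ^ 4
  so_le : ∀ (n : ℕ) (M : Mx n), So M ≤ 17 * S4 M ∧ S4 M ≤ 8 * So M
  s4_pair : ∀ (n : ℕ) (X N : Mx n), 4 * |fp (X * Xᵀ * X) N| ≤ 3 * S4 X + S4 N
  s4_cube : ∀ (n : ℕ) (X : Mx n), fp (X * Xᵀ * X) (X * Xᵀ * X) ^ 2 ≤ S4 X ^ 3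
  s4_gain : ∀ (n : ℕ) (X Y : Mx n),
    2 * fp (Xᵀ * Y) (Xᵀ * Y) ≤ S4 (X + Y) - S4 X - 4 * fp (X * Xᵀ * X) Y ∧
    2 * fp (Y * Xᵀ) (Y * Xᵀ) ≤ S4 (X + Y) - S4 X - 4 * fp (X * Xᵀ * X) Y ∧
    S4 Y ≤ 6 * (S4 (X + Y) - S4 X - 4 * fp (X * Xᵀ * X) Y)
  s4_taylor : ∀ (n : ℕ) (X Y : Mx n) (h : ℝ), 0 ≤ h → h ≤ 1 →
    S4 (X + h • Y) ≤ S4 X + 4 * h * fp (X * Xᵀ * X) Y + 20 * h ^ 2 * (S4 X + S4 Y)

/-- Jacobian of the source -/
def JbStmt : Prop := ∀ K : ℝ, ∃ C ≥ (1 : ℝ), ∀ (n : ℕ) (W : Mx n), Nice W K → ∀ (ω : VF n) x,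
  (∀ y, 0 ≤ y → (∀ k, |ω x k| ≤ y) → opn (jac (bb W ω) x) ≤ C * (opn (jac ω x) + y)) ∧
  S4 (jac (bb W ω) x) ≤ C * (S4 (jac ω x) + ∑ k, ω x k ^ 4) ∧ sq2 (bb W ω) x ≤ C * sq2 ω x

/-- Bochner inequality and maximum principle for one step -/
def BoStmt : Prop := ∀ K : ℝ, ∃ C ≥ (1 : ℝ), ∀ (n : ℕ) (W : Mx n), Nice W K → ∀ h : ℝ, 0 ≤ h →
  C * h * (n + 1) ≤ 1 → ∀ ξ σ : VF n,
  (∀ x, sq2 (stp W h ξ σ) x ≤ Qh W h (sq2 ξ) x + h * (C * sq2 ξ x + 2 * sq2 σ x)) ∧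
  ∀ y z, (∀ x i, |ξ x i| ≤ y) → (∀ x i, |σ x i| ≤ z) →
    ∀ x i, |stp W h ξ σ x i| ≤ (1 - h) * y + h * z

/-- maximum principle for the operator norm of the Jacobian -/
def OpStmt : Prop := ∀ K : ℝ, ∃ C ≥ (1 : ℝ), ∀ (n : ℕ) (W : Mx n), Nice W K → ∀ h : ℝ, 0 ≤ h →
  h * n ≤ 1 → ∀ (ω σ : VF n) (M N : ℝ), (∀ x, opn (jac ω x) ≤ M) → (∀ x, opn (jac σ x) ≤ N) →
  ∀ x, opn (jac (stp W h ω σ) x) ≤ (1 + C * h) * M + h * N

/-- pointwise first-order inequality for `So` -/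
def PtStmt : Prop := ∀ K : ℝ, ∃ C ≥ (1 : ℝ), ∀ (n : ℕ) (W : Mx n), Nice W K → ∀ (ω σ : VF n) x,
  4 * fp (off (jac ω x) * (off (jac ω x))ᵀ * off (jac ω x)) (off (dj W ω σ x)) +
      4 * ∑ i, jac ω x i i ^ 3 * dj W ω σ x i i ≤
    gen (mu W) (fun z => So (jac ω z)) x + C * (So (jac ω x) + S4 (jac σ x))

/-- one step of `So` under the Gibbs measure -/
def S4Stmt : Prop := ∀ K : ℝ, ∃ C ≥ (1 : ℝ), ∀ (n : ℕ) (W : Mx n), Nice W K →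
  ∀ᶠ h : ℝ in 𝓝[>] 0, ∀ ω σ : VF n,
  mean (prob (mu W)) (fun x => So (jac (stp W h ω σ) x)) ≤
    (1 + C * h) * mean (prob (mu W)) (fun x => So (jac ω x)) +
      C * h * mean (prob (mu W)) fun x => S4 (jac σ x)

/-- the clip -/
def ClStmt : Prop := ∀ η > (0 : ℝ), (∀ z, |clip η z| ≤ η ∧ |z - clip η z| ≤ z ^ 2 / η) ∧
  (∀ z z', |clip η z - clip η z'| ≤ |z - z'| ∧ |z - clip η z - (z' - clip η z')| ≤ |z - z'|) ∧
  ∀ (n : ℕ) (b : VF n) (x : Cube n) (N : ℝ), opn (jac b x) ≤ N →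
    opn (jac (fun z i => clip η (b z i)) x) ≤ N + N ^ 2 / η

/-- self-bounding Herbst argument -/
structure SbStmt : Prop where
  gen : ∀ (n : ℕ) (w : Cube n → ℝ), (∀ x, 0 < w x) → ∀ K > (0 : ℝ), Ent.AT w K 0 →
    ∀ (f : Cube n → ℝ) (B : ℝ), 0 < B → (∀ x, 0 ≤ f x) →
    (∀ x, ∑ j, max (f x - f (fl x j)) 0 ^ 2 ≤ B * f x) → ∀ v, IsP v →
    mean v f ≤ 2 * mean (prob w) f + K * B * Ent.kl v (prob w)
  vec : ∀ (n : ℕ) (w : Cube n → ℝ), (∀ x, 0 < w x) → ∀ K > (0 : ℝ), Ent.AT w K 0 →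
    ∀ (ω : VF n) (M : ℝ), 0 < M → (∀ x, opn (jac ω x) ≤ M) → ∀ H v, Wm w H v →
    mean v (sq2 ω) ≤ 2 * mean (prob w) (sq2 ω) + 4 * K * M ^ 2 * H

/-- fourth moments of odd fields; tails of the local fields -/
def P4Stmt : Prop := ∀ K > (0 : ℝ), ∃ C ≥ (1 : ℝ), ∀ (n : ℕ) (W : Mx n), Nice W K →
  Ent.AT (mu W) K 0 →
  (∀ ω : VF n, Odd ω → mean (prob (mu W)) (fun x => ∑ i, ω x i ^ 4) ≤
    C * mean (prob (mu W)) fun x => S4 (jac ω x)) ∧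
  ∀ A ≥ (0 : ℝ), mean (prob (mu W)) (fun x => ∑ k, if A < |loc W 0 x k| then (1 : ℝ) else 0) ≤
    2 * n * exp (-(A ^ 2 / C))

/-- **REG**: the gradient of `∑ α j • P_(u j) Φ` at warm measures -/
def RegStmt : Prop := ∀ K > (0 : ℝ), ∃ C ≥ (1 : ℝ), ∀ (n : ℕ) (W : Mx n), 0 < n → Nice W K →
  Ent.AT (mu W) K 0 → ∀ (Φ : Cube n → ℝ) (ω0 : VF n) (e ρ H U A : ℝ), 0 < e → 1 ≤ H → H ≤ n →
  0 ≤ U → 0 ≤ A → Odd ω0 → (∀ x i, |ω0 x i| ≤ e) → (∀ x, opn (jac ω0 x) ≤ e) →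
  (∀ v, Wm (mu W) H v → mean v (sq2 (grad Φ - ω0)) ≤ ρ) →
  ∀ (d : ℕ) (u α : Fin d → ℝ), (∀ j, 0 ≤ u j ∧ u j ≤ U) → ∀ v, Wm (mu W) H v →
  mean v (sq2 (grad fun x => ∑ j, α j * sg (mu W) (u j) Φ x)) ≤
    8 * cosh A ^ 2 * dir (mu W) (fun x => ∑ j, α j * sg (mu W) (u j) Φ x) +
      C * exp (C * U) * (∑ j, |α j|) ^ 2 * (ρ + e ^ 2 * (√(n * H) + n * exp (-(A ^ 2 / C))))


/-- the couplings are nice with high probability -/
def NiceStmt : Prop := ∃ K > (0 : ℝ), Top.Whp disorderLaw fun n g =>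
  ∀ β : ℝ, 0 ≤ β → β ≤ 1 → Nice (β • Jmat n g) K

def JbGlue : Prop := ToolStmt → JacStmt → CoefStmt → JbStmt
def BoGlue : Prop := BasStmt → CoefStmt → BoStmt
def OpGlue : Prop := ToolStmt → JacStmt → CoefStmt → OpStmt
def PtGlue : Prop := ToolStmt → BasStmt → JacStmt → CoefStmt → PtStmt
def S4Glue : Prop := ToolStmt → JacStmt → PtStmt → S4Stmt
def ClGlue : Prop := ToolStmt → ClStmt
def P4Glue : Prop := ToolStmt → BasStmt → P4Stmt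
def RegGlue : Prop := ToolStmt → BasStmt → JbStmt → BoStmt → OpStmt → S4Stmt → ClStmt → SbStmt →
  P4Stmt → RegStmt


end Crest.Agent.T157.Reg

end
private theorem rz_c57150e6aa : type_of% @_root_.Crest.Agent.T157.Reg.clf.eq_def := @_root_.Crest.Agent.T157.Reg.clf.eq_def -- L71
private theorem rz_826ffaa830 : type_of% @_root_.Crest.Agent.T157.Reg.clf.eq_1 := @_root_.Crest.Agent.T157.Reg.clf.eq_1 -- L71
private theorem rz_618b21432b : type_of% @_root_.Crest.Agent.T157.Reg.lin.eq_def := @_root_.Crest.Agent.T157.Reg.lin.eq_def -- L67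
private theorem rz_b399358069 : type_of% @_root_.Crest.Agent.T157.Reg.lin.eq_1 := @_root_.Crest.Agent.T157.Reg.lin.eq_1 -- L67
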