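import Crest.Agent.T157.EntE_34
import Crest.Agent.T157.LowDef_85
import Crest.Agent.T157.RecB_77

-- ▼ part T157/EntF_34
section

/-!
Row 157, part E (helper34): finite entropy toolbox VI.
`q`-log-Sobolev inequalities for `q` close to `1`: hypercontractivity and burn-in estimates from
approximate tensorisation alone.
-/

set_option autoImplicit false
set_option linter.unusedSectionVars false

namespace Crest.Agent.T157.Ent

open Finset Matrix Chain22 Function Filter Topology

section chain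
variable {Ω : Type*} [Fintype Ω]

/-- `q`-log-Sobolev inequalities for `1 < q ≤ 1 + η` -/
def QLSI (c : RC Ω) (K B η : ℝ) : Prop :=
  ∀ q : ℝ, 1 < q → q ≤ 1 + η → ∀ u : Ω → ℝ, (∀ x, 0 < u x) →
    (q - 1) * ent c.π (fun x => u x ^ q) ≤
      K * c.D (fun x => u x ^ (q - 1)) u + (q - 1) * B * mean c.π fun x => u x ^ q

variable {c : RC Ω}

theorem D_rpow_nonneg {u : Ω → ℝ} (hu : ∀ x, 0 < u x) {q : ℝ} (hq : 1 < q) :
    0 ≤ c.D (fun x => u x ^ (q - 1)) u := by
  have h1 := stroock_varopoulos c hu hq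
  have h2 := c.D_nonneg fun x => u x ^ (q / 2)
  refine le_of_mul_le_mul_left (le_trans ?_ h1) (by positivity : 0 < q ^ 2)
  rw [mul_zero]
  exact mul_nonneg (by linarith) h2

theorem LSI.qlsi {K B : ℝ} (h : LSI c K B) (hK : 0 ≤ K) {η : ℝ} :
    QLSI c (K * (1 + η) ^ 2 / 4) B η := fun q hq hq' u hu => by
  have h1 := h fun x => u x ^ (q / 2)
  have e : (fun x => (u x ^ (q / 2)) ^ 2) = fun x => u x ^ q := funext fun x => by
    rw [← Real.rpow_natCast, ← Real.rpow_mul (hu x).le]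
    congr 1; push_cast; ring
  rw [e] at h1
  have h2 := stroock_varopoulos c hu hq
  have h3 := D_rpow_nonneg (c := c) hu hq
  have h4 : q ^ 2 ≤ (1 + η) ^ 2 := pow_le_pow_left₀ (by linarith) hq' 2
  nlinarith [mul_le_mul_of_nonneg_left h1 (by linarith : 0 ≤ q - 1),
    mul_le_mul_of_nonneg_left h2 hK, mul_le_mul_of_nonneg_left h4 (mul_nonneg hK h3)]

variable [DecidableEq Ω]

theorem qgross_aux {K B η κ p : ℝ} (h : QLSI c K B η) (hκ : 0 ≤ κ) (hκK : κ * K ≤ 1) (hp : 1 < p)
    {f : Ω → ℝ} (hf : ∀ x, 0 < f x) {t : ℝ} (ht : 0 ≤ t)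
    (hη : 1 + (p - 1) * Real.exp (κ * t) ≤ 1 + η) :
    Real.log (mean c.π fun x => (c.H t *ᵥ f) x ^ (1 + (p - 1) * Real.exp (κ * t))) /
        (1 + (p - 1) * Real.exp (κ * t)) + B / (1 + (p - 1) * Real.exp (κ * t)) ≤
      Real.log (mean c.π fun x => f x ^ p) / p + B / p := by
  set q : ℝ → ℝ := fun s => 1 + (p - 1) * Real.exp (κ * s) with hq
  have hq1 : ∀ s, 1 < q s := fun s => by
    have : 0 < (p - 1) * Real.exp (κ * s) := mul_pos (by linarith) (Real.exp_pos _)
    simp only [hq]; linarith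
  have hq2 : ∀ s, s ≤ t → q s ≤ 1 + η := fun s hs => by
    refine le_trans ?_ hη
    simp only [hq]
    gcongr
  have dq : ∀ s, HasDerivAt q (κ * (q s - 1)) s := fun s =>
    (((((hasDerivAt_id s).const_mul κ).exp).const_mul (p - 1)).const_add 1).congr_deriv (by
      simp only [hq, id]; ring)
  set u : ℝ → Ω → ℝ := fun s => c.H s *ᵥ f with hu
  set Z : ℝ → ℝ := fun s => mean c.π fun x => u s x ^ q s with hZ
  have hZ0 : ∀ s, 0 ≤ s → 0 < Z s := fun s hs =>
    mean_pos c.isP fun x => Real.rpow_pos_of_pos (H_pos hs hf x) _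
  have dZ : ∀ s, 0 ≤ s → HasDerivAt Z (κ * (q s - 1) / q s *
      (ent c.π (fun x => u s x ^ q s) + Z s * Real.log (Z s)) -
      q s * c.D (fun x => u s x ^ (q s - 1)) (u s)) s := fun s hs => by
    refine (hasDerivAt_mean (π := c.π) fun x => (c.hasDerivAt_H_mulVec f x s).rpow (dq s)
      (H_pos hs hf x)).congr_deriv ?_
    rw [ent_eq, sub_add_cancel, ← mean_const_mul, sub_eq_add_neg (mean _ _), ← mul_neg,
      ← mean_mul_gen, ← mean_const_mul, ← mean_add']
    refine mean_congr fun x => ?_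
    rw [Real.log_rpow (H_pos hs hf x)]
    have := (lt_trans zero_lt_one (hq1 s)).ne'
    simp only [hu]
    field_simp
    ring
  have hd : ∀ s, 0 ≤ s → HasDerivAt (fun s => Real.log (Z s) / q s + B / q s)
      ((κ * (q s - 1) * (ent c.π (fun x => u s x ^ q s) - B * Z s) -
        q s ^ 2 * c.D (fun x => u s x ^ (q s - 1)) (u s)) / (q s ^ 2 * Z s)) s := fun s hs => by
    have h0 := (lt_trans zero_lt_one (hq1 s)).ne'
    refine (((((dZ s hs).log (hZ0 s hs).ne').fun_div (dq s) h0)).fun_add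
      ((hasDerivAt_const s B).fun_div (dq s) h0)).congr_deriv ?_
    have := (hZ0 s hs).ne'
    field_simp
    ring
  have ha : AntitoneOn (fun s => Real.log (Z s) / q s + B / q s) (Set.Icc 0 t) :=
    antitoneOn_of_deriv_nonpos (convex_Icc 0 t)
      (fun s hs => (hd s hs.1).continuousAt.continuousWithinAt)
      (fun s hs => (hd s (interior_subset hs).1).differentiableAt.differentiableWithinAt)
      fun s hs => by
        have hs0 : 0 ≤ s := (interior_subset hs).1
        rw [(hd s hs0).deriv]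
        refine div_nonpos_of_nonpos_of_nonneg ?_ (mul_nonneg (sq_nonneg _) (hZ0 s hs0).le)
        have h1 := h (q s) (hq1 s) (hq2 s (interior_subset hs).2) (u s) (H_pos hs0 hf)
        have h3 := D_rpow_nonneg (c := c) (H_pos (c := c) hs0 hf) (hq1 s)
        have h5 := mul_le_mul_of_nonneg_left h1 hκ
        have h6 := mul_le_mul_of_nonneg_right hκK h3
        have h7 : 1 ≤ q s ^ 2 := one_le_pow₀ (hq1 s).le
        have h8 := mul_le_mul_of_nonneg_right h7 h3
        simp only [hZ, hu] at h5 h6 h8 ⊢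
        nlinarith
  have h1 := ha ⟨le_refl (0 : ℝ), ht⟩ ⟨ht, le_rfl⟩ ht
  simp only [hZ, hu, hq, mul_zero, Real.exp_zero, mul_one, c.H_zero, one_mulVec, add_sub_cancel]
    at h1
  exact h1

/-- hypercontractivity near `L¹` -/
theorem QLSI.hyper {K B η p q : ℝ} (h : QLSI c K B η) (hK : 0 < K) (hp : 1 < p) (hpq : p ≤ q)
    (hη : q ≤ 1 + η) {t : ℝ} (ht : 0 ≤ t) (hq : q - 1 ≤ (p - 1) * Real.exp (t / K)) (f : Ω → ℝ) :
    lp c.π q (c.H t *ᵥ f) ≤ Real.exp (B * (1 / p - 1 / q)) * lp c.π p f := by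
  have hp1 : 0 < p - 1 := by linarith
  obtain ⟨κ, hκ, hκK, hκq⟩ : ∃ κ : ℝ, 0 ≤ κ ∧ κ * K ≤ 1 ∧ 1 + (p - 1) * Real.exp (κ * t) = q := by
    rcases eq_or_lt_of_le ht with h0 | h0
    · refine ⟨0, le_rfl, by norm_num, ?_⟩
      rw [← h0] at hq
      simp at hq ⊢
      linarith
    · have h1 : 1 ≤ (q - 1) / (p - 1) := by rw [le_div_iff₀ hp1]; linarith
      refine ⟨Real.log ((q - 1) / (p - 1)) / t, div_nonneg (Real.log_nonneg h1) h0.le, ?_, ?_⟩
      · have : Real.log ((q - 1) / (p - 1)) ≤ t / K := by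
          rw [Real.log_le_iff_le_exp (by linarith), div_le_iff₀ hp1]; linarith
        rw [le_div_iff₀ hK] at this
        rw [div_mul_eq_mul_div, div_le_iff₀ h0, one_mul]; exact this
      · rw [div_mul_cancel₀ _ h0.ne', Real.exp_log (by linarith)]
        field_simp; ring
  have key : ∀ g : Ω → ℝ, (∀ x, 0 < g x) → mean c.π (fun x => (c.H t *ᵥ g) x ^ q) ^ (1 / q) ≤
      Real.exp (B * (1 / p - 1 / q)) * mean c.π (fun x => g x ^ p) ^ (1 / p) := by
    intro g hg
    have h1 := qgross_aux h hκ hκK hp hg ht (hκq ▸ hη)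
    rw [hκq] at h1
    rw [Real.rpow_def_of_pos (mean_pos c.isP fun x => Real.rpow_pos_of_pos (H_pos ht hg x) _),
      Real.rpow_def_of_pos (mean_pos c.isP fun x => Real.rpow_pos_of_pos (hg x) _), ← Real.exp_add]
    refine Real.exp_le_exp.2 ?_
    simp only [div_eq_mul_inv, one_mul] at h1 ⊢
    linarith
  have c2 : Continuous fun δ : ℝ => Real.exp (B * (1 / p - 1 / q)) *
      mean c.π (fun x => (|f x| + δ) ^ p) ^ (1 / p) := by
    refine continuous_const.mul (Continuous.rpow_const ?_ fun _ => Or.inr (by positivity))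
    exact continuous_finsetSum _ fun x _ => continuous_const.mul
      (Continuous.rpow_const (by fun_prop) fun _ => Or.inr (by linarith))
  have t2 := (c2.tendsto 0).mono_left (nhdsWithin_le_nhds (s := Set.Ioi 0))
  simp only [add_zero] at t2
  refine ge_of_tendsto t2 (eventually_nhdsWithin_of_forall fun δ hδ => ?_)
  have hg : ∀ x, 0 < |f x| + δ := fun x => add_pos_of_nonneg_of_pos (abs_nonneg _) hδ
  refine le_trans ?_ (key _ hg)
  rw [← lp_of_nonneg q fun x => (H_pos ht hg x).le]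
  refine lp_mono c.isP (by linarith) fun x => ?_
  rw [abs_of_pos (H_pos ht hg x), H_add_const]
  linarith [abs_H_le (c := c) ht f x, show 0 < δ from hδ]

theorem QLSI.renyi {K B η : ℝ} (h : QLSI c K B η) (hK : 0 < K) (hB : 0 ≤ B) (hη : 0 < η) {t : ℝ}
    (ht : 0 ≤ t) {f : Ω → ℝ} (hf : ∀ x, 0 ≤ f x) (h1 : mean c.π f ≤ 1) {L : ℝ} (hL0 : 0 ≤ L)
    (hL : ∀ x, f x ≤ Real.exp L) :
    lp c.π (1 + η) (c.H t *ᵥ f) ≤ Real.exp (η * (B + L * Real.exp (-(t / K)))) := by
  set e := Real.exp (-(t / K)) with he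
  have he0 : 0 < e := Real.exp_pos _
  have he1 : e ≤ 1 := Real.exp_le_one_iff.2 (neg_nonpos.2 (by positivity))
  have h3 : 0 < η * e := mul_pos hη he0
  have hp : 1 < 1 + η * e := by linarith
  have h2 := h.hyper hK hp (q := 1 + η) (by nlinarith) le_rfl ht (le_of_eq (by
    rw [add_sub_cancel_left, add_sub_cancel_left, mul_assoc, he, ← Real.exp_add]; simp)) f
  refine h2.trans ((mul_le_mul_of_nonneg_left (lp_le_of_bdd c.isP hf h1 hL hp.le)
    (Real.exp_pos _).le).trans ?_)
  rw [← Real.exp_add, mul_add]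
  refine Real.exp_le_exp.2 (add_le_add ?_ ?_)
  · rw [mul_comm η B]
    refine mul_le_mul_of_nonneg_left ?_ hB
    have a1 : 1 / (1 + η * e) ≤ 1 := by rw [div_le_one (by linarith)]; linarith
    have a2 : 1 - η ≤ 1 / (1 + η) := by rw [le_div_iff₀ (by linarith)]; nlinarith
    linarith
  · rw [mul_left_comm]
    refine mul_le_mul_of_nonneg_left ?_ hL0
    rw [sub_le_iff_le_add, ← sub_le_iff_le_add', le_div_iff₀ (by linarith)]
    nlinarith



end chain

/-! ### Two points -/

theorem cov_bool {p : Bool → ℝ} (hp : IsP p) (f g : Bool → ℝ) :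
    mean p (fun b => f b * g b) - mean p f * mean p g =
      p true * p false * ((f true - f false) * (g true - g false)) := by
  have := hp.sum1
  rw [Fintype.sum_bool] at this
  simp only [mean, Fintype.sum_bool]
  have e : p false = 1 - p true := by linarith
  rw [e]; ring

theorem var_bool {p : Bool → ℝ} (hp : IsP p) (f : Bool → ℝ) :
    var p f = p true * p false * (f true - f false) ^ 2 := by
  rw [hp.var_eq, sq, sq, ← cov_bool hp]; rfl

theorem two_aux {η : ℝ} (h0 : 0 < η) (h1 : η ≤ 1) {a b : ℝ} (h : b ≤ a) :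
    η * ((Real.exp ((1 + η) * a) - Real.exp ((1 + η) * b)) * ((1 + η) * a - (1 + η) * b)) ≤
        8 * ((Real.exp (η * a) - Real.exp (η * b)) * (Real.exp a - Real.exp b)) ∨
      (Real.exp ((1 + η) / 2 * a) - Real.exp ((1 + η) / 2 * b)) ^ 2 ≤
        3 * ((Real.exp (η * a) - Real.exp (η * b)) * (Real.exp a - Real.exp b)) := by
  obtain ⟨d, rfl⟩ : ∃ d, a = b + d := ⟨a - b, by ring⟩
  have hd : 0 ≤ d := by linarith
  set X := Real.exp (η * d) with hX
  set Y := Real.exp d with hY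
  set S := Real.exp ((1 + η) * b) with hS
  have hS0 : 0 < S := Real.exp_pos _
  have XY : X ≤ Y := Real.exp_le_exp.2 (by nlinarith)
  have X1 : η * d + 1 ≤ X := Real.add_one_le_exp _
  have hηd : 0 ≤ η * d := by positivity
  have e0 : (Real.exp (η * (b + d)) - Real.exp (η * b)) * (Real.exp (b + d) - Real.exp b) =
      S * ((X - 1) * (Y - 1)) := by
    rw [mul_add, Real.exp_add, Real.exp_add, hS, add_mul, one_mul, Real.exp_add]; ring
  rw [e0]
  rcases le_total (η * d) 1 with k | k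
  · left
    have X3 : X ≤ 3 := (Real.exp_le_exp.2 k).trans (by linarith [Real.exp_one_lt_d9])
    have e1 : Real.exp ((1 + η) * (b + d)) = S * (X * Y) := by
      rw [hS, hX, hY, ← Real.exp_add, ← Real.exp_add]; congr 1; ring
    rw [e1]
    have b1 : X * Y - 1 ≤ 4 * (Y - 1) := by nlinarith
    have b2 : η * d * (1 + η) ≤ 2 * (X - 1) := by nlinarith
    have b3 := mul_le_mul b1 b2 (by positivity) (by nlinarith)
    nlinarith [mul_le_mul_of_nonneg_left b3 hS0.le]
  · right
    have X3 : 2.7 ≤ X := le_trans (by linarith [Real.exp_one_gt_d9]) (Real.exp_le_exp.2 k)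
    have e1 : Real.exp ((1 + η) / 2 * (b + d)) ^ 2 = S * (X * Y) := by
      rw [hS, hX, hY, ← Real.exp_add, ← Real.exp_add, sq, ← Real.exp_add]; congr 1; ring
    have b1 : Real.exp ((1 + η) / 2 * b) ≤ Real.exp ((1 + η) / 2 * (b + d)) :=
      Real.exp_le_exp.2 (by nlinarith)
    have b2 := Real.exp_pos ((1 + η) / 2 * b)
    have b3 : X * Y ≤ 3 * ((X - 1) * (Y - 1)) := by nlinarith
    nlinarith [mul_le_mul_of_nonneg_left b3 hS0.le]

theorem ent_bool_rpow_le {p : Bool → ℝ} (hp : IsP p) {ℓ : ℝ} (hℓ : 0 ≤ ℓ)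
    (hL : ∀ f : Bool → ℝ, ent p (fun b => f b ^ 2) ≤ (3 + ℓ) * var p f) {η : ℝ} (h0 : 0 < η)
    (h1 : η ≤ 1) {u : Bool → ℝ} (hu : ∀ b, 0 < u b) :
    η * ent p (fun b => u b ^ (1 + η)) ≤ (9 + 3 * (η * ℓ)) *
      (mean p (fun b => u b ^ η * u b) - mean p (fun b => u b ^ η) * mean p u) := by
  have e1 := ent_le_cov hp (f := fun b => u b ^ (1 + η)) fun b => Real.rpow_pos_of_pos (hu b) _
  have e2 := hL fun b => u b ^ ((1 + η) / 2)
  have e : (fun b => (u b ^ ((1 + η) / 2)) ^ 2) = fun b => u b ^ (1 + η) := funext fun b => by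
    rw [← Real.rpow_natCast, ← Real.rpow_mul (hu b).le]
    congr 1; push_cast; ring
  rw [e, var_bool hp] at e2
  rw [cov_bool hp] at e1 ⊢
  have pp : 0 ≤ p true * p false := mul_nonneg (hp.nn _) (hp.nn _)
  have key : η * ((u true ^ (1 + η) - u false ^ (1 + η)) *
        (Real.log (u true ^ (1 + η)) - Real.log (u false ^ (1 + η)))) ≤
        8 * ((u true ^ η - u false ^ η) * (u true - u false)) ∨
      (u true ^ ((1 + η) / 2) - u false ^ ((1 + η) / 2)) ^ 2 ≤
        3 * ((u true ^ η - u false ^ η) * (u true - u false)) := by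
    simp only [Real.rpow_def_of_pos (hu _), Real.log_exp, mul_comm (Real.log _)]
    rcases le_total (Real.log (u false)) (Real.log (u true)) with h | h
    · have := two_aux h0 h1 h
      rwa [Real.exp_log (hu _), Real.exp_log (hu _)] at this
    · have := two_aux h0 h1 h
      rw [Real.exp_log (hu _), Real.exp_log (hu _)] at this
      rcases this with h' | h'
      · left; linarith
      · right; linarith
  have c0 : 0 ≤ (u true ^ η - u false ^ η) * (u true - u false) := by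
    rcases le_total (u false) (u true) with h | h
    · exact mul_nonneg (sub_nonneg.2 (Real.rpow_le_rpow (hu _).le h h0.le)) (sub_nonneg.2 h)
    · exact mul_nonneg_of_nonpos_of_nonpos (sub_nonpos.2 (Real.rpow_le_rpow (hu _).le h h0.le))
        (sub_nonpos.2 h)
  have c1 := mul_nonneg pp c0
  have c2 : 0 ≤ η * ℓ := by positivity
  rcases key with k | k
  · nlinarith [mul_le_mul_of_nonneg_left e1 h0.le, mul_le_mul_of_nonneg_left k pp,
      mul_nonneg c2 c1]
  · have k' := mul_le_mul_of_nonneg_left k (mul_nonneg (by positivity : 0 ≤ η * (3 + ℓ)) pp)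
    nlinarith [mul_le_mul_of_nonneg_left e2 h0.le, mul_le_mul_of_nonneg_right h1 c1]

/-! ### The cube -/

open Crest.Agent.T157.E (Cube prob siteM dir dir2 hbCt)

variable {n : ℕ} {w : Cube n → ℝ}

theorem siteD_eq (hw : ∀ x, 0 < w x) (f g : Cube n → ℝ) (i : Fin n) :
    (siteRC hw i).D f g = mean (prob w) fun x =>
      mean (cnd w i x) (fun b => f (update x i b) * g (update x i b)) -
        mean (cnd w i x) (fun b => f (update x i b)) * mean (cnd w i x) fun b => g (update x i b) := by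
  simp only [mean_cnd w fun x => f x * g x, mean_cnd]
  rw [mean_sub', mean_siteM hw, ← ip_eq_mean, ← ip_eq_mean, ip_siteM_siteM hw, RC.D, ip_sub_right]
  congr 2
  exact sk_mulVec w i _

theorem entS_rpow_le (hw : ∀ x, 0 < w x) {η : ℝ} (h0 : 0 < η) (h1 : η ≤ 1) (i : Fin n)
    (hlf : ∀ x, η * lf w i x ≤ 1) {u : Cube n → ℝ} (hu : ∀ x, 0 < u x) :
    η * entS w (fun x => u x ^ (1 + η)) i ≤ 12 * (siteRC hw i).D (fun x => u x ^ η) u := by
  rw [siteD_eq, entS, ← mean_const_mul, ← mean_const_mul]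
  refine (isP_prob' hw).mean_mono fun x => ?_
  refine (ent_bool_rpow_le (isP_cnd hw i x) (lf_nonneg w i x) (ent_cnd_sq_le hw i x) h0 h1
    (u := fun b => u (update x i b)) fun _ => hu _).trans
    (mul_le_mul_of_nonneg_right (by linarith [hlf x]) ?_)
  rw [cov_bool (isP_cnd hw i x)]
  refine mul_nonneg (mul_nonneg (cnd_pos hw i x _).le (cnd_pos hw i x _).le) ?_
  rcases le_total (u (update x i false)) (u (update x i true)) with h | h
  · exact mul_nonneg (sub_nonneg.2 (Real.rpow_le_rpow (hu _).le h h0.le)) (sub_nonneg.2 h)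
  · exact mul_nonneg_of_nonpos_of_nonpos (sub_nonpos.2 (Real.rpow_le_rpow (hu _).le h h0.le))
      (sub_nonpos.2 h)

/-- approximate tensorisation and bounded local fields give `q`-log-Sobolev near `q = 1` -/
theorem AT.qlsi {K B η : ℝ} (h : AT w K B) (hn : 0 < n) (hw : ∀ x, 0 < w x) (hK : 0 ≤ K)
    (h1 : η ≤ 1) (hlf : ∀ i x, η * lf w i x ≤ 1) : QLSI (hbRC hn hw) (12 * K * n) B η := by
  intro q hq hq' u hu
  obtain ⟨θ, rfl⟩ : ∃ θ, q = 1 + θ := ⟨q - 1, by ring⟩
  have θ0 : 0 < θ := by linarith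
  have e1 := h (fun x => u x ^ (1 + θ)) fun x => (Real.rpow_pos_of_pos (hu x) _).le
  have e2 : θ * ∑ i, entS w (fun x => u x ^ (1 + θ)) i ≤ 12 * dir2 w (fun x => u x ^ θ) u := by
    rw [dir2_eq_sum hw, mul_sum, mul_sum]
    exact sum_le_sum fun i _ => entS_rpow_le hw θ0 (by linarith) i (fun x =>
      (mul_le_mul_of_nonneg_right (by linarith) (lf_nonneg w i x)).trans (hlf i x)) hu
  rw [dir2_eq_D hn hw] at e2
  simp only [add_sub_cancel_left]
  change θ * E.ent w _ ≤ _ + θ * B * E.mean w _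
  nlinarith [mul_le_mul_of_nonneg_left e1 θ0.le, mul_le_mul_of_nonneg_left e2 hK]


/-- Rényi norm of the evolved density -/
theorem AT.renyi {K B η : ℝ} (h : AT w K B) (hn : 0 < n) (hw : ∀ x, 0 < w x) (hK : 0 < K)
    (hB : 0 ≤ B) (h0 : 0 < η) (h1 : η ≤ 1) (hlf : ∀ i x, η * lf w i x ≤ 1) {t : ℝ} (ht : 0 ≤ t)
    {f : Cube n → ℝ} (hf : ∀ x, 0 ≤ f x) (hf1 : E.mean w f ≤ 1) {L : ℝ} (hL0 : 0 ≤ L)
    (hL : ∀ x, f x ≤ Real.exp L) :
    lp (prob w) (1 + η) (sg w t f) ≤ Real.exp (η * (B + L * Real.exp (-(t / (12 * K))))) := by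
  have hn' : (0 : ℝ) < n := by exact_mod_cast hn
  have := (h.qlsi hn hw hK.le h1 hlf).renyi (by positivity) hB h0 (t := n * t) (by positivity)
    hf hf1 hL0 hL
  rw [show (n : ℝ) * t / (12 * K * n) = t / (12 * K) by field_simp] at this
  rw [sg_eq hn hw]
  exact this

/-- entropy decay from approximate tensorisation -/
theorem AT.ent_sg_le {K B : ℝ} (h : AT w K B) (hn : 0 < n) (hw : ∀ x, 0 < w x) (hK : 0 < K)
    (hB : 0 ≤ B) {f : Cube n → ℝ} (hf : ∀ x, 0 ≤ f x) {t : ℝ} (ht : 0 ≤ t) :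
    E.ent w (sg w t f) ≤ Real.exp (-(t / K)) * E.ent w f + B * E.mean w f := by
  have hn' : (0 : ℝ) < n := by exact_mod_cast hn
  have := ((mlsi_iff hn hw K B).2 fun f hf => h.mlsi hw hK.le hf).ent_H_le (by positivity) hB hf
    (t := n * t) (by positivity)
  rw [show (n : ℝ) * t / (K * n) = t / K by field_simp] at this
  rw [sg_eq hn hw]
  exact this

end Crest.Agent.T157.Ent
end

-- ▼ part T157/RvDef_32

/-!
# Row 157, part B (helper32): the words of the top of the upper half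

Densities `f` with respect to `μ = prob w`; `sg w t f` is the density at time `t`.
-/

set_option autoImplicit false

noncomputable section

namespace Crest.Agent.T157.Rv

open Matrix Real Filter
open Crest.ProbabilityR.SpinGlassDynamics
open Crest.Agent.T157.E Crest.Agent.T157.Top
open Crest.Agent.T157.Chain22 (sg)
open Crest.Agent.T157.Low (tn)
open Crest.Agent.T157.Rec (grad)

variable {n : ℕ}

/-- a positive density bounded by `exp m` -/
def Warm (w : Cube n → ℝ) (m : ℝ) (f : Cube n → ℝ) : Prop :=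
  (∀ x, 0 < f x) ∧ mean w f = 1 ∧ ∀ x, f x ≤ exp m

/-- entropy production -/
def II (w f : Cube n → ℝ) : ℝ := dir2 w f fun x => log (f x)

/-- tight approximate tensorisation (the words of `Glue.AtTight`) -/
def At0 : Prop := ∀ β : ℝ, 0 ≤ β → β < 1 → ∃ K > (0 : ℝ),
  Whp disorderLaw fun n g => Ent.AT (gibbsWeight n β g) K 0

/-- **(UW)** entropy upper bound from warm starts -/
def UW (β lam : ℝ) : Prop := ∀ c > (0 : ℝ), ∀ e > (0 : ℝ), Whp disorderLaw fun n g =>
  ∀ f, Warm (gibbsWeight n β g) ((n : ℝ) ^ (1 - c)) f → ∀ t, 0 ≤ t → t ≤ tn lam n →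
    ent (gibbsWeight n β g) (sg (gibbsWeight n β g) t f) ≤ (n : ℝ) ^ (1 + e) * exp (-(2 * lam * t))

/-- **(UB)** one block of length `δ log n` -/
def UB (β lam : ℝ) : Prop := ∀ c > (0 : ℝ), ∀ e > (0 : ℝ), ∃ δ > (0 : ℝ), δ ≤ e ∧
  Whp disorderLaw fun n g => ∀ f, Warm (gibbsWeight n β g) ((n : ℝ) ^ (1 - c)) f →
    ent (gibbsWeight n β g) (sg (gibbsWeight n β g) (δ * log n) f) ≤
      (n : ℝ) ^ (e * δ) * exp (-(2 * lam * (δ * log n))) * ent (gibbsWeight n β g) f + (n : ℝ) ^ e








end Crest.Agent.T157.Rv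

end
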