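import Crest.Agent.T157.BrTail_44
import Crest.Agent.T157.S1BuDef_83
import Crest.Agent.T157.S1Cr_89
import Crest.Agent.T157.BrCv_11

-- ▼ part T157/S1BuA_83
section

/-!
# Row 157, block S1 (helper83): expectations over a reveal followed by a channel
-/

set_option autoImplicit false
set_option linter.unusedSectionVars false

noncomputable section

namespace Crest.Agent.T157.S1.Bu83

open Real Matrix MeasureTheory ProbabilityTheory Finset
open Crest.Agent.T157.E Crest.Agent.T157.SL Crest.Agent.T157.Ta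

variable {Ω A κ : Type} [Fintype Ω] [Fintype A] [DecidableEq A] [Fintype κ] [DecidableEq κ]
  {φ : Ω → κ → ℝ} {v μ : Ω → ℝ} {ρ : Ω → A} {P : ℝ}

theorem g1 {β : ℝ} (hβ : 0 < β) :
    Integrable (fun x : ℝ => exp ((1 / 2 - β) * x ^ 2)) (gaussianReal 0 1) ∧
      ∫ x, exp ((1 / 2 - β) * x ^ 2) ∂gaussianReal 0 1 = √(1 / (2 * β)) := by
  have e : ∫ x, exp ((1 / 2 - β) * x ^ 2) ∂gaussianReal 0 1 = √(1 / (2 * β)) := by
    rw [integral_gaussianReal_eq_integral_smul one_ne_zero]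
    have : ∀ x : ℝ, gaussianPDFReal 0 1 x • exp ((1 / 2 - β) * x ^ 2) =
        (√(2 * π))⁻¹ * exp (-β * x ^ 2) := fun x => by
      simp only [gaussianPDFReal, smul_eq_mul, NNReal.coe_one, mul_one, sub_zero, mul_assoc, ← exp_add]
      congr 2; ring
    simp only [this]
    rw [integral_const_mul, integral_gaussian, ← sqrt_inv, ← sqrt_mul (by positivity)]
    congr 1
    field_simp
  exact ⟨.of_integral_ne_zero (by rw [e]; positivity), e⟩

theorem g6 (k : κ) : ∫ g : κ → ℝ, g k ^ 6 ∂gv κ ≤ 768 := by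
  obtain ⟨i1, e1⟩ := g1 (β := 1 / 4) (by norm_num)
  rw [integral_comp_eval (μ := fun _ : κ => gaussianReal 0 1) (i := k) (f := fun x : ℝ => x ^ 6)
    (by fun_prop)]
  refine (integral_mono_of_nonneg (.of_forall fun x => by positivity) (i1.const_mul 384)
    (.of_forall fun x => ?_)).trans ?_
  · have := pow_div_factorial_le_exp (x := (1 / 2 - 1 / 4) * x ^ 2) (by positivity) 3
    simp only [Nat.factorial, Nat.succ_eq_add_one] at this
    norm_num at this ⊢
    linarith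
  · rw [integral_const_mul, e1]
    have : √(1 / (2 * (1 / 4))) ≤ 2 := sqrt_le_iff.2 ⟨by norm_num, by norm_num⟩
    linarith

theorem cut_post (φ : Ω → κ → ℝ) (v : Ω → ℝ) (ρ : Ω → A) (P : ℝ) (u : κ → ℝ) (σ : A) :
    cut (post φ v P u) ρ σ = post φ (cut v ρ σ) P u := by
  ext x; simp only [cut, post]; split_ifs <;> simp

theorem rv_eq (hv : Wt v) (Y : A → (κ → ℝ) → ℝ) : slE φ v P (fun x u => Y (ρ x) u) =
    ∑ σ, push v ρ σ * slE φ (cut v ρ σ) P fun _ => Y σ :=
  (sum_push_mean hv ρ fun σ x => ∫ z, Y σ (P • φ x + √P • z) ∂gv κ).symm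

theorem rv_mean (hv : Wt v) (hw : ∀ σ, Wt (cut v ρ σ)) (hP : 0 ≤ P) {F : Ω → (κ → ℝ) → ℝ}
    (hF : ∀ x, XG (F x)) : slE φ v P (fun x u => mean (post φ (cut v ρ (ρ x)) P u) fun y => F y u) =
      slE φ v P F := by
  rw [rv_eq hv fun σ u => mean (post φ (cut v ρ σ) P u) fun y => F y u]
  simp only [← bayes (hw _) hP (.of_mg fun x => (hF x).mg)]
  exact sum_push_mean hv ρ fun _ x => ∫ z, F x (P • φ x + √P • z) ∂gv κ

theorem cut_kl (hv : Wt v) (hw : ∀ σ, Wt (cut v ρ σ)) (hμ : ∀ x, 0 < μ x) :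
    ∑ σ, push v ρ σ * kl (cut v ρ σ) μ ≤ kl v μ + log (Fintype.card A) := by
  have hp : ∀ σ, 0 < push v ρ σ := fun σ => by rw [push_eq]; exact div_pos (hw σ).pos hv.pos
  have hW := (Br.Sm54.pr hv hμ).hw
  have e1 : ∑ σ, push v ρ σ * kl (cut v ρ σ) μ =
      kl v μ + mean v fun x => -log (push v ρ (ρ x)) := by
    refine (sum_push_mean hv ρ fun σ x => log (prob (cut v ρ σ) x / prob μ x)).trans ?_
    rw [show kl v μ = mean v fun x => log (prob v x / prob μ x) from rfl, ← mean_add]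
    refine mean_congr_supp fun x hx => ?_
    have h1 : 0 < prob v x := div_pos (hv.pos_of_ne x hx) hv.pos
    have h2 : 0 < prob μ x := div_pos (hμ x) hW.pos
    rw [prob_cut hv, div_right_comm, log_div (div_pos h1 h2).ne' (hp _).ne', sub_eq_add_neg]
  have e2 : mean v (fun x => exp (-log (push v ρ (ρ x)))) = Fintype.card A := by
    rw [← sum_push_mean hv ρ fun σ _ => exp (-log (push v ρ σ))]
    simp only [(hw _).mean_const, exp_neg, exp_log (hp _), mul_inv_cancel₀ (hp _).ne', sum_const,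
      card_univ, nsmul_eq_mul, mul_one]
  have := mean_le_log hv fun x => -log (push v ρ (ρ x))
  rw [e2] at this
  linarith

theorem rv_kl (hv : Wt v) (hw : ∀ σ, Wt (cut v ρ σ)) (hP : 0 ≤ P) (hμ : ∀ x, 0 < μ x) (a : κ → ℝ) :
    slE φ v P (fun x u => kl (post φ (cut v ρ (ρ x)) P u) μ) ≤
      kl v μ + log (Fintype.card A) + P / 2 * mean v fun x => Br.sq (φ x - a) := by
  rw [rv_eq hv fun σ u => kl (post φ (cut v ρ σ) P u) μ,
    ← sum_push_mean hv ρ fun _ x => Br.sq (φ x - a), mul_sum]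
  refine le_trans ?_ (add_le_add (cut_kl hv hw hμ) le_rfl)
  rw [← sum_add_distrib]
  refine sum_le_sum fun σ _ => ?_
  have := mul_le_mul_of_nonneg_left (Br.Sm54.kl_ge (φ := φ) (Br.Sm54.pr (hw σ) hμ) hP a)
    (push_nonneg hv ρ σ)
  simp only [Br.sq]
  linarith

theorem rv_cnt {n : ℕ} {φ : Cube n → κ → ℝ} {v : Cube n → ℝ} {ρ : Cube n → A}
    {r : Fin n → Cube n → ℝ} (hv : Wt v) (hw : ∀ σ, Wt (cut v ρ σ)) (hP : 0 ≤ P) (hr : Off r)
    (h0 : ∀ i x, 0 ≤ r i x) :
    slE φ v P (fun x u => Cnt r (post φ (cut v ρ (ρ x)) P u)) ≤ Cnt r v := by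
  rw [rv_eq hv fun σ u => Cnt r (post φ (cut v ρ σ) P u)]
  refine (sum_le_sum fun σ _ => mul_le_mul_of_nonneg_left (Cnt_chan_le (hw σ) hP hr h0)
    (push_nonneg hv ρ σ)).trans ?_
  simp only [Cnt, mul_sum]
  rw [sum_comm]
  exact sum_le_sum fun i _ => Cs_cut_le hv (hr i) (h0 i) ρ

/-- the normalised likelihood of the observation -/
def mm (φ : Ω → κ → ℝ) (v : Ω → ℝ) (ρ : Ω → A) (P : ℝ) (σ : A) (u : κ → ℝ) : ℝ :=
  mean v fun x => (if ρ x = σ then 1 else 0) * exp (-(P / 2 * Br.sq (φ x - P⁻¹ • u)))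

theorem meas_mm (σ : A) : Measurable (mm φ v ρ P σ) := by
  unfold mm mean Br.sq dotProduct
  refine Finset.measurable_sum _ fun x _ => ?_
  fun_prop

theorem xg_min {c M : ℝ} (hc : 0 ≤ c) (hM : 0 ≤ M) (σ : A) :
    XG fun u => min (c * (√(mm φ v ρ P σ u))⁻¹) M :=
  .of_bdd (((meas_mm σ).sqrt.inv.const_mul c).min measurable_const) M fun u => by
    rw [abs_of_nonneg (le_min (by positivity) hM)]; exact min_le_right _ _

theorem rv_exp (hv : Wt v) (hP : 0 < P) {a c M : ℝ} (ha : 0 ≤ a) (hb : ∀ x k, P * φ x k ^ 2 ≤ a)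
    (hc : 0 ≤ c) (hM : 0 ≤ M) : slE φ v P (fun x u => min (c * (√(mm φ v ρ P (ρ x) u))⁻¹) M) ≤
      c * Fintype.card A * (4 * √(a + 1)) ^ Fintype.card κ := by
  obtain ⟨i1, e1⟩ := g1 (β := 1 / (8 * (a + 1))) (by positivity)
  set β := 1 / (8 * (a + 1)) with hβ
  have sP := mul_self_sqrt hP.le
  have sP0 := sqrt_pos.2 hP
  rw [slE_eq_ref' hP.le (.of_mg fun x => (xg_min hc hM (ρ x)).mg), ← integral_div]
  have key : ∀ z : κ → ℝ, (∑ x, post φ v P (√P • z) x *
      min (c * (√(mm φ v ρ P (ρ x) (√P • z)))⁻¹) M) / ∑ x, v x ≤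
      c * Fintype.card A * ∏ k, 2 * exp ((1 / 2 - β) * z k ^ 2) := fun z => by
    set E : Ω → ℝ := fun x => exp (-(P / 2 * Br.sq (φ x - P⁻¹ • √P • z))) with hE
    have e2 : ∀ x, -(P / 2 * Br.sq (φ x - P⁻¹ • √P • z)) = -(∑ k, (√P * φ x k - z k) ^ 2) / 2 :=
      fun x => by
        simp only [Br.sq, dotProduct, mul_sum, Pi.sub_apply, Pi.smul_apply, smul_eq_mul, neg_div,
          sum_div, neg_inj]
        refine sum_congr rfl fun k _ => ?_
        have : φ x k - P⁻¹ * (√P * z k) = (√P * φ x k - z k) / √P := by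
          field_simp
          linear_combination (-z k) * sP
        rw [this, div_mul_div_comm, sP]
        field_simp
    have e3 : ∀ x, post φ v P (√P • z) x = v x * (E x * exp (∑ k, z k ^ 2 / 2)) := fun x => by
      rw [post_sqrt hP.le, hE]
      simp only [e2, ← exp_add, dotProduct, Pi.smul_apply, smul_eq_mul, neg_div, sum_div,
        ← sum_neg_distrib, ← sum_add_distrib, ← sum_sub_distrib]
      congr 2
      exact sum_congr rfl fun k _ => by ring
    have b1 : ∀ σ, √(mm φ v ρ P σ (√P • z)) ≤ ∏ k, 2 * exp (-β * z k ^ 2) := fun σ => by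
      refine sqrt_le_iff.2 ⟨by positivity, hv.mean_le fun x => ?_⟩
      refine (mul_le_of_le_one_left (exp_pos _).le (by split_ifs <;> norm_num)).trans ?_
      rw [e2, ← prod_pow, neg_div, sum_div, ← sum_neg_distrib, exp_sum]
      refine prod_le_prod (fun _ _ => (exp_pos _).le) fun k _ => ?_
      have h1 : (√P * φ x k) ^ 2 ≤ a := by rw [mul_pow, sq_sqrt hP.le]; exact hb x k
      have h2 : 4 * β * z k ^ 2 ≤ (√P * φ x k - z k) ^ 2 + 1 := by
        rw [hβ, show 4 * (1 / (8 * (a + 1))) * z k ^ 2 = z k ^ 2 / (2 * (a + 1)) by field_simp; ring,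
          div_le_iff₀ (by positivity)]
        nlinarith [sq_nonneg (2 * (√P * φ x k) - z k), mul_nonneg ha (sq_nonneg (√P * φ x k - z k))]
      have h3 : exp (1 / 2) ≤ 4 := by
        have := exp_one_lt_d9
        have := exp_le_exp.2 (show (1 : ℝ) / 2 ≤ 1 by norm_num)
        linarith
      rw [mul_pow, ← exp_nat_mul]
      calc _ ≤ exp (1 / 2) * exp ((2 : ℕ) * (-β * z k ^ 2)) := by
            rw [← exp_add]; exact exp_le_exp.2 (by push_cast; linarith)
        _ ≤ _ := mul_le_mul_of_nonneg_right (by linarith) (exp_pos _).le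
    simp only [e3, mul_assoc]
    rw [← mean_eq_div, ← sum_push_mean hv ρ fun σ x => E x * (exp (∑ k, z k ^ 2 / 2) *
      min (c * (√(mm φ v ρ P σ (√P • z)))⁻¹) M)]
    simp only [push_mul_mean hv, ← mul_assoc, mean_mul_const]
    rw [mul_comm c, mul_assoc, ← nsmul_eq_mul, ← card_univ]
    refine sum_le_card_nsmul _ _ _ fun σ _ => ?_
    have m0 : 0 ≤ mm φ v ρ P σ (√P • z) :=
      hv.mean_nonneg fun x => mul_nonneg (by split_ifs <;> norm_num) (exp_pos _).le
    calc _ ≤ mm φ v ρ P σ (√P • z) * exp (∑ k, z k ^ 2 / 2) * (c * (√(mm φ v ρ P σ (√P • z)))⁻¹) :=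
          mul_le_mul_of_nonneg_left (min_le_left _ _) (mul_nonneg m0 (exp_pos _).le)
      _ = c * (√(mm φ v ρ P σ (√P • z)) * exp (∑ k, z k ^ 2 / 2)) := by
          conv_rhs => rw [← div_sqrt]
          ring
      _ ≤ c * ((∏ k, 2 * exp (-β * z k ^ 2)) * exp (∑ k, z k ^ 2 / 2)) := by gcongr; exact b1 σ
      _ = _ := by
          rw [exp_sum, ← prod_mul_distrib]
          congr 1
          refine prod_congr rfl fun k _ => ?_
          rw [mul_assoc, ← exp_add]; congr 2; ring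
  refine (integral_mono_of_nonneg (.of_forall fun z => div_nonneg (sum_nonneg fun x _ => mul_nonneg
    ((hv.post _ _ _).nn x) (le_min (by positivity) hM)) hv.pos.le)
    ((Integrable.fintype_prod fun _ => i1.const_mul 2).const_mul _) (.of_forall key)).trans ?_
  rw [integral_const_mul, integral_fintype_prod_eq_pow fun x : ℝ => 2 * exp ((1 / 2 - β) * x ^ 2),
    integral_const_mul, e1, hβ, show 1 / (2 * (1 / (8 * (a + 1)))) = 2 ^ 2 * (a + 1) by field_simp; ring,
    sqrt_mul (by positivity), sqrt_sq (by norm_num), ← mul_assoc]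
  norm_num

end Crest.Agent.T157.S1.Bu83

end
end

-- ▼ part T157/S1BuB_83

/-!
# Row 157, block S1 (helper83): dictionary between the states and the data of the act B
-/

set_option autoImplicit false

noncomputable section

namespace Crest.Agent.T157.S1.Bu83

open Real Matrix Finset
open Crest.Agent.T157.E Crest.Agent.T157.SL Crest.Agent.T157.Ta
open Crest.Agent.T157.Ent (cnd)
open Crest.Agent.T157.S3 (V Mx)

variable {n : ℕ}

/-! ### invariance under scaling -/

section scale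
variable {c d : ℝ} (v w : Cube n → ℝ)

theorem prob_sc (hc : c ≠ 0) : prob (fun x => v x * c) = prob v := by
  ext x; simp only [prob, ← sum_mul]; exact mul_div_mul_right _ _ hc

theorem mean_sc (hc : c ≠ 0) : mean (fun x => v x * c) = mean v := by
  ext F; simp only [mean, prob_sc v hc]

theorem kl_sc (hc : c ≠ 0) (hd : d ≠ 0) : kl (fun x => v x * c) (fun x => w x * d) = kl v w := by
  simp only [kl, prob_sc _ hc, prob_sc _ hd]

theorem kls_sc (hc : c ≠ 0) (hd : d ≠ 0) : kls (fun x => v x * c) (fun x => w x * d) = kls v w := by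
  ext i x; simp only [kls, Br.Cv11.cnd_smul _ hc, Br.Cv11.cnd_smul _ hd]

theorem Ar_sc (hc : c ≠ 0) (r : Fin n → Cube n → ℝ) :
    Ar r (fun x => v x * c) (fun x => w x * c) = Ar r v w := by
  simp only [Ar, As, kls_sc _ _ hc hc, mean_sc _ hc]

theorem El_sc (hc : c ≠ 0) (r : Fin n → Cube n → ℝ) :
    Ue.El r (fun x => v x * c) (fun x => w x * c) = Ue.El r v w := by
  simp only [Ue.El, Ue.Es, Ue.es, kls_sc _ _ hc hc, mean_sc _ hc]

theorem Cnt_sc (hc : c ≠ 0) (r : Fin n → Cube n → ℝ) : Cnt r (fun x => v x * c) = Cnt r v := by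
  have : ∀ i x, Ta.cm (fun x => v x * c) i x = Ta.cm v i x := fun i x => by
    simp only [Ta.cm, siteM, mul_right_comm _ c, ← add_mul]
    exact mul_div_mul_right _ _ hc
  simp only [Cnt, Cs, this, mean_sc _ hc]

end scale

/-- the pinned values after the reveal -/
def sg (s : St n) (B : Finset (Fin n)) (σ : B → Bool) : Cube n :=
  fun i => if h : i ∈ B then σ ⟨i, h⟩ else s.sS i
/-- the centres after the burst -/
def xc (D : Dat n) (s : St n) (B : Finset (Fin n)) (σ : B → Bool) (z : B → ℝ) : V n := fun i =>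
  if h : i ∈ B then D.P⁻¹ * z ⟨i, h⟩ + ∑ j ∈ s.S ∪ B, D.J i j * sv (sg s B σ) j else s.x i
/-- the successor -/
def sc (D : Dat n) (s : St n) (B : Finset (Fin n)) (σ : B → Bool) (z : B → ℝ) : St n :=
  s.pin B (sg s B σ) (xc D s B σ z)
/-- the features -/
def hB (D : Dat n) (s : St n) (B : Finset (Fin n)) : Cube n → B → ℝ :=
  Br.hG (Br.rw D.J (s.S ∪ B)ᶜ Subtype.val)
/-- the revealed spins -/
def bB (B : Finset (Fin n)) (x : Cube n) : B → Bool := fun k => x k

variable {D : Dat n} {s : St n} {y0 : V n} {B : Finset (Fin n)} {a a' e ε : ℝ} {X : BX n B}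
  {σ : B → Bool} {z : B → ℝ} {x : Cube n}

theorem old (hd : Disjoint B s.S) (k : Fin n) (hk : k ∈ s.S) :
    sg s B σ k = s.sS k ∧ xc D s B σ z k = s.x k :=
  have := disjoint_right.1 hd hk
  ⟨dif_neg this, dif_neg this⟩

theorem S_eq (hd : Disjoint B s.S) : (mkB D s y0 B a a' e ε X).S = s.S := by
  ext i
  simp only [Br.Dat.S, mkB, mem_filter, mem_univ, true_and, mem_compl, not_not, mem_union]
  exact ⟨fun h => h.1.resolve_right fun hi => h.2 ⟨i, hi⟩ rfl, fun h =>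
    ⟨.inl h, fun k e => disjoint_left.1 hd k.2 (e ▸ h)⟩⟩

theorem U_eq (hd : Disjoint B s.S) : (mkB D s y0 B a a' e ε X).U = U D s := by
  ext x; rw [Br.Dat.U, S_eq hd]; rfl

theorem l_eq (hd : Disjoint B s.S) : (mkB D s y0 B a a' e ε X).l = loc D s := by
  ext x
  rw [Br.Dat.l, S_eq hd, U_eq hd, loc, ell]
  show (if ∀ i ∈ s.S, x i = s.sS i then ising D.J y0 x * exp ((s.y - y0) ⬝ᵥ sv x - U D s x) else 0) = _
  split_ifs
  · simp only [ising, ← exp_add, sub_dotProduct]; congr 1; ring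
  · rw [mul_zero]

theorem nu_eq (hd : Disjoint B s.S) : (mkB D s y0 B a a' e ε X).ν = nu D s := by
  ext x; rw [Br.Dat.ν, l_eq hd]; rfl

theorem pw_eq (hd : Disjoint B s.S) : (mkB D s y0 B a a' e ε X).pw = pi D s := by
  rw [Br.Dat.pw, l_eq hd]; rfl

theorem cond (hd : Disjoint B s.S) : (∀ k ∈ s.S ∪ B, x k = sg s B σ k) ↔
    (∀ k ∈ s.S, x k = s.sS k) ∧ bB B x = σ := by
  have h1 : ∀ k ∈ s.S, sg s B σ k = s.sS k := fun k hk => dif_neg (disjoint_right.1 hd hk)
  have h2 : ∀ k : B, sg s B σ k = σ k := fun k => dif_pos k.2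
  refine ⟨fun h => ⟨fun k hk => (h k (mem_union_left _ hk)).trans (h1 k hk),
    funext fun k => (h k (mem_union_right _ k.2)).trans (h2 k)⟩, fun h k hk => ?_⟩
  rcases mem_union.1 hk with hk | hk
  · rw [h1 k hk, h.1 k hk]
  · exact (congrFun h.2 ⟨k, hk⟩).trans (h2 ⟨k, hk⟩).symm

theorem sum_sc (hd : Disjoint B s.S) (hx : ∀ k ∈ s.S ∪ B, x k = sg s B σ k) (F : ℝ → ℝ) :
    ∑ k ∈ (sc D s B σ z).S, F (uu D (sc D s B σ z) x k) =
      ∑ k ∈ s.S, F (uu D s x k) + ∑ k : B, F ((hB D s B x - D.P⁻¹ • z) k) := by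
  rw [show (sc D s B σ z).S = s.S ∪ B from rfl, sum_union hd.symm, ← sum_coe_sort B]
  congr 1
  · exact sum_congr rfl fun k hk => by rw [uu, uu, ← (old (D := D) (σ := σ) (z := z) hd k hk).2]; rfl
  · refine sum_congr rfl fun k _ => congrArg F ?_
    have e1 : (sc D s B σ z).x k = D.P⁻¹ * z k + ∑ j ∈ s.S ∪ B, D.J k j * sv x j :=
      (dif_pos k.2).trans (by
        congr 1; exact sum_congr rfl fun j hj => by simp only [sv, hx j hj])
    have e2 : hB D s B x k = ∑ j ∈ (s.S ∪ B)ᶜ, D.J k j * sv x j := by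
      simp only [hB, Br.hG, Br.rw, dotProduct, ite_mul, zero_mul]
      rw [sum_ite_mem, univ_inter]
    rw [uu, e1, Pi.sub_apply, e2, mulVec, dotProduct, ← sum_add_sum_compl (s.S ∪ B), Pi.smul_apply,
      smul_eq_mul]
    ring

theorem U_sc (hd : Disjoint B s.S) (hx : ∀ k ∈ s.S ∪ B, x k = sg s B σ k) :
    U D (sc D s B σ z) x = U D s x + D.P / 2 * Br.sq (hB D s B x - D.P⁻¹ • z) := by
  rw [U, sum_sc hd hx fun t => t ^ 2, mul_add, U]
  simp only [Br.sq, dotProduct, sq]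

theorem U6_sc (hd : Disjoint B s.S) (hx : ∀ k ∈ s.S ∪ B, x k = sg s B σ k) :
    U6 D (sc D s B σ z) x = U6 D s x + ∑ k : B, (D.P * (hB D s B x - D.P⁻¹ • z) k ^ 2) ^ 3 :=
  sum_sc hd hx fun t => (D.P * t ^ 2) ^ 3

theorem ell_sc (hd : Disjoint B s.S) (x : Cube n) : ell D (sc D s B σ z) x = ell D s x *
    ((if bB B x = σ then 1 else 0) * exp (-(D.P / 2 * Br.sq (hB D s B x - D.P⁻¹ • z)))) := by
  by_cases hx : ∀ k ∈ s.S ∪ B, x k = sg s B σ k
  · have h := (cond hd).1 hx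
    rw [ell, ell, if_pos h.1, if_pos h.2, U_sc hd hx, one_mul, ← exp_add, neg_add]
    exact if_pos hx
  · rw [ell, show (if ∀ k ∈ (sc D s B σ z).S, x k = (sc D s B σ z).sS k then
      exp (-U D (sc D s B σ z) x) else 0) = 0 from if_neg hx]
    rw [cond hd, not_and_or] at hx
    rcases hx with h | h
    · rw [ell, if_neg h, zero_mul]
    · rw [if_neg h, zero_mul, mul_zero]

theorem loc_sc (h : D.Ok) (hd : Disjoint B s.S) (g : Cube n → ℝ) :
    (fun x => loc D (sc D s B σ z) x * g x) = fun x => post (hB D s B)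
      (cut (fun x => loc D s x * g x) (bB B) σ) D.P z x * exp (-(Br.sq z / (2 * D.P))) := by
  ext x
  have P0 : D.P ≠ 0 := by linarith [h.P1]
  rw [loc, ell_sc hd, post, cut, loc, mul_assoc (ite _ _ _), ← exp_add]
  have : z ⬝ᵥ hB D s B x - D.P / 2 * (hB D s B x ⬝ᵥ hB D s B x) + -(Br.sq z / (2 * D.P)) =
      -(D.P / 2 * Br.sq (hB D s B x - D.P⁻¹ • z)) := by
    simp only [Br.sq, sub_dotProduct, dotProduct_sub, smul_dotProduct, dotProduct_smul, smul_eq_mul,
      dotProduct_comm (hB D s B x) z]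
    field_simp
    ring
  rw [this]
  show ising D.J s.y x * _ * _ = _
  split_ifs <;> ring

/-- the law after the act -/
def vB (D : Dat n) (s : St n) (B : Finset (Fin n)) (σ : B → Bool) (z : B → ℝ) : Cube n → ℝ :=
  post (hB D s B) (cut (nu D s) (bB B) σ) D.P z

theorem nu_sc (h : D.Ok) (hd : Disjoint B s.S) :
    nu D (sc D s B σ z) = fun x => vB D s B σ z x * exp (-(Br.sq z / (2 * D.P))) := loc_sc h hd D.f

theorem wt_cut_nu (h : D.Ok) (hd : Disjoint B s.S) (σ : B → Bool) : Wt (cut (nu D s) (bB B) σ) := by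
  have hv := (C89.pr1 (s := s) h).hv
  have h1 := (cond (σ := σ) hd).1 fun _ _ => rfl
  refine ⟨cut_nonneg hv _ _, sum_pos' (fun x _ => cut_nonneg hv _ _ x) ⟨sg s B σ, mem_univ _, ?_⟩⟩
  rw [cut, if_pos h1.2, nu, loc, ell, if_pos h1.1]
  exact mul_pos (mul_pos (exp_pos _) (exp_pos _)) (h.fpos _)

theorem vB_supp (hd : Disjoint B s.S) (hx : vB D s B σ z x ≠ 0) :
    ∀ k ∈ s.S ∪ B, x k = sg s B σ k := by
  have h1 : cut (nu D s) (bB B) σ x ≠ 0 := left_ne_zero_of_mul hx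
  unfold cut at h1
  split_ifs at h1 with h2
  · exact (cond hd).2 ⟨(C89.supp (left_ne_zero_of_mul h1)).1, h2⟩
  · exact absurd rfl h1

theorem Dz_sc (h : D.Ok) (hd : Disjoint B s.S) (T : ℝ) : exp ((Dz D (sc D s B σ z) - T) / 2) =
    exp ((Dz D s - T) / 2) * (√(mm (hB D s B) (nu D s) (bB B) D.P σ z))⁻¹ := by
  have p0 := C89.mean_pos (s := s) h
  have p1 := C89.mean_pos (s := sc D s B σ z) h
  have e1 : (mean (ising D.J (sc D s B σ z).y) fun x => ell D (sc D s B σ z) x * D.f x) =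
      (mean (ising D.J s.y) fun x => ell D s x * D.f x) * mm (hB D s B) (nu D s) (bB B) D.P σ z := by
    have : nu D s = fun x => ising D.J s.y x * (ell D s x * D.f x) := funext fun x => mul_assoc _ _ _
    rw [mm, this, mean_mul_weight _ _ _ (C89.wt_is _ _).pos.ne', mul_div_cancel₀ _ p0.ne']
    simp only [ell_sc hd, mul_right_comm _ _ (D.f _)]
    rfl
  rw [e1] at p1
  have p2 := (mul_pos_iff_of_pos_left p0).1 p1
  rw [Dz, Dz, e1, log_mul p0.ne' p2.ne', sqrt_eq_rpow, rpow_def_of_pos p2, ← exp_neg, ← exp_add]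
  congr 1; ring

theorem dM_le (h : D.Ok) (hS : ∀ i ∈ s.S, Del D s i = 0) :
    ∑ k ∈ B, (Del D s k ^ 2 + (D.J *ᵥ Del D s) k ^ 2) ≤
      19 * (Br.sq (Br.dM (nu D s) (pi D s) (hB D s B)) +
        Br.sq (Br.dM (nu D s) (pi D s) (Br.sT (Subtype.val : B → Fin n)))) := by
  set u : V n := fun j => if j ∈ B then Del D s j else 0 with hu
  have e1 : Br.sq (Br.dM (nu D s) (pi D s) (Br.sT (Subtype.val : B → Fin n))) =
      ∑ k ∈ B, Del D s k ^ 2 := by
    rw [← sum_coe_sort B]; simp only [sq]; rfl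
  have e2 : ∀ k : B, (D.J *ᵥ Del D s) k = Br.dM (nu D s) (pi D s) (hB D s B) k + (D.J *ᵥ u) k :=
    fun k => by
      simp only [Br.dM, meanV, hB, Br.hG, Pi.sub_apply, dotProduct, mean_sum, mean_const_mul,
        ← sum_sub_distrib, mulVec, ← sum_add_distrib, ← mul_sub]
      refine sum_congr rfl fun j _ => ?_
      show _ = Br.rw D.J (s.S ∪ B)ᶜ Subtype.val k j * Del D s j + D.J k j * u j
      simp only [Br.rw, hu, mem_compl, mem_union]
      by_cases h1 : j ∈ B
      · simp [h1]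
      · by_cases h2 : j ∈ s.S
        · simp [h1, h2, hS j h2]
        · simp [h1, h2]
  have e3 : u ⬝ᵥ u = ∑ k ∈ B, Del D s k ^ 2 := by
    simp only [dotProduct, hu, ite_mul, zero_mul]
    rw [sum_ite_mem, univ_inter]
    exact sum_congr rfl fun k hk => by rw [if_pos hk, sq]
  have h1 := Eig.mulVec_dot_le D.J u
  have h2 : Eig.opn D.J ^ 2 ≤ 9 := by nlinarith [h.op, Eig.opn_nonneg D.J]
  have h3 : ∑ k ∈ B, (D.J *ᵥ u) k ^ 2 ≤ (D.J *ᵥ u) ⬝ᵥ (D.J *ᵥ u) := by
    simp only [dotProduct, ← sq]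
    exact sum_le_sum_of_subset_of_nonneg (subset_univ _) fun _ _ _ => sq_nonneg _
  have h4 : ∑ k ∈ B, (D.J *ᵥ Del D s) k ^ 2 ≤
      2 * Br.sq (Br.dM (nu D s) (pi D s) (hB D s B)) + 2 * ∑ k ∈ B, (D.J *ᵥ u) k ^ 2 := by
    rw [← sum_coe_sort B, ← sum_coe_sort B, Br.sq, dotProduct, mul_sum, mul_sum, ← sum_add_distrib]
    refine sum_le_sum fun k _ => ?_
    rw [e2]
    nlinarith [sq_nonneg (Br.dM (nu D s) (pi D s) (hB D s B) k - (D.J *ᵥ u) k)]
  have h5 : 0 ≤ ∑ k ∈ B, Del D s k ^ 2 := sum_nonneg fun _ _ => sq_nonneg _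
  have h6 := Br.Tail44.sq_nn (Br.dM (nu D s) (pi D s) (hB D s B))
  rw [sum_add_distrib, e1]
  rw [e3] at h1
  nlinarith [mul_le_mul_of_nonneg_right h2 h5]

end Crest.Agent.T157.S1.Bu83

end
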