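import Crest.Agent.T157.S3IC_52
import Crest.Agent.T157.NetDef_32
import Crest.Agent.T157.S3Prog_65

-- ▼ part T157/S3ID_52
section

/-! S3 (ID), part D: every program has a model fixed point (helper52). -/

set_option autoImplicit false
set_option linter.unusedSectionVars false

noncomputable section

namespace Crest.Agent.T157.S3I

open MeasureTheory ProbabilityTheory Matrix Filter Topology Finset
open Crest.ProbabilityR.SpinGlassDynamics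
open Crest.Agent.T157.E hiding hb
open Crest.Agent.T157.S3L
open Crest.Agent.T157.Conc (en ELip)
open scoped MatrixOrder

section model
variable {L κ : Type} [Fintype L] [Fintype κ] (M : Matrix L κ ℝ) (o : L) (cM : ℝ → L → ℝ)

lemma BL.const (c : ℝ) : BL (fun _ _ _ => c : PF L) :=
  ⟨|c| + 1, by positivity, fun _ _ _ => by linarith, fun b b' s ξ ξ' => by
    have := Conc.en_nonneg (ξ - ξ')
    rw [sub_self, abs_zero]; positivity⟩

lemma BL.add {φ ψ : PF L} (h : BL φ) (h' : BL ψ) : BL (φ + ψ) := by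
  obtain ⟨Λ, h0, hb, hl⟩ := h
  obtain ⟨Λ', h0', hb', hl'⟩ := h'
  refine ⟨Λ + Λ', by positivity, fun b s ξ => (abs_add_le _ _).trans
    (add_le_add (hb b s ξ) (hb' b s ξ)), fun b b' s ξ ξ' => ?_⟩
  have h1 := abs_add_le (φ b s ξ - φ b' s ξ') (ψ b s ξ - ψ b' s ξ')
  simp only [Pi.add_apply]
  rw [show φ b s ξ + ψ b s ξ - (φ b' s ξ' + ψ b' s ξ') =
    φ b s ξ - φ b' s ξ' + (ψ b s ξ - ψ b' s ξ') by ring, add_mul]
  linarith [hl b b' s ξ ξ', hl' b b' s ξ ξ']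

lemma BL.smul {φ : PF L} (h : BL φ) (c : ℝ) : BL (c • φ) := (BL.const c).mul h

lemma BL.neg {φ : PF L} (h : BL φ) : BL (-φ) := by simpa using h.smul (-1)

lemma BL.sub {φ ψ : PF L} (h : BL φ) (h' : BL ψ) : BL (φ - ψ) := by
  simpa only [sub_eq_add_neg] using h.add h'.neg

lemma BL.sum {ι : Type*} (T : Finset ι) {φ : ι → PF L} (h : ∀ j ∈ T, BL (φ j)) :
    BL (∑ j ∈ T, φ j) := by
  classical
  induction T using Finset.induction_on with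
  | empty => exact BL.const 0
  | insert j T hj ih =>
    rw [sum_insert hj]
    exact (h j (mem_insert_self _ _)).add (ih fun k hk => h k (mem_insert_of_mem hk))

lemma Eb_add {φ ψ : PF L} {Λ Λ' : ℝ} (h : Lip Λ φ) (h' : Lip Λ' ψ) (b : ℝ) :
    Eb M o cM (φ + ψ) b = Eb M o cM φ b + Eb M o cM ψ b :=
  mdl_add M o b (fun s => elip_shift (h.elip b s) _) fun s => elip_shift (h'.elip b s) _

lemma Eb_add' {φ ψ : PF L} (h : BL φ) (h' : BL ψ) (b : ℝ) :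
    Eb M o cM (φ + ψ) b = Eb M o cM φ b + Eb M o cM ψ b :=
  let ⟨_, _, _, hl⟩ := h; let ⟨_, _, _, hl'⟩ := h'; Eb_add M o cM hl hl' b

lemma Eb_smul (c : ℝ) (φ : PF L) (b : ℝ) : Eb M o cM (c • φ) b = c * Eb M o cM φ b :=
  mdl_const_mul M o b c _

lemma Eb_const (c b : ℝ) : Eb M o cM (fun _ _ _ => c) b = c := mdl_const M o b c


lemma Eb_sub' {φ ψ : PF L} (h : BL φ) (h' : BL ψ) (b : ℝ) :
    Eb M o cM (φ - ψ) b = Eb M o cM φ b - Eb M o cM ψ b := by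
  rw [sub_eq_add_neg, Eb_add' M o cM h h'.neg, ← neg_one_smul ℝ ψ, Eb_smul]; ring

lemma Eb_sum {ι : Type*} (T : Finset ι) {φ : ι → PF L} (h : ∀ j ∈ T, BL (φ j)) (b : ℝ) :
    Eb M o cM (∑ j ∈ T, φ j) b = ∑ j ∈ T, Eb M o cM (φ j) b := by
  classical
  induction T using Finset.induction_on with
  | empty => exact Eb_const M o cM 0 b
  | insert j T hj ih =>
    have h2 := fun k hk => h k (mem_insert_of_mem hk)
    rw [sum_insert hj, sum_insert hj, Eb_add' M o cM (h j (mem_insert_self _ _)) (BL.sum T h2),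
      ih h2]

lemma Eb_nonneg {φ : PF L} {b : ℝ} (h : ∀ s ξ, 0 ≤ φ b s ξ) : 0 ≤ Eb M o cM φ b := by
  unfold Eb mdl gm
  exact sum_nonneg fun σ _ => mul_nonneg (hb_nonneg b σ) (integral_nonneg fun _ => h _ _)

lemma Eb_mono {φ ψ : PF L} (hφ : BL φ) (hψ : BL ψ) {b : ℝ} (h : ∀ s ξ, φ b s ξ ≤ ψ b s ξ) :
    Eb M o cM φ b ≤ Eb M o cM ψ b := by
  rw [← sub_nonneg, ← Eb_sub' M o cM hψ hφ]
  exact Eb_nonneg M o cM fun s ξ => sub_nonneg.2 (h s ξ)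

lemma Eb_sq_le {φ : PF L} (h : BL φ) (b : ℝ) : Eb M o cM φ b ^ 2 ≤ Eb M o cM (φ * φ) b := by
  set e := Eb M o cM φ b with he
  have h1 := Eb_mono M o cM (φ := (2 * e) • φ - fun _ _ _ => e ^ 2) ((h.smul _).sub (BL.const _))
    (h.mul h) (b := b) fun s ξ => by
      simp only [Pi.sub_apply, Pi.smul_apply, Pi.mul_apply, smul_eq_mul]
      nlinarith [sq_nonneg (φ b s ξ - e)]
  rw [Eb_sub' M o cM (h.smul _) (BL.const _), Eb_smul, Eb_const, ← he] at h1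
  linarith

lemma gram_nonneg {ι : Type*} [Fintype ι] {f : ι → PF L} (h : ∀ j, BL (f j)) (v : ι → ℝ) (b : ℝ) :
    0 ≤ ∑ j, ∑ m, v j * v m *
      (Eb M o cM (f j * f m) b - Eb M o cM (f j) b * Eb M o cM (f m) b) := by
  have h1 := Eb_sq_le M o cM (BL.sum univ fun j _ => (h j).smul (v j)) b
  rw [sum_mul_sum, Eb_sum M o cM _ fun j _ => BL.sum _ fun m _ =>
    ((h j).smul _).mul ((h m).smul _), Eb_sum M o cM _ fun j _ => (h j).smul _, sq,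
    sum_mul_sum, ← sub_nonneg, ← sum_sub_distrib] at h1
  refine h1.trans_eq (sum_congr rfl fun j _ => ?_)
  rw [Eb_sum M o cM _ fun m _ => ((h j).smul _).mul ((h m).smul _), ← sum_sub_distrib]
  refine sum_congr rfl fun m _ => ?_
  rw [smul_mul_smul_comm, Eb_smul, Eb_smul, Eb_smul]; ring

end model

variable {N : ℕ} {f g g' : Fin (N + 1) → PF (Fin (N + 1))}


end Crest.Agent.T157.S3I

end
end

-- ▼ part T157/S3RA_52

/-! S3, realisation of a model network by a program (helper52): words and leaves. -/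

set_option autoImplicit false
set_option linter.unusedVariables false

noncomputable section

namespace Crest.Agent.T157.S3R

open MeasureTheory Matrix Set Function
open Crest.Agent.T157.S3 (Fam)
open Crest.Agent.T157.S3P (PF Prog Sm bF)
open Crest.Agent.T157.Nt (Fj Fn Ix BS dx gs sp co cb res th rf Ev Net FactStmt)

/-- sites of the instances, and static fields of the model -/
abbrev Pt (F : Fam) : Type := (Σ i : F.I, Fin (F.n i)) ⊕ ℝ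
/-- joint letters: a letter of the family together with its model -/
abbrev JL (F : Fam) (n : ℕ) : Type := Fj (Pt F) (Ix n)

variable {F : Fam} {ν : Measure ℝ} {n n' : ℕ}

/-- the static field -/
def bi (F : Fam) : F.Df := fun i => bF (F.s i) (F.J i) (F.y i)
def bv (F : Fam) : Pt F → ℝ := Sum.elim (fun θ => bi F θ.1 θ.2) id
def lift (F : Fam) (H : Fn (Ix n)) : JL F n := fun θ => H (bv F θ)
def md (G : JL F n) : Fn (Ix n) := fun b => G (.inr b)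
def ins (G : JL F n) : F.Lf (n + 1) := fun i k => G (.inl ⟨i, k⟩)
def ev (X : Ix n → F.Vf) (G : JL F n) : F.Vf :=
  fun ω k => G (.inl ⟨ω.1, k⟩) (ω.2 k) fun u => X u ω k
/-- static letters -/
def jv (d : F.Df) (c : ℝ → ℝ) : JL F n := cb (Sum.elim (fun θ => d θ.1 θ.2) c)
/-- constants -/
def jc (p : F.I → ℝ) (c : ℝ) : JL F n := jv (fun i _ => p i) fun _ => c
/-- reads the fields in `T` only -/
def On {J : Type} (T : Set (Ix n)) (G : Fj J (Ix n)) : Prop :=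
  ∀ θ s x x', (∀ u ∈ T, x u = x' u) → G θ s x = G θ s x'
/-- parity `ε` (no condition if `ε = 0`) -/
def Pr {m : ℕ} (sg : Ix m → ℝ) (ε : ℝ) (φ : PF m) : Prop :=
  ε = 0 ∨ ∀ b s ξ, φ (-b) (!s) (sg * ξ) = ε * φ b s ξ

/-- a program with its model; `Pm` is the set of the parameter nodes -/
structure Sta (F : Fam) (ν : Measure ℝ) where
  m : ℕ
  r : ℕ
  P : Prog m
  sg : Ix m → ℝ
  Pm : Set (Ix m)
  M : Matrix (Ix m) (Fin r) ℝ
  cM : ℝ → Ix m → ℝ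
  ok : P.Ok
  par : P.Par sg
  mod : S3I.Mod P.f P.g P.g' F.β (fun ψ => ∫ b, ψ b ∂ν) M cM
  pm : ∀ t ∈ Pm, P.f t = 0
  re : ∀ t ∉ Pm, P.g t = 0 ∧ P.g' t = 0 ∧ sg t = -1
  z : 0 ∉ Pm

namespace Sta
variable (σ : Sta F ν)

def X (t : Ix σ.m) : F.Vf := (σ.P.net F).X t
def e (φ : PF σ.m) : F.Vf := (σ.P.net F).ev (S3P.fl F φ)
/-- values of the offsets -/
def cv : Pt F → Ix σ.m → ℝ :=
  Sum.elim (fun θ t => σ.P.c (F.s θ.1) (F.J θ.1) (F.y θ.1) t θ.2) σ.cM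
def S : Matrix (Ix σ.m) (Ix σ.m) ℝ := σ.M * σ.Mᵀ
def Eb (φ : PF σ.m) : ℝ → ℝ := S3I.Eb σ.M 0 σ.cM φ
def Cv (φ ψ : PF σ.m) : ℝ := F.β ^ 2 * ∫ b, (σ.Eb (φ * ψ) b - σ.Eb φ b * σ.Eb ψ b) ∂ν

/-- extension -/
structure Le (σ' : Sta F ν) (j : Ix σ.m → Ix σ'.m) : Prop where
  inj : Injective j
  zero : j 0 = 0
  X : ∀ t, σ'.X (j t) = σ.X t
  cv : ∀ θ t, σ'.cv θ (j t) = σ.cv θ t
  pm : ∀ t, j t ∈ σ'.Pm ↔ t ∈ σ.Pm
  sg : ∀ t, σ'.sg (j t) = σ.sg t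
  S : ∀ t t', σ'.S (j t) (j t') = σ.S t t'
  f : ∀ t, σ'.P.f (j t) = res j (σ.P.f t)

/-- the new nodes are parameters -/
def Pe (σ' : Sta F ν) (j : Ix σ.m → Ix σ'.m) : Prop := ∀ t ∉ σ'.Pm, t ∈ range j

variable (e : Ix n → Ix σ.m) (T : Set (Ix n))

/-- `φ` computes `G` from the fields in `T` when the parameters have their values -/
def Ct (G : JL F n) (φ : PF σ.m) : Prop := ∀ θ s η ξ, (∀ t ∈ σ.Pm, η t = σ.cv θ t) →
  (∀ u ∈ T, ξ u = η (e u)) → φ (bv F θ) s η = G θ s ξ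
/-- available -/
def Av (ε : ℝ) (G : JL F n) : Prop := ∃ φ, Sm φ ∧ Pr σ.sg ε φ ∧ σ.Ct e T G φ
/-- **forced**: available after adding parameters -/
def Fa (ε : ℝ) (G : JL F n) : Prop := ∀ σ' j, σ.Le σ' j →
  ∃ σ'' j', σ'.Le σ'' j' ∧ σ'.Pe σ'' j' ∧ Av σ'' (j' ∘ j ∘ e) T ε G

end Sta

/-- the nodes in `D` are placed -/
structure Bs (N : Net n) (σ : Sta F ν) (e : Ix n → Ix σ.m) (D : Set (Ix n)) (X : Ix n → F.Vf) :
    Prop where
  z : 0 ∈ D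
  e0 : e 0 = 0
  inj : InjOn e D
  re : ∀ u ∈ D, e u ∉ σ.Pm
  S : ∀ u ∈ D, ∀ v ∈ D, σ.S (e u) (e v) = N.S u v
  X : ∀ u ∈ D, X u = σ.X (e u)

def cen (u : F.Vf) : F.Vf := fun ω => u ω - F.EV u ω.1
/-- drift fields -/
def Zf (N : Net n) (X : Ix n → F.Vf) (G : Ix n → JL F n) (v : Ix n) : F.Vf := cen fun ω =>
  F.J ω.1 *ᵥ ev X (G v) ω - ∑ m, F.me (ev X (lift F (N.a v m))) ω.1 • ev X (G m) ω
/-- realised drift -/
def tA (X : Ix n → F.Vf) (π : Ix n → Ix n → F.I → ℝ) (Z : Ix n → F.Vf) (al : Fn (Ix n))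
    (a : Ix n → Fn (Ix n)) : F.Vf := fun ω => F.τ ω * ev X (lift F al) ω +
  ∑ m, ev X (lift F (a m)) ω * Z m ω - ∑ m, ∑ p, π m p ω.1 • ev X (dx p (lift F (a m))) ω
/-- right hand side of the equations of the pairing constants -/
def piR (N : Net n) (X : Ix n → F.Vf) (G : Ix n → JL F n) (π : Ix n → Ix n → F.I → ℝ)
    (v p : Ix n) (i : F.I) : ℝ :=
  F.me (ev X (lift F (N.al v) * (1 - sp * lift F (th 0)) * gs (G p))) i +
    ∑ q, ∑ r, F.me (ev X (lift F (N.a v q) * dx r (G p))) i * π q r i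

/-- **partial realisation** of the nodes in `D` -/
structure Rp (N : Net n) (σ : Sta F ν) (e : Ix n → Ix σ.m) (D : Set (Ix n)) (X : Ix n → F.Vf)
    (G : Ix n → JL F n) (π : Ix n → Ix n → F.I → ℝ) : Prop where
  bs : Bs N σ e D X
  sur : ∀ t ∉ σ.Pm, ∃ u ∈ D, e u = t
  ct : ∀ u ∈ D, σ.Ct e (D ∩ Iio u) (G u) (σ.P.f (e u))
  md : ∀ u ∈ D, md (G u) = N.f u
  cl : ∀ u ∈ D, On D (N.al u) ∧ ∀ v, On D (N.a u v) ∧ (v ∉ D → N.a u v = 0)
  pi : ∀ v ∈ D, ∀ p ∈ D, π v p = piR N X G π v p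
  dr : ∀ u ∈ D, N.dr u → ev X (G u) = tA X π (Zf N X G) (N.al u) (N.a u)

/-- the realised network -/
def net (σ : Sta F ν) (e : Ix n → Ix σ.m) (X : Ix n → F.Vf) (G : Ix n → JL F n) : S3.Net F n where
  X := X
  b := bi F
  f u := ins (G u)
  C := {g | ∃ H, σ.Fa e univ 0 H ∧ g = ins H}
/-- agreement of a letter with a function of the model -/
def Ag (σ : Sta F ν) (e : Ix n → Ix σ.m) (g : F.Lf (n + 1)) (φ : Fn (Ix n)) : Prop :=
  ∃ H, σ.Fa e univ 0 H ∧ g = ins H ∧ φ = md H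

/-! ### leaves -/

/-- append one node (`p`: it is a parameter) -/
def AppStmt : Prop := ∀ (F : Fam) (ν : Measure ℝ) (σ : Sta F ν) (f g g' : PF σ.m) (ε : ℝ) (r : ℕ)
    (M : Matrix (Ix σ.m) (Fin r) ℝ) (row : Fin r → ℝ) (p : Prop),
  Sm f → Sm g → Sm g' → Pr σ.sg (-1) f → Pr σ.sg ε g → Pr σ.sg 1 g' →
  (ε = 1 ∧ f = 0 ∨ ε = -1 ∧ g' = 0) → (p → f = 0) → (¬ p → g = 0 ∧ g' = 0 ∧ ε = -1) →
  M * Mᵀ = σ.S → (∀ t, (M *ᵥ row) t = σ.Cv f (σ.P.f t)) → row ⬝ᵥ row = σ.Cv f f →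
  ∃ (σ' : Sta F ν) (j : Ix σ.m → Ix σ'.m) (t : Ix σ'.m), σ.Le σ' j ∧ t ∉ range j ∧
    (∀ t', t' ∈ range j ∨ t' = t) ∧ (t ∈ σ'.Pm ↔ p) ∧ σ'.sg t = ε ∧ σ'.P.f t = res j f ∧
    (∀ i k, σ'.cv (.inl ⟨i, k⟩) t = F.EV (σ.e g) i k + F.me (σ.e g') i) ∧
    (∀ b, σ'.cv (.inr b) t = σ.Eb g b + F.β ^ 2 * ∫ b, σ.Eb g' b ∂ν) ∧
    (∀ t', σ'.S t (j t') = (M *ᵥ row) t') ∧ σ'.S t t = row ⬝ᵥ row

/-- thermal constants and site means are forced -/
def ParStmt : Prop := ∀ (F : Fam) (ν : Measure ℝ) [IsProbabilityMeasure ν] (n : ℕ) (N : Net n)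
    (σ : Sta F ν) (e : Ix n → Ix σ.m) (D : Set (Ix n)) (X : Ix n → F.Vf), Bs N σ e D X →
  ∀ T ⊆ D, ∀ H, (σ.Fa e T 1 H → σ.Fa e ∅ 1 (jc (F.me (ev X H)) (F.β ^ 2 * Ev ν N.A 0 (md H)))) ∧
    ∀ ε, ε = 1 ∨ ε = -1 → σ.Fa e T ε H → σ.Fa e ∅ ε (jv (F.EV (ev X H)) (N.E (md H)))

/-- a statement about all partial realisations of good networks -/
def AllRp (Q : ∀ (F : Fam) (ν : Measure ℝ) (n : ℕ) (N : Net n) (σ : Sta F ν) (e : Ix n → Ix σ.m)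
    (D : Set (Ix n)) (X : Ix n → F.Vf) (G : Ix n → JL F n) (π : Ix n → Ix n → F.I → ℝ), Prop) :
    Prop :=
  ∀ (F : Fam) (ν : Measure ℝ) [IsProbabilityMeasure ν] (n : ℕ) (N : Net n) (σ : Sta F ν) e D X G π,
    N.Ok F.β ν → Rp N σ e D X G π → Q F ν n N σ e D X G π

def PiStmt : Prop := AllRp fun F ν n N σ e D X G π =>
  ∀ v ∈ D, N.dr v → ∀ p ∈ D, σ.Fa e ∅ 1 (jc (π v p) (N.S v p))

def ZetaStmt : Prop := AllRp fun F ν n N σ e D X G π => ∀ v ∈ D, N.dr v →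
  ∃ ζ, σ.Fa e (D ∩ Iio v) (-1) ζ ∧ md ζ = -N.S 0 v • sp ∧ ev X ζ = Zf N X G v - X v

def FlowStmt : Prop := AllRp fun F ν n N σ e D X G π => ∀ T ⊆ D, 0 ∈ T →
  (∀ v ∈ T, D ∩ Iio v ⊆ T) → ∀ al a ε, N.Flw al a → On T al → (∀ v, On T (a v)) →
  (∀ v ∉ T, a v = 0) → (ε = 0 ∨ rf al = ε • al ∧ ∀ v, rf (a v) = ε • a v) →
  ∃ A, σ.Fa e T (-ε) A ∧ md A = N.drift al a ∧ ev X A = tA X π (Zf N X G) al a

def StepStmt : Prop := AllRp fun F ν n N σ e D X G π => ∀ w ∉ D, Iio w ⊆ D →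
  ∃ (σ' : Sta F ν) (j : Ix σ.m → Ix σ'.m) (e' : Ix n → Ix σ'.m), ∃ X' G' π',
    Rp N σ' e' (insert w D) X' G' π' ∧ σ.Le σ' j ∧ ∀ u ∈ D, e' u = j (e u)

/-- the first node -/
def BaseStmt : Prop := ∀ (F : Fam) (ν : Measure ℝ) [IsProbabilityMeasure ν] (n : ℕ) (N : Net n),
  N.Ok F.β ν → ∃ (σ : Sta F ν) (e : Ix n → Ix σ.m), ∃ X G π, Rp N σ e {0} X G π

/-- transport along an extension of the model network -/
def TrStmt : Prop := AllRp fun F ν n N σ e D X G π => D = univ →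
  ∀ (n' : ℕ) (N' : Net n') (ι : Ix n → Ix n'), N.Ext N' ι →
    ∃ (e' : Ix n' → Ix σ.m), ∃ X' G' π', Rp N' σ e' (range ι) X' G' π' ∧ ∀ u, e' (ι u) = e u

/-- the realised network and its flows -/
def FinStmt : Prop := AllRp fun F ν n N σ e D X G π => D = univ → (net σ e X G).Ok ∧
  ∃ (Φ : S3.Flow (net σ e X G) (n + 1)) (Γ : S3.Flow (net σ e X G) (n + 1)) (Z : Ix n → F.Vf),
    Φ.Ok ∧ Φ.IsDrift Γ π Z ∧ (∀ u, Φ.al u = S3P.fl F (N.al u)) ∧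
    (∀ u v, Φ.a u v = S3P.fl F (N.a u v)) ∧ ∀ al a, N.Flw al a → ∃ A, Ag σ e A (N.drift al a) ∧
      (net σ e X G).ev A = Φ.tA π Z (S3P.fl F al) fun v => S3P.fl F (a v)

end Crest.Agent.T157.S3R

end
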