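import Crest.Agent.T157.EigN_84
import Crest.Agent.T157.S6Cmp_20
import Crest.Agent.T157.RegCoef_54

-- ▼ part T157/S6Ob_74
section

/-!
# Row 157, block S6 (helper74): first touching and the operator-norm Bochner inequality (OB)
-/

set_option autoImplicit false
set_option linter.unusedSectionVars false

noncomputable section

namespace Crest.Agent.T157.S6o

open Matrix Real Filter Topology Set
open Crest.Agent.T157.Eig




variable {ι I K : Type*} [Fintype ι] [Fintype I] [DecidableEq I] [Fintype K] [DecidableEq K]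

/-- top singular vectors -/
theorem exists_sing {S : Matrix I K ℝ} (h : 0 < opn S) : ∃ (u : I → ℝ) (w : K → ℝ),
    u ⬝ᵥ u = 1 ∧ w ⬝ᵥ w = 1 ∧ S *ᵥ w = opn S • u ∧ Sᵀ *ᵥ u = opn S • w := by
  have hK : IsCompact {w : K → ℝ | w ⬝ᵥ w = 1} := by
    refine Metric.isCompact_of_isClosed_isBounded (isClosed_eq (by fun_prop) continuous_const) ?_
    refine (Metric.isBounded_closedBall (x := (0 : K → ℝ)) (r := 1)).subset fun w hw => ?_
    rw [mem_closedBall_zero_iff, pi_norm_le_iff_of_nonneg zero_le_one]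
    intro i
    have := abs_apply_le_nrm w i
    have e : nrm w = 1 := by
      have := nrm_sq w
      rw [hw] at this
      nlinarith [nrm_nonneg w]
    rw [Real.norm_eq_abs]
    linarith
  have unit : ∀ v : K → ℝ, v ≠ 0 → ((nrm v)⁻¹ • v) ⬝ᵥ ((nrm v)⁻¹ • v) = 1 := fun v hv => by
    have := (nrm_pos hv).ne'
    rw [← nrm_sq, nrm_smul, abs_of_pos (inv_pos.2 (nrm_pos hv))]
    field_simp
  have hne : {w : K → ℝ | w ⬝ᵥ w = 1}.Nonempty := by
    by_contra hn
    refine absurd (opn_le_of_nrm le_rfl fun v => ?_) (not_le.2 h)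
    by_cases hv : v = 0
    · simp [hv, nrm_eq_zero.2]
    · exact absurd ⟨_, unit v hv⟩ hn
  obtain ⟨w, hw, hm⟩ := hK.exists_isMaxOn hne
    (f := fun w => nrm (S *ᵥ w)) (continuous_nrm.comp (by fun_prop)).continuousOn
  have w1 : nrm w = 1 := by
    have := nrm_sq w
    rw [show w ⬝ᵥ w = 1 from hw] at this
    nlinarith [nrm_nonneg w]
  have e : nrm (S *ᵥ w) = opn S := by
    refine le_antisymm (by simpa [w1] using nrm_mulVec_le S w)
      (opn_le_of_nrm (nrm_nonneg _) fun v => ?_)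
    by_cases hv : v = 0
    · simp [hv, nrm_eq_zero.2]
    · have h1 : nrm (S *ᵥ ((nrm v)⁻¹ • v)) ≤ nrm (S *ᵥ w) := hm (unit v hv)
      rw [mulVec_smul, nrm_smul, abs_of_pos (inv_pos.2 (nrm_pos hv)),
        inv_mul_le_iff₀ (nrm_pos hv)] at h1
      linarith
  have hu : ((opn S)⁻¹ • S *ᵥ w) ⬝ᵥ ((opn S)⁻¹ • S *ᵥ w) = 1 := by
    rw [← nrm_sq, nrm_smul, abs_of_pos (inv_pos.2 h), e]
    field_simp
  refine ⟨(opn S)⁻¹ • S *ᵥ w, w, hu, hw, by rw [smul_smul, mul_inv_cancel₀ h.ne', one_smul], ?_⟩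
  set u := (opn S)⁻¹ • S *ᵥ w with hu'
  have h1 : w ⬝ᵥ Sᵀ *ᵥ u = opn S := by
    rw [dotProduct_mulVec, vecMul_transpose, hu', dotProduct_smul, ← nrm_sq, e, smul_eq_mul]
    field_simp
  have h2 := mulVec_dot_le Sᵀ u
  rw [opn_transpose, hu] at h2
  have h3 : (Sᵀ *ᵥ u - opn S • w) ⬝ᵥ (Sᵀ *ᵥ u - opn S • w) ≤ 0 := by
    simp only [sub_dotProduct, dotProduct_sub, smul_dotProduct, dotProduct_smul, smul_eq_mul]
    rw [dotProduct_comm (Sᵀ *ᵥ u) w, h1, show w ⬝ᵥ w = 1 from hw]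
    nlinarith
  rw [← nrm_sq] at h3
  exact sub_eq_zero.1 (nrm_eq_zero.1 (by nlinarith [nrm_nonneg (Sᵀ *ᵥ u - opn S • w)]))

/-- the structure of the velocity `S'` of a matrix `S` with neighbours `Sl l` (weak form) -/
def Str (r : ι → ℝ) (S : Matrix I K ℝ) (Sl : ι → Matrix I K ℝ) (S' : Matrix I K ℝ)
    (C E : ℝ) : Prop :=
  ∀ (u : I → ℝ) (w : K → ℝ), u ⬝ᵥ u = 1 → w ⬝ᵥ w = 1 →
    ∃ (p : ι → I → ℝ) (q : ι → K → ℝ) (ϖ θ : ι → ℝ),
      (∀ l, p l ⬝ᵥ p l ≤ r l * ϖ l ∧ q l ⬝ᵥ q l ≤ r l * ϖ l ∧ 0 ≤ ϖ l ∧ 0 ≤ θ l ∧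
        θ l ^ 2 ≤ r l * ϖ l) ∧ ∑ l, ϖ l ≤ C ∧ ∑ l, θ l ≤ C ∧
      u ⬝ᵥ S' *ᵥ w ≤ ∑ l, (r l * (u ⬝ᵥ (Sl l - S) *ᵥ w) + p l ⬝ᵥ (Sl l - S) *ᵥ w +
        u ⬝ᵥ (Sl l - S) *ᵥ q l + θ l * opn (Sl l - S)) + C * opn S + E

lemma le_add_of_sq {z a b : ℝ} (ha : 0 ≤ a) (hb : 0 ≤ b) (h : z ^ 2 ≤ 4 * a * b) : z ≤ a + b :=
  (le_abs_self z).trans (abs_le_of_sq_le_sq (by nlinarith [sq_nonneg (a - b)]) (add_nonneg ha hb))

lemma young {p y : I → ℝ} {r ϖ lam : ℝ} (hr : 0 ≤ r) (hϖ : 0 ≤ ϖ) (hp : p ⬝ᵥ p ≤ r * ϖ) :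
    2 * lam * (p ⬝ᵥ y) ≤ r / 2 * (y ⬝ᵥ y) + 2 * lam ^ 2 * ϖ := by
  have y0 : 0 ≤ y ⬝ᵥ y := by rw [← nrm_sq]; positivity
  have h1 := (dot_sq_le p y).trans (mul_le_mul_of_nonneg_right hp y0)
  refine le_add_of_sq (by positivity) (by positivity) ?_
  nlinarith [mul_le_mul_of_nonneg_left h1 (by positivity : 0 ≤ 4 * lam ^ 2)]

/-- one jump -/
lemma one {S Z : Matrix I K ℝ} {u p : I → ℝ} {w q : K → ℝ} {r ϖ θ : ℝ} (hu : u ⬝ᵥ u = 1)
    (hw : w ⬝ᵥ w = 1) (h1 : S *ᵥ w = opn S • u) (h2 : Sᵀ *ᵥ u = opn S • w) (hr : 0 ≤ r)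
    (hp : p ⬝ᵥ p ≤ r * ϖ) (hq : q ⬝ᵥ q ≤ r * ϖ) (hϖ : 0 ≤ ϖ) (hθ : 0 ≤ θ) (hε : θ ^ 2 ≤ r * ϖ) :
    4 * opn S ^ 3 * (r * (u ⬝ᵥ (Z - S) *ᵥ w) + p ⬝ᵥ (Z - S) *ᵥ w + u ⬝ᵥ (Z - S) *ᵥ q +
      θ * opn (Z - S)) ≤
      r * (opn Z ^ 4 - opn S ^ 4) + opn S ^ 4 * (9 * ϖ + 8 * θ) := by
  set Y := Z - S with hY
  have l0 := opn_nonneg S
  have m0 := opn_nonneg Z
  set lam := opn S
  set m := opn Z
  have eZ : Z = S + Y := by rw [hY]; abel
  have a1 : lam ^ 2 + 2 * lam * (u ⬝ᵥ Y *ᵥ w) + (Y *ᵥ w) ⬝ᵥ (Y *ᵥ w) ≤ m ^ 2 := by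
    have := mulVec_dot_le Z w
    rw [hw, mul_one] at this
    conv_lhs at this => rw [eZ, add_mulVec, h1]
    simp only [add_dotProduct, dotProduct_add, smul_dotProduct, dotProduct_smul, smul_eq_mul,
      hu] at this
    rw [dotProduct_comm (Y *ᵥ w) u] at this
    nlinarith
  have tr : ∀ q : K → ℝ, q ⬝ᵥ Yᵀ *ᵥ u = u ⬝ᵥ Y *ᵥ q := fun q => by
    rw [dotProduct_mulVec, vecMul_transpose, dotProduct_comm]
  have a2 : lam ^ 2 + 2 * lam * (u ⬝ᵥ Y *ᵥ w) + (Yᵀ *ᵥ u) ⬝ᵥ (Yᵀ *ᵥ u) ≤ m ^ 2 := by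
    have := mulVec_dot_le Zᵀ u
    rw [hu, mul_one, opn_transpose] at this
    conv_lhs at this => rw [eZ, transpose_add, add_mulVec, h2]
    simp only [add_dotProduct, dotProduct_add, smul_dotProduct, dotProduct_smul, smul_eq_mul,
      hw] at this
    rw [dotProduct_comm (Yᵀ *ᵥ u) w, tr] at this
    nlinarith
  have b1 := young (y := Y *ᵥ w) (lam := lam) hr hϖ hp
  have b2 := young (y := Yᵀ *ᵥ u) (lam := lam) hr hϖ hq
  rw [tr] at b2
  have c1 : 2 * lam * (r * (u ⬝ᵥ Y *ᵥ w) + p ⬝ᵥ Y *ᵥ w + u ⬝ᵥ Y *ᵥ q) ≤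
      r * (m ^ 2 - lam ^ 2) + 4 * lam ^ 2 * ϖ := by
    nlinarith [mul_le_mul_of_nonneg_left a1 hr, mul_le_mul_of_nonneg_left a2 hr]
  have c2 : opn Y ≤ m + lam := opn_sub_le Z S
  have c3 : 2 * lam * (θ * opn Y) ≤ θ * (4 * lam ^ 2 + |m ^ 2 - lam ^ 2|) := by
    have : 2 * lam * opn Y ≤ 4 * lam ^ 2 + |m ^ 2 - lam ^ 2| := by
      nlinarith [le_abs_self (m ^ 2 - lam ^ 2), sq_nonneg (m - lam),
        mul_le_mul_of_nonneg_left c2 l0]
    nlinarith [mul_le_mul_of_nonneg_left this hθ]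
  have c4 : 2 * lam ^ 2 * (θ * |m ^ 2 - lam ^ 2|) ≤
      r * (m ^ 2 - lam ^ 2) ^ 2 + ϖ * lam ^ 4 := by
    refine le_add_of_sq (by positivity) (by positivity) ?_
    have h5 := mul_le_mul_of_nonneg_right hε
      (by positivity : 0 ≤ 4 * lam ^ 4 * (m ^ 2 - lam ^ 2) ^ 2)
    rw [mul_pow, mul_pow θ, sq_abs]
    nlinarith
  have d1 := mul_le_mul_of_nonneg_left c1 (by positivity : 0 ≤ 2 * lam ^ 2)
  have d2 := mul_le_mul_of_nonneg_left c3 (by positivity : 0 ≤ 2 * lam ^ 2)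
  nlinarith

/-- **(OB)**, pointwise form at the top singular vectors -/
theorem ob_pt {r : ι → ℝ} {S S' : Matrix I K ℝ} {Sl : ι → Matrix I K ℝ} {C E : ℝ}
    (hr : ∀ l, 0 ≤ r l) (h : Str r S Sl S' C E) {u : I → ℝ}
    {w : K → ℝ} (hu : u ⬝ᵥ u = 1) (hw : w ⬝ᵥ w = 1) (h1 : S *ᵥ w = opn S • u)
    (h2 : Sᵀ *ᵥ u = opn S • w) : 4 * opn S ^ 3 * (u ⬝ᵥ S' *ᵥ w) ≤
      ∑ l, r l * (opn (Sl l) ^ 4 - opn S ^ 4) + (21 * C + 3) * opn S ^ 4 + E ^ 4 := by
  obtain ⟨p, q, ϖ, θ, hl, s1, s2, hs⟩ := h u w hu hw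
  have l0 := opn_nonneg S
  have a := Finset.sum_le_sum fun l (_ : l ∈ Finset.univ) => one (Z := Sl l) hu hw h1 h2 (hr l)
    (hl l).1 (hl l).2.1 (hl l).2.2.1 (hl l).2.2.2.1 (hl l).2.2.2.2
  have e : ∑ l, (r l * (opn (Sl l) ^ 4 - opn S ^ 4) + opn S ^ 4 * (9 * ϖ l + 8 * θ l)) =
      ∑ l, r l * (opn (Sl l) ^ 4 - opn S ^ 4) + opn S ^ 4 * (9 * ∑ l, ϖ l + 8 * ∑ l, θ l) := by
    simp only [Finset.sum_add_distrib, mul_add, Finset.mul_sum]
  rw [← Finset.mul_sum, e] at a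
  have b := mul_le_mul_of_nonneg_left hs (by positivity : 0 ≤ 4 * opn S ^ 3)
  have c : 4 * opn S ^ 3 * E ≤ 3 * opn S ^ 4 + E ^ 4 := by
    nlinarith [mul_nonneg (sq_nonneg (opn S - E)) (add_nonneg (sq_nonneg (opn S + E))
      (by positivity : 0 ≤ 2 * opn S ^ 2))]
  have d := mul_le_mul_of_nonneg_left (by linarith : 9 * ∑ l, ϖ l + 8 * ∑ l, θ l ≤ 17 * C)
    (by positivity : 0 ≤ opn S ^ 4)
  nlinarith

lemma hasDeriv_bil {S : ℝ → Matrix I K ℝ} {S' : Matrix I K ℝ} {s : Set ℝ} {v : ℝ}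
    (h : ∀ i k, HasDerivWithinAt (fun t => S t i k) (S' i k) s v) (u : I → ℝ) (w : K → ℝ) :
    HasDerivWithinAt (fun t => u ⬝ᵥ S t *ᵥ w) (u ⬝ᵥ S' *ᵥ w) s v := by
  simp only [dotProduct, mulVec]
  exact HasDerivWithinAt.fun_sum fun i _ => (HasDerivWithinAt.fun_sum fun k _ =>
    (h i k).mul_const (w k)).const_mul (u i)

lemma cont_opn {S S' : ℝ → Matrix I K ℝ} {s : Set ℝ}
    (h : ∀ v ∈ s, ∀ i k, HasDerivWithinAt (fun t => S t i k) (S' v i k) s v) :
    ContinuousOn (fun v => opn (S v)) s :=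
  continuous_opn.comp_continuousOn (continuousOn_pi.2 fun i => continuousOn_pi.2 fun k v hv =>
    (h v hv i k).continuousWithinAt)

lemma bil_four_le (A : Matrix I K ℝ) {u : I → ℝ} {w : K → ℝ} (hu : u ⬝ᵥ u = 1) (hw : w ⬝ᵥ w = 1) :
    (u ⬝ᵥ A *ᵥ w) ^ 4 ≤ opn A ^ 4 := by
  have h := abs_bil_le A u w
  have e1 : nrm u = 1 := by have := nrm_sq u; nlinarith [nrm_nonneg u]
  have e2 : nrm w = 1 := by have := nrm_sq w; nlinarith [nrm_nonneg w]
  rw [e1, e2, mul_one, mul_one] at h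
  rw [← (by decide : Even 4).pow_abs]
  exact pow_le_pow_left₀ (abs_nonneg _) h 4

/-- the test function of (OB): for use inside `touch` with coupled families -/
theorem ob_test {r : ι → ℝ} {S : ℝ → Matrix I K ℝ} {S' : Matrix I K ℝ} {Sl : ι → Matrix I K ℝ}
    {C E v : ℝ} {s : Set ℝ} (hr : ∀ l, 0 ≤ r l)
    (hd : ∀ i k, HasDerivWithinAt (fun t => S t i k) (S' i k) s v)
    (h : Str r (S v) Sl S' C E) (hp : 0 < opn (S v) ^ 4) :
    ∃ (φ : ℝ → ℝ) (φ' : ℝ), HasDerivWithinAt φ φ' s v ∧ φ v = opn (S v) ^ 4 ∧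
      (∀ t, φ t ≤ opn (S t) ^ 4) ∧ φ' ≤ ∑ l, r l * (opn (Sl l) ^ 4 - opn (S v) ^ 4) +
        (21 * C + 3) * opn (S v) ^ 4 + E ^ 4 := by
  have hp' : 0 < opn (S v) := (opn_nonneg _).lt_of_ne fun e => by
    rw [← e] at hp; norm_num at hp
  obtain ⟨u, w, hu, hw, h1, h2⟩ := exists_sing hp'
  have e : u ⬝ᵥ S v *ᵥ w = opn (S v) := by rw [h1, dotProduct_smul, hu, smul_eq_mul, mul_one]
  refine ⟨fun t => (u ⬝ᵥ S t *ᵥ w) ^ 4, _, (hasDeriv_bil hd u w).fun_pow 4, by simp only [e],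
    fun t => bil_four_le _ hu hw, ?_⟩
  have := ob_pt hr h hu hw h1 h2
  simp only [e]
  norm_num
  linarith

/-- **(OB)** in the words of `S6b.cmp` -/
theorem ob_tch {r : ι → ℝ} {S : ℝ → Matrix I K ℝ} {S' : Matrix I K ℝ} {Sl : ι → Matrix I K ℝ}
    {C E v : ℝ} (hr : ∀ l, 0 ≤ r l) (hd : ∀ i k, HasDerivAt (fun t => S t i k) (S' i k) v)
    (h : Str r (S v) Sl S' C E) : S6b.Tch (fun t => opn (S t) ^ 4) v
      (∑ l, r l * (opn (Sl l) ^ 4 - opn (S v) ^ 4) + (21 * C + 3) * opn (S v) ^ 4 + E ^ 4) := by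
  rcases (pow_nonneg (opn_nonneg (S v)) 4).eq_or_lt with e | hp
  · refine ⟨fun _ => 0, 0, hasDerivAt_const _ _, e,
      Eventually.of_forall fun t => pow_nonneg (opn_nonneg _) 4, ?_⟩
    rw [← e]
    have := Finset.sum_nonneg fun l (_ : l ∈ Finset.univ) =>
      mul_nonneg (hr l) (pow_nonneg (opn_nonneg (Sl l)) 4)
    simp only [sub_zero, mul_zero, add_zero]
    positivity
  · obtain ⟨φ, φ', h1, h2, h3, h4⟩ := ob_test (s := univ) hr
      (fun i k => (hd i k).hasDerivWithinAt) h hp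
    exact ⟨φ, φ', hasDerivWithinAt_univ.1 h1, h2, Eventually.of_forall h3, h4⟩

variable {X : Type*} [Finite X]



end Crest.Agent.T157.S6o

end
end

-- ▼ part T157/S6ShA_74

/-!
# Row 157, block S6 (helper74): operator norms of stacked matrices
-/

set_option autoImplicit false
set_option linter.unusedSectionVars false
set_option linter.unusedSimpArgs false

noncomputable section

namespace Crest.Agent.T157.S6o

open Matrix Real Finset
open Crest.Agent.T157.Eig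
open Crest.Agent.T157.Tap (V Mx)

section gen
variable {I K : Type*} [Fintype I] [DecidableEq I] [Fintype K] [DecidableEq K]

lemma bil_eq (u : I → ℝ) (M : Matrix I K ℝ) (w : K → ℝ) :
    u ⬝ᵥ M *ᵥ w = ∑ p, ∑ j, u p * M p j * w j := by
  simp only [dotProduct, mulVec, mul_sum, mul_assoc]

lemma nrm_mono {u v : I → ℝ} {c : ℝ} (hc : 0 ≤ c) (h : ∀ p, |u p| ≤ c * |v p|) :
    nrm u ≤ c * nrm v := by
  rw [nrm_le_iff (mul_nonneg hc (nrm_nonneg v)), mul_pow, nrm_sq, dotProduct, dotProduct, mul_sum]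
  refine sum_le_sum fun p _ => ?_
  have := pow_le_pow_left₀ (abs_nonneg _) (h p) 2
  rw [mul_pow, sq_abs, sq_abs] at this
  nlinarith

lemma nrm_abs (u : I → ℝ) : nrm (fun p => |u p|) = nrm u :=
  le_antisymm (by simpa using nrm_mono (u := fun p => |u p|) (v := u) zero_le_one (by simp))
    (by simpa using nrm_mono (u := u) (v := fun p => |u p|) zero_le_one (by simp))

lemma nrm_one_of {u : I → ℝ} (h : u ⬝ᵥ u = 1) : nrm u = 1 := by
  have := nrm_sq u
  nlinarith [nrm_nonneg u]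

lemma col_le (X : Matrix I K ℝ) (k : K) : nrm (fun p => X p k) ≤ opn X := by
  have := nrm_mulVec_le X (Pi.single k 1)
  rw [nrm_single, mul_one, mulVec_single_one] at this
  exact this

lemma row_le (X : Matrix I K ℝ) (p : I) : ∑ k, X p k ^ 2 ≤ opn X ^ 2 := by
  have h := col_le Xᵀ p
  rw [opn_transpose, nrm_le_iff (opn_nonneg X)] at h
  simpa only [dotProduct, transpose_apply, sq] using h

lemma sum_abs_le (a b : I → ℝ) : ∑ p, |a p| * |b p| ≤ nrm a * nrm b := by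
  have := dot_le (fun p => |a p|) (fun p => |b p|)
  rwa [nrm_abs, nrm_abs] at this

/-- entrywise domination -/
lemma opn_dom {M N : Matrix I K ℝ} (h : ∀ p j, |M p j| ≤ N p j) : opn M ≤ opn N := by
  refine opn_le_of_bil (opn_nonneg N) fun u w => ?_
  have h1 := (le_abs_self _).trans (abs_bil_le N (fun p => |u p|) fun j => |w j|)
  rw [nrm_abs, nrm_abs] at h1
  refine le_trans ?_ h1
  rw [bil_eq, bil_eq]
  refine sum_le_sum fun p _ => sum_le_sum fun j _ => (le_abs_self _).trans ?_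
  rw [abs_mul, abs_mul]
  gcongr
  exact h p j

/-- a bilinear form in absolute values -/
lemma abs_bil (a : I → ℝ) (Y : Matrix I K ℝ) (b : K → ℝ) :
    ∑ p, ∑ j, |a p| * |Y p j| * |b j| ≤ nrm a * opn Y * ∑ j, |b j| := by
  rw [sum_comm, mul_sum]
  refine sum_le_sum fun j _ => ?_
  rw [← sum_mul]
  exact mul_le_mul_of_nonneg_right ((sum_abs_le a fun p => Y p j).trans
    (mul_le_mul_of_nonneg_left (col_le Y j) (nrm_nonneg a))) (abs_nonneg _)

lemma sum_nrm_sq {u : I → ℝ} {U : I → K → ℝ} {a : ℝ} (hU : ∀ p, ∑ k, U p k ^ 2 ≤ a ^ 2) :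
    ∑ k, nrm (fun p => u p * U p k) ^ 2 ≤ a ^ 2 * nrm u ^ 2 := by
  simp only [nrm_sq, dotProduct]
  rw [sum_comm, mul_sum]
  refine sum_le_sum fun p _ => ?_
  have := mul_le_mul_of_nonneg_right (hU p) (mul_self_nonneg (u p))
  rw [sum_mul] at this
  exact (sum_congr rfl fun k _ => by ring).le.trans this

/-- **(HD)** Hadamard products with bounded rows -/
lemma hd {M X : Matrix I K ℝ} {U : I → K → ℝ} {a : ℝ} (ha : 0 ≤ a)
    (h : ∀ p k, |M p k| ≤ |U p k| * |X p k|) (hU : ∀ p, ∑ k, U p k ^ 2 ≤ a ^ 2) :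
    opn M ≤ a * opn X := by
  refine opn_le_of_bil (mul_nonneg ha (opn_nonneg X)) fun u w => ?_
  have h1 : u ⬝ᵥ M *ᵥ w ≤ ∑ k, opn X * (|nrm fun p => u p * U p k| * |w k|) := by
    rw [bil_eq, sum_comm]
    refine sum_le_sum fun k _ => ?_
    have h2 := (sum_abs_le (fun p => u p * U p k) fun p => X p k).trans
      (mul_le_mul_of_nonneg_left (col_le X k) (nrm_nonneg _))
    have h3 := mul_le_mul_of_nonneg_right h2 (abs_nonneg (w k))
    rw [sum_mul] at h3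
    rw [abs_of_nonneg (nrm_nonneg _)]
    refine le_trans (sum_le_sum fun p _ => (le_abs_self _).trans ?_) (h3.trans_eq (by ring))
    rw [abs_mul, abs_mul, abs_mul, mul_assoc |u p| |U p k|]
    gcongr
    exact h p k
  have h4 : nrm (fun k => nrm fun p => u p * U p k) ≤ a * nrm u := by
    rw [nrm_le_iff (mul_nonneg ha (nrm_nonneg u)), mul_pow]
    simpa only [dotProduct, sq] using sum_nrm_sq (u := u) hU
  rw [← mul_sum] at h1
  have h5 := (sum_abs_le (fun k => nrm fun p => u p * U p k) w).trans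
    (mul_le_mul_of_nonneg_right h4 (nrm_nonneg w))
  exact h1.trans ((mul_le_mul_of_nonneg_left h5 (opn_nonneg X)).trans_eq (by ring))

lemma mul_le {L : Type*} [Fintype L] [DecidableEq L] {M : Matrix I K ℝ} {N : Matrix K L ℝ}
    {a b : ℝ} (ha : opn M ≤ a) (hb : opn N ≤ b) : opn (M * N) ≤ a * b :=
  (opn_mul_le M N).trans (mul_le_mul ha hb (opn_nonneg N) ((opn_nonneg M).trans ha))

lemma add_le {M N : Matrix I K ℝ} {a b : ℝ} (ha : opn M ≤ a) (hb : opn N ≤ b) :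
    opn (M + N) ≤ a + b := (opn_add_le M N).trans (add_le_add ha hb)

end gen

variable {n : ℕ} {A : Type*} [Fintype A] [DecidableEq A]

/-- stacked matrices -/
abbrev Sk (A : Type*) (n : ℕ) : Type _ := Matrix (A × Fin n) (Fin n) ℝ

/-- remove the diagonals of all blocks -/
def offS (M : Sk A n) : Sk A n := of fun p j => if p.2 = j then 0 else M p j
/-- the same matrix applied to every block -/
def bk (B : Mx n) (X : Sk A n) : Sk A n := of fun p j => ∑ k, B p.2 k * X (p.1, k) j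
/-- the same Hadamard factor in every block -/
def ha (U : Mx n) (X : Sk A n) : Sk A n := of fun p j => U p.2 j * X p j
/-- entrywise absolute value -/
def ab (X : Sk A n) : Sk A n := of fun p j => |X p j|
/-- a family of vectors as a stack of matrices with constant rows -/
def cr (ω : A → V n) : Sk A n := of fun p _ => ω p.1 p.2

lemma offS_le (M : Sk A n) : opn (offS M) ≤ 2 * opn M := by
  have h : opn (M - offS M) ≤ 1 * opn M :=
    hd (U := fun p j => if p.2 = j then 1 else 0) zero_le_one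
      (fun p j => by by_cases e : p.2 = j <;> simp [offS, e]) fun p => by simp
  have := opn_sub_le M (M - offS M)
  rw [sub_sub_cancel] at this
  linarith


lemma bk_le (B : Mx n) (X : Sk A n) : opn (bk B X) ≤ opn B * opn X := by
  refine opn_le_of_sq (mul_nonneg (opn_nonneg _) (opn_nonneg _)) fun w => ?_
  have e : ∀ a i, (bk B X *ᵥ w) (a, i) = (B *ᵥ fun k => (X *ᵥ w) (a, k)) i := fun a i => by
    simp only [bk, mulVec, dotProduct, of_apply, sum_mul, mul_sum, mul_assoc]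
    exact sum_comm
  have h1 : (bk B X *ᵥ w) ⬝ᵥ (bk B X *ᵥ w) ≤ opn B ^ 2 * ((X *ᵥ w) ⬝ᵥ (X *ᵥ w)) := by
    rw [dotProduct, dotProduct, Fintype.sum_prod_type, Fintype.sum_prod_type, mul_sum]
    refine sum_le_sum fun a _ => ?_
    simp only [e]
    exact mulVec_dot_le B fun k => (X *ᵥ w) (a, k)
  refine h1.trans ?_
  rw [mul_pow, mul_assoc]
  exact mul_le_mul_of_nonneg_left (mulVec_dot_le X w) (sq_nonneg _)

/-- `Z` multiplies Hadamard factors with norm at most `z` -/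
def Mul (Z : Sk A n) (z : ℝ) : Prop :=
  0 ≤ z ∧ ∀ U : Mx n, opn (ha U Z) ≤ opn U * z ∧ opn (ha U (ab Z)) ≤ opn U * z

lemma mul_opn (X : Sk A n) : Mul X (opn X) := ⟨opn_nonneg X, fun U =>
  ⟨hd (U := fun p j => U p.2 j) (opn_nonneg U) (fun p j => by simp [ha, abs_mul])
    fun p => row_le U p.2,
  hd (U := fun p j => U p.2 j) (opn_nonneg U) (fun p j => by simp [ha, ab, abs_mul])
    fun p => row_le U p.2⟩⟩

lemma ha_cr {ω : A → V n} {z : ℝ} (hz : 0 ≤ z) (h : ∀ k, ∑ a, ω a k ^ 2 ≤ z ^ 2) (U : Mx n) :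
    opn (ha U (cr ω)) ≤ opn U * z := by
  refine opn_le_of_sq (mul_nonneg (opn_nonneg _) hz) fun w => ?_
  have e : ∀ a i, (ha U (cr ω) *ᵥ w) (a, i) = ω a i * (U *ᵥ w) i := fun a i => by
    simp only [ha, cr, mulVec, dotProduct, of_apply, mul_sum]
    exact sum_congr rfl fun j _ => by ring
  have h1 : (ha U (cr ω) *ᵥ w) ⬝ᵥ (ha U (cr ω) *ᵥ w) ≤ z ^ 2 * ((U *ᵥ w) ⬝ᵥ (U *ᵥ w)) := by
    rw [dotProduct, dotProduct, Fintype.sum_prod_type, sum_comm, mul_sum]
    refine sum_le_sum fun i _ => ?_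
    have := mul_le_mul_of_nonneg_right (h i) (mul_self_nonneg ((U *ᵥ w) i))
    rw [sum_mul] at this
    exact (sum_congr rfl fun a _ => by rw [e]; ring).le.trans this
  refine h1.trans ?_
  rw [mul_pow, mul_comm (opn U ^ 2), mul_assoc]
  exact mul_le_mul_of_nonneg_left (mulVec_dot_le U w) (sq_nonneg _)

lemma mul_cr {ω : A → V n} {z : ℝ} (hz : 0 ≤ z) (h : ∀ k, ∑ a, ω a k ^ 2 ≤ z ^ 2) :
    Mul (cr ω) z := ⟨hz, fun U => ⟨ha_cr hz h U,
  ha_cr (ω := fun a k => |ω a k|) hz (fun k => by simpa only [sq_abs] using h k) U⟩⟩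

/-- a three-index coefficient in factor form -/
structure Fac (W : Mx n) (K c : ℝ) (F : Fin n → Fin n → Fin n → ℝ) (d P : Mx n) (q : V n) :
    Prop where
  sym : Wᵀ = W
  op : opn W ≤ K
  c0 : 0 ≤ c
  od : opn d ≤ c
  oP : opn P ≤ c
  ed : ∀ i k, |d i k| ≤ c * |W i k|
  eP : ∀ i k, |P i k| ≤ c * |W i k|
  eq : ∀ k, |q k| ≤ c
  rem : ∀ i j k, i ≠ j →
    |F i j k - (P i k * d j k + d i k * P j k + q k * (d i k * d j k))| ≤
      c * (W i k ^ 2 * W j k ^ 2)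

/-- the matrix of squares -/
def sqm (W : Mx n) : Mx n := of fun i k => W i k ^ 2

variable {W : Mx n} {K c : ℝ} {F : Fin n → Fin n → Fin n → ℝ} {d P : Mx n} {q : V n}

lemma Fac.K0 (h : Fac W K c F d P q) : 0 ≤ K := (opn_nonneg W).trans h.op

lemma Fac.osq (h : Fac W K c F d P q) : opn (sqm W) ≤ K ^ 2 := by
  simpa using Reg.Coef54.op_sq h.sym h.op (R := sqm W) zero_le_one fun i k => by simp [sqm]

lemma Fac.dq (h : Fac W K c F d P q) : opn (d * diagonal q) ≤ c * c :=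
  mul_le h.od (opn_diagonal_le h.c0 h.eq)

/-- contraction with the columns of the stack -/
lemma Fac.right (h : Fac W K c F d P q) (X : Sk A n) :
    opn (offS (of fun p j => ∑ k, F p.2 j k * X p k)) ≤
      (4 * c ^ 2 + 2 * c ^ 3 + c * K ^ 4) * opn X := by
  obtain ⟨x0, hX⟩ := mul_opn X
  have c0 := h.c0
  set M : Sk A n := ha P X * dᵀ + ha d X * Pᵀ + ha (d * diagonal q) X * dᵀ with hM
  have g : ∀ {U : Mx n} {a : ℝ}, opn U ≤ a → opn (ha U X) ≤ a * opn X := fun hU =>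
    (hX _).1.trans (mul_le_mul_of_nonneg_right hU x0)
  have h1 : opn M ≤ c * opn X * c + c * opn X * c + c * c * opn X * c :=
    add_le (add_le (mul_le (g h.oP) (by rw [opn_transpose]; exact h.od))
      (mul_le (g h.od) (by rw [opn_transpose]; exact h.oP)))
      (mul_le (g h.dq) (by rw [opn_transpose]; exact h.od))
  have h2 : opn (offS (of fun p j => ∑ k, F p.2 j k * X p k) - offS M) ≤
      opn (c • (ha (sqm W) (ab X) * (sqm W)ᵀ)) := opn_dom fun p j => by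
    simp only [Matrix.smul_apply, mul_apply, ha, ab, sqm, of_apply, transpose_apply, smul_eq_mul]
    by_cases e : p.2 = j
    · simp only [Matrix.sub_apply, offS, of_apply, if_pos e, sub_zero, abs_zero]
      positivity
    · have e2 : M p j = ∑ k, (P p.2 k * d j k + d p.2 k * P j k + q k * (d p.2 k * d j k)) *
          X p k := by
        simp only [hM, Matrix.add_apply]
        rw [mul_apply, mul_apply, mul_apply, ← sum_add_distrib, ← sum_add_distrib]
        refine sum_congr rfl fun k _ => ?_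
        simp only [ha, of_apply, transpose_apply, mul_diagonal]
        ring
      simp only [Matrix.sub_apply, offS, of_apply, if_neg e, e2, ← sum_sub_distrib, mul_sum]
      refine (abs_sum_le_sum_abs _ _).trans (sum_le_sum fun k _ => ?_)
      have := mul_le_mul_of_nonneg_right (h.rem p.2 j k e) (abs_nonneg (X p k))
      rw [← abs_mul] at this
      refine le_trans (le_of_eq ?_) (this.trans_eq (by ring))
      congr 1
      ring
  rw [opn_smul, abs_of_nonneg c0] at h2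
  have h3 : opn (ha (sqm W) (ab X) * (sqm W)ᵀ) ≤ K ^ 2 * opn X * K ^ 2 :=
    mul_le ((hX _).2.trans (mul_le_mul_of_nonneg_right h.osq x0)) (by rw [opn_transpose]; exact h.osq)
  have h4 := opn_add_le (offS (of fun p j => ∑ k, F p.2 j k * X p k) - offS M) (offS M)
  rw [sub_add_cancel] at h4
  have h5 := offS_le M
  have h6 := mul_le_mul_of_nonneg_left h3 c0
  nlinarith

/-- contraction with the rows inside every block -/
lemma Fac.left (h : Fac W K c F d P q) {Z : Sk A n} {z : ℝ} (hZ : Mul Z z) {s : V n}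
    (hs : ∀ i, |s i| = 1) :
    opn (offS (of fun p j => ∑ k, s p.2 * s k * F p.2 j k * Z (p.1, k) j)) ≤
      (4 * c ^ 2 + 2 * c ^ 3 + c * K ^ 4) * z := by
  obtain ⟨x0, hX⟩ := hZ
  have c0 := h.c0
  have sd : ∀ {B : Mx n} {a : ℝ}, opn B ≤ a → opn (diagonal s * B * diagonal s) ≤ a := fun hB => by
    have h1 := opn_diagonal_le zero_le_one fun i => (hs i).le
    simpa using mul_le (mul_le h1 hB) h1
  have g : ∀ {B U : Mx n} {a b : ℝ}, opn B ≤ a → opn U ≤ b →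
      opn (bk (diagonal s * B * diagonal s) (ha Uᵀ Z)) ≤ a * (b * z) := fun hB hU =>
    (bk_le _ _).trans (mul_le_mul (sd hB) ((hX _).1.trans (mul_le_mul_of_nonneg_right
      (by rw [opn_transpose]; exact hU) x0)) (opn_nonneg _) ((opn_nonneg _).trans hB))
  set M : Sk A n := bk (diagonal s * P * diagonal s) (ha dᵀ Z) +
    bk (diagonal s * d * diagonal s) (ha Pᵀ Z) +
    bk (diagonal s * (d * diagonal q) * diagonal s) (ha dᵀ Z) with hM
  have h1 : opn M ≤ c * (c * z) + c * (c * z) + c * c * (c * z) :=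
    add_le (add_le (g h.oP h.od) (g h.od h.oP)) (g h.dq h.od)
  have h2 : opn (offS (of fun p j => ∑ k, s p.2 * s k * F p.2 j k * Z (p.1, k) j) - offS M) ≤
      opn (c • bk (sqm W) (ha (sqm W)ᵀ (ab Z))) := opn_dom fun p j => by
    simp only [Matrix.smul_apply, bk, ha, ab, sqm, of_apply, transpose_apply, smul_eq_mul]
    by_cases e : p.2 = j
    · simp only [Matrix.sub_apply, offS, of_apply, if_pos e, sub_zero, abs_zero]
      positivity
    · simp only [Matrix.sub_apply, offS, of_apply, if_neg e, hM, Matrix.add_apply, bk, ha, mul_diagonal,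
        diagonal_mul, transpose_apply, ← sum_add_distrib, ← sum_sub_distrib, mul_sum]
      refine (abs_sum_le_sum_abs _ _).trans (sum_le_sum fun k _ => ?_)
      have := mul_le_mul_of_nonneg_right (h.rem p.2 j k e) (abs_nonneg (Z (p.1, k) j))
      rw [← abs_mul, ← one_mul |_ * Z (p.1, k) j|, ← mul_one (1 : ℝ)] at this
      nth_rw 1 [← hs p.2] at this
      rw [← hs k, ← abs_mul, ← abs_mul] at this
      refine le_trans (le_of_eq ?_) (this.trans_eq (by ring))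
      congr 1
      ring
  rw [opn_smul, abs_of_nonneg c0] at h2
  have h3 : opn (bk (sqm W) (ha (sqm W)ᵀ (ab Z))) ≤ K ^ 2 * (K ^ 2 * z) :=
    (bk_le _ _).trans (mul_le_mul h.osq ((hX _).2.trans (mul_le_mul_of_nonneg_right
      (by rw [opn_transpose]; exact h.osq) x0)) (opn_nonneg _) (sq_nonneg _))
  have h4 := opn_add_le (offS (of fun p j => ∑ k, s p.2 * s k * F p.2 j k * Z (p.1, k) j) -
    offS M) (offS M)
  rw [sub_add_cancel] at h4
  have h5 := offS_le M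
  have h6 := mul_le_mul_of_nonneg_left h3 c0
  nlinarith

/-- the weight of the direction `k` seen from `u` -/
def wa (W : Mx n) (u : A × Fin n → ℝ) (k : Fin n) : ℝ := nrm fun p => u p * W p.2 k
/-- the weight of the direction `k` seen from `w` -/
def wb (W : Mx n) (w : V n) (k : Fin n) : ℝ := nrm fun j => w j * W j k

/-- first-order term, factor form -/
lemma Fac.first (h : Fac W K c F d P q) {Y : Sk A n} (hY : ∀ p, Y p p.2 = 0) (u : A × Fin n → ℝ)
    (w : V n) (k : Fin n) : u ⬝ᵥ (of fun p j => F p.2 j k * Y p j : Sk A n) *ᵥ w ≤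
      (2 * c ^ 2 + c ^ 3 + c * K ^ 2) * (wa W u k * wb W w k) * opn Y := by
  have c0 := h.c0
  have K0 := h.K0
  have y0 := opn_nonneg Y
  have a0 : 0 ≤ wa W u k := nrm_nonneg _
  have b0 : 0 ≤ wb W w k := nrm_nonneg _
  have g : ∀ {B U : Mx n} {a b : ℝ}, 0 ≤ a → 0 ≤ b → (∀ i, |B i k| ≤ a * |W i k|) →
      (∀ i, |U i k| ≤ b * |W i k|) → ∑ p, ∑ j, u p * B p.2 k * Y p j * (w j * U j k) ≤
        opn Y * (a * wa W u k * (b * wb W w k)) := fun {B U a b} ha hb hB hU => by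
    rw [← bil_eq (fun p => u p * B p.2 k) Y fun j => w j * U j k]
    refine (le_abs_self _).trans ((abs_bil_le _ _ _).trans (mul_le_mul_of_nonneg_left
      (mul_le_mul (nrm_mono ha fun p => ?_) (nrm_mono hb fun j => ?_) (nrm_nonneg _)
        (by positivity)) y0))
    · rw [abs_mul, abs_mul]
      nlinarith [mul_le_mul_of_nonneg_left (hB p.2) (abs_nonneg (u p))]
    · rw [abs_mul, abs_mul]
      nlinarith [mul_le_mul_of_nonneg_left (hU j) (abs_nonneg (w j))]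
  have g1 := g c0 c0 (fun i => h.eP i k) fun i => h.ed i k
  have g2 := g c0 c0 (fun i => h.ed i k) fun i => h.eP i k
  have g3 := g (B := d * diagonal q) (a := c * c) (by positivity) c0 (fun i => by
    rw [mul_diagonal, abs_mul]
    nlinarith [mul_le_mul (h.ed i k) (h.eq k) (abs_nonneg _) (by positivity)]) fun i => h.ed i k
  have g4 := abs_bil (fun p => u p * W p.2 k ^ 2) Y fun j => w j * W j k ^ 2
  have g5 : nrm (fun p : A × Fin n => u p * W p.2 k ^ 2) ≤ K * wa W u k :=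
    nrm_mono K0 fun p => by
      rw [sq, ← mul_assoc, abs_mul, mul_comm K]
      exact mul_le_mul_of_nonneg_left ((abs_entry_le W _ _).trans h.op) (abs_nonneg _)
  have g6 : ∑ j, |w j * W j k ^ 2| ≤ wb W w k * K := by
    refine le_trans (le_of_eq (sum_congr rfl fun j _ => by rw [sq, ← mul_assoc, abs_mul]))
      ((sum_abs_le (fun j => w j * W j k) fun j => W j k).trans
        (mul_le_mul_of_nonneg_left ((col_le W k).trans h.op) b0))
  have g7 := g4.trans (mul_le_mul (mul_le_mul_of_nonneg_right g5 y0) g6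
    (sum_nonneg fun _ _ => abs_nonneg _) (by positivity))
  have g8 := mul_le_mul_of_nonneg_left g7 c0
  have key : u ⬝ᵥ (of fun p j => F p.2 j k * Y p j : Sk A n) *ᵥ w ≤
      ∑ p, ∑ j, u p * P p.2 k * Y p j * (w j * d j k) +
      ∑ p, ∑ j, u p * d p.2 k * Y p j * (w j * P j k) +
      ∑ p, ∑ j, u p * (d * diagonal q) p.2 k * Y p j * (w j * d j k) +
      c * ∑ p, ∑ j, |u p * W p.2 k ^ 2| * |Y p j| * |w j * W j k ^ 2| := by
    simp only [bil_eq, mul_sum, ← sum_add_distrib, of_apply, mul_diagonal]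
    refine sum_le_sum fun p _ => sum_le_sum fun j _ => ?_
    by_cases e : p.2 = j
    · rw [← e, hY p]; simp
    · have := mul_le_mul_of_nonneg_right (h.rem p.2 j k e) (abs_nonneg (u p * Y p j * w j))
      rw [← abs_mul] at this
      have h9 := (le_abs_self _).trans this
      simp only [abs_mul, abs_pow, sq_abs] at h9 ⊢
      nlinarith
  nlinarith

/-- first-order term, crude form -/
lemma first_crude {t : ℝ} (ht : 0 ≤ t) {k : Fin n}
    (h : ∀ i j, i ≠ j → |F i j k| ≤ t * (|W i k| * |W j k|)) {Y : Sk A n} (hY : ∀ p, Y p p.2 = 0)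
    (u : A × Fin n → ℝ) (w : V n) : u ⬝ᵥ (of fun p j => F p.2 j k * Y p j : Sk A n) *ᵥ w ≤
      t * √n * (wa W u k * wb W w k) * opn Y := by
  have g4 := abs_bil (fun p => u p * W p.2 k) Y fun j => w j * W j k
  have g6 : ∑ j, |w j * W j k| ≤ wb W w k * √n := by
    have := sum_abs_le (fun j => w j * W j k) fun _ => (1 : ℝ)
    simp only [abs_one, mul_one] at this
    refine this.trans (mul_le_mul_of_nonneg_left ?_ (nrm_nonneg _))
    rw [nrm_le_iff (sqrt_nonneg _), sq_sqrt (Nat.cast_nonneg n)]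
    simp [dotProduct]
  have g7 := g4.trans (mul_le_mul_of_nonneg_left g6 (mul_nonneg (nrm_nonneg _) (opn_nonneg Y)))
  have g8 := mul_le_mul_of_nonneg_left g7 ht
  refine le_trans ?_ (g8.trans_eq (by simp only [wa]; ring))
  simp only [bil_eq, mul_sum, of_apply]
  refine sum_le_sum fun p _ => sum_le_sum fun j _ => ?_
  by_cases e : p.2 = j
  · rw [← e, hY p]; simp
  · have := mul_le_mul_of_nonneg_right (h p.2 j e) (abs_nonneg (u p * Y p j * w j))
    rw [← abs_mul] at this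
    have h9 := (le_abs_self _).trans this
    simp only [abs_mul] at h9 ⊢
    nlinarith

lemma sum_wa (hK : opn W ≤ K) {u : A × Fin n → ℝ} (hu : u ⬝ᵥ u = 1) :
    ∑ k, wa W u k ^ 2 ≤ K ^ 2 := by
  have := sum_nrm_sq (u := u) (U := fun p k => W p.2 k) (a := K) fun p =>
    (row_le W p.2).trans (pow_le_pow_left₀ (opn_nonneg W) hK 2)
  rwa [nrm_sq, hu, mul_one] at this

lemma sum_wb (hK : opn W ≤ K) {w : V n} (hw : w ⬝ᵥ w = 1) : ∑ k, wb W w k ^ 2 ≤ K ^ 2 := by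
  have := sum_nrm_sq (u := w) (U := fun p k => W p k) (a := K) fun p =>
    (row_le W p).trans (pow_le_pow_left₀ (opn_nonneg W) hK 2)
  rwa [nrm_sq, hw, mul_one] at this

end Crest.Agent.T157.S6o

end
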