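import Crest.Agent.T157.S6Mh_68
import Crest.Agent.T157.RegNice_66
import Crest.Agent.T157.S6Cmp_20
import Crest.Agent.T157.S3RgA_78
import Crest.Agent.T157.RegOp_34_Mg
import Crest.Agent.T157.RegBas_66
import Crest.Agent.T157.RegJac_75
import Crest.Agent.T157.RegTool_31
import Crest.Agent.T157.RegCoef_54
import Crest.Agent.T157.RegJb_45
import Crest.Agent.T157.S6DefB_68
import Crest.Agent.T157.RegSb_51
import Crest.Agent.T157.RegS4_2

-- ▼ part T157/S6F_68
section

/-!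
# Row 157, block S6 (helper68): the three layers and the sizes (`FGlue`)
-/

set_option autoImplicit false

noncomputable section

namespace Crest.Agent.T157.S6

open Matrix Real Filter Topology Set
open Crest.ProbabilityR.SpinGlassDynamics (disorderLaw gibbsWeight)
open Crest.Agent.T157.E hiding mean
open Crest.Agent.T157.Eig Crest.Agent.T157.Reg
open Crest.Agent.T157.Tap (V Mx)
open Crest.Agent.T157.Reg.Bas66 (mu_pos)
open Crest.Agent.T157.Chain22 (sg mean)

variable {n : ℕ} {W : Mx n}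

theorem G3.mono {m ε ε' τ τ' : ℝ} {T : Finset (Fin n)} {x : Cube n} (h : G3 W m ε τ T x)
    (he : ε ≤ ε') (ht : τ' ≤ τ) : G3 W m ε' τ' T x := fun v hv S hS =>
  (h v ⟨hv.1, hv.2.trans ht⟩ S hS).trans he

theorem Cv.mono (hn : 0 < n) {m ε ε' τ τ' : ℝ} {r b r' b' : ℝ → ℝ} {T : Finset (Fin n)} {x : Cube n}
    (h : Cv W m ε τ r b T x) (e0 : 0 ≤ ε) (t0 : 0 ≤ τ') (ht : τ' ≤ τ)
    (hr : ∀ v ∈ Icc 0 τ', ε + |r v - r' v| ≤ ε') (hb : ∀ v ∈ Icc 0 τ', b v + ε ≤ b' v + ε') :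
    Cv W m ε' τ' r' b' T x := by
  have he : ε ≤ ε' := le_trans (le_add_of_nonneg_right (abs_nonneg _)) (hr 0 ⟨le_rfl, t0⟩)
  refine ⟨fun v hv => le_trans ?_ (hr v hv), fun v hv => (h.g2 v ⟨hv.1, hv.2.trans ht⟩).trans (hb v hv),
    h.g3.mono he ht, ((oc_mono hn _ (B' := {z | ¬ G3 W m ε τ T z})
      (fun z (hz : ¬ G3 W m ε' τ' T z) h3 => hz (G3.mono h3 he ht)) t0 ht x).trans h.g5).trans
      (pow_le_pow_left₀ e0 he 2)⟩
  have e : ∀ A : Mx n, A - r' v • PT T = A - r v • PT T + (r v - r' v) • PT T := fun A => by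
    rw [sub_smul]; abel
  rw [e]
  refine (opn_add_le _ _).trans (add_le_add (h.g1 v ⟨hv.1, hv.2.trans ht⟩) ?_)
  rw [opn_smul]
  exact mul_le_of_le_one_right (abs_nonneg _) (opn_PT T)

theorem Pt1.mono {ρ : ℝ → ℝ} {ε ε' b b' v : ℝ} {T : Finset (Fin n)} {x : Cube n}
    (h : Pt1 W ρ ε b T v x) (e0 : 0 ≤ ε) (he : ε ≤ ε') (hb : b ≤ b') : Pt1 W ρ ε' b' T v x :=
  have e2 := pow_le_pow_left₀ e0 he 2
  ⟨fun l => (h.row l).trans e2, fun j => (h.hop j).trans e2, fun k hk => (h.th k hk).trans he,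
    h.op.trans (add_le_add hb e2)⟩

theorem GG.mono {ρ b b' : ℝ → ℝ} {ε ε' m m' τ : ℝ} {B : Set (Cube n)} (h : GG W ρ ε m τ b B)
    (e0 : 0 ≤ ε) (he : ε ≤ ε') (hm : m' ≤ m) (hb : ∀ v, b v ≤ b' v) : GG W ρ ε' m' τ b' B :=
  fun x hx T hT v hv => ⟨(h x hx T (hT.trans hm) v hv).toPt1.mono e0 he (hb v),
    (h x hx T (hT.trans hm) v hv).hess.trans he⟩

theorem Fq_nn (W : Mx n) (v : ℝ) (x : Cube n) : 0 ≤ Fq W v x :=
  div_nonneg (Finset.sum_nonneg fun _ _ => Finset.sum_nonneg fun _ _ => mul_self_nonneg _)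
    (Nat.cast_nonneg n)

theorem ce_mono {C D v τ Λ : ℝ} (h0 : 0 ≤ C) (h : C ≤ D) (v0 : 0 ≤ v) (hv : v ≤ τ)
    (hΛ : D * exp (D * τ) ≤ Λ) : C * exp (C * v) ≤ Λ :=
  le_trans (mul_le_mul h (exp_le_exp.2 (mul_le_mul h hv v0 (h0.trans h))) (exp_pos _).le
    (h0.trans h)) hΛ

set_option maxHeartbeats 800000 in
/-- the layers -/
theorem layers (h1 : SHsStmt) (h3 : St1Stmt) (h5 : CPStmt) (K : ℝ) : ∃ C ≥ (1 : ℝ),
    ∀ (n : ℕ) (W : Mx n) (β : ℝ), Adm W K (rho β W) → 0 ≤ β → β ≤ 1 →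
    ∀ (m m₂ ε ζ η τ τ' Λ : ℝ) (b : ℝ → ℝ) (B : Set (Cube n)), C * exp (C * τ) ≤ Λ → 0 < ζ →
    10 * Λ * ζ ≤ 1 → 0 ≤ ε → ε ≤ ζ → 0 ≤ τ → τ ≤ τ' → 0 < η → m ≤ m₂ → Λ ≤ η ^ 2 * m₂ →
    √(m / n) ≤ ζ → η * √(m + 1) ≤ ζ → Sub W m₂ ε →
    (∀ x ∉ B, ∀ T : Finset (Fin n), (T.card : ℝ) ≤ m → Cv W m₂ ε τ'
      (fun v => β ^ 2 * vr (cav T W) v x) (fun v => β ^ 2 * Fq (cav T W) v x) T x) →
    (∀ x ∉ B, ∀ v ∈ Icc 0 τ, |vr W v x - mean (prob (mu W)) (vr W v)| ≤ Λ * ζ ∧
      Fq W v x ≤ b v + 4 * Λ * ζ) →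
    ∃ B' : Set (Cube n), mass (mu W) B' ≤ (1 + τ / ζ ^ 2) ^ 2 * mass (mu W) B ∧
      GG W (rho β W) (10 * Λ ^ 4 * √ζ) m τ (fun v => 4 * b v) B' := by
  obtain ⟨C1, c1, h3⟩ := h3 K
  obtain ⟨C2, c2, h5⟩ := h5 K
  obtain ⟨C3, c3, h1⟩ := xs_le h1 K
  obtain ⟨C4, c4, h4⟩ := opn_Om K
  refine ⟨C1 + C2 + C3 + C4, by linarith, fun n W β a b0 b1 m m₂ ε ζ η τ τ' Λ b B hΛ z0 z1 e0 e1 t0 t1
    η0 hm hη s1 s2 hS hC hF => ?_⟩
  have L : ∀ C, 1 ≤ C → C ≤ C1 + C2 + C3 + C4 → ∀ v ∈ Icc 0 τ, C * exp (C * v) ≤ Λ :=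
    fun C p q v hv => ce_mono (by linarith) q hv.1 hv.2 hΛ
  have tt : τ ∈ Icc 0 τ := ⟨t0, le_rfl⟩
  have L1 : 1 ≤ Λ := by simpa using L 1 le_rfl (by linarith) 0 ⟨le_rfl, t0⟩
  have z2 : ζ ≤ Λ * ζ := le_mul_of_one_le_left z0.le L1
  have z3 : ζ ≤ 1 := by linarith
  have q0 := sqrt_nonneg ζ
  have q1 : √ζ * √ζ = ζ := mul_self_sqrt z0.le
  have q2 : ζ ≤ √ζ := le_sqrt_of_sq_le (by nlinarith)
  have bb : β ^ 2 ≤ 1 := pow_le_one₀ b0 b1
  have n0 : (0 : ℝ) < n := Nat.cast_pos.2 a.pos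
  have d0 := pow_pos z0 2
  -- layer 1
  have k1 : ∀ T : Finset (Fin n), (T.card : ℝ) ≤ m → ∀ x ∉ B,
      Cv W m₂ (10 * Λ * ζ) τ (rho β W) (fun v => 2 * b v) T x := fun T hT x hx => by
    have s3 : √(T.card / n) ≤ ζ := (sqrt_le_sqrt (div_le_div_of_nonneg_right hT n0.le)).trans s1
    have s4 : (T.card : ℝ) / n ≤ ζ := by
      have := (sqrt_le_left z0.le).1 s3
      nlinarith
    refine (hC x hx T hT).mono a.pos e0 t0 t1 (fun v hv => ?_) fun v hv => ?_
    · have p1 := (h3 n W a.pos a.nice v hv.1 T x).1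
      have p2 := (hF x hx v hv).1
      have p3 := mul_le_mul (L C1 c1 (by linarith) v hv) s3 (sqrt_nonneg _) (by linarith)
      rw [rho, ← mul_sub, abs_mul, abs_of_nonneg (sq_nonneg β)]
      have p4 := abs_sub_le (vr (cav T W) v x) (vr W v x) (mean (prob (mu W)) (vr W v))
      rw [abs_sub_comm (vr (cav T W) v x) (vr W v x)] at p4
      nlinarith [mul_le_of_le_one_left (abs_nonneg (vr (cav T W) v x - mean (prob (mu W)) (vr W v))) bb]
    · have p1 := (h3 n W a.pos a.nice v hv.1 T x).2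
      have p2 := (hF x hx v hv).2
      have p3 := mul_le_mul (L C1 c1 (by linarith) v hv) s4 (by positivity) (by linarith)
      nlinarith [mul_le_of_le_one_left (Fq_nn (cav T W) v x) bb]
  -- layer 2
  set B2 := B ∪ {x | ζ ^ 2 < oc W B τ x} with hB2
  have k2 : ∀ T : Finset (Fin n), (T.card : ℝ) ≤ m → ∀ x ∉ B2, ∀ v ∈ Icc 0 τ,
      Pt1 W (rho β W) (5 * Λ ^ 2 * √ζ) (4 * b v) T v x := fun T hT x hx v hv => by
    rw [hB2, mem_union, not_or] at hx
    have s3 : η * √(T.card + 1) ≤ ζ :=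
      (mul_le_mul_of_nonneg_left (sqrt_le_sqrt (by linarith)) η0.le).trans s2
    have s4 : √(10 * Λ * ζ) ≤ 4 * Λ * √ζ := by
      refine sqrt_le_iff.2 ⟨by positivity, ?_⟩
      rw [mul_pow, sq_sqrt z0.le]
      exact mul_le_mul_of_nonneg_right (by nlinarith) z0.le
    refine (h5 n W _ a m₂ _ η τ _ T B (by positivity) z1 η0 t0 (hT.trans hm)
      ((L C2 c2 (by linarith) τ tt).trans hη) (fun S T hS' hT' => (hS S T hS' hT').trans (by linarith))
      (k1 T hT) x hx.1 ((not_lt.1 hx.2).trans (pow_le_pow_left₀ z0.le (by linarith) 2)) v hv).mono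
      (by positivity) ?_ (by linarith)
    refine (mul_le_mul (L C2 c2 (by linarith) τ tt) (add_le_add s4 (s3.trans (q2.trans
      (le_mul_of_one_le_left q0 L1)))) (by positivity) (by linarith)).trans (le_of_eq (by ring))
  -- layer 3
  have L4 : Λ ≤ Λ ^ 4 := le_self_pow₀ L1 four_ne_zero
  refine ⟨B2 ∪ {x | ζ ^ 2 < oc W B2 τ x}, (lay a.pos W B2 t0 d0).trans ?_, fun x hx T hT v hv => ?_⟩
  · rw [sq (1 + _), mul_assoc]
    exact mul_le_mul_of_nonneg_left (lay a.pos W B t0 d0) (by positivity)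
  rw [mem_union, not_or] at hx
  have L2 : Λ ^ 2 ≤ Λ ^ 4 := pow_le_pow_right₀ L1 (by norm_num)
  have L5 : 0 ≤ Λ ^ 4 * √ζ := by positivity
  refine ⟨(k2 T hT x hx.1 v hv).mono (by positivity)
    (by nlinarith [mul_le_mul_of_nonneg_right L2 q0]) le_rfl, ?_⟩
  have := h1 n W _ a T τ (5 * Λ ^ 2 * √ζ) Λ B2 (fun s hs z i => ⟨(row_le _ i).trans
    (pow_le_pow_left₀ (opn_nonneg _) ((h4 n W _ a s hs.1 T z).trans (L C4 c4 (by linarith) s hs)) 2),
    fun hz => (k2 T hT z hz s hs).row i⟩) v hv x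
  refine le_of_pow_le_pow_left₀ four_ne_zero (by positivity) (this.trans ?_)
  have q4 : √ζ ^ 4 = ζ ^ 2 := by rw [show √ζ ^ 4 = (√ζ * √ζ) ^ 2 by ring, q1]
  have o := oc_nn a.pos W B2 t0 x
  refine (mul_le_mul (L C3 c3 (by linarith) τ tt) (add_le_add le_rfl (mul_le_mul_of_nonneg_left
    (not_lt.1 hx.2) (by positivity))) (by positivity) (by linarith)).trans ?_
  simp only [mul_pow, q4]
  have u1 : Λ * (Λ ^ 2) ^ 4 ≤ (Λ ^ 4) ^ 4 := by
    rw [← pow_mul, ← pow_mul, ← pow_succ']; exact pow_le_pow_right₀ L1 (by norm_num)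
  have u2 : Λ * Λ ^ 4 ≤ (Λ ^ 4) ^ 4 := by
    rw [← pow_mul, ← pow_succ']; exact pow_le_pow_right₀ L1 (by norm_num)
  have u3 : 0 ≤ (Λ ^ 4) ^ 4 * ζ ^ 2 := by positivity
  nlinarith [mul_le_mul_of_nonneg_right u1 d0.le, mul_le_mul_of_nonneg_right u2 d0.le]

/-- the sizes -/
theorem sizes {C κ k c δ e r : ℝ} (hC : 1 ≤ C) (k1 : k < κ) (k2 : k ≤ 1 / 8)
    (c0 : 0 < c) (c1 : c ≤ k / 4) (d0 : 0 < δ) (d1 : C * δ ≤ c / 32) (r0 : 0 < r) (r1 : 2 * r < e) :
    ∀ᶠ n : ℕ in atTop, C * exp (C * (δ * log n)) ≤ (n : ℝ) ^ (c / 16) ∧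
      10 * (n : ℝ) ^ (c / 16) * (n : ℝ) ^ (-c) ≤ 1 ∧
      (n : ℝ) ^ (c / 16) ≤ ((n : ℝ) ^ (k - 1 / 2)) ^ 2 * (n : ℝ) ^ (1 - k) ∧
      √((n : ℝ) ^ (1 - 4 * k) / n) ≤ (n : ℝ) ^ (-c) ∧
      (n : ℝ) ^ (k - 1 / 2) * √((n : ℝ) ^ (1 - 4 * k) + 1) ≤ (n : ℝ) ^ (-c) ∧
      exp (-((r * log n) ^ 2 / C)) ≤ (n : ℝ) ^ (-c) ∧ 24 * exp (2 * (r * log n)) ≤ (n : ℝ) ^ e ∧
      10 * ((n : ℝ) ^ (c / 16)) ^ 4 * √((n : ℝ) ^ (-c)) ≤ (n : ℝ) ^ (-(c / 8)) ∧
      (1 + δ * log n / ((n : ℝ) ^ (-c)) ^ 2) ^ 2 * (exp (-(n : ℝ) ^ (1 - k)) +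
        C * (δ * log n + 1) * n ^ 2 / (n : ℝ) ^ (-c) * exp (-(n * ((n : ℝ) ^ (-c)) ^ 2 / C))) ≤
        exp (-(n : ℝ) ^ (1 - κ)) := by
  filter_upwards [eventually_ge_atTop 1, B.ev_mul C (show c / 32 < c / 16 by linarith),
    B.ev_mul 10 (show c / 16 + -c < 0 by linarith), B.ev_mul 2 (show -(2 * k) < -(2 * c) by linarith),
    B.ev_mul 24 r1, B.ev_mul 10 (show -(c / 4) < -(c / 8) by linarith),
    B.ev_mul C (show 1 - k < 1 - 2 * c by linarith), B.ev_mul 2 (show 1 - κ < 1 - k by linarith),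
    B.ev_log_le 32 (show 0 < 1 - k by linarith), B.ev_mul (4 * log (12 * C))
      (show 0 < 1 - k by linarith), (tendsto_log_atTop.comp
      tendsto_natCast_atTop_atTop).eventually_ge_atTop (c * C / r ^ 2)]
    with n hn a1 a2 a3 a4 a5 a6 a7 a8 a9 a10
  have n1 : (1 : ℝ) ≤ n := by exact_mod_cast hn
  have n0 : (0 : ℝ) < n := by linarith
  have l0 := log_nonneg n1
  have ex : ∀ x : ℝ, exp (x * log n) = (n : ℝ) ^ x := fun x => by rw [rpow_def_of_pos n0, mul_comm]
  have mo : ∀ x y : ℝ, x ≤ y → (n : ℝ) ^ x ≤ (n : ℝ) ^ y := fun x y => rpow_le_rpow_of_exponent_le n1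
  have p2 : ∀ x : ℝ, ((n : ℝ) ^ x) ^ 2 = (n : ℝ) ^ (2 * x) := fun x => by
    rw [sq, ← rpow_add n0, two_mul]
  have C0 : 0 < C := by linarith
  rw [rpow_zero] at a2 a9
  refine ⟨le_trans ?_ a1, by rwa [mul_assoc, ← rpow_add n0], ?_, ?_, ?_, ?_, ?_, ?_, ?_⟩
  · rw [← mul_assoc, ex]; exact mul_le_mul_of_nonneg_left (mo _ _ d1) C0.le
  · rw [p2, ← rpow_add n0]; exact mo _ _ (by linarith)
  · rw [sqrt_le_left (by positivity), p2, ← rpow_sub_one n0.ne']; exact mo _ _ (by linarith)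
  · refine le_of_pow_le_pow_left₀ two_ne_zero (by positivity) ?_
    rw [mul_pow, sq_sqrt (by positivity), p2, p2, mul_neg]
    refine le_trans ?_ a3
    have h1 : (n : ℝ) ^ (2 * (k - 1 / 2)) * (n : ℝ) ^ (1 - 4 * k) = (n : ℝ) ^ (-(2 * k)) := by
      rw [← rpow_add n0]; congr 1; ring
    have h2 := mo (2 * (k - 1 / 2)) (-(2 * k)) (by linarith)
    linarith
  · rw [← ex]
    refine exp_le_exp.2 ?_
    have : c * C ≤ log n * r ^ 2 := (div_le_iff₀ (by positivity)).1 a10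
    rw [neg_mul, neg_le_neg_iff, le_div_iff₀ C0]
    nlinarith
  · rwa [← mul_assoc 2, ex]
  · refine le_trans (le_of_eq ?_) a5
    rw [sqrt_eq_rpow, ← rpow_mul n0.le, ← rpow_natCast, ← rpow_mul n0.le, mul_assoc, ← rpow_add n0]
    congr 2; push_cast; ring
  · have t1 : δ * log n ≤ n := by
      have := log_le_sub_one_of_pos n0
      have : δ ≤ 1 := by nlinarith
      nlinarith
    have t2 : 1 / ((n : ℝ) ^ (-c)) ^ 2 ≤ n := by
      rw [p2, one_div, ← rpow_neg n0.le]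
      simpa using mo (-(2 * -c)) 1 (by linarith)
    have t3 : 1 / (n : ℝ) ^ (-c) ≤ n := by
      rw [one_div, ← rpow_neg n0.le]
      simpa using mo (- -c) 1 (by linarith)
    have t4 : 1 + δ * log n / ((n : ℝ) ^ (-c)) ^ 2 ≤ 2 * n ^ 2 := by
      have := mul_le_mul t1 t2 (by positivity) n0.le
      rw [mul_one_div] at this
      nlinarith
    have t5 : C * (δ * log n + 1) * n ^ 2 / (n : ℝ) ^ (-c) ≤ 2 * C * n ^ 4 := by
      rw [← mul_one_div]
      refine (mul_le_mul (mul_le_mul_of_nonneg_right (mul_le_mul_of_nonneg_left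
        (show δ * log n + 1 ≤ 2 * n by linarith) C0.le) (by positivity)) t3 (by positivity)
        (by positivity)).trans (le_of_eq (by ring))
    have t6 : exp (-(n * ((n : ℝ) ^ (-c)) ^ 2 / C)) ≤ exp (-(n : ℝ) ^ (1 - k)) := by
      refine exp_le_exp.2 (neg_le_neg ((le_div_iff₀' C0).2 (a6.trans (le_of_eq ?_))))
      rw [p2, sub_eq_add_neg, rpow_add n0, rpow_one, mul_neg]
    have t7 : (1 : ℝ) ≤ C * n ^ 4 := one_le_mul_of_one_le_of_one_le hC (one_le_pow₀ n1)
    have t8 : 12 * C * n ^ 8 * exp (-(n : ℝ) ^ (1 - k)) ≤ exp (-(n : ℝ) ^ (1 - κ)) := by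
      rw [← exp_log (show 0 < 12 * C by positivity), ← rpow_natCast, ← ex, ← exp_add, ← exp_add]
      refine exp_le_exp.2 ?_
      push_cast
      linarith
    refine le_trans ?_ t8
    have E := exp_pos (-(n : ℝ) ^ (1 - k))
    refine (mul_le_mul (pow_le_pow_left₀ (by positivity) t4 2) (add_le_add
      (le_mul_of_one_le_left E.le t7) (mul_le_mul t5 t6 (exp_pos _).le (by positivity)))
      (by positivity) (by positivity)).trans (le_of_eq (by ring))

set_option maxHeartbeats 1600000 in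
theorem fGlue : FGlue := fun h1 _ h3 h4 h5 h6 h7 hA β a b0 b1 a0 a1 hS κ κ0 => by
  obtain ⟨K1, -, hN⟩ := niceStmt
  obtain ⟨K2, K0, hA⟩ := hA β b0.le b1
  obtain ⟨C1, c1, h1⟩ := layers h1 h3 h5 (max K1 K2)
  obtain ⟨C2, c2, h4⟩ := h4 (max K1 K2) (lt_max_of_lt_right K0)
  set k := min (κ / 2) (1 / 8) with hk
  have k0 : 0 < k := lt_min (half_pos κ0) (by norm_num)
  have k1 : k ≤ κ / 2 := min_le_left _ _
  have k2 : k ≤ 1 / 8 := min_le_right _ _
  obtain ⟨cP, cP0, δP, δP0, h6⟩ := h6 β b0.le b1.le k k0 k2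
  obtain ⟨cS, cS0, δS, δS0, hS⟩ := hS
  set c := min (min cP (cS / 2)) (k / 4) with hc
  have c0 : 0 < c := lt_min (lt_min cP0 (half_pos cS0)) (by positivity)
  have c3 : c ≤ cP := (min_le_left _ _).trans (min_le_left _ _)
  have c4 : c ≤ cS / 2 := (min_le_left _ _).trans (min_le_right _ _)
  have c5 : c ≤ k / 4 := min_le_right _ _
  set δ := min (min δP (δS / 2)) (c / 32 / (C1 + C2)) with hδ
  have d0 : 0 < δ := lt_min (lt_min δP0 (half_pos δS0)) (by positivity)
  have d1 : δ ≤ δP := (min_le_left _ _).trans (min_le_left _ _)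
  have d2 : δ ≤ δS / 2 := (min_le_left _ _).trans (min_le_right _ _)
  have d3 : (C1 + C2) * δ ≤ c / 32 := (le_div_iff₀' (by positivity)).1 (min_le_right _ _)
  refine ⟨c / 8, by positivity, δ, d0, fun e e0 => (((hN.and hA).and h6).and hS).mono ?_⟩
  set r := min e c / 4 with hr
  have r0 : 0 < r := by have := lt_min e0 c0; positivity
  have r1 : 4 * r ≤ e := by have := min_le_left e c; linarith
  have r2 : 4 * r ≤ c := by have := min_le_right e c; linarith
  filter_upwards [eventually_ge_atTop 1, sizes (C := C1 + C2) (κ := κ) (e := e) (by linarith)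
    (by linarith) k2 c0 c5 d0 d3 r0 (by linarith)]
    with n hn ⟨s1, s2, s3, s4, s5, s6, s7, s8, s9⟩ g ⟨⟨⟨g1, g2⟩, g3, g4⟩, g5⟩
  have n1 : (1 : ℝ) ≤ n := by exact_mod_cast hn
  have n0 : (0 : ℝ) < n := by linarith
  have l0 := log_nonneg n1
  have ex : ∀ x : ℝ, exp (x * log n) = (n : ℝ) ^ x := fun x => by rw [rpow_def_of_pos n0, mul_comm]
  have mo : ∀ x y : ℝ, x ≤ y → (n : ℝ) ^ x ≤ (n : ℝ) ^ y := fun x y => rpow_le_rpow_of_exponent_le n1
  set W := β • Jmat n g with hW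
  have w1 : Nice W (max K1 K2) := nice_mono (g1 β b0.le b1.le) (le_max_left _ _)
  have w2 : Ent.AT (mu W) (max K1 K2) 0 := by
    rw [gibbsWeight_eq_ising] at g2
    exact Ent.AT.mono g2 (mu_pos W) (le_max_right _ _) le_rfl
  obtain ⟨ρ1, ρ2, ρ3⟩ := h7 n W β hn w1.1
  have bb : β ^ 2 ≤ 1 := pow_le_one₀ b0.le b1.le
  have ad : Adm W (max K1 K2) (rho β W) := ⟨hn, w1, fun i => by simp [hW, Jmat_diag], ρ1,
    fun v hv => ⟨(ρ2 v hv).1, (ρ2 v hv).2.trans bb⟩⟩
  have t0 : 0 ≤ δ * log n := by positivity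
  have ρ4 := fun σ (p : 0 ≤ σ) (q : σ < a) => ρ3 a σ _ (δ * log n) p q a1 (by positivity) fun v hv =>
    g5 v ⟨hv.1, hv.2.trans (by nlinarith only [mul_le_mul_of_nonneg_right d2 l0])⟩
  refine ⟨fun σ p q v hv => (ρ4 σ p q v hv).2.trans ?_, ?_⟩
  · rw [mul_add]
    refine add_le_add le_rfl ((mul_le_of_le_one_left (by positivity) bb).trans ?_)
    have : exp (σ * v) ≤ (n : ℝ) ^ δ := by
      rw [← ex]
      exact exp_le_exp.2 ((mul_le_of_le_one_left hv.1 (q.le.trans a1)).trans hv.2)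
    refine (mul_le_mul_of_nonneg_left this (by positivity)).trans ?_
    have d4 : δ ≤ (C1 + C2) * δ := le_mul_of_one_le_left d0.le (by linarith)
    rw [← rpow_add n0]; exact mo _ _ (by linarith)
  have z0 : 0 < (n : ℝ) ^ (-c) := by positivity
  have z1 : (n : ℝ) ^ (-c) ≤ 1 := by simpa using mo (-c) 0 (by linarith)
  have L1 : 1 ≤ (n : ℝ) ^ (c / 16) := by simpa using mo 0 (c / 16) (by linarith)
  have m4 := h4 n W hn w1 w2 (δ * log n) _ (r * log n) t0 z0 z1 (by positivity)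
  have L2 : C2 * exp (C2 * (δ * log n)) ≤ (n : ℝ) ^ (c / 16) :=
    ce_mono (by linarith) (by linarith) t0 le_rfl s1
  obtain ⟨B, hB, hG⟩ := h1 n W β ad b0.le b1.le _ _ _ _ _ (δ * log n) (δP * log n) _
    (fun v => 6 * exp (2 * (r * log n)) * exp (-(2 * a * v))) (_ ∪ _)
    (ce_mono (by linarith) (by linarith) t0 le_rfl s1) z0 s2 (by positivity) (mo _ _ (by linarith)) t0
    (by gcongr) (by positivity) (mo _ _ (by linarith)) s3 s4 s5 g3
    (fun x hx T hT => not_not.1 fun h => hx (Or.inl (show x ∈ {x | ∃ T : Finset (Fin n),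
      (T.card : ℝ) ≤ n ^ (1 - 4 * k) ∧ ¬ Cv W (n ^ (1 - k)) (n ^ (-cP)) (δP * log n)
        (fun v => β ^ 2 * vr (cav T W) v x) (fun v => β ^ 2 * Fq (cav T W) v x) T x} from ⟨T, hT, h⟩)))
    (fun x hx v hv => by
      have hx' : x ∉ {x | ∃ v ∈ Icc 0 (δ * log n), C2 * exp (C2 * (δ * log n)) * (n : ℝ) ^ (-c) <
          |vr W v x - mean (prob (mu W)) (vr W v)| ∨ 2 * exp (2 * (r * log n)) * Ee W v +
          C2 * exp (C2 * (δ * log n)) * ((n : ℝ) ^ (-c) + exp (-((r * log n) ^ 2 / C2))) < Fq W v x} :=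
        fun h => hx (Or.inr h)
      simp only [mem_ofPred_eq, not_exists, not_and, not_or, not_lt] at hx'
      obtain ⟨p, q⟩ := hx' v hv
      refine ⟨p.trans (by gcongr), q.trans ?_⟩
      have u1 := (ρ4 0 le_rfl a0 v hv).1
      have u2 : exp (-((r * log n) ^ 2 / C2)) ≤ (n : ℝ) ^ (-c) := le_trans (exp_le_exp.2
        (neg_le_neg (div_le_div_of_nonneg_left (by positivity) (by linarith) (by linarith)))) s6
      have u3 : exp (2 * (r * log n)) * (n : ℝ) ^ (-cS) ≤ (n : ℝ) ^ (-c) := by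
        rw [← mul_assoc, ex, ← rpow_add n0]; exact mo _ _ (by linarith)
      have u4 := mul_le_mul L2 (add_le_add (le_refl ((n : ℝ) ^ (-c))) u2) (by positivity) (by positivity)
      have u5 := mul_le_mul_of_nonneg_left u1 (exp_pos (2 * (r * log n))).le
      nlinarith only [u3, u4, u5, mul_le_mul_of_nonneg_right L1 z0.le])
  refine ⟨B, hB.trans (le_trans (mul_le_mul_of_nonneg_left ((mass_union (mu_pos W) _ _).trans
    (add_le_add g4 (m4.trans ?_))) (by positivity)) s9), hG.mono (by positivity) s8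
      (mo _ _ (by linarith)) fun v => ?_⟩
  · refine mul_le_mul (by gcongr; linarith) (exp_le_exp.2 (neg_le_neg (div_le_div_of_nonneg_left
      (by positivity) (by linarith) (by linarith)))) (exp_pos _).le (by positivity)
  · nlinarith only [mul_le_mul_of_nonneg_right s7 (exp_pos (-(2 * a * v))).le]

end Crest.Agent.T157.S6

end
end

-- ▼ part T157/S6Cl_38
section

/-!
# Row 157, block S6 (helper38): flows of vector fields in continuous time, the clipped flow (CL)
-/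

set_option autoImplicit false

noncomputable section

namespace Crest.Agent.T157.S6c

open Matrix Real Set Filter Topology
open scoped NNReal
open Crest.Agent.T157.E hiding mean
open Crest.Agent.T157.Eig Crest.Agent.T157.Reg
open Crest.Agent.T157.Tap (V Mx)
open Crest.Agent.T157.Rec (grad fl)
open Crest.Agent.T157.Chain22 (sg)
open Crest.Agent.T157.S6b

/-- global solutions of `α' = F α + g t α`, `g` bounded -/
theorem exists_flow {ι : Type*} [Fintype ι] {F : (ι → ℝ) → ι → ℝ} {g : ℝ → (ι → ℝ) → ι → ℝ}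
    {K : ℝ≥0} {L T : ℝ} (hT : 0 ≤ T) (hF : LipschitzWith K F) (hF0 : F 0 = 0)
    (hg : ∀ t, LipschitzWith K (g t)) (hc : ∀ x, Continuous fun t => g t x)
    (hb : ∀ t ∈ Icc 0 T, ∀ x, ‖g t x‖ ≤ L) (x0 : ι → ℝ) :
    ∃ α : ℝ → ι → ℝ, α 0 = x0 ∧
      ∀ t ∈ Icc 0 T, HasDerivWithinAt α (F (α t) + g t (α t)) (Icc 0 T) t := by
  have L0 : 0 ≤ L := (norm_nonneg _).trans (hb 0 ⟨le_rfl, hT⟩ 0)
  set R := gronwallBound ‖x0‖ K L T with hR
  have mono : ∀ t ∈ Icc 0 T, gronwallBound ‖x0‖ K L t ≤ R := fun t ht =>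
    gronwallBound_mono (norm_nonneg _) L0 K.2 ht.2
  have R0 : 0 ≤ R := by
    have := mono 0 ⟨le_rfl, hT⟩
    rw [gronwallBound_x0] at this
    exact (norm_nonneg _).trans this
  set ρ : (ι → ℝ) → ι → ℝ := fun x p => max (-R) (min R (x p)) with hρ
  have r1 : LipschitzWith 1 ρ := LipschitzWith.of_dist_le_mul fun x y => by
    rw [NNReal.coe_one, one_mul]
    refine (dist_pi_le_iff dist_nonneg).2 fun p => le_trans ?_ (dist_le_pi_dist x y p)
    simpa using ((LipschitzWith.id.const_min R).const_max (-R)).dist_le_mul (x p) (y p)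
  have r0 : ρ 0 = 0 := by
    funext p; simp [hρ, R0]
  have r2 : ∀ x, ‖ρ x‖ ≤ ‖x‖ := fun x => by simpa [r0] using r1.dist_le_mul x 0
  have r3 : ∀ x, ‖ρ x‖ ≤ R := fun x => (pi_norm_le_iff_of_nonneg R0).2 fun p =>
    abs_le.2 ⟨le_max_left _ _, max_le (by linarith) (min_le_left _ _)⟩
  have r4 : ∀ x, ‖x‖ ≤ R → ρ x = x := fun x hx => funext fun p => by
    have := abs_le.1 ((norm_le_pi_norm x p).trans hx)
    simp only [hρ]
    rw [min_eq_right this.2, max_eq_right this.1]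
  have f1 : ∀ x, ‖F x‖ ≤ K * ‖x‖ := fun x => by simpa [hF0] using hF.dist_le_mul x 0
  have M0 : 0 ≤ K * R + L := by positivity
  have P : IsPicardLindelof (fun t x => F (ρ x) + g t x) (⟨0, le_rfl, hT⟩ : Icc 0 T) x0
      ⟨(K * R + L) * T, by positivity⟩ 0 ⟨K * R + L, M0⟩ (K * 1 + K) :=
    ⟨fun t _ => ((hF.comp r1).add (hg t)).lipschitzOnWith,
      fun x _ => (continuous_const.add (hc x)).continuousOn,
      fun t ht x _ => (norm_add_le _ _).trans (add_le_add ((f1 _).trans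
        (mul_le_mul_of_nonneg_left (r3 x) K.2)) (hb t ht x)), by
      simp only [sub_zero, max_eq_left hT, NNReal.coe_zero]; exact le_rfl⟩
  obtain ⟨α, h0, hα⟩ := P.exists_eq_forall_mem_Icc_hasDerivWithinAt₀
  have h0 : α 0 = x0 := h0
  have bd := norm_le_gronwallBound_of_norm_deriv_right_le (f := α) (δ := ‖x0‖) (K := K) (ε := L)
    (f' := fun t => F (ρ (α t)) + g t (α t)) (a := 0) (b := T)
    (fun t ht => (hα t ht).continuousWithinAt)
    (fun t ht => (hα t ⟨ht.1, ht.2.le⟩).mono_of_mem_nhdsWithin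
      (mem_of_superset (Icc_mem_nhdsGE ht.2) (Icc_subset_Icc_left ht.1))) (by rw [h0]) fun t ht =>
    (norm_add_le _ _).trans (add_le_add ((f1 _).trans
      (mul_le_mul_of_nonneg_left (r2 _) K.2)) (hb t ⟨ht.1, ht.2.le⟩ _))
  refine ⟨α, h0, fun t ht => ?_⟩
  have := hα t ht
  rwa [r4 _ ((bd t ht).trans (by rw [sub_zero]; exact mono t ht))] at this

open scoped Matrix.Norms.L2Operator in
/-- the operator norm of a differentiable path of matrices -/
theorem tch_opn {ι κ : Type*} [Fintype ι] [Fintype κ] [DecidableEq ι] [DecidableEq κ]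
    {S : ℝ → Matrix ι κ ℝ} {S' : Matrix ι κ ℝ} {s r h : ℝ}
    (hS : ∀ i j, HasDerivAt (fun u => S u i j) (S' i j) s) (h0 : 0 < h)
    (hr : opn (S s + h • S') ≤ opn (S s) + h * r) : Tch (fun u => opn (S u)) s r := by
  obtain ⟨l, l1, l2⟩ := exists_dual_vector'' ℝ (S s)
  have e : ∀ A : Matrix ι κ ℝ, l A = ∑ i, ∑ j, A i j * l (single i j 1) := fun A => by
    conv_lhs => rw [matrix_eq_sum_single A]
    simp only [map_sum]
    refine Finset.sum_congr rfl fun i _ => Finset.sum_congr rfl fun j _ => ?_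
    rw [← smul_eq_mul, ← map_smul, smul_single, smul_eq_mul, mul_one]
  have b : ∀ A : Matrix ι κ ℝ, l A ≤ opn A := fun A =>
    (le_abs_self _).trans ((l.le_opNorm A).trans (mul_le_of_le_one_left (norm_nonneg _) l1))
  have l2 : l (S s) = opn (S s) := by simpa [opn_def] using l2
  refine ⟨fun u => l (S u), l S', ?_, l2, Eventually.of_forall fun u => b _, ?_⟩
  · simp only [e (S _), e S']
    exact HasDerivAt.fun_sum fun i _ => HasDerivAt.fun_sum fun j _ => (hS i j).mul_const _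
  · have := (b _).trans hr
    rw [map_add, map_smul, l2, smul_eq_mul] at this
    exact le_of_mul_le_mul_left (by linarith) h0

variable {n : ℕ} {W W' : Mx n} {K τ : ℝ}

/-- velocity of the intertwined equation with source `σ` -/
def vel (W : Mx n) (ω σ : VF n) : VF n := fun x i =>
  ∑ k, (Tk W x k + al W x i k) * jac ω x i k - ω x i + σ x i

/-- `ω` follows the intertwined equation with source `σ` on `[0, τ]` -/
structure Fl (W : Mx n) (ω σ : ℝ → VF n) (τ : ℝ) : Prop where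
  c : ∀ x i, ContinuousOn (fun u => ω u x i) (Icc 0 τ)
  d : ∀ s ∈ Ioc 0 τ, ∀ x i, HasDerivAt (fun u => ω u x i) (vel W (ω s) (σ s) x i) s

/-- excess over the level `η` -/
def exc (η : ℝ) (z : V n) : ℝ := ∑ i, max (|z i| - η) 0 ^ 2

/-- time integral of the semigroup -/
def tot (w : Cube n → ℝ) (τ : ℝ) (B : Cube n → ℝ) (x : Cube n) : ℝ := ∫ u in (0 : ℝ)..τ, sg w u B x

theorem Fl.sub {ω σ ω' σ' : ℝ → VF n} (h : Fl W ω σ τ) (h' : Fl W' ω' σ' τ) :
    Fl W (fun s => ω s - ω' s) (fun s x i => σ s x i - σ' s x i +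
      ∑ k, (Tk W x k + al W x i k - (Tk W' x k + al W' x i k)) * jac (ω' s) x i k) τ := by
  refine ⟨fun x i => (h.c x i).sub (h'.c x i), fun s hs x i =>
    ((h.d s hs x i).sub (h'.d s hs x i)).congr_deriv ?_⟩
  simp only [vel, jac, of_apply, Pi.sub_apply, mul_sub, sub_mul, Finset.sum_sub_distrib]
  ring

theorem Fl.sq_c {ξ σ : ℝ → VF n} (h : Fl W ξ σ τ) (x : Cube n) :
    ContinuousOn (fun u => sq2 (ξ u) x) (Icc 0 τ) :=
  continuousOn_finsetSum (f := fun i u => ξ u x i * ξ u x i) Finset.univ fun i _ =>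
    (h.c x i).mul (h.c x i)

theorem Fl.sq_d {ξ σ : ℝ → VF n} (h : Fl W ξ σ τ) {s : ℝ} (hs : s ∈ Ioc 0 τ) (x : Cube n) :
    HasDerivAt (fun u => sq2 (ξ u) x) (2 * (ξ s x ⬝ᵥ vel W (ξ s) (σ s) x)) s := by
  refine (HasDerivAt.fun_sum (u := Finset.univ) fun i _ =>
    (h.d s hs x i).mul (h.d s hs x i)).congr_deriv ?_
  rw [dotProduct, Finset.mul_sum]; exact Finset.sum_congr rfl fun i _ => by ring

theorem boch (K : ℝ) : ∃ C ≥ (1 : ℝ), ∀ (n : ℕ) (W : Mx n), Nice W K → ∀ (ξ σ : VF n) x,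
    2 * (ξ x ⬝ᵥ vel W ξ σ x) ≤ gen (mu W) (sq2 ξ) x + C * sq2 ξ x + 2 * sq2 σ x := by
  obtain ⟨C, C1, hC⟩ := boGlue basStmt coefStmt K
  refine ⟨C, C1, fun n W hW ξ σ x => ?_⟩
  have p : 0 < C * (n + 1) := by positivity
  have h0 : 0 < (C * (n + 1))⁻¹ := inv_pos.2 p
  have k := (hC n W hW _ h0.le (by rw [mul_right_comm, mul_inv_cancel₀ p.ne']) ξ σ).1 x
  set h := (C * (n + 1))⁻¹
  have e : stp W h ξ σ x = ξ x + h • vel W ξ σ x := rfl
  rw [sq2, e, Qh] at k
  simp only [add_dotProduct, dotProduct_add, smul_dotProduct, dotProduct_smul, smul_eq_mul,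
    dotProduct_comm (vel W ξ σ x) (ξ x)] at k
  have := mul_nonneg h0.le (mul_nonneg h0.le (dot_self_nonneg (vel W ξ σ x)))
  refine le_of_mul_le_mul_left ?_ h0
  simp only [sq2] at k ⊢
  linarith

theorem tot_nonneg (hn : 0 < n) {w : Cube n → ℝ} (hw : ∀ x, 0 < w x) (hτ : 0 ≤ τ) {B : Cube n → ℝ}
    (hB : ∀ x, 0 ≤ B x) (x : Cube n) : 0 ≤ tot w τ B x :=
  intervalIntegral.integral_nonneg hτ fun _ hu => Rec.sg_nonneg hn hw hu.1 hB x

theorem tot_const_mul (w : Cube n → ℝ) (τ c : ℝ) (B : Cube n → ℝ) (x : Cube n) :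
    tot w τ (fun z => c * B z) x = c * tot w τ B x := by
  simp only [tot, Rec.sg_const_mul, intervalIntegral.integral_const_mul]

theorem duh_le (hn : 0 < n) {w : Cube n → ℝ} (hw : ∀ x, 0 < w x) {C a s : ℝ} (hC : 0 ≤ C)
    (ha : 0 ≤ a) {B : Cube n → ℝ} (hB : ∀ x, 0 ≤ B x) (hs : s ∈ Icc 0 τ) (x : Cube n) :
    duh w C (fun _ z => a + B z) s x ≤ exp (C * τ) * (a * τ + tot w τ B x) := by
  have c : Continuous fun u => sg w u B x :=
    cont_sg_fam hn hw (g := fun _ => B) continuous_id' (fun _ => continuous_const) x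
  have c' : Continuous fun u => sg w (s - u) B x := c.comp (by fun_prop)
  have e : ∀ u, sg w u (fun z => a + B z) x = a + sg w u B x := fun u => by
    rw [Rec.sg_add_fun, Rec.sg_const hn hw]
  simp only [duh, e]
  refine (intervalIntegral.integral_mono_on (g := fun u => exp (C * τ) * (a + sg w (s - u) B x))
    hs.1 (Continuous.intervalIntegrable (by fun_prop) _ _)
    (Continuous.intervalIntegrable (by fun_prop) _ _) fun u hu => mul_le_mul_of_nonneg_right
      (exp_le_exp.2 (mul_le_mul_of_nonneg_left (by linarith [hs.2, hu.1]) hC))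
      (add_nonneg ha (Rec.sg_nonneg hn hw (sub_nonneg.2 hu.2) hB x))).trans ?_
  rw [intervalIntegral.integral_const_mul, intervalIntegral.integral_add intervalIntegrable_const
    (c'.intervalIntegrable _ _), intervalIntegral.integral_comp_sub_left (fun u => sg w u B x)]
  refine mul_le_mul_of_nonneg_left (add_le_add ?_ ?_) (exp_pos _).le
  · simpa [mul_comm] using mul_le_mul_of_nonneg_left hs.2 ha
  · rw [sub_self, sub_zero]
    exact intervalIntegral.integral_mono_interval le_rfl hs.1 hs.2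
      (MeasureTheory.ae_restrict_of_forall_mem measurableSet_Ioc fun u hu =>
        Rec.sg_nonneg hn hw hu.1.le hB x) (c.intervalIntegrable _ _)

/-- Gronwall inequality for the squared length under the semigroup -/
theorem gron (K : ℝ) : ∃ C ≥ (1 : ℝ), ∀ (n : ℕ) (W : Mx n), 0 < n → Nice W K →
    ∀ (ξ σ : ℝ → VF n) (τ A a : ℝ) (B : Cube n → ℝ), Fl W ξ σ τ → 0 ≤ A → 0 ≤ a →
    (∀ x, 0 ≤ B x) → (∀ x, sq2 (ξ 0) x ≤ a) →
    (∀ s ∈ Ioc 0 τ, ∀ x, sq2 (σ s) x ≤ A * sq2 (ξ s) x + (a + B x)) →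
    ∀ s ∈ Icc 0 τ, ∀ x, sq2 (ξ s) x ≤ 2 * exp ((C + 2 * A) * τ) * (a + tot (mu W) τ B x) := by
  obtain ⟨C, C1, hC⟩ := boch K
  refine ⟨C + 2, by linarith, fun n W hn hW ξ σ τ A a B h hA ha hB h0 hσ s hs x => ?_⟩
  have hw := Bas66.mu_pos W
  have τ0 := hs.1.trans hs.2
  have k := S6b.cmp hn hw (Φ := fun u => sq2 (ξ u)) (C := C + 2 * A) (T := τ)
    (g := fun _ z => 2 * a + 2 * B z)
    h.sq_c (fun _ => continuous_const) (fun s hs x => Tch.of_deriv (h.sq_d hs x) (by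
      linarith [hC n W hW (ξ s) (σ s) x, hσ s hs x])) s hs x
  have k1 := duh_le hn hw (C := C + 2 * A) (a := 2 * a) (B := fun z => 2 * B z) (by linarith)
    (by positivity) (fun z => by linarith [hB z]) hs x
  rw [tot_const_mul] at k1
  have k2 : sg (mu W) s (sq2 (ξ 0)) x ≤ a := by
    have := Rec.sg_mono hn hw hs.1 h0 x
    rwa [Rec.sg_const hn hw] at this
  have k3 : exp ((C + 2 * A) * s) ≤ exp ((C + 2 * A) * τ) :=
    exp_le_exp.2 (mul_le_mul_of_nonneg_left hs.2 (by linarith))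
  have k4 := mul_le_mul k3 k2 (Rec.sg_nonneg hn hw hs.1 (fun z => dot_self_nonneg _) x)
    (exp_pos _).le
  have t0 := tot_nonneg hn hw τ0 hB x
  have k5 := add_one_le_exp (2 * τ)
  rw [show (C + 2 + 2 * A) * τ = (C + 2 * A) * τ + 2 * τ by ring, exp_add]
  have k6 : a + (2 * a * τ + 2 * tot (mu W) τ B x) ≤ 2 * exp (2 * τ) * (a + tot (mu W) τ B x) := by
    nlinarith [mul_nonneg ha τ0, mul_nonneg t0 τ0]
  have := mul_le_mul_of_nonneg_left k6 (exp_pos ((C + 2 * A) * τ)).le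
  linarith

/-- maximum principle for the entries -/
theorem Fl.sup (hW : Nice W K) {ω σ : ℝ → VF n} (h : Fl W ω σ τ) {y y' : ℝ → ℝ}
    (hy : ∀ s, HasDerivAt y (y' s) s) (hy' : ∀ s, 0 ≤ y' s) (h0 : ∀ x i, |ω 0 x i| ≤ y 0)
    (hσ : ∀ s ∈ Ioc 0 τ, ∀ x i, |σ s x i| ≤ y s) : ∀ s ∈ Icc 0 τ, ∀ x i, |ω s x i| ≤ y s := by
  obtain ⟨C, -, hC⟩ := coefStmt K
  have k := maxp (X := Cube n × Fin n × ({-1, 1} : Finset ℝ)) (C := 0) (T := τ)
    (D := fun u p => p.2.2.1 * ω u p.1 p.2.1 - y u)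
    (fun p => (continuousOn_const.mul (h.c _ _)).sub
      fun u _ => (hy u).continuousAt.continuousWithinAt) (fun s hs p hm hp => ?_) fun p => ?_
  · intro s hs x i
    have a := k s hs (x, i, ⟨1, by simp⟩)
    have b := k s hs (x, i, ⟨-1, by simp⟩)
    simp only at a b
    exact abs_le.2 ⟨by linarith, by linarith⟩
  all_goals
    obtain ⟨x, i, e, he⟩ := p
    have e1 : |e| = 1 := by
      simp only [Finset.mem_insert, Finset.mem_singleton] at he
      rcases he with rfl | rfl <;> simp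
    have e2 : ∀ z, e * z ≤ |z| := fun z => (le_abs_self _).trans (by rw [abs_mul, e1, one_mul])
  · refine Tch.of_deriv (((h.d s hs x i).const_mul e).sub (hy s)) ?_
    have : ∑ k, (Tk W x k + al W x i k) * (e * jac (ω s) x i k) ≤ 0 :=
      Finset.sum_nonpos fun k _ => mul_nonpos_of_nonneg_of_nonpos ((hC n W hW x).2.1 i k).1 (by
        have := hm (fl x k, i, ⟨e, he⟩)
        simp only [jac, of_apply] at this ⊢
        linarith)
    simp only [mul_left_comm _ e, ← Finset.mul_sum] at this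
    simp only [vel] at hp ⊢
    linarith [e2 (σ s x i), hσ s hs x i, hy' s]
  · exact sub_nonpos.2 ((e2 _).trans (h0 x i))

theorem jac_clip {η N : ℝ} (hη : 0 < η) (b : VF n) (x : Cube n) (hN : opn (jac b x) ≤ N) :
    opn (jac (fun z i => S3.Rg.clip η (b z i)) x) ≤ N + N ^ 2 / (2 * η) := by
  have N0 := (opn_nonneg _).trans hN
  set D : Mx n := diagonal (fun i => S3.Rg.clip' η (b x i)) * jac b x with hD
  have h1 : opn D ≤ 1 * N := Op34.opn_mul_le' (opn_diagonal_le zero_le_one fun i => by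
    rw [abs_of_nonneg (S3.Rg.clip'_mem hη _).1]; exact (S3.Rg.clip'_mem hη _).2) hN
  have h2 := S3.Rg.had (R := jac (fun z i => S3.Rg.clip η (b z i)) x - D) (X := jac b x)
    (Y := jac b x) (c := 1 / (2 * η)) (by positivity) fun i j => by
      rw [← abs_mul, abs_mul_self, ← sq, one_div_mul_eq_div]
      simpa [hD, jac] using S3.Rg.clip_taylor hη (b x i) (b (fl x j) i)
  have h3 := opn_add_le D (jac (fun z i => S3.Rg.clip η (b z i)) x - D)
  rw [add_sub_cancel] at h3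
  have h4 : 1 / (2 * η) * (opn (jac b x) * opn (jac b x)) ≤ N ^ 2 / (2 * η) := by
    rw [one_div_mul_eq_div, sq]
    exact div_le_div_of_nonneg_right (mul_self_le_mul_self (opn_nonneg _) hN) (by positivity)
  linarith

theorem exists_clf (W : Mx n) (hτ : 0 ≤ τ) {η : ℝ → ℝ} (hc : Continuous η) (hη : ∀ s, 0 < η s)
    (hm : Monotone η) (ω0 : VF n) : ∃ ω : ℝ → VF n, ω 0 = ω0 ∧
      Fl W ω (fun s x i => S3.Rg.clip (η s) (bb W (ω s) x i)) τ := by
  let A : (Cube n × Fin n → ℝ) →ₗ[ℝ] Cube n × Fin n → ℝ :=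
    { toFun := fun α p => vel W (fun x i => α (x, i)) 0 p.1 p.2
      map_add' := fun α β => funext fun p => by
        simp only [vel, jac, of_apply, Pi.add_apply, Pi.zero_apply, add_sub_add_comm, mul_add,
          Finset.sum_add_distrib]
        ring
      map_smul' := fun c α => funext fun p => by
        simp only [vel, jac, of_apply, Pi.smul_apply, Pi.zero_apply, smul_eq_mul, RingHom.id_apply,
          ← mul_sub, mul_left_comm _ c, ← Finset.mul_sum, add_zero] }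
  let B : (Cube n × Fin n → ℝ) →ₗ[ℝ] Cube n × Fin n → ℝ :=
    { toFun := fun α p => bb W (fun x i => α (x, i)) p.1 p.2
      map_add' := fun α β => funext fun p => congrFun (mulVec_add (am W p.1) _ _) p.2
      map_smul' := fun c α => funext fun p => congrFun (mulVec_smul (am W p.1) c _) p.2 }
  set A' := LinearMap.toContinuousLinearMap A
  set B' := LinearMap.toContinuousLinearMap B
  have τ1 : 0 ≤ τ + 1 := by linarith
  obtain ⟨α, h0, hα⟩ := exists_flow (F := A') (K := max ‖A'‖₊ ‖B'‖₊) (L := 2 * η (τ + 1)) τ1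
    (g := fun t α p => S3.Rg.clip (η t) (B' α p)) (A'.lipschitz.weaken (le_max_left _ _))
    (map_zero A') (fun t => LipschitzWith.of_dist_le_mul fun α β =>
      (dist_pi_le_iff (by positivity)).2 fun p => (S3.Rg.clip_lip (hη t) _ _).trans
        ((dist_le_pi_dist (B' α) (B' β) p).trans
          ((B'.lipschitz.weaken (le_max_right _ _)).dist_le_mul α β)))
    (fun α => continuous_pi fun p => by
      have := fun s => (hη s).ne'
      unfold S3.Rg.clip S3.Rg.pq
      fun_prop (disch := intro s; have := hη s; positivity))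
    (fun t ht α => (pi_norm_le_iff_of_nonneg (by have := hη (τ + 1); positivity)).2 fun p =>
      (S3.Rg.abs_clip_le (hη t) _).trans (by linarith [hm ht.2])) fun p => ω0 p.1 p.2
  refine ⟨fun s x i => α s (x, i), by simp only [h0], fun x i s hs => ?_, fun s hs x i => ?_⟩
  · exact ((continuous_apply (x, i)).continuousAt.comp_continuousWithinAt
      (hα s ⟨hs.1, by linarith [hs.2]⟩).continuousWithinAt).mono (Icc_subset_Icc_right (by linarith))
  · have := hasDerivAt_pi.1 ((hα s ⟨hs.1.le, by linarith [hs.2]⟩).hasDerivAt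
      (Icc_mem_nhds hs.1 (by linarith [hs.2]))) (x, i)
    refine this.congr_deriv ?_
    change vel W _ 0 x i + _ = _
    simp only [vel, Pi.zero_apply, add_zero]
    rfl

/-- **(CL)** the clipped flow is bounded and has a bounded Jacobian everywhere -/
theorem cl (hJ : JbStmt) (K : ℝ) : ∃ Λ ≥ (1 : ℝ), ∀ (n : ℕ) (W : Mx n), Nice W K →
    ∀ (η τ : ℝ) (u0 : V n), 0 < η → 0 ≤ τ → ∃ ω : ℝ → VF n,
    (∀ x i, ω 0 x i = S3.Rg.clip η (u0 i)) ∧
    Fl W ω (fun s x i => S3.Rg.clip (η * exp (Λ * s)) (bb W (ω s) x i)) τ ∧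
    ∀ s ∈ Icc 0 τ, ∀ x, (∀ i, |ω s x i| ≤ 2 * (η * exp (Λ * s))) ∧
      opn (jac (ω s) x) ≤ η * exp (Λ * s) := by
  obtain ⟨C, C1, hC⟩ := opGlue toolStmt jacStmt coefStmt K
  obtain ⟨D, D1, hD⟩ := hJ K
  refine ⟨C + 3 * D + 5 * D ^ 2, by nlinarith, fun n W hW η τ u0 hη hτ => ?_⟩
  set Λ := C + 3 * D + 5 * D ^ 2 with hΛ
  have Λ0 : 0 ≤ Λ := by positivity
  set e : ℝ → ℝ := fun s => η * exp (Λ * s) with he
  have e0 : ∀ s, 0 < e s := fun s => by positivity
  have ed : ∀ s, HasDerivAt e (Λ * e s) s := fun s =>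
    (((hasDerivAt_id' s).const_mul Λ).exp.const_mul η).congr_deriv (by simp only [he]; ring)
  obtain ⟨ω, h0, h⟩ := exists_clf W hτ (η := e) (by fun_prop) e0 (fun s t hst =>
    mul_le_mul_of_nonneg_left (exp_le_exp.2 (mul_le_mul_of_nonneg_left hst Λ0)) hη.le)
    fun _ i => S3.Rg.clip η (u0 i)
  have b1 := h.sup hW (y := fun s => 2 * e s) (fun s => (ed s).const_mul 2)
    (fun s => by have := e0 s; positivity)
    (fun x i => by simpa [h0, he] using S3.Rg.abs_clip_le hη (u0 i))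
    fun s _ x i => S3.Rg.abs_clip_le (e0 s) _
  refine ⟨ω, fun x i => by rw [h0], h, fun s hs x => ⟨b1 s hs x, sub_nonpos.1 ?_⟩⟩
  refine maxp (D := fun u x => opn (jac (ω u) x) - e u) (T := τ)
    (C := C + D + D ^ 2 * (3 + 2 * n)) (fun x => ContinuousOn.sub
      (continuous_opn.comp_continuousOn (continuousOn_pi.2 fun i => continuousOn_pi.2 fun j =>
        (h.c _ i).sub (h.c x i))) (by fun_prop)) (fun s hs x hm hp => ?_) (fun x => ?_) s hs x
  · set M := opn (jac (ω s) x) with hM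
    have b2 := b1 s ⟨hs.1.le, hs.2⟩
    have es := e0 s
    have m1 : M ≤ n * (4 * e s) := by
      have : ∀ i j, |jac (ω s) x i j| ≤ 4 * e s := fun i j =>
        (abs_sub _ _).trans (by linarith [b2 x i, b2 (fl x j) i])
      refine toolStmt.op_schur n _ _ (by positivity) (fun i => ?_) fun j => ?_ <;>
        exact (Finset.sum_le_card_nsmul _ _ (4 * e s) fun k _ => this _ _).trans_eq (by simp)
    have n0 : (0 : ℝ) < (n + 1 : ℝ)⁻¹ := by positivity
    have k := hC n W hW _ n0.le (by rw [inv_mul_le_iff₀ (by positivity)]; linarith) (ω s) _ M _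
      (fun z => by linarith [hm z]) (fun z => jac_clip es (bb W (ω s)) z
        (((hD n W hW (ω s) z).1 _ (by positivity) (b2 z)).trans (mul_le_mul_of_nonneg_left
          (add_le_add (show _ ≤ M by linarith [hm z]) le_rfl) (by linarith)))) x
    rw [jacStmt.lin] at k
    have t := tch_opn (S := fun u => jac (ω u) x) (fun i j => ((h.d s hs (fl x j) i).sub
      (h.d s hs x i)).congr_deriv (show _ = dj W (ω s)
        (fun x i => S3.Rg.clip (e s) (bb W (ω s) x i)) x i j by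
          simp only [dj, jac, of_apply, Matrix.sub_apply, stp, vel]; ring)) n0
      (r := C * M + (D * (M + 2 * e s) + (D * (M + 2 * e s)) ^ 2 / (2 * e s))) (by linarith)
    refine ((t.add (Tch.of_deriv (ed s).neg le_rfl)).mono ?_).of_le (by simp [sub_eq_add_neg])
      (Eventually.of_forall fun u => by simp [sub_eq_add_neg])
    have q : (D * (M + 2 * e s)) ^ 2 / (2 * e s) ≤
        5 * D ^ 2 * e s + D ^ 2 * (3 + 2 * n) * (M - e s) := by
      rw [div_le_iff₀ (by positivity)]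
      have a1 := mul_le_mul_of_nonneg_left (show M - e s ≤ n * (4 * e s) by linarith) hp.le
      nlinarith [mul_le_mul_of_nonneg_left a1 (sq_nonneg D), mul_pos (mul_pos es es) (by positivity : 0 < D ^ 2)]
    nlinarith
  · have : jac (ω 0) x = 0 := by ext i j; simp [h0, jac]
    simp [this, (e0 0).le]

end Crest.Agent.T157.S6c

end
end

-- ▼ part T157/S6Cp_38
section

/-!
# Row 157, block S6 (helper38): comparison of the true flow with the cavity flow (CL + CP)
-/

set_option autoImplicit false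

noncomputable section

namespace Crest.Agent.T157.S6c

open Matrix Real Set Filter Topology
open Crest.Agent.T157.E hiding mean
open Crest.Agent.T157.Eig
open Crest.Agent.T157.Reg hiding clip
open Crest.Agent.T157.S3.Rg (clip)
open Crest.Agent.T157.Tap (V Mx)
open Crest.Agent.T157.Rec (grad fl grad_eq sv_mul_self)
open Crest.Agent.T157.Da.Gr (loc tt loc_fl tanh_lip)
open Crest.Agent.T157.Chain22 (sg)
open Crest.Agent.T157.S6b
open Crest.Agent.T157.S6 (cav cc)
open Crest.Agent.T157.Reg.Coef54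
open Crest.Agent.T157.S3.Rg (nrm_mono nrm_sq' had abs_sv)

lemma s1 (h h' c : ℝ) : |tanh (h - c) - tanh h - (tanh (h' - c) - tanh h')| ≤ 2 * |c| * |h - h'| := by
  have := lip (fun x => (d0 (h - c) x).sub (d0 h x)) (d := h - h') (M := 2 * |c|) fun x _ => by
    have := a3 (h - x) c
    rw [sub_right_comm, ← abs_neg] at this
    convert this using 2; ring
  simp only [Pi.sub_apply, sub_zero, sub_sub_cancel, sub_right_comm h c] at this
  rwa [abs_sub_comm]

lemma s2 (h h' c : ℝ) : |tanh (h - c) - tanh h + c * t1 h -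
    (tanh (h' - c) - tanh h' + c * t1 h')| ≤ 4 * c ^ 2 * |h - h'| := by
  have := lip (fun x => ((d0 (h - c) x).sub (d0 h x)).add ((d1 h x).const_mul c)) (d := h - h')
    (M := 4 * c ^ 2) fun x _ => by
    have := a4 (h - x) c
    rw [sub_right_comm, ← abs_neg] at this
    convert this using 2; ring
  simp only [Pi.sub_apply, Pi.add_apply, sub_zero, sub_sub_cancel, sub_right_comm h c] at this
  rwa [abs_sub_comm]

variable {n : ℕ} {W : Mx n} {K : ℝ}

lemma rowsum {M X Y : Mx n} {a p : V n} {c : ℝ} (hc : 0 ≤ c) (hp : ∀ i, 0 ≤ p i)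
    (h : ∀ i k, |M i k| ≤ c * (|X i k| * |Y i k|) * (a k + p i)) :
    nrm (fun i => ∑ k, M i k) ≤ c * (opn X * opn Y) * (nrm a + nrm p) := by
  set N : Mx n := of fun i k => |X i k| * |Y i k| with hN
  have o := mul_nonneg (opn_nonneg X) (opn_nonneg Y)
  have n1 : opn N ≤ 1 * (opn X * opn Y) := had zero_le_one fun i k => by simp [hN]
  have n2 : ∀ i, ∑ k, N i k ≤ opn X * opn Y := fun i => (le_abs_self _).trans
    (Op34.cs (opn_nonneg X) (opn_nonneg Y) (by simpa using S3.Rg.row_le X i)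
      (by simpa using S3.Rg.row_le Y i))
  have n3 := nrm_mono (u := fun i => ∑ k, M i k) (v := N *ᵥ a + (opn X * opn Y) • p) hc fun i => by
    refine (Finset.abs_sum_le_sum_abs _ _).trans ((Finset.sum_le_sum fun k _ => h i k).trans
      (le_trans ?_ (mul_le_mul_of_nonneg_left (le_abs_self _) hc)))
    have := mul_le_mul_of_nonneg_left (mul_le_mul_of_nonneg_right (n2 i) (hp i)) hc
    simp only [mul_add, Finset.sum_add_distrib, mul_assoc c, ← Finset.mul_sum, ← Finset.sum_mul,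
      Pi.add_apply, Pi.smul_apply, smul_eq_mul, mulVec, dotProduct, hN, of_apply] at this ⊢
    linarith
  have n4 := (nrm_mulVec_le N a).trans (mul_le_mul_of_nonneg_right n1 (nrm_nonneg a))
  have n5 := nrm_add_le (N *ᵥ a) ((opn X * opn Y) • p)
  rw [nrm_smul, abs_of_nonneg o] at n5
  nlinarith [mul_le_mul_of_nonneg_left (n5.trans (add_le_add n4 le_rfl)) hc]

/-- indicator of `T` -/
def pT (T : Finset (Fin n)) : V n := fun i => if i ∈ T then 1 else 0
/-- change of the fields when `T` is removed -/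
def aT (W : Mx n) (T : Finset (Fin n)) (x : Cube n) : V n :=
  fun k => if k ∈ T then 1 else |loc W 0 x k - loc (cav T W) 0 x k|

variable {T : Finset (Fin n)}

lemma pT_nn (i : Fin n) : 0 ≤ pT T i := by unfold pT; split_ifs <;> norm_num
lemma aT_nn (x : Cube n) (k : Fin n) : 0 ≤ aT W T x k := by unfold aT; split_ifs <;> simp

lemma nrm_pT : nrm (pT T) = √T.card := by
  rw [nrm]; congr 1; simp [pT, dotProduct]

lemma cav_symm (hW : Wᵀ = W) : (cav T W)ᵀ = cav T W := by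
  ext i j; simp only [cav, transpose_apply, of_apply, or_comm, herm_apply (herm_iff.2 hW) j i]

lemma cav_mulVec (u : V n) : W *ᵥ u - cav T W *ᵥ u =
    pT T * (W *ᵥ u) + (1 - pT T) * (W *ᵥ (pT T * u)) := by
  funext i
  by_cases hi : i ∈ T
  · simp [cav, pT, mulVec, dotProduct, hi]
  · simp only [cav, pT, mulVec, dotProduct, hi, Pi.sub_apply, Pi.add_apply, Pi.mul_apply, of_apply,
      false_or, if_false, Pi.one_apply, ← Finset.sum_sub_distrib, zero_mul, zero_add, sub_zero,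
      one_mul]
    exact Finset.sum_congr rfl fun j _ => by split_ifs <;> simp

lemma nrm_pT_mul {u : V n} {c : ℝ} (hc : 0 ≤ c) (h : ∀ i, |u i| ≤ c) :
    nrm (pT T * u) ≤ c * √T.card := by
  rw [← nrm_pT]
  exact nrm_mono hc fun i => by
    rw [Pi.mul_apply, abs_mul, mul_comm]; exact mul_le_mul_of_nonneg_right (h i) (abs_nonneg _)

lemma nrm_aT (hK : opn W ≤ K) (hd : ∀ i, W i i = 0) (x : Cube n) :
    nrm (aT W T x) ≤ (K + 1) * √T.card := by
  have K0 := (opn_nonneg W).trans hK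
  have h1 := nrm_mono (u := aT W T x) (v := pT T + (1 - pT T) * (W *ᵥ (pT T * sv x))) zero_le_one
    fun k => by
      have := congrFun (cav_mulVec (W := W) (T := T) (sv x)) k
      by_cases hk : k ∈ T
      · simp [aT, pT, hk]
      · simp only [Pi.sub_apply, Pi.add_apply, Pi.mul_apply] at this
        simp [aT, loc, hd, show cav T W k k = 0 by simp [cav, hd], hk, this,
          show pT T k = 0 from if_neg hk]
  have h2 := nrm_mono (u := (1 - pT T) * (W *ᵥ (pT T * sv x))) (v := W *ᵥ (pT T * sv x)) zero_le_one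
    fun k => by by_cases hk : k ∈ T <;> simp [pT, hk]
  have h3 := (nrm_mulVec_le W _).trans (mul_le_mul hK
    (nrm_pT_mul (T := T) zero_le_one fun i => (abs_sv x i).le) (nrm_nonneg _) K0)
  have h4 := nrm_add_le (pT T) ((1 - pT T) * (W *ᵥ (pT T * sv x)))
  rw [nrm_pT] at h4
  linarith

lemma tt_fl (hW : Wᵀ = W) (hd : ∀ i, W i i = 0) (x : Cube n) (i k : Fin n) :
    tt W 0 (fl x i) k = tanh (loc W 0 x k - 2 * sv x i * W i k) := by
  rw [tt, loc_fl, herm_apply (herm_iff.2 hW) k i]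
  split_ifs with e
  · rw [e, hd, mul_zero]
  · rfl

lemma am_sub (hW : Wᵀ = W) (hd : ∀ i, W i i = 0) (x : Cube n) (i k : Fin n) :
    am W x i k - W i k * cc W x k = -(sv x i * (tanh (loc W 0 x k - 2 * sv x i * W i k) -
      tanh (loc W 0 x k) + 2 * sv x i * W i k * t1 (loc W 0 x k)) / 2) := by
  simp only [am, of_apply, grad_eq, tt_fl hW hd, cc, t1]
  simp only [tt]
  linear_combination (W i k * (1 - tanh (loc W 0 x k) ^ 2)) * sv_mul_self x i

lemma coef (hW : Wᵀ = W) (hd : ∀ i, W i i = 0) (x : Cube n) (i k : Fin n) :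
    |Tk W x k - Tk (cav T W) x k| ≤ aT W T x k ∧ |cc W x k - cc (cav T W) x k| ≤ 2 * aT W T x k ∧
    |al W x i k - al (cav T W) x i k| ≤ 2 * |W i k| * (aT W T x k + pT T i) ∧
    |am W x i k - W i k * cc W x k - (am (cav T W) x i k - cav T W i k * cc (cav T W) x k)| ≤
      8 * W i k ^ 2 * (aT W T x k + pT T i) := by
  have hd' : ∀ i, cav T W i i = 0 := fun i => by simp [cav, hd]
  have hf : ∀ (k : Fin n) (y : ℝ), |sv x k * y / 2| = |y| / 2 := fun k y => by
    rw [abs_div, abs_mul, abs_sv, one_mul, abs_two]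
  set h := loc W 0 x k with hh
  set h' := loc (cav T W) 0 x k with hh'
  have c1 : |2 * sv x i * W i k| = 2 * |W i k| := by rw [abs_mul, abs_mul, abs_sv, abs_two, mul_one]
  have c2 : (2 * sv x i * W i k) ^ 2 = 4 * W i k ^ 2 := by rw [← sq_abs, c1, mul_pow, sq_abs]; ring
  have w0 := abs_nonneg (W i k)
  have ap : i ∈ T ∨ k ∈ T → 1 ≤ aT W T x k + pT T i := by
    rintro (e | e)
    · linarith [aT_nn (W := W) (T := T) x k, show pT T i = 1 from if_pos e]
    · linarith [pT_nn (T := T) i, show aT W T x k = 1 from if_pos e]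
  have an : ¬ (i ∈ T ∨ k ∈ T) → |h - h'| ≤ aT W T x k + pT T i := fun e => by
    linarith [pT_nn (T := T) i, show aT W T x k = |h - h'| from if_neg fun e' => e (Or.inr e')]
  refine ⟨?_, ?_, ?_, ?_⟩
  · rw [show Tk W x k - Tk (cav T W) x k = sv x k * (tanh h' - tanh h) / 2 by
      simp only [Tk, tt, ← hh, ← hh']; ring, hf, aT]
    split_ifs
    · linarith [abs_sub (tanh h') (tanh h), abs_tanh_lt_one h, abs_tanh_lt_one h']
    · linarith [tanh_lip h' h, abs_sub_comm h h', abs_nonneg (h - h')]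
  · change |t1 h - t1 h'| ≤ _
    rw [aT]
    split_ifs
    · exact abs_le.2 ⟨by linarith [t1_nn h, t1_le h'], by linarith [t1_nn h', t1_le h]⟩
    · simpa [abs_sub_comm] using a3 h (h - h')
  · rw [show al W x i k - al (cav T W) x i k = -(sv x k * (tanh (h - 2 * sv x i * W i k) - tanh h -
      (tanh (h' - 2 * sv x i * cav T W i k) - tanh h')) / 2) by
        simp only [al, of_apply, tt_fl hW hd, tt_fl (cav_symm hW) hd']
        simp only [tt, ← hh, ← hh']; ring, abs_neg, hf, cav, of_apply]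
    split_ifs with e
    · have := tanh_lip (h - 2 * sv x i * W i k) h
      rw [sub_sub_cancel_left, abs_neg, c1] at this
      simp only [mul_zero, sub_zero, sub_self]
      nlinarith [ap e]
    · have := s1 h h' (2 * sv x i * W i k)
      rw [c1] at this
      nlinarith [an e]
  · rw [am_sub hW hd, am_sub (cav_symm hW) hd', ← hh, ← hh', neg_sub_neg, ← sub_div, ← mul_sub, hf,
      abs_sub_comm, cav, of_apply]
    split_ifs with e
    · have := a2 h (2 * sv x i * W i k)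
      rw [c2] at this
      simp only [mul_zero, sub_zero, sub_self, zero_mul, add_zero]
      nlinarith [ap e, sq_nonneg (W i k)]
    · have := s2 h h' (2 * sv x i * W i k)
      rw [c2] at this
      nlinarith [an e, sq_nonneg (W i k)]

lemma cmpA (hW : Wᵀ = W) (hK : opn W ≤ K) (hd : ∀ i, W i i = 0) (x : Cube n) {X : Mx n} {e : ℝ}
    (hX : opn X ≤ e) : nrm (fun i => ∑ k, (Tk W x k + al W x i k -
      (Tk (cav T W) x k + al (cav T W) x i k)) * X i k) ≤
      (K + 1 + 2 * K * (K + 2)) * e * √T.card := by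
  have K0 := (opn_nonneg W).trans hK
  have e0 := (opn_nonneg X).trans hX
  have a1 := nrm_aT (T := T) hK hd x
  have q0 := sqrt_nonneg (T.card : ℝ)
  have h1 := rowsum (M := of fun i k => (al W x i k - al (cav T W) x i k) * X i k) (X := W) (Y := X)
    (a := aT W T x) zero_le_two (pT_nn (T := T)) fun i k => by
      rw [of_apply, abs_mul]
      exact (mul_le_mul_of_nonneg_right (coef hW hd x i k).2.2.1 (abs_nonneg _)).trans_eq (by ring)
  have h2 := (nrm_mulVec_le X fun k => Tk W x k - Tk (cav T W) x k).trans (mul_le_mul hX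
    ((nrm_mono (v := aT W T x) zero_le_one fun k => by
      rw [one_mul, abs_of_nonneg (aT_nn x k)]; exact (coef hW hd x k k).1).trans
      ((one_mul _).trans_le a1)) (nrm_nonneg _) e0)
  have h3 : 2 * (opn W * opn X) * (nrm (aT W T x) + nrm (pT T)) ≤
      2 * (K * e) * ((K + 1) * √T.card + √T.card) := by
    rw [nrm_pT]
    have := nrm_nonneg (aT W T x)
    have := opn_nonneg X
    gcongr
  refine le_trans (le_of_eq ?_) ((nrm_add_le _ _).trans ((add_le_add h2 (h1.trans h3)).trans_eq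
    (by ring)))
  congr 1
  funext i
  simp only [Pi.add_apply, mulVec, dotProduct, of_apply, ← Finset.sum_add_distrib]
  exact Finset.sum_congr rfl fun k _ => by ring

lemma cmpB (hW : Wᵀ = W) (hK : opn W ≤ K) (hd : ∀ i, W i i = 0) (x : Cube n) {u : V n} {e : ℝ}
    (e0 : 0 ≤ e) (hu : ∀ i, |u i| ≤ e) :
    nrm (am W x *ᵥ u - am (cav T W) x *ᵥ u - pT T * (W *ᵥ (cc (cav T W) x * u))) ≤
      (2 * K * (K + 1) + K + 8 * K ^ 2 * (K + 2)) * e * √T.card := by
  have K0 := (opn_nonneg W).trans hK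
  have a1 := nrm_aT (T := T) hK hd x
  have q0 := sqrt_nonneg (T.card : ℝ)
  have h1 := rowsum (M := of fun i k => (am W x i k - W i k * cc W x k - (am (cav T W) x i k -
    cav T W i k * cc (cav T W) x k)) * u k) (X := W) (Y := W) (c := 8 * e)
    (a := aT W T x) (by positivity) (pT_nn (T := T)) fun i k => by
      rw [of_apply, abs_mul, ← sq, sq_abs]
      exact (mul_le_mul (coef hW hd x i k).2.2.2 (hu k) (abs_nonneg _) (mul_nonneg (by positivity)
        (add_nonneg (aT_nn x k) (pT_nn i)))).trans_eq (by ring)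
  have h3 : 8 * e * (opn W * opn W) * (nrm (aT W T x) + nrm (pT T)) ≤
      8 * e * (K * K) * ((K + 1) * √T.card + √T.card) := by
    rw [nrm_pT]
    have := nrm_nonneg (aT W T x)
    have := opn_nonneg W
    gcongr
  have h2 := (nrm_mulVec_le W ((cc W x - cc (cav T W) x) * u)).trans (mul_le_mul hK
    ((nrm_mono (v := aT W T x) (c := 2 * e) (by positivity) fun k => by
      rw [abs_of_nonneg (aT_nn x k), Pi.mul_apply, abs_mul]
      exact (mul_le_mul (coef hW hd x k k).2.1 (hu k) (abs_nonneg _)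
        (mul_nonneg zero_le_two (aT_nn x k))).trans_eq (by ring)).trans
      (mul_le_mul_of_nonneg_left a1 (by positivity))) (nrm_nonneg _) K0)
  have h4 := (nrm_mono (u := (1 - pT T) * (W *ᵥ (pT T * (cc (cav T W) x * u))))
    (v := W *ᵥ (pT T * (cc (cav T W) x * u))) zero_le_one
    fun k => by by_cases hk : k ∈ T <;> simp [pT, hk]).trans ((one_mul _).trans_le
      ((nrm_mulVec_le W _).trans (mul_le_mul hK (nrm_pT_mul (T := T) e0 fun i => by
        rw [Pi.mul_apply, abs_mul]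
        refine (mul_le_of_le_one_left (abs_nonneg _) ?_).trans (hu i)
        exact abs_le.2 ⟨by linarith [show 0 ≤ cc (cav T W) x i from t1_nn _], t1_le _⟩)
        (nrm_nonneg _) K0)))
  refine le_trans (le_of_eq ?_) ((nrm_add_le _ _).trans ((add_le_add ((nrm_add_le _ _).trans
    (add_le_add h2 h4)) (h1.trans h3)).trans_eq (by ring)))
  congr 1
  rw [← sub_eq_iff_eq_add'.2 (cav_mulVec (W := W) (T := T) (cc (cav T W) x * u))]
  funext i
  simp only [Pi.add_apply, Pi.sub_apply, Pi.mul_apply, mulVec, dotProduct, of_apply, sub_mul,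
    mul_sub, Finset.sum_sub_distrib, mul_assoc]
  ring

lemma sq_le5 {v : V n} {a b c d e : ℝ} (h : nrm v ≤ a + b + c + d + e) :
    v ⬝ᵥ v ≤ 5 * (a ^ 2 + b ^ 2 + c ^ 2 + d ^ 2 + e ^ 2) := by
  rw [← nrm_sq]
  refine (pow_le_pow_left₀ (nrm_nonneg _) h 2).trans ?_
  nlinarith [sq_nonneg (a - b), sq_nonneg (a - c), sq_nonneg (a - d), sq_nonneg (a - e),
    sq_nonneg (b - c), sq_nonneg (b - d), sq_nonneg (b - e), sq_nonneg (c - d), sq_nonneg (c - e),
    sq_nonneg (d - e)]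

lemma exc_nonneg (η : ℝ) (z : V n) : 0 ≤ exc η z := Finset.sum_nonneg fun _ _ => sq_nonneg _

/-- the clip error of `b` against the excess of `b'` -/
lemma clip_err {η e : ℝ} (hη : 0 < η) (he : η ≤ e) (b b' : V n) :
    nrm ((fun i => clip e (b i)) - b') ≤ nrm (b - b') + √(exc η b') ∧
    nrm (b - fun i => clip e (b i)) ≤ nrm (b - b') + √(exc η b') := by
  have e0 := hη.trans_le he
  have k : ∀ u : V n, (∀ i, |u i| ≤ |b i - b' i| + max (|b' i| - η) 0) →
      nrm u ≤ nrm (b - b') + √(exc η b') := fun u hu => by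
    have h1 := nrm_mono (u := u) (v := (fun i => |(b - b') i|) + fun i => max (|b' i| - η) 0)
      zero_le_one fun i => by rw [one_mul]; exact (hu i).trans (le_abs_self _)
    have h2 : nrm (fun i => max (|b' i| - η) 0) = √(exc η b') := by
      rw [exc, ← nrm_sq', sqrt_sq (nrm_nonneg _)]
    rw [one_mul] at h1
    refine h1.trans ((nrm_add_le _ _).trans_eq ?_)
    rw [h2, X31.nrm_abs]
  refine ⟨k _ fun i => ?_, k _ fun i => (S3.Rg.abs_sub_clip e0 _).trans (max_le ?_ (by positivity))⟩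
  · have h1 := S3.Rg.clip_lip e0 (b' i) (b i)
    have h2 := S3.Rg.abs_sub_clip e0 (b' i)
    have h3 := abs_sub_le (clip e (b i)) (clip e (b' i)) (b' i)
    rw [abs_sub_comm] at h2
    have h4 : max (|b' i| - e) 0 ≤ max (|b' i| - η) 0 := max_le_max (by linarith) le_rfl
    exact h3.trans (by linarith)
  · linarith [abs_sub_abs_le_abs_sub (b i) (b' i), le_max_left (|b' i| - η) 0]

lemma nice_cav (hW : Nice W K) (T : Finset (Fin n)) : Nice (cav T W) K := by
  refine ⟨cav_symm hW.1, ?_, fun i => le_trans (Finset.sum_le_sum fun k _ => ?_) (hW.2.2 i)⟩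
  · have d : opn (diagonal (1 - pT T)) ≤ 1 := opn_diagonal_le zero_le_one fun i => by
      by_cases hi : i ∈ T <;> simp [pT, hi]
    have e : cav T W = Matrix.diagonal (1 - pT T) * W * Matrix.diagonal (1 - pT T) := by
      ext i j; by_cases hi : i ∈ T <;> by_cases hj : j ∈ T <;> simp [cav, pT, hi, hj]
    simpa [e] using Op34.opn_mul_le' (Op34.opn_mul_le' d hW.2.1) d
  · simp only [cav, of_apply]
    split_ifs
    · rw [zero_pow four_ne_zero]; positivity
    · exact le_rfl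

set_option maxHeartbeats 1000000 in
/-- **CL + CP** -/
theorem cp (K : ℝ) : ∃ C ≥ (1 : ℝ), ∀ (n : ℕ) (W : Mx n), 0 < n → Nice W K → (∀ i, W i i = 0) →
    ∀ (T : Finset (Fin n)) (u0 : V n) (r : ℝ → V n) (Y Z : ℝ → VF n) (τ η s : ℝ)
      (B' B : Cube n → ℝ), 0 < η → 0 ≤ s → (∀ x, 0 ≤ B' x) → (∀ x, 0 ≤ B x) →
    Fl W Y (fun v x => bb W (Y v) x - r v) τ → Fl (cav T W) Z (fun v => bb (cav T W) (Z v)) τ →
    (∀ x, Z 0 x = u0) → (∀ x, (Y 0 x - u0) ⬝ᵥ (Y 0 x - u0) + exc η u0 ≤ s) →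
    (∀ v ∈ Icc 0 τ, ∀ x, exc η (bb (cav T W) (Z v) x) ≤ s + B' x) →
    (∀ v ∈ Icc 0 τ, ∀ x, nrm (pT T * (W *ᵥ (cc (cav T W) x * Z v x)) - r v) ^ 2 + B' x +
      tot (mu (cav T W)) τ B' x ≤ s + B x) →
    ∀ v ∈ Icc 0 τ, ∀ x E, C * exp (C * τ) * (s + η ^ 2 * (T.card + 1) + B x + tot (mu W) τ B x) ≤ E →
      (∀ l, Y v x l ^ 2 ≤ E) ∧ (∀ j, (bb W (Y v) x j - r v j) ^ 2 ≤ E) ∧
      (Y v x - Z v x) ⬝ᵥ (Y v x - Z v x) ≤ E := by
  obtain ⟨Λ, Λ1, hΛ⟩ := cl (jbGlue_45 toolStmt jacStmt coefStmt) K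
  obtain ⟨G, G1, hG⟩ := gron K
  obtain ⟨D, D1, hD⟩ := coefStmt K
  obtain ⟨c1, hc1⟩ : ∃ c1, c1 = |K| + 1 + 2 * |K| * (|K| + 2) := ⟨_, rfl⟩
  obtain ⟨c2, hc2⟩ : ∃ c2, c2 = (2 * |K| * (|K| + 1) + |K| + 8 * |K| ^ 2 * (|K| + 2)) * 2 := ⟨_, rfl⟩
  obtain ⟨M1, hM1⟩ : ∃ M1, M1 = 5 * (c2 ^ 2 + 8 * (K ^ 2 + 4 * D ^ 2) + 5) := ⟨_, rfl⟩
  obtain ⟨M2, hM2⟩ : ∃ M2, M2 = 5 * (M1 + c1 ^ 2) + 2 := ⟨_, rfl⟩
  obtain ⟨L, hL⟩ : ∃ L, L = Λ + G + 10 * D ^ 2 := ⟨_, rfl⟩
  have m1 : 0 ≤ M1 := by rw [hM1]; positivity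
  have m2 : 0 ≤ M2 := by rw [hM2]; positivity
  have L0 : 0 ≤ L := by rw [hL]; positivity
  refine ⟨3 * L + 10 * D ^ 2 * M2 + 5 * M1 + 20, by nlinarith [mul_nonneg (sq_nonneg D) m2],
    fun n W hn hW hd T u0 r Y Z τ η s B' B hη hs hB' hB hY hZ hZ0 h0 h1 h2 => ?_⟩
  intro v hv
  have τ0 := hv.1.trans hv.2
  have K0 := (opn_nonneg W).trans hW.2.1
  rw [abs_of_nonneg K0] at hc1 hc2
  have hW' := nice_cav hW T
  obtain ⟨ω, w0, hω, bω⟩ := hΛ n _ hW' η τ u0 hη τ0
  set W' := cav T W with hW''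
  obtain ⟨u, hu⟩ : ∃ u, u = exp (L * τ) := ⟨_, rfl⟩
  have D0 : 0 ≤ D ^ 2 := sq_nonneg D
  have u1 : 1 ≤ u := hu ▸ one_le_exp (by positivity)
  have ue : ∀ c, c ≤ L → exp (c * τ) ≤ u := fun c hc =>
    hu ▸ exp_le_exp.2 (mul_le_mul_of_nonneg_right hc τ0)
  have e1 : ∀ t ∈ Icc 0 τ, η ≤ η * exp (Λ * t) ∧ η * exp (Λ * t) ≤ η * u := fun t ht =>
    ⟨le_mul_of_one_le_right hη.le (one_le_exp (mul_nonneg (by linarith) ht.1)),
      mul_le_mul_of_nonneg_left ((exp_le_exp.2 (mul_le_mul_of_nonneg_left ht.2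
        (by linarith))).trans (ue Λ (by linarith))) hη.le⟩
  have nb : ∀ {A : Mx n}, Nice A K → ∀ x (z : V n), nrm (am A x *ᵥ z) ≤ D * nrm z :=
    fun hA x z => (nrm_mulVec_le _ _).trans
      (mul_le_mul_of_nonneg_right (hD n _ hA x).2.2.2.2.1 (nrm_nonneg _))
  have t' := tot_nonneg hn (Bas66.mu_pos W') τ0 hB'
  have t0 := tot_nonneg hn (Bas66.mu_pos W) τ0 hB
  have x0 : ∀ x, nrm (ω 0 x - u0) ^ 2 ≤ exc η u0 := fun x => by
    have := (clip_err hη le_rfl u0 u0).1
    rw [sub_self, nrm_zero, zero_add, ← funext (w0 x)] at this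
    exact (pow_le_pow_left₀ (nrm_nonneg _) this 2).trans_eq (sq_sqrt (exc_nonneg _ _))
  -- the clipped flow against the cavity flow
  have p1 : ∀ t ∈ Icc 0 τ, ∀ x, nrm (ω t x - Z t x) ^ 2 ≤ 8 * u * (s + B x) := fun t ht x => by
    have k := hG n W' hn hW' _ _ τ (5 * D ^ 2) (2 * s) (fun z => 2 * B' z) (hω.sub hZ)
      (by positivity) (by positivity) (fun z => by linarith [hB' z]) (fun z => by
        have := x0 z
        rw [nrm_sq] at this
        rw [sq2, Pi.sub_apply, hZ0 z]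
        exact this.trans (by linarith [h0 z, dot_self_nonneg (Y 0 z - u0)]))
      (fun t ht z => by
        have ht : t ∈ Icc 0 τ := ⟨ht.1.le, ht.2⟩
        have a := (clip_err hη (e1 t ht).1 (bb W' (ω t) z) (bb W' (Z t) z)).1
        have b := nb hW' z (ω t z - Z t z)
        rw [mulVec_sub] at b
        have c := pow_le_pow_left₀ (nrm_nonneg _) (a.trans (add_le_add b le_rfl)) 2
        have d := sq_sqrt (exc_nonneg η (bb W' (Z t) z))
        simp only [sub_self, zero_mul, Finset.sum_const_zero, add_zero, sq2, ← nrm_sq]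
        refine c.trans ?_
        change _ ≤ 5 * D ^ 2 * nrm (ω t z - Z t z) ^ 2 + _
        linarith [h1 t ht z, sq_nonneg (D * nrm (ω t z - Z t z) - √(exc η (bb W' (Z t) z))),
          sq_nonneg (D * nrm (ω t z - Z t z))]) t ht x
    rw [tot_const_mul, sq2, ← nrm_sq] at k
    refine k.trans ?_
    have := mul_le_mul (ue (G + 2 * (5 * D ^ 2)) (by linarith)) (show 2 * s + 2 * tot (mu W') τ B' x ≤
      4 * (s + B x) by linarith [h2 t ht x, hB' x, hB x, sq_nonneg (nrm (pT T * (W *ᵥ (cc W' x *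
        Z t x)) - r t))]) (by linarith [t' x]) (by linarith)
    linarith
  obtain ⟨E1, hE1⟩ : ∃ E1, E1 = s + η ^ 2 * (T.card + 1) := ⟨_, rfl⟩
  have q2 : √(T.card : ℝ) ^ 2 = T.card := sq_sqrt (Nat.cast_nonneg _)
  have η2 : 0 ≤ η ^ 2 * T.card := by positivity
  have η3 : 0 ≤ η ^ 2 := sq_nonneg η
  have uu : u ≤ u ^ 2 := le_self_pow₀ u1 two_ne_zero
  -- the main source
  have p2 : ∀ t ∈ Icc 0 τ, ∀ x, nrm (bb W (ω t) x - r t - fun i =>
      clip (η * exp (Λ * t)) (bb W' (ω t) x i)) ^ 2 ≤ M1 * u ^ 2 * (E1 + B x) := fun t ht x => by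
    have a := (clip_err hη (e1 t ht).1 (bb W' (ω t) x) (bb W' (Z t) x)).2
    have b := nb hW' x (ω t x - Z t x)
    rw [mulVec_sub] at b
    have c := cmpB (T := T) hW.1 hW.2.1 hd x (u := ω t x) (e := 2 * (η * u)) (by positivity)
      fun i => ((bω t ht x).1 i).trans (by linarith [(e1 t ht).2])
    have d : nrm (pT T * (W *ᵥ (cc W' x * (ω t x - Z t x)))) ≤ K * nrm (ω t x - Z t x) :=
      (nrm_mono (v := W *ᵥ (cc W' x * (ω t x - Z t x))) zero_le_one fun k => by
        by_cases hk : k ∈ T <;> simp [pT, hk]).trans ((one_mul _).trans_le ((nrm_mulVec_le W _).trans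
          (mul_le_mul hW.2.1 ((nrm_mono zero_le_one fun i => by
            rw [Pi.mul_apply, abs_mul]
            exact mul_le_mul_of_nonneg_right (abs_le.2 ⟨by
              linarith [show 0 ≤ cc W' x i from t1_nn _], t1_le _⟩) (abs_nonneg _)).trans_eq
            (one_mul _)) (nrm_nonneg _) K0)))
    have e := sq_le5 (le_trans (le_of_eq (show nrm (bb W (ω t) x - r t - fun i =>
      clip (η * exp (Λ * t)) (bb W' (ω t) x i)) = _ by
        congr 1; simp only [mul_sub, mulVec_sub, bb]; abel)) ((nrm_add_le _ _).trans (add_le_add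
          ((nrm_add_le _ (pT T * (W *ᵥ (cc W' x * Z t x)) - r t)).trans (add_le_add
            ((nrm_add_le _ _).trans (add_le_add c d)) le_rfl)) (a.trans (add_le_add b le_rfl)))
          |>.trans_eq (add_assoc _ _ _).symm))
    rw [← nrm_sq, sq_sqrt (exc_nonneg _ _)] at e
    refine e.trans ?_
    have f1 := p1 t ht x
    have f2 := h2 t ht x
    have f3 := h1 t ht x
    have sB : 0 ≤ s + B x := by linarith [hB x]
    have g1 : ((2 * K * (K + 1) + K + 8 * K ^ 2 * (K + 2)) * (2 * (η * u)) * √T.card) ^ 2 ≤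
        c2 ^ 2 * (u ^ 2 * (E1 + B x)) := by
      rw [show _ * (2 * (η * u)) * √(T.card : ℝ) = c2 * (u * (η * √T.card)) by rw [hc2]; ring]
      simp only [mul_pow, q2]
      gcongr; linarith
    have g2 : u * (s + B x) ≤ u ^ 2 * (E1 + B x) := by gcongr; linarith
    have g3 : s + B x ≤ u ^ 2 * (E1 + B x) := (le_mul_of_one_le_left sB u1).trans g2
    have g4 := mul_le_mul_of_nonneg_left (f1.trans (show _ ≤ 8 * (u ^ 2 * (E1 + B x)) by linarith))
      (show 0 ≤ K ^ 2 + D ^ 2 by positivity)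
    have g5 := mul_nonneg D0 (sB.trans g3)
    rw [hM1]
    linarith [t' x, hB' x, sq_nonneg (nrm (pT T * (W *ᵥ (cc W' x * Z t x)) - r t)), hB x]
  have E0 : 0 ≤ E1 := by rw [hE1]; positivity
  have u2 : 1 ≤ u ^ 2 := u1.trans uu
  -- the true flow against the clipped flow
  have p3 : ∀ x, nrm (Y v x - ω v x) ^ 2 ≤ 2 * M2 * u ^ 3 * (E1 + tot (mu W) τ B x) := fun x => by
    have k := hG n W hn hW _ _ τ (5 * D ^ 2) (M2 * u ^ 2 * E1) (fun z => M2 * u ^ 2 * B z)
      (hY.sub hω) (by positivity) (by positivity) (fun z => by have := hB z; positivity) (fun z => by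
        have a := nrm_sub_le (Y 0 z - u0) (ω 0 z - u0)
        rw [sub_sub_sub_cancel_right] at a
        have b := pow_le_pow_left₀ (nrm_nonneg _) a 2
        have c := h0 z
        rw [sq2, ← nrm_sq] at *
        have d : 2 * 1 * s ≤ M2 * u ^ 2 * E1 := by
          gcongr
          · linarith [sq_nonneg c1]
          · linarith
        refine b.trans ?_
        linarith [x0 z, sq_nonneg (nrm (Y 0 z - u0) - nrm (ω 0 z - u0))])
      (fun t ht z => by
        have ht : t ∈ Icc 0 τ := ⟨ht.1.le, ht.2⟩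
        have a := cmpA (T := T) hW.1 hW.2.1 hd z ((bω t ht z).2.trans (e1 t ht).2)
        have b := nb hW z (Y t z - ω t z)
        have c := p2 t ht z
        refine (sq_le5 (d := 0) (e := 0) (le_trans (le_of_eq ?_) (((nrm_add_le _ _).trans (add_le_add
          ((nrm_add_le _ (bb W (ω t) z - r t - fun i => clip (η * exp (Λ * t))
            (bb W' (ω t) z i))).trans (add_le_add b le_rfl)) a)).trans_eq
              (by rw [add_zero, add_zero])))).trans ?_
        · congr 1; funext i; simp only [mulVec_sub, bb, Pi.add_apply, Pi.sub_apply]; ring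
        · have g1 : (c1 * (η * u) * √T.card) ^ 2 ≤ c1 ^ 2 * (u ^ 2 * (E1 + B z)) := by
            rw [show c1 * (η * u) * √(T.card : ℝ) = c1 * (u * (η * √T.card)) by ring]
            simp only [mul_pow, q2]
            gcongr; linarith [hB z]
          rw [← hc1, sq2, ← nrm_sq, hM2]
          change _ ≤ 5 * D ^ 2 * nrm (Y t z - ω t z) ^ 2 + _
          linarith [mul_nonneg (zero_le_one.trans u2) (add_nonneg E0 (hB z))]) v hv x
    rw [tot_const_mul, sq2, ← nrm_sq, ← mul_add] at k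
    refine k.trans ?_
    have := mul_le_mul_of_nonneg_right (ue (G + 2 * (5 * D ^ 2)) (by linarith))
      (show 0 ≤ M2 * u ^ 2 * (E1 + tot (mu W) τ B x) by have := t0 x; positivity)
    linarith
  intro x E hE
  obtain ⟨X, hX⟩ : ∃ X, X = u ^ 3 * (E1 + B x + tot (mu W) τ B x) := ⟨_, rfl⟩
  have u3 : u ^ 2 ≤ u ^ 3 := pow_le_pow_right₀ u1 (by norm_num)
  have tx := t0 x
  have Bx := hB x
  have X0 : 0 ≤ X := by rw [hX]; positivity
  have hE : (10 * D ^ 2 * M2 + 5 * M1 + 20) * X ≤ E := by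
    refine le_trans ?_ hE
    rw [hX, ← mul_assoc, ← hE1]
    refine mul_le_mul_of_nonneg_right (mul_le_mul (by linarith) ?_ (by positivity)
      (by positivity)) (by positivity)
    rw [hu, ← exp_nat_mul, ← mul_assoc]
    exact exp_le_exp.2 (mul_le_mul_of_nonneg_right (by
      push_cast; linarith [mul_nonneg D0 m2]) τ0)
  have f1 : nrm (ω v x - Z v x) ^ 2 ≤ 8 * X := (p1 v hv x).trans (by
    rw [mul_assoc, hX]
    exact mul_le_mul_of_nonneg_left (mul_le_mul (uu.trans u3) (by linarith) (by linarith)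
      (by positivity)) (by norm_num))
  have f2 : _ ≤ M1 * X := (p2 v hv x).trans (by
    rw [mul_assoc, hX]
    exact mul_le_mul_of_nonneg_left (mul_le_mul u3 (by linarith) (by linarith) (by positivity)) m1)
  have f3 : nrm (Y v x - ω v x) ^ 2 ≤ 2 * M2 * X := (p3 x).trans (by
    rw [mul_assoc (2 * M2), hX]; gcongr; linarith)
  have f4 : (η * u) ^ 2 ≤ X := by rw [mul_pow, mul_comm, hX]; gcongr; linarith
  have D2 : 1 ≤ D ^ 2 := one_le_pow₀ D1
  have f5 : M2 * X ≤ D ^ 2 * M2 * X := by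
    rw [mul_assoc]; exact le_mul_of_one_le_left (by positivity) D2
  have f6 := mul_nonneg m1 X0
  have f7 := mul_nonneg m2 X0
  have en : ∀ (z : V n) i, |z i| ≤ nrm z := fun z i => by
    simpa [nrm_single] using abs_dot_le (Pi.single i 1) z
  refine ⟨fun l => ?_, fun j => ?_, ?_⟩
  · have a : |Y v x l| ≤ nrm (Y v x - ω v x) + 2 * (η * u) := by
      linarith [(bω v hv x).1 l, (e1 v hv).2, (abs_sub_abs_le_abs_sub (Y v x l)
        (ω v x l)).trans (en (Y v x - ω v x) l)]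
    rw [← sq_abs]
    refine (pow_le_pow_left₀ (abs_nonneg _) a 2).trans ?_
    linarith [sq_nonneg (nrm (Y v x - ω v x) - 2 * (η * u))]
  · have a := (en _ j).trans (nb hW x (Y v x - ω v x))
    have b := en (bb W (ω v) x - r v - fun i => clip (η * exp (Λ * v)) (bb W' (ω v) x i)) j
    have c := (S3.Rg.abs_clip_le (hη.trans_le (e1 v hv).1) (bb W' (ω v) x j)).trans
      (mul_le_mul_of_nonneg_left (e1 v hv).2 zero_le_two)
    set N := nrm (bb W (ω v) x - r v - fun i => clip (η * exp (Λ * v)) (bb W' (ω v) x i))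
    have d : |bb W (Y v) x j - r v j| ≤ D * nrm (Y v x - ω v x) + N + 2 * (η * u) :=
      le_trans (le_of_eq (by congr 1; simp only [mulVec_sub, bb, Pi.sub_apply]; ring))
        ((abs_add_three _ _ _).trans (add_le_add_three a b c))
    rw [← sq_abs]
    refine (pow_le_pow_left₀ (abs_nonneg _) d 2).trans ?_
    linarith [sq_nonneg (D * nrm (Y v x - ω v x) - N), sq_nonneg (N - 2 * (η * u)),
      sq_nonneg (D * nrm (Y v x - ω v x) - 2 * (η * u)), mul_le_mul_of_nonneg_left f3 D0]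
  · have a := nrm_add_le (Y v x - ω v x) (ω v x - Z v x)
    rw [sub_add_sub_cancel] at a
    rw [← nrm_sq]
    refine (pow_le_pow_left₀ (nrm_nonneg _) a 2).trans ?_
    linarith [sq_nonneg (nrm (Y v x - ω v x) - nrm (ω v x - Z v x))]

end Crest.Agent.T157.S6c

end
end

-- ▼ part T157/S6Cq_38
section

/-!
# Row 157, block S6 (helper38): `S6.cpStmt`
-/

set_option autoImplicit false

noncomputable section

namespace Crest.Agent.T157.S6

open Matrix Real Set Filter Topology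
open Crest.Agent.T157.E hiding mean
open Crest.Agent.T157.Eig Crest.Agent.T157.Reg Crest.Agent.T157.S6c
open Crest.Agent.T157.Tap (V Mx)
open Crest.Agent.T157.Rec (grad)
open Crest.Agent.T157.Chain22 (sg hasDerivAt_sg)
open Crest.Agent.T157.S3.Rg (nrm_mono nrm_sq')

namespace Cq38

variable {n : ℕ} {W : Mx n}

lemma fl_grad (hW : Wᵀ = W) {F : ℝ → Cube n → ℝ} {r : ℝ → V n} (τ : ℝ)
    (h : ∀ s x i, HasDerivAt (fun u => grad (F u) x i) (grad (gen (mu W) (F s)) x i - r s i) s) :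
    Fl W (fun v => grad (F v)) (fun v x => bb W (grad (F v)) x - r v) τ :=
  ⟨fun x i s _ => (h s x i).continuousAt.continuousWithinAt, fun s _ x i =>
    (h s x i).congr_deriv (by rw [Bas66.grad_gen hW, vel, Pi.sub_apply]; ring)⟩

/-- the excess lives on few sites -/
lemma exc_le {η m A ε : ℝ} (hη : 0 < η) {z : V n} (hz : nrm z ^ 2 ≤ A) (hm : A ≤ η ^ 2 * m)
    (h : ∀ S : Finset (Fin n), (S.card : ℝ) ≤ m → nrm (PT S *ᵥ z) ≤ ε) : exc η z ≤ ε ^ 2 := by
  set S := Finset.univ.filter fun i => η < |z i| with hS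
  have h1 : (S.card : ℝ) * η ^ 2 ≤ nrm z ^ 2 := by
    rw [nrm_sq', ← nsmul_eq_mul]
    refine (Finset.card_nsmul_le_sum S (fun i => z i ^ 2) _ fun i hi => ?_).trans
      (Finset.sum_le_sum_of_subset_of_nonneg (Finset.subset_univ _) fun _ _ _ => sq_nonneg _)
    rw [← sq_abs (z i)]
    exact pow_le_pow_left₀ hη.le (Finset.mem_filter.1 hi).2.le 2
  have h2 := h S (le_of_mul_le_mul_right (by linarith) (pow_pos hη 2))
  refine le_trans ?_ (pow_le_pow_left₀ (nrm_nonneg _) h2 2)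
  rw [nrm_sq', exc]
  refine Finset.sum_le_sum fun i _ => ?_
  rw [PT_mulVec]
  split_ifs with e
  · rw [← sq_abs (z i)]
    exact pow_le_pow_left₀ (le_max_right _ _) (max_le (by linarith) (abs_nonneg _)) 2
  · rw [max_eq_right (by simpa [hS] using e)]

lemma exc_le' {η : ℝ} (hη : 0 < η) (z : V n) : exc η z ≤ nrm z ^ 2 := by
  rw [nrm_sq', exc]
  refine Finset.sum_le_sum fun i _ => ?_
  rw [← sq_abs (z i)]
  exact pow_le_pow_left₀ (le_max_right _ _) (max_le (by linarith) (abs_nonneg _)) 2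

lemma sq_le_of_unit {a : V n} {E : ℝ} {S : Finset (Fin n)} (hE : 0 ≤ E)
    (h : ∀ w : V n, nrm w ≤ 1 → (∀ k ∉ S, w k = 0) → (a ⬝ᵥ w) ^ 2 ≤ E) : ∑ k ∈ S, a k ^ 2 ≤ E := by
  set b := PT S *ᵥ a with hb
  have e : ∑ k ∈ S, a k ^ 2 = a ⬝ᵥ b := by
    simp only [dotProduct, hb, PT_mulVec, mul_ite, mul_zero, Finset.sum_ite_mem, Finset.univ_inter, sq]
  have e' : a ⬝ᵥ b = nrm b ^ 2 := by
    rw [nrm_sq]
    exact Finset.sum_congr rfl fun k _ => by rw [hb, PT_mulVec]; split_ifs <;> simp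
  rw [e, e']
  rcases (nrm_nonneg b).eq_or_lt with z | z
  · rw [← z]; simpa using hE
  have := h ((nrm b)⁻¹ • b) (by rw [nrm_smul, abs_of_pos (inv_pos.2 z), inv_mul_cancel₀ z.ne'])
    fun k hk => by rw [Pi.smul_apply, hb, PT_mulVec, if_neg hk, smul_zero]
  rwa [dotProduct_smul, e', smul_eq_mul, sq (nrm b), inv_mul_cancel_left₀ z.ne'] at this

lemma PT_pT (T : Finset (Fin n)) (u : V n) : pT T * u = PT T *ᵥ u := by
  funext i; rw [PT_mulVec, Pi.mul_apply, pT]; split_ifs <;> simp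

lemma Rw_eq (T : Finset (Fin n)) : Rw T W = PT T * W * PT Tᶜ := by
  ext i j; by_cases hi : i ∈ T <;> by_cases hj : j ∈ T <;> simp [Rw, PT, hi, hj]

lemma PT_add (T : Finset (Fin n)) : PT T + PT Tᶜ = 1 := by
  rw [PT, PT, diagonal_add, ← diagonal_one]
  congr 1; funext i; by_cases hi : i ∈ T <;> simp [hi]

lemma PT_mul (S T : Finset (Fin n)) : PT S * PT T = PT (S ∩ T) := by
  rw [PT, PT, PT, diagonal_mul_diagonal]
  congr 1; funext i; by_cases hi : i ∈ S <;> simp [hi]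

end Cq38

open Cq38

set_option maxHeartbeats 400000 in
theorem cpStmt : CPStmt := by
  intro K
  obtain ⟨C, C1, hC⟩ := cp K
  obtain ⟨G, G0, hG⟩ := opn_Mg K
  obtain ⟨D, D1, hD⟩ := coefStmt K
  obtain ⟨L, hL⟩ : ∃ L, L = (D + |K| + 1) * (|K| + 1) := ⟨_, rfl⟩
  have L1 : 1 ≤ L := by rw [hL]; nlinarith [abs_nonneg K]
  refine ⟨C + 2 * G + 1 + 20 * C * L ^ 2, by nlinarith, fun n W ρ a m ε η τ b T B ε0 ε1 η0 τ0 hT hm
    hS hB x hx ho v hv => ?_⟩
  have hW := a.nice
  have K0 := (opn_nonneg W).trans hW.2.1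
  rw [abs_of_nonneg K0] at hL
  have hW' := nice_cav hW T
  obtain ⟨g, hg⟩ : ∃ g, g = exp (G * τ) := ⟨_, rfl⟩
  have g1 : 1 ≤ g := hg ▸ one_le_exp (by positivity)
  obtain ⟨A, hA⟩ : ∃ A, A = (L * g) ^ 2 := ⟨_, rfl⟩
  have A1 : 1 ≤ A := hA ▸ one_le_pow₀ (one_le_mul_of_one_le_of_one_le L1 g1)
  obtain ⟨C', hC'⟩ : ∃ C', C' = C + 2 * G + 1 + 20 * C * L ^ 2 := ⟨_, rfl⟩
  rw [← hC'] at hm ⊢
  have C0 : 0 ≤ C' := by rw [hC']; positivity
  have lk : K * (g * K) + g * K + D * (g * K) + g ≤ L * g := by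
    have := mul_nonneg (show 0 ≤ D + K by linarith) (zero_le_one.trans g1)
    rw [hL]; linarith
  have gK : K ≤ g * K := le_mul_of_one_le_left K0 g1
  have lk1 : 0 ≤ K * (g * K) := by positivity
  have lk2 : 0 ≤ D * (g * K) := by positivity
  have τe := add_one_le_exp τ
  have big : 20 * C * exp (C * τ) * (A * exp τ) ≤ C' * exp (C' * τ) := by
    rw [hA, hg, mul_pow, ← exp_nat_mul, show 20 * C * exp (C * τ) * (L ^ 2 * exp ((2 : ℕ) * (G * τ)) *
      exp τ) = 20 * C * L ^ 2 * (exp (C * τ) * exp ((2 : ℕ) * (G * τ)) * exp τ) by ring, ← exp_add,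
      ← exp_add]
    refine mul_le_mul (by linarith) (exp_le_exp.2 ?_) (exp_pos _).le (by positivity)
    have : 0 ≤ 20 * C * L ^ 2 * τ := by positivity
    rw [hC']; push_cast; linarith
  have c1 : 1 ≤ C * exp (C * τ) := one_le_mul_of_one_le_of_one_le C1 (one_le_exp (by positivity))
  have Am : A ≤ η ^ 2 * m := by
    have := mul_le_mul c1 (le_mul_of_one_le_right (zero_le_one.trans A1)
      (by linarith : 1 ≤ exp τ)) (zero_le_one.trans A1) (zero_le_one.trans c1)
    linarith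
  obtain ⟨E, hE⟩ : ∃ E, E = C' * exp (C' * τ) * (ε ^ 2 + η ^ 2 * (T.card + 1)) / 2 := ⟨_, rfl⟩
  have R1 : opn (Rw T W)ᵀ ≤ K := by rw [opn_transpose, Rw_eq]; exact (opn_sand _ _ W).trans hW.2.1
  have main : ∀ w : V n, nrm w ≤ 1 → PT T *ᵥ w = w → (∀ l, Yf W ρ w v x l ^ 2 ≤ E) ∧
      (∀ j, (bb W (Yf W ρ w v) x j - (ρ v • w) j) ^ 2 ≤ E) ∧
      (Yf W ρ w v x - Mg (cav T W) v x *ᵥ (Rw T W)ᵀ *ᵥ w) ⬝ᵥ
        (Yf W ρ w v x - Mg (cav T W) v x *ᵥ (Rw T W)ᵀ *ᵥ w) ≤ E := fun w w1 wT => by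
    have ap : ∀ {M : Mx n} {c : ℝ}, opn M ≤ c → nrm (M *ᵥ w) ≤ c := fun hM =>
      (nrm_mulVec_le _ w).trans ((mul_le_of_le_one_right (opn_nonneg _) w1).trans hM)
    set u0 := (Rw T W)ᵀ *ᵥ w with hu0
    have u1 : nrm u0 ≤ K := ap R1
    have z1 : ∀ t ∈ Icc 0 τ, ∀ z, nrm (Mg (cav T W) t z *ᵥ u0) ≤ g * K := fun t ht z =>
      (nrm_mulVec_le _ _).trans (mul_le_mul ((hG n _ a.pos hW'.1 hW'.2.1 t ht.1 z).trans
        (hg ▸ exp_le_exp.2 (mul_le_mul_of_nonneg_left ht.2 G0))) u1 (nrm_nonneg _) (by positivity))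
    have z2 : ∀ t ∈ Icc 0 τ, ∀ z, nrm (am (cav T W) z *ᵥ Mg (cav T W) t z *ᵥ u0) ^ 2 ≤ A :=
      fun t ht z => hA ▸ pow_le_pow_left₀ (nrm_nonneg _) ((nrm_mulVec_le _ _).trans
        ((mul_le_mul (hD n _ hW' z).2.2.2.2.1 (z1 t ht z) (nrm_nonneg _) (by positivity)).trans (by
          linarith))) 2
    have c0 : ∀ t ∈ Icc 0 τ, ∀ z, nrm (cc (cav T W) z * Mg (cav T W) t z *ᵥ u0) ≤ g * K :=
      fun t ht z => (nrm_mono zero_le_one fun i => by
        rw [Pi.mul_apply, abs_mul]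
        exact mul_le_mul_of_nonneg_right (abs_le.2 ⟨by
          linarith [show 0 ≤ cc (cav T W) z i from Coef54.t1_nn _], Coef54.t1_le _⟩)
          (abs_nonneg _)).trans ((one_mul _).trans_le (z1 t ht z))
    have hZ := fl_grad (F := fun t => sg (mu (cav T W)) t fun z => u0 ⬝ᵥ sv z) (r := fun _ => 0)
      hW'.1 τ fun s z i => by
        simpa using Da.Gr.hasDerivAt_grad (hasDerivAt_sg a.pos (Bas66.mu_pos _) _ · s) z i
    have e0 : ∀ t, grad (sg (mu (cav T W)) t fun z => u0 ⬝ᵥ sv z) =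
        fun z => Mg (cav T W) t z *ᵥ u0 := fun t => funext (grad_sg_lin _ u0 t)
    simp only [sub_zero, e0] at hZ
    have ε2 : ε ^ 2 ≤ A * ε ^ 2 := le_mul_of_one_le_left (sq_nonneg ε) A1
    have i1 : ∀ (S : Set (Cube n)) z, S.indicator (1 : Cube n → ℝ) z ≤ 1 := fun S z => by
      by_cases h : z ∈ S <;> simp [h]
    refine hC n W a.pos hW a.dg T u0 (fun t => ρ t • w) (Yf W ρ w) _ τ η (5 * (A * ε ^ 2))
      (fun z => A * {z | ¬ G3 W m ε τ T z}.indicator 1 z) (fun z => 5 * (A * exp τ) * B.indicator 1 z)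
      η0 (by positivity) (fun z => mul_nonneg (by positivity) (ind_nn _ z))
      (fun z => mul_nonneg (by positivity) (ind_nn _ z))
      (fl_grad hW.1 τ (hasDerivAt_Yf a.pos W a.cont w)) hZ (fun z => by rw [Mg_zero a.pos, one_mulVec])
      (fun z => ?_) (fun t ht z => ?_) (fun t ht z => ?_) v hv x E ?_
    · have h1 : nrm (Yf W ρ w 0 z - u0) ≤ ε := by
        refine le_trans (le_of_eq ?_) (ap (hS T T hT hT))
        rw [Yf_zero a.pos, hu0, Rw_eq, transpose_mul, transpose_mul, PT, PT, diagonal_transpose,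
          diagonal_transpose, ← PT, ← PT, hW.1, ← sub_mulVec, ← mul_assoc]
        conv_lhs => rw [← wT, mulVec_mulVec, sub_mul, mul_assoc _ (PT T), PT_mul, Finset.inter_self,
          ← sub_mul, ← one_sub_mul, ← PT_add T, add_sub_cancel_right]
      have h2 := exc_le η0 (z := u0) (ε := ε) (show _ ≤ A from hA ▸ pow_le_pow_left₀ (nrm_nonneg _)
        (u1.trans (by linarith)) 2) Am fun S hS' => by
          refine le_trans (le_of_eq ?_) (ap (hS (S ∩ Tᶜ) T (le_trans (Nat.cast_le.2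
            (Finset.card_le_card Finset.inter_subset_left)) hS') hT))
          rw [hu0, Rw_eq, transpose_mul, transpose_mul, PT, PT, PT, diagonal_transpose,
            diagonal_transpose, ← PT, ← PT, ← PT, hW.1, mulVec_mulVec, ← mul_assoc, ← mul_assoc, PT_mul]
      rw [← nrm_sq]
      linarith [pow_le_pow_left₀ (nrm_nonneg _) h1 2, sq_nonneg ε]
    · by_cases h : G3 W m ε τ T z
      · have := exc_le η0 (z2 t ht z) Am fun S hS' => by
          simpa only [hu0, mulVec_mulVec, ← mul_assoc] using ap (h t ht S hS')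
        refine le_trans this ?_
        simp only [mem_ofPred_eq, h, not_true, not_false_eq_true, indicator_of_notMem, mul_zero]
        linarith [sq_nonneg ε]
      · refine ((exc_le' η0 _).trans (z2 t ht z)).trans ?_
        simp only [mem_ofPred_eq, h, not_false_eq_true, indicator_of_mem, Pi.one_apply]
        linarith [sq_nonneg ε]
    · rw [tot_const_mul]
      change _ + A * oc _ _ _ _ ≤ _
      by_cases h : z ∈ B
      · have h1 : nrm (pT T * W *ᵥ (cc (cav T W) z * Mg (cav T W) t z *ᵥ u0) - ρ t • w) ≤ L * g := by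
          refine (nrm_sub_le _ _).trans ?_
          rw [PT_pT, nrm_smul, abs_of_nonneg (a.bd t ht.1).1]
          have := (nrm_PT T _).trans ((nrm_mulVec_le W _).trans (mul_le_mul hW.2.1 (c0 t ht z)
            (nrm_nonneg _) K0))
          have := mul_le_mul (a.bd t ht.1).2 w1 (nrm_nonneg _) zero_le_one
          linarith
        have h2 : oc (cav T W) {z | ¬ G3 W m ε τ T z} τ z ≤ τ := by
          have := oc_mono a.pos (cav T W) (subset_univ {z | ¬ G3 W m ε τ T z}) τ0 le_rfl z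
          simpa [oc, Pi.one_def, Rec.sg_const a.pos (Bas66.mu_pos _)] using this
        have h3 := pow_le_pow_left₀ (nrm_nonneg _) h1 2
        rw [← hA] at h3
        simp only [h, indicator_of_mem, Pi.one_apply]
        have A0 := zero_le_one.trans A1
        linarith [mul_le_mul_of_nonneg_left (i1 {z | ¬ G3 W m ε τ T z} z) A0, sq_nonneg ε,
          mul_le_mul_of_nonneg_left h2 A0, mul_le_mul_of_nonneg_left τe A0, mul_nonneg A0 τ0]
      · have c := hB z h
        have h1 : nrm (pT T * W *ᵥ (cc (cav T W) z * Mg (cav T W) t z *ᵥ u0) - ρ t • w) ≤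
            ε + ε * (L * g) := by
          refine le_trans (le_of_eq ?_) ((nrm_add_le _ _).trans (add_le_add (ap (c.g1 t ht))
            ((nrm_mulVec_le _ _).trans (mul_le_mul (hS T T hT hT) ((c0 t ht z).trans (by
              linarith)) (nrm_nonneg _) ε0.le))))
          congr 1
          rw [PT_pT, sub_mulVec, smul_mulVec, wT, ← mulVec_mulVec, ← mulVec_mulVec, ← mulVec_mulVec,
            ← hu0, show Matrix.diagonal (cc (cav T W) z) *ᵥ Mg (cav T W) t z *ᵥ u0 =
              cc (cav T W) z * Mg (cav T W) t z *ᵥ u0 from funext fun i => mulVec_diagonal _ _ i,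
            sub_add_eq_add_sub, ← add_mulVec, Rw_eq, ← mul_add, add_comm, PT_add, mul_one,
            mulVec_mulVec]
        have h3 := pow_le_pow_left₀ (nrm_nonneg _) h1 2
        simp only [mem_ofPred_eq, c.g3, h, not_true, not_false_eq_true, indicator_of_notMem, mul_zero]
        linarith [mul_le_mul_of_nonneg_left c.g5 (zero_le_one.trans A1), sq_nonneg (ε - ε * (L * g)), show (ε * (L * g)) ^ 2 = A * ε ^ 2 by
          rw [hA]; ring]
    · rw [tot_const_mul, hE, indicator_of_notMem hx, mul_zero, add_zero]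
      change _ * (_ + _ * oc _ _ _ _) ≤ _
      have h1 : 5 * (A * ε ^ 2) + η ^ 2 * (T.card + 1) + 5 * (A * exp τ) * oc W B τ x ≤
          10 * (A * exp τ) * (ε ^ 2 + η ^ 2 * (T.card + 1)) := by
        have p : 0 ≤ η ^ 2 * ((T.card : ℝ) + 1) := by positivity
        have q : A ≤ A * exp τ := le_mul_of_one_le_right (by positivity) (by linarith)
        linarith [mul_le_mul_of_nonneg_left ho (show 0 ≤ A * exp τ by positivity),
          mul_le_mul_of_nonneg_right q (sq_nonneg ε), mul_le_mul_of_nonneg_right (A1.trans q) p]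
      linarith [mul_le_mul_of_nonneg_left h1 (zero_le_one.trans c1), mul_le_mul_of_nonneg_right big
        (show 0 ≤ ε ^ 2 + η ^ 2 * ((T.card : ℝ) + 1) by positivity)]
  obtain ⟨e, he⟩ : ∃ e, e = C' * exp (C' * τ) * (√ε + η * √(T.card + 1)) := ⟨_, rfl⟩
  rw [← he]
  have c2 : 20 ≤ C' * exp (C' * τ) := by
    linarith [one_le_mul_of_one_le_of_one_le c1 (one_le_mul_of_one_le_of_one_le A1
      (by linarith : 1 ≤ exp τ))]
  have E0 : 0 ≤ E := by rw [hE]; positivity
  have Ee : 2 * ε + 2 * E ≤ e ^ 2 := by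
    have h1 : ε + η ^ 2 * (T.card + 1) ≤ (√ε + η * √(T.card + 1)) ^ 2 := by
      rw [add_sq, mul_pow, sq_sqrt ε0.le, sq_sqrt (by positivity)]
      have : 0 ≤ 2 * √ε * (η * √(T.card + 1 : ℝ)) := by positivity
      linarith
    have p : 0 ≤ η ^ 2 * ((T.card : ℝ) + 1) := by positivity
    have h2 : ε ^ 2 ≤ ε := pow_le_of_le_one ε0.le ε1 two_ne_zero
    rw [he, hE, mul_pow]
    generalize C' * exp (C' * τ) = c at c2 ⊢
    refine le_trans ?_ (mul_le_mul_of_nonneg_left h1 (sq_nonneg c))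
    have c0 : 0 ≤ c := by linarith
    have h3 : c + 2 ≤ c ^ 2 := by linarith [mul_le_mul_of_nonneg_left c2 c0]
    linarith [mul_le_mul_of_nonneg_right h3 (add_nonneg ε0.le p), mul_le_mul_of_nonneg_left h2 c0]
  have E1 : E ≤ e ^ 2 := by linarith
  have sp : ∀ {S : Finset (Fin n)} {w : V n}, S ⊆ T → (∀ k ∉ S, w k = 0) → PT T *ᵥ w = w :=
    fun hS hw => funext fun k => by
      rw [PT_mulVec]; split_ifs with hk
      · rfl
      · exact (hw k fun h => hk (hS h)).symm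
  have om : ∀ {w : V n}, PT T *ᵥ w = w → Om W ρ T v x *ᵥ w = Yf W ρ w v x := fun hw => by
    rw [Om_mulVec a.pos W a.cont, hw]
  refine ⟨fun l => ?_, fun j => ?_, fun k hk => ?_, ?_⟩
  · refine (sq_le_of_unit (a := Om W ρ T v x l) E0 fun w w1 _ => ?_).trans E1
    have := (main (PT T *ᵥ w) ((nrm_PT T w).trans w1) (by
      rw [mulVec_mulVec, PT_mul, Finset.inter_self])).1 l
    rwa [← Om_mulVec a.pos W a.cont] at this
  · refine (sq_le_of_unit (a := (am W x * Om W ρ T v x) j) E0 fun w w1 hw => ?_).trans E1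
    have h := sp (Finset.erase_subset j T) hw
    have := (main w w1 h).2.1 j
    rwa [Pi.smul_apply, hw j (Finset.notMem_erase j T), smul_zero, sub_zero, bb, ← om h,
      mulVec_mulVec] at this
  · have h := sp (w := Pi.single k 1) (Finset.singleton_subset_iff.2 hk) fun i hi =>
      Pi.single_eq_of_ne (by simpa using hi) _
    have := (main _ (nrm_single k).le h).2.1 k
    rw [bb, ← om h, mulVec_mulVec, mulVec_single_one] at this
    refine abs_le_of_sq_le_sq (le_trans (le_of_eq ?_) (this.trans E1)) (by rw [he]; positivity)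
    simp
  · have g2 := (hB x hx).g2 v hv
    have h : opn (Om W ρ T v x) ≤ opn (Mg (cav T W) v x * (Rw T W)ᵀ) + √E := by
      refine opn_le_of_nrm (add_nonneg (opn_nonneg _) (sqrt_nonneg _)) fun w => ?_
      rcases (nrm_nonneg w).eq_or_lt with z | z
      · simp [nrm_eq_zero.1 z.symm]
      have w1 : nrm (PT T *ᵥ ((nrm w)⁻¹ • w)) ≤ 1 := (nrm_PT T _).trans (by
        rw [nrm_smul, abs_of_pos (inv_pos.2 z), inv_mul_cancel₀ z.ne'])
      have := (main _ w1 (by rw [mulVec_mulVec, PT_mul, Finset.inter_self])).2.2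
      rw [← Om_mulVec a.pos W a.cont, ← nrm_sq, mulVec_mulVec] at this
      have h1 := (nrm_mulVec_le (Mg (cav T W) v x * (Rw T W)ᵀ) _).trans
        (mul_le_of_le_one_right (opn_nonneg _) w1)
      have h2 := nrm_add_le (Om W ρ T v x *ᵥ ((nrm w)⁻¹ • w) - (Mg (cav T W) v x * (Rw T W)ᵀ) *ᵥ
        PT T *ᵥ ((nrm w)⁻¹ • w)) ((Mg (cav T W) v x * (Rw T W)ᵀ) *ᵥ PT T *ᵥ ((nrm w)⁻¹ • w))
      rw [sub_add_cancel, mulVec_smul, nrm_smul, abs_of_pos (inv_pos.2 z)] at h2
      rw [mul_comm, ← inv_mul_le_iff₀ z]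
      have h3 := le_sqrt_of_sq_le this
      rw [mulVec_smul] at h3
      linarith
    refine (pow_le_pow_left₀ (opn_nonneg _) h 2).trans ?_
    linarith [sq_sqrt E0, sq_nonneg (opn (Mg (cav T W) v x * (Rw T W)ᵀ) - √E)]

end Crest.Agent.T157.S6

end
end

-- ▼ part T157/S6St_2
section

/-!
# Row 157, block S6 (helper2): (ST), stability and concentration of `M = D P_v s`
-/

set_option autoImplicit false

noncomputable section

namespace Crest.Agent.T157.S6t

open Matrix Real Finset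
open Crest.Agent.T157.E hiding mean
open Crest.Agent.T157.Eig
open Crest.Agent.T157.Tap (V Mx)
open Crest.Agent.T157.Rec (grad fl grad_eq grad_sub grad_add grad_const grad_const_mul grad_lin GR)
open Crest.Agent.T157.Da.Gr
open Crest.Agent.T157.Chain22 (sg IsP mean)
open Crest.Agent.T157.Reg

variable {n : ℕ}

/-- rows and columns of `T` zeroed -/
def cav (T : Finset (Fin n)) (W : Mx n) : Mx n := of fun i j => if i ∈ T ∨ j ∈ T then 0 else W i j
/-- `M i a = D_i P_v s_a` -/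
def Mg (W : Mx n) (v : ℝ) (x : Cube n) : Mx n :=
  of fun i a => grad (sg (mu W) v fun z => sv z a) x i
/-- the stacked Hessians `(a, i), j ↦ D_j D_i P_v s_a` -/
def Hs (W : Mx n) (v : ℝ) (x : Cube n) : Matrix (Fin n × Fin n) (Fin n) ℝ :=
  of fun p j => grad (fun z => Mg W v z p.2 p.1) x j
/-- `tr (c M) / n` -/
def vr (W : Mx n) (v : ℝ) (x : Cube n) : ℝ := (∑ i, (1 - tt W 0 x i ^ 2) * Mg W v x i i) / n
/-- `|M|_F² / n` -/
def Fq (W : Mx n) (v : ℝ) (x : Cube n) : ℝ := fp (Mg W v x) (Mg W v x) / n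
/-- averaged Dirichlet form of `P_v s_a` -/
def Ee (W : Mx n) (v : ℝ) : ℝ := (∑ a, dir (mu W) (sg (mu W) v fun z => sv z a)) / n
/-- the constant of the gradient estimate -/
def Gc (K : ℝ) : ℝ := 4 * K + 8 * K ^ 2 + 4 * exp (4 * K) * K ^ 2

variable {W : Mx n} {K : ℝ}

theorem cav_symm (hW : Wᵀ = W) (T : Finset (Fin n)) : (cav T W)ᵀ = cav T W := by
  ext i j
  have : W j i = W i j := congrFun (congrFun hW i) j
  simp [cav, or_comm, this]


theorem opn_cav (T : Finset (Fin n)) (W : Mx n) : opn (cav T W) ≤ opn W := by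
  have e : cav T W = diagonal (fun i => if i ∈ T then (0 : ℝ) else 1) * W *
      diagonal (fun i => if i ∈ T then (0 : ℝ) else 1) := by
    ext i j
    by_cases hi : i ∈ T <;> by_cases hj : j ∈ T <;> simp [cav, hi, hj]
  have d : opn (diagonal fun i : Fin n => if i ∈ T then (0 : ℝ) else 1) ≤ 1 :=
    opn_diagonal_le zero_le_one fun i => by split_ifs <;> simp
  rw [e]
  exact (opn_mul_le _ _).trans ((mul_le_of_le_one_right (opn_nonneg _) d).trans
    ((opn_mul_le _ _).trans (mul_le_of_le_one_left (opn_nonneg _) d)))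

theorem col_sq {ι κ : Type*} [Fintype ι] [Fintype κ] [DecidableEq ι] [DecidableEq κ]
    (A : Matrix ι κ ℝ) (j : κ) : ∑ p, A p j ^ 2 ≤ opn A ^ 2 := by
  simpa [dotProduct, sq, Pi.single_apply] using mulVec_dot_le A (Pi.single j 1)

theorem row_sq {ι κ : Type*} [Fintype ι] [Fintype κ] [DecidableEq ι] [DecidableEq κ]
    (A : Matrix ι κ ℝ) (i : ι) : ∑ j, A i j ^ 2 ≤ opn A ^ 2 := by
  have := col_sq Aᵀ i
  rwa [opn_transpose] at this

theorem Mg_mulVec (W : Mx n) (v : ℝ) (x : Cube n) (w : V n) :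
    Mg W v x *ᵥ w = grad (sg (mu W) v fun z => w ⬝ᵥ sv z) x := by
  ext i
  have : (sg (mu W) v fun z => w ⬝ᵥ sv z) = fun y => ∑ a, w a * sg (mu W) v (fun z => sv z a) y := by
    funext y
    simp only [dotProduct, Rec.sg_sum, Rec.sg_const_mul]
  rw [this, grad_sum]
  simp only [grad_const_mul, Mg, mulVec, dotProduct, of_apply, Pi.smul_apply, smul_eq_mul, mul_comm]

theorem opn_Mg (hn : 0 < n) (hW : Wᵀ = W) (hK : opn W ≤ K) {v : ℝ} (hv : 0 ≤ v) (x : Cube n) :
    opn (Mg W v x) ^ 2 ≤ exp (Gc K * v) := by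
  have e : exp (Gc K * v / 2) ^ 2 = exp (Gc K * v) := by rw [← exp_nat_mul]; congr 1; push_cast; ring
  rw [← e]
  refine pow_le_pow_left₀ (opn_nonneg _) (opn_le_of_sq (exp_pos _).le fun w => ?_) 2
  have := gr_of hn (ising_pos W 0) (gam2 hW hK 0) v hv (fun z => w ⬝ᵥ sv z) x
  simp only [grad_lin, Rec.sg_const hn (ising_pos W 0)] at this
  rw [e, Mg_mulVec]
  exact this

theorem Hs_symm (W : Mx n) (v : ℝ) (x : Cube n) (a i j : Fin n) :
    Hs W v x (a, i) j = Hs W v x (a, j) i := grad_comm _ x i j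

/-! ### change of the conditional means -/

theorem abs_am (W : Mx n) (x : Cube n) (j i : Fin n) : |am W x j i| ≤ |W i j| := by
  have h := tanh_lip (loc W 0 x i) (loc W 0 (fl x j) i)
  rw [loc_fl, sub_sub_cancel] at h
  have h2 : |if j = i then (0 : ℝ) else 2 * sv x j * W i j| ≤ 2 * |W i j| := by
    split_ifs
    · simp
    · simp [abs_mul, S42.abs_sv]
  simp only [am, of_apply, grad_eq, tt, loc_fl, abs_div, abs_mul, S42.abs_sv, abs_two]
  linarith

theorem th2 (h h' c : ℝ) :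
    |tanh h - tanh (h - c) - (tanh h' - tanh (h' - c))| ≤ 2 * |c| * |h - h'| := by
  have d : ∀ u, HasDerivAt (fun u => tanh u - tanh (u - c))
      (1 - tanh u ^ 2 - (1 - tanh (u - c) ^ 2)) u := fun u =>
    (hasDerivAt_tanh u).sub (by simpa using (hasDerivAt_tanh (u - c)).comp_sub_const u c)
  refine convex_univ.norm_image_sub_le_of_norm_hasDerivWithin_le (C := 2 * |c|)
    (fun u _ => (d u).hasDerivWithinAt) (fun u _ => ?_) (Set.mem_univ h') (Set.mem_univ h)
  have h1 := tanh_lip u (u - c)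
  rw [sub_sub_cancel] at h1
  have h2 : |tanh u + tanh (u - c)| ≤ 2 := (abs_add_le _ _).trans
    (by linarith [abs_tanh_lt_one u, abs_tanh_lt_one (u - c)])
  rw [Real.norm_eq_abs, show 1 - tanh u ^ 2 - (1 - tanh (u - c) ^ 2) =
    -((tanh u + tanh (u - c)) * (tanh u - tanh (u - c))) by ring, abs_neg, abs_mul]
  exact mul_le_mul h2 h1 (abs_nonneg _) zero_le_two

/-- the field of the spins of `T` -/
def fT (T : Finset (Fin n)) (W : Mx n) (x : Cube n) : V n := W *ᵥ fun k => if k ∈ T then sv x k else 0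

theorem fT_sq (hK : opn W ≤ K) (T : Finset (Fin n)) (x : Cube n) :
    ∑ i, fT T W x i ^ 2 ≤ K ^ 2 * T.card := by
  have h := mulVec_dot_le W fun k => if k ∈ T then sv x k else 0
  have e : (fun k => if k ∈ T then sv x k else 0) ⬝ᵥ (fun k => if k ∈ T then sv x k else 0) =
      T.card := by simp [dotProduct, Rec.sv_mul_self]
  rw [e] at h
  refine le_trans (le_of_eq ?_) (h.trans (mul_le_mul_of_nonneg_right
    (pow_le_pow_left₀ (opn_nonneg _) hK 2) (Nat.cast_nonneg _)))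
  simp only [dotProduct, sq, fT]

theorem loc_cav {T : Finset (Fin n)} {i : Fin n} (hi : i ∉ T) (W : Mx n) (x : Cube n) :
    loc W 0 x i - loc (cav T W) 0 x i = fT T W x i := by
  have : ∑ k, W i k * sv x k - ∑ k, (if k ∈ T then 0 else W i k) * sv x k =
      ∑ k, W i k * if k ∈ T then sv x k else 0 := by
    rw [← sum_sub_distrib]; exact sum_congr rfl fun k _ => by split_ifs <;> ring
  simp only [loc, fT, cav, mulVec, dotProduct, of_apply, hi, false_or, if_false, ← this]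
  ring

theorem sum_ind (T : Finset (Fin n)) (c : ℝ) : ∑ i, (if i ∈ T then c else 0) = c * T.card := by
  simp [mul_comm]

theorem de_sq (hK : opn W ≤ K) (T : Finset (Fin n)) (x : Cube n) :
    ∑ i, (tt W 0 x i - tt (cav T W) 0 x i) ^ 2 ≤ (4 + K ^ 2) * T.card := by
  have : ∑ i, (tt W 0 x i - tt (cav T W) 0 x i) ^ 2 ≤
      ∑ i, ((if i ∈ T then (4 : ℝ) else 0) + fT T W x i ^ 2) := sum_le_sum fun i _ => by
    split_ifs with hi
    · nlinarith [abs_le.1 (S42.abs_tt W x i), abs_le.1 (S42.abs_tt (cav T W) x i),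
        sq_nonneg (fT T W x i)]
    · rw [zero_add, ← loc_cav hi]
      exact sq_le_sq.2 (tanh_lip _ _)
  rw [sum_add_distrib, sum_ind] at this
  linarith [fT_sq hK T x]

theorem dde_sq (hK : opn W ≤ K) (T : Finset (Fin n)) (x : Cube n) :
    ∑ j, ∑ i, (am W x j i - am (cav T W) x j i) ^ 2 ≤ (2 * K ^ 2 + 4 * K ^ 4) * T.card := by
  have k2 := pow_le_pow_left₀ (opn_nonneg _) hK 2
  have h : ∀ j i, (am W x j i - am (cav T W) x j i) ^ 2 ≤ (if i ∈ T then W i j ^ 2 else 0) +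
      (if j ∈ T then W i j ^ 2 else 0) + 4 * fT T W x i ^ 2 * W i j ^ 2 := fun j i => by
    by_cases hij : i ∈ T ∨ j ∈ T
    · have a : am (cav T W) x j i = 0 := by simpa [cav, hij] using abs_am (cav T W) x j i
      have b := sq_le_sq.2 (abs_am W x j i)
      have c : 0 ≤ 4 * fT T W x i ^ 2 * W i j ^ 2 := by positivity
      have d := sq_nonneg (W i j)
      rw [a, sub_zero]
      split_ifs <;> first | linarith | tauto
    · have hi : i ∉ T := fun h => hij (.inl h)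
      have hj : j ∉ T := fun h => hij (.inr h)
      have e : cav T W i j = W i j := by simp [cav, hij]
      have t := th2 (loc W 0 x i) (loc (cav T W) 0 x i) (if j = i then 0 else 2 * sv x j * W i j)
      have h2 : |if j = i then (0 : ℝ) else 2 * sv x j * W i j| ≤ 2 * |W i j| := by
        split_ifs
        · simp
        · simp [abs_mul, S42.abs_sv]
      rw [loc_cav hi] at t
      rw [if_neg hi, if_neg hj, zero_add, zero_add, show 4 * fT T W x i ^ 2 * W i j ^ 2 =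
        (2 * fT T W x i * W i j) ^ 2 by ring, sq_le_sq]
      simp only [am, of_apply, grad_eq, tt, loc_fl, e]
      rw [← sub_div, ← mul_sub, abs_div, abs_mul, S42.abs_sv, abs_mul, abs_mul, abs_two]
      nlinarith [mul_le_mul_of_nonneg_right h2 (abs_nonneg (fT T W x i))]
  refine (sum_le_sum fun j _ => sum_le_sum fun i _ => h j i).trans ?_
  have a : ∑ j, ∑ i, (if i ∈ T then W i j ^ 2 else 0) ≤ K ^ 2 * T.card := by
    rw [sum_comm, ← sum_ind]
    exact sum_le_sum fun i _ => by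
      split_ifs
      · exact (row_sq W i).trans k2
      · simp
  have b : ∑ j, ∑ i, (if j ∈ T then W i j ^ 2 else 0) ≤ K ^ 2 * T.card := by
    rw [← sum_ind]
    exact sum_le_sum fun j _ => by
      split_ifs
      · exact (col_sq W j).trans k2
      · simp
  have c : ∑ j, ∑ i, 4 * fT T W x i ^ 2 * W i j ^ 2 ≤ 4 * K ^ 2 * ∑ i, fT T W x i ^ 2 := by
    rw [sum_comm, mul_sum]
    exact sum_le_sum fun i _ => by
      rw [← mul_sum]
      nlinarith [mul_le_mul_of_nonneg_left ((row_sq W i).trans k2) (sq_nonneg (fT T W x i))]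
  simp only [sum_add_distrib]
  nlinarith [mul_le_mul_of_nonneg_left (fT_sq hK T x) (sq_nonneg K)]

/-! ### stability under removal of `T` -/

theorem three_sq (x : Cube n) (j : Fin n) (A B C : ℝ) :
    (A + B - 2 * sv x j * C) ^ 2 ≤ 3 * (A ^ 2 + B ^ 2 + 4 * C ^ 2) := by
  have : (sv x j * C) ^ 2 = C ^ 2 := by rw [mul_pow, sq (sv x j), Rec.sv_mul_self, one_mul]
  nlinarith [sq_nonneg (A - B), sq_nonneg (A + 2 * (sv x j * C)), sq_nonneg (B + 2 * (sv x j * C))]

theorem src_le (W : Mx n) (s : ℝ) (x : Cube n) (de : Cube n → V n) :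
    ∑ a, grad (fun z => ∑ i, de z i * Mg W s z i a) x ⬝ᵥ grad (fun z => ∑ i, de z i * Mg W s z i a) x ≤
      3 * (opn (Hs W s x) ^ 2 * ∑ i, de x i ^ 2 + (opn (Mg W s x) ^ 2 + 4 * opn (Hs W s x) ^ 2) *
        ∑ j, ∑ i, grad (fun z => de z i) x j ^ 2) := by
  set X := Hs W s x
  set D : Fin n → Fin n → ℝ := fun j i => grad (fun z => de z i) x j with hD
  have e : ∀ a j, grad (fun z => ∑ i, de z i * Mg W s z i a) x j = (X *ᵥ de x) (a, j) +
      ((Mg W s x)ᵀ *ᵥ D j) a - 2 * sv x j * ∑ i, D j i * X (a, i) j := fun a j => by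
    simp only [grad_sum, grad_mul, mulVec, dotProduct, transpose_apply, mul_sum, ← sum_add_distrib,
      ← sum_sub_distrib]
    exact sum_congr rfl fun i _ => by
      rw [show X (a, j) i = X (a, i) j from Hs_symm W s x a j i, mul_comm (de x i)]; rfl
  have hA := mulVec_dot_le X (de x)
  have hB : ∑ j, ∑ a, ((Mg W s x)ᵀ *ᵥ D j) a ^ 2 ≤ ∑ j, opn (Mg W s x) ^ 2 * ∑ i, D j i ^ 2 :=
    sum_le_sum fun j _ => by
      simpa only [opn_transpose, dotProduct, ← sq] using mulVec_dot_le (Mg W s x)ᵀ (D j)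
  have hC : ∑ j, ∑ a, (∑ i, D j i * X (a, i) j) ^ 2 ≤ ∑ j, opn X ^ 2 * ∑ i, D j i ^ 2 :=
    sum_le_sum fun j _ => by
      refine (sum_le_sum fun a _ => sum_mul_sq_le_sq_mul_sq _ _ _).trans ?_
      rw [← mul_sum, mul_comm, ← Fintype.sum_prod_type' (fun a i => X (a, i) j ^ 2)]
      exact mul_le_mul_of_nonneg_right (col_sq X j) (by positivity)
  simp only [dotProduct, ← sq, Fintype.sum_prod_type] at hA
  rw [sum_comm, ← mul_sum] at hB hC
  simp only [dotProduct, ← sq, e]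
  refine (sum_le_sum fun a _ => sum_le_sum fun j _ => three_sq x j _ _ _).trans ?_
  simp only [← mul_sum, sum_add_distrib]
  nlinarith

theorem Gc_nonneg (hK : 0 ≤ K) : 0 ≤ Gc K := by unfold Gc; positivity

/-- comparison of two dynamics -/
theorem stab (hn : 0 < n) {W' : Mx n} (hW : Wᵀ = W) (hW' : W'ᵀ = W') (hK' : opn W' ≤ K) {v S : ℝ}
    (hv : 0 ≤ v) (hS : 0 ≤ S) (h : ∀ s ∈ Set.Icc 0 v, ∀ x,
      ∑ a, grad (fun z => ∑ i, (tt W 0 z i - tt W' 0 z i) * Mg W s z i a) x ⬝ᵥ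
        grad (fun z => ∑ i, (tt W 0 z i - tt W' 0 z i) * Mg W s z i a) x ≤ S) (x : Cube n) :
    fp (Mg W v x - Mg W' v x) (Mg W v x - Mg W' v x) ≤ S * v * exp ((Gc K + 1) * v) := by
  set G : Fin n → ℝ → Cube n → ℝ := fun a s z =>
    sg (mu W) s (fun z => sv z a) z - sg (mu W') s (fun z => sv z a) z with hG
  have dG : ∀ a s z, HasDerivAt (fun u => G a u z) (gen (mu W') (G a s) z +
      ∑ i, (tt W 0 z i - tt W' 0 z i) * Mg W s z i a) s := fun a s z => by
    refine ((Chain22.hasDerivAt_sg hn (S42.mu_pos W) _ z s).sub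
      (Chain22.hasDerivAt_sg hn (S42.mu_pos W') _ z s)).congr_deriv ?_
    rw [hG, S6b.gen_sub]
    simp only [mu, gen_ising hW, gen_ising hW', Mg, of_apply, ← sum_sub_distrib, ← sum_add_distrib]
    exact sum_congr rfl fun i _ => by ring
  have dΦ : ∀ s z, HasDerivAt (fun u => ∑ a, grad (G a u) z ⬝ᵥ grad (G a u) z)
      (∑ a, 2 * (grad (G a s) z ⬝ᵥ (grad (gen (mu W') (G a s)) z +
        grad (fun z => ∑ i, (tt W 0 z i - tt W' 0 z i) * Mg W s z i a) z))) s := fun s z =>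
    HasDerivAt.fun_sum fun a _ => by
      refine (HasDerivAt.fun_sum (u := univ) fun i _ =>
        (hasDerivAt_grad (dG a s) z i).mul (hasDerivAt_grad (dG a s) z i)).congr_deriv ?_
      rw [grad_add, dotProduct, mul_sum]
      exact sum_congr rfl fun i _ => by ring
  have k := S6b.cmp_super (S42.mu_pos W') (Φ := fun u z => ∑ a, grad (G a u) z ⬝ᵥ grad (G a u) z)
    (U := fun u _ => S * u * exp ((Gc K + 1) * u)) (g := fun _ _ => S) (C := Gc K + 1) (T := v)
    (U' := fun u _ => S * exp ((Gc K + 1) * u) + S * u * (exp ((Gc K + 1) * u) * (Gc K + 1)))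
    (fun z u _ => (dΦ u z).continuousAt.continuousWithinAt)
    (fun s hs z => .of_deriv (dΦ s z) ?_)
    (fun s _ _ => by
      simpa using ((hasDerivAt_id s).const_mul S).fun_mul
        ((hasDerivAt_id s).const_mul (Gc K + 1)).exp)
    (fun s hs z => ?_) (fun z => ?_) v ⟨hv, le_rfl⟩ x
  · refine le_trans (le_of_eq ?_) k
    rw [fp, sum_comm]
    simp only [hG, grad_sub, dotProduct, Mg, Matrix.sub_apply, of_apply, Pi.sub_apply]
  · have e : gen (mu W') (fun z => ∑ a, grad (G a s) z ⬝ᵥ grad (G a s) z) z =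
        ∑ a, gen (mu W') (fun z => grad (G a s) z ⬝ᵥ grad (G a s) z) z := by
      simp only [mu, gen_ising hW', grad_sum, mul_sum]; exact sum_comm
    refine le_trans ?_ (add_le_add le_rfl (h s ⟨hs.1.le, hs.2⟩ z))
    rw [e, mul_sum, ← sum_add_distrib, ← sum_add_distrib]
    refine sum_le_sum fun a _ => ?_
    have h1 := gam2 hW' hK' 0 (G a s) z
    have h2 := dot_self_nonneg (grad (G a s) z -
      grad (fun z => ∑ i, (tt W 0 z i - tt W' 0 z i) * Mg W s z i a) z)
    simp only [dotProduct_sub, sub_dotProduct] at h2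
    rw [dotProduct_comm (grad (fun z => ∑ i, (tt W 0 z i - tt W' 0 z i) * Mg W s z i a) z)] at h2
    rw [dotProduct_add, mu, Gc]
    linarith
  · have e : 1 ≤ exp ((Gc K + 1) * s) := one_le_exp
      (mul_nonneg (by linarith [Gc_nonneg ((opn_nonneg _).trans hK')]) hs.1.le)
    simp only [mu, gen_ising hW', grad_const, Pi.zero_apply, mul_zero, sum_const_zero]
    nlinarith
  · simp [hG, Chain22.sg_zero hn (S42.mu_pos W), Chain22.sg_zero hn (S42.mu_pos W'), grad_const]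

/-- (ST1) -/
theorem st_fro (hn : 0 < n) (hW : Wᵀ = W) (hK : opn W ≤ K) {v Λ : ℝ} (hv : 0 ≤ v)
    (hX : ∀ s ∈ Set.Icc 0 v, ∀ x, opn (Hs W s x) ≤ Λ) (T : Finset (Fin n)) (x : Cube n) :
    fp (Mg W v x - Mg (cav T W) v x) (Mg W v x - Mg (cav T W) v x) ≤
      (12 + 27 * K ^ 2 + 48 * K ^ 4) * exp ((2 * Gc K + 2) * v) * (1 + Λ ^ 2) * T.card := by
  have K0 : 0 ≤ K := (opn_nonneg _).trans hK
  have G0 := Gc_nonneg K0
  have e1 : 1 ≤ exp (Gc K * v) := one_le_exp (by positivity)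
  refine (stab hn hW (cav_symm hW T) ((opn_cav T W).trans hK) hv
    (S := (12 + 27 * K ^ 2 + 48 * K ^ 4) * exp (Gc K * v) * (1 + Λ ^ 2) * T.card) (by positivity)
    (fun s hs z => (src_le W s z fun z i => tt W 0 z i - tt (cav T W) 0 z i).trans ?_) x).trans ?_
  · have a := pow_le_pow_left₀ (opn_nonneg _) (hX s hs z) 2
    have b := (opn_Mg hn hW hK hs.1 z).trans (exp_le_exp.2 (mul_le_mul_of_nonneg_left hs.2 G0))
    have c := de_sq hK T z
    have d : ∑ j, ∑ i, grad (fun z => tt W 0 z i - tt (cav T W) 0 z i) z j ^ 2 ≤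
        (2 * K ^ 2 + 4 * K ^ 4) * T.card := by
      simp only [grad_sub, Pi.sub_apply]; exact dde_sq hK T z
    have p := mul_le_mul a c (by positivity) (sq_nonneg Λ)
    have q := mul_le_mul (add_le_add b (mul_le_mul_of_nonneg_left a zero_le_four)) d (by positivity)
      (by positivity)
    refine (mul_le_mul_of_nonneg_left (add_le_add p q) zero_le_three).trans ?_
    have t : (0 : ℝ) ≤ T.card := Nat.cast_nonneg _
    generalize exp (Gc K * v) = E at *
    have r : 3 * (Λ ^ 2 * (4 + K ^ 2) + (E + 4 * Λ ^ 2) * (2 * K ^ 2 + 4 * K ^ 4)) ≤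
        (12 + 27 * K ^ 2 + 48 * K ^ 4) * E * (1 + Λ ^ 2) := by
      have : 0 ≤ (12 + 27 * K ^ 2 + 48 * K ^ 4) * Λ ^ 2 * (E - 1) :=
        mul_nonneg (by positivity) (by linarith)
      have : 0 ≤ (12 + 21 * K ^ 2 + 36 * K ^ 4) * E := by positivity
      nlinarith
    nlinarith [mul_le_mul_of_nonneg_right r t]
  · have : exp (Gc K * v) * v * exp ((Gc K + 1) * v) ≤ exp ((2 * Gc K + 2) * v) := by
      rw [show (2 * Gc K + 2) * v = Gc K * v + v + (Gc K + 1) * v by ring, exp_add, exp_add]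
      gcongr
      linarith [add_one_le_exp v]
    have t : 0 ≤ (12 + 27 * K ^ 2 + 48 * K ^ 4) * (1 + Λ ^ 2) * T.card := by positivity
    nlinarith [mul_le_mul_of_nonneg_left this t]

theorem diag_le_fp (A : Mx n) : ∑ i, A i i ^ 2 ≤ fp A A :=
  sum_le_sum fun i _ => by
    rw [sq]; exact single_le_sum (f := fun j => A i j * A i j) (fun _ _ => mul_self_nonneg _) (mem_univ i)

theorem st_vr (hn : 0 < n) (W W' : Mx n) (v : ℝ) (x : Cube n) :
    (vr W v x - vr W' v x) ^ 2 ≤ (8 * opn (Mg W v x) ^ 2 * ∑ i, (tt W 0 x i - tt W' 0 x i) ^ 2 +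
      2 * fp (Mg W v x - Mg W' v x) (Mg W v x - Mg W' v x)) / n := by
  have n0 : (0 : ℝ) < n := by exact_mod_cast hn
  have h := sq_sum_le_card_mul_sum_sq (s := univ) (f := fun i =>
    (1 - tt W 0 x i ^ 2) * Mg W v x i i - (1 - tt W' 0 x i ^ 2) * Mg W' v x i i)
  have h2 : ∑ i, ((1 - tt W 0 x i ^ 2) * Mg W v x i i - (1 - tt W' 0 x i ^ 2) * Mg W' v x i i) ^ 2 ≤
      ∑ i, (8 * opn (Mg W v x) ^ 2 * (tt W 0 x i - tt W' 0 x i) ^ 2 +
        2 * (Mg W v x - Mg W' v x) i i ^ 2) := sum_le_sum fun i _ => by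
    have a := abs_le.1 (S42.abs_tt W x i)
    have b := abs_le.1 (S42.abs_tt W' x i)
    have c := sq_le_sq.2 ((abs_entry_le (Mg W v x) i i).trans (le_abs_self _))
    rw [Matrix.sub_apply]
    generalize tt W 0 x i = t at *
    generalize tt W' 0 x i = t' at *
    generalize Mg W v x i i = p at *
    generalize Mg W' v x i i = q at *
    have d : ((t + t') * (t - t') * p) ^ 2 ≤ 4 * (t - t') ^ 2 * opn (Mg W v x) ^ 2 := by
      rw [mul_pow, mul_pow]
      exact mul_le_mul (mul_le_mul_of_nonneg_right (by nlinarith) (sq_nonneg _)) c (sq_nonneg _)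
        (by positivity)
    have e : ((1 - t' ^ 2) * (p - q)) ^ 2 ≤ (p - q) ^ 2 := by
      rw [mul_pow]
      exact mul_le_of_le_one_left (sq_nonneg _) (pow_le_one₀ (by nlinarith) (by nlinarith))
    nlinarith [sq_nonneg ((t + t') * (t - t') * p + (1 - t' ^ 2) * (p - q))]
  rw [sum_add_distrib, ← mul_sum, ← mul_sum] at h2
  rw [card_univ, Fintype.card_fin] at h
  rw [vr, vr, ← sub_div, ← sum_sub_distrib, div_pow, div_le_div_iff₀ (by positivity) n0]
  nlinarith [mul_le_mul_of_nonneg_left (h2.trans (add_le_add le_rfl (mul_le_mul_of_nonneg_left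
    (diag_le_fp _) zero_le_two))) n0.le]

/-! ### concentration -/

theorem grad_c (W : Mx n) (x : Cube n) (j i : Fin n) : grad (fun z => 1 - tt W 0 z i ^ 2) x j =
    -(2 * (tt W 0 x i * am W x j i)) + 2 * sv x j * am W x j i ^ 2 := by
  simp only [grad_sub, grad_const, sq, Pi.sub_apply, Pi.zero_apply, grad_mul, am, of_apply]; ring

theorem abs_grad_c (W : Mx n) (x : Cube n) (j i : Fin n) :
    grad (fun z => 1 - tt W 0 z i ^ 2) x j ^ 2 ≤ 4 * W i j ^ 2 := by
  have e : grad (fun z => 1 - tt W 0 z i ^ 2) x j =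
      -((tt W 0 x i + tt W 0 (fl x j) i) * am W x j i) := by
    simp only [am, of_apply, grad_eq]; ring
  have a := abs_le.1 (S42.abs_tt W x i)
  have b := abs_le.1 (S42.abs_tt W (fl x j) i)
  rw [e, neg_sq, mul_pow]
  exact mul_le_mul (by nlinarith) (sq_le_sq.2 (abs_am W x j i)) (sq_nonneg _) zero_le_four

theorem vr_lip (hK : opn W ≤ K) (v : ℝ) (x : Cube n) :
    ∑ j, grad (fun z => ∑ i, (1 - tt W 0 z i ^ 2) * Mg W v z i i) x j ^ 2 ≤
      3 * n * ((1 + 16 * K ^ 2) * opn (Hs W v x) ^ 2 +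
        8 * (opn (am W x) ^ 2 + K ^ 4) * opn (Mg W v x) ^ 2) := by
  have k2 := pow_le_pow_left₀ (opn_nonneg _) hK 2
  set X := Hs W v x
  set m := opn (Mg W v x)
  set D : Fin n → Fin n → ℝ := fun j i => grad (fun z => 1 - tt W 0 z i ^ 2) x j with hD
  set y : Fin n × Fin n → ℝ := fun p => if p.1 = p.2 then 1 - tt W 0 x p.2 ^ 2 else 0 with hy
  have hm : ∀ i, |Mg W v x i i| ≤ m := fun i => abs_entry_le _ i i
  have e : ∀ j, grad (fun z => ∑ i, (1 - tt W 0 z i ^ 2) * Mg W v z i i) x j = (Xᵀ *ᵥ y) j +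
      ∑ i, Mg W v x i i * D j i - 2 * sv x j * ∑ i, D j i * X (i, i) j := fun j => by
    have : (Xᵀ *ᵥ y) j = ∑ i, (1 - tt W 0 x i ^ 2) * X (i, i) j := by
      simp [mulVec, dotProduct, hy, Fintype.sum_prod_type, mul_comm]
    simp only [this, grad_sum, grad_mul, mul_sum, ← sum_add_distrib, ← sum_sub_distrib]
    rfl
  have hA : ∑ j, (Xᵀ *ᵥ y) j ^ 2 ≤ opn X ^ 2 * n := by
    have h := mulVec_dot_le Xᵀ y
    have : y ⬝ᵥ y ≤ ∑ _i : Fin n, (1 : ℝ) := by
      simp only [dotProduct, hy, Fintype.sum_prod_type, ite_mul, zero_mul, mul_ite, mul_zero,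
        sum_ite_eq, mem_univ, if_true]
      exact sum_le_sum fun i _ => by
        have := abs_le.1 (S42.abs_tt W x i)
        exact mul_le_one₀ (by nlinarith) (by nlinarith) (by nlinarith)
    simp only [opn_transpose, dotProduct, ← sq, sum_const, card_univ, Fintype.card_fin,
      nsmul_eq_mul, mul_one] at h this
    exact h.trans (mul_le_mul_of_nonneg_left this (sq_nonneg _))
  have hB : ∑ j, (∑ i, Mg W v x i i * D j i) ^ 2 ≤
      ∑ j, (8 * (am W x *ᵥ fun i => tt W 0 x i * Mg W v x i i) j ^ 2 + 8 * (K ^ 4 * m ^ 2)) :=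
    sum_le_sum fun j _ => by
      have a : ∑ i, Mg W v x i i * D j i = -(2 * (am W x *ᵥ fun i => tt W 0 x i * Mg W v x i i) j) +
          2 * (sv x j * ∑ i, Mg W v x i i * am W x j i ^ 2) := by
        simp only [hD, grad_c, mulVec, dotProduct, mul_sum, ← sum_neg_distrib, ← sum_add_distrib]
        exact sum_congr rfl fun i _ => by ring
      have b : |sv x j * ∑ i, Mg W v x i i * am W x j i ^ 2| ≤ |K ^ 2 * m| := by
        rw [abs_mul, S42.abs_sv, one_mul]
        refine (abs_sum_le_sum_abs _ _).trans ((sum_le_sum (g := fun i => m * W i j ^ 2)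
          fun i _ => ?_).trans (le_trans ?_ (le_abs_self _)))
        · rw [abs_mul, abs_sq]
          exact mul_le_mul (hm i) (sq_le_sq.2 (abs_am W x j i)) (sq_nonneg _) (opn_nonneg _)
        · rw [← mul_sum, mul_comm]
          exact mul_le_mul_of_nonneg_right ((col_sq W j).trans k2) (opn_nonneg _)
      have c := sq_le_sq.2 b
      rw [a]
      nlinarith [sq_nonneg ((am W x *ᵥ fun i => tt W 0 x i * Mg W v x i i) j +
        sv x j * ∑ i, Mg W v x i i * am W x j i ^ 2)]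
  have hB2 : ∑ j, (am W x *ᵥ fun i => tt W 0 x i * Mg W v x i i) j ^ 2 ≤
      opn (am W x) ^ 2 * ∑ _i : Fin n, m ^ 2 := by
    have h := mulVec_dot_le (am W x) fun i => tt W 0 x i * Mg W v x i i
    simp only [dotProduct, ← sq] at h
    refine h.trans (mul_le_mul_of_nonneg_left (sum_le_sum fun i _ => ?_) (sq_nonneg _))
    rw [← sq_abs, abs_mul]
    exact pow_le_pow_left₀ (by positivity)
      ((mul_le_of_le_one_left (abs_nonneg _) (S42.abs_tt W x i)).trans (hm i)) 2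
  have hC : ∑ j, (∑ i, D j i * X (i, i) j) ^ 2 ≤ ∑ _j : Fin n, 4 * K ^ 2 * opn X ^ 2 :=
    sum_le_sum fun j _ => by
      refine (sum_mul_sq_le_sq_mul_sq _ _ _).trans (mul_le_mul
        ((sum_le_sum fun i _ => abs_grad_c W x j i).trans ?_) (le_trans ?_ (col_sq X j))
        (by positivity) (by positivity))
      · rw [← mul_sum]; linarith [(col_sq W j).trans k2]
      · rw [Fintype.sum_prod_type]
        exact sum_le_sum fun i _ => single_le_sum (f := fun k => X (i, k) j ^ 2)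
          (fun _ _ => sq_nonneg _) (mem_univ i)
  simp only [e]
  refine (sum_le_sum fun j _ => three_sq x j _ _ _).trans ?_
  simp only [← mul_sum, sum_add_distrib, sum_const, card_univ, Fintype.card_fin,
    nsmul_eq_mul] at hB hB2 hC ⊢
  nlinarith

theorem two_tail {w : Cube n → ℝ} (hn : 0 < n) (hw : ∀ x, 0 < w x) (hK : 0 < K) (h : Ent.AT w K 0)
    {γ : ℝ} (γ0 : 0 < γ) {F : Cube n → ℝ} (hγ : ∀ x, ∑ j, grad F x j ^ 2 ≤ γ) {r : ℝ} (hr : 0 ≤ r) :
    mean (prob w) (Ent.ind fun x => r ≤ |F x - mean (prob w) F|) ≤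
      2 * exp (-(r ^ 2 / (16 * K * γ))) := by
  have hp := Chain22.isP_prob' hw
  have g : ∀ x, ∑ j, (F (fl x j) - F x) ^ 2 ≤ 4 * γ := fun x => by
    have := S42.grad_sq F x
    simp only [dotProduct, ← sq, ← sum_div] at this
    linarith [hγ x]
  have a := S42.tail_le hn hw hK h (γ := 4 * γ) (by positivity) (F := fun x => F x - mean (prob w) F)
    (fun x => by simpa using g x) (by rw [Ent.mean_sub', hp.mean_const, sub_self]) hr
  have b := S42.tail_le hn hw hK h (γ := 4 * γ) (by positivity) (F := fun x => mean (prob w) F - F x)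
    (fun x => by simpa [sub_sq_comm (F x)] using g x)
    (by rw [Ent.mean_sub', hp.mean_const, sub_self]) hr
  rw [show 4 * (K * (4 * γ)) = 16 * K * γ by ring] at a b
  refine le_trans (hp.mean_mono fun x => ?_) ((Ent.mean_add' _ _).trans_le (add_le_add a b) |>.trans
    (by linarith))
  by_cases e : r ≤ |F x - mean (prob w) F|
  · rw [Ent.ind_pos (p := fun x => r ≤ |F x - mean (prob w) F|) e]
    rcases le_abs'.1 e with e | e
    · rw [Ent.ind_pos (p := fun x => r ≤ mean (prob w) F - F x) (by linarith)]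
      linarith [Ent.ind_nonneg (fun x => r ≤ F x - mean (prob w) F) x]
    · rw [Ent.ind_pos (p := fun x => r ≤ F x - mean (prob w) F) e]
      linarith [Ent.ind_nonneg (fun x => r ≤ mean (prob w) F - F x) x]
  · rw [Ent.ind_neg (p := fun x => r ≤ |F x - mean (prob w) F|) e]
    exact add_nonneg (Ent.ind_nonneg _ _) (Ent.ind_nonneg _ _)

/-- upper tail of a self-bounding function -/
theorem sb_tail {w : Cube n → ℝ} (hw : ∀ x, 0 < w x) (hK : 0 < K) (h : Ent.AT w K 0)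
    {f : Cube n → ℝ} {B : ℝ} (hB : 0 < B) (hf : ∀ x, ∑ j, max (f x - f (fl x j)) 0 ^ 2 ≤ B * f x)
    (r : ℝ) : mean (prob w) (Ent.ind fun x => 2 * mean (prob w) f + r ≤ f x) ≤
      exp (-(r / (K * B))) := by
  have hp := Chain22.isP_prob' hw
  set A := Ent.ind fun x => 2 * mean (prob w) f + r ≤ f x with hA
  rcases le_or_gt (mean (prob w) A) 0 with h0 | h0
  · exact h0.trans (exp_pos _).le
  have hv : IsP fun x => (mean (prob w) A)⁻¹ * (prob w x * A x) :=
    ⟨fun x => mul_nonneg (inv_pos.2 h0).le (mul_nonneg (hp.nn x) (Ent.ind_nonneg _ _)), by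
      rw [← mul_sum]; exact inv_mul_cancel₀ h0.ne'⟩
  have h1 := Sb51.gen hw hK h f hB hf hv
  have h2 := Ent.kl_le_log hv hp (M := (mean (prob w) A)⁻¹) fun x => mul_le_mul_of_nonneg_left
    (mul_le_of_le_one_right (hp.nn x) (Ent.ind_le_one _ _)) (inv_pos.2 h0).le
  have h3 : 2 * mean (prob w) f + r ≤ mean (fun x => (mean (prob w) A)⁻¹ * (prob w x * A x)) f := by
    rw [← hv.mean_const (2 * mean (prob w) f + r)]
    refine sum_le_sum fun x _ => ?_
    by_cases e : 2 * mean (prob w) f + r ≤ f x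
    · exact mul_le_mul_of_nonneg_left e (hv.nn x)
    · beta_reduce
      rw [show A x = 0 from Ent.ind_neg (p := fun x => 2 * mean (prob w) f + r ≤ f x) e]; simp
  rw [← exp_log h0, exp_le_exp, le_neg, div_le_iff₀ (by positivity)]
  rw [log_inv] at h2
  nlinarith [mul_le_mul_of_nonneg_left h2 (mul_pos hK hB).le]

theorem Fq_sb (hn : 0 < n) (W : Mx n) (v : ℝ) (x : Cube n) :
    ∑ j, max (Fq W v x - Fq W v (fl x j)) 0 ^ 2 ≤ 16 * opn (Hs W v x) ^ 2 / n * Fq W v x := by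
  have n0 : (0 : ℝ) < n := by exact_mod_cast hn
  set y : Fin n × Fin n → ℝ := fun p => Mg W v x p.2 p.1 with hy
  have h := mulVec_dot_le (Hs W v x)ᵀ y
  have e : y ⬝ᵥ y = fp (Mg W v x) (Mg W v x) := by
    rw [dotProduct, Fintype.sum_prod_type, sum_comm]; rfl
  rw [opn_transpose, e] at h
  have h2 : ∑ j, max (Fq W v x - Fq W v (fl x j)) 0 ^ 2 ≤
      ∑ j, 16 / n ^ 2 * (((Hs W v x)ᵀ *ᵥ y) j * ((Hs W v x)ᵀ *ᵥ y) j) := sum_le_sum fun j _ => by
    have a : fp (Mg W v x) (Mg W v x) - fp (Mg W v (fl x j)) (Mg W v (fl x j)) ≤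
        4 * (sv x j * ((Hs W v x)ᵀ *ᵥ y) j) := by
      simp only [fp, mulVec, dotProduct, transpose_apply, Fintype.sum_prod_type]
      rw [sum_comm (f := fun a i => Hs W v x (a, i) j * y (a, i))]
      simp only [mul_sum, ← sum_sub_distrib]
      refine sum_le_sum fun i _ => sum_le_sum fun a _ => ?_
      have := val_fl (fun z => Mg W v z i a) x j
      rw [this]
      change _ ≤ 4 * (sv x j * (grad (fun z => Mg W v z i a) x j * Mg W v x i a))
      nlinarith [sq_nonneg (sv x j * grad (fun z => Mg W v z i a) x j)]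
    have b : max (Fq W v x - Fq W v (fl x j)) 0 ≤ |4 / n * ((Hs W v x)ᵀ *ᵥ y) j| := by
      refine max_le ?_ (abs_nonneg _)
      rw [Fq, Fq, ← sub_div, abs_mul, abs_of_pos (by positivity : 0 < 4 / (n : ℝ)), div_mul_eq_mul_div]
      refine div_le_div_of_nonneg_right (a.trans (mul_le_mul_of_nonneg_left
        ((le_abs_self _).trans_eq ?_) zero_le_four)) n0.le
      rw [abs_mul, S42.abs_sv, one_mul]
    refine (pow_le_pow_left₀ (le_max_right _ _) b 2).trans_eq ?_
    rw [sq_abs]; ring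
  rw [← mul_sum] at h2
  refine h2.trans ((mul_le_mul_of_nonneg_left h (by positivity)).trans_eq ?_)
  rw [Fq]; ring

theorem mean_Fq (hn : 0 < n) (hW : Wᵀ = W) {v m R : ℝ} (hm : ∀ x, opn (Mg W v x) ^ 2 ≤ m) :
    mean (prob (mu W)) (Fq W v) ≤ exp (2 * R) * Ee W v +
      m / n * mean (prob (mu W)) fun x => ∑ k, if R < |loc W 0 x k| then (1 : ℝ) else 0 := by
  have n0 : (0 : ℝ) < n := by exact_mod_cast hn
  have e : exp (2 * R) * Ee W v = mean (prob (mu W)) fun x =>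
      exp (2 * R) / n * ∑ a, ∑ k, (1 - tt W 0 x k ^ 2) * Mg W v x k a ^ 2 := by
    rw [Ent.mean_const_mul, Ent.mean_sum', Ee]
    simp only [basStmt.dir_eq n W hW, Mg, of_apply]
    ring
  rw [e, ← Ent.mean_const_mul, ← Ent.mean_add']
  refine (S42.isP_mu W).mean_mono fun x => ?_
  rw [Fq, div_mul_eq_mul_div, div_mul_eq_mul_div, ← add_div, sum_comm, mul_sum, mul_sum,
    ← sum_add_distrib]
  refine div_le_div_of_nonneg_right (sum_le_sum fun k _ => ?_) n0.le
  have c := sech_nonneg (loc W 0 x k)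
  have r := (row_sq (Mg W v x) k).trans (hm x)
  have s : 0 ≤ ∑ a, Mg W v x k a ^ 2 := by positivity
  simp only [← sq, ← mul_sum, tt]
  split_ifs with h
  · linarith [mul_nonneg (exp_pos (2 * R)).le (mul_nonneg c s)]
  · have t := sech_le (loc W 0 x k) 0
    rw [zero_sub, abs_neg, tanh_zero] at t
    have u : exp (2 * |loc W 0 x k|) ≤ exp (2 * R) := exp_le_exp.2 (by linarith [not_lt.1 h])
    nlinarith [mul_le_mul_of_nonneg_right (t.trans (mul_le_mul_of_nonneg_right u c)) s]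

/-- **(ST)** -/
def StStmt : Prop := ∀ K > (0 : ℝ), ∃ C ≥ (1 : ℝ), ∀ (n : ℕ) (W : Mx n), 0 < n → Nice W K →
  ∀ v Λ : ℝ, 0 ≤ v → (∀ T x, opn (Mg (cav T W) v x) ≤ exp (C * v)) ∧
  ((∀ s ∈ Set.Icc 0 v, ∀ x, opn (Hs W s x) ≤ Λ) →
  (∀ T x, fp (Mg W v x - Mg (cav T W) v x) (Mg W v x - Mg (cav T W) v x) ≤
      C * exp (C * v) * (1 + Λ ^ 2) * T.card ∧
    (vr W v x - vr (cav T W) v x) ^ 2 ≤ C * exp (C * v) * (1 + Λ ^ 2) * T.card / n) ∧
  (Ent.AT (mu W) K 0 → ∀ r ≥ (0 : ℝ),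
    mean (prob (mu W)) (Ent.ind fun x => r ≤ |vr W v x - mean (prob (mu W)) (vr W v)|) ≤
      2 * exp (-(r ^ 2 * n / (C * exp (C * v) * (1 + Λ ^ 2)))) ∧
    mean (prob (mu W)) (Ent.ind fun x => 2 * mean (prob (mu W)) (Fq W v) + r ≤ Fq W v x) ≤
      exp (-(r * n / (C * (1 + Λ ^ 2)))) ∧
    mean (prob (mu W)) (Fq W v) ≤ exp (2 * r) * Ee W v + 2 * exp (C * v) * exp (-(r ^ 2 / C))))

theorem stStmt : StStmt := fun K K0 => by
  obtain ⟨A, A1, hA⟩ := coefStmt K
  obtain ⟨P, P1, hP⟩ := p4Glue toolStmt basStmt K K0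
  have G0 := Gc_nonneg K0.le
  obtain ⟨C, C1, c1, c2, c3, c4, c5⟩ : ∃ C : ℝ, 1 ≤ C ∧ 2 * Gc K + 2 ≤ C ∧ P ≤ C ∧ 16 * K ≤ C ∧
      56 + 62 * K ^ 2 + 96 * K ^ 4 ≤ C ∧ 48 * K * (1 + 16 * K ^ 2 + 8 * (A ^ 2 + K ^ 4)) ≤ C := by
    have a : 0 ≤ 48 * K * (1 + 16 * K ^ 2 + 8 * (A ^ 2 + K ^ 4)) := by positivity
    have b : 0 ≤ 56 + 62 * K ^ 2 + 96 * K ^ 4 := by positivity
    exact ⟨2 * Gc K + 2 + P + 16 * K + (56 + 62 * K ^ 2 + 96 * K ^ 4) +
      48 * K * (1 + 16 * K ^ 2 + 8 * (A ^ 2 + K ^ 4)), by linarith, by linarith, by linarith,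
      by linarith, by linarith, by linarith⟩
  refine ⟨C, C1, fun n W hn hW v Λ hv => ?_⟩
  have n0 : (0 : ℝ) < n := by exact_mod_cast hn
  have e1 : exp (Gc K * v) ≤ exp (C * v) := exp_le_exp.2 (by nlinarith)
  have e2 : exp ((2 * Gc K + 2) * v) ≤ exp (C * v) := exp_le_exp.2 (by nlinarith)
  have e3 : 1 ≤ exp (C * v) := one_le_exp (by positivity)
  have hM : ∀ x, opn (Mg W v x) ^ 2 ≤ exp (C * v) := fun x => (opn_Mg hn hW.1 hW.2.1 hv x).trans e1
  refine ⟨fun T x => ?_, fun hX => ⟨fun T x => ?_, fun hAT r hr => ⟨?_, ?_, ?_⟩⟩⟩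
  · have := (opn_Mg hn (cav_symm hW.1 T) ((opn_cav T W).trans hW.2.1) hv x).trans e1
    exact abs_le_of_sq_le_sq' (by nlinarith) (by positivity) |>.2
  · have a := st_fro hn hW.1 hW.2.1 hv hX T x
    have b := st_vr hn W (cav T W) v x
    have c := mul_le_mul (hM x) (de_sq hW.2.1 T x) (by positivity) (by positivity)
    have t : (0 : ℝ) ≤ T.card := Nat.cast_nonneg _
    have d : (12 + 27 * K ^ 2 + 48 * K ^ 4) * exp ((2 * Gc K + 2) * v) * (1 + Λ ^ 2) * T.card ≤
        (12 + 27 * K ^ 2 + 48 * K ^ 4) * (exp (C * v) * (1 + Λ ^ 2) * T.card) := by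
      rw [← mul_assoc, ← mul_assoc]; gcongr
    have e : exp (C * v) * ((4 + K ^ 2) * T.card) ≤
        (4 + K ^ 2) * (exp (C * v) * (1 + Λ ^ 2) * T.card) := by
      nlinarith [mul_nonneg (mul_nonneg (exp_pos (C * v)).le (sq_nonneg Λ))
        (mul_nonneg (by positivity : 0 ≤ 4 + K ^ 2) t)]
    have f : 0 ≤ exp (C * v) * (1 + Λ ^ 2) * T.card := by positivity
    have g := mul_le_mul_of_nonneg_right c4 f
    have k : 0 ≤ (12 + 27 * K ^ 2 + 48 * K ^ 4) * (exp (C * v) * (1 + Λ ^ 2) * T.card) := by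
      positivity
    have l : 0 ≤ (4 + K ^ 2) * (exp (C * v) * (1 + Λ ^ 2) * T.card) := by positivity
    refine ⟨by nlinarith, b.trans (div_le_div_of_nonneg_right (by nlinarith) n0.le)⟩
  · refine (two_tail hn (S42.mu_pos W) K0 hAT (γ := C * exp (C * v) * (1 + Λ ^ 2) / (16 * K * n))
      (by positivity) (fun x => ?_) hr).trans_eq (by congr 3; field_simp)
    have a := vr_lip hW.2.1 v x
    have b := pow_le_pow_left₀ (opn_nonneg _) (hX v ⟨hv, le_rfl⟩ x) 2
    have c := pow_le_pow_left₀ (opn_nonneg _) (hA n W hW x).2.2.2.2.1 2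
    have d : (1 + 16 * K ^ 2) * opn (Hs W v x) ^ 2 +
        8 * (opn (am W x) ^ 2 + K ^ 4) * opn (Mg W v x) ^ 2 ≤
        (1 + 16 * K ^ 2) * (exp (C * v) * (1 + Λ ^ 2)) +
          8 * (A ^ 2 + K ^ 4) * (exp (C * v) * (1 + Λ ^ 2)) := by
      gcongr
      · nlinarith [sq_nonneg Λ]
      · nlinarith [sq_nonneg Λ, hM x]
    have e : vr W v = fun z => (n : ℝ)⁻¹ * ∑ i, (1 - tt W 0 z i ^ 2) * Mg W v z i i :=
      funext fun z => div_eq_inv_mul _ _
    simp only [e, grad_const_mul, Pi.smul_apply, smul_eq_mul, mul_pow, ← mul_sum]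
    refine (mul_le_mul_of_nonneg_left (a.trans (mul_le_mul_of_nonneg_left d (by positivity)))
      (by positivity)).trans ?_
    rw [le_div_iff₀ (by positivity)]
    refine le_trans (le_of_eq ?_) ((mul_le_mul_of_nonneg_right c5
      (by positivity : 0 ≤ exp (C * v) * (1 + Λ ^ 2))).trans_eq (by ring))
    field_simp
    ring
  · refine (sb_tail (S42.mu_pos W) K0 hAT (B := C * (1 + Λ ^ 2) / (K * n)) (by positivity)
      (fun x => (Fq_sb hn W v x).trans (mul_le_mul_of_nonneg_right ?_ ?_)) r).trans_eq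
      (by congr 2; field_simp)
    · have b := pow_le_pow_left₀ (opn_nonneg _) (hX v ⟨hv, le_rfl⟩ x) 2
      rw [div_le_div_iff₀ n0 (by positivity)]
      have := mul_le_mul c3 (b.trans (le_add_of_nonneg_left zero_le_one)) (sq_nonneg _) (by linarith)
      nlinarith
    · exact div_nonneg (sum_nonneg fun _ _ => sum_nonneg fun _ _ => mul_self_nonneg _) n0.le
  · refine (mean_Fq hn hW.1 (R := r) hM).trans (add_le_add le_rfl ?_)
    refine (mul_le_mul_of_nonneg_left ((hP n W hW hAT).2 r hr) (by positivity)).trans ?_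
    have : exp (-(r ^ 2 / P)) ≤ exp (-(r ^ 2 / C)) :=
      exp_le_exp.2 (neg_le_neg (div_le_div_of_nonneg_left (sq_nonneg _) (by linarith) c2))
    calc _ = 2 * exp (C * v) * exp (-(r ^ 2 / P)) := by field_simp
      _ ≤ _ := by gcongr

end Crest.Agent.T157.S6t

end
end

-- ▼ part T157/S6StG_2

/-!
# Row 157, block S6 (helper2): `S6.stGlue`
-/

set_option autoImplicit false

noncomputable section

namespace Crest.Agent.T157.S6t

open Matrix Real Finset
open Crest.Agent.T157.E hiding mean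
open Crest.Agent.T157.Eig
open Crest.Agent.T157.Tap (V Mx)
open Crest.Agent.T157.Rec (grad fl grad_eq grad_const)
open Crest.Agent.T157.Da.Gr
open Crest.Agent.T157.Chain22 (sg IsP mean)
open Crest.Agent.T157.Reg

variable {n : ℕ} {W : Mx n}

/-- the stacked Hessians of `P_v s` are bounded everywhere -/
theorem hess (h : S6.SHsStmt) {K : ℝ} (K0 : 0 ≤ K) : ∃ C ≥ (1 : ℝ), ∀ (n : ℕ) (W : Mx n), 0 < n →
    Nice W K → ∀ τ : ℝ, ∀ s ∈ Set.Icc 0 τ, ∀ x, opn (Hs W s x) ≤ C * exp (C * τ) := by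
  obtain ⟨C, C1, hC⟩ := h K
  have G0 := Gc_nonneg K0
  refine ⟨C + 2 * Gc K, by linarith, fun n W hn hW τ s hs x => ?_⟩
  have hτ := hs.1.trans hs.2
  have e : ∀ k : ℕ, exp (Gc K * τ / 2) ^ k = exp (k * (Gc K * τ / 2)) := fun k => (exp_nat_mul _ k).symm
  have r : ∀ s ∈ Set.Icc 0 τ, ∀ x i, ∑ k, Mg W s x i k ^ 2 ≤ exp (Gc K * τ / 2) ^ 2 :=
    fun s hs x i => (row_sq _ i).trans ((opn_Mg hn hW.1 hW.2.1 hs.1 x).trans (by
      rw [e]; exact exp_le_exp.2 (by push_cast; nlinarith [hs.2])))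
  have k := hC n W hn hW (fun s a => sg (mu W) s fun z => sv z a) (fun _ _ => 0) τ
    (exp (Gc K * τ / 2)) (exp (Gc K * τ / 2)) ∅
    (fun s k x => by simpa using Chain22.hasDerivAt_sg hn (S42.mu_pos W) _ x s)
    (fun x => by
      ext p j
      simp [S6.St, Chain22.sg_zero hn (S42.mu_pos W), grad_sv, grad_const])
    (fun s hs x i => ⟨r s hs x i, fun _ => r s hs x i⟩) s hs x
  have o : S6.oc W ∅ τ x = 0 := by simp [S6.oc, sg]
  rw [o, mul_zero, add_zero, e, mul_assoc, ← exp_add] at k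
  have y : 1 ≤ (C + 2 * Gc K) * exp ((C + 2 * Gc K) * τ) :=
    one_le_mul_of_one_le_of_one_le (by linarith) (one_le_exp (by positivity))
  refine (pow_le_pow_iff_left₀ (opn_nonneg _) (by linarith) four_ne_zero).1
    (le_trans k (le_trans ?_ (le_self_pow₀ y four_ne_zero)))
  exact mul_le_mul (by linarith) (exp_le_exp.2 (le_of_eq (by push_cast; ring))) (exp_pos _).le
    (by linarith)

theorem abs_grad_le {f : Cube n → ℝ} {c : ℝ} (h : ∀ z, |f z| ≤ c) (x : Cube n) (i : Fin n) :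
    |grad f x i| ≤ c := by
  rw [grad_eq, abs_div, abs_mul, S42.abs_sv, abs_two]
  linarith [abs_sub (f x) (f (fl x i)), h x, h (fl x i)]

theorem abs_sg (hn : 0 < n) (W : Mx n) {v : ℝ} (hv : 0 ≤ v) (a : Fin n) (x : Cube n) :
    |sg (mu W) v (fun z => sv z a) x| ≤ 1 := by
  have h := fun z => abs_le.1 (S42.abs_sv z a).le
  have h1 := Rec.sg_mono hn (S42.mu_pos W) hv (fun z => (h z).1) x
  have h2 := Rec.sg_mono hn (S42.mu_pos W) hv (fun z => (h z).2) x
  rw [Rec.sg_const hn (S42.mu_pos W)] at h1 h2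
  exact abs_le.2 ⟨h1, h2⟩

theorem abs_Mg (hn : 0 < n) (W : Mx n) {v : ℝ} (hv : 0 ≤ v) (x : Cube n) (i a : Fin n) :
    |Mg W v x i a| ≤ 1 := abs_grad_le (abs_sg hn W hv a) x i

theorem lip_Mg (hn : 0 < n) (hW : Wᵀ = W) {u v : ℝ} (hu : 0 ≤ u) (hv : 0 ≤ v) (x : Cube n)
    (i a : Fin n) : |Mg W v x i a - Mg W u x i a| ≤ 2 * n * |v - u| := by
  refine (convex_Ici 0).norm_image_sub_le_of_norm_hasDerivWithin_le (f := fun v => Mg W v x i a)
    (fun t _ => (hasDerivAt_grad (fun z => Chain22.hasDerivAt_sg hn (S42.mu_pos W) _ z t)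
      x i).hasDerivWithinAt) (fun t ht => abs_grad_le (fun z => ?_) x i) hu hv
  rw [mu, gen_ising hW]
  refine (abs_sum_le_sum_abs _ _).trans ((sum_le_sum (g := fun _ => (2 : ℝ)) fun k _ => ?_).trans
    (by simp [mul_comm]))
  rw [abs_mul]
  exact (mul_le_of_le_one_right (abs_nonneg _) (abs_Mg hn W ht z k a)).trans ((abs_sub _ _).trans
    (by linarith [S42.abs_tt W z k, S42.abs_sv z k]))

theorem lip_vr (hn : 0 < n) (hW : Wᵀ = W) {u v : ℝ} (hu : 0 ≤ u) (hv : 0 ≤ v) (x : Cube n) :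
    |vr W v x - vr W u x| ≤ 2 * n * |v - u| := by
  have n0 : (0 : ℝ) < n := by exact_mod_cast hn
  rw [vr, vr, ← sub_div, ← sum_sub_distrib, abs_div, abs_of_pos n0, div_le_iff₀ n0]
  refine (abs_sum_le_sum_abs _ _).trans ((sum_le_sum (g := fun _ => 2 * n * |v - u|)
    fun k _ => ?_).trans (by simp [mul_comm]))
  rw [← mul_sub, abs_mul, tt, abs_of_nonneg (sech_nonneg _)]
  exact (mul_le_of_le_one_left (abs_nonneg _) (by nlinarith [sq_nonneg (tanh (loc W 0 x k))])).trans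
    (lip_Mg hn hW hu hv x k k)

theorem lip_Fq (hn : 0 < n) (hW : Wᵀ = W) {u v : ℝ} (hu : 0 ≤ u) (hv : 0 ≤ v) (x : Cube n) :
    Fq W v x ≤ Fq W u x + 4 * n ^ 2 * |v - u| := by
  have n0 : (0 : ℝ) < n := by exact_mod_cast hn
  rw [Fq, Fq, ← sub_le_iff_le_add', ← sub_div, div_le_iff₀ n0, fp, fp, ← sum_sub_distrib]
  refine (sum_le_sum (g := fun _ => ∑ _a : Fin n, 4 * n * |v - u|) fun i _ => ?_).trans
    (le_of_eq (by simp; ring))
  rw [← sum_sub_distrib]
  refine sum_le_sum fun a _ => (le_abs_self _).trans ?_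
  rw [← sq, ← sq, sq_sub_sq, abs_mul]
  exact (mul_le_mul ((abs_add_le _ _).trans (add_le_add (abs_Mg hn W hv x i a) (abs_Mg hn W hu x i a)))
    (lip_Mg hn hW hu hv x i a) (abs_nonneg _) (by norm_num)).trans_eq (by ring)

theorem mass_le {w g : Cube n → ℝ} (hw : ∀ x, 0 < w x) {A : Set (Cube n)} (h0 : ∀ x, 0 ≤ g x)
    (h1 : ∀ x ∈ A, 1 ≤ g x) : mass w A ≤ mean (prob w) g := by
  have hp := Chain22.isP_prob' hw
  simp only [mass, sum_filter, mean]
  refine sum_le_sum fun x _ => ?_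
  split_ifs with h
  · exact le_mul_of_one_le_right (hp.nn x) (h1 x h)
  · exact mul_nonneg (hp.nn x) (h0 x)

theorem Fq_le (A B : Mx n) : fp B B ≤ 2 * fp A A + 2 * fp (A - B) (A - B) := by
  simp only [fp, mul_sum, ← sum_add_distrib, Matrix.sub_apply]
  exact sum_le_sum fun i _ => sum_le_sum fun j _ => by nlinarith [sq_nonneg (2 * A i j - B i j)]

theorem nice_mono {K K' : ℝ} (h : Nice W K) (hK : K ≤ K') : Nice W K' :=
  ⟨h.1, h.2.1.trans hK, fun i => (h.2.2 i).trans (div_le_div_of_nonneg_right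
    (pow_le_pow_left₀ ((opn_nonneg _).trans h.2.1) hK 4) (Nat.cast_nonneg _))⟩

/-- absorbing the Hessian bound -/
theorem cst {C D v : ℝ} (hC : 1 ≤ C) (hD : 1 ≤ D) (hv : 0 ≤ v) :
    1 ≤ C * exp (C * v) * (1 + (D * exp (D * v)) ^ 2) ∧
    C * exp (C * v) * (1 + (D * exp (D * v)) ^ 2) ≤ 2 * C * D ^ 2 * exp ((C + 2 * D) * v) := by
  have a : 1 ≤ D * exp (D * v) := one_le_mul_of_one_le_of_one_le hD (one_le_exp (by positivity))
  have b : 1 ≤ C * exp (C * v) := one_le_mul_of_one_le_of_one_le hC (one_le_exp (by positivity))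
  have c : 1 ≤ (D * exp (D * v)) ^ 2 := one_le_pow₀ a
  refine ⟨one_le_mul_of_one_le_of_one_le b (by linarith), ?_⟩
  rw [show (C + 2 * D) * v = C * v + D * v + D * v by ring, exp_add, exp_add]
  nlinarith

theorem st1 (h : S6.SHsStmt) : S6.St1Stmt := fun K => by
  obtain ⟨D, D1, hD⟩ := hess h (K := |K| + 1) (by positivity)
  obtain ⟨C, C1, hC⟩ := stStmt (|K| + 1) (by positivity)
  have p : 0 ≤ 4 * C * D ^ 2 := by positivity
  refine ⟨4 * C * D ^ 2 + (C + 2 * D), by linarith, fun n W hn hW v hv T x => ?_⟩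
  have n0 : (0 : ℝ) < n := by exact_mod_cast hn
  have hW' := nice_mono hW (K' := |K| + 1) (by linarith [le_abs_self K])
  obtain ⟨a, b⟩ := ((hC n W hn hW' v _ hv).2 (hD n W hn hW' v)).1 T x
  obtain ⟨c, d⟩ := cst C1 D1 hv
  have e : 2 * (2 * C * D ^ 2 * exp ((C + 2 * D) * v)) ≤
      (4 * C * D ^ 2 + (C + 2 * D)) * exp ((4 * C * D ^ 2 + (C + 2 * D)) * v) := by
    rw [← mul_assoc]
    exact mul_le_mul (by linarith) (exp_le_exp.2 (by nlinarith)) (exp_pos _).le (by linarith)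
  have t : (0 : ℝ) ≤ T.card / n := by positivity
  generalize C * exp (C * v) * (1 + (D * exp (D * v)) ^ 2) = E at *
  generalize (4 * C * D ^ 2 + (C + 2 * D)) * exp ((4 * C * D ^ 2 + (C + 2 * D)) * v) = F at *
  refine ⟨abs_le_of_sq_le_sq (b.trans ?_) (mul_nonneg (by linarith) (sqrt_nonneg _)), ?_⟩
  · rw [mul_pow, sq_sqrt t, mul_div_assoc]
    exact mul_le_mul_of_nonneg_right (by nlinarith) t
  · have f := Fq_le (Mg W v x) (Mg (cav T W) v x)
    change fp (Mg (cav T W) v x) (Mg (cav T W) v x) / n ≤ 2 * (fp (Mg W v x) (Mg W v x) / n) + _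
    rw [← mul_div_assoc, ← mul_div_assoc, ← add_div]
    refine div_le_div_of_nonneg_right ?_ n0.le
    nlinarith [mul_le_mul_of_nonneg_right (show 2 * E ≤ F by linarith) (Nat.cast_nonneg T.card)]

set_option maxHeartbeats 800000 in
theorem st2 (h : S6.SHsStmt) : S6.St2Stmt := fun K K0 => by
  obtain ⟨D, D1, hD⟩ := hess h K0.le
  obtain ⟨C, C1, hC⟩ := stStmt K K0
  have p : 0 ≤ 2 * C * D ^ 2 := by positivity
  obtain ⟨A, a1, a2, a3⟩ : ∃ A : ℝ, 2 * C * D ^ 2 + 12 ≤ A ∧ C + 2 * D ≤ A ∧ 3 ≤ A :=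
    ⟨2 * C * D ^ 2 + 12 + (C + 2 * D), by linarith, by linarith, by linarith⟩
  refine ⟨A, by linarith, fun n W hn hW hAT τ s R hτ hs hs1 hR => ?_⟩
  have n1 : (1 : ℝ) ≤ n := by exact_mod_cast hn
  obtain ⟨c, d⟩ := cst C1 D1 hτ
  have H := fun v (hv : v ∈ Set.Icc 0 τ) => ((hC n W hn hW v (D * exp (D * τ)) hv.1).2
    fun s hs => hD n W hn hW τ s ⟨hs.1, hs.2.trans hv.2⟩).2 hAT
  set E := C * exp (C * τ) * (1 + (D * exp (D * τ)) ^ 2) with hE
  have eA : exp ((C + 2 * D) * τ) ≤ exp (A * τ) := exp_le_exp.2 (by nlinarith)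
  have eB : exp (C * τ) ≤ exp (A * τ) := exp_le_exp.2 (by nlinarith)
  have e1 : 1 ≤ exp (A * τ) := one_le_exp (by positivity)
  have eE : (E + 12) * s ≤ A * exp (A * τ) * s := mul_le_mul_of_nonneg_right
    (by nlinarith [mul_le_mul_of_nonneg_left eA p]) hs.le
  obtain ⟨η, hη⟩ : ∃ η : ℝ, η = s / n ^ 2 := ⟨_, rfl⟩
  have η0 : 0 < η := hη ▸ by positivity
  have η1 : n ^ 2 * η = s := by rw [hη]; field_simp
  have η2 : n * η ≤ s := by nlinarith [mul_nonneg (sub_nonneg.2 n1) (mul_pos (one_pos.trans_le n1) η0).le]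
  have hk : ∀ k ∈ range (⌊τ / η⌋₊ + 1), k * η ∈ Set.Icc 0 τ := fun k hk =>
    ⟨by positivity, (le_div_iff₀ η0).1 ((Nat.le_floor_iff (by positivity)).1
      (Nat.lt_succ_iff.1 (mem_range.1 hk)))⟩
  refine (mass_le (S42.mu_pos W) (g := fun x => ∑ k ∈ range (⌊τ / η⌋₊ + 1),
    (Ent.ind (fun x => E * s ≤ |vr W (k * η) x - mean (prob (mu W)) (vr W (k * η))|) x +
      Ent.ind (fun x => 2 * mean (prob (mu W)) (Fq W (k * η)) + E * s ≤ Fq W (k * η) x) x))
    (fun x => sum_nonneg fun _ _ => add_nonneg (Ent.ind_nonneg _ _) (Ent.ind_nonneg _ _))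
    ?_).trans ?_
  · rintro x ⟨v, hv, hx⟩
    have k1 : ⌊v / η⌋₊ ∈ range (⌊τ / η⌋₊ + 1) := mem_range.2 (Nat.lt_succ_iff.2
      (Nat.floor_le_floor (div_le_div_of_nonneg_right hv.2 η0.le)))
    refine le_trans ?_ (single_le_sum (fun _ _ => add_nonneg (Ent.ind_nonneg _ _)
      (Ent.ind_nonneg _ _)) k1)
    have k2 := (hk _ k1).1
    have k3 : |v - ⌊v / η⌋₊ * η| ≤ η := by
      have a := (le_div_iff₀ η0).1 (Nat.floor_le (div_nonneg hv.1 η0.le))
      have b := (div_lt_iff₀ η0).1 (Nat.lt_floor_add_one (v / η))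
      rw [abs_le]; constructor <;> linarith
    generalize (⌊v / η⌋₊ : ℝ) * η = u at *
    have l1 : 2 * n * |v - u| ≤ 2 * s := by nlinarith
    have l2 : 4 * n ^ 2 * |v - u| ≤ 4 * s := by nlinarith
    have hp := S42.isP_mu W
    rcases hx with hx | hx
    · rw [Ent.ind_pos (p := fun x => E * s ≤ |vr W u x - mean (prob (mu W)) (vr W u)|)]
      · exact le_add_of_nonneg_right (Ent.ind_nonneg _ _)
      have m := fun z => abs_le.1 ((lip_vr hn hW.1 k2 hv.1 z).trans l1)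
      have m1 := hp.mean_mono (f := vr W u) (g := fun z => vr W v z + 2 * s) fun z => by
        linarith [(m z).1]
      have m2 := hp.mean_mono (f := vr W v) (g := fun z => vr W u z + 2 * s) fun z => by
        linarith [(m z).2]
      rw [Ent.mean_add', hp.mean_const] at m1 m2
      change _ < |vr W v x - mean (prob (mu W)) (vr W v)| at hx
      rcases lt_abs.1 hx with hx | hx
      · exact le_abs.2 (.inl (by linarith [(m x).2]))
      · exact le_abs.2 (.inr (by linarith [(m x).1]))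
    · rw [Ent.ind_pos (p := fun x => 2 * mean (prob (mu W)) (Fq W u) + E * s ≤ Fq W u x)]
      · exact le_add_of_nonneg_left (Ent.ind_nonneg _ _)
      have m1 := hp.mean_mono (f := Fq W u) (g := fun z => Fq W v z + 4 * s) fun z => by
        have := lip_Fq hn hW.1 hv.1 k2 z
        rw [abs_sub_comm] at this; linarith
      rw [Ent.mean_add', hp.mean_const] at m1
      have m2 := lip_Fq hn hW.1 k2 hv.1 x
      have m3 := (H v hv R hR).2.2
      have m4 : 4 * (exp (C * v) * exp (-(R ^ 2 / C))) ≤ A * exp (A * τ) * exp (-(R ^ 2 / A)) := by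
        rw [mul_assoc A]
        refine mul_le_mul (by linarith) (mul_le_mul ((exp_le_exp.2 (by nlinarith [hv.2])).trans eB)
          (exp_le_exp.2 (neg_le_neg (div_le_div_of_nonneg_left (sq_nonneg _) (by linarith)
            (by linarith)))) (exp_pos _).le (exp_pos _).le) (by positivity) (by linarith)
      change 2 * exp (2 * R) * Ee W v + _ < Fq W v x at hx
      linarith
  · rw [Ent.mean_sum']
    refine (sum_le_sum (g := fun _ => 3 * exp (-(n * s ^ 2 / A))) fun k hk' => ?_).trans ?_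
    · obtain ⟨b1, b2, -⟩ := H _ (hk k hk') (E * s) (by positivity)
      have q : n * s ^ 2 / A ≤ n * s ^ 2 := div_le_self (by positivity) (by linarith)
      have f1 : C * exp (C * (k * η)) * (1 + (D * exp (D * τ)) ^ 2) ≤ E := by
        rw [hE]; gcongr; exact (hk k hk').2
      have f2 : C * (1 + (D * exp (D * τ)) ^ 2) ≤ E := by
        rw [hE]; gcongr; exact le_mul_of_one_le_right (by linarith) (one_le_exp (by positivity))
      have g1 : n * s ^ 2 ≤ (E * s) ^ 2 * n / (C * exp (C * (k * η)) * (1 + (D * exp (D * τ)) ^ 2)) := by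
        rw [le_div_iff₀ (by positivity)]
        nlinarith [mul_le_mul_of_nonneg_left (f1.trans (le_self_pow₀ c two_ne_zero))
          (by positivity : 0 ≤ n * s ^ 2)]
      have g2 : n * s ^ 2 ≤ E * s * n / (C * (1 + (D * exp (D * τ)) ^ 2)) := by
        rw [le_div_iff₀ (by positivity)]
        nlinarith [mul_le_mul_of_nonneg_left f2 (by positivity : 0 ≤ n * s ^ 2),
          mul_le_mul_of_nonneg_left hs1 (by positivity : 0 ≤ E * s * n)]
      rw [Ent.mean_add']
      linarith [exp_le_exp.2 (neg_le_neg (q.trans g1)), exp_le_exp.2 (neg_le_neg (q.trans g2))]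
    · rw [sum_const, card_range, nsmul_eq_mul, ← mul_assoc]
      refine mul_le_mul_of_nonneg_right ?_ (exp_pos _).le
      have a := Nat.floor_le (div_nonneg hτ η0.le)
      have b : 1 ≤ 1 / η := by rw [le_div_iff₀ η0]; nlinarith
      have e : A * (τ + 1) * n ^ 2 / s = A * (τ / η + 1 / η) := by rw [hη]; field_simp
      rw [e]; push_cast
      nlinarith [div_nonneg hτ η0.le]

end Crest.Agent.T157.S6t

theorem Crest.Agent.T157.S6.stGlue : Crest.Agent.T157.S6.StGlue :=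
  fun h => ⟨Crest.Agent.T157.S6t.st1 h, Crest.Agent.T157.S6t.st2 h⟩

end
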