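import Crest.Agent.T157.Quench_90
import Crest.Agent.T157.RecB_77
import Crest.Agent.T157.StB_87
import Crest.Agent.T157.StLnk_10

-- ▼ part T157/SgA_90
section

/-!
# Row 157, part C: comparison of two reversible semigroups through their forms (helper90)

`c`, `d` are reversible chains with the same stationary law, run at rates `a`, `b`.  If the forms
`a · c.D` and `b · d.D` are comparable on bounded vector functions (`I1`: lower bound, `I2`:
recovery), the resolvents (`s1`) and the semigroups (`s2`) are close in `L²` on bounded vectors.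
-/

set_option autoImplicit false

noncomputable section

namespace Crest.Agent.T157.Sg

open Finset Matrix
open Crest.Agent.T157.Chain22 Crest.Agent.T157.Soft

variable {Ω ι : Type*} [Fintype Ω] [Fintype ι]

/-- inner product of vector functions -/
def ipV (π : Ω → ℝ) (f g : ι → Ω → ℝ) : ℝ := ∑ i, ip π (f i) (g i)
/-- `L²` norm of a vector function -/
def nv (π : Ω → ℝ) (g : ι → Ω → ℝ) : ℝ := √(ipV π g g)
/-- Dirichlet form of a vector function -/
def DV (c : RC Ω) (g : ι → Ω → ℝ) : ℝ := ∑ i, c.D (g i) (g i)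
/-- pointwise bound of the squared Euclidean norm -/
def Sup (g : ι → Ω → ℝ) (B : ℝ) : Prop := ∀ x, ∑ i, g i x ^ 2 ≤ B

/-- the form `a · c.D` dominates `b · d.D` on bounded vectors -/
def I1 (ι : Type*) [Fintype ι] (c d : RC Ω) (a b e : ℝ) : Prop :=
  ∀ (g : ι → Ω → ℝ) (B : ℝ), Sup g B → b * DV d g ≤ (1 + e) * (a * DV c g) + e * B

/-- recovery sequences -/
def I2 (ι : Type*) [Fintype ι] (c d : RC Ω) (a b e : ℝ) : Prop :=
  ∀ (g : ι → Ω → ℝ) (B : ℝ), Sup g B → ∃ f : ι → Ω → ℝ,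
    ipV c.π (f - g) (f - g) ≤ e * (B + b * DV d g) ∧ a * DV c f ≤ (1 + e) * (b * DV d g) + e * B

section basic
variable {π : Ω → ℝ}

lemma ipV_comm (f g : ι → Ω → ℝ) : ipV π f g = ipV π g f :=
  sum_congr rfl fun _ _ => ip_comm _ _ _

lemma ipV_add_left (f g h : ι → Ω → ℝ) : ipV π (f + g) h = ipV π f h + ipV π g h := by
  simp only [ipV, Pi.add_apply, ip_add_left, sum_add_distrib]

lemma ipV_sub_left (f g h : ι → Ω → ℝ) : ipV π (f - g) h = ipV π f h - ipV π g h := by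
  simp only [ipV, Pi.sub_apply, ip_sub_left, sum_sub_distrib]

lemma ipV_add_right (f g h : ι → Ω → ℝ) : ipV π f (g + h) = ipV π f g + ipV π f h := by
  simp only [ipV, Pi.add_apply, ip_add_right, sum_add_distrib]

lemma ipV_sub_right (f g h : ι → Ω → ℝ) : ipV π f (g - h) = ipV π f g - ipV π f h := by
  simp only [ipV, Pi.sub_apply, ip_sub_right, sum_sub_distrib]

lemma ipV_self_nonneg (hπ : IsP π) (g : ι → Ω → ℝ) : 0 ≤ ipV π g g :=
  sum_nonneg fun i _ => hπ.ip_self_nonneg (g i)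

lemma nv_nonneg (g : ι → Ω → ℝ) : 0 ≤ nv π g := Real.sqrt_nonneg _

lemma nv_sq (hπ : IsP π) (g : ι → Ω → ℝ) : nv π g ^ 2 = ipV π g g :=
  Real.sq_sqrt (ipV_self_nonneg hπ g)

lemma abs_ipV_le (hπ : IsP π) (f g : ι → Ω → ℝ) : |ipV π f g| ≤ nv π f * nv π g := by
  refine (abs_sum_le_sum_abs _ _).trans (le_trans (sum_le_sum fun i _ => ?_)
    (Real.sum_sqrt_mul_sqrt_le univ (fun i => hπ.ip_self_nonneg (f i))
      fun i => hπ.ip_self_nonneg (g i)))
  rw [← Real.sqrt_mul (hπ.ip_self_nonneg _)]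
  exact Real.abs_le_sqrt (hπ.ip_sq_le _ _)

lemma nv_le_of_sq {g : ι → Ω → ℝ} {r : ℝ} (hr : 0 ≤ r) (h : ipV π g g ≤ r ^ 2) : nv π g ≤ r :=
  Real.sqrt_le_iff.2 ⟨hr, h⟩

lemma nv_add_le (hπ : IsP π) (f g : ι → Ω → ℝ) : nv π (f + g) ≤ nv π f + nv π g := by
  refine nv_le_of_sq (add_nonneg (nv_nonneg _) (nv_nonneg _)) ?_
  rw [ipV_add_left, ipV_add_right, ipV_add_right, ipV_comm g f, ← nv_sq hπ f, ← nv_sq hπ g]
  nlinarith [le_abs_self (ipV π f g), abs_ipV_le hπ f g]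

lemma nv_sub_comm (f g : ι → Ω → ℝ) : nv π (f - g) = nv π (g - f) := by
  unfold nv
  simp only [ipV_sub_left, ipV_sub_right]
  congr 1; ring

lemma nv_tri (hπ : IsP π) (f g h : ι → Ω → ℝ) : nv π (f - h) ≤ nv π (f - g) + nv π (g - h) := by
  simpa using nv_add_le hπ (f - g) (g - h)

lemma nv_sub_le (hπ : IsP π) (f g : ι → Ω → ℝ) : nv π (f - g) ≤ nv π f + nv π g := by
  have := nv_tri hπ f 0 g
  rwa [nv_sub_comm 0 g, sub_zero, sub_zero] at this

lemma ipV_self_eq (g : ι → Ω → ℝ) : ipV π g g = mean π fun x => ∑ i, g i x ^ 2 := by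
  simp only [ipV, ip, mean, mul_sum, sq]
  exact sum_comm

lemma Sup.ipV_le (hπ : IsP π) {g : ι → Ω → ℝ} {B : ℝ} (h : Sup g B) : ipV π g g ≤ B := by
  rw [ipV_self_eq, ← hπ.mean_const B]
  exact hπ.mean_mono h

lemma Sup.nv_le (hπ : IsP π) {g : ι → Ω → ℝ} {B : ℝ} (h : Sup g B) : nv π g ≤ √B :=
  Real.sqrt_le_sqrt (h.ipV_le hπ)

lemma Sup.nonneg (hπ : IsP π) {g : ι → Ω → ℝ} {B : ℝ} (h : Sup g B) : 0 ≤ B :=
  (ipV_self_nonneg hπ g).trans (h.ipV_le hπ)

lemma DV_nonneg (c : RC Ω) (g : ι → Ω → ℝ) : 0 ≤ DV c g := sum_nonneg fun i _ => c.D_nonneg (g i)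

/-- a Markov kernel keeps the pointwise bound -/
lemma Sup.P (c : RC Ω) {g : ι → Ω → ℝ} {B : ℝ} (h : Sup g B) : Sup (fun i => c.P *ᵥ g i) B :=
  fun x => by
  refine le_trans ?_ (Sup.ipV_le (c.isP_row x) h)
  exact sum_le_sum fun i _ => (c.isP_row x).mean_sq_le (g i)

end basic

variable [DecidableEq Ω]

/-- resolvent `(1 + τ (1 - P))⁻¹` on vector functions -/
def RV (c : RC Ω) (τ : ℝ) (g : ι → Ω → ℝ) : ι → Ω → ℝ := fun i => resV c 1 τ (g i)
/-- semigroup on vector functions -/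
def HV (c : RC Ω) (t : ℝ) (g : ι → Ω → ℝ) : ι → Ω → ℝ := fun i => c.H t *ᵥ g i

lemma Sup.HV (c : RC Ω) {t : ℝ} (ht : 0 ≤ t) {g : ι → Ω → ℝ} {B : ℝ} (h : Sup g B) :
    Sup (HV c t g) B := h.P (c.heat t ht)

lemma resV_strong (c : RC Ω) {α τ : ℝ} (hα : 0 < α) (hτ : 0 ≤ τ) (g : Ω → ℝ) (x : Ω) :
    α * resV c α τ g x + τ * (resV c α τ g x - (c.P *ᵥ resV c α τ g) x) = g x := by
  have h := resV_weak (c := c) hα hτ (c.del x) g
  rwa [RC.D, ip_comm _ (c.del x), ip_comm _ (c.del x), ip_comm _ (c.del x), c.ip_del, c.ip_del,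
    c.ip_del] at h

lemma resV_sub (c : RC Ω) (α τ : ℝ) (f g : Ω → ℝ) :
    resV c α τ (f - g) = resV c α τ f - resV c α τ g := by
  simp only [resV, ip_sub_left, sub_div, sub_smul, sum_sub_distrib]

omit [Fintype ι] in
lemma RV_sub (c : RC Ω) (τ : ℝ) (f g : ι → Ω → ℝ) : RV c τ (f - g) = RV c τ f - RV c τ g :=
  funext fun i => resV_sub c 1 τ (f i) (g i)

omit [Fintype ι] in
lemma HV_sub (c : RC Ω) (t : ℝ) (f g : ι → Ω → ℝ) : HV c t (f - g) = HV c t f - HV c t g :=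
  funext fun i => mulVec_sub _ (f i) (g i)

/-- maximum principle for the resolvent -/
lemma Sup.RV (c : RC Ω) {τ : ℝ} (hτ : 0 ≤ τ) {h : ι → Ω → ℝ} {B : ℝ} (hh : Sup h B) :
    Sup (RV c τ h) B := by
  have := c.nonempty
  set g := Sg.RV c τ h with hg
  obtain ⟨x, -, hx⟩ := exists_max_image univ (fun x => ∑ i, g i x ^ 2) univ_nonempty
  have hS : Sup g (∑ i, g i x ^ 2) := fun y => hx y (mem_univ y)
  have h1 := hS.P c x
  have h2 := hh x
  have h3 : ∀ i, (1 + 2 * τ - τ) * g i x ^ 2 ≤ h i x ^ 2 + τ * (c.P *ᵥ g i) x ^ 2 := fun i => by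
    have e : 1 * g i x + τ * (g i x - (c.P *ᵥ g i) x) = h i x := resV_strong c one_pos hτ (h i) x
    have e2 : g i x * (1 * g i x + τ * (g i x - (c.P *ᵥ g i) x)) = g i x * h i x := by rw [e]
    nlinarith [sq_nonneg (g i x - h i x), mul_nonneg hτ (sq_nonneg (g i x - (c.P *ᵥ g i) x))]
  have h4 := sum_le_sum fun i (_ : i ∈ univ) => h3 i
  rw [← mul_sum, sum_add_distrib, ← mul_sum] at h4
  intro y
  have h5 := mul_le_mul_of_nonneg_left h1 hτ
  have := hS y
  linarith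

lemma RV_weak (c : RC Ω) {τ : ℝ} (hτ : 0 ≤ τ) (h : ι → Ω → ℝ) :
    ipV c.π (RV c τ h) (RV c τ h) + τ * DV c (RV c τ h) = ipV c.π (RV c τ h) h := by
  simp only [ipV, DV, mul_sum, ← sum_add_distrib]
  refine sum_congr rfl fun i _ => ?_
  have := resV_weak (c := c) one_pos hτ (resV c 1 τ (h i)) (h i)
  rwa [one_mul] at this

lemma nv_RV_le (c : RC Ω) {τ : ℝ} (hτ : 0 ≤ τ) (h : ι → Ω → ℝ) : nv c.π (RV c τ h) ≤ nv c.π h := by
  have h1 := RV_weak c hτ h
  have h2 := (le_abs_self _).trans (abs_ipV_le c.isP (RV c τ h) h)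
  have h3 := mul_nonneg hτ (DV_nonneg c (RV c τ h))
  rw [← nv_sq c.isP] at h1
  by_contra hlt
  have := not_le.1 hlt
  nlinarith [nv_nonneg (π := c.π) h]

lemma DV_RV_le (c : RC Ω) {τ : ℝ} (hτ : 0 ≤ τ) (h : ι → Ω → ℝ) :
    τ * DV c (RV c τ h) ≤ ipV c.π h h := by
  have h1 := RV_weak c hτ h
  have h2 := (le_abs_self _).trans (abs_ipV_le c.isP (RV c τ h) h)
  rw [← nv_sq c.isP] at h1 ⊢
  nlinarith [sq_nonneg (nv c.π (RV c τ h) - nv c.π h), sq_nonneg (nv c.π h),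
    sq_nonneg (nv c.π (RV c τ h))]

lemma nv_HV_le (c : RC Ω) {t : ℝ} (ht : 0 ≤ t) (h : ι → Ω → ℝ) : nv c.π (HV c t h) ≤ nv c.π h :=
  Real.sqrt_le_sqrt (sum_le_sum fun i _ => (c.heat t ht).ip_P_P_le (h i))

/-- the variational functional -/
def JV (c : RC Ω) (τ : ℝ) (h g : ι → Ω → ℝ) : ℝ := 2 * ipV c.π h g - ipV c.π g g - τ * DV c g

lemma JV_le (c : RC Ω) {τ : ℝ} (hτ : 0 ≤ τ) (h g : ι → Ω → ℝ) :
    JV c τ h g + ipV c.π (g - RV c τ h) (g - RV c τ h) ≤ JV c τ h (RV c τ h) := by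
  simp only [JV, ipV, DV, mul_sum, ← sum_sub_distrib, ← sum_add_distrib]
  refine sum_le_sum fun i _ => ?_
  have h1 := res_var (c := c) one_pos hτ (h i) (g i)
  have h2 := res_eq (c := c) one_pos hτ (h i)
  have h3 := mul_nonneg hτ (c.D_nonneg (g i - resV c 1 τ (h i)))
  simp only [RV, Pi.sub_apply] at *
  linarith

/-- the error of `s1` -/
def dd (τ e : ℝ) : ℝ := 2 * e * (1 + τ) + e * (1 + 1 / τ) + 4 * √(e * (1 + 1 / τ))

/-- **(S1)** comparable forms have close resolvents -/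
theorem s1 {c d : RC Ω} (hπ : d.π = c.π) {a b e τ : ℝ} (ha : 0 ≤ a) (hb : 0 ≤ b) (he : 0 ≤ e)
    (hτ : 0 < τ) (h1 : I1 ι c d a b e) (h2 : I2 ι c d a b e) {h : ι → Ω → ℝ} {B : ℝ}
    (hh : Sup h B) :
    ipV c.π (RV c (τ * a) h - RV d (τ * b) h) (RV c (τ * a) h - RV d (τ * b) h) ≤ dd τ e * B := by
  have hta := mul_nonneg hτ.le ha
  have htb := mul_nonneg hτ.le hb
  have hB := hh.nonneg c.isP
  set gc := RV c (τ * a) h with hgc
  set gd := RV d (τ * b) h with hgd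
  have hhB := hh.ipV_le c.isP
  have a1 := h1 gc B (hh.RV c hta)
  have a2 : τ * a * DV c gc ≤ B := (DV_RV_le c hta h).trans hhB
  have a3 : τ * b * DV d gd ≤ B := (DV_RV_le d htb h).trans (by rw [hπ]; exact hhB)
  obtain ⟨f, f1, f2⟩ := h2 gd B (hh.RV d htb)
  have b1 := JV_le d htb h gc
  have b2 := JV_le c hta h f
  have b3 := ipV_self_nonneg c.isP (f - gc)
  rw [← hgd] at b1
  rw [← hgc] at b2
  simp only [JV, hπ] at b1 b2
  have c1 : ipV c.π (f - gd) (f - gd) ≤ e * (1 + 1 / τ) * B := by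
    have : b * DV d gd ≤ 1 / τ * B := by
      rw [one_div, inv_mul_eq_div, le_div_iff₀ hτ]; linarith
    calc _ ≤ e * (B + b * DV d gd) := f1
      _ ≤ e * (B + 1 / τ * B) := by gcongr
      _ = _ := by ring
  have c2 : nv c.π (f - gd) ≤ √(e * (1 + 1 / τ)) * √B := by
    rw [← Real.sqrt_mul (by positivity)]; exact Real.sqrt_le_sqrt c1
  have c3 : nv c.π (h - gd) ≤ 2 * √B := by
    have := (hh.RV d htb).nv_le c.isP
    linarith [nv_sub_le c.isP h gd, hh.nv_le c.isP]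
  have c4 : |ipV c.π (h - gd) (f - gd)| ≤ 2 * √(e * (1 + 1 / τ)) * B :=
    calc _ ≤ nv c.π (h - gd) * nv c.π (f - gd) := abs_ipV_le c.isP _ _
      _ ≤ 2 * √B * (√(e * (1 + 1 / τ)) * √B) :=
          mul_le_mul c3 c2 (nv_nonneg _) (by positivity)
      _ = 2 * √(e * (1 + 1 / τ)) * (√B * √B) := by ring
      _ = _ := by rw [Real.mul_self_sqrt hB]
  have c5 : 2 * ipV c.π h f - ipV c.π f f = 2 * ipV c.π h gd - ipV c.π gd gd +
      2 * ipV c.π (h - gd) (f - gd) - ipV c.π (f - gd) (f - gd) := by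
    simp only [ipV_sub_left, ipV_sub_right, ipV_comm gd f]; ring
  have d1 := mul_le_mul_of_nonneg_left a1 hτ.le
  have d2 := mul_le_mul_of_nonneg_left f2 hτ.le
  have d3 := mul_le_mul_of_nonneg_left a2 he
  have d4 := mul_le_mul_of_nonneg_left a3 he
  have d5 := (abs_le.1 c4).1
  unfold dd
  nlinarith

lemma Sup.iter (c : RC Ω) {τ : ℝ} (hτ : 0 ≤ τ) {h : ι → Ω → ℝ} {B : ℝ} (hh : Sup h B) (j : ℕ) :
    Sup ((Sg.RV c τ)^[j] h) B := by
  induction j with
  | zero => exact hh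
  | succ j ih => rw [Function.iterate_succ_apply']; exact ih.RV c hτ

/-- telescoping: only the finitely many functions `R_d^i h` are tested -/
theorem tele (c d : RC Ω) {σ τ r : ℝ} (hσ : 0 ≤ σ) (h : ι → Ω → ℝ) (j : ℕ)
    (hr : ∀ i < j, nv c.π (RV c σ ((RV d τ)^[i] h) - RV d τ ((RV d τ)^[i] h)) ≤ r) :
    nv c.π ((RV c σ)^[j] h - (RV d τ)^[j] h) ≤ j * r := by
  induction j with
  | zero => simp [nv, ipV, ip]
  | succ j ih =>
    rw [Function.iterate_succ_apply', Function.iterate_succ_apply']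
    have h1 := nv_tri c.isP (RV c σ ((RV c σ)^[j] h)) (RV c σ ((RV d τ)^[j] h))
      (RV d τ ((RV d τ)^[j] h))
    rw [← RV_sub] at h1
    have h2 := nv_RV_le c hσ ((RV c σ)^[j] h - (RV d τ)^[j] h)
    have h3 := ih fun i hi => hr i (hi.trans (Nat.lt_succ_self j))
    have h4 := hr j (Nat.lt_succ_self j)
    push_cast
    linarith

lemma abs_exp_sub_pow_le {u : ℝ} (hu : 0 ≤ u) {m : ℕ} (hm : 0 < m) :
    |Real.exp (-(2 * m * u)) - (1 / (1 + u)) ^ (2 * m)| ≤ 2 / m := by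
  have hm' : (0 : ℝ) < m := by exact_mod_cast hm
  have e : Real.exp (-(2 * m * u)) = Real.exp (-u) ^ (2 * m) := by
    rw [← Real.exp_nat_mul]; congr 1; push_cast; ring
  have h0 : 0 < 1 / (1 + u) := by positivity
  have h1 : Real.exp (-u) ≤ 1 / (1 + u) := by
    rw [Real.exp_neg, ← one_div]
    exact one_div_le_one_div_of_le (by positivity) (by linarith [Real.add_one_le_exp u])
  have h2 : 1 / (1 + u) - Real.exp (-u) ≤ u ^ 2 * (1 / (1 + u)) := by
    have : 1 / (1 + u) - (1 - u) = u ^ 2 * (1 / (1 + u)) := by field_simp; ring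
    linarith [Real.add_one_le_exp (-u)]
  have h3 := abs_pow_sub_pow_le (1 / (1 + u)) (Real.exp (-u)) (2 * m)
  rw [abs_of_nonneg (sub_nonneg.2 h1), abs_of_pos h0, abs_of_pos (Real.exp_pos _),
    max_eq_left h1] at h3
  rw [e, abs_sub_comm]
  refine h3.trans ?_
  have h4 : (1 / (1 + u)) * (1 / (1 + u)) ^ (2 * m - 1) = ((1 / (1 + u)) ^ m) ^ 2 := by
    rw [← pow_succ', ← pow_mul, mul_comm m 2]; congr 1; omega
  have h5 : m * u * (1 / (1 + u)) ^ m ≤ 1 := by
    rw [_root_.one_div_pow, mul_one_div, div_le_one (by positivity)]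
    linarith [one_add_mul_le_pow (show (-2 : ℝ) ≤ u by linarith) m]
  have h6 : (m * u * (1 / (1 + u)) ^ m) ^ 2 ≤ 1 := pow_le_one₀ (by positivity) h5
  calc _ ≤ u ^ 2 * (1 / (1 + u)) * ((2 * m : ℕ) : ℝ) * (1 / (1 + u)) ^ (2 * m - 1) := by gcongr
    _ = 2 / m * (m * u) ^ 2 * ((1 / (1 + u)) * (1 / (1 + u)) ^ (2 * m - 1)) := by
        push_cast; field_simp
    _ = 2 / m * (m * u * (1 / (1 + u)) ^ m) ^ 2 := by rw [h4]; ring
    _ ≤ 2 / m := mul_le_of_le_one_right (by positivity) h6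

omit [Fintype ι] in
lemma ip_iter_φ (c : RC Ω) (τ : ℝ) (h : ι → Ω → ℝ) (j : ℕ) (i : ι) (k : Ω) :
    ip c.π ((RV c τ)^[j] h i) (c.φ k) =
      (1 / (1 + τ * (1 - c.ev k))) ^ j * ip c.π (h i) (c.φ k) := by
  induction j with
  | zero => simp
  | succ j ih => rw [Function.iterate_succ_apply', RV, ip_resV_φ, ih, pow_succ]; ring

/-- the semigroup is a limit of powers of the resolvent, uniformly -/
theorem nv_HV_sub_iter (c : RC Ω) {τ : ℝ} (hτ : 0 ≤ τ) (h : ι → Ω → ℝ) {m : ℕ} (hm : 0 < m) :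
    nv c.π (HV c (2 * m * τ) h - (RV c τ)^[2 * m] h) ≤ 2 / m * nv c.π h := by
  refine nv_le_of_sq (mul_nonneg (by positivity) (nv_nonneg _)) ?_
  rw [mul_pow, nv_sq c.isP, ipV, ipV, mul_sum]
  refine sum_le_sum fun i _ => ?_
  rw [c.parseval, c.parseval (h i), mul_sum]
  refine sum_le_sum fun k _ => ?_
  have h1 := abs_exp_sub_pow_le (mul_nonneg hτ (sub_nonneg.2 (c.ev_le_one k))) hm
  rw [Pi.sub_apply, ip_sub_left, ip_iter_φ, HV, c.ip_H_φ, ← sub_mul, mul_mul_mul_comm,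
    mul_assoc (2 * m : ℝ) τ, ← sq]
  refine mul_le_mul_of_nonneg_right ?_ (mul_self_nonneg _)
  exact sq_le_sq' (abs_le.1 h1).1 (abs_le.1 h1).2

/-- **(S2), finite form**: resolvent closeness on the `2m` functions `R_d^i h` -/
theorem s2_fin {c d : RC Ω} (hπ : d.π = c.π) {σ τ r : ℝ} (hσ : 0 ≤ σ) (hτ : 0 ≤ τ)
    (h : ι → Ω → ℝ) {m : ℕ} (hm : 0 < m)
    (hr : ∀ i < 2 * m, nv c.π (RV c σ ((RV d τ)^[i] h) - RV d τ ((RV d τ)^[i] h)) ≤ r) :
    nv c.π (HV c (2 * m * σ) h - HV d (2 * m * τ) h) ≤ 4 / m * nv c.π h + 2 * m * r := by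
  have h1 := nv_HV_sub_iter c hσ h hm
  have h2 := nv_HV_sub_iter d hτ h hm
  have h3 := tele c d hσ h (2 * m) hr
  rw [hπ, nv_sub_comm] at h2
  have h4 := nv_tri c.isP (HV c (2 * m * σ) h) ((RV c σ)^[2 * m] h) (HV d (2 * m * τ) h)
  have h5 := nv_tri c.isP ((RV c σ)^[2 * m] h) ((RV d τ)^[2 * m] h) (HV d (2 * m * τ) h)
  push_cast at h3
  have e : 4 / (m : ℝ) * nv c.π h = 2 / m * nv c.π h + 2 / m * nv c.π h := by ring
  linarith

lemma exists_dd {τ₁ τ₂ ρ : ℝ} (h₁ : 0 < τ₁) (hρ : 0 < ρ) :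
    ∃ e : ℝ, 0 < e ∧ ∀ τ, τ₁ ≤ τ → τ ≤ τ₂ → dd τ e ≤ ρ := by
  have hc : ContinuousAt (fun e : ℝ => 2 * e * (1 + |τ₂|) + e * (1 + 1 / τ₁) +
      4 * √(e * (1 + 1 / τ₁))) 0 := by fun_prop
  have h0 := (hc.eventually_lt continuousAt_const (show 2 * 0 * (1 + |τ₂|) + 0 * (1 + 1 / τ₁) +
    4 * √(0 * (1 + 1 / τ₁)) < ρ by simpa using hρ)).filter_mono
      (nhdsWithin_le_nhds (s := Set.Ioi 0))
  obtain ⟨e, he, he0⟩ := (h0.and self_mem_nhdsWithin).exists
  have he0 : 0 < e := he0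
  refine ⟨e, he0, fun τ ht1 ht2 => le_trans ?_ he.le⟩
  have ht3 : τ ≤ |τ₂| := ht2.trans (le_abs_self _)
  unfold dd
  gcongr

end Crest.Agent.T157.Sg

namespace Crest.Agent.T157.Sg

open Finset Matrix
open Crest.Agent.T157.Chain22 Crest.Agent.T157.Soft

universe u v

/-- **(S2)** comparable forms have close semigroups, uniformly on compact time intervals -/
theorem s2 {t₁ t₂ δ : ℝ} (h₁ : 0 < t₁) (hδ : 0 < δ) : ∃ e : ℝ, 0 < e ∧
    ∀ (Ω : Type u) (ι : Type v) [Fintype Ω] [Fintype ι] [DecidableEq Ω] (c d : RC Ω), d.π = c.π →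
      ∀ a b : ℝ, 0 ≤ a → 0 ≤ b → I1 ι c d a b e → I2 ι c d a b e →
      ∀ t, t₁ ≤ t → t ≤ t₂ → ∀ (h : ι → Ω → ℝ) (B : ℝ), Sup h B →
        nv c.π (HV c (a * t) h - HV d (b * t) h) ≤ δ * √B := by
  obtain ⟨m, hm⟩ := exists_nat_gt (8 / δ)
  have hm0 : (0 : ℝ) < m := lt_trans (by positivity) hm
  obtain ⟨e, he, hd⟩ := exists_dd (τ₁ := t₁ / (2 * m)) (τ₂ := t₂ / (2 * m))
    (ρ := (δ / (4 * m)) ^ 2) (by positivity) (by positivity)
  refine ⟨e, he, fun Ω ι _ _ _ c d hπ a b ha hb i1 i2 t ht1 ht2 h B hh => ?_⟩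
  have ht : 0 < t := h₁.trans_le ht1
  have hτ : 0 < t / (2 * m) := by positivity
  have hB := hh.nonneg c.isP
  have key := s2_fin hπ (σ := t / (2 * m) * a) (τ := t / (2 * m) * b) (r := δ / (4 * m) * √B)
    (by positivity) (by positivity) h (m := m) (by exact_mod_cast hm0) fun i _ => by
      refine nv_le_of_sq (by positivity) ?_
      refine (s1 hπ ha hb he.le hτ i1 i2 (hh.iter d (by positivity) i)).trans ?_
      rw [mul_pow, Real.sq_sqrt hB]
      exact mul_le_mul_of_nonneg_right (hd _ (by gcongr) (by gcongr)) hB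
  have e1 : 2 * m * (t / (2 * m) * a) = a * t := by field_simp
  have e2 : 2 * m * (t / (2 * m) * b) = b * t := by field_simp
  have e3 : 2 * m * (δ / (4 * m) * √B) = δ / 2 * √B := by field_simp; ring
  rw [e1, e2, e3] at key
  have h4 : 4 / (m : ℝ) ≤ δ / 2 := by
    rw [div_lt_iff₀ hδ] at hm
    rw [div_le_iff₀ hm0]; linarith
  have h5 : 4 / (m : ℝ) * nv c.π h ≤ δ / 2 * √B :=
    mul_le_mul h4 (hh.nv_le c.isP) (nv_nonneg _) (by positivity)
  linarith

end Crest.Agent.T157.Sg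

end
end

-- ▼ part T157/SgB_90
section

/-!
# Row 157, part C: static replacement of the two-time autocorrelation (helper90)

Under an entropy bound from every start (`EC`), the pair `(σ_s, σ_{s+t})` is contiguous to the
product of two stationary copies.  So the features can be replaced by bounded static ones
(`EC.BB_sub`), and the semigroup by a comparison semigroup (`EC.BB_static`, `AA_static`).
-/

set_option autoImplicit false

noncomputable section

namespace Crest.Agent.T157.Sg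

open Finset Matrix
open Crest.Agent.T157.Chain22 Crest.Agent.T157.Soft Crest.Agent.T157.Ent

section one
variable {Ω : Type*} [Fintype Ω]

/-- contiguity: small in `L²(π)` with an exponential moment gives small under bounded entropy -/
lemma small_of_kl {ν π Y : Ω → ℝ} (hν : IsP ν) (hπ : IsP π) (hac : AC ν π) {C θ κ X : ℝ}
    (hC : kl ν π ≤ C) (hθ : 0 < θ) (hκ0 : 0 ≤ κ) (hκ : ip π Y Y ≤ κ ^ 2)
    (hX : mean π (fun x => Real.exp (2 * θ * |Y x|)) ≤ X) : |mean ν Y| ≤ C / θ + κ * √X := by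
  have h1 : |mean ν Y| ≤ mean ν fun x => |Y x| :=
    (abs_sum_le_sum_abs _ _).trans (le_of_eq (sum_congr rfl fun x _ => by
      rw [abs_mul, abs_of_nonneg (hν.nn x)]))
  have h2 := mean_le_kl_theta hν hπ hac (fun x => |Y x|) hθ
  have h3 := Real.log_le_sub_one_of_pos (mean_exp_pos hπ fun x => θ * |Y x|)
  have h4 : mean π (fun x => Real.exp (θ * |Y x|)) ≤
      1 + θ * ip π (fun x => |Y x|) fun x => Real.exp (θ * |Y x|) := by
    rw [ip_eq_mean, ← mean_const_mul, ← hπ.mean_const 1, ← mean_add']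
    refine hπ.mean_mono fun x => ?_
    have a := Real.add_one_le_exp (-(θ * |Y x|))
    have b : Real.exp (-(θ * |Y x|)) * Real.exp (θ * |Y x|) = 1 := by rw [← Real.exp_add]; simp
    nlinarith [Real.exp_pos (θ * |Y x|)]
  have h5 := hπ.ip_sq_le (fun x => |Y x|) fun x => Real.exp (θ * |Y x|)
  have e1 : ip π (fun x => |Y x|) (fun x => |Y x|) = ip π Y Y := by
    simp only [ip, abs_mul_abs_self]
  have e2 : ip π (fun x => Real.exp (θ * |Y x|)) (fun x => Real.exp (θ * |Y x|)) =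
      mean π fun x => Real.exp (2 * θ * |Y x|) :=
    mean_congr fun x => by rw [← Real.exp_add]; ring_nf
  have hX0 : 0 ≤ X := (mean_exp_pos hπ _).le.trans hX
  have h6 : ip π (fun x => |Y x|) (fun x => Real.exp (θ * |Y x|)) ≤ κ * √X := by
    refine (abs_le_of_sq_le_sq' (h5.trans ?_) (by positivity)).2
    rw [e1, e2, mul_pow, Real.sq_sqrt hX0]
    exact mul_le_mul hκ hX (mean_exp_pos hπ _).le (sq_nonneg _)
  refine h1.trans (h2.trans ?_)
  rw [div_le_iff₀ hθ, add_mul, div_mul_cancel₀ _ hθ.ne']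
  nlinarith [mul_le_mul_of_nonneg_left h6 hθ.le]


/-- product law -/
def prd (π : Ω → ℝ) : Ω × Ω → ℝ := fun p => π p.1 * π p.2

lemma mean_prd (π : Ω → ℝ) (F : Ω × Ω → ℝ) :
    mean (prd π) F = ∑ x, ∑ y, π x * π y * F (x, y) := Fintype.sum_prod_type _

lemma isP_prd {π : Ω → ℝ} (h : IsP π) : IsP (prd π) :=
  ⟨fun p => mul_nonneg (h.nn _) (h.nn _), by
    simp only [prd, Fintype.sum_prod_type, ← mul_sum, h.sum1, mul_one]⟩



/-- product of two copies of a chain -/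
def prC (d : RC Ω) : RC (Ω × Ω) where
  π := prd d.π
  P p q := d.P p.1 q.1 * d.P p.2 q.2
  pos p := mul_pos (d.pos _) (d.pos _)
  sum1 := (isP_prd d.isP).sum1
  nn p q := mul_nonneg (d.nn _ _) (d.nn _ _)
  row p := by simp only [Fintype.sum_prod_type, ← mul_sum, d.row, mul_one]
  rev p q := by
    have h1 := d.rev p.1 q.1
    have h2 := d.rev p.2 q.2
    simp only [prd]
    calc _ = d.π p.1 * d.P p.1 q.1 * (d.π p.2 * d.P p.2 q.2) := by ring
      _ = _ := by rw [h1, h2]; ring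

variable {ι κ : Type*} [Fintype ι] [Fintype κ]

/-- squared distance of the overlap kernels under two independent copies -/
def KK (π : Ω → ℝ) (a : ι → Ω → ℝ) (b : κ → Ω → ℝ) : ℝ :=
  mean (prd π) fun p => (rr a p.1 p.2 - rr b p.1 p.2) ^ 2

lemma XX_eq (c : RC Ω) (a : ι → Ω → ℝ) (θ : ℝ) :
    XX c a θ = mean (prd c.π) fun p => Real.exp (θ * |rr a p.1 p.2|) := by
  rw [mean_prd]; rfl




lemma rr_mulVec (Q : Matrix Ω Ω ℝ) (a : ι → Ω → ℝ) (x y : Ω) :
    rr (fun i => Q *ᵥ a i) x y = ∑ q : Ω × Ω, Q x q.1 * Q y q.2 * rr a q.1 q.2 := by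
  simp only [rr, mulVec, dotProduct, Fintype.sum_prod_type, sum_mul_sum]
  rw [sum_comm]
  refine sum_congr rfl fun x' _ => ?_
  rw [sum_comm]
  refine sum_congr rfl fun y' _ => ?_
  rw [mul_sum]
  exact sum_congr rfl fun i _ => by ring

/-- `Q` is a part of the kernel of `d` of total mass at least `1 - δ` -/
structure SubK (d : RC Ω) (Q : Matrix Ω Ω ℝ) (δ : ℝ) : Prop where
  nn : ∀ x y, 0 ≤ Q x y
  le : ∀ x y, Q x y ≤ d.P x y
  mass : 1 - δ ≤ mean d.π fun x => ∑ y, Q x y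

lemma subK_self (d : RC Ω) : SubK d d.P 0 :=
  ⟨d.nn, fun _ _ => le_rfl, by simp only [d.row, d.isP.mean_const, sub_zero, le_refl]⟩

lemma SubK.abs_rr_le {d : RC Ω} {Q : Matrix Ω Ω ℝ} {δ : ℝ} (h : SubK d Q δ) (a : ι → Ω → ℝ)
    (p : Ω × Ω) : |rr (fun i => Q *ᵥ a i) p.1 p.2| ≤
      ((prC d).P *ᵥ fun q => |rr a q.1 q.2|) p := by
  rw [rr_mulVec]
  refine (abs_sum_le_sum_abs _ _).trans (sum_le_sum fun q _ => ?_)
  rw [abs_mul, abs_of_nonneg (mul_nonneg (h.nn _ _) (h.nn _ _))]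
  exact mul_le_mul_of_nonneg_right (mul_le_mul (h.le _ _) (h.le _ _) (h.nn _ _) (d.nn _ _))
    (abs_nonneg _)

/-- exponential moments are inherited by conditional expectations -/
lemma SubK.XX_le {c d : RC Ω} (hπ : d.π = c.π) {Q : Matrix Ω Ω ℝ} {δ : ℝ} (h : SubK d Q δ)
    (a : ι → Ω → ℝ) {θ : ℝ} (hθ : 0 ≤ θ) : XX c (fun i => Q *ᵥ a i) θ ≤ XX c a θ := by
  rw [XX_eq, XX_eq, ← hπ]
  refine le_trans ((isP_prd d.isP).mean_mono fun p => ?_)
    ((prC d).mean_P fun p => Real.exp (θ * |rr a p.1 p.2|)).le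
  have h1 := mean_le_log_mean_exp ((prC d).isP_row p) fun q => θ * |rr a q.1 q.2|
  rw [mean_const_mul, Real.le_log_iff_exp_le (mean_exp_pos ((prC d).isP_row p) _)] at h1
  exact (Real.exp_le_exp.2 (mul_le_mul_of_nonneg_left (h.abs_rr_le a p) hθ)).trans h1

lemma mean_rr_sq_le (c : RC Ω) (a : ι → Ω → ℝ) :
    mean (prd c.π) (fun p => rr a p.1 p.2 ^ 2) ≤ 2 * XX c a 1 := by
  rw [XX_eq, ← mean_const_mul]
  refine (isP_prd c.isP).mean_mono fun p => ?_
  have := Real.pow_div_factorial_le_exp _ (abs_nonneg (rr a p.1 p.2)) 2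
  rw [sq_abs] at this
  norm_num [Nat.factorial] at this ⊢
  linarith



lemma abs_dot_le {u v : ι → ℝ} {A B : ℝ} (hu : ∑ i, u i ^ 2 ≤ A) (hv : ∑ i, v i ^ 2 ≤ B) :
    (∑ i, u i * v i) ^ 2 ≤ A * B :=
  (sum_mul_sq_le_sq_mul_sq _ _ _).trans (mul_le_mul hu hv (sum_nonneg fun _ _ => sq_nonneg _)
    ((sum_nonneg fun _ _ => sq_nonneg _).trans hu))

end one

variable {Ω ι κ : Type*} [Fintype Ω] [DecidableEq Ω] [Fintype ι] [Fintype κ] {c d : RC Ω}
  {ν : Ω → ℝ}

/-- the law of `(σ_s, σ_{s+t})` -/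
def pairL (c : RC Ω) (ν : Ω → ℝ) (s t : ℝ) : Ω × Ω → ℝ := fun p => (ν ᵥ* c.H s) p.1 * c.H t p.1 p.2

lemma isP_pairL (hν : IsP ν) {s t : ℝ} (hs : 0 ≤ s) (ht : 0 ≤ t) : IsP (pairL c ν s t) :=
  ⟨fun p => mul_nonneg ((isP_vecMul hν hs).nn _) (c.H_nn ht _ _), by
    simp only [pairL, Fintype.sum_prod_type, ← mul_sum, c.H_row, mul_one]
    exact (isP_vecMul hν hs).sum1⟩

lemma BB_eq_pair (a : ι → Ω → ℝ) (s t : ℝ) :
    BB c a ν s t = mean (pairL c ν s t) fun p => rr a p.1 p.2 := by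
  simp only [BB, Gt, mean, pairL, Fintype.sum_prod_type, mul_sum, mul_assoc]

lemma kl_pairL {b C s t : ℝ} (h : EC c b C) (hb : 0 ≤ b) (hν : IsP ν) (hs : b ≤ s) (ht : b ≤ t) :
    kl (pairL c ν s t) (prd c.π) ≤ 2 * C := by
  have h1 := kl_chain (ν := ν ᵥ* c.H s) (μ := c.π) (AC.of_pos _ c.pos) (K := c.H t)
    (L := fun _ => c.π) (isP_H (hb.trans ht)) fun _ _ => AC.of_pos _ c.pos
  have h2 := (h.mono hb hs).kl_le (hb.trans hs) hν
  have hP := isP_vecMul (c := c) hν (hb.trans hs)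
  have h3 := (hP.mean_mono (h.mono hb ht)).trans_eq (hP.mean_const C)
  exact h1.trans_le (by linarith)

/-- **replacement of the features** -/
theorem BB_sub {b C s t θ X k : ℝ} (h : EC c b C) (hb : 0 ≤ b) (hν : IsP ν) (hs : b ≤ s)
    (ht : b ≤ t) (hθ : 0 < θ) (hk : 0 ≤ k) {a : ι → Ω → ℝ} {a' : κ → Ω → ℝ}
    (h1 : XX c a (4 * θ) ≤ X) (h2 : XX c a' (4 * θ) ≤ X) (h3 : KK c.π a a' ≤ k ^ 2) :
    |BB c a ν s t - BB c a' ν s t| ≤ 2 * C / θ + k * √X := by
  rw [BB_eq_pair, BB_eq_pair, ← mean_sub']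
  refine small_of_kl (isP_pairL hν (hb.trans hs) (hb.trans ht)) (isP_prd c.isP)
    (AC.of_pos _ (prC c).pos) (kl_pairL h hb hν hs ht) hθ hk ?_ ?_
  · simpa only [KK, sq, ip_eq_mean] using h3
  · rw [XX_eq] at h1 h2
    have h0 : (0 : ℝ) ≤ 1 / 2 := by norm_num
    refine le_trans ?_ ((add_le_add (mul_le_mul_of_nonneg_left h1 h0)
      (mul_le_mul_of_nonneg_left h2 h0)).trans_eq (by ring))
    rw [← mean_const_mul, ← mean_const_mul, ← mean_add']
    refine (isP_prd c.isP).mean_mono fun p => ?_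
    have e : ∀ u : ℝ, Real.exp (4 * θ * u) = Real.exp (2 * θ * u) ^ 2 := fun u => by
      rw [← Real.exp_nat_mul]; push_cast; ring_nf
    have h4 : Real.exp (2 * θ * |rr a p.1 p.2 - rr a' p.1 p.2|) ≤
        Real.exp (2 * θ * |rr a p.1 p.2|) * Real.exp (2 * θ * |rr a' p.1 p.2|) := by
      rw [← Real.exp_add, ← mul_add]
      exact Real.exp_le_exp.2 (mul_le_mul_of_nonneg_left (abs_sub _ _) (by positivity))
    rw [e, e]
    nlinarith [sq_nonneg (Real.exp (2 * θ * |rr a p.1 p.2|) - Real.exp (2 * θ * |rr a' p.1 p.2|))]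

lemma pi_vecMul_H (c : RC Ω) {s : ℝ} (hs : 0 ≤ s) : c.π ᵥ* c.H s = c.π := (c.heat s hs).vecMul_π

lemma BB_pi (a : ι → Ω → ℝ) {s : ℝ} (hs : 0 ≤ s) (t : ℝ) : BB c a c.π s t = AA c a t := by
  rw [BB, pi_vecMul_H c hs, AA_eq]; rfl

theorem AA_sub {b C t θ X k : ℝ} (h : EC c b C) (hb : 0 ≤ b) (ht : b ≤ t) (hθ : 0 < θ)
    (hk : 0 ≤ k) {a : ι → Ω → ℝ} {a' : κ → Ω → ℝ} (h1 : XX c a (4 * θ) ≤ X)
    (h2 : XX c a' (4 * θ) ≤ X) (h3 : KK c.π a a' ≤ k ^ 2) :
    |AA c a t - AA c a' t| ≤ 2 * C / θ + k * √X := by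
  rw [← BB_pi a hb, ← BB_pi a' hb]
  exact BB_sub h hb c.isP le_rfl ht hθ hk h1 h2 h3

lemma Gt_eq (c : RC Ω) (a : ι → Ω → ℝ) (t : ℝ) (x : Ω) :
    Gt c a t x = ∑ i, a i x * HV c t a i x := by
  simp only [Gt, rr, HV, mulVec, dotProduct, mul_sum]
  rw [sum_comm]
  exact sum_congr rfl fun i _ => sum_congr rfl fun y _ => by ring





omit [DecidableEq Ω] in
lemma mean_vecMul (ν : Ω → ℝ) (K : Matrix Ω Ω ℝ) (f : Ω → ℝ) :
    mean (ν ᵥ* K) f = mean ν (K *ᵥ f) := mean_mix K f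


end Crest.Agent.T157.Sg

end
namespace Crest.Agent.T157.Sg.Sup
end Crest.Agent.T157.Sg.Sup
end

-- ▼ part T157/SgC_90

/-!
# Row 157, part C: the static chain as a reversible chain (helper90)

`stRC φ hw hs`: from `x` draw `y = s φ(x) + √s z`, then a fresh sample of the posterior.  Dirichlet
form, truncated kernels `stQ`, the kernel discrepancy `KK a (T a)`, exponential moments, and the
dictionary to `St.Tk`, `St.PhiL`.
-/

set_option autoImplicit false

noncomputable section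

namespace Crest.Agent.T157.Sg

section rc
open Finset Matrix
open Crest.Agent.T157.Chain22 Crest.Agent.T157.Soft Crest.Agent.T157.Ent

variable {Ω ι : Type*} [Fintype Ω] [Fintype ι]

/-- squared Hilbert–Schmidt norm of the Dirichlet matrix of the features -/
def HS2 (d : RC Ω) (a : ι → Ω → ℝ) : ℝ := ∑ i, ∑ j, d.D (a i) (a j) ^ 2

/-- linear combination of the features -/
def lc (a : ι → Ω → ℝ) (u : ι → ℝ) : Ω → ℝ := ∑ i, u i • a i

lemma D_lc (d : RC Ω) (a : ι → Ω → ℝ) (u : ι → ℝ) :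
    d.D (lc a u) (lc a u) = ∑ i, ∑ j, u i * u j * d.D (a i) (a j) := by
  simp only [RC.D, lc, mulVec_sum, mulVec_smul, ← sum_sub_distrib, ← smul_sub, ip_sum_left,
    ip_sum_right, ip_smul_left, ip_smul_right, mul_sum, mul_assoc]
  rw [sum_comm]
  exact sum_congr rfl fun i _ => sum_congr rfl fun j _ => by ring

lemma HS_cs (A B : ι → ι → ℝ) :
    ∑ i, ∑ j, A i j * B i j ≤ √(∑ i, ∑ j, A i j ^ 2) * √(∑ i, ∑ j, B i j ^ 2) := by
  have := Real.sum_mul_le_sqrt_mul_sqrt univ (fun p : ι × ι => A p.1 p.2) fun p => B p.1 p.2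
  simpa only [Fintype.sum_prod_type] using this

lemma HS2_nonneg (d : RC Ω) (a : ι → Ω → ℝ) : 0 ≤ HS2 d a := by unfold HS2; positivity

lemma sum_D_mul (d d' : RC Ω) (a : ι → Ω → ℝ) :
    ∑ i, ∑ j, d.D (a i) (a j) * d'.D (a i) (a j) = 1 / 2 * ∑ x, ∑ y, d.π x * d.P x y *
      d'.D (lc a fun i => a i x - a i y) (lc a fun i => a i x - a i y) := by
  simp only [d.D_eq, D_lc, mul_sum, sum_mul]
  have key : ∀ F : ι → ι → Ω → Ω → ℝ,
      ∑ i, ∑ j, ∑ x, ∑ y, F i j x y = ∑ x, ∑ y, ∑ i, ∑ j, F i j x y := fun F => by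
    have := sum_comm (s := univ) (t := univ) (f := fun (p : ι × ι) (q : Ω × Ω) => F p.1 p.2 q.1 q.2)
    simpa only [Fintype.sum_prod_type] using this
  rw [key]
  exact sum_congr rfl fun x _ => sum_congr rfl fun y _ => sum_congr rfl fun i _ =>
    sum_congr rfl fun j _ => by ring

lemma HS2_mono {d d' : RC Ω} (a : ι → Ω → ℝ) (h : ∀ f, d.D f f ≤ d'.D f f) :
    HS2 d a ≤ HS2 d' a := by
  have h1 : HS2 d a ≤ √(HS2 d a) * √(HS2 d' a) := by
    refine le_trans ?_ (HS_cs _ _)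
    simp only [HS2, sq, sum_D_mul]
    refine mul_le_mul_of_nonneg_left (sum_le_sum fun x _ => sum_le_sum fun y _ => ?_) (by norm_num)
    exact mul_le_mul_of_nonneg_left (h _) (mul_nonneg (d.pos x).le (d.nn x y))
  nlinarith [Real.sq_sqrt (HS2_nonneg d a), Real.sq_sqrt (HS2_nonneg d' a),
    sq_nonneg (√(HS2 d a) - √(HS2 d' a))]

lemma mean_rr_sq (π : Ω → ℝ) (a : ι → Ω → ℝ) :
    mean (prd π) (fun p => rr a p.1 p.2 ^ 2) = ∑ i, ∑ j, ip π (a i) (a j) ^ 2 := by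
  simp only [rr, sq, sum_mul_sum, mean_sum', mean_prd, ip]
  refine sum_congr rfl fun i _ => sum_congr rfl fun j _ => sum_congr rfl fun x _ =>
    sum_congr rfl fun y _ => by ring

lemma mean_dot_sq_le {d : RC Ω} (hd : d.PSD) (a b : ι → Ω → ℝ) :
    mean (prd d.π) (fun p => (∑ i, (a i p.1 - (d.P *ᵥ a i) p.1) * b i p.2) ^ 2) ≤
      √(mean (prd d.π) fun p => rr b p.1 p.2 ^ 2) * √(HS2 d a) := by
  have h1 : ∀ y, ∑ x, d.π x * (∑ i, (a i x - (d.P *ᵥ a i) x) * b i y) ^ 2 ≤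
      ∑ i, ∑ j, b i y * b j y * d.D (a i) (a j) := fun y => by
    rw [← D_lc]
    set f := lc a fun i => b i y with hf
    have e : ∀ x, ∑ i, (a i x - (d.P *ᵥ a i) x) * b i y = (f - d.P *ᵥ f) x := fun x => by
      simp only [hf, lc, mulVec_sum, mulVec_smul, Pi.sub_apply, Finset.sum_apply, Pi.smul_apply,
        smul_eq_mul, ← sum_sub_distrib]
      exact sum_congr rfl fun i _ => by ring
    have h2 := hd.ip_P_P_le f
    have h3 : ip d.π (f - d.P *ᵥ f) (f - d.P *ᵥ f) ≤ d.D f f := by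
      rw [RC.D, ip_sub_left, ip_sub_right d.π (d.P *ᵥ f), ip_comm d.π (d.P *ᵥ f) f]
      linarith
    simpa only [e, sq, ip] using h3
  rw [mean_rr_sq, mean_prd, sum_comm]
  refine le_trans ?_ (HS_cs _ _)
  calc _ = ∑ y, d.π y * ∑ x, d.π x * (∑ i, (a i x - (d.P *ᵥ a i) x) * b i y) ^ 2 := by
        simp only [mul_sum]
        exact sum_congr rfl fun y _ => sum_congr rfl fun x _ => by ring
    _ ≤ ∑ y, d.π y * ∑ i, ∑ j, b i y * b j y * d.D (a i) (a j) :=
        sum_le_sum fun y _ => mul_le_mul_of_nonneg_left (h1 y) (d.pos y).le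
    _ = _ := by
        simp only [ip, mul_sum, sum_mul]
        rw [sum_comm]
        refine sum_congr rfl fun i _ => ?_
        rw [sum_comm]
        exact sum_congr rfl fun j _ => sum_congr rfl fun y _ => by ring

lemma mean_prd_swap (π : Ω → ℝ) (F : Ω → Ω → ℝ) :
    mean (prd π) (fun p => F p.1 p.2) = mean (prd π) fun p => F p.2 p.1 := by
  rw [mean_prd, mean_prd, sum_comm]
  exact sum_congr rfl fun x _ => sum_congr rfl fun y _ => by ring

/-- the overlap kernel is close to that of the smoothed features -/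
theorem KK_P_le [DecidableEq Ω] {c d : RC Ω} (hπ : d.π = c.π) (hd : d.PSD) (a : ι → Ω → ℝ) :
    KK c.π a (fun i => d.P *ᵥ a i) ≤ 4 * √(2 * XX c a 1) * √(HS2 d a) := by
  have h0 := mean_rr_sq_le c a
  rw [← hπ] at h0 ⊢
  have h1 := mean_dot_sq_le hd a a
  have h2 := mean_dot_sq_le hd a fun i => d.P *ᵥ a i
  have h3 : mean (prd d.π) (fun p => rr (fun i => d.P *ᵥ a i) p.1 p.2 ^ 2) ≤
      mean (prd d.π) fun p => rr a p.1 p.2 ^ 2 := by
    have := (prC d).ip_P_P_le fun p => rr a p.1 p.2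
    simp only [rr_mulVec, sq]
    exact this
  rw [mean_prd_swap _ fun x y => (∑ i, (a i x - (d.P *ᵥ a i) x) * (d.P *ᵥ a i) y) ^ 2] at h2
  have h4 := mul_le_mul_of_nonneg_right (Real.sqrt_le_sqrt h0) (Real.sqrt_nonneg (HS2 d a))
  have h5 := mul_le_mul_of_nonneg_right (Real.sqrt_le_sqrt (h3.trans h0))
    (Real.sqrt_nonneg (HS2 d a))
  refine le_trans ?_ (show 2 * _ + 2 * _ ≤ _ from
    (add_le_add (mul_le_mul_of_nonneg_left (h1.trans h4) zero_le_two)
      (mul_le_mul_of_nonneg_left (h2.trans h5) zero_le_two)).trans_eq (by ring))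
  rw [KK, ← mean_const_mul, ← mean_const_mul, ← mean_add']
  refine (isP_prd d.isP).mean_mono fun p => ?_
  have e : rr a p.1 p.2 - rr (fun i => d.P *ᵥ a i) p.1 p.2 =
      ∑ i, (a i p.1 - (d.P *ᵥ a i) p.1) * a i p.2 +
        ∑ i, (a i p.2 - (d.P *ᵥ a i) p.2) * (d.P *ᵥ a i) p.1 := by
    simp only [rr, ← sum_sub_distrib, ← sum_add_distrib]
    exact sum_congr rfl fun i _ => by ring
  rw [e]
  nlinarith [sq_nonneg (∑ i, (a i p.1 - (d.P *ᵥ a i) p.1) * a i p.2 -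
    ∑ i, (a i p.2 - (d.P *ᵥ a i) p.2) * (d.P *ᵥ a i) p.1)]

end rc

section st
open MeasureTheory Set Matrix
open Crest.Agent.T157.E Crest.Agent.T157.SL Crest.Agent.T157.Rec
open Crest.Agent.T157.Chain22 (RC ip)

variable {Ω ι : Type*} [Fintype Ω] [Nonempty Ω] [DecidableEq Ω] [Fintype ι] [DecidableEq ι]
  {φ : Ω → ι → ℝ} {w : Ω → ℝ} {s : ℝ} {χ : (ι → ℝ) → ℝ}

/-- the static kernel with a weight `χ` of the observation -/
def stQ (φ : Ω → ι → ℝ) (w : Ω → ℝ) (s : ℝ) (χ : (ι → ℝ) → ℝ) : Matrix Ω Ω ℝ :=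
  fun x x' => Pm φ s (fun _ y => χ y * prob (post φ w s y) x') x

omit [Nonempty Ω] in
lemma mg_prob (hw : Wt w) (s : ℝ) (x : Ω) : MG fun y => prob (post φ w s y) x := by
  simpa only [mean_single] using mg_pm (φ := φ) hw s (Pi.single x 1)

omit [Nonempty Ω] in
lemma stQ_mulVec (hw : Wt w) (hχ : MG χ) (g : Ω → ℝ) :
    stQ φ w s χ *ᵥ g = Pm φ s fun _ y => χ y * mean (post φ w s y) g := by
  funext x
  have := Pm_sum (φ := φ) (t := s) Finset.univ
    (Ψ := fun x' _ y => g x' * (χ y * prob (post φ w s y) x'))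
    (fun x' _ _ => (hχ.mul (mg_prob hw s x')).const_mul _) x
  simp only [Pm_mul (fun _ => g _)] at this
  simp only [mulVec, dotProduct, stQ, mul_comm _ (g _), ← this, mean, Finset.mul_sum]
  congr 1
  funext _ y
  exact Finset.sum_congr rfl fun x' _ => by ring

omit [Nonempty Ω] in
lemma ip_stQ (hw : Wt w) (hs : 0 ≤ s) (hχ : MG χ) (f g : Ω → ℝ) :
    ip (prob w) f (stQ φ w s χ *ᵥ g) =
      slE φ w s fun _ y => χ y * (mean (post φ w s y) f * mean (post φ w s y) g) := by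
  have h1 : ip (prob w) f (stQ φ w s χ *ᵥ g) =
      slE φ w s fun x y => f x * (χ y * mean (post φ w s y) g) := by
    rw [stQ_mulVec hw hχ, slE_eq_Pm]
    exact Finset.sum_congr rfl fun x _ => by rw [Pm_mul]
  rw [h1, bayes hw hs (.of_mg fun x => (hχ.mul (mg_pm hw s g)).const_mul _)]
  simp only [mean_mul_const]
  congr 1
  funext _ y
  ring

/-- **the static chain** -/
def stRC (φ : Ω → ι → ℝ) {w : Ω → ℝ} (hw : ∀ x, 0 < w x) {s : ℝ} (hs : 0 ≤ s) : RC Ω where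
  π := prob w
  P := stQ φ w s fun _ => 1
  pos x := div_pos (hw x) (Wt.of_pos hw).pos
  sum1 := (Wt.of_pos hw).sum_prob
  nn x x' := Pm_nonneg fun y => by
    rw [one_mul]; exact ((Wt.of_pos hw).post φ s y).prob_nonneg x'
  row x := by
    have := congrFun (stQ_mulVec (φ := φ) (s := s) (Wt.of_pos hw) (.const 1) fun _ => 1) x
    simp only [((Wt.of_pos hw).post φ s _).mean_const, mul_one, Pm_fun fun _ => (1 : ℝ)] at this
    simpa only [mulVec, dotProduct, mul_one] using this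
  rev x x' := by
    have e : ∀ x x', prob w x * stQ φ w s (fun _ => 1) x x' =
        ip (prob w) (Pi.single x 1) (stQ φ w s (fun _ => 1) *ᵥ Pi.single x' 1) := fun x x' => by
      simp [ip, Pi.single_apply]
    rw [e, e, ip_stQ (Wt.of_pos hw) hs (.const 1), ip_stQ (Wt.of_pos hw) hs (.const 1)]
    simp only [mul_comm]

variable (hw : ∀ x, 0 < w x) (hs : 0 ≤ s)

lemma stRC_π : (stRC φ hw hs).π = prob w := rfl

lemma stRC_mulVec (g : Ω → ℝ) :
    (stRC φ hw hs).P *ᵥ g = Pm φ s fun _ y => mean (post φ w s y) g := by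
  have := stQ_mulVec (φ := φ) (s := s) (Wt.of_pos hw) (.const 1) g
  simp only [one_mul] at this
  exact this

lemma ip_stRC (f g : Ω → ℝ) : ip (prob w) f ((stRC φ hw hs).P *ᵥ g) =
    slE φ w s fun _ y => mean (post φ w s y) f * mean (post φ w s y) g := by
  have := ip_stQ (φ := φ) (Wt.of_pos hw) hs (.const 1) f g
  simp only [one_mul] at this
  exact this

lemma stRC_psd : (stRC φ hw hs).PSD := fun f =>
  (slE_nonneg (Wt.of_pos hw) fun _ _ => mul_self_nonneg _).trans_eq (ip_stRC hw hs f f).symm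

lemma stRC_D (f g : Ω → ℝ) :
    (stRC φ hw hs).D f g = slE φ w s fun _ y => cov (post φ w s y) f g := by
  rw [RC.D, Chain22.ip_sub_right, stRC_π, ip_stRC]
  exact (total_cov (Wt.of_pos hw) f g hs).symm

lemma stRC_D_self (f : Ω → ℝ) :
    (stRC φ hw hs).D f f = slE φ w s fun _ y => var (post φ w s y) f := by
  simp only [stRC_D, var_eq_cov]

lemma DV_stRC {κ : Type*} [Fintype κ] (g : κ → Ω → ℝ) :
    DV (stRC φ hw hs) g = ∑ k, slE φ w s fun _ y => var (post φ w s y) (g k) := by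
  simp only [DV, stRC_D_self]

lemma stRC_D_anti {t : ℝ} (ht : 0 ≤ t) (hst : s ≤ t) (f : Ω → ℝ) :
    (stRC φ hw ht).D f f ≤ (stRC φ hw hs).D f f := by
  rw [stRC_D, stRC_D]
  refine le_trans ?_ (ex_cov_sub (φ := φ) (Wt.of_pos hw) f f hs hst).ge
  exact le_add_of_nonneg_right (intervalIntegral.integral_nonneg hst fun r _ =>
    ex_nonneg (Wt.of_pos hw) fun _ => SL.dot_self_nonneg _)



/-- the features as a vector function -/
abbrev ft (φ : Ω → ι → ℝ) : ι → Ω → ℝ := fun i x => φ x i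

/-- squared length of the posterior mean -/
def msq (φ : Ω → ι → ℝ) (w : Ω → ℝ) (s : ℝ) (y : ι → ℝ) : ℝ :=
  ∑ i, mean (post φ w s y) (ft φ i) ^ 2

omit [Nonempty Ω] [DecidableEq Ω] in
lemma mg_msq (hW : Wt w) (s : ℝ) : MG (msq φ w s) := .sum _ fun _ _ => mg_sq (mg_pm hW s _)

/-- the mean posterior covariance is small in Hilbert–Schmidt norm -/
theorem HS2_stRC_le : s * HS2 (stRC φ hw hs) (ft φ) ≤ slE φ w s fun _ => msq φ w s := by
  have hW := Wt.of_pos hw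
  set ψ : ι → ℝ → ℝ := fun i => ex φ w fun p =>
    covV (pw φ w p) (ft φ i) φ ⬝ᵥ covV (pw φ w p) (ft φ i) φ with hψ
  have eg : ∀ i, EG (Icc 0 s) fun p =>
      covV (pw φ w p) (ft φ i) φ ⬝ᵥ covV (pw φ w p) (ft φ i) φ := fun i =>
    .sum _ fun j _ => (eg_cov hW _ _).mul (eg_cov hW _ _)
  have hi : ∀ i, IntervalIntegrable (ψ i) volume 0 s := fun i =>
    (eg i).continuousOn_ex.intervalIntegrable_of_Icc hs
  have h1 : ∀ r ∈ Icc 0 s, HS2 (stRC φ hw hs) (ft φ) ≤ ∑ i, ψ i r := fun r hr => by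
    refine (HS2_mono _ (stRC_D_anti hw hr.1 hs hr.2)).trans (Finset.sum_le_sum fun i _ => ?_)
    simp only [hψ, dotProduct, ← sq]
    rw [ex_sum _ fun j _ => mg_sq (mg_pcov hW r _ _)]
    refine Finset.sum_le_sum fun j _ => ?_
    rw [stRC_D]
    exact ex_sq_le (G := fun p => cov (pw φ w p) (ft φ i) (ft φ j)) hW (mg_pcov hW r _ _)
  have h2 : s * HS2 (stRC φ hw hs) (ft φ) ≤ ∑ i, ∫ r in 0..s, ψ i r := by
    rw [← intervalIntegral.integral_finsetSum fun i _ => hi i]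
    refine le_trans (le_of_eq (by simp)) (intervalIntegral.integral_mono_on hs
      (intervalIntegrable_const (c := HS2 (stRC φ hw hs) (ft φ))) ?_ h1)
    exact (IntervalIntegrable.sum _ fun i _ => hi i).congr fun r _ => Finset.sum_apply _ _ _
  refine h2.trans ?_
  unfold msq
  rw [slE_sum _ fun i _ => .of_mg fun _ => mg_sq (mg_pm hW s _)]
  refine Finset.sum_le_sum fun i _ => ?_
  have h3 := cov_decomp (φ := φ) hW (ft φ i) (ft φ i) hs
  rw [total_cov hW _ _ hs, hW.cov_eq] at h3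
  have h4 := mul_self_nonneg (mean w (ft φ i))
  simp only [sq]
  change ∫ r in 0..s, ex φ w _ r ≤ ex φ w (fun p => mean (pw φ w p) (ft φ i) *
    mean (pw φ w p) (ft φ i)) s
  linarith

/-! ### dictionary to the measure-level statics -/

omit [DecidableEq Ω] [DecidableEq ι] in
include hw in
lemma pm_dm (K : ℝ) (f : (ι → ℝ) → ℝ) (y : ι → ℝ) :
    St.pm K (St.dm w φ) f y = mean (post φ w K y) fun x => f (φ x) := by
  rw [St.pm, St.Mf, St.Lnk10.integral_dm fun x => (hw x).le,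
    St.Lnk10.integral_dm fun x => (hw x).le]
  simp only [mul_comm (f _)]
  exact (mean_mul_weight w (fun x => St.ew K y (φ x)) (fun x => f (φ x))
    (Wt.of_pos hw).pos.ne').symm

lemma Tk_dm (f : (ι → ℝ) → ℝ) (x : Ω) :
    St.Tk s (St.dm w φ) f (φ x) = ((stRC φ hw hs).P *ᵥ fun x => f (φ x)) x := by
  rw [stRC_mulVec]
  simp only [St.Tk, pm_dm hw]
  rfl







omit [DecidableEq Ω] in
include hw hs in
lemma IK_Mf_dm {F : (ι → ℝ) → ℝ} (hF : MG F) :
    St.A87.IK s (fun y => St.Mf s (St.dm w φ) y * F y) = slE φ w s fun _ => F := by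
  have := St.A87.bayes (St.Lnk10.cp_dm hw φ) hs (.const 1) hF
  rw [St.Lnk10.integral_dm fun x => (hw x).le, ← St.A87.Mf_eq] at this
  simp only [one_mul] at this
  exact this.symm

omit [DecidableEq Ω] [DecidableEq ι] in
include hw in
lemma Xk_dm_le {c : RC Ω} (hc : c.π = prob w) {θ : ℝ} (hθ : 0 ≤ θ) :
    St.Xk θ (St.dm w φ) (St.dm w φ) ≤ Soft.XX c (ft φ) θ := by
  simp only [St.Xk, St.Lnk10.integral_dm fun x => (hw x).le, Soft.XX, hc, mean, Finset.mul_sum,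
    mul_assoc]
  refine Finset.sum_le_sum fun x _ => Finset.sum_le_sum fun y _ => ?_
  have := (Wt.of_pos hw).prob_nonneg
  refine mul_le_mul_of_nonneg_left (mul_le_mul_of_nonneg_left (Real.exp_le_exp.2 ?_) (this y))
    (this x)
  exact mul_le_mul_of_nonneg_left (le_abs_self _) hθ

omit [Nonempty Ω] [DecidableEq Ω] in
lemma mg_exp_msq (hW : Wt w) (s l : ℝ) : MG fun y => Real.exp (l * msq φ w s y) := by
  refine .of_bdd (((mg_msq hW s).meas.const_mul l).exp)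
    (Real.exp (|l| * ∑ i, (∑ x, |φ x i|) ^ 2)) fun y => ?_
  rw [abs_of_pos (Real.exp_pos _), Real.exp_le_exp]
  refine (le_abs_self _).trans ?_
  rw [abs_mul, abs_of_nonneg (a := msq φ w s y) (by unfold msq; positivity)]
  refine mul_le_mul_of_nonneg_left (Finset.sum_le_sum fun i _ => ?_) (abs_nonneg l)
  have := (hW.post φ s y).abs_mean_le (f := ft φ i) (c := ∑ x, |φ x i|) fun x =>
    Finset.single_le_sum (f := fun x => |φ x i|) (fun _ _ => abs_nonneg _) (Finset.mem_univ x)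
  exact sq_le_sq' (abs_le.1 this).1 (abs_le.1 this).2

include hw hs in
/-- exponential moments of the squared posterior mean -/
theorem exp_msq_le {c : RC Ω} (hc : c.π = prob w) {l : ℝ} (hl : 0 ≤ l) :
    (slE φ w s fun _ y => Real.exp (l * msq φ w s y)) ≤ Soft.XX c (ft φ) (s + 2 * l) := by
  have h := St.A87.exp_mom (St.Lnk10.cp_dm hw φ) hs (K' := 2 * l) (by positivity)
  have e : St.A87.Sq s (St.dm w φ) = msq φ w s := by
    funext y
    simp only [St.A87.Sq, St.mf, pm_dm hw, msq]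
  rw [e, mul_div_cancel_left₀ l two_ne_zero, IK_Mf_dm hw hs (mg_exp_msq (Wt.of_pos hw) s l)] at h
  exact h.trans (Xk_dm_le hw hc (by positivity))

include hw hs in
theorem msq_le {c : RC Ω} (hc : c.π = prob w) {l : ℝ} (hl : 0 ≤ l) :
    l * (slE φ w s fun _ => msq φ w s) ≤ Real.log (Soft.XX c (ft φ) (s + 2 * l)) := by
  have hW := Wt.of_pos hw
  set m := l * slE φ w s fun _ => msq φ w s with hm
  have h1 : Real.exp m ≤ slE φ w s fun _ y => Real.exp (l * msq φ w s y) := by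
    have a := (mg_msq (φ := φ) hW s).const_mul (Real.exp m * l)
    have := slE_mono (φ := φ) (s := s) hW
      (F := fun _ y => Real.exp m * (1 - m) + Real.exp m * l * msq φ w s y)
      (.of_mg fun _ => (MG.const _).add a) (.of_mg fun _ => mg_exp_msq (φ := φ) hW s l)
      fun _ y => by
        have h := Real.add_one_le_exp (l * msq φ w s y - m)
        rw [Real.exp_sub, le_div_iff₀ (Real.exp_pos m)] at h
        linarith
    rw [slE_add (.of_mg fun _ => .const _) (.of_mg fun _ => a), slE_fun fun _ => _, hW.mean_const,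
      slE_const_mul] at this
    refine le_trans (le_of_eq ?_) this
    rw [mul_assoc, ← hm]; ring
  have h2 := h1.trans (exp_msq_le hw hs hc hl)
  rwa [Real.le_log_iff_exp_le ((Real.exp_pos m).trans_le h2)]

/-- exponential moments of the smoothed features -/
theorem exp_sq_stRC_le {c : RC Ω} (hc : c.π = prob w) {l : ℝ} (hl : 0 ≤ l) :
    Chain22.mean c.π (fun x => Real.exp (l * ∑ i, ((stRC φ hw hs).P *ᵥ ft φ i) x ^ 2)) ≤
      Soft.XX c (ft φ) (s + 2 * l) := by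
  have hW := Wt.of_pos hw
  refine le_trans ?_ (exp_msq_le hw hs hc hl)
  rw [hc, slE_eq_Pm]
  refine hW.mean_mono fun x => ?_
  set m := l * Pm φ s (fun _ => msq φ w s) x with hm
  have h0 : l * ∑ i, ((stRC φ hw hs).P *ᵥ ft φ i) x ^ 2 ≤ m := by
    refine mul_le_mul_of_nonneg_left ?_ hl
    simp only [stRC_mulVec]
    refine (Finset.sum_le_sum fun i _ => Pm_sq_le (fun _ => mg_pm hW s _) x).trans ?_
    rw [← Pm_sum _ fun i _ _ => mg_sq (mg_pm hW s _)]
    rfl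
  refine (Real.exp_le_exp.2 h0).trans ?_
  have a := (mg_msq (φ := φ) hW s).const_mul (Real.exp m * l)
  have := Pm_mono (φ := φ) (t := s) (x := x)
    (Ψ := fun _ y => Real.exp m * (1 - m) + Real.exp m * l * msq φ w s y)
    (fun _ => (MG.const _).add a) (fun _ => mg_exp_msq (φ := φ) hW s l) fun y => by
      have h := Real.add_one_le_exp (l * msq φ w s y - m)
      rw [Real.exp_sub, le_div_iff₀ (Real.exp_pos m)] at h
      linarith
  rw [Pm_add (fun _ => .const _) fun _ => a, Pm_fun fun _ => _, Pm_mul fun _ => _] at this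
  refine le_trans (le_of_eq ?_) this
  rw [mul_assoc, ← hm]; ring

/-- **the overlap kernel of the smoothed features is close to the true one** -/
theorem KK_stRC_le {c : RC Ω} (hc : c.π = prob w) (h0 : 0 < s) :
    KK c.π (ft φ) (fun i => (stRC φ hw hs).P *ᵥ ft φ i) ≤
      4 * √(2 * Soft.XX c (ft φ) 1) * √(2 * Real.log (Soft.XX c (ft φ) (2 * s)) / s ^ 2) := by
  refine (KK_P_le hc.symm (stRC_psd hw hs) _).trans ?_
  refine mul_le_mul_of_nonneg_left (Real.sqrt_le_sqrt ?_) (by positivity)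
  have h1 := HS2_stRC_le (φ := φ) hw hs
  have h2 := msq_le (φ := φ) hw hs hc (l := s / 2) (by positivity)
  rw [show s + 2 * (s / 2) = 2 * s by ring] at h2
  rw [le_div_iff₀ (by positivity)]
  nlinarith [mul_le_mul_of_nonneg_left h1 hs]

omit [Nonempty Ω] [DecidableEq Ω] [DecidableEq ι] in
/-- change of units -/
lemma stQ_smul (c : ℝ) (hc : 0 < c) (s : ℝ) :
    stQ (fun x => c • φ x) w s (fun _ => 1) = stQ φ w (c ^ 2 * s) fun _ => 1 := by
  funext x x'
  simp only [stQ, Pm]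
  congr 1
  funext z
  have : post (fun x => c • φ x) w s (s • c • φ x + √s • z) =
      post φ w (c ^ 2 * s) ((c ^ 2 * s) • φ x + √(c ^ 2 * s) • z) := by
    funext u
    rw [Real.sqrt_mul (sq_nonneg c), Real.sqrt_sq hc.le]
    simp only [post, add_dotProduct, smul_dotProduct, dotProduct_smul, smul_eq_mul]
    congr 2
    ring
  rw [this]

end st

end Crest.Agent.T157.Sg

end
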