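import Crest.Agent.T157.EdDef_88
import Crest.Agent.T157.CondB_53
import Crest.Agent.T157.Top_97
import Crest.Agent.T157.PathA_90

/-!
# Row 157, part C4 (statics at `β = 1`): definitions and leaves (helper87)

Hatted units: `x̂ = n^{-1/3} x`, `t = n^{1/3} = sx n ^ 2`, `τ = n^{2/3} = tau n`.

* abstract part: the Gaussian channel `y = K x + √K z` over a compactly supported law on `ℝ^ι`,
  the static chain `Tk`, the chain functionals `PhiL`, the kernel `Xk` and the discrepancy `D2`;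
* the renormalised Stieltjes transform `Sc`, `Sr` and the good spectral event `Gd`;
* the spherical model `nuD`, `nuW`, the cube model `muW`, `muG`;
* outputs: `LdStmt CloseStmt ApproxStmt ConvStmt`, `Soft.NonzeroStmt`, `Soft.UnboundedStmt`.
-/

set_option autoImplicit false

noncomputable section

namespace Crest.Agent.T157.St

open MeasureTheory ProbabilityTheory Matrix Filter Topology Finset Real
open scoped ENNReal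
open Crest.ProbabilityR.SpinGlassDynamics Crest.Agent.T157.E Crest.Agent.T157.Eig
open Crest.Agent.T157.Cond Crest.Agent.T157.Ed Crest.Agent.T157.Top

section abs
variable {ι : Type*} [Fintype ι]

/-- compactly supported probability law -/
structure Cp (μ : Measure (ι → ℝ)) : Prop where
  prob : IsProbabilityMeasure μ
  bdd : ∃ r : ℝ, ∀ᵐ x ∂μ, x ⬝ᵥ x ≤ r

/-- `N(0, K I)` -/
def gK (ι : Type*) [Fintype ι] (K : ℝ) : Measure (ι → ℝ) := (gv ι).map fun z => √K • z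
/-- likelihood of the channel -/
def ew (K : ℝ) (y x : ι → ℝ) : ℝ := exp (y ⬝ᵥ x - K / 2 * (x ⬝ᵥ x))
/-- density of the output with respect to `gK` -/
def Mf (K : ℝ) (μ : Measure (ι → ℝ)) (y : ι → ℝ) : ℝ := ∫ x, ew K y x ∂μ
/-- posterior mean of an observable -/
def pm (K : ℝ) (μ : Measure (ι → ℝ)) (f : (ι → ℝ) → ℝ) (y : ι → ℝ) : ℝ :=
  (∫ x, f x * ew K y x ∂μ) / Mf K μ y
/-- posterior mean vector -/
def mf (K : ℝ) (μ : Measure (ι → ℝ)) (y : ι → ℝ) : ι → ℝ := fun i => pm K μ (fun x => x i) y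
/-- one step of the static chain -/
def Tk (K : ℝ) (μ : Measure (ι → ℝ)) (f : (ι → ℝ) → ℝ) (x : ι → ℝ) : ℝ :=
  ∫ z, pm K μ f (K • x + √K • z) ∂gv ι
/-- several steps of the static chain -/
def Tl (μ : Measure (ι → ℝ)) (Ks : List ℝ) (f : (ι → ℝ) → ℝ) : (ι → ℝ) → ℝ :=
  Ks.foldr (fun K g => Tk K μ g) f
/-- `E x⁰ · xʳ` along the chain with parameters `Ks` -/
def PhiL (μ : Measure (ι → ℝ)) (Ks : List ℝ) : ℝ :=
  ∑ i, ∫ x, x i * Tl μ Ks (fun x => x i) x ∂μ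
/-- exponential moment of the overlap -/
def Xk (θ : ℝ) (μ ν : Measure (ι → ℝ)) : ℝ := ∫ x, ∫ x', exp (θ * (x ⬝ᵥ x')) ∂ν ∂μ
/-- squared kernel discrepancy -/
def D2 (θ : ℝ) (μ ν : Measure (ι → ℝ)) : ℝ := Xk θ μ μ - 2 * Xk θ μ ν + Xk θ ν ν
/-- second moment matrix -/
def sm (μ : Measure (ι → ℝ)) : Matrix ι ι ℝ := fun i j => ∫ x, x i * x j ∂μ
/-- law of a feature map under a finite weight -/
def dm {Ω : Type*} [Fintype Ω] (w : Ω → ℝ) (φ : Ω → ι → ℝ) : Measure (ι → ℝ) :=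
  ∑ x, ENNReal.ofReal (prob w x) • Measure.dirac (φ x)
/-- uniform law on the sphere of radius `r` -/
def sphR (ι : Type*) [Fintype ι] (r : ℝ) : Measure (ι → ℝ) := (gv ι).map fun z => r • unitv z
/-- independent Gaussian coordinates `N(m k, c k)` -/
def gs (m c : ι → ℝ) : Measure (ι → ℝ) := Measure.pi fun k => gaussianReal (m k) (c k).toNNReal
/-- spherical shell -/
def shell (s ε : ℝ) : Set (ι → ℝ) := {x | s ≤ x ⬝ᵥ x ∧ x ⬝ᵥ x ≤ s + ε}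
/-- keep the coordinates in `s` -/
def keep [DecidableEq ι] (s : Finset ι) (x : ι → ℝ) : ι → ℝ := fun k => if k ∈ s then x k else 0

end abs

/-- extension by zero from the first `K` coordinates -/
def pad (K n : ℕ) (a : Fin K → ℝ) : Fin n → ℝ := fun k => if h : (k : ℕ) < K then a ⟨k, h⟩ else 0

/-- admissible parameter lists -/
def AdmL (Ks : List ℝ) : Prop := Ks ≠ [] ∧ ∀ K ∈ Ks, 0 < K

/-! ### models -/

/-- rescaled spin vector -/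
def hat (n : ℕ) (x : Cube n) : Fin n → ℝ := (sx n ^ 2)⁻¹ • sv x
/-- Hamiltonian in hatted units -/
def Hh (n : ℕ) (W : Mat n) (x : Fin n → ℝ) : ℝ := tau n / 2 * (x ⬝ᵥ W *ᵥ x)
/-- cube Gibbs law of a matrix -/
def muW (n : ℕ) (W : Mat n) : Measure (Fin n → ℝ) := dm (ising W 0) (hat n)
/-- cube Gibbs law of the couplings -/
def muG (n : ℕ) (g : Pair n → ℝ) : Measure (Fin n → ℝ) := dm (gibbsWeight n 1 g) (hat n)
/-- spherical Gibbs law of a matrix -/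
def nuW (n : ℕ) (W : Mat n) : Measure (Fin n → ℝ) := (sphR (Fin n) (sx n)).tilted (Hh n W)
/-- spherical Gibbs law in the eigenbasis -/
def nuD (n : ℕ) (η : ℕ → ℝ) (t : ℝ) : Measure (Fin n → ℝ) :=
  (sphR (Fin n) √t).tilted fun x => -(1 / 2) * ∑ k : Fin n, η k * x k ^ 2
/-- normalised partition functions -/
def Zc (n : ℕ) (W : Mat n) : ℝ := Zw (ising W 0) / 2 ^ n
def Zs (n : ℕ) (W : Mat n) : ℝ := ∫ x, exp (Hh n W x) ∂sphR (Fin n) (sx n)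

/-- renormalised Stieltjes transform (complex argument) -/
def Sc (n : ℕ) (W : Mat n) (ζ : ℂ) : ℂ :=
  ∑ k ∈ range n, 1 / (ζ + (Lam n W k : ℝ)) - ((sx n ^ 2 : ℝ) : ℂ)
/-- renormalised Stieltjes transform (real argument) -/
def Sr (n : ℕ) (η : ℕ → ℝ) (t w : ℝ) : ℝ := ∑ k ∈ range n, 1 / (w + η k) - t
/-- the continuous approximation of the renormalised tail sum -/
def ct (L : ℝ) {K : ℕ} (y : Fin K → ℝ) : ℝ := √(L / 2) + ∑ k, y k / (y k ^ 2 + L ^ 2)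
/-- the variances of the Gaussian reference -/
def cw (n : ℕ) (η : ℕ → ℝ) (w : ℝ) : Fin n → ℝ := fun k => 1 / (w + η k)

/-- good spectra -/
structure Gd (n : ℕ) (η : ℕ → ℝ) (t L w C : ℝ) : Prop where
  mono : ∀ k l, k ≤ l → l < n → η k ≤ η l
  lo : ∀ k : ℕ, k < n → ((k : ℝ) + 1) ^ (2 / 3 : ℝ) / 256 - L ≤ η k
  hi : ∀ k : ℕ, 8 * (k + 1) ≤ n → η k ≤ 60 * ((k : ℝ) + 1) ^ (2 / 3 : ℝ) + L
  up : Sr n η t w ≤ -(√w / 2)
  dn : ∀ v, w ≤ v → -(C * √v) ≤ Sr n η t v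

/-- stretched exponential bound of all exponential moments of the overlap -/
def Mgf {ι : Type*} [Fintype ι] (μ : Measure (ι → ℝ)) (B : ℝ) : Prop :=
  ∀ θ : ℝ, Xk θ μ μ ≤ B * exp (B * |θ| ^ (3 / 2 : ℝ))

/-! ### (A) abstract leaves -/

/-- the discrepancy is a monotone family of pseudo-metrics and controls second moments -/
def MmdStmt : Prop := ∀ (ι : Type) [Fintype ι] (μ ν ρ : Measure (ι → ℝ)), Cp μ → Cp ν → Cp ρ →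
  ∀ θ θ' : ℝ, 0 ≤ θ → θ ≤ θ' →
    0 ≤ D2 θ μ ν ∧ D2 θ μ ν ≤ D2 θ' μ ν ∧ D2 θ μ ν = D2 θ ν μ ∧ 1 ≤ Xk θ μ μ ∧
    Xk θ μ μ ≤ Xk θ' μ μ ∧ √(D2 θ μ ρ) ≤ √(D2 θ μ ν) + √(D2 θ ν ρ) ∧
    √(Xk θ μ μ) ≤ √(Xk θ ν ν) + √(D2 θ μ ν) ∧
    θ ^ 2 * ∑ i, ∑ j, (sm μ i j - sm ν i j) ^ 2 ≤ 4 * D2 θ μ ν


/-- invariance under isometric embeddings -/
def IsomStmt : Prop := ∀ (ι κ : Type) [Fintype ι] [Fintype κ] [DecidableEq κ]
  (U : Matrix ι κ ℝ), Uᵀ * U = 1 → ∀ μ ν : Measure (κ → ℝ), Cp μ → Cp ν →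
    Cp (μ.map fun x => U *ᵥ x) ∧
    (∀ θ, Xk θ (μ.map fun x => U *ᵥ x) (ν.map fun x => U *ᵥ x) = Xk θ μ ν) ∧
    sm (μ.map fun x => U *ᵥ x) = U * sm μ * Uᵀ ∧
    ∀ Ks, AdmL Ks → PhiL (μ.map fun x => U *ᵥ x) Ks = PhiL μ Ks

/-- projection of a flip-symmetric law -/
def ProjStmt : Prop := ∀ (ι : Type) [Fintype ι] [DecidableEq ι] (μ : Measure (ι → ℝ)), Cp μ →
  (∀ k, μ.map (fun x => Function.update x k (-x k)) = μ) → ∀ (s : Finset ι) (θ : ℝ), 0 ≤ θ →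
    D2 θ μ (μ.map (keep s)) ≤
      2 * θ * √(∑ k ∈ sᶜ, (∫ x, x k ^ 2 ∂μ) ^ 2) * √(Xk (2 * θ) μ μ)


/-! ### (B) the renormalised Stieltjes transform -/

def SteinStmt : Prop := ∃ C : ℝ, ∀ n : ℕ, 1 ≤ n → ∀ ζ : ℂ, 1 ≤ ζ.im → ‖ζ‖ ≤ tau n →
  ∫ W, ‖Sc n W ζ ^ 2 - ζ * (1 + Sc n W ζ / ((sx n ^ 2 : ℝ) : ℂ))‖ ^ 2 ∂GOE n ≤
    C * ‖ζ‖ / ζ.im ^ 2

def GoodStmt : Prop := ∃ C : ℝ, 0 < C ∧ ∀ ε : ℝ, 0 < ε → ∃ L w₁ : ℝ, 0 ≤ L ∧ ∀ w, w₁ ≤ w →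
  ∀ᶠ n in atTop, GOE n {W | ¬ (W.IsHermitian ∧ Gd n (Lam n W) (sx n ^ 2) L w C)} ≤ ENNReal.ofReal ε

def RenStmt : Prop := ∀ w ε : ℝ, 0 < ε → ∃ L : ℝ, 0 < L ∧ ∀ᶠ K in atTop, ∀ᶠ n in atTop,
  GOE n {W | ε < |sx n ^ 2 - ∑ k ∈ Ico K n, 1 / (w + Lam n W k) - ct L (LamV n K W)|} ≤
    ENNReal.ofReal ε

/-! ### (C) the spherical model -/

/-- basic facts and polar coordinates -/
def SphStmt : Prop := ∀ (ι : Type) [Fintype ι] [DecidableEq ι] [Nonempty ι],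
  (∀ r : ℝ, IsProbabilityMeasure (sphR ι r) ∧ (∀ᵐ x ∂sphR ι r, x ⬝ᵥ x = r ^ 2) ∧
    (sphR ι 1).map (fun x => r • x) = sphR ι r ∧
    ∀ O : Matrix ι ι ℝ, Oᵀ * O = 1 → (sphR ι r).map (fun x => O *ᵥ x) = sphR ι r) ∧
  ∃ κ : ℝ, 0 < κ ∧ ∀ F : (ι → ℝ) → ℝ≥0∞, Measurable F →
    ∫⁻ x, F x = ∫⁻ r in Set.Ioi (0 : ℝ),
      ENNReal.ofReal (κ * r ^ (Fintype.card ι - 1)) * ∫⁻ x, F (r • x) ∂sphR ι 1

/-- thin shells converge to the sphere -/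
def ShellStmt : Prop := ∀ (ι : Type) [Fintype ι] [DecidableEq ι] [Nonempty ι] (t : ℝ), 0 < t →
  ∃ κ : ℝ, 0 < κ ∧ ∀ c : ι → ℝ, (∀ k, 0 < c k) → ∀ F : (ι → ℝ) → ℝ, Continuous F →
    Tendsto (fun ε => (∫ x in shell t ε, F x ∂gs 0 c) / ε) (𝓝[>] 0)
      (𝓝 (κ * (∏ k, (√(c k))⁻¹) *
        ∫ x, F x * exp (-(1 / 2) * ∑ k, x k ^ 2 / c k) ∂sphR ι √t))

/-- two modes give upper and lower bounds of the shell probability -/
def TwoStmt : Prop := ∀ (ι : Type) [Fintype ι] [DecidableEq ι] (m c : ι → ℝ), (∀ k, 0 < c k) →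
  ∀ i j : ι, i ≠ j → ∀ G : (ι → ℝ) → ℝ≥0∞, Measurable G →
    (∀ x a b, G (Function.update (Function.update x i a) j b) = G x) → ∀ s ε : ℝ, 0 ≤ ε →
    ∫⁻ x in shell s ε, G x ∂gs m c ≤
        ENNReal.ofReal (ε / (2 * √(c i * c j))) * ∫⁻ x, G x ∂gs m c ∧
    (m i = 0 → m j = 0 → ∀ M : ℝ,
      ENNReal.ofReal (ε / (2 * √(c i * c j)) * exp (-((M + ε) / (2 * min (c i) (c j))))) *
        ∫⁻ x in {x | s - M ≤ x ⬝ᵥ x - x i ^ 2 - x j ^ 2 ∧ x ⬝ᵥ x - x i ^ 2 - x j ^ 2 ≤ s},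
          G x ∂gs m c ≤ ∫⁻ x in shell s ε, G x ∂gs m c)

/-- four modes have a Lipschitz density -/
def FourStmt : Prop := ∃ p : (Fin 4 → ℝ) → ℝ → ℝ,
  ContinuousOn (fun q : (Fin 4 → ℝ) × ℝ => p q.1 q.2) {q | ∀ k, 0 < q.1 k} ∧
  (∀ c s, s ≤ 0 → p c s = 0) ∧ (∀ c s, (∀ k, 0 < c k) → 0 < s → 0 < p c s) ∧
  (∀ a b : ℝ, 0 < a → ∃ Λ : ℝ, 0 ≤ Λ ∧ ∀ c : Fin 4 → ℝ, (∀ k, a ≤ c k ∧ c k ≤ b) →
    ∀ s s', p c s ≤ Λ ∧ |p c s - p c s'| ≤ Λ * |s - s'|) ∧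
  ∀ c : Fin 4 → ℝ, (∀ k, 0 < c k) → ∀ h : ℝ → ℝ≥0∞, Measurable h →
    ∫⁻ x, h (x ⬝ᵥ x) ∂gs 0 c = ∫⁻ s, h s * ENNReal.ofReal (p c s)

/-- lower bound of the shell probability, also with one large coordinate -/
def DenStmt : Prop := ∀ (L C m : ℝ) (K : ℕ), 0 ≤ L → ∃ w₂ : ℝ, 2 * L + 1 ≤ w₂ ∧ ∀ w, w₂ ≤ w →
  ∃ δ : ℝ, 0 < δ ∧ ∀ᶠ n in atTop, ∀ (η : ℕ → ℝ) (t : ℝ), Gd n η t L w C →
    ∀ ε, 0 < ε → ε ≤ 1 → δ * ε ≤ (gs 0 (cw n η w)).real (shell t ε) ∧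
      ∀ k : Fin n, (k : ℕ) < K →
        δ * ε ≤ (gs 0 (cw n η w)).real (shell t ε ∩ {x | m ≤ |x k|})

/-- exponential moments of the spherical overlap -/
def MgfStmt : Prop := ∀ L C : ℝ, 0 ≤ L → ∃ w₂ : ℝ, ∀ w, w₂ ≤ w → ∃ B : ℝ,
  ∀ᶠ n in atTop, ∀ (η : ℕ → ℝ) (t : ℝ), 0 < t → Gd n η t L w C → Mgf (nuD n η t) B

/-- single coordinates of the spherical model -/
def CoordStmt : Prop := ∀ (L C m : ℝ) (K : ℕ), 0 ≤ L → ∃ w₂ : ℝ, 2 * L + 1 ≤ w₂ ∧ ∀ w, w₂ ≤ w →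
  ∃ B δ : ℝ, 0 ≤ B ∧ 0 < δ ∧ ∀ᶠ n in atTop, ∀ (η : ℕ → ℝ) (t : ℝ), 0 < t → Gd n η t L w C →
    ∀ k : Fin n, ∫ x, x k ^ 2 ∂nuD n η t ≤ B / (w + η k) ∧
      ((k : ℕ) < K → δ ≤ (nuD n η t).real {x | m ≤ |x k|})

/-- finite-dimensional approximation of the spherical model -/
def FinStmt : Prop := ∀ L C θ : ℝ, 0 ≤ L → 0 ≤ θ → ∃ w₂ : ℝ, ∀ w, w₂ ≤ w → ∀ ε : ℝ, 0 < ε →
  ∃ (K₁ : ℕ) (δ : ℝ), 0 < δ ∧ ∀ᶠ K in atTop, ∀ c : (Fin K → ℝ) → ℝ, Continuous c →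
    ∃ ρ : (Fin K → ℝ) → Measure (Fin K₁ → ℝ), (∀ y, Cp (ρ y)) ∧
      Continuous (fun q : (Fin K → ℝ) × (Fin K → ℝ) => Xk θ (ρ q.1) (ρ q.2)) ∧
      ∀ᶠ n in atTop, ∀ (η : ℕ → ℝ) (t : ℝ), 0 < t → Gd n η t L w C →
        |t - ∑ k ∈ Ico K n, 1 / (w + η k) - c fun k => η k| ≤ δ →
        D2 θ (nuD n η t) ((ρ fun k => η k).map (pad K₁ n)) ≤ ε

/-- links between the models -/
def LnkStmt : Prop := ∀ n : ℕ, 1 ≤ n →
  (∀ W : Mat n, Cp (muW n W) ∧ Cp (nuW n W) ∧ (muW n W).map (fun x => -x) = muW n W ∧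
    (nuW n W).map (fun x => -x) = nuW n W) ∧
  (∀ η t, 0 < t → Cp (nuD n η t) ∧
    ∀ k, (nuD n η t).map (fun x => Function.update x k (-x k)) = nuD n η t) ∧
  (∀ g d, muW n (Wmat n g d) = muG n g) ∧
  (∀ W : Mat n, W.IsHermitian → ∃ O : Mat n, Oᵀ * O = 1 ∧ (∀ i k, O i k = vec W k i) ∧
    nuW n W = (nuD n (Lam n W) (sx n ^ 2)).map fun x => O *ᵥ x) ∧
  (∀ W O : Mat n, Oᵀ * O = 1 →
    nuW n (O * W * Oᵀ) = (nuW n W).map (fun x => O *ᵥ x) ∧ Zs n (O * W * Oᵀ) = Zs n W) ∧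
  Continuous (fun q : ℝ × Mat n => Xk q.1 (nuW n q.2) (nuW n q.2)) ∧
  Continuous (fun q : ℝ × Mat n => Xk q.1 (muW n q.2) (muW n q.2)) ∧
  Continuous (fun q : ℝ × Mat n => Xk q.1 (muW n q.2) (nuW n q.2)) ∧
  Continuous (Zs n) ∧ Continuous (Zc n) ∧ (∀ W, 0 < Zs n W ∧ 0 < Zc n W) ∧
  Continuous (fun W : Mat n => sm (nuW n W)) ∧
  ∀ Ks, AdmL Ks → Measurable fun W : Mat n => PhiL (muW n W) Ks

/-! ### (D) cube versus sphere -/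

/-- rotation invariance for two replicas -/
def RotStmt : Prop := ∀ (n : ℕ) (i j : Fin n), i ≠ j → ∀ G : Mat n → ℝ≥0∞, Measurable G →
  (∀ W O : Mat n, Oᵀ * O = 1 → G (O * W * Oᵀ) = G W) → ∀ x x' : Fin n → ℝ,
    x ⬝ᵥ x = sx n ^ 2 → x' ⬝ᵥ x' = sx n ^ 2 →
    ∫⁻ W, G W * ENNReal.ofReal (exp (Hh n W x + Hh n W x')) ∂GOE n =
      ∫⁻ W, G W * ENNReal.ofReal
        (exp (n * (W i i + W j j) / 2 + tau n * (x ⬝ᵥ x') * (W i i - W j j) / 2)) ∂GOE n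

/-- lower bound of the spherical moment generating function -/
def LamStmt : Prop := ∀ (n : ℕ) (v : Fin n → ℝ), v ⬝ᵥ v = 1 → ∀ s : ℝ,
  exp (s ^ 2 / (2 * n) - s ^ 4 / (4 * n ^ 3)) ≤ ∫ x, exp (s * (v ⬝ᵥ x)) ∂sphR (Fin n) 1

/-- lower bound of the cube partition function -/
def ZcStmt : Prop := ∀ ε : ℝ, 0 < ε → Whp GOE fun n W => exp (n * (1 / 4 - ε)) ≤ Zc n W

/-- lower bound of the spherical partition function -/
def ZsStmt : Prop := ∀ ε : ℝ, 0 < ε → Whp GOE fun n W => exp (n * (1 / 4 - ε)) ≤ Zs n W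

/-- tightness of the spherical overlap -/
def SphTightStmt : Prop := ∀ ε : ℝ, 0 < ε → ∃ B : ℝ, ∀ᶠ n in atTop,
  GOE n {W | ¬ Mgf (nuW n W) B} ≤ ENNReal.ofReal ε

/-- **the cube and the sphere are close** -/
def CloseStmt : Prop := (∀ ε : ℝ, 0 < ε → Whp GOE fun n W => |Zc n W / Zs n W - 1| ≤ ε) ∧
  ∀ θ ε : ℝ, 0 ≤ θ → 0 < ε → Whp GOE fun n W => D2 θ (muW n W) (nuW n W) ≤ ε

/-- **two-replica large deviations on the cube** -/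
def LdStmt : Prop := ∀ ε : ℝ, 0 < ε → ∃ B : ℝ, ∀ᶠ n in atTop,
  GOE n {W | ¬ Mgf (muW n W) B} ≤ ENNReal.ofReal ε


/-! ### (E) non-degeneracy -/

/-- Jensen: a soft direction gives a lower bound of the autocorrelation -/
def JenStmt : Prop := ∀ (n : ℕ) (g : Pair n → ℝ) (v : Fin n → ℝ) (s V : ℝ), v ⬝ᵥ v = 1 → 0 ≤ s →
  0 < V → V ≤ v ⬝ᵥ sm (muG n g) *ᵥ v → V * exp (-(s / V)) ≤ Soft.An n g s

/-- the interpolated matrix -/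
def mix (n : ℕ) (A G : Mat n) : Mat n := √(1 - (sx n ^ 2)⁻¹) • A + √((sx n ^ 2)⁻¹) • G

/-- the top eigenvector of `A` overlaps with the edge modes of the interpolated matrix -/
def OvlStmt : Prop := ∀ ε : ℝ, 0 < ε → ∃ (K : ℕ) (κ : ℝ), 0 < κ ∧ ∀ᶠ n in atTop,
  GOE n {A | ¬ (A.IsHermitian ∧ GOE n {G | ¬ ∃ k, k < K ∧ κ ≤ |vec A 0 ⬝ᵥ vec (mix n A G) k|} ≤
    ENNReal.ofReal ε)} ≤ ENNReal.ofReal ε

/-- a direction of large variance exists with positive probability -/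
def UnbStmt : Prop := ∀ M : ℝ, ∃ c : ℝ, 0 < c ∧ ∀ᶠ n in atTop,
  ENNReal.ofReal c ≤ GOE n {W | M ≤ lam (sm (nuW n W)) 0}

/-! ### outputs -/



/-! ### glue statements -/

def GoodGlue : Prop := SteinStmt → EdgeTStmt → GoodStmt ∧ RenStmt
def DenGlue : Prop := TwoStmt → DenStmt
def MgfGlue : Prop := SphStmt → ShellStmt → TwoStmt → DenStmt → MgfStmt
def CoordGlue : Prop := SphStmt → ShellStmt → TwoStmt → DenStmt → CoordStmt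
def FinGlue : Prop := MmdStmt → IsomStmt → ProjStmt → SphStmt → ShellStmt → FourStmt → DenStmt →
  MgfStmt → CoordStmt → LnkStmt → FinStmt
def LnkGlue : Prop := SphStmt → LnkStmt
def LamGlue : Prop := SphStmt → LamStmt
def ZsGlue : Prop := SphStmt → LnkStmt → ZcStmt → ZsStmt
def SphTightGlue : Prop := IsomStmt → LnkStmt → GoodStmt → MgfStmt → SphTightStmt
def CloseGlue : Prop := MmdStmt → SphStmt → LnkStmt → RotStmt → LamStmt → ZsStmt → SphTightStmt →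
  CloseStmt ∧ LdStmt
def OvlGlue : Prop := SteinStmt → EdgeTStmt → OvlStmt
def UnbGlue : Prop := IsomStmt → SphStmt → LnkStmt → GoodStmt → CoordStmt → OvlStmt → UnbStmt
def NondGlue : Prop := MmdStmt → IsomStmt → LnkStmt → GoodStmt → CoordStmt → CloseStmt → JenStmt →
  UnbStmt → Soft.NonzeroStmt ∧ Soft.UnboundedStmt

end Crest.Agent.T157.St

end
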