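import Crest.Agent.T157.StA_44
import Crest.Agent.T157.StB_44
import Crest.Agent.T157.UpRmt_54_Mg
import Crest.Agent.T157.UpDef_74

-- ▼ part T157/StC_44
section

/-!
# Row 157, part D (helper44): the matrices `K`, `M` and the deterministic step of the potential
-/

set_option autoImplicit false

noncomputable section

namespace Crest.Agent.T157.St

open MeasureTheory Matrix Set Finset
open Crest.Agent.T157.Eig Crest.Agent.T157.Conc

variable {n : ℕ} {A : Matrix (Fin n) (Fin n) ℝ} {D : Fin n → ℝ} {w1 w2 : ℝ}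

theorem Bm_herm (hA : A.IsHermitian) (D : Fin n → ℝ) (w1 : ℝ) : (Bm A D w1).IsHermitian :=
  (isHermitian_diagonal _).sub hA

theorem herm_T {B : Matrix (Fin n) (Fin n) ℝ} (h : B.IsHermitian) : Bᵀ = B := by
  rw [← conjTranspose_eq_transpose_of_trivial]; exact h

theorem sq_add_eq {B : Matrix (Fin n) (Fin n) ℝ} (hB : B.IsHermitian) (w : ℝ) :
    B * B + (w ^ 2) • (1 : Matrix (Fin n) (Fin n) ℝ) = fnK (fun x : ℝ => x * x + w ^ 2) B := by
  rw [fnK_add, ← fnK_mul hB, fnK_id_real hB, fnK_const hB]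

theorem Km_eq (hA : A.IsHermitian) (hw : 0 < w2) :
    Km A D w1 w2 = fnK (fun x : ℝ => (x * x + w2 ^ 2)⁻¹) (Bm A D w1) := by
  have hB := Bm_herm hA D w1
  unfold Km
  rw [sq_add_eq hB, fnK_inv hB fun k _ => by
    have := mul_self_nonneg (lam (Bm A D w1) k)
    positivity]


theorem BK_eq (hA : A.IsHermitian) (hw : 0 < w2) :
    Bm A D w1 * Km A D w1 w2 = fnK (fun x : ℝ => x * (x * x + w2 ^ 2)⁻¹) (Bm A D w1) := by
  have hB := Bm_herm hA D w1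
  rw [Km_eq hA hw, ← fnK_mul hB (fun x => x), fnK_id_real hB]

theorem MMt (hA : A.IsHermitian) (hw : 0 < w2) :
    Mm A D w1 w2 * (Mm A D w1 w2)ᵀ = Km A D w1 w2 := by
  have hB := Bm_herm hA D w1
  unfold Mm
  rw [transpose_fromCols, fromCols_mul_fromRows, transpose_smul, BK_eq hA hw, Km_eq hA hw,
    herm_T (fnK_herm _ _), herm_T (fnK_herm _ _), ← fnK_smul, fnK_mul hB, fnK_mul hB, ← fnK_add]
  refine fnK_congr fun k _ => ?_
  have := mul_self_nonneg (lam (Bm A D w1) k)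
  field_simp

theorem opn_Km (hA : A.IsHermitian) (hw : 0 < w2) : opn (Km A D w1 w2) ≤ (w2 ^ 2)⁻¹ := by
  rw [Km_eq hA hw]
  refine opn_fnK_le (Bm_herm hA D w1) (by positivity) fun k _ => ?_
  have := mul_self_nonneg (lam (Bm A D w1) k)
  rw [abs_of_pos (by positivity)]
  exact inv_anti₀ (by positivity) (by linarith)

theorem opn_Mm (hA : A.IsHermitian) (hw : 0 < w2) : opn (Mm A D w1 w2) ≤ w2⁻¹ := by
  have h1 := opn_transpose_mul_self (Mm A D w1 w2)ᵀ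
  rw [transpose_transpose, MMt hA hw, opn_transpose] at h1
  have h2 := opn_Km (D := D) (w1 := w1) hA hw
  rw [h1, ← sq, ← inv_pow] at h2
  exact (pow_le_pow_iff_left₀ (opn_nonneg _) (by positivity) two_ne_zero).1 h2

theorem Km_quad (hA : A.IsHermitian) (hw : 0 < w2) (v : Fin n → ℝ) :
    v ⬝ᵥ Km A D w1 w2 *ᵥ v = nrm ((Mm A D w1 w2)ᵀ *ᵥ v) ^ 2 := by
  rw [← MMt hA hw, nrm_sq, ← mulVec_mulVec, dotProduct_mulVec, ← mulVec_transpose]

theorem Km_diag_eq (K : Matrix (Fin n) (Fin n) ℝ) (i : Fin n) :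
    K i i = Pi.single i 1 ⬝ᵥ K *ᵥ Pi.single i 1 := by
  simp

theorem Km_diag_nonneg (hA : A.IsHermitian) (hw : 0 < w2) (i : Fin n) : 0 ≤ Km A D w1 w2 i i := by
  rw [Km_diag_eq (Km A D w1 w2) i, Km_quad hA hw]; positivity

theorem Km_diag_le (hA : A.IsHermitian) (hw : 0 < w2) (i : Fin n) :
    Km A D w1 w2 i i ≤ (w2 ^ 2)⁻¹ :=
  (le_abs_self _).trans ((abs_entry_le _ i i).trans (opn_Km hA hw))

theorem trK_nonneg (hA : A.IsHermitian) (hw : 0 < w2) : 0 ≤ (Km A D w1 w2).trace :=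
  Finset.sum_nonneg fun i _ => Km_diag_nonneg hA hw i

theorem nrm_MB (hA : A.IsHermitian) (hw : 0 < w2) (v : Fin n → ℝ) :
    nrm ((Mm A D w1 w2)ᵀ *ᵥ (Bm A D w1 *ᵥ v)) ≤ nrm v := by
  have hB := Bm_herm hA D w1
  have h1 : opn (Bm A D w1 * Km A D w1 w2 * Bm A D w1) ≤ 1 := by
    rw [BK_eq hA hw]
    nth_rewrite 2 [← fnK_id_real hB]
    rw [fnK_mul hB]
    refine opn_fnK_le hB zero_le_one fun k _ => ?_
    have := mul_self_nonneg (lam (Bm A D w1) k)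
    set x := lam (Bm A D w1) k
    rw [show x * (x * x + w2 ^ 2)⁻¹ * x = x * x / (x * x + w2 ^ 2) by ring,
      abs_of_nonneg (by positivity)]
    exact div_le_one_of_le₀ (by nlinarith) (by positivity)
  have h2 := Km_quad (D := D) (w1 := w1) hA hw (Bm A D w1 *ᵥ v)
  have h3 : (Bm A D w1 *ᵥ v) ⬝ᵥ Km A D w1 w2 *ᵥ (Bm A D w1 *ᵥ v) =
      v ⬝ᵥ (Bm A D w1 * Km A D w1 w2 * Bm A D w1) *ᵥ v := by
    rw [← mulVec_mulVec, ← mulVec_mulVec, dotProduct_mulVec v, ← mulVec_transpose, herm_T hB]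
  have h4 := (le_abs_self _).trans (abs_quad_le (Bm A D w1 * Km A D w1 w2 * Bm A D w1) v)
  have h5 : opn (Bm A D w1 * Km A D w1 w2 * Bm A D w1) * (v ⬝ᵥ v) ≤ 1 * (v ⬝ᵥ v) :=
    mul_le_mul_of_nonneg_right h1 (by rw [← nrm_sq]; positivity)
  refine (pow_le_pow_iff_left₀ (nrm_nonneg _) (nrm_nonneg _) two_ne_zero).1 ?_
  rw [← h2, h3, nrm_sq]
  linarith

/-- the diagonal of `K` is small where `D` is large -/
theorem Km_diag_D (hA : A.IsHermitian) (hw : 0 < w2) {CA : ℝ} (hCA : opn A ≤ CA) (i : Fin n) :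
    D i ^ 2 * Km A D w1 w2 i i ≤ (1 + (CA + |w1|) / w2) ^ 2 := by
  set e : Fin n → ℝ := Pi.single i 1 with he
  have h1 : D i • e = Bm A D w1 *ᵥ e + (A *ᵥ e - w1 • e) := by
    unfold Bm
    rw [sub_mulVec]
    funext j
    simp only [Pi.add_apply, Pi.sub_apply, Pi.smul_apply, smul_eq_mul, mulVec_diagonal, he]
    by_cases h : j = i
    · subst h; simp
    · simp [h]
  have h2 : nrm (A *ᵥ e - w1 • e) ≤ CA + |w1| := by
    refine (nrm_sub_le _ _).trans (add_le_add ?_ ?_)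
    · refine (nrm_mulVec_le _ _).trans ?_
      rw [he, nrm_single, mul_one]; exact hCA
    · rw [nrm_smul, he, nrm_single, mul_one]
  have h3 : nrm ((Mm A D w1 w2)ᵀ *ᵥ (D i • e)) ≤ 1 + (CA + |w1|) / w2 := by
    rw [h1, mulVec_add]
    refine (nrm_add_le _ _).trans (add_le_add ?_ ?_)
    · refine (nrm_MB hA hw e).trans ?_
      rw [he, nrm_single]
    · refine (nrm_mulVec_le _ _).trans ?_
      rw [opn_transpose, div_eq_inv_mul]
      exact mul_le_mul (opn_Mm hA hw) h2 (nrm_nonneg _) (by positivity)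
  rw [Km_diag_eq (Km A D w1 w2) i, Km_quad hA hw, ← he, ← sq_abs (D i), ← mul_pow, ← nrm_smul, ← mulVec_smul]
  exact pow_le_pow_left₀ (nrm_nonneg _) h3 2

theorem trace_BK (A : Matrix (Fin n) (Fin n) ℝ) (D : Fin n → ℝ) (w1 : ℝ)
    (K : Matrix (Fin n) (Fin n) ℝ) :
    (Bm A D w1 * K).trace = (diagonal D * K).trace + w1 * K.trace - (A * K).trace := by
  have e : Bm A D w1 = diagonal D + w1 • (1 : Matrix (Fin n) (Fin n) ℝ) - A := by
    unfold Bm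
    congr 1
    ext i j
    by_cases h : i = j
    · subst h; simp
    · simp [h]
  rw [e, sub_mul, add_mul, trace_sub, trace_add, smul_mul_assoc, one_mul, trace_smul, smul_eq_mul]

theorem trace_DK_le (hA : A.IsHermitian) (hw : 0 < w2) {D' : Fin n → ℝ} {a : ℝ}
    (h : ∀ i, D' i ≤ a) : (diagonal D' * Km A D w1 w2).trace ≤ a * (Km A D w1 w2).trace := by
  simp only [trace, diag_apply, diagonal_mul, Finset.mul_sum]
  exact Finset.sum_le_sum fun i _ => mul_le_mul_of_nonneg_right (h i) (Km_diag_nonneg hA hw i)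

theorem sum_Mm_inl (A : Matrix (Fin n) (Fin n) ℝ) (D : Fin n → ℝ) (w1 w2 : ℝ) :
    ∑ i, Mm A D w1 w2 i (Sum.inl i) = (Bm A D w1 * Km A D w1 w2).trace := by
  simp only [Mm, fromCols_apply_inl, trace, diag_apply]

/-! ### the deterministic step -/

variable {β C b : ℝ}

/-- the field on the active sites -/
def xt (S : Site β C b) (η : ℝ) (m : Fin n → ℝ) (i : Fin n) : ℝ :=
  if η ^ 6 < S.aa (qq m) (m i) then S.X (qq m) (m i) else 0

theorem cl_nonneg (S : Site β C b) (hC : 0 < C) (η : ℝ) (m : Fin n → ℝ) (i : Fin n) :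
    0 ≤ cl S η m i := by
  unfold cl
  have : 0 ≤ max (S.aa (qq m) (m i) - η ^ 6) 0 := le_max_right _ _
  positivity

theorem cl_le (S : Site β C b) (hC : 1 ≤ C) {η : ℝ} (hη : 0 < η) {m : Fin n → ℝ}
    (hm : m ∈ box n) (i : Fin n) : cl S η m i ≤ η ^ 14 / 2 := by
  unfold cl
  have h1 : max (S.aa (qq m) (m i) - η ^ 6) 0 ≤ 1 :=
    max_le (by linarith [S.aa_le (qq_mem hm) (m i), pow_pos hη 6]) zero_le_one
  rw [div_le_div_iff₀ (by positivity) (by norm_num)]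
  have h2 : 0 ≤ η ^ 14 := by positivity
  nlinarith [mul_le_mul_of_nonneg_left h1 h2]

theorem cl_le_sq (S : Site β C b) (hC : 0 < C) {η : ℝ} (hη : 0 < η) {m : Fin n → ℝ}
    (hm : m ∈ box n) (i : Fin n) :
    cl S η m i ≤ η ^ 8 * S.aa (qq m) (m i) ^ 2 / (2 * C) := by
  unfold cl
  refine div_le_div_of_nonneg_right ?_ (by positivity)
  have ha := S.aa_pos (qq_mem hm) (m i)
  set a := S.aa (qq m) (m i)
  have h6 : 0 < η ^ 6 := by positivity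
  have h1 : η ^ 6 * max (a - η ^ 6) 0 ≤ a ^ 2 := by
    rcases le_total (a - η ^ 6) 0 with h | h
    · rw [max_eq_right h, mul_zero]; positivity
    · rw [max_eq_left h]; nlinarith
  calc η ^ 14 * max (a - η ^ 6) 0 = η ^ 8 * (η ^ 6 * max (a - η ^ 6) 0) := by ring
    _ ≤ η ^ 8 * a ^ 2 := mul_le_mul_of_nonneg_left h1 (by positivity)

theorem cl_zero (S : Site β C b) {η : ℝ} {m : Fin n → ℝ} {i : Fin n}
    (h : ¬ η ^ 6 < S.aa (qq m) (m i)) : cl S η m i = 0 := by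
  unfold cl
  rw [max_eq_right (by linarith [not_lt.1 h])]
  simp

theorem cl_small (S : Site β C b) (hC : 0 < C) {η : ℝ} (hη : 0 < η) {m : Fin n → ℝ} {i : Fin n}
    (h : cl S η m i < η ^ 20 / (2 * C)) : (2 * η ^ 6)⁻¹ ≤ Dt S η m i := by
  unfold cl at h
  rw [div_lt_div_iff_of_pos_right (by positivity),
    show η ^ 20 = η ^ 14 * η ^ 6 by ring] at h
  have h1 := lt_of_mul_lt_mul_left h (by positivity)
  have h2 := (max_lt_iff.1 h1).1
  have h6 : 0 < η ^ 6 := by positivity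
  unfold Dt
  exact inv_anti₀ (lt_max_of_lt_right h6) (max_le (by linarith) (by linarith))

theorem Dt_mem (S : Site β C b) {η : ℝ} (hη : 0 < η) (hη1 : η ≤ 1) {m : Fin n → ℝ}
    (hm : m ∈ box n) (i : Fin n) : 1 ≤ Dt S η m i ∧ Dt S η m i ≤ (η ^ 6)⁻¹ := by
  have h6 : 0 < η ^ 6 := by positivity
  unfold Dt
  refine ⟨?_, inv_anti₀ h6 (le_max_right _ _)⟩
  rw [one_le_inv₀ (lt_max_of_lt_right h6)]
  exact max_le (S.aa_le (qq_mem hm) _) (pow_le_one₀ hη.le hη1)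

theorem abs_xt_le (S : Site β C b) (hC : 0 < C) {η : ℝ} (hη : 0 < η) {m : Fin n → ℝ}
    (hm : m ∈ box n) (i : Fin n) : |xt S η m i| ≤ C / η ^ 6 := by
  unfold xt
  split_ifs with h
  · have h1 := S.X_aa (qq_mem hm) (m i)
    rw [le_div_iff₀ (by positivity)]
    exact (mul_le_mul_of_nonneg_left h.le (abs_nonneg _)).trans h1
  · rw [abs_zero]; positivity

theorem V_step (S : Site β C b) (hC : 1 ≤ C) (hn : 0 < n) (hA : A.IsHermitian) {η : ℝ}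
    (hη : 0 < η) (hη1 : η ≤ 1 / 2) {m : Fin n → ℝ} (hm : m ∈ box n) {δ : Fin n → ℝ}
    (hδ : ∀ i, |δ i| ≤ cl S η m i) :
    m + δ ∈ box n ∧
      V S A m + (A *ᵥ m - xt S η m - (β ^ 2 * av fun i => S.aa (qq m) (m i)) • m) ⬝ᵥ δ +
          1 / 2 * (δ ⬝ᵥ A *ᵥ δ) - (1 + 2 * η ^ 8) / 2 * (δ ⬝ᵥ diagonal (Dt S η m) *ᵥ δ) -
          (β ^ 2 * av fun i => S.aa (qq m) (m i)) / 2 * (δ ⬝ᵥ δ) -
          (4 * C * β ^ 2 + 4 * C) * η ^ 7 * |2 * (m ⬝ᵥ δ) + δ ⬝ᵥ δ| ≤ V S A (m + δ) := by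
  have hC0 : 0 < C := by linarith
  have hn' : (0 : ℝ) < n := by exact_mod_cast hn
  have hq := qq_mem hm
  have h8 : η ^ 8 ≤ 1 / 2 := by
    calc η ^ 8 ≤ η ^ 1 := pow_le_pow_of_le_one hη.le (by linarith) (by norm_num)
      _ ≤ 1 / 2 := by rw [pow_one]; exact hη1
  have hsp := fun i => S.space_step hC0 hq (hm i) (by positivity : 0 < η ^ 8) h8
    ((hδ i).trans (cl_le_sq S hC0 hη hm i))
  have hm' : m + δ ∈ box n := fun i => (hsp i).1
  refine ⟨hm', ?_⟩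
  have hq' := qq_mem hm'
  set q := qq m with hqd
  set q' := qq (m + δ) with hqd'
  have hdq : n * (q' - q) = 2 * (m ⬝ᵥ δ) + δ ⬝ᵥ δ := by
    rw [mul_sub, hqd, hqd', n_qq hn, n_qq hn, add_dotProduct, dotProduct_add, dotProduct_add,
      dotProduct_comm δ m]
    ring
  have hδb : ∀ i, |δ i| ≤ η ^ 14 / 2 := fun i => (hδ i).trans (cl_le S hC hη hm i)
  have h14 : η ^ 14 ≤ 1 := pow_le_one₀ hη.le (by linarith)
  have hdq2 : |q' - q| ≤ 2 * η ^ 14 := by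
    have h1 : |2 * (m ⬝ᵥ δ) + δ ⬝ᵥ δ| ≤ ∑ _i : Fin n, 2 * η ^ 14 := by
      simp only [dotProduct, Finset.mul_sum, ← Finset.sum_add_distrib]
      refine (Finset.abs_sum_le_sum_abs _ _).trans (Finset.sum_le_sum fun i _ => ?_)
      have h2 := hδb i
      have h3 := (hm i).le
      have h4 := abs_nonneg (δ i)
      have h5 := abs_nonneg (m i)
      have h6 : 0 ≤ η ^ 14 := by positivity
      refine (abs_add_le _ _).trans ?_
      rw [abs_mul, abs_mul, abs_mul, abs_two]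
      nlinarith
    rw [← hdq, abs_mul, abs_of_pos hn'] at h1
    simp only [Finset.sum_const, Finset.card_univ, Fintype.card_fin, nsmul_eq_mul] at h1
    exact le_of_mul_le_mul_left h1 hn'
  have hsq : √|q' - q| ≤ 2 * η ^ 7 := by
    refine Real.sqrt_le_iff.2 ⟨by positivity, hdq2.trans ?_⟩
    have : 0 ≤ η ^ 14 := by positivity
    nlinarith
  have h87 : η ^ 8 ≤ η ^ 7 := pow_le_pow_of_le_one hη.le (by linarith) (by norm_num)
  have h7 : 0 < η ^ 7 := by positivity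
  -- per site
  have key : ∀ i, S.Lam q (m i) - xt S η m i * δ i - (1 + 2 * η ^ 8) / 2 * (δ i * (Dt S η m i * δ i))
      - β ^ 2 / 2 * ((q' - q) * S.aa q (m i) + (S.Zc q' - S.Zc q) * (m + δ) i ^ 2)
      - (4 * C * β ^ 2 + 2 * C) * η ^ 7 * |q' - q| ≤ S.Lam q' ((m + δ) i) := fun i => by
    obtain ⟨h1, h2, h3⟩ := hsp i
    have h4 := S.time_step hq hq' h1
    have h5 := S.aa_time hC hq hq' h1
    have e1 : S.X q (m i) * δ i = xt S η m i * δ i ∧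
        (1 + 2 * η ^ 8) * δ i ^ 2 / (2 * S.aa q (m i)) =
          (1 + 2 * η ^ 8) / 2 * (δ i * (Dt S η m i * δ i)) := by
      by_cases h : η ^ 6 < S.aa q (m i)
      · refine ⟨by unfold xt; rw [if_pos h], ?_⟩
        unfold Dt
        rw [max_eq_left h.le]
        have := S.aa_pos hq (m i)
        field_simp
      · have h0 : δ i = 0 := abs_nonpos_iff.1 ((hδ i).trans (cl_zero S h).le)
        simp [h0]
    rw [e1.1, e1.2] at h3
    have h6 : |S.aa q' (m i + δ i) - S.aa q (m i)| ≤ 7 * C * η ^ 7 := by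
      have h61 := abs_sub_le (S.aa q' (m i + δ i)) (S.aa q (m i + δ i)) (S.aa q (m i))
      have h62 : 3 * C * √|q' - q| ≤ 3 * C * (2 * η ^ 7) :=
        mul_le_mul_of_nonneg_left hsq (by positivity)
      have h63 : η ^ 7 ≤ C * η ^ 7 := le_mul_of_one_le_left h7.le hC
      linarith
    have h9 : (q' - q) * S.aa q' (m i + δ i) ≤ (q' - q) * S.aa q (m i) +
        7 * C * η ^ 7 * |q' - q| := by
      have h91 : (q' - q) * (S.aa q' (m i + δ i) - S.aa q (m i)) ≤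
          |q' - q| * (7 * C * η ^ 7) := by
        refine (le_abs_self _).trans ?_
        rw [abs_mul]
        exact mul_le_mul_of_nonneg_left h6 (abs_nonneg _)
      linarith
    have h10 : C * (|q' - q| * √|q' - q|) ≤ C * (|q' - q| * (2 * η ^ 7)) :=
      mul_le_mul_of_nonneg_left (mul_le_mul_of_nonneg_left hsq (abs_nonneg _)) hC0.le
    have h11 := mul_le_mul_of_nonneg_left h9 (by positivity : 0 ≤ β ^ 2 / 2)
    have h12 : 0 ≤ C * β ^ 2 * (η ^ 7 * |q' - q|) := by positivity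
    show _ ≤ S.Lam q' (m i + δ i)
    rw [show (m + δ) i = m i + δ i from rfl]
    linarith
  have hsum := Finset.sum_le_sum fun i (_ : i ∈ Finset.univ) => key i
  simp only [Finset.sum_sub_distrib, ← Finset.mul_sum, Finset.sum_add_distrib, Finset.sum_const,
    Finset.card_univ, Fintype.card_fin, nsmul_eq_mul] at hsum
  have e2 : ∑ i, (m + δ) i ^ 2 = n * q' := by rw [hqd', n_qq hn, dot_self_eq]
  have e3 : ∑ i, xt S η m i * δ i = xt S η m ⬝ᵥ δ := rfl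
  have e4 : ∑ i, δ i * (Dt S η m i * δ i) = δ ⬝ᵥ diagonal (Dt S η m) *ᵥ δ := by
    simp only [dotProduct, mulVec_diagonal]
  have e5 : ∑ i, S.aa q (m i) = n * av fun i => S.aa q (m i) := by
    unfold av; field_simp
  rw [e2, e3, e4, e5] at hsum
  have hpen := (abs_le.1 (S.penD q hq q' hq')).1
  have h10 : C * (|q' - q| * √|q' - q|) ≤ C * (|q' - q| * (2 * η ^ 7)) :=
    mul_le_mul_of_nonneg_left (mul_le_mul_of_nonneg_left hsq (abs_nonneg _)) hC0.le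
  have hpen2 := mul_le_mul_of_nonneg_left (hpen.trans' (neg_le_neg h10)) hn'.le
  have e6 : (m + δ) ⬝ᵥ A *ᵥ (m + δ) = m ⬝ᵥ A *ᵥ m + 2 * ((A *ᵥ m) ⬝ᵥ δ) + δ ⬝ᵥ A *ᵥ δ := by
    rw [mulVec_add, add_dotProduct, dotProduct_add, dotProduct_add, dotProduct_mulVec m A δ,
      ← mulVec_transpose, herm_T hA, dotProduct_comm δ (A *ᵥ m)]
    ring
  have e7 : |2 * (m ⬝ᵥ δ) + δ ⬝ᵥ δ| = n * |q' - q| := by rw [← hdq, abs_mul, abs_of_pos hn']
  obtain ⟨g0, hg0⟩ : ∃ g0, g0 = av fun i => S.aa q (m i) := ⟨_, rfl⟩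
  rw [← hg0] at hsum ⊢
  have e8 : β ^ 2 / 2 * ((q' - q) * (n * g0)) =
      β ^ 2 * g0 * (m ⬝ᵥ δ) + β ^ 2 * g0 / 2 * (δ ⬝ᵥ δ) := by
    rw [show β ^ 2 / 2 * ((q' - q) * (n * g0)) = β ^ 2 * g0 / 2 * (n * (q' - q)) by ring, hdq]
    ring
  unfold V Psi
  rw [← hqd, ← hqd', e6, e7, sub_dotProduct, sub_dotProduct, smul_dotProduct, smul_eq_mul]
  linarith

end Crest.Agent.T157.St

end
end

-- ▼ part T157/StF_44
section

/-!
# Row 157, part D (helper44): the core of one step (both stages)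
-/

set_option autoImplicit false

noncomputable section

namespace Crest.Agent.T157.St

open MeasureTheory Matrix Set Finset
open Crest.Agent.T157.Eig Crest.Agent.T157.Conc

variable {n : ℕ} {β C b : ℝ} {A : Matrix (Fin n) (Fin n) ℝ}

/-- the constant in the bound on the clipped part -/
def CR (C CA W : ℝ) : ℝ := 4 * (1 + CA + W) ^ 2 + 1200 * C ^ 2

theorem av_mono {f g : Fin n → ℝ} (h : ∀ i, f i ≤ g i) : av f ≤ av g :=
  div_le_div_of_nonneg_right (Finset.sum_le_sum fun i _ => h i) (Nat.cast_nonneg n)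

theorem av_const (hn : 0 < n) (c : ℝ) : av (fun _ : Fin n => c) = c := by
  have hn' : (n : ℝ) ≠ 0 := by exact_mod_cast hn.ne'
  unfold av
  simp only [Finset.sum_const, Finset.card_univ, Fintype.card_fin, nsmul_eq_mul]
  field_simp

theorem av_nonneg {f : Fin n → ℝ} (h : ∀ i, 0 ≤ f i) : 0 ≤ av f :=
  div_nonneg (Finset.sum_nonneg fun i _ => h i) (Nat.cast_nonneg n)

theorem NNt (hA : A.IsHermitian) {D : Fin n → ℝ} {w1 w2 τ : ℝ} (hw : 0 < w2) (hτ : 0 ≤ τ) :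
    (√τ • Mm A D w1 w2) * (√τ • Mm A D w1 w2)ᵀ = τ • Km A D w1 w2 := by
  rw [transpose_smul, Matrix.smul_mul, Matrix.mul_smul, smul_smul, Real.mul_self_sqrt hτ, MMt hA hw]

theorem opn_N (hA : A.IsHermitian) {D : Fin n → ℝ} {w1 w2 τ τ0 η : ℝ} (hη : 0 < η)
    (hw : η ^ 4 ≤ w2) (hτ : τ ≤ τ0) : opn (√τ • Mm A D w1 w2) ≤ √τ0 / η ^ 4 := by
  have h4 : 0 < η ^ 4 := by positivity
  rw [opn_smul, abs_of_nonneg (Real.sqrt_nonneg _), div_eq_mul_inv]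
  exact mul_le_mul (Real.sqrt_le_sqrt hτ) ((opn_Mm hA (h4.trans_le hw)).trans (inv_anti₀ h4 hw))
    (opn_nonneg _) (Real.sqrt_nonneg _)

theorem R2_bound (S : Site β C b) (hC : 1 ≤ C) (hA : A.IsHermitian) {CA W : ℝ} (hCA : opn A ≤ CA)
    {η w1 w2 τ τ0 : ℝ} (hη : 0 < η) (hη1 : η ≤ 1) (hw1 : |w1| ≤ W) (hw : η ^ 4 ≤ w2)
    (hτ0 : 0 ≤ τ) (hτ : τ ≤ τ0) (hτ1 : 0 < τ0) (hτ2 : τ0 ≤ η ^ 60) (m : Fin n → ℝ) :
    R2 (cl S η m) (√τ • Mm A (Dt S η m) w1 w2) ≤ CR C CA W * (n * τ0 * η ^ 4) := by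
  have hC0 : 0 < C := by linarith
  have h4 : 0 < η ^ 4 := by positivity
  have hw0 : 0 < w2 := h4.trans_le hw
  have hCA0 : 0 ≤ CA := (opn_nonneg A).trans hCA
  have hW0 : 0 ≤ W := (abs_nonneg _).trans hw1
  have hK : ∀ i, Km A (Dt S η m) w1 w2 i i ≤ (η ^ 8)⁻¹ := fun i =>
    (Km_diag_le hA hw0 i).trans (inv_anti₀ (by positivity) (by
      rw [show η ^ 8 = (η ^ 4) ^ 2 by ring]; exact pow_le_pow_left₀ h4.le hw 2))
  have h := R2_le (c := cl S η m) (N := √τ • Mm A (Dt S η m) w1 w2) (cl_nonneg S hC0 η m)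
    (c0 := η ^ 20 / (2 * C)) (s := τ0 * (η ^ 8)⁻¹) (r := 4 * (1 + CA + W) ^ 2 * (τ0 * η ^ 4))
    (by positivity) (by positivity) (fun i => by
      rw [NNt hA hw0 hτ0, Matrix.smul_apply, smul_eq_mul]
      exact mul_le_mul hτ (hK i) (Km_diag_nonneg hA hw0 i) hτ1.le) (fun i hi => by
      rw [NNt hA hw0 hτ0, Matrix.smul_apply, smul_eq_mul]
      have h1 := cl_small S hC0 hη hi
      have h2 := Km_diag_D (D := Dt S η m) (w1 := w1) hA hw0 hCA i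
      have h3 := Km_diag_nonneg (D := Dt S η m) (w1 := w1) hA hw0 i
      set k := Km A (Dt S η m) w1 w2 i i
      have h5 : ((2 * η ^ 6)⁻¹) ^ 2 * k ≤ Dt S η m i ^ 2 * k :=
        mul_le_mul_of_nonneg_right (pow_le_pow_left₀ (by positivity) h1 2) h3
      have h6 : 1 + (CA + |w1|) / w2 ≤ (1 + CA + W) / η ^ 4 := by
        have h7 : (CA + |w1|) / w2 ≤ (CA + W) / η ^ 4 :=
          div_le_div₀ (by positivity) (by linarith) h4 hw
        have h8 : 1 ≤ 1 / η ^ 4 := by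
          rw [le_div_iff₀ h4, one_mul]; exact pow_le_one₀ hη.le hη1
        rw [add_assoc, add_div 1]
        linarith
      have h7 := (h5.trans h2).trans (pow_le_pow_left₀ (by positivity) h6 2)
      have h8 : k ≤ 4 * (1 + CA + W) ^ 2 * η ^ 4 := by
        have e1 : k = (2 * η ^ 6) ^ 2 * (((2 * η ^ 6)⁻¹) ^ 2 * k) := by field_simp
        have e2 : 4 * (1 + CA + W) ^ 2 * η ^ 4 = (2 * η ^ 6) ^ 2 * ((1 + CA + W) / η ^ 4) ^ 2 := by
          field_simp; ring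
        rw [e1, e2]
        exact mul_le_mul_of_nonneg_left h7 (by positivity)
      calc τ * k ≤ τ0 * (4 * (1 + CA + W) ^ 2 * η ^ 4) := mul_le_mul hτ h8 h3 hτ1.le
        _ = _ := by ring) (by positivity)
  refine h.trans ?_
  have e : 300 * (τ0 * (η ^ 8)⁻¹) ^ 2 / (η ^ 20 / (2 * C)) ^ 2 =
      1200 * C ^ 2 * (τ0 * (τ0 / η ^ 56)) := by field_simp; ring
  have h9 : τ0 / η ^ 56 ≤ η ^ 4 := by
    rw [div_le_iff₀ (by positivity)]
    calc τ0 ≤ η ^ 60 := hτ2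
      _ = η ^ 4 * η ^ 56 := by ring
  have h10 : 1200 * C ^ 2 * (τ0 * (τ0 / η ^ 56)) ≤ 1200 * C ^ 2 * (τ0 * η ^ 4) :=
    mul_le_mul_of_nonneg_left (mul_le_mul_of_nonneg_left h9 hτ1.le) (by positivity)
  rw [e]
  unfold CR
  have h11 := mul_le_mul_of_nonneg_left h10 (Nat.cast_nonneg (α := ℝ) n)
  nlinarith

theorem nrm_box {m : Fin n → ℝ} (hm : m ∈ box n) : nrm m ≤ √n := by
  simpa using nrm_le_of_bdd (u := m) zero_le_one fun i => (hm i).le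

theorem num_core {V0 V1 lin zd qa qd qi md tA tD T g0 gt β CA CRc C4 η u L G w1 : ℝ}
    (hβ : 1 ≤ β) (hCA : 1 ≤ CA) (hCR : 1 ≤ CRc) (hC4 : 0 ≤ C4) (hη : 0 < η) (hη1 : η ≤ 1 / 2)
    (hu : 0 ≤ u) (hL : 0 ≤ L) (hG : 1 ≤ G) (hT : 0 ≤ T) (hg1 : g0 ≤ gt) (hg2 : gt ≤ 1)
    (hg3 : 0 ≤ gt) (hqi0 : 0 ≤ qi)
    (hV : V0 + lin + 1 / 2 * qa - (1 + 2 * η ^ 8) / 2 * qd - β ^ 2 * g0 / 2 * qi -
      C4 * η ^ 7 * |2 * md + qi| ≤ V1)
    (h1 : |lin + zd| ≤ G * L) (h2 : |md| ≤ 2 * L)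
    (h3 : |qa - tA| ≤ CA * (CRc * (u * η ^ 2) + η ^ 2 * T) + 2 * CA * L)
    (h4 : |qi - T| ≤ CRc * (u * η ^ 2) + η ^ 2 * T + 2 * L)
    (h5 : qd ≤ tD + 2 * L) (h6 : η ^ 6 * tD ≤ T) :
    V0 - 1 / 2 * (tD + w1 * T - tA) + 1 / 2 * (w1 - β ^ 2 * gt) * T -
      ((CA + β ^ 2 + 6 * C4 + 2) * CRc) * (η ^ 2 * (u + T) + G * L) - G * L ≤ V1 + zd := by
  have h21 : η ^ 2 ≤ 1 := pow_le_one₀ hη.le (by linarith)
  have h72 : η ^ 7 ≤ η ^ 2 := pow_le_pow_of_le_one hη.le (by linarith) (by norm_num)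
  have h81 : η ^ 8 ≤ 1 / 2 := by
    calc η ^ 8 ≤ η ^ 1 := pow_le_pow_of_le_one hη.le (by linarith) (by norm_num)
      _ ≤ 1 / 2 := by rw [pow_one]; exact hη1
  have hη2 : 0 ≤ η ^ 2 := by positivity
  obtain ⟨E, hE⟩ : ∃ E, E = CRc * (η ^ 2 * (u + T) + G * L) := ⟨_, rfl⟩
  have hGL : L ≤ G * L := le_mul_of_one_le_left hL hG
  have hx1 : 0 ≤ η ^ 2 * u := by positivity
  have hx2 : 0 ≤ η ^ 2 * T := by positivity
  have hE1 : CRc * (u * η ^ 2) + η ^ 2 * T + L ≤ E := by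
    rw [hE]
    have a1 : η ^ 2 * T ≤ CRc * (η ^ 2 * T) := le_mul_of_one_le_left hx2 hCR
    have a2 : G * L ≤ CRc * (G * L) := le_mul_of_one_le_left (hL.trans hGL) hCR
    linarith
  have hx3 : 0 ≤ CRc * (u * η ^ 2) := by positivity
  have hE0 : 0 ≤ E := by linarith
  have a1 : tA - 2 * (CA * E) ≤ qa := by
    have b1 := (abs_le.1 h3).1
    have b2 := mul_le_mul_of_nonneg_left hE1 (by linarith : 0 ≤ CA)
    have b3 : 0 ≤ CA * (CRc * (u * η ^ 2) + η ^ 2 * T) := by positivity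
    linarith
  have a2 : qi ≤ T + 2 * E := by linarith [(abs_le.1 h4).2]
  have a3 : (1 + 2 * η ^ 8) / 2 * qd ≤ 1 / 2 * tD + 2 * E := by
    have b1 := mul_le_mul_of_nonneg_left h5 (by positivity : 0 ≤ (1 + 2 * η ^ 8) / 2)
    have b2 := mul_le_mul_of_nonneg_left h6 hη2
    have b3 : η ^ 8 * L ≤ 1 / 2 * L := mul_le_mul_of_nonneg_right h81 hL
    have e : (1 + 2 * η ^ 8) / 2 * (tD + 2 * L) =
        1 / 2 * tD + η ^ 2 * (η ^ 6 * tD) + L + 2 * (η ^ 8 * L) := by ring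
    linarith
  have a4 : β ^ 2 * g0 / 2 * qi ≤ β ^ 2 * gt / 2 * T + β ^ 2 * E := by
    have b0 : 0 ≤ β ^ 2 := by positivity
    have b1 : g0 * qi ≤ gt * qi := mul_le_mul_of_nonneg_right hg1 hqi0
    have b2 : gt * qi ≤ gt * (T + 2 * E) := mul_le_mul_of_nonneg_left a2 hg3
    have b3 : gt * E ≤ 1 * E := mul_le_mul_of_nonneg_right hg2 hE0
    have b4 : g0 * qi ≤ gt * T + 2 * E := by linarith
    have b5 := mul_le_mul_of_nonneg_left b4 b0
    linarith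
  have a5 : C4 * η ^ 7 * |2 * md + qi| ≤ 6 * C4 * E := by
    have b1 : |2 * md + qi| ≤ 4 * L + (T + 2 * E) := by
      refine (abs_add_le _ _).trans ?_
      rw [abs_mul, abs_two, abs_of_nonneg hqi0]
      linarith
    have b2 : η ^ 7 * |2 * md + qi| ≤ η ^ 2 * (4 * L + (T + 2 * E)) :=
      mul_le_mul h72 b1 (abs_nonneg _) hη2
    have b3 : η ^ 2 * L ≤ 1 / 4 * L := mul_le_mul_of_nonneg_right (by nlinarith) hL
    have b4 : η ^ 2 * E ≤ 1 * E := mul_le_mul_of_nonneg_right h21 hE0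
    have b5 : η ^ 7 * |2 * md + qi| ≤ 6 * E := by linarith
    have b6 := mul_le_mul_of_nonneg_left b5 hC4
    linarith
  have a6 := (abs_le.1 h1).1
  have e : ((CA + β ^ 2 + 6 * C4 + 2) * CRc) * (η ^ 2 * (u + T) + G * L) =
      CA * E + β ^ 2 * E + 6 * C4 * E + 2 * E := by rw [hE]; ring
  rw [e]
  linarith

set_option maxHeartbeats 800000 in
theorem core (β C CA W : ℝ) (hβ : 1 ≤ β) (hC : 1 ≤ C) (hCA : 1 ≤ CA) : ∃ C2 : ℝ, 1 ≤ C2 ∧
    ∀ (n : ℕ) (b : ℝ) (S : Site β C b) (A : Matrix (Fin n) (Fin n) ℝ) (η w1 w2 τ τ0 : ℝ), 0 < n →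
    A.IsHermitian → opn A ≤ CA → 0 < η → η ≤ 1 / 2 → |w1| ≤ W → η ^ 4 ≤ w2 → 0 ≤ τ → τ ≤ τ0 →
    0 < τ0 → τ0 ≤ η ^ 60 → ∀ m ∈ box n, ∀ (z : Fin n → ℝ) (G : ℝ), 1 ≤ G → nrm z ≤ G * √n →
    ∀ x : ℝ, 1 ≤ x → ∀ δ : (Fin n ⊕ Fin n → ℝ) → Fin n → ℝ,
    δ = del (cl S η m) (√τ • Mm A (Dt S η m) w1 w2) →
    Ball (9 * Real.exp (-x ^ 2 / 2)) 1 fun ξ =>
      m + δ ξ ∈ box n ∧
      V S A m - 1 / 2 * (τ * (Bm A (Dt S η m) w1 * Km A (Dt S η m) w1 w2).trace) +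
          1 / 2 * (w1 - β ^ 2 * av fun i => (Dt S η m i)⁻¹) * (τ * (Km A (Dt S η m) w1 w2).trace) -
          C2 * (η ^ 2 * (n * τ0 + τ * (Km A (Dt S η m) w1 w2).trace) +
            G * (x * √(n * τ0) / η ^ 10)) ≤ V S A (m + δ ξ) + z ⬝ᵥ δ ξ ∧
      |δ ξ ⬝ᵥ δ ξ - τ * (Km A (Dt S η m) w1 w2).trace| ≤
        C2 * (η ^ 2 * (n * τ0 + τ * (Km A (Dt S η m) w1 w2).trace) + x * √(n * τ0) / η ^ 10) ∧
      |m ⬝ᵥ δ ξ| ≤ 2 * (x * √(n * τ0) / η ^ 10) := by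
  have hCR : 1 ≤ CR C CA W := by
    unfold CR
    nlinarith [sq_nonneg (1 + CA + W)]
  obtain ⟨G0, hG0⟩ : ∃ G0, G0 = 2 * (CA + C + β ^ 2 + 1) := ⟨_, rfl⟩
  have hG1 : 1 ≤ G0 := by rw [hG0]; nlinarith
  obtain ⟨C3, hC3⟩ : ∃ C3, C3 = (CA + β ^ 2 + 6 * (4 * C * β ^ 2 + 4 * C) + 2) * CR C CA W :=
    ⟨_, rfl⟩
  have hC31 : 2 * CR C CA W ≤ C3 := by
    rw [hC3]
    refine mul_le_mul_of_nonneg_right ?_ (by linarith)
    have : 0 ≤ CA + β ^ 2 + 6 * (4 * C * β ^ 2 + 4 * C) := by positivity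
    linarith
  have hC32 : C3 ≤ (C3 + 1) * G0 := by nlinarith
  refine ⟨(C3 + 1) * G0, by linarith, ?_⟩
  intro n b S A η w1 w2 τ τ0 hn hA hAop hη hη1 hw1 hw hτ0 hτ hτ1 hτ2 m hm z G hG hz x hx δ hδ
  have hC0 : 0 < C := by linarith
  have h4 : 0 < η ^ 4 := by positivity
  have hw0 : 0 < w2 := h4.trans_le hw
  have hη1' : η ≤ 1 := by linarith
  have hq := qq_mem hm
  have hc := cl_nonneg S hC0 η m
  have hcb := cl_le S hC hη hm
  have hN := opn_N (D := Dt S η m) (w1 := w1) hA hη hw hτ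
  have hR := R2_bound S hC hA hAop hη hη1' hw1 hw hτ0 hτ hτ1 hτ2 m
  have hNN := NNt (D := Dt S η m) (w1 := w1) hA hw0 hτ0
  have hD := Dt_mem S hη hη1' hm
  set D := Dt S η m with hDd
  set K := Km A D w1 w2 with hK
  set N := √τ • Mm A D w1 w2 with hNd
  have hT : 0 ≤ τ * K.trace := mul_nonneg hτ0 (trK_nonneg hA hw0)
  set g0 := av fun i => S.aa (qq m) (m i) with hg0
  set v := A *ᵥ m - xt S η m - (β ^ 2 * g0) • m with hv
  have hg00 : 0 ≤ g0 := av_nonneg fun i => (S.aa_pos hq _).le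
  have hg01 : g0 ≤ av fun i => (D i)⁻¹ := av_mono fun i => by
    simp only [hDd, Dt, inv_inv]; exact le_max_left _ _
  have hg02 : (av fun i => (D i)⁻¹) ≤ 1 := by
    rw [← av_const hn 1]
    exact av_mono fun i => inv_le_one_of_one_le₀ (hD i).1
  have hsn : 0 ≤ √(n : ℝ) := Real.sqrt_nonneg _
  have hst : 0 ≤ √τ0 := Real.sqrt_nonneg _
  have hs : √(n * τ0) = √n * √τ0 := Real.sqrt_mul (Nat.cast_nonneg n) _
  have hp : ∀ k : ℕ, k ≤ 10 → √n * √τ0 / η ^ k ≤ √n * √τ0 / η ^ 10 := fun k hk =>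
    div_le_div_of_nonneg_left (by positivity) (by positivity) (pow_le_pow_of_le_one hη.le hη1' hk)
  obtain ⟨L, hL⟩ : ∃ L, L = x * √(n * τ0) / η ^ 10 := ⟨_, rfl⟩
  have hL' : L = x * (√n * √τ0 / η ^ 10) := by rw [hL, hs]; ring
  have hx0 : 0 ≤ x := by linarith
  have hL0 : 0 ≤ L := by rw [hL]; positivity
  have hvz : nrm (v + z) ≤ G0 / 2 * G * (√n / η ^ 6) := by
    have h6 : √(n : ℝ) ≤ √n / η ^ 6 := by
      rw [le_div_iff₀ (by positivity)]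
      exact mul_le_of_le_one_right hsn (pow_le_one₀ hη.le hη1')
    have h1 : nrm (A *ᵥ m) ≤ CA * (√n / η ^ 6) := (nrm_mulVec_le _ _).trans
      (mul_le_mul hAop ((nrm_box hm).trans h6) (nrm_nonneg _) (by linarith))
    have h2 : nrm (xt S η m) ≤ C * (√n / η ^ 6) := by
      have := nrm_le_of_bdd (by positivity) (abs_xt_le S hC0 hη hm)
      rwa [show C / η ^ 6 * √n = C * (√n / η ^ 6) by ring] at this
    have h3 : nrm ((β ^ 2 * g0) • m) ≤ β ^ 2 * (√n / η ^ 6) := by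
      rw [nrm_smul, abs_of_nonneg (by positivity)]
      exact mul_le_mul (mul_le_of_le_one_right (by positivity) (hg01.trans hg02))
        ((nrm_box hm).trans h6) (nrm_nonneg _) (by positivity)
    have h5 : nrm z ≤ G * (√n / η ^ 6) := hz.trans (mul_le_mul_of_nonneg_left h6 (by linarith))
    have h7 := nrm_add_le v z
    have h8 := nrm_sub_le (A *ᵥ m - xt S η m) ((β ^ 2 * g0) • m)
    have h9 := nrm_sub_le (A *ᵥ m) (xt S η m)
    have h10 : (CA + C + β ^ 2) * (√n / η ^ 6) ≤ (CA + C + β ^ 2) * G * (√n / η ^ 6) :=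
      mul_le_mul_of_nonneg_right (le_mul_of_one_le_right (by positivity) hG) (by positivity)
    rw [hG0]
    linarith
  have B1 := ball_lin (N := N) hc hN (v + z) hx
  have B2 := ball_lin (N := N) hc hN m hx
  have B3 := ball_quad (N := N) hc hcb (by positivity) hN hAop (l := η ^ 2) (by positivity) hx
  have B4 := ball_quad (N := N) hc hcb (by positivity) hN (opn_one_le (ι := Fin n)) (l := η ^ 2)
    (by positivity) hx
  have B5 := ball_diag (N := N) hc hcb (by positivity) hN (D := D) (a := (η ^ 6)⁻¹)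
    (fun i => by linarith [(hD i).1]) (fun i => (hD i).2) (by positivity) hx
  have he := (Real.exp_pos (-x ^ 2 / 2)).le
  refine ((((B1.and B2 (by positivity) (by positivity)).and B3 (by positivity)
    (by positivity)).and B4 (by positivity) (by positivity)).and B5 (by positivity)
    (by positivity)).mono (by linarith) fun ξ hξ => ?_
  obtain ⟨⟨⟨⟨b1, b2⟩, b3⟩, b4⟩, b5⟩ := hξ
  rw [← hδ] at b1 b2 b3 b4 b5
  have hδc : ∀ i, |δ ξ i| ≤ cl S η m i := fun i => by rw [hδ]; exact abs_clip_le (hc i) _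
  obtain ⟨hbox, hV⟩ := V_step S hC hn hA hη hη1 hm hδc
  rw [hNN, Matrix.mul_smul, trace_smul, smul_eq_mul] at b3 b4 b5
  rw [trace_smul, smul_eq_mul] at b3 b4
  rw [one_mulVec, one_mul] at b4
  have hR' : R2 (cl S η m) N / η ^ 2 ≤ CR C CA W * (n * τ0 * η ^ 2) := by
    rw [div_le_iff₀ (by positivity)]
    calc _ ≤ _ := hR
      _ = _ := by ring
  have hq14 : 2 * x * (2 * (η ^ 14 / 2 * √n) * (√τ0 / η ^ 4)) ≤ 2 * L := by
    have e : 2 * x * (2 * (η ^ 14 / 2 * √n) * (√τ0 / η ^ 4)) =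
        η ^ 20 * (2 * (x * (√n * √τ0 / η ^ 10))) := by field_simp
    rw [e, ← hL']
    exact mul_le_of_le_one_left (by positivity) (pow_le_one₀ hη.le hη1')
  have c1 : |v ⬝ᵥ δ ξ + z ⬝ᵥ δ ξ| ≤ G0 * G * L := by
    rw [← add_dotProduct]
    refine b1.trans ?_
    have h1 : nrm (v + z) * (√τ0 / η ^ 4) ≤ G0 / 2 * G * (√n / η ^ 6) * (√τ0 / η ^ 4) :=
      mul_le_mul_of_nonneg_right hvz (by positivity)
    have e : G0 * G * L = 2 * x * (G0 / 2 * G * (√n / η ^ 6) * (√τ0 / η ^ 4)) := by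
      rw [hL']; field_simp
    rw [e]
    exact mul_le_mul_of_nonneg_left h1 (by positivity)
  have c2 : |m ⬝ᵥ δ ξ| ≤ 2 * L := by
    refine b2.trans ?_
    have h1 : nrm m * (√τ0 / η ^ 4) ≤ √n * √τ0 / η ^ 10 := by
      refine le_trans ?_ (hp 4 (by norm_num))
      rw [mul_div_assoc]
      exact mul_le_mul_of_nonneg_right (nrm_box hm) (by positivity)
    rw [hL', mul_assoc]
    exact mul_le_mul_of_nonneg_left (mul_le_mul_of_nonneg_left h1 hx0) (by norm_num)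
  have c3 : |δ ξ ⬝ᵥ A *ᵥ δ ξ - τ * (A * K).trace| ≤
      CA * (CR C CA W * (n * τ0 * η ^ 2) + η ^ 2 * (τ * K.trace)) + 2 * CA * L := by
    refine b3.trans (add_le_add (mul_le_mul_of_nonneg_left (by linarith) (by linarith)) ?_)
    have := mul_le_mul_of_nonneg_left hq14 (by linarith : 0 ≤ CA)
    linarith
  have c4 : |δ ξ ⬝ᵥ δ ξ - τ * K.trace| ≤
      CR C CA W * (n * τ0 * η ^ 2) + η ^ 2 * (τ * K.trace) + 2 * L := by
    refine b4.trans ?_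
    linarith
  have c5 : δ ξ ⬝ᵥ diagonal D *ᵥ δ ξ ≤ τ * (diagonal D * K).trace + 2 * L := by
    refine b5.trans (add_le_add le_rfl ?_)
    have e : 2 * x * (2 * (η ^ 6)⁻¹ * (η ^ 14 / 2 * √n) * (√τ0 / η ^ 4)) =
        η ^ 14 * (2 * (x * (√n * √τ0 / η ^ 10))) := by field_simp
    rw [e, ← hL']
    exact mul_le_of_le_one_left (by positivity) (pow_le_one₀ hη.le hη1')
  have c6 : η ^ 6 * (τ * (diagonal D * K).trace) ≤ τ * K.trace := by
    have h1 := trace_DK_le (D := D) (w1 := w1) hA hw0 (D' := D) fun i => (hD i).2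
    have h2 := mul_le_mul_of_nonneg_left h1 (by positivity : 0 ≤ η ^ 6 * τ)
    have e : η ^ 6 * τ * ((η ^ 6)⁻¹ * K.trace) = τ * K.trace := by field_simp
    rw [e] at h2
    linarith
  have hqi : 0 ≤ δ ξ ⬝ᵥ δ ξ := by rw [← nrm_sq]; positivity
  have hu : 0 ≤ n * τ0 := by positivity
  have hGG : 1 ≤ G0 * G := one_le_mul_of_one_le_of_one_le hG1 hG
  have main := num_core (w1 := w1) hβ hCA hCR (by positivity : 0 ≤ 4 * C * β ^ 2 + 4 * C) hη hη1 hu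
    hL0 hGG hT hg01 hg02 (hg00.trans hg01) hqi hV c1 c2 c3 c4 c5 c6
  rw [← hC3] at main
  rw [← hL]
  have hy : 0 ≤ η ^ 2 * (n * τ0 + τ * K.trace) := by positivity
  have hC30 : 0 ≤ C3 := by linarith
  have hGL : 0 ≤ G * L := by positivity
  refine ⟨hbox, ?_, ?_, c2⟩
  · rw [trace_BK]
    have d1 : C3 * (η ^ 2 * (n * τ0 + τ * K.trace)) ≤
        (C3 + 1) * G0 * (η ^ 2 * (n * τ0 + τ * K.trace)) :=
      mul_le_mul_of_nonneg_right hC32 hy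
    have e1 : τ * ((diagonal D * K).trace + w1 * K.trace - (A * K).trace) =
        τ * (diagonal D * K).trace + w1 * (τ * K.trace) - τ * (A * K).trace := by ring
    rw [e1]
    linarith
  · refine c4.trans ?_
    have d0 : 2 * CR C CA W ≤ (C3 + 1) * G0 := hC31.trans hC32
    have d1 : 2 * CR C CA W * (η ^ 2 * (n * τ0 + τ * K.trace) + L) ≤
        (C3 + 1) * G0 * (η ^ 2 * (n * τ0 + τ * K.trace) + L) :=
      mul_le_mul_of_nonneg_right d0 (by positivity)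
    have d2 : η ^ 2 * (τ * K.trace) ≤ CR C CA W * (η ^ 2 * (τ * K.trace)) :=
      le_mul_of_one_le_left (by positivity) hCR
    have d3 : L ≤ CR C CA W * L := le_mul_of_one_le_left hL0 hCR
    have d4 : 0 ≤ CR C CA W * (η ^ 2 * (n * τ0)) := by positivity
    have d5 : 0 ≤ CR C CA W * (η ^ 2 * (τ * K.trace)) := by positivity
    linarith

theorem core_cross (S : Site β C b) (hC : 1 ≤ C) (hA : A.IsHermitian) {CA W : ℝ} (hCA : opn A ≤ CA)
    {η w1 w2 τ : ℝ} (hη : 0 < η) (hη1 : η ≤ 1) (hw1 : |w1| ≤ W) (hw : η ^ 4 ≤ w2)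
    (hτ1 : 0 < τ) (hτ2 : τ ≤ η ^ 60) {m : Fin n → ℝ} (hm : m ∈ box n) {x : ℝ} (hx : 1 ≤ x) :
    Ball (Real.exp (-x ^ 2 / 2)) 1 fun ξ =>
      τ * (Bm A (Dt S η m) w1 * Km A (Dt S η m) w1 w2).trace -
        (CR C CA W + 2) * (η ^ 2 * (n * τ)) - 6 * (x * √(n * τ) / η ^ 10) ≤
      √τ * (fst ξ ⬝ᵥ del (cl S η m) (√τ • Mm A (Dt S η m) w1 w2) ξ) := by
  have hC0 : 0 < C := by linarith
  have hst : 0 < √τ := Real.sqrt_pos.2 hτ1
  have hss : √τ * √τ = τ := Real.mul_self_sqrt hτ1.le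
  have hN := opn_N (D := Dt S η m) (w1 := w1) hA hη hw (le_refl τ)
  have hR := R2_bound S hC hA hCA hη hη1 hw1 hw hτ1.le le_rfl hτ1 hτ2 m
  refine (ball_cross (cl_nonneg S hC0 η m) (cl_le S hC hη hm) (by positivity) hN
    (R := (√τ)⁻¹) (l := √τ * η ^ 2) (by positivity) (by positivity) hx).mono le_rfl fun ξ hξ => ?_
  have e1 : ∑ i, (√τ • Mm A (Dt S η m) w1 w2) i (Sum.inl i) =
      √τ * (Bm A (Dt S η m) w1 * Km A (Dt S η m) w1 w2).trace := by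
    rw [← sum_Mm_inl, Finset.mul_sum]; rfl
  rw [e1] at hξ
  refine le_trans ?_ (mul_le_mul_of_nonneg_left hξ hst.le)
  obtain ⟨r, hr⟩ : ∃ r, r = R2 (cl S η m) (√τ • Mm A (Dt S η m) w1 w2) := ⟨_, rfl⟩
  obtain ⟨t, ht⟩ : ∃ t, t = (Bm A (Dt S η m) w1 * Km A (Dt S η m) w1 w2).trace := ⟨_, rfl⟩
  rw [← hr] at hR ⊢
  rw [← ht, Real.sqrt_mul (Nat.cast_nonneg n)]
  have hsn : 0 ≤ √(n : ℝ) := Real.sqrt_nonneg _
  have hx0 : 0 ≤ x := by linarith
  obtain ⟨s, hs⟩ : ∃ s, s = √τ := ⟨_, rfl⟩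
  rw [← hs] at hst hss ⊢
  have e2 : s * (s * t - (s * η ^ 2 * n + r / (s * η ^ 2)) - 2 * (η ^ 14 / 2) * n / s⁻¹ -
      2 * x * ((s⁻¹ * (s / η ^ 4) + 2 * (η ^ 14 / 2) + η ^ 14 / 2) * √n)) =
      (s * s) * t - η ^ 2 * (n * (s * s)) - r / η ^ 2 - η ^ 14 * (n * (s * s)) -
        (2 * η ^ 6 + 3 * η ^ 24) * (x * (√n * s) / η ^ 10) := by
    field_simp; ring
  rw [e2, hss]
  have h1 : r / η ^ 2 ≤ CR C CA W * (η ^ 2 * (n * τ)) := by
    rw [div_le_iff₀ (by positivity)]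
    calc _ ≤ _ := hR
      _ = _ := by ring
  have h2 : η ^ 14 * (n * τ) ≤ η ^ 2 * (n * τ) :=
    mul_le_mul_of_nonneg_right (pow_le_pow_of_le_one hη.le hη1 (by norm_num)) (by positivity)
  have h3 : (2 * η ^ 6 + 3 * η ^ 24) * (x * (√n * s) / η ^ 10) ≤ 6 * (x * (√n * s) / η ^ 10) := by
    refine mul_le_mul_of_nonneg_right ?_ (by positivity)
    have := pow_le_one₀ (n := 6) hη.le hη1
    have := pow_le_one₀ (n := 24) hη.le hη1
    linarith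
  linarith

end Crest.Agent.T157.St

end
end

-- ▼ part T157/StG_44
section

/-!
# Row 157, part D (helper44): the step below `b`
-/

set_option autoImplicit false

noncomputable section

namespace Crest.Agent.T157.St

open MeasureTheory Matrix Set Finset
open Crest.Agent.T157.Eig Crest.Agent.T157.Conc

variable {n : ℕ} {β C b : ℝ} {A : Matrix (Fin n) (Fin n) ℝ}

/-- scalar algebra, stage 1 -/
def D1P : Prop :=
  ∀ β : ℝ, 1 ≤ β → ∃ C1 : ℝ, 1 ≤ C1 ∧ ∀ (n : ℕ) (D : Fin n → ℝ) (η u1 : ℝ), 0 < n →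
    (∀ i, 1 ≤ D i) → 0 < η → C1 * (|ku β D 0 0| + η) ≤ 1 →
    u1 = -ku β D 0 0 / (2 * β ^ 2 * av fun i => (D i)⁻¹ ^ 3) +
      200 * β ^ 8 * (|ku β D 0 0| + η) ^ 2 →
    |u1| ≤ 3 * β ^ 2 * (|ku β D 0 0| + η) ∧ (|ku β D 0 0| + η) ^ 2 ≤ ku β D u1 (η ^ 2) ∧
      ku β D u1 (η ^ 2) ≤ C1 * (|ku β D 0 0| + η) ^ 2 ∧ 1 / (2 * β ^ 2) ≤ g2 D u1 (η ^ 2) ∧
      |u1 + β ^ 2 * (gr D u1 (η ^ 2) - av fun i => (D i)⁻¹)| ≤ C1 * (|ku β D 0 0| + η) ^ 2

theorem kt_kap (S : Site β C b) (hn : 0 < n) {η : ℝ} (hη : 0 < η) {m : Fin n → ℝ}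
    (hm : m ∈ box n) : kt S η m ≤ kap S m ∧ kap S m - β ^ 2 * η ^ 12 ≤ kt S η m := by
  have hq := qq_mem hm
  have e : g2 (Dt S η m) 0 0 = av fun i => max (S.aa (qq m) (m i)) (η ^ 6) ^ 2 := by
    unfold g2 Dt
    simp
  have h6 : 0 < η ^ 6 := by positivity
  have h1 : (av fun i => S.aa (qq m) (m i) ^ 2) ≤ g2 (Dt S η m) 0 0 := by
    rw [e]
    exact av_mono fun i => pow_le_pow_left₀ (S.aa_pos hq _).le (le_max_left _ _) 2
  have h2 : g2 (Dt S η m) 0 0 ≤ (av fun i => S.aa (qq m) (m i) ^ 2) + η ^ 12 := by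
    rw [e, ← av_const hn (η ^ 12)]
    unfold av
    rw [← add_div, ← Finset.sum_add_distrib]
    refine div_le_div_of_nonneg_right (Finset.sum_le_sum fun i _ => ?_) (Nat.cast_nonneg n)
    rcases le_total (S.aa (qq m) (m i)) (η ^ 6) with h | h
    · rw [max_eq_right h]; nlinarith [sq_nonneg (S.aa (qq m) (m i))]
    · rw [max_eq_left h]
      have : 0 ≤ η ^ 12 := by positivity
      linarith
  have hb : 0 ≤ β ^ 2 := sq_nonneg β
  unfold kt ku kap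
  constructor
  · linarith [mul_le_mul_of_nonneg_left h1 hb]
  · linarith [mul_le_mul_of_nonneg_left h2 hb]

theorem inc_eq (S : Site β C b) (A : Matrix (Fin n) (Fin n) ℝ) (η u1 u2 τ : ℝ) (m : Fin n → ℝ) :
    inc S A η u1 u2 τ m = del (cl S η m) (√τ • Mm A (Dt S η m)
      (u1 + β ^ 2 * gr (Dt S η m) u1 u2) (max (u2 * ku β (Dt S η m) u1 u2) (η ^ 4))) := by
  funext ξ i
  simp only [inc, del, smul_mulVec, Pi.smul_apply, smul_eq_mul]

theorem n_dq (hn : 0 < n) (m δ : Fin n → ℝ) :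
    n * (qq (m + δ) - qq m) = 2 * (m ⬝ᵥ δ) + δ ⬝ᵥ δ := by
  rw [mul_sub, n_qq hn, n_qq hn, add_dotProduct, dotProduct_add, dotProduct_add,
    dotProduct_comm δ m]
  ring

theorem num_step1 {β Cd η κ t k g u tB tK N Δ gr' : ℝ} (hβ : 1 ≤ β) (hCd : 1 ≤ Cd)
    (hη : 0 < η) (hN : 0 < N) (hΔ : 0 < Δ) (ht0 : 0 ≤ t) (ht : t ≤ |κ| + 2 * η)
    (ht1 : Cd * t ≤ 1) (ht2 : 2 * β ^ 2 * t ≤ 1) (hη1 : 2 * β ^ 2 * η ≤ 1) (hk0 : 0 < k)
    (hk : k ≤ Cd * t ^ 2) (hg : 1 / (2 * β ^ 2) ≤ g) (hu : |u| ≤ Cd * t ^ 2) (hgr : |gr'| ≤ 2)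
    (r1 : |tB / N - gr'| ≤ η ^ 4) (r2 : |η ^ 2 * k * tK / N - η ^ 2 * g| ≤ η ^ 4) :
    Δ * k / g ≤ Δ ∧ |Δ * k / g * tK - N * Δ| ≤ 2 * β ^ 2 * η ^ 2 * (N * Δ) ∧
      Δ * k / g * tK ≤ 2 * (N * Δ) ∧
      -(32 * β ^ 2 * Cd * (N * Δ * (κ ^ 2 + η ^ 2))) ≤
        -(1 / 2 * (Δ * k / g * tB)) + 1 / 2 * u * (Δ * k / g * tK) := by
  have hb : 0 < β ^ 2 := by positivity
  have hb1 : 1 ≤ β ^ 2 := one_le_pow₀ hβ
  have hg0 : 0 < g := lt_of_lt_of_le (by positivity) hg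
  have hgi : 1 / g ≤ 2 * β ^ 2 := by
    rw [div_le_iff₀ hg0]; rw [div_le_iff₀ (by positivity)] at hg; linarith
  have hη2 : η ≤ 1 / 2 := by nlinarith
  have hkg : k / g ≤ 2 * β ^ 2 * (Cd * t ^ 2) := by
    rw [show k / g = 1 / g * k by ring]
    exact mul_le_mul hgi hk hk0.le (by positivity)
  have hkg1 : k / g ≤ 1 := by
    refine hkg.trans ?_
    have : 2 * β ^ 2 * (Cd * t ^ 2) = (2 * β ^ 2 * t) * (Cd * t) := by ring
    rw [this]
    exact mul_le_one₀ ht2 (by positivity) ht1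
  have a1 : Δ * k / g ≤ Δ := by
    rw [mul_div_assoc]; exact mul_le_of_le_one_right hΔ.le hkg1
  have a2 : |Δ * k / g * tK - N * Δ| ≤ 2 * β ^ 2 * η ^ 2 * (N * Δ) := by
    have e : Δ * k / g * tK - N * Δ =
        (η ^ 2 * k * tK / N - η ^ 2 * g) * (1 / g * (N * Δ) / η ^ 2) := by field_simp
    rw [e, abs_mul, abs_of_nonneg (by positivity : 0 ≤ 1 / g * (N * Δ) / η ^ 2)]
    calc _ ≤ η ^ 4 * (2 * β ^ 2 * (N * Δ) / η ^ 2) :=
          mul_le_mul r2 (div_le_div_of_nonneg_right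
            (mul_le_mul_of_nonneg_right hgi (by positivity)) (by positivity)) (by positivity)
            (by positivity)
      _ = _ := by field_simp
  have hND : 0 < N * Δ := by positivity
  have a3 : Δ * k / g * tK ≤ 2 * (N * Δ) := by
    have h1 := (abs_le.1 a2).2
    have h2 : 2 * β ^ 2 * η ^ 2 ≤ 1 := by nlinarith
    nlinarith
  have a3' : 0 ≤ Δ * k / g * tK := by
    have h1 := (abs_le.1 a2).1
    have h2 : 2 * β ^ 2 * η ^ 2 ≤ 1 := by nlinarith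
    nlinarith
  refine ⟨a1, a2, a3, ?_⟩
  have h4 : η ^ 4 ≤ 1 := pow_le_one₀ hη.le (by linarith)
  have b1 : tB ≤ 3 * N := by
    have h1 := (abs_le.1 r1).2
    have h2 := (abs_le.1 hgr).2
    have h3 : tB / N ≤ 3 := by linarith
    rwa [div_le_iff₀ hN] at h3
  have b2 : Δ * k / g * tB ≤ Δ * (2 * β ^ 2 * (Cd * t ^ 2)) * (3 * N) := by
    calc Δ * k / g * tB ≤ Δ * k / g * (3 * N) := mul_le_mul_of_nonneg_left b1 (by positivity)
      _ ≤ _ := by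
        rw [mul_div_assoc]
        exact mul_le_mul_of_nonneg_right (mul_le_mul_of_nonneg_left hkg hΔ.le) (by positivity)
  have b3 : -(Cd * t ^ 2 * (2 * (N * Δ))) ≤ u * (Δ * k / g * tK) := by
    have h1 : |u * (Δ * k / g * tK)| ≤ Cd * t ^ 2 * (2 * (N * Δ)) := by
      rw [abs_mul, abs_of_nonneg a3']
      exact mul_le_mul hu a3 a3' (by positivity)
    exact (abs_le.1 h1).1
  have b4 : t ^ 2 ≤ 8 * (κ ^ 2 + η ^ 2) := by
    have h1 : t ^ 2 ≤ (|κ| + 2 * η) ^ 2 := pow_le_pow_left₀ ht0 ht 2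
    nlinarith [sq_nonneg (|κ| - 2 * η), sq_abs κ, sq_nonneg κ]
  have b5 : Cd * (N * Δ) * t ^ 2 ≤ Cd * (N * Δ) * (8 * (κ ^ 2 + η ^ 2)) :=
    mul_le_mul_of_nonneg_left b4 (by positivity)
  have b6 := mul_le_mul_of_nonneg_left b5 hb.le
  have b7 : Cd * (N * Δ) * (8 * (κ ^ 2 + η ^ 2)) ≤ β ^ 2 * (Cd * (N * Δ) * (8 * (κ ^ 2 + η ^ 2))) :=
    le_mul_of_one_le_left (by positivity) hb1
  linarith

theorem step1_of (hD : D1P) : Step1Stmt := by
  intro β C CA hβ hC hCA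
  obtain ⟨Cd, hCd, hD⟩ := hD β hβ
  obtain ⟨C2, hC2, hcore⟩ := core β C CA (1 + 2 * β ^ 2) hβ hC hCA
  have hb1 : 1 ≤ β ^ 2 := one_le_pow₀ hβ
  have hbC : Cd ≤ β ^ 2 * Cd := le_mul_of_one_le_left (by linarith) hb1
  obtain ⟨C1, hC1⟩ : ∃ C1, C1 = 40 * (β ^ 2 * Cd) + 20 * β ^ 2 + 4 * C2 + 4 := ⟨_, rfl⟩
  refine ⟨C1, by linarith, ?_⟩
  intro n b S A η Δ H m hm hκ x hx
  have hn := H.n0
  have hn' : (0 : ℝ) < n := by exact_mod_cast hn
  have hη := H.η0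
  have hη' := H.η1
  have hκ0 := abs_nonneg (kap S m)
  have hsm : ∀ c z : ℝ, 0 ≤ z → C1 * z ≤ 1 → c ≤ C1 → c * z ≤ 1 := fun c z h0 h1 h2 =>
    (mul_le_mul_of_nonneg_right h2 h0).trans h1
  have hη2 : η ≤ 1 / 2 := by linarith [hsm 2 η hη.le hη' (by linarith)]
  have hη1 : η ≤ 1 := by linarith
  have hDm := Dt_mem S hη hη1 hm
  obtain ⟨k1, k2⟩ := kt_kap S hn hη hm
  have ht : |kt S η m| + η ≤ |kap S m| + 2 * η := by
    have h1 : β ^ 2 * η ^ 12 ≤ η := by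
      have h2 : η ^ 12 ≤ η ^ 2 := pow_le_pow_of_le_one hη.le hη1 (by norm_num)
      have h3 := hsm (β ^ 2) η hη.le hη' (by linarith)
      nlinarith
    have h2 := abs_sub_abs_le_abs_sub (kt S η m) (kap S m)
    have h3 : |kt S η m - kap S m| ≤ η := abs_le.2 ⟨by linarith, by linarith⟩
    linarith
  have ht0 : 0 ≤ |kt S η m| + η := by positivity
  have htc : ∀ c : ℝ, 0 ≤ c → 3 * c ≤ C1 → c * (|kt S η m| + η) ≤ 1 := fun c h0 h1 => by
    have h2 := hsm (3 * c) _ hκ0 hκ h1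
    have h3 := hsm (3 * c) _ hη.le hη' h1
    have h4 := mul_le_mul_of_nonneg_left ht h0
    linarith
  obtain ⟨d1, d2, d3, d4, d5⟩ := hD n (Dt S η m) η (u11 S η m) hn (fun i => (hDm i).1) hη
    (htc Cd (by linarith) (by linarith)) rfl
  change _ ≤ 3 * β ^ 2 * (|kt S η m| + η) at d1
  change (|kt S η m| + η) ^ 2 ≤ _ at d2
  change _ ≤ Cd * (|kt S η m| + η) ^ 2 at d3 d5
  have hu : |u11 S η m| ≤ 1 / 2 := by linarith [htc (6 * β ^ 2) (by positivity) (by linarith)]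
  have hu' := abs_le.1 hu
  have hku : η ^ 2 ≤ ku β (Dt S η m) (u11 S η m) (η ^ 2) :=
    (pow_le_pow_left₀ hη.le (le_add_of_nonneg_left (abs_nonneg _)) 2).trans d2
  have hη22 : 0 < η ^ 2 := by positivity
  have hw : η ^ 4 ≤ η ^ 2 * ku β (Dt S η m) (u11 S η m) (η ^ 2) := by
    rw [show η ^ 4 = η ^ 2 * η ^ 2 by ring]
    exact mul_le_mul_of_nonneg_left hku hη22.le
  obtain ⟨r1, r2⟩ := H.rmt (Dt S η m) hDm (u11 S η m) (η ^ 2) hu'.1 (by linarith) le_rfl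
    (pow_le_one₀ hη.le hη1) hku
  have hgr := D49.abs_gr_le hn (fun i => (hDm i).1) hu'.1 (η ^ 2)
  have hw1 : |u11 S η m + β ^ 2 * gr (Dt S η m) (u11 S η m) (η ^ 2)| ≤ 1 + 2 * β ^ 2 := by
    refine (abs_add_le _ _).trans ?_
    rw [abs_mul, abs_of_nonneg (sq_nonneg β)]
    nlinarith
  obtain ⟨a1, a2, a3, a4⟩ := num_step1 hβ hCd hη hn' H.τ0 ht0 ht
    (htc Cd (by linarith) (by linarith)) (htc (2 * β ^ 2) (by positivity) (by linarith))
    (hsm _ η hη.le hη' (by linarith)) (hη22.trans_le hku) d3 d4 d5 hgr r1 r2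
  have hτ : tau1 S η Δ m = Δ * ku β (Dt S η m) (u11 S η m) (η ^ 2) /
      g2 (Dt S η m) (u11 S η m) (η ^ 2) := by
    unfold tau1
    rw [max_eq_left (hη22.le.trans hku)]
  rw [← hτ] at a1 a2 a3 a4
  have hτ0 : 0 ≤ tau1 S η Δ m := by
    rw [hτ]
    exact div_nonneg (mul_nonneg H.τ0.le (hη22.le.trans hku)) (le_trans (by positivity) d4)
  have hδ := inc_eq S A η (u11 S η m) (η ^ 2) (tau1 S η Δ m) m
  rw [max_eq_left hw] at hδ
  have hB := hcore n b S A η _ _ _ Δ hn H.sym H.opA hη hη2 hw1 hw hτ0 a1 H.τ0 H.τ1 m hm 0 1 le_rfl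
    (by simp [nrm]) x hx _ hδ
  refine hB.mono (by linarith [Real.exp_pos (-x ^ 2 / 2)]) fun ξ hξ => ?_
  obtain ⟨c1, c2, c3, c4⟩ := hξ
  have e0 : step1 S A η Δ m ξ = m + inc S A η (u11 S η m) (η ^ 2) (tau1 S η Δ m) m ξ := rfl
  rw [e0, add_sub_cancel_left]
  have hdq := n_dq hn m (inc S A η (u11 S η m) (η ^ 2) (tau1 S η Δ m) m ξ)
  rw [zero_dotProduct, add_zero, one_mul] at c2
  have e1 : u11 S η m + β ^ 2 * gr (Dt S η m) (u11 S η m) (η ^ 2) -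
      β ^ 2 * (av fun i => (Dt S η m i)⁻¹) =
      u11 S η m + β ^ 2 * (gr (Dt S η m) (u11 S η m) (η ^ 2) - av fun i => (Dt S η m i)⁻¹) := by
    ring
  rw [e1] at c2
  have e2 : ∀ c : ℝ, c * x * √(n * Δ) / η ^ 10 = c * (x * √(n * Δ) / η ^ 10) := fun c => by ring
  rw [e2]
  have e3 : n * |qq (m + inc S A η (u11 S η m) (η ^ 2) (tau1 S η Δ m) m ξ) - qq m - Δ| =
      |2 * (m ⬝ᵥ inc S A η (u11 S η m) (η ^ 2) (tau1 S η Δ m) m ξ) +
        inc S A η (u11 S η m) (η ^ 2) (tau1 S η Δ m) m ξ ⬝ᵥ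
          inc S A η (u11 S η m) (η ^ 2) (tau1 S η Δ m) m ξ - n * Δ| := by
    rw [← hdq, ← mul_sub, abs_mul, abs_of_pos hn']
  rw [e3]
  have hL0 : 0 ≤ x * √(n * Δ) / η ^ 10 := by positivity
  have hU0 : 0 ≤ n * Δ := by have := H.τ0; positivity
  rw [mul_assoc 2 (n : ℝ) Δ]
  generalize x * √(n * Δ) / η ^ 10 = L at *
  generalize (n : ℝ) * Δ = U at *
  generalize m ⬝ᵥ inc S A η (u11 S η m) (η ^ 2) (tau1 S η Δ m) m ξ = md at *
  generalize inc S A η (u11 S η m) (η ^ 2) (tau1 S η Δ m) m ξ ⬝ᵥ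
    inc S A η (u11 S η m) (η ^ 2) (tau1 S η Δ m) m ξ = dd at *
  have f1 : C2 * (η ^ 2 * (U + tau1 S η Δ m * (Km A (Dt S η m)
      (u11 S η m + β ^ 2 * gr (Dt S η m) (u11 S η m) (η ^ 2))
      (η ^ 2 * ku β (Dt S η m) (u11 S η m) (η ^ 2))).trace) + L) ≤
      3 * C2 * (U * η ^ 2) + C2 * L := by
    have h1 := mul_le_mul_of_nonneg_left a3 (by positivity : 0 ≤ C2 * η ^ 2)
    linarith
  have hUη : 0 ≤ U * η ^ 2 := by positivity
  have hUκ : 0 ≤ U * kap S m ^ 2 := by positivity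
  have g1 : (C2 + 4) * L ≤ C1 * L := mul_le_mul_of_nonneg_right (by linarith) hL0
  have g2' : (32 * (β ^ 2 * Cd) + 3 * C2) * (U * η ^ 2) ≤ C1 * (U * η ^ 2) :=
    mul_le_mul_of_nonneg_right (by linarith) hUη
  have g3 : 32 * (β ^ 2 * Cd) * (U * kap S m ^ 2) ≤ C1 * (U * kap S m ^ 2) :=
    mul_le_mul_of_nonneg_right (by linarith) hUκ
  have g4 : (2 * β ^ 2 + 3 * C2) * (U * η ^ 2) ≤ C1 * (U * η ^ 2) :=
    mul_le_mul_of_nonneg_right (by linarith) hUη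
  have g5 : C1 * (U * η ^ 2) ≤ U := by
    have h1 : C1 * η * η ≤ 1 := mul_le_one₀ hη' hη.le hη1
    calc C1 * (U * η ^ 2) = (C1 * η * η) * U := by ring
      _ ≤ U := mul_le_of_le_one_left hU0 h1
  have hC2L : 0 ≤ C2 * L := by positivity
  have hbU : 0 ≤ β ^ 2 * (U * η ^ 2) := by positivity
  have hCU : 0 ≤ C2 * (U * η ^ 2) := by positivity
  have c3' := abs_le.1 (c3.trans f1)
  have c4' := abs_le.1 c4
  have a2' := abs_le.1 a2
  refine ⟨c1, by linarith, abs_le.2 ⟨by linarith, by linarith⟩, by linarith,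
    abs_le.2 ⟨by linarith, by linarith⟩⟩

theorem d1P : D1P := fun β hβ =>
  ⟨1200 * β ^ 10, by nlinarith [one_le_pow₀ (n := 10) hβ], fun n D η u1 hn hD hη h1 hu => by
    obtain ⟨a1, a2, a3, a4, a5⟩ := D49.d1 hn hβ hD hη rfl h1 hu
    have h : 600 * β ^ 10 * (|ku β D 0 0| + η) ^ 2 ≤ 1200 * β ^ 10 * (|ku β D 0 0| + η) ^ 2 :=
      mul_le_mul_of_nonneg_right (by nlinarith [one_le_pow₀ (n := 10) hβ]) (sq_nonneg _)
    exact ⟨a1, a2, a3.trans h, a4, a5.trans h⟩⟩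

/-- **one step below `b`** -/
theorem step1Stmt : Step1Stmt := step1_of d1P

end Crest.Agent.T157.St

end
end

-- ▼ part T157/StH_44

/-!
# Row 157, part D (helper44): the step above `b - η⁴`
-/

set_option autoImplicit false

noncomputable section

namespace Crest.Agent.T157.St

open MeasureTheory Matrix Set Finset
open Crest.Agent.T157.Eig Crest.Agent.T157.Conc

variable {n : ℕ} {β C b : ℝ} {A : Matrix (Fin n) (Fin n) ℝ}

theorem ball_upper' {ι : Type} [Fintype ι] {F : (ι → ℝ) → ℝ} (h : ELip 1 F) {x : ℝ}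
    (hx : 1 ≤ x) :
    Ball (Real.exp (-x ^ 2 / 2)) 1 fun ξ => F ξ ≤ ∫ y, F y ∂E.gv ι + x + 1 := by
  refine ⟨{ξ | x ≤ F ξ - ∫ y, F y ∂E.gv ι}, ?_, fun ξ hξ ξ' hξ' => ?_⟩
  · have h1 := tail_lip h (t := x) (by linarith)
    rw [show -x ^ 2 / (2 * 1 ^ 2) = -x ^ 2 / 2 by norm_num] at h1
    rw [← ofReal_measureReal]
    exact ENNReal.ofReal_le_ofReal h1
  · have h1 : F ξ - ∫ y, F y ∂E.gv ι < x := not_le.1 hξ
    have h2 := (abs_le.1 (h ξ' ξ)).2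
    linarith

theorem ball_fst' {x : ℝ} (hx : 1 ≤ x) :
    Ball (Real.exp (-x ^ 2 / 2)) 1 fun ξ : Fin n ⊕ Fin n → ℝ => nrm (fst ξ) ≤ √n + x + 1 := by
  have h : ELip 1 fun ξ : Fin n ⊕ Fin n → ℝ => nrm (fst ξ) := fun ξ ξ' => by
    show |nrm (fst ξ) - nrm (fst ξ')| ≤ _
    rw [one_mul, ← en_eq_nrm, ← en_eq_nrm]
    refine (abs_en_sub_le _ _).trans ?_
    rw [en_eq_nrm]
    exact nrm_fst_le (ξ - ξ')
  refine (ball_upper' h hx).mono le_rfl fun ξ hξ => ?_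
  have i2 : Integrable (fun ξ : Fin n ⊕ Fin n → ℝ => nrm (fst ξ) ^ 2) (E.gv _) := by
    simpa only [sq] using elip_int_mul h h
  have h1 := integral_abs_le_sqrt h.integrable i2
  simp only [abs_of_nonneg (nrm_nonneg _), nrm_sq] at h1
  have h2 : (∫ ξ : Fin n ⊕ Fin n → ℝ, fst ξ ⬝ᵥ fst ξ ∂Conc.gv _) = n := mean_fst_sq
  rw [h2] at h1
  have h3 : (∫ ξ : Fin n ⊕ Fin n → ℝ, nrm (fst ξ) ∂E.gv _) ≤ √n := h1
  linarith

theorem one_sub_qq (S : Site β C b) (hn : 0 < n) (hC : 1 ≤ C) {η : ℝ} {m : Fin n → ℝ}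
    (hm : m ∈ box n) (hb : b - η ^ 4 ≤ qq m) :
    1 - qq m ≤ (av fun i => (Dt S η m i)⁻¹) + 3 * C * η ^ 2 := by
  have e : (av fun i => 1 - m i ^ 2) = 1 - qq m := by
    rw [D49.av_sub, av_const hn]
    unfold av qq
    simp only [dotProduct, sq]
  rw [← e, ← av_const hn (3 * C * η ^ 2), ← D49.av_add]
  refine av_mono fun i => ?_
  have h1 := S.aa_ge hC (qq_mem hm) (r := η ^ 2) (sq_nonneg η) (by rw [← pow_mul]; exact hb) (hm i)
  have h2 : S.aa (qq m) (m i) ≤ (Dt S η m i)⁻¹ := by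
    unfold Dt
    rw [inv_inv]
    exact le_max_left _ _
  linarith

theorem g0_sq (hn : 0 < n) {D : Fin n → ℝ} (hD : ∀ i, 1 ≤ D i) {u1 u2 : ℝ} (h0 : 0 ≤ u1)
    (h1 : u1 ≤ 1) (h2 : u2 ^ 2 ≤ 1) : (av fun i => (D i)⁻¹) ^ 2 ≤ 5 * g2 D u1 u2 := by
  refine (D49.sq_av_le hn _).trans ?_
  unfold g2
  rw [← D49.av_mul]
  refine av_mono fun i => ?_
  have h3 := hD i
  have h4 : 0 < (D i + u1) ^ 2 + u2 ^ 2 := by positivity
  rw [inv_pow, ← div_eq_mul_inv, inv_eq_one_div, div_le_div_iff₀ (by positivity) h4]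
  nlinarith

theorem num_step2 {β η κ t u1 ku g gr' g0 k tB C p : ℝ} (hβ : 1 ≤ β) (hC : 1 ≤ C) (hη : 0 < η)
    (hη1 : η ≤ 1) (ht0 : 0 ≤ t) (ht : t ≤ κ + 2 * η) (hu : u1 = 4 * β ^ 2 * t) (hu1 : u1 ≤ 1)
    (hk1 : η ≤ ku) (hk2 : ku ≤ 1) (hku : ku = 1 - β ^ 2 * g) (hg : 0 < g) (hk0 : 0 ≤ k)
    (hgr : |gr'| ≤ 2) (h0 : 0 ≤ g0) (h1 : g0 ≤ 1) (h5 : g0 ^ 2 ≤ 5 * g) (hp0 : 0 ≤ p)
    (hp : p ≤ g0 + 3 * C * η ^ 2)
    (hd : -(g / ku) * (u1 ^ 2 + η ^ 2) ≤ (gr' - g0) + (u1 + β ^ 2 * (gr' - g0)) * (g / ku))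
    (r1 : |tB - gr'| ≤ η ^ 4) (r2 : |η * ku * k - η * g| ≤ η ^ 4) :
    k ≤ 2 / η ∧ p ^ 2 ≤ (10 + 18 * C ^ 2) * (k + η ^ 2) ∧
      p - (129 * β ^ 4 + 3 * C + 7 * β ^ 2) * (k * (κ ^ 2 + η ^ 2) + η ^ 2) ≤
        tB + (u1 + β ^ 2 * (gr' - g0)) * k := by
  have hb1 : 1 ≤ β ^ 2 := one_le_pow₀ hβ
  have hb4 : 1 ≤ β ^ 4 := one_le_pow₀ hβ
  have hku0 : 0 < ku := hη.trans_le hk1
  have hη2 : 0 < η ^ 2 := by positivity
  have hη21 : η ^ 2 ≤ 1 := pow_le_one₀ hη.le hη1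
  have hη4 : η ^ 4 ≤ η ^ 2 := pow_le_pow_of_le_one hη.le hη1 (by norm_num)
  have hu0 : 0 ≤ u1 := by rw [hu]; positivity
  have a1 : |k - g / ku| ≤ η ^ 2 := by
    have e : k - g / ku = (η * ku * k - η * g) / (η * ku) := by field_simp
    rw [e, abs_div, abs_of_pos (mul_pos hη hku0), div_le_iff₀ (mul_pos hη hku0)]
    refine r2.trans ?_
    calc η ^ 4 = η ^ 2 * (η * η) := by ring
      _ ≤ _ := mul_le_mul_of_nonneg_left (mul_le_mul_of_nonneg_left hk1 hη.le) hη2.le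
  obtain ⟨a2, a3⟩ := abs_le.1 a1
  have hg1 : g ≤ 1 := by linarith [le_mul_of_one_le_left hg.le hb1]
  have a4 : g / ku ≤ 1 / η := div_le_div₀ zero_le_one hg1 hη hk1
  have a5 : 1 ≤ 1 / η := by rw [le_div_iff₀ hη]; linarith
  have a6 : g ≤ g / ku := by rw [le_div_iff₀ hku0]; exact mul_le_of_le_one_right hg.le hk2
  refine ⟨?_, ?_, ?_⟩
  · rw [show 2 / η = 1 / η + 1 / η by ring]; linarith
  · have b1 : p ^ 2 ≤ (g0 + 3 * C * η ^ 2) ^ 2 := pow_le_pow_left₀ hp0 hp 2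
    have b2 : C ^ 2 * (η ^ 2 * η ^ 2) ≤ C ^ 2 * (k + η ^ 2) :=
      mul_le_mul_of_nonneg_left (by linarith [mul_le_of_le_one_right hη2.le hη21]) (sq_nonneg C)
    linarith [sq_nonneg (g0 - 3 * C * η ^ 2)]
  · obtain ⟨w, hw⟩ : ∃ w, w = u1 + β ^ 2 * (gr' - g0) := ⟨_, rfl⟩
    rw [← hw] at hd ⊢
    have b1 : |w| ≤ 4 * β ^ 2 := by
      obtain ⟨h2, h3⟩ := abs_le.1 hgr
      have h4 := mul_le_mul_of_nonneg_left (by linarith : gr' - g0 ≤ 3) (sq_nonneg β)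
      have h5 := mul_le_mul_of_nonneg_left (by linarith : -3 ≤ gr' - g0) (sq_nonneg β)
      rw [hw, abs_le]
      constructor <;> linarith
    have b2 : |w * (k - g / ku)| ≤ 4 * β ^ 2 * η ^ 2 := by
      rw [abs_mul]; exact mul_le_mul b1 a1 (abs_nonneg _) (by positivity)
    have b3 := (abs_le.1 b2).1
    have b4 : t ^ 2 ≤ 8 * (κ ^ 2 + η ^ 2) := by
      have h2 : t ^ 2 ≤ (κ + 2 * η) ^ 2 := pow_le_pow_left₀ ht0 ht 2
      linarith [sq_nonneg (κ - 2 * η), sq_nonneg κ]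
    have b5 : u1 ^ 2 + η ^ 2 ≤ 129 * β ^ 4 * (κ ^ 2 + η ^ 2) := by
      have h2 := mul_le_mul_of_nonneg_left b4 (by positivity : 0 ≤ β ^ 4)
      have h3 : κ ^ 2 + η ^ 2 ≤ β ^ 4 * (κ ^ 2 + η ^ 2) := le_mul_of_one_le_left (by positivity) hb4
      rw [hu]
      linarith [sq_nonneg κ]
    have b6 : u1 ^ 2 + η ^ 2 ≤ 2 := by linarith [pow_le_one₀ (n := 2) hu0 hu1]
    have b7 : g / ku * (u1 ^ 2 + η ^ 2) ≤ (k + η ^ 2) * (u1 ^ 2 + η ^ 2) :=
      mul_le_mul_of_nonneg_right (by linarith) (by positivity)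
    have b8 := mul_le_mul_of_nonneg_left b5 hk0
    have b9 := mul_le_mul_of_nonneg_left b6 hη2.le
    have c1 := (abs_le.1 r1).1
    have c2 : η ^ 2 ≤ β ^ 2 * η ^ 2 := le_mul_of_one_le_left hη2.le hb1
    have c3 : 0 ≤ k * (κ ^ 2 + η ^ 2) := by positivity
    have c4 : 0 ≤ C * (k * (κ ^ 2 + η ^ 2)) := by positivity
    have c5 : 0 ≤ β ^ 2 * (k * (κ ^ 2 + η ^ 2)) := by positivity
    have c6 : 0 ≤ β ^ 4 * η ^ 2 := by positivity
    linarith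

/-- **one step above `b - η⁴`** -/
theorem step2L : Up.Step2L := by
  intro β C CA hβ hC hCA
  obtain ⟨C2, hC2, hcore⟩ := core β C CA (1 + 2 * β ^ 2) hβ hC hCA
  have hb1 : 1 ≤ β ^ 2 := one_le_pow₀ hβ
  have hb4 : 1 ≤ β ^ 4 := one_le_pow₀ hβ
  have hC2' : 1 ≤ C ^ 2 := one_le_pow₀ hC
  obtain ⟨R, hR⟩ : ∃ R, R = CR C CA (1 + 2 * β ^ 2) := ⟨_, rfl⟩
  have hR0 : 0 ≤ R := by rw [hR]; unfold CR; positivity
  obtain ⟨C1, hC1⟩ : ∃ C1, C1 = 129 * β ^ 4 + 3 * C + 48 * β ^ 2 + 2 * C2 + R + 18 * C ^ 2 + 10 :=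
    ⟨_, rfl⟩
  refine ⟨C1, by linarith, ?_⟩
  intro n b S A η τ H y m hm hb hκ Y hY hy x hx
  have hn := H.n0
  have hn' : (0 : ℝ) < n := by exact_mod_cast hn
  have hη := H.η0
  have hη' := H.η1
  have hτ := H.τ0
  have hκ0 := le_max_right (-kap S m) 0
  have hsm : ∀ c z : ℝ, 0 ≤ z → C1 * z ≤ 1 → c ≤ C1 → c * z ≤ 1 := fun c z h0 h1 h2 =>
    (mul_le_mul_of_nonneg_right h2 h0).trans h1
  have hη2 : η ≤ 1 / 2 := by linarith [hsm 2 η hη.le hη' (by linarith)]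
  have hη1 : η ≤ 1 := by linarith
  have hτ1 : τ ≤ 1 := H.τ1.trans (pow_le_one₀ hη.le hη1)
  have hDm := Dt_mem S hη hη1 hm
  have hD1 : ∀ i, 1 ≤ Dt S η m i := fun i => (hDm i).1
  obtain ⟨k1, k2⟩ := kt_kap S hn hη hm
  have h48 := hsm (48 * β ^ 2) η hη.le hη' (by linarith)
  have ht : max (-kt S η m) 0 ≤ max (-kap S m) 0 + η := by
    have h1 : β ^ 2 * η ^ 12 ≤ η := by
      have h2 : η ^ 12 ≤ η ^ 2 := pow_le_pow_of_le_one hη.le hη1 (by norm_num)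
      have h3 := mul_le_mul_of_nonneg_left h2 (sq_nonneg β)
      have h4 := mul_le_mul_of_nonneg_left h48 hη.le
      linarith
    exact max_le (by linarith [le_max_left (-kap S m) 0]) (by linarith)
  have ht' : 24 * β ^ 2 * max (-kt S η m) 0 ≤ 1 := by
    have h1 : β ^ 2 * η ^ 12 ≤ η ^ 2 := by
      have h2 : η ^ 12 ≤ η ^ 3 := pow_le_pow_of_le_one hη.le hη1 (by norm_num)
      have h3 := mul_le_mul_of_nonneg_left h2 (sq_nonneg β)
      have h4 := mul_le_mul_of_nonneg_left h48 (sq_nonneg η)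
      linarith [sq_nonneg η]
    have h2 := mul_le_mul_of_nonneg_left ht (by positivity : 0 ≤ 24 * β ^ 2)
    linarith [hsm (48 * β ^ 2) _ hκ0 hκ (by linarith)]
  obtain ⟨d1, d2, d3, d4, d5⟩ := D49.d2 (u1 := u21 S η m) hn hβ hD1 hη (by linarith) ht' rfl η
  have hku : η ≤ ku β (Dt S η m) (u21 S η m) η := (le_max_right _ _).trans d3
  have hη22 : η ^ 2 ≤ η := by simpa using pow_le_pow_of_le_one hη.le hη1 (by norm_num : 1 ≤ 2)
  have hw : η ^ 4 ≤ η * ku β (Dt S η m) (u21 S η m) η := by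
    calc η ^ 4 ≤ η ^ 2 := pow_le_pow_of_le_one hη.le hη1 (by norm_num)
      _ = η * η := sq η
      _ ≤ _ := mul_le_mul_of_nonneg_left hku hη.le
  have hu' : -(1 / 2) ≤ u21 S η m := by linarith
  obtain ⟨r1, r2⟩ := H.rmt (Dt S η m) hDm (u21 S η m) η hu' d2 hη22 hη1 (hη22.trans hku)
  have hgr := D49.abs_gr_le hn hD1 hu' η
  have hw1 : |u21 S η m + β ^ 2 * gr (Dt S η m) (u21 S η m) η| ≤ 1 + 2 * β ^ 2 := by
    refine (abs_add_le _ _).trans ?_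
    rw [abs_mul, abs_of_nonneg (sq_nonneg β), abs_of_nonneg d1]
    linarith [mul_le_mul_of_nonneg_left hgr (sq_nonneg β)]
  have hK0 := trK_nonneg (D := Dt S η m) (w1 := u21 S η m + β ^ 2 * gr (Dt S η m) (u21 S η m) η)
    H.sym ((by positivity : 0 < η ^ 4).trans_le hw)
  rw [mul_div_assoc] at r2
  have hq := qq_mem hm
  obtain ⟨a1, a2, a3⟩ := num_step2 (κ := max (-kap S m) 0) (t := max (-kt S η m) 0 + η)
    (u1 := u21 S η m) hβ hC hη
    hη1 (by positivity) (by linarith) rfl d2 hku d4 rfl (D49.g2_pos hn hD1 hu' η)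
    (div_nonneg hK0 hn'.le) hgr (av_nonneg fun i => (D49.inv_mem hD1 i).1.le)
    (D49.av_le_const hn fun i => (D49.inv_mem hD1 i).2)
    (g0_sq hn hD1 d1 d2 (pow_le_one₀ hη.le hη1)) (sub_nonneg.2 hq.2) (one_sub_qq S hn hC hm hb)
    d5 r1 r2
  have hδ := inc_eq S A η (u21 S η m) η τ m
  rw [max_eq_left hw] at hδ
  have hz : nrm (y + τ • m) ≤ 2 * Y * √n := by
    refine (nrm_add_le _ _).trans ?_
    rw [nrm_smul, abs_of_pos hτ]
    have h1 : τ * nrm m ≤ Y * √n :=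
      mul_le_mul (hτ1.trans hY) (nrm_box hm) (nrm_nonneg _) (by linarith)
    linarith
  have hB := hcore n b S A η _ _ τ τ hn H.sym H.opA hη hη2 hw1 hw hτ.le le_rfl hτ H.τ1 m hm
    (y + τ • m) (2 * Y) (by linarith) hz x hx _ hδ
  have hX := core_cross S hC H.sym H.opA hη hη1 hw1 hw hτ H.τ1 hm hx
  rw [← hδ, ← hR] at hX
  have he := (Real.exp_pos (-x ^ 2 / 2)).le
  obtain ⟨k, hk⟩ : ∃ k, k = (Km A (Dt S η m) (u21 S η m + β ^ 2 * gr (Dt S η m) (u21 S η m) η)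
    (η * ku β (Dt S η m) (u21 S η m) η)).trace / n := ⟨_, rfl⟩
  have hk0 : 0 ≤ k := hk ▸ div_nonneg hK0 hn'.le
  have hk' : (Km A (Dt S η m) (u21 S η m + β ^ 2 * gr (Dt S η m) (u21 S η m) η)
      (η * ku β (Dt S η m) (u21 S η m) η)).trace = n * k := by rw [hk]; field_simp
  rw [← hk] at a1 a2 a3
  rw [hk'] at hB
  refine ⟨k, hk0, a1, a2.trans (mul_le_mul_of_nonneg_right (by linarith) (by positivity)), ?_⟩
  refine ((hB.and hX (by positivity) he).and (ball_fst' hx) (by positivity) he).mono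
    (by linarith) fun ξ hξ => ?_
  obtain ⟨⟨⟨c1, c2, c3, c4⟩, c5⟩, c6⟩ := hξ
  have e0 : step2 S A η τ (y, m) ξ =
      (y + τ • m + √τ • fst ξ, m + inc S A η (u21 S η m) η τ m ξ) := rfl
  have e00 : (fun i => ξ (Sum.inl i)) = fst ξ := rfl
  rw [e0, e00]
  dsimp only
  obtain ⟨δ, hδ'⟩ : ∃ δ, δ = inc S A η (u21 S η m) η τ m ξ := ⟨_, rfl⟩
  rw [← hδ'] at c1 c2 c3 c4 c5 ⊢
  rw [add_sub_cancel_left]
  have hdq := n_dq hn m δ
  have e3 : n * |qq (m + δ) - qq m - τ * k| = |2 * (m ⬝ᵥ δ) + δ ⬝ᵥ δ - n * (τ * k)| := by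
    rw [← hdq, ← mul_sub, abs_mul, abs_of_pos hn']
  have e4 : (y + τ • m + √τ • fst ξ) ⬝ᵥ (m + δ) = y ⬝ᵥ m + τ * (m ⬝ᵥ m) + √τ * (m ⬝ᵥ fst ξ) +
      (y + τ • m) ⬝ᵥ δ + √τ * (fst ξ ⬝ᵥ δ) := by
    simp only [add_dotProduct, dotProduct_add, smul_dotProduct, smul_eq_mul,
      dotProduct_comm (fst ξ) m]
    ring
  have e5 : x * Y * √(n * τ) / η ^ 10 = Y * (x * √(n * τ) / η ^ 10) := by ring
  rw [e3, e4, e5, ← n_qq hn m]
  have hL0 : 0 ≤ x * √(n * τ) / η ^ 10 := by positivity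
  have hU0 : 0 ≤ n * τ := by positivity
  have a4 := mul_le_mul_of_nonneg_left a3 hU0
  have e6 : ∀ t : ℝ, n * τ * (t / n) = τ * t := fun t => by field_simp
  rw [mul_add (n * τ) (_ / (n : ℝ)), e6] at a4
  generalize x * √(n * τ) / η ^ 10 = L at *
  generalize max (-kap S m) 0 = κ at *
  have hYL : L ≤ Y * L := le_mul_of_one_le_left hL0 hY
  have p1 : 0 ≤ n * τ * η ^ 2 := by positivity
  have p2 : 0 ≤ n * τ * (k * κ ^ 2) := by positivity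
  have p3 : 0 ≤ n * τ * (k * η ^ 2) := by positivity
  have c3' := abs_le.1 c3
  have c4' := abs_le.1 c4
  have g1 : (C2 + 4) * L ≤ C1 * L := mul_le_mul_of_nonneg_right (by linarith) hL0
  have g2' : C2 * (n * τ * η ^ 2 * (1 + k)) ≤ C1 * (n * τ * η ^ 2 * (1 + k)) :=
    mul_le_mul_of_nonneg_right (by linarith) (by positivity)
  refine ⟨c1, ?_, abs_le.2 ⟨by linarith, by linarith⟩, ?_, ?_⟩
  · have h1 : (2 * C2 + 6) * (Y * L) ≤ C1 * (Y * L) :=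
      mul_le_mul_of_nonneg_right (by linarith) (hL0.trans hYL)
    have h2 : (129 * β ^ 4 + 3 * C + 7 * β ^ 2 + C2 + (R + 2)) *
        (n * τ * (k * (κ ^ 2 + η ^ 2) + η ^ 2)) ≤ C1 * (n * τ * (k * (κ ^ 2 + η ^ 2) + η ^ 2)) :=
      mul_le_mul_of_nonneg_right (by linarith) (by positivity)
    have h3 := mul_nonneg (by linarith : 0 ≤ C2) p2
    have h4 := mul_nonneg (by linarith : 0 ≤ R + 2) (add_nonneg p2 p3)
    have h5 : 0 ≤ (129 * β ^ 4 + 3 * C + 7 * β ^ 2) * (n * τ * (k * (κ ^ 2 + η ^ 2) + η ^ 2)) := by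
      positivity
    linarith
  · have h1 : η ^ 2 * (1 + k) ≤ 1 / η := by
      have h2 := mul_le_mul_of_nonneg_left a1 (sq_nonneg η)
      rw [show η ^ 2 * (2 / η) = 2 * η by field_simp] at h2
      have h3 : 2 ≤ 1 / η := by rw [le_div_iff₀ hη]; linarith
      linarith
    have h2 := mul_le_mul_of_nonneg_left h1 (mul_nonneg (by linarith : 0 ≤ C2) hU0)
    have h3 := mul_le_mul_of_nonneg_left a1 hU0
    have h4 : (C2 + 2) * (n * τ / η) ≤ C1 * (n * τ / η) :=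
      mul_le_mul_of_nonneg_right (by linarith) (by positivity)
    have e7 : n * τ * (2 / η) = 2 * (n * τ / η) := by ring
    have e8 : C2 * (n * τ) * (1 / η) = C2 * (n * τ / η) := by ring
    linarith
  · rw [show y + τ • m + √τ • fst ξ - y = τ • m + √τ • fst ξ by abel]
    refine (nrm_add_le _ _).trans ?_
    rw [nrm_smul, nrm_smul, abs_of_pos hτ, abs_of_nonneg (Real.sqrt_nonneg τ)]
    exact add_le_add (mul_le_mul_of_nonneg_left (nrm_box hm) hτ.le)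
      (mul_le_mul_of_nonneg_left c6 (Real.sqrt_nonneg τ))

end Crest.Agent.T157.St

end
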