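import Crest.Agent.T157.SwDef_14
import Crest.Agent.T157.CqSwap_44

/-!
# Row 157, SWAP for coins: common bridge lemmas (helper14)
-/

set_option autoImplicit false

noncomputable section

namespace Crest.Agent.T157.Sw14

open Matrix Finset Real Function
open Crest.ProbabilityR.SpinGlassDynamics Crest.Agent.T157.E Crest.Agent.T157.Eig
open Crest.Agent.T157.St Crest.Agent.T157.Ed Crest.Agent.T157.Cq Crest.Agent.T157.Cond
open Crest.Agent.T157.Ll (Dl Res)

variable {n : ℕ}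

lemma W4_apply (y : I4 n → ℝ) (i j : Fin n) : W4 y i j =
    if h : i < j then y (ip ⟨(i, j), h⟩) / √n else if h' : j < i then y (ip ⟨(j, i), h'⟩) / √n
    else √2 * y (.inl (.inr i)) / √n := by
  simp only [W4, Wy, Wmat, Jmat, Matrix.add_apply, diagonal_apply]
  rcases lt_trichotomy i j with h | h | h
  · simp [h, h.ne]
  · subst h; simp
  · simp [h, h.ne', not_lt.2 h.le]

lemma W4_symm (y : I4 n → ℝ) (i j : Fin n) : W4 y i j = W4 y j i := by
  rw [W4_apply, W4_apply]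
  rcases lt_trichotomy i j with h | h | h
  · simp [h, not_lt.2 h.le]
  · subst h; rfl
  · simp [h, not_lt.2 h.le]

lemma W4_transpose (y : I4 n → ℝ) : (W4 y)ᵀ = W4 y := by
  ext i j; exact W4_symm y j i

lemma W4_herm (y : I4 n → ℝ) : (W4 y).IsHermitian := herm_iff.2 (W4_transpose y)

lemma Dl_apply (i j a b : Fin n) :
    Dl i j a b = (if i = a ∧ j = b then 1 else 0) + if j = a ∧ i = b then 1 else 0 := by
  simp only [Dl, Matrix.add_apply, single_apply]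


lemma W4_update (y : I4 n → ℝ) (p : Pair n) (t : ℝ) :
    W4 (update y (ip p) t) = W4 y + ((t - y (ip p)) / √n) • Dl p.1.1 p.1.2 := by
  obtain ⟨⟨i, j⟩, hp⟩ := p
  have hp' : i < j := hp
  ext a b
  rw [Matrix.add_apply, Matrix.smul_apply, W4_apply, W4_apply, Dl_apply, smul_eq_mul]
  rcases lt_trichotomy a b with h | h | h
  · have h2 : ¬ (j = a ∧ i = b) := fun ⟨h1, h2⟩ => by subst h1 h2; exact lt_asymm h hp'
    simp only [h, dif_pos, if_neg h2, add_zero]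
    by_cases h1 : i = a ∧ j = b
    · obtain ⟨rfl, rfl⟩ := h1
      simp only [update_self, and_self, if_true]; ring
    · rw [if_neg h1, update_of_ne, mul_zero, add_zero]
      intro e
      simp only [ip, Sum.inl.injEq, Subtype.mk.injEq, Prod.mk.injEq] at e
      exact h1 ⟨e.1.symm, e.2.symm⟩
  · subst h
    have h1 : ¬ (i = a ∧ j = a) := fun ⟨h1, h2⟩ => by subst h1 h2; exact lt_irrefl _ hp'
    have h2 : ¬ (j = a ∧ i = a) := fun ⟨h1, h2⟩ => by subst h1 h2; exact lt_irrefl _ hp'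
    simp only [lt_irrefl, dif_neg, not_false_eq_true, if_neg h1, if_neg h2, add_zero, mul_zero]
    rw [update_of_ne (by simp [ip])]
  · have h2 : ¬ (i = a ∧ j = b) := fun ⟨h1, h2⟩ => by subst h1 h2; exact lt_asymm h hp'
    simp only [h, not_lt.2 h.le, dif_pos, dif_neg, not_false_eq_true, if_neg h2, zero_add]
    by_cases h1 : j = a ∧ i = b
    · obtain ⟨rfl, rfl⟩ := h1
      simp only [update_self, and_self, if_true]; ring
    · rw [if_neg h1, update_of_ne, mul_zero, add_zero]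
      intro e
      simp only [ip, Sum.inl.injEq, Subtype.mk.injEq, Prod.mk.injEq] at e
      exact h1 ⟨e.2.symm, e.1.symm⟩

lemma sqrt_pos' (hn : 1 ≤ n) : 0 < √(n : ℝ) := sqrt_pos.2 (by exact_mod_cast hn)
lemma tau_pos' (hn : 1 ≤ n) : 0 < tau n := rpow_pos_of_pos (by exact_mod_cast hn) _
lemma sx_pos' (hn : 1 ≤ n) : 0 < sx n := rpow_pos_of_pos (by exact_mod_cast hn) _
lemma one_le_sx (hn : 1 ≤ n) : 1 ≤ sx n := one_le_rpow (by exact_mod_cast hn) (by norm_num)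
lemma sx_pow (n k : ℕ) : sx n ^ k = (n : ℝ) ^ ((k : ℝ) / 6) := by
  rw [sx, ← rpow_natCast, ← rpow_mul (Nat.cast_nonneg n)]; congr 1; ring
lemma sx_three (n : ℕ) : sx n ^ 3 = √n := by rw [sx_pow, sqrt_eq_rpow]; norm_num
lemma sx_four (n : ℕ) : sx n ^ 4 = tau n := by rw [sx_pow, tau]; norm_num
lemma sx_six (n : ℕ) : sx n ^ 6 = n := by rw [sx_pow]; norm_num

lemma W4_sh (hn : 1 ≤ n) (y : I4 n → ℝ) (p : Pair n) (t : ℝ) :
    W4 (sh y p t) = W4 y + t • Dl p.1.1 p.1.2 := by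
  rw [sh, W4_update, add_sub_cancel_left, mul_div_cancel_left₀ _ (sqrt_pos' hn).ne']

lemma x1_update (y : I4 n → ℝ) (p : Pair n) (t : ℝ) : x1 (update y (ip p) t) = x1 y := by
  funext k; exact update_of_ne (by simp [ip]) _ _
lemma x2_update (y : I4 n → ℝ) (p : Pair n) (t : ℝ) : x2 (update y (ip p) t) = x2 y := by
  funext k; exact update_of_ne (by simp [ip]) _ _
lemma x1_sh (y : I4 n → ℝ) (p : Pair n) (t : ℝ) : x1 (sh y p t) = x1 y := x1_update _ _ _
lemma x2_sh (y : I4 n → ℝ) (p : Pair n) (t : ℝ) : x2 (sh y p t) = x2 y := x2_update _ _ _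
lemma sh_zero (y : I4 n → ℝ) (p : Pair n) : sh y p 0 = y := by simp [sh]


lemma av_sh (hn : 1 ≤ n) (c : Par) (y : I4 n → ℝ) (p : Pair n) (t : ℝ) :
    av c (sh y p t) = fl n c.l' (W4 y + t • Dl p.1.1 p.1.2) *ᵥ x1 y := by
  rw [av, W4_sh hn, x1_sh]
lemma bv_sh (hn : 1 ≤ n) (c : Par) (y : I4 n → ℝ) (p : Pair n) (t : ℝ) :
    bv c (sh y p t) = fl n c.l (W4 y + t • Dl p.1.1 p.1.2) *ᵥ x2 y := by
  rw [bv, W4_sh hn, x2_sh]

lemma hp_update (c : Par) (ω : (Fin 4 → ℝ) → ℝ) (φ : ℝ) (y : I4 n → ℝ) (p : Pair n) (s : ℝ) :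
    hp c ω φ (update y (ip p) s) p = hp c ω φ y p := by
  funext t; simp only [hp, update_idem]


lemma Hm_transpose {W : Mat n} (hW : Wᵀ = W) : (Hm n W)ᵀ = Hm n W := by
  rw [Hm, transpose_smul, transpose_sub, transpose_smul, transpose_one, hW]

lemma eq_Hm (hn : 1 ≤ n) (W : Mat n) : W = (2 : ℝ) • (1 : Mat n) - (tau n)⁻¹ • Hm n W := by
  rw [Hm, smul_smul, inv_mul_cancel₀ (tau_pos' hn).ne', one_smul, sub_sub_cancel]

lemma vmv_mul_symm {H : Mat n} (hH : Hᵀ = H) (a b : Fin n → ℝ) :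
    vecMulVec a b * H = vecMulVec a (H *ᵥ b) := by
  rw [vecMulVec_mul, ← mulVec_transpose, hH]




/-! ### the rotations -/

section rot
variable (a b : Fin n → ℝ)

lemma Og_transpose : (Og a b)ᵀ = -Og a b := by
  rw [Og, transpose_sub, transpose_vecMulVec, transpose_vecMulVec, neg_sub]


lemma Og_sq : Og a b * Og a b = (a ⬝ᵥ b) • (vecMulVec b a + vecMulVec a b) -
    (a ⬝ᵥ a) • vecMulVec b b - (b ⬝ᵥ b) • vecMulVec a a := by
  simp only [Og, Matrix.mul_sub, Matrix.sub_mul, vecMulVec_mul_vecMulVec, vecMulVec_smul,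
    dotProduct_comm b a, smul_add]
  abel

lemma Og_cube : Og a b * Og a b * Og a b = -(a ⬝ᵥ a * b ⬝ᵥ b - (a ⬝ᵥ b) ^ 2) • Og a b := by
  rw [Og_sq]
  simp only [Og, Matrix.mul_sub, Matrix.sub_mul, Matrix.add_mul, Matrix.smul_mul,
    vecMulVec_mul_vecMulVec, vecMulVec_smul, dotProduct_comm b a]
  module

lemma Rt_zero : Rt 0 a b = 1 := by simp [Rt]

lemma Rt_transpose (φ : ℝ) : (Rt φ a b)ᵀ = Rt (-φ) a b := by
  simp only [Rt, transpose_add, transpose_smul, transpose_one, transpose_mul, Og_transpose,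
    sin_neg, cos_neg, Matrix.mul_neg, neg_neg, smul_neg, neg_mul, neg_smul]


variable {a b}

lemma ps_sq (h : (a ⬝ᵥ b) ^ 2 < a ⬝ᵥ a * b ⬝ᵥ b) :
    ps a b ^ 2 * (a ⬝ᵥ a * b ⬝ᵥ b - (a ⬝ᵥ b) ^ 2) = 1 := by
  rw [ps, inv_pow, sq_sqrt (by linarith), inv_mul_cancel₀ (by linarith)]

lemma Rt_add (h : (a ⬝ᵥ b) ^ 2 < a ⬝ᵥ a * b ⬝ᵥ b) (φ θ : ℝ) :
    Rt φ a b * Rt θ a b = Rt (φ + θ) a b := by
  have h1 := ps_sq h
  have h3 := Og_cube a b
  set D := a ⬝ᵥ a * b ⬝ᵥ b - (a ⬝ᵥ b) ^ 2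
  have h3' : Og a b * (Og a b * Og a b) = -D • Og a b := by rw [← Matrix.mul_assoc, h3]
  have h4 : Og a b * Og a b * (Og a b * Og a b) = -D • (Og a b * Og a b) := by
    rw [← Matrix.mul_assoc, h3, Matrix.smul_mul]
  simp only [Rt, Matrix.mul_add, Matrix.add_mul, Matrix.mul_smul, Matrix.smul_mul, Matrix.mul_one,
    Matrix.one_mul, h3, h3', h4, sin_add, cos_add]
  generalize Og a b * Og a b = P
  generalize Og a b = O
  generalize ps a b = ψ at h1 ⊢
  match_scalars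
  · ring
  · linear_combination (-(ψ * (sin θ * (1 - cos φ) + sin φ * (1 - cos θ)))) * h1
  · linear_combination (-(ψ ^ 2 * ((1 - cos φ) * (1 - cos θ)))) * h1


lemma Rt_orth' (h : (a ⬝ᵥ b) ^ 2 < a ⬝ᵥ a * b ⬝ᵥ b) (φ : ℝ) : Rt φ a b * (Rt φ a b)ᵀ = 1 := by
  rw [Rt_transpose, Rt_add h, add_neg_cancel, Rt_zero]





/-- conjugation by `1 + M` -/
lemma conj_eq (hn : 1 ≤ n) {M W : Mat n} (hW : Wᵀ = W) (hM : (1 + M) * (1 + M)ᵀ = 1) :
    (1 + M) * W * (1 + M)ᵀ =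
      W - (tau n)⁻¹ • (M * Hm n W + (M * Hm n W)ᵀ + M * Hm n W * Mᵀ) := by
  have h := Hm_transpose hW
  have e := eq_Hm hn W
  rw [transpose_mul, h]
  generalize Hm n W = H at e ⊢
  subst e
  rw [Matrix.mul_sub, Matrix.sub_mul, Matrix.mul_smul, Matrix.mul_one, Matrix.smul_mul, hM]
  simp only [transpose_add, transpose_one, Matrix.mul_add, Matrix.add_mul, Matrix.mul_smul,
    Matrix.smul_mul, Matrix.mul_one, Matrix.one_mul, smul_add]
  abel

end rot

end Crest.Agent.T157.Sw14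

end
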