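import Crest.Agent.T157.SwA_14
import Mathlib.Analysis.Matrix.Normed
import Crest.Agent.T157.EDef_39
import Crest.Agent.R339.GTools
import Crest.Agent.T157.CqSwap_44
import Crest.Agent.T157.CqRdA_7
import Crest.Agent.T157.SwDef_14

-- ▼ part T157/SwKA_14
section

/-!
# Row 157, SWAP for coins: a calculus of bounded holomorphic matrix functions (helper14)
-/

set_option autoImplicit false

noncomputable section

namespace Crest.Agent.T157.Sw14.K14

open Matrix Finset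
open scoped Matrix.Norms.Frobenius

variable {ι κ μ : Type} [Fintype ι] [Fintype κ] [Fintype μ] {U : Set ℂ} {η N : ℝ} {k k' : ℕ}

lemma fro_sq (A : Matrix ι κ ℂ) : ‖A‖ ^ 2 = ∑ i, ∑ j, ‖A i j‖ ^ 2 := by
  rw [frobenius_norm_def, ← Real.sqrt_eq_rpow, Real.sq_sqrt (by positivity)]
  simp only [Real.rpow_two]

lemma entry_le (A : Matrix ι κ ℂ) (i : ι) (j : κ) : ‖A i j‖ ≤ ‖A‖ := by
  refine le_of_sq_le_sq' ?_ (norm_nonneg _)
  rw [fro_sq]
  exact (single_le_sum (f := fun j => ‖A i j‖ ^ 2) (fun _ _ => by positivity) (mem_univ j)).trans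
    (single_le_sum (f := fun i => ∑ j, ‖A i j‖ ^ 2) (fun _ _ => by positivity) (mem_univ i))
where
  le_of_sq_le_sq' {a b : ℝ} (h : a ^ 2 ≤ b ^ 2) (hb : 0 ≤ b) : a ≤ b := (abs_le_of_sq_le_sq' h hb).2

/-- standing assumptions -/
structure Ctx (U : Set ℂ) (η N : ℝ) : Prop where
  z : (0 : ℂ) ∈ U
  e : 0 ≤ η
  n : 2 ≤ N

/-- scalar functions -/
structure As (U : Set ℂ) (η N : ℝ) (k : ℕ) (f : ℂ → ℂ) : Prop where
  d : DifferentiableOn ℂ f U
  b : ∀ z ∈ U, ‖f z‖ ≤ N ^ k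
  l : ∀ z ∈ U, ‖f z - f 0‖ ≤ N ^ k * η

/-- matrix functions -/
structure An (U : Set ℂ) (η N : ℝ) (k : ℕ) (F : ℂ → Matrix ι κ ℂ) : Prop where
  d : ∀ a b, DifferentiableOn ℂ (fun z => F z a b) U
  b : ∀ z ∈ U, ‖F z‖ ≤ N ^ k
  l : ∀ z ∈ U, ‖F z - F 0‖ ≤ N ^ k * η

lemma Ctx.pow_le (c : Ctx U η N) (h : k ≤ k') : N ^ k ≤ N ^ k' :=
  pow_le_pow_right₀ (by linarith [c.n]) h

lemma Ctx.two (c : Ctx U η N) (k : ℕ) : N ^ k + N ^ k ≤ N ^ (k + 1) := by
  have : 0 ≤ N ^ k := pow_nonneg (by linarith [c.n]) k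
  rw [pow_succ]; nlinarith [c.n]

lemma Ctx.prod (c : Ctx U η N) {x x' y d e : ℝ} (hx : x ≤ N ^ k) (hx' : x' ≤ N ^ k)
    (hy : y ≤ N ^ k') (hd : d ≤ N ^ k * η) (he : e ≤ N ^ k' * η) (y0 : 0 ≤ y) (e0 : 0 ≤ e) :
    x * y ≤ N ^ (k + k' + 1) ∧ d * y + x' * e ≤ N ^ (k + k' + 1) * η := by
  have N0 : 0 ≤ N := by linarith [c.n]
  have h1 : x * y ≤ N ^ k * N ^ k' := mul_le_mul hx hy y0 (by positivity)
  have h2 : d * y ≤ N ^ k * η * N ^ k' := mul_le_mul hd hy y0 (by have := c.e; positivity)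
  have h3 : x' * e ≤ N ^ k * (N ^ k' * η) := mul_le_mul hx' he e0 (by positivity)
  have h4 := c.two (k + k')
  have h5 := mul_le_mul_of_nonneg_right h4 c.e
  have h6 : 0 ≤ N ^ (k + k') := by positivity
  rw [pow_add] at h4 h5 h6
  constructor <;> nlinarith

lemma As.mono (c : Ctx U η N) {f : ℂ → ℂ} (h : As U η N k f) (hk : k ≤ k') : As U η N k' f :=
  ⟨h.d, fun z hz => (h.b z hz).trans (c.pow_le hk),
    fun z hz => (h.l z hz).trans (mul_le_mul_of_nonneg_right (c.pow_le hk) c.e)⟩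

lemma An.mono (c : Ctx U η N) {F : ℂ → Matrix ι κ ℂ} (h : An U η N k F) (hk : k ≤ k') :
    An U η N k' F :=
  ⟨h.d, fun z hz => (h.b z hz).trans (c.pow_le hk),
    fun z hz => (h.l z hz).trans (mul_le_mul_of_nonneg_right (c.pow_le hk) c.e)⟩

lemma As.const (c : Ctx U η N) {a : ℂ} (ha : ‖a‖ ≤ 2) : As U η N 1 fun _ => a :=
  ⟨differentiableOn_const _, fun _ _ => by rw [pow_one]; linarith [c.n], fun _ _ => by
    rw [sub_self, norm_zero]; exact mul_nonneg (pow_nonneg (by linarith [c.n]) _) c.e⟩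

lemma As.mul (c : Ctx U η N) {f g : ℂ → ℂ} (hf : As U η N k f) (hg : As U η N k' g) :
    As U η N (k + k' + 1) fun z => f z * g z := by
  have h := fun z hz => c.prod (hf.b z hz) (hf.b 0 c.z) (hg.b z hz) (hf.l z hz) (hg.l z hz)
    (norm_nonneg _) (norm_nonneg _)
  refine ⟨hf.d.mul hg.d, fun z hz => (norm_mul_le _ _).trans (h z hz).1, fun z hz => ?_⟩
  have : f z * g z - f 0 * g 0 = (f z - f 0) * g z + f 0 * (g z - g 0) := by ring
  rw [this]
  exact (norm_add_le _ _).trans ((add_le_add (norm_mul_le _ _) (norm_mul_le _ _)).trans (h z hz).2)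

lemma As.sub (c : Ctx U η N) {f g : ℂ → ℂ} (hf : As U η N k f) (hg : As U η N k g) :
    As U η N (k + 1) fun z => f z - g z := by
  refine ⟨hf.d.sub hg.d, fun z hz => (norm_sub_le _ _).trans
    ((add_le_add (hf.b z hz) (hg.b z hz)).trans (c.two k)), fun z hz => ?_⟩
  have : f z - g z - (f 0 - g 0) = (f z - f 0) - (g z - g 0) := by ring
  rw [this]
  refine (norm_sub_le _ _).trans ((add_le_add (hf.l z hz) (hg.l z hz)).trans ?_)
  rw [← add_mul]; exact mul_le_mul_of_nonneg_right (c.two k) c.e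

lemma An.add (c : Ctx U η N) {F G : ℂ → Matrix ι κ ℂ} (hf : An U η N k F) (hg : An U η N k G) :
    An U η N (k + 1) fun z => F z + G z := by
  refine ⟨fun a b => (hf.d a b).add (hg.d a b), fun z hz => (norm_add_le _ _).trans
    ((add_le_add (hf.b z hz) (hg.b z hz)).trans (c.two k)), fun z hz => ?_⟩
  have : F z + G z - (F 0 + G 0) = (F z - F 0) + (G z - G 0) := by abel
  rw [this]
  refine (norm_add_le _ _).trans ((add_le_add (hf.l z hz) (hg.l z hz)).trans ?_)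
  rw [← add_mul]; exact mul_le_mul_of_nonneg_right (c.two k) c.e

lemma An.sub (c : Ctx U η N) {F G : ℂ → Matrix ι κ ℂ} (hf : An U η N k F) (hg : An U η N k G) :
    An U η N (k + 1) fun z => F z - G z := by
  refine ⟨fun a b => (hf.d a b).sub (hg.d a b), fun z hz => (norm_sub_le _ _).trans
    ((add_le_add (hf.b z hz) (hg.b z hz)).trans (c.two k)), fun z hz => ?_⟩
  have : F z - G z - (F 0 - G 0) = (F z - F 0) - (G z - G 0) := by abel
  rw [this]
  refine (norm_sub_le _ _).trans ((add_le_add (hf.l z hz) (hg.l z hz)).trans ?_)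
  rw [← add_mul]; exact mul_le_mul_of_nonneg_right (c.two k) c.e

lemma An.tr {F : ℂ → Matrix ι κ ℂ} (hf : An U η N k F) : An U η N k fun z => (F z)ᵀ :=
  ⟨fun a b => hf.d b a, fun z hz => by rw [frobenius_norm_transpose]; exact hf.b z hz,
    fun z hz => by rw [← transpose_sub, frobenius_norm_transpose]; exact hf.l z hz⟩

lemma An.mul (c : Ctx U η N) {F : ℂ → Matrix ι κ ℂ} {G : ℂ → Matrix κ μ ℂ} (hf : An U η N k F)
    (hg : An U η N k' G) : An U η N (k + k' + 1) fun z => F z * G z := by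
  have h := fun z hz => c.prod (hf.b z hz) (hf.b 0 c.z) (hg.b z hz) (hf.l z hz) (hg.l z hz)
    (norm_nonneg _) (norm_nonneg _)
  refine ⟨fun a b => ?_, fun z hz => (frobenius_norm_mul _ _).trans (h z hz).1, fun z hz => ?_⟩
  · simp only [Matrix.mul_apply]
    exact DifferentiableOn.fun_sum fun j _ => (hf.d a j).mul (hg.d j b)
  have : F z * G z - F 0 * G 0 = (F z - F 0) * G z + F 0 * (G z - G 0) := by
    rw [Matrix.sub_mul, Matrix.mul_sub]; abel
  rw [this]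
  exact (norm_add_le _ _).trans
    ((add_le_add (frobenius_norm_mul _ _) (frobenius_norm_mul _ _)).trans (h z hz).2)

lemma As.smul (c : Ctx U η N) {f : ℂ → ℂ} {G : ℂ → Matrix ι κ ℂ} (hf : As U η N k f)
    (hg : An U η N k' G) : An U η N (k + k' + 1) fun z => f z • G z := by
  have h := fun z hz => c.prod (hf.b z hz) (hf.b 0 c.z) (hg.b z hz) (hf.l z hz) (hg.l z hz)
    (norm_nonneg _) (norm_nonneg _)
  refine ⟨fun a b => hf.d.mul (hg.d a b), fun z hz => (norm_smul_le _ _).trans (h z hz).1,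
    fun z hz => ?_⟩
  have : f z • G z - f 0 • G 0 = (f z - f 0) • G z + f 0 • (G z - G 0) := by
    rw [sub_smul, smul_sub]; abel
  rw [this]
  exact (norm_add_le _ _).trans
    ((add_le_add (norm_smul_le _ _) (norm_smul_le _ _)).trans (h z hz).2)

lemma An.entry {F : ℂ → Matrix ι κ ℂ} (hf : An U η N k F) (a : ι) (b : κ) :
    As U η N k fun z => F z a b :=
  ⟨hf.d a b, fun z hz => (entry_le _ a b).trans (hf.b z hz),
    fun z hz => (entry_le (F z - F 0) a b).trans (hf.l z hz)⟩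

/-- vector functions -/
def Av (U : Set ℂ) (η N : ℝ) (k : ℕ) (F : ℂ → ι → ℂ) : Prop :=
  An U η N k fun z => replicateCol Unit (F z)

lemma Av.vmv (c : Ctx U η N) {F G : ℂ → ι → ℂ} (hf : Av U η N k F) (hg : Av U η N k' G) :
    An U η N (k + k' + 1) fun z => vecMulVec (F z) (G z) := by
  have := An.mul c hf (An.tr hg)
  simpa only [vecMulVec_eq Unit, transpose_replicateCol] using this

lemma Av.dot (c : Ctx U η N) {F G : ℂ → ι → ℂ} (hf : Av U η N k F) (hg : Av U η N k' G) :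
    As U η N (k + k' + 1) fun z => F z ⬝ᵥ G z :=
  (An.mul c (An.tr hf) hg).entry () ()

lemma An.mulVec (c : Ctx U η N) {F : ℂ → Matrix ι κ ℂ} {G : ℂ → κ → ℂ} (hf : An U η N k F)
    (hg : Av U η N k' G) : Av U η N (k + k' + 1) fun z => F z *ᵥ G z := by
  have := An.mul c hf hg
  simpa only [Av, replicateCol_mulVec] using this

lemma Av.add (c : Ctx U η N) {F G : ℂ → ι → ℂ} (hf : Av U η N k F) (hg : Av U η N k G) :
    Av U η N (k + 1) fun z => F z + G z := An.add c hf hg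

lemma As.smulV (c : Ctx U η N) {f : ℂ → ℂ} {G : ℂ → ι → ℂ} (hf : As U η N k f)
    (hg : Av U η N k' G) : Av U η N (k + k' + 1) fun z => f z • G z := As.smul c hf hg

lemma Av.mono (c : Ctx U η N) {F : ℂ → ι → ℂ} (h : Av U η N k F) (hk : k ≤ k') : Av U η N k' F :=
  An.mono c h hk

lemma col_sq (v : ι → ℂ) : ‖replicateCol Unit v‖ ^ 2 = ∑ i, ‖v i‖ ^ 2 := by
  rw [fro_sq]; simp

/-- inverse square root -/
def isq (w : ℂ) : ℂ := (w ^ (2⁻¹ : ℂ))⁻¹

lemma isq_ofReal {x : ℝ} (hx : 0 ≤ x) : isq x = ((√x)⁻¹ : ℝ) := by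
  rw [isq, Real.sqrt_eq_rpow, Complex.ofReal_inv, Complex.ofReal_cpow hx]
  norm_num

lemma isq_bd {w : ℂ} {x κ : ℝ} (hκ : 0 < κ) (hx : κ ≤ x) (hw : ‖w - x‖ ≤ κ / 2) :
    κ / 2 ≤ w.re ∧ ‖isq w‖ ^ 2 ≤ 2 / κ ∧ ‖isq w - isq x‖ ≤ ‖isq w‖ * (κ⁻¹ * ‖w - x‖) := by
  have h1 : κ / 2 ≤ w.re := by
    have := (abs_le.1 ((Complex.abs_re_le_norm (w - x)).trans hw)).1
    simp only [Complex.sub_re, Complex.ofReal_re] at this
    linarith
  have x0 : 0 < x := hκ.trans_le hx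
  set s := w ^ (2⁻¹ : ℂ) with hs
  have s2 : s ^ 2 = w := by
    have := Complex.cpow_nat_inv_pow w (n := 2) two_ne_zero
    rwa [Nat.cast_ofNat] at this
  have sr : 0 ≤ s.re := by rw [hs, Complex.cpow_inv_two_re]; exact Real.sqrt_nonneg _
  have hn : κ / 2 ≤ ‖s‖ ^ 2 := by
    rw [← norm_pow, s2]; exact h1.trans (Complex.re_le_norm w)
  have s0 : s ≠ 0 := fun h => by rw [h, norm_zero] at hn; nlinarith
  have r0 := Real.sqrt_pos.2 x0
  have r2 : ((√x : ℝ) : ℂ) ^ 2 = x := by rw [← Complex.ofReal_pow, Real.sq_sqrt x0.le]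
  have p1 : √x ≤ ‖s + (√x : ℝ)‖ := le_trans (by simp [sr]) (Complex.re_le_norm _)
  have p0 : s + (√x : ℝ) ≠ 0 := fun h => by rw [h, norm_zero] at p1; linarith
  have rc : ((√x : ℝ) : ℂ) ≠ 0 := by exact_mod_cast r0.ne'
  refine ⟨h1, ?_, ?_⟩
  · rw [isq, ← hs, norm_inv, inv_pow, ← inv_div κ 2]
    exact inv_anti₀ (by positivity) hn
  · have e : isq w - isq x = isq w * (-(w - x) / ((√x : ℝ) * (s + (√x : ℝ)))) := by
      rw [isq_ofReal x0.le, isq, ← hs, Complex.ofReal_inv]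
      set r : ℂ := ((√x : ℝ) : ℂ)
      rw [← s2, ← r2]
      field_simp
      ring
    rw [e, norm_mul, norm_div, norm_neg, norm_mul, Complex.norm_real, Real.norm_eq_abs,
      abs_of_pos r0]
    refine mul_le_mul_of_nonneg_left ?_ (norm_nonneg _)
    rw [inv_mul_eq_div]
    refine div_le_div_of_nonneg_left (norm_nonneg _) hκ ?_
    calc κ ≤ √x * √x := by rw [Real.mul_self_sqrt x0.le]; exact hx
      _ ≤ _ := mul_le_mul_of_nonneg_left p1 r0.le

lemma As.isq (c : Ctx U η N) {f : ℂ → ℂ} (hf : As U η N k f) {x κ : ℝ} (h0 : f 0 = x)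
    (hx : κ ≤ x) (hκ : 2 ≤ κ * N) (hη : N ^ k * η ≤ κ / 2) :
    As U η N (k + 2) (fun z => isq (f z)) ∧ ∀ z ∈ U, 0 < (f z).re := by
  have N2 := c.n
  have κ0 : 0 < κ := by by_contra h; nlinarith
  have h := fun z hz => isq_bd κ0 hx (w := f z) (by rw [← h0]; exact (hf.l z hz).trans hη)
  have hp : ∀ z ∈ U, 0 < (f z).re := fun z hz => lt_of_lt_of_le (by positivity) (h z hz).1
  have hb : ∀ z ∈ U, ‖K14.isq (f z)‖ ≤ N := fun z hz => by
    refine (abs_le_of_sq_le_sq' ((h z hz).2.1.trans ?_) (by linarith)).2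
    rw [div_le_iff₀ κ0]; nlinarith
  refine ⟨⟨?_, fun z hz => (hb z hz).trans ?_, fun z hz => ?_⟩, hp⟩
  · refine (hf.d.cpow_const fun z hz => Or.inl (hp z hz)).inv fun z hz h => ?_
    have := hp z hz
    rw [(Complex.cpow_eq_zero_iff _ _).1 h |>.1] at this
    simp at this
  · simpa using c.pow_le (k := 1) (k' := k + 2) (by omega)
  · rw [h0]
    have h1 := hf.l z hz
    rw [h0] at h1
    have h2 : κ⁻¹ ≤ N := by rw [inv_le_iff_one_le_mul₀ κ0]; nlinarith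
    refine (h z hz).2.2.trans ((mul_le_mul (hb z hz) (mul_le_mul h2 h1 (norm_nonneg _)
      (by linarith)) (by positivity) (by linarith)).trans_eq (by ring))

end Crest.Agent.T157.Sw14.K14

end
end

-- ▼ part T157/SwK_14
section

/-!
# Row 157, SWAP for coins: continuation of the rotated killing probability (helper14)
-/

set_option autoImplicit false

noncomputable section

namespace Crest.Agent.T157.Sw14

open Matrix Finset Real Function
open Crest.ProbabilityR.SpinGlassDynamics Crest.Agent.T157.E Crest.Agent.T157.Eig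
open Crest.Agent.T157.St Crest.Agent.T157.Ed Crest.Agent.T157.Cq
open Crest.Agent.T157.Ll (Dl Res)
open scoped Matrix.Norms.Frobenius

namespace K14

variable {n : ℕ}

section gen
variable {R : Type} [CommRing R]

def OH (A B A' B' : Fin n → R) : Matrix (Fin n) (Fin n) R := vecMulVec B A' - vecMulVec A B'
def MH (α β : R) (A B A' B' : Fin n → R) : Matrix (Fin n) (Fin n) R :=
  α • OH A B A' B' + β • (OH A B A B * OH A B A' B')
def TR (α β : R) (A B A' B' : Fin n → R) : Matrix (Fin n) (Fin n) R :=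
  MH α β A B A' B' + (MH α β A B A' B')ᵀ + MH α β A B A' B' * (MH α β A B A B)ᵀ
def CV (χ α β : R) (A B : Fin n → R) : Fin n → R := χ • (A + MH α β A B A B *ᵥ A)

end gen

lemma MH_coe (α β : ℝ) (a b a' b' : Fin n → ℝ) (i j : Fin n) :
    MH (α : ℂ) β (fun k => (a k : ℂ)) (fun k => (b k : ℂ)) (fun k => (a' k : ℂ))
      (fun k => (b' k : ℂ)) i j = (MH α β a b a' b' i j : ℝ) := by
  simp [MH, OH, Matrix.mul_apply, vecMulVec_apply]

lemma TR_coe (α β : ℝ) (a b a' b' : Fin n → ℝ) (i j : Fin n) :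
    TR (α : ℂ) β (fun k => (a k : ℂ)) (fun k => (b k : ℂ)) (fun k => (a' k : ℂ))
      (fun k => (b' k : ℂ)) i j = (TR α β a b a' b' i j : ℝ) := by
  simp [TR, Matrix.mul_apply, MH_coe]

lemma CV_coe (χ α β : ℝ) (a b : Fin n → ℝ) (i : Fin n) :
    CV (χ : ℂ) α β (fun k => (a k : ℂ)) (fun k => (b k : ℂ)) i = (CV χ α β a b i : ℝ) := by
  simp [CV, Matrix.mulVec, dotProduct, MH_coe]

lemma Rt_eq (φ : ℝ) (a b : Fin n → ℝ) :
    Rt φ a b = 1 + MH (sin φ * ps a b) ((1 - cos φ) * ps a b ^ 2) a b a b := by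
  rw [Rt, MH, add_assoc]; rfl

lemma MH_mul {H : Mat n} (hH : Hᵀ = H) (α β : ℝ) (a b : Fin n → ℝ) :
    MH α β a b a b * H = MH α β a b (H *ᵥ a) (H *ᵥ b) := by
  have : OH a b a b * H = OH a b (H *ᵥ a) (H *ᵥ b) := by
    rw [OH, OH, Matrix.sub_mul, vmv_mul_symm hH, vmv_mul_symm hH]
  rw [MH, MH, Matrix.add_mul, Matrix.smul_mul, Matrix.smul_mul, Matrix.mul_assoc, this]

lemma conj_TR (hn : 1 ≤ n) {W : Mat n} (hW : Wᵀ = W) {a b : Fin n → ℝ}
    (h : (a ⬝ᵥ b) ^ 2 < a ⬝ᵥ a * b ⬝ᵥ b) (φ : ℝ) : Rt φ a b * W * (Rt φ a b)ᵀ =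
      W - (tau n)⁻¹ • TR (sin φ * ps a b) ((1 - cos φ) * ps a b ^ 2) a b (Hm n W *ᵥ a)
        (Hm n W *ᵥ b) := by
  have := Rt_orth' h φ
  rw [Rt_eq] at this ⊢
  rw [conj_eq hn hW this, MH_mul (Hm_transpose hW), TR]

lemma CV_eq (χ φ : ℝ) (a b : Fin n → ℝ) :
    χ • Rt φ a b *ᵥ a = CV χ (sin φ * ps a b) ((1 - cos φ) * ps a b ^ 2) a b := by
  rw [Rt_eq, CV, add_mulVec, one_mulVec]

section an
variable {U : Set ℂ} {η N : ℝ} {A B A' B' : ℂ → Fin n → ℂ} {α β χ : ℂ → ℂ}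

lemma an_OH (c : Ctx U η N) (hA : Av U η N 1 A) (hB : Av U η N 1 B) (hA' : Av U η N 1 A')
    (hB' : Av U η N 1 B') : An U η N 4 fun z => OH (A z) (B z) (A' z) (B' z) :=
  (hB.vmv c hA').sub c (hA.vmv c hB')

lemma an_MH (c : Ctx U η N) (hA : Av U η N 1 A) (hB : Av U η N 1 B) (hA' : Av U η N 1 A')
    (hB' : Av U η N 1 B') (hα : As U η N 23 α) (hβ : As U η N 23 β) :
    An U η N 34 fun z => MH (α z) (β z) (A z) (B z) (A' z) (B' z) :=
  ((hα.smul c (an_OH c hA hB hA' hB')).mono c (by norm_num)).add c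
    (hβ.smul c ((an_OH c hA hB hA hB).mul c (an_OH c hA hB hA' hB')))

lemma an_TR (c : Ctx U η N) (hA : Av U η N 1 A) (hB : Av U η N 1 B) (hA' : Av U η N 1 A')
    (hB' : Av U η N 1 B') (hα : As U η N 23 α) (hβ : As U η N 23 β) :
    An U η N 70 fun z => TR (α z) (β z) (A z) (B z) (A' z) (B' z) :=
  (((an_MH c hA hB hA' hB' hα hβ).add c (an_MH c hA hB hA' hB' hα hβ).tr).mono c
    (by norm_num)).add c ((an_MH c hA hB hA' hB' hα hβ).mul c (an_MH c hA hB hA hB hα hβ).tr)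

lemma an_CV (c : Ctx U η N) (hA : Av U η N 1 A) (hB : Av U η N 1 B) (hχ : As U η N 5 χ)
    (hα : As U η N 23 α) (hβ : As U η N 23 β) :
    Av U η N 70 fun z => CV (χ z) (α z) (β z) (A z) (B z) :=
  (hχ.smulV c ((hA.mono c (by norm_num)).add c ((an_MH c hA hB hA hB hα hβ).mulVec c hA))).mono c
    (by norm_num)

end an

lemma av_of (hn : 1 ≤ n) {i j : Fin n} {r M N ρ : ℝ} {f : ℝ → Fin n → ℝ} {F : ℂ → Fin n → ℂ}
    (h : AnV i j r M f F) (hρ : ρ ≤ r) (M0 : 0 ≤ M) (hM : M ≤ N) :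
    Av (Metric.ball 0 ρ) (ρ / sx n ^ 2) N 1 F := by
  have hs := Metric.ball_subset_ball (x := (0 : ℂ)) hρ
  have s0 := sx_pos' hn
  refine ⟨fun a _ => (h.diff a).mono hs, fun z hz => ?_, fun z hz => ?_⟩
  · rw [pow_one]
    refine (abs_le_of_sq_le_sq' ?_ (M0.trans hM)).2
    rw [col_sq]
    exact (h.nrm z (hs hz)).trans (pow_le_pow_left₀ M0 hM 2)
  · have hz' : ‖z‖ ≤ ρ := (mem_ball_zero_iff.1 hz).le
    have ρ0 := (norm_nonneg z).trans hz'
    rw [pow_one]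
    refine (abs_le_of_sq_le_sq' ?_ (mul_nonneg (M0.trans hM) (by positivity))).2
    have e : replicateCol Unit (F z) - replicateCol Unit (F 0) = replicateCol Unit (F z - F 0) := rfl
    rw [e, col_sq, mul_pow, div_pow, ← pow_mul, ← mul_div_assoc, le_div_iff₀ (by positivity),
      mul_comm]
    exact (h.lip z (hs hz)).trans
      (mul_le_mul (pow_le_pow_left₀ M0 hM 2) (pow_le_pow_left₀ (norm_nonneg _) hz' 2)
        (by positivity) (by positivity))

lemma dot_coe (a b : Fin n → ℝ) :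
    (fun k => (a k : ℂ)) ⬝ᵥ (fun k => (b k : ℂ)) = ((a ⬝ᵥ b : ℝ) : ℂ) := by
  simp [dotProduct]

/-- the holomorphic continuation of the rotated matrix and of the unit vector -/
lemma cont (hn : 1 ≤ n) {i j : Fin n} {r M M' N ρ κ : ℝ} {a b a' b' : ℝ → Fin n → ℝ}
    {A B A' B' : ℂ → Fin n → ℂ} (hA : AnV i j r M a A) (hA' : AnV i j r M a' A')
    (hB : AnV i j r M' b B) (hB' : AnV i j r M' b' B') (ρ0 : 0 < ρ) (hρ : ρ ≤ r) (M0 : 0 ≤ M)
    (M0' : 0 ≤ M') (hM : M ≤ N) (hM' : M' ≤ N) (N2 : 2 ≤ N) (hκ : 2 ≤ κ * N)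
    (hη : N ^ 8 * (ρ / sx n ^ 2) ≤ κ / 2) (h0 : κ ≤ a 0 ⬝ᵥ a 0)
    (h1 : κ ≤ a 0 ⬝ᵥ a 0 * b 0 ⬝ᵥ b 0 - (a 0 ⬝ᵥ b 0) ^ 2) (φ : ℝ) :
    ∃ (T : ℂ → Matrix (Fin n) (Fin n) ℂ) (C : ℂ → Fin n → ℂ),
      An (Metric.ball 0 ρ) (ρ / sx n ^ 2) N 70 T ∧ Av (Metric.ball 0 ρ) (ρ / sx n ^ 2) N 70 C ∧
      ∀ t : ℝ, |t| < ρ → (a t ⬝ᵥ b t) ^ 2 < a t ⬝ᵥ a t * b t ⬝ᵥ b t ∧
        (∀ k l, T t k l = (TR (sin φ * ps (a t) (b t)) ((1 - cos φ) * ps (a t) (b t) ^ 2)
          (a t) (b t) (a' t) (b' t) k l : ℝ)) ∧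
        ∀ k, C t k = (((√(a t ⬝ᵥ a t))⁻¹ • Rt φ (a t) (b t) *ᵥ a t) k : ℝ) := by
  have s0 := sx_pos' hn
  have c : Ctx (Metric.ball 0 ρ) (ρ / sx n ^ 2) N := ⟨Metric.mem_ball_self ρ0, by positivity, N2⟩
  have vA := av_of hn hA hρ M0 hM
  have vA' := av_of hn hA' hρ M0 hM
  have vB := av_of hn hB hρ M0' hM'
  have vB' := av_of hn hB' hρ M0' hM'
  have eA : ∀ t : ℝ, |t| < ρ → A t = fun k => (a t k : ℂ) := fun t ht =>
    funext (hA.real t (ht.trans_le hρ))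
  have eA' : ∀ t : ℝ, |t| < ρ → A' t = fun k => (a' t k : ℂ) := fun t ht =>
    funext (hA'.real t (ht.trans_le hρ))
  have eB : ∀ t : ℝ, |t| < ρ → B t = fun k => (b t k : ℂ) := fun t ht =>
    funext (hB.real t (ht.trans_le hρ))
  have eB' : ∀ t : ℝ, |t| < ρ → B' t = fun k => (b' t k : ℂ) := fun t ht =>
    funext (hB'.real t (ht.trans_le hρ))
  have q0 := vA.dot c vA
  have qD := ((q0.mul c (vB.dot c vB)).sub c ((vA.dot c vB).mul c (vA.dot c vB)))
  have e0 : ∀ t : ℝ, |t| < ρ → A t ⬝ᵥ A t = ((a t ⬝ᵥ a t : ℝ) : ℂ) := fun t ht => by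
    rw [eA t ht, dot_coe]
  have eD : ∀ t : ℝ, |t| < ρ → A t ⬝ᵥ A t * B t ⬝ᵥ B t - A t ⬝ᵥ B t * A t ⬝ᵥ B t =
      ((a t ⬝ᵥ a t * b t ⬝ᵥ b t - (a t ⬝ᵥ b t) ^ 2 : ℝ) : ℂ) := fun t ht => by
    rw [eA t ht, eB t ht, dot_coe, dot_coe, dot_coe]; push_cast; ring
  have z0 : |(0 : ℝ)| < ρ := by rwa [abs_zero]
  obtain ⟨hχ, pχ⟩ := q0.isq c (e0 0 z0) h0 hκ
    ((mul_le_mul_of_nonneg_right (c.pow_le (by norm_num)) c.e).trans hη)
  obtain ⟨hψ, pψ⟩ := qD.isq c (eD 0 z0) h1 hκ hη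
  have hs : ‖((sin φ : ℝ) : ℂ)‖ ≤ 2 := by
    rw [Complex.norm_real, Real.norm_eq_abs]; linarith [abs_sin_le_one φ]
  have hc : ‖((1 - cos φ : ℝ) : ℂ)‖ ≤ 2 := by
    rw [Complex.norm_real, Real.norm_eq_abs, abs_le]
    constructor <;> linarith [neg_one_le_cos φ, cos_le_one φ]
  have hα := ((As.const c hs).mul c hψ).mono c (k' := 23) (by norm_num)
  have hβ := (As.const c hc).mul c (hψ.mul c hψ)
  refine ⟨_, _, an_TR c vA vB vA' vB' hα hβ, an_CV c vA vB hχ hα hβ, fun t ht => ?_⟩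
  have tm : (t : ℂ) ∈ Metric.ball (0 : ℂ) ρ := by
    rwa [mem_ball_zero_iff, Complex.norm_real, Real.norm_eq_abs]
  have p0 := pχ t tm
  have p1 := pψ t tm
  simp only [e0 t ht, Complex.ofReal_re] at p0
  simp only [eD t ht, Complex.ofReal_re] at p1
  have eψ : isq (A t ⬝ᵥ A t * B t ⬝ᵥ B t - A t ⬝ᵥ B t * A t ⬝ᵥ B t) = (ps (a t) (b t) : ℝ) := by
    rw [eD t ht, isq_ofReal p1.le, ps]
  refine ⟨by linarith, fun k l => ?_, fun k => ?_⟩
  · rw [eψ, eA t ht, eB t ht, eA' t ht, eB' t ht, ← TR_coe]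
    congr 2 <;> push_cast <;> ring
  · rw [eψ, e0 t ht, isq_ofReal p0.le, eA t ht, eB t ht, CV_eq, ← CV_coe]
    congr 2 <;> push_cast <;> ring

lemma num {X P s N σ : ℝ} (hs : 0 ≤ s) (hσ : 1 ≤ σ) (N2 : 2 ≤ N) (hX : X = N ^ 73)
    (hP : 16 * (1 + s) * X ≤ P) :
    16 ≤ P ∧ X * ((P * σ ^ 2)⁻¹ / σ ^ 2) ≤ (16 * (1 + s) * σ ^ 4)⁻¹ := by
  have X1 : 1 ≤ X := hX ▸ one_le_pow₀ (by linarith)
  have P16 : 16 ≤ P := by nlinarith
  refine ⟨P16, ?_⟩
  rw [← mul_div_assoc, ← div_eq_mul_inv, div_div, inv_eq_one_div,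
    div_le_div_iff₀ (by positivity) (by positivity)]
  have : 0 ≤ σ ^ 4 := by positivity
  nlinarith

lemma num2 (hn : 1 ≤ n) {P s N κ : ℝ} (hs : 0 ≤ s) (N2 : 2 ≤ N) (κN : 2 ≤ κ * N)
    (hP : 16 * (1 + s) * N ^ 73 ≤ P) {ρ η : ℝ} (hρ : ρ = (P * sx n ^ 2)⁻¹) (hη' : η = ρ / sx n ^ 2) :
    N ^ 8 * η ≤ κ / 2 ∧ tau n * ρ ^ 2 ≤ 1 / 256 ∧
      tau n * (n * (N ^ 73 * η / tau n) ^ 2) ≤ (n : ℝ)⁻¹ / 256 ∧
      s * (N ^ 73 * η) ^ 2 * sx n ^ 2 ≤ (n : ℝ)⁻¹ := by
  have σ1 := one_le_sx hn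
  have τ0 := tau_pos' hn
  obtain ⟨P16, hη⟩ := num hs σ1 N2 rfl hP
  rw [← hρ, ← hη'] at hη
  have σ4 : 1 ≤ sx n ^ 4 := one_le_pow₀ σ1
  have η0 : 0 ≤ η := by rw [hη', hρ]; positivity
  have X0 : 0 ≤ N ^ 73 * η := by positivity
  have η16 : N ^ 73 * η ≤ (16 * sx n ^ 4)⁻¹ :=
    hη.trans (inv_anti₀ (by positivity) (by nlinarith))
  refine ⟨?_, ?_, ?_, ?_⟩
  · have h1 : N ^ 9 * η ≤ N ^ 73 * η :=
      mul_le_mul_of_nonneg_right (pow_le_pow_right₀ (by linarith) (by norm_num)) η0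
    have h2 : (16 * sx n ^ 4)⁻¹ ≤ (1 : ℝ) := inv_le_one_of_one_le₀ (by linarith)
    refine le_of_mul_le_mul_left (a := N) ?_ (by linarith)
    have h3 : N * (N ^ 8 * η) = N ^ 9 * η := by ring
    rw [h3]
    linarith
  · rw [hρ, ← sx_four, inv_pow, ← div_eq_mul_inv, div_le_div_iff₀ (by positivity) (by norm_num)]
    have := mul_le_mul_of_nonneg_right (mul_le_mul P16 P16 (by norm_num) (by linarith))
      (show 0 ≤ sx n ^ 4 by positivity)
    linarith
  · generalize N ^ 73 * η = X at X0 η16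
    calc _ ≤ tau n * (n * ((16 * sx n ^ 4)⁻¹ / tau n) ^ 2) := by gcongr
      _ = _ := by rw [← sx_four, ← sx_six]; field_simp; norm_num
  · generalize N ^ 73 * η = X at X0 hη
    calc _ ≤ s * ((16 * (1 + s) * sx n ^ 4)⁻¹) ^ 2 * sx n ^ 2 := by gcongr
      _ = s / (16 * (1 + s)) ^ 2 * (n : ℝ)⁻¹ := by rw [← sx_six]; field_simp
      _ ≤ _ := mul_le_of_le_one_left (by positivity) (by
        rw [div_le_one (by positivity)]; nlinarith)

lemma num3 {CD C τ ρ u v x y m : ℝ} (CD0 : 0 ≤ CD) (hC : 16 * (1 + CD) ≤ C) (u0 : 0 ≤ u) (v0 : 0 ≤ v)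
    (m0 : 0 ≤ m) (h1 : τ * ρ ^ 2 ≤ 1 / 256) (h2 : τ * x ≤ m⁻¹ / 256) (h3 : y ≤ m⁻¹) :
    CD * (τ * (ρ ^ 2 * (u + v) + x) + y) ≤ (C * (√u + √v + (√m)⁻¹)) ^ 2 := by
  have a1 := sq_sqrt u0
  have a2 := sq_sqrt v0
  have a3 : (√m)⁻¹ ^ 2 = m⁻¹ := by rw [inv_pow, sq_sqrt m0]
  have b1 := sqrt_nonneg u
  have b2 := sqrt_nonneg v
  have b3 : 0 ≤ (√m)⁻¹ := by positivity
  have h4 : τ * (ρ ^ 2 * (u + v)) ≤ u + v := by
    rw [← mul_assoc]
    exact mul_le_of_le_one_left (add_nonneg u0 v0) (by linarith)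
  have n0 : 0 ≤ m⁻¹ := by positivity
  rw [mul_pow, mul_add τ]
  calc _ ≤ CD * (2 * (√u + √v + (√m)⁻¹) ^ 2) := by
        refine mul_le_mul_of_nonneg_left ?_ CD0
        nlinarith [mul_nonneg b1 b2, mul_nonneg b1 b3, mul_nonneg b2 b3]
    _ ≤ _ := by
        rw [← mul_assoc]
        exact mul_le_mul_of_nonneg_right (by nlinarith) (by positivity)

/-- symmetrised continuation of `R W Rᵀ - W` -/
lemma sym (hn : 1 ≤ n) {ρ η N φ : ℝ} (cx : Ctx (Metric.ball 0 ρ) η N) {W : ℝ → Mat n}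
    (hW : ∀ t, (W t)ᵀ = W t) {a b : ℝ → Fin n → ℝ} {T : ℂ → Matrix (Fin n) (Fin n) ℂ}
    (hT : An (Metric.ball 0 ρ) η N 70 T)
    (hre : ∀ t : ℝ, |t| < ρ → (a t ⬝ᵥ b t) ^ 2 < a t ⬝ᵥ a t * b t ⬝ᵥ b t ∧
      ∀ k l, T t k l = (TR (sin φ * ps (a t) (b t)) ((1 - cos φ) * ps (a t) (b t) ^ 2)
        (a t) (b t) (Hm n (W t) *ᵥ a t) (Hm n (W t) *ᵥ b t) k l : ℝ)) :
    ∃ Δ : ℂ → Matrix (Fin n) (Fin n) ℂ,
      (∀ k l, DifferentiableOn ℂ (fun z => Δ z k l) (Metric.ball 0 ρ)) ∧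
      (∀ z ∈ Metric.ball (0 : ℂ) ρ, (Δ z)ᵀ = Δ z ∧
        ∑ k, ∑ l, ‖Δ z k l‖ ^ 2 ≤ (N ^ 73 * η / tau n) ^ 2) ∧
      ∀ t : ℝ, |t| < ρ → ∀ k l, Δ t k l = ((Rt φ (a t) (b t) * W t * (Rt φ (a t) (b t))ᵀ - W t -
        (Rt φ (a 0) (b 0) * W 0 * (Rt φ (a 0) (b 0))ᵀ - W 0)) k l : ℝ) := by
  have τ0 := tau_pos' hn
  have hS := (As.const cx (a := 2⁻¹) (by norm_num)).smul cx (hT.add cx hT.tr)
  have reS : ∀ t : ℝ, |t| < ρ → ∀ k l, ((2⁻¹ : ℂ) • (T t + (T t)ᵀ)) k l = ((tau n *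
      (W t - Rt φ (a t) (b t) * W t * (Rt φ (a t) (b t))ᵀ) k l : ℝ) : ℂ) := fun t ht k l => by
    obtain ⟨h1, h2⟩ := hre t ht
    have e := conj_TR hn (hW t) h1 φ
    have sy : (Rt φ (a t) (b t) * W t * (Rt φ (a t) (b t))ᵀ)ᵀ =
        Rt φ (a t) (b t) * W t * (Rt φ (a t) (b t))ᵀ := by
      simp only [transpose_mul, transpose_transpose, hW, Matrix.mul_assoc]
    rw [e, transpose_sub, hW, sub_right_inj, transpose_smul] at sy
    have sy' := congrFun (congrFun (smul_right_injective _ (inv_pos.2 τ0).ne' sy) k) l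
    rw [transpose_apply] at sy'
    rw [e, sub_sub_cancel, Matrix.smul_apply, Matrix.add_apply, transpose_apply, h2, h2, sy',
      Matrix.smul_apply, smul_eq_mul, smul_eq_mul, mul_inv_cancel_left₀ τ0.ne']
    ring
  have ρ0 : 0 < ρ := Metric.pos_of_mem_ball cx.z
  refine ⟨fun z => -((tau n : ℝ) : ℂ)⁻¹ •
    ((2⁻¹ : ℂ) • (T z + (T z)ᵀ) - (2⁻¹ : ℂ) • (T 0 + (T 0)ᵀ)),
    fun k l => ((hS.d k l).sub_const _).const_mul _, fun z hz => ⟨?_, ?_⟩, fun t ht k l => ?_⟩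
  · simp only [transpose_smul, transpose_sub, transpose_add, transpose_transpose, add_comm]
  · rw [← fro_sq, norm_smul, norm_neg, norm_inv, Complex.norm_real, Real.norm_eq_abs,
      abs_of_pos τ0, inv_mul_eq_div]
    exact pow_le_pow_left₀ (by positivity) (div_le_div_of_nonneg_right (hS.l z hz) τ0.le) 2
  · have e0 := reS 0 (by rwa [abs_zero]) k l
    rw [Complex.ofReal_zero] at e0
    beta_reduce
    rw [Matrix.smul_apply, Matrix.sub_apply, reS t ht, e0]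
    have : ((tau n : ℝ) : ℂ) ≠ 0 := by exact_mod_cast τ0.ne'
    simp only [Matrix.sub_apply, smul_eq_mul]
    push_cast
    field_simp
    ring

lemma num4 {l l' κ s CD Λ : ℝ} (l1 : 1 ≤ l) (κ0 : 0 < κ) (s0 : 0 ≤ s) (CD0 : 0 ≤ CD)
    (Λ1 : 1 ≤ Λ) {N₀ C : ℝ} (hN₀ : N₀ = 8 * l ^ 2 + 8 * l' ^ 2 + 2 / κ)
    (hC : C = 16 * (1 + s) * N₀ ^ 73 * (1 + CD)) :
    16 * (1 + CD) ≤ C ∧ 2 ≤ N₀ * Λ ^ 2 ∧ 16 * (1 + s) * (N₀ * Λ ^ 2) ^ 73 ≤ C * Λ ^ 146 ∧
      4 * Λ ≤ C * Λ ^ 146 ∧ 2 ≤ κ * (N₀ * Λ ^ 2) ∧ 8 * l ^ 2 * Λ ^ 2 ≤ N₀ * Λ ^ 2 ∧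
      8 * l' ^ 2 * Λ ^ 2 ≤ N₀ * Λ ^ 2 := by
  have k2 : 0 < 2 / κ := by positivity
  have q1 := sq_nonneg l'
  have q2 : 1 ≤ l ^ 2 := one_le_pow₀ l1
  have N₀2 : 2 ≤ N₀ := by linarith
  have X1 : 1 ≤ N₀ ^ 73 := one_le_pow₀ (by linarith)
  have L2 : 1 ≤ Λ ^ 2 := one_le_pow₀ Λ1
  have NN : N₀ ≤ N₀ * Λ ^ 2 := le_mul_of_one_le_right (by linarith) L2
  have C16 : 16 * (1 + CD) ≤ C := by
    rw [hC]
    generalize N₀ ^ 73 = X at X1
    exact mul_le_mul_of_nonneg_right (by nlinarith) (by linarith)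
  refine ⟨C16, by linarith, ?_, mul_le_mul (by linarith)
    (by simpa using pow_le_pow_right₀ Λ1 (show 1 ≤ 146 by norm_num)) (by linarith) (by linarith),
    ?_, mul_le_mul_of_nonneg_right (by linarith) (by positivity),
    mul_le_mul_of_nonneg_right (by linarith) (by positivity)⟩
  · rw [mul_pow, ← pow_mul, ← mul_assoc, hC]
    refine mul_le_mul_of_nonneg_right ?_ (by positivity)
    exact le_mul_of_one_le_right (by positivity) (by linarith)
  · rw [← div_le_iff₀' κ0]; linarith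

end K14

open K14

theorem kGlue : KGlue := by
  rintro ⟨CD, CD0, hD⟩ hR c ⟨ε0, ε1, s0, l1, l1'⟩ κ κ0
  obtain ⟨N₀, hN₀⟩ : ∃ N₀ : ℝ, N₀ = 8 * c.l ^ 2 + 8 * c.l' ^ 2 + 2 / κ := ⟨_, rfl⟩
  obtain ⟨C, hC⟩ : ∃ C : ℝ, C = 16 * (1 + c.s) * N₀ ^ 73 * (1 + CD) := ⟨_, rfl⟩
  have C16 := (num4 l1 κ0 s0 CD0 le_rfl hN₀ hC).1
  refine ⟨C, 146, by linarith, ?_⟩
  intro n y Λ φ hn Λ1 ⟨g1, g2⟩ ⟨r0, r1, _, _⟩
  have r0' : κ ≤ av c y ⬝ᵥ av c y := r0
  have r1' : κ ≤ av c y ⬝ᵥ av c y * bv c y ⬝ᵥ bv c y - (av c y ⬝ᵥ bv c y) ^ 2 := r1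
  obtain ⟨-, N2, hP, PΛ, κN, M1, M2⟩ := num4 l1 κ0 s0 CD0 Λ1 hN₀ hC
  generalize N₀ * Λ ^ 2 = N at N2 hP κN M1 M2
  generalize C * Λ ^ 146 = P at hP PΛ
  obtain ⟨ρ, hρ⟩ : ∃ ρ : ℝ, ρ = (P * sx n ^ 2)⁻¹ := ⟨_, rfl⟩
  rw [← hρ]
  have σ2 : 1 ≤ sx n ^ 2 := one_le_pow₀ (one_le_sx hn)
  have Λ0 : 0 < 4 * Λ := by linarith
  have PΛ' : 4 * Λ ≤ P * sx n ^ 2 := PΛ.trans (le_mul_of_one_le_right (by linarith) σ2)
  have ρ0 : 0 < ρ := hρ ▸ inv_pos.2 (by linarith)
  have ρr : ρ ≤ (4 * Λ)⁻¹ := hρ ▸ inv_anti₀ Λ0 PΛ'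
  obtain ⟨η8, m1, m2, m3⟩ := num2 hn s0 N2 κN hP hρ rfl
  have herm : (Rt φ (av c y) (bv c y) * W4 y * (Rt φ (av c y) (bv c y))ᵀ).IsHermitian := by
    rw [herm_iff]
    simp only [transpose_mul, transpose_transpose, W4_transpose, Matrix.mul_assoc]
  obtain ⟨w, w0, w1, hw⟩ := hD n c.ε c.s _
    ((√(av c y ⬝ᵥ av c y))⁻¹ • Rt φ (av c y) (bv c y) *ᵥ av c y) hn ε0 ε1 s0 herm
  refine ⟨fun i => √(w i), fun i => sqrt_nonneg _,
    by simpa only [sq_sqrt (w0 _)] using w1, fun p => ?_⟩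
  obtain ⟨A, A', hA, hA'⟩ := hR n c.l' Λ _ _ p.1.1 p.1.2 hn l1' Λ1 (W4_herm y) g1
  obtain ⟨B, B', hB, hB'⟩ := hR n c.l Λ _ _ p.1.1 p.1.2 hn l1 Λ1 (W4_herm y) g2
  simp only [← av_sh hn] at hA hA'
  simp only [← bv_sh hn] at hB hB'
  simp only [← W4_sh hn] at hA' hB'
  obtain ⟨T, V, hT, hV, hre⟩ := cont hn hA hA' hB hB' ρ0 ρr (by positivity) (by positivity)
    M2 M1 N2 κN η8 (by rwa [sh_zero]) (by rwa [sh_zero]) φ
  have cx : Ctx (Metric.ball 0 ρ) (ρ / sx n ^ 2) N :=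
    ⟨Metric.mem_ball_self ρ0, div_nonneg ρ0.le (by linarith), N2⟩
  obtain ⟨Δ, Δ1, Δ2, Δ3⟩ := sym hn cx (W := fun t => W4 (sh y p t)) (fun t => W4_transpose _) hT
    fun t ht => ⟨(hre t ht).1, (hre t ht).2.1⟩
  have hV' := hV.mono cx (k' := 73) (by norm_num)
  have n1 : (n : ℝ)⁻¹ ≤ 1 := inv_le_one_of_one_le₀ (by exact_mod_cast hn)
  obtain ⟨K, K1, K2, K3⟩ := hw p.1.1 p.1.2 (Metric.ball 0 ρ) Δ (fun z => V z - V 0) ρ _
    (N ^ 73 * (ρ / sx n ^ 2)) Δ1 (fun a => (hV'.d a ()).sub_const _)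
    (fun z hz => ⟨(mem_ball_zero_iff.1 hz).le, (Δ2 z hz).1, (Δ2 z hz).2, by
      rw [← col_sq]
      exact pow_le_pow_left₀ (norm_nonneg _) (hV'.l z hz) 2⟩) (by rw [mul_add]; linarith)
    (m3.trans n1)
  have z0 : |(0 : ℝ)| < ρ := by rwa [abs_zero]
  have Kt : ∀ t : ℝ, |t| < ρ → K t = Kp c φ (sh y p t) := fun t ht => by
    have tm : (t : ℂ) ∈ Metric.ball (0 : ℂ) ρ := by
      rwa [mem_ball_zero_iff, Complex.norm_real, Real.norm_eq_abs]
    rw [K2 t _ ((√(av c (sh y p t) ⬝ᵥ av c (sh y p t)))⁻¹ •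
        Rt φ (av c (sh y p t)) (bv c (sh y p t)) *ᵥ av c (sh y p t) -
          (√(av c y ⬝ᵥ av c y))⁻¹ • Rt φ (av c y) (bv c y) *ᵥ av c y) tm (Δ3 t ht) (fun a => ?_),
      add_sub_cancel, Kp, sh_zero]
    · congr 2
      rw [W4_sh hn]
      abel
    · have e0 := (hre 0 z0).2.2 a
      rw [Complex.ofReal_zero, sh_zero] at e0
      rw [Pi.sub_apply, (hre t ht).2.2 a, e0, Pi.sub_apply, Complex.ofReal_sub]
  refine ⟨K, K1, Kt, fun z hz => ?_⟩
  have K0 := Kt 0 z0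
  rw [Complex.ofReal_zero, sh_zero, Kp] at K0
  rw [K0]
  have C0 : 0 ≤ C := by linarith
  exact (abs_le_of_sq_le_sq' ((K3 z hz).trans
    (num3 CD0 C16 (w0 _) (w0 _) (Nat.cast_nonneg n) m1 m2 m3)) (by positivity)).2

end Crest.Agent.T157.Sw14

end
end

-- ▼ part T157/SwA_77
section

/-!
# Row 157, part C, SWAP for coins (helper77), A: Stein identities on a product of Gaussians and
coins, and the derivative of a mean along a flow
-/

set_option autoImplicit false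
set_option linter.all false

noncomputable section

namespace Crest.Agent.T157.Sw77

open MeasureTheory ProbabilityTheory Filter Function Finset
open Crest.Agent.T157.E

variable {ι : Type} [Fintype ι] [DecidableEq ι]

theorem mp_upd (ν : ι → Measure ℝ) [∀ c, IsProbabilityMeasure (ν c)] (j : ι) :
    MeasurePreserving (fun p : (ι → ℝ) × ℝ => update p.1 j p.2) ((Measure.pi ν).prod (ν j))
      (Measure.pi ν) := by
  have hm : Measurable (fun p : (ι → ℝ) × ℝ => update p.1 j p.2) := measurable_update'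
  refine ⟨hm, (Measure.pi_eq fun s hs => ?_).symm⟩
  rw [Measure.map_apply hm (MeasurableSet.univ_pi hs)]
  have : (fun p : (ι → ℝ) × ℝ => update p.1 j p.2) ⁻¹' (Set.univ.pi s) =
      (Set.univ.pi (update s j Set.univ)) ×ˢ (s j) := by
    ext ⟨g, t⟩
    simp only [Set.mem_preimage, Set.mem_pi, Set.mem_univ, true_implies, Set.mem_prod]
    constructor
    · intro h
      refine ⟨fun i => ?_, by simpa using h j⟩
      by_cases hi : i = j
      · subst hi; simp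
      · simpa [update_of_ne hi] using h i
    · rintro ⟨h1, h2⟩ i
      by_cases hi : i = j
      · subst hi; simpa using h2
      · simpa [update_of_ne hi] using h1 i
  rw [this, Measure.prod_prod, Measure.pi_pi, ← Finset.mul_prod_erase univ _ (mem_univ j),
    ← Finset.mul_prod_erase univ (fun i => ν i (s i)) (mem_univ j), update_self, measure_univ,
    one_mul, mul_comm]
  congr 1
  exact prod_congr rfl fun i hi => by rw [update_of_ne (ne_of_mem_erase hi)]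

theorem int_upd (ν : ι → Measure ℝ) [∀ c, IsProbabilityMeasure (ν c)] (j : ι) {F : (ι → ℝ) → ℝ}
    (hF : Integrable F (Measure.pi ν)) :
    ∫ y, F y ∂Measure.pi ν = ∫ y, ∫ t, F (update y j t) ∂ν j ∂Measure.pi ν := by
  have hmp := mp_upd ν j
  refine Eq.trans ?_ (integral_prod _ (hmp.integrable_comp_of_integrable hF))
  conv_lhs => rw [← hmp.map_eq]
  rw [integral_map hmp.measurable.aemeasurable (by rw [hmp.map_eq]; exact hF.aestronglyMeasurable)]
  rfl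

theorem int_coin (f : ℝ → ℝ) (hf : Measurable f) : ∫ t, f t ∂coin = (f 1 + f (-1)) / 2 := by
  have i : ∀ a : ℝ, Integrable f ((1 / 2 : ENNReal) • Measure.dirac a) := fun a =>
    (integrable_dirac (by simp)).smul_measure (by simp)
  rw [integral_add_measure (i 1) (i (-1)), integral_smul_measure, integral_smul_measure,
    integral_dirac, integral_dirac]
  simp; ring

/-- partial derivative -/
def pd (h : (ι → ℝ) → ℝ) (c : ι) (y : ι → ℝ) : ℝ := fderiv ℝ h y (Pi.single c 1)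

theorem upd_eq (y : ι → ℝ) (c : ι) (t : ℝ) :
    update y c t = update y c 0 + t • (Pi.single c 1 : ι → ℝ) := by
  funext i
  by_cases hi : i = c
  · subst hi; simp
  · simp [hi]

theorem hasDerivAt_upd (y : ι → ℝ) (c : ι) (t : ℝ) :
    HasDerivAt (fun t => update y c t) (Pi.single c 1 : ι → ℝ) t := by
  have := ((hasDerivAt_id t).smul_const (Pi.single c 1 : ι → ℝ)).const_add (update y c 0)
  simp only [one_smul, id] at this
  exact this.congr_of_eventuallyEq (.of_forall fun s => upd_eq y c s)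

theorem hasDerivAt_pd {h : (ι → ℝ) → ℝ} (y : ι → ℝ) (c : ι) (t : ℝ)
    (hd : DifferentiableAt ℝ h (update y c t)) :
    HasDerivAt (fun t => h (update y c t)) (pd h c (update y c t)) t :=
  hd.hasFDerivAt.comp_hasDerivAt t (hasDerivAt_upd y c t)

theorem deriv_upd {h : (ι → ℝ) → ℝ} (y : ι → ℝ) (c : ι) (t : ℝ)
    (hd : DifferentiableAt ℝ h (update y c t)) :
    deriv (fun t => h (update y c t)) t = pd h c (update y c t) := (hasDerivAt_pd y c t hd).deriv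

theorem cont_pd {h : (ι → ℝ) → ℝ} (hh : ContDiff ℝ 1 h) (c : ι) : Continuous (pd h c) :=
  (hh.continuous_fderiv (by simp)).clm_apply continuous_const

theorem supp_pd {h : (ι → ℝ) → ℝ} (hc : HasCompactSupport h) (c : ι) :
    HasCompactSupport (pd h c) :=
  (hc.fderiv ℝ).comp_left (g := fun L : (ι → ℝ) →L[ℝ] ℝ => L (Pi.single c 1)) (by simp)

theorem sum_pd (h : (ι → ℝ) → ℝ) (y v : ι → ℝ) : ∑ c, v c * pd h c y = fderiv ℝ h y v := by
  conv_rhs => rw [← univ_sum_single v]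
  rw [map_sum]
  refine sum_congr rfl fun c _ => ?_
  rw [pd, ← smul_eq_mul, ← map_smul]
  congr 1
  funext i
  by_cases hi : i = c
  · subst hi; simp
  · simp [hi]

/-- the error of the trapezoid rule in the coordinate `c` -/
def er (h : (ι → ℝ) → ℝ) (c : ι) (y : ι → ℝ) : ℝ :=
  (pd h c (update y c 1) + pd h c (update y c (-1))) / 2 -
    (h (update y c 1) - h (update y c (-1))) / 2

theorem int_cc {μ : Measure (ι → ℝ)} [IsFiniteMeasure μ] {F : (ι → ℝ) → ℝ} (h : Continuous F)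
    (hc : HasCompactSupport F) : Integrable F μ := by
  obtain ⟨C, hC⟩ := h.bounded_above_of_compact_support hc
  exact (integrable_const C).mono' h.aestronglyMeasurable (.of_forall hC)

/-- Stein's operator -/
def st (h : (ι → ℝ) → ℝ) (c : ι) (y : ι → ℝ) : ℝ := pd h c y - y c * h y

theorem cont_st {h : (ι → ℝ) → ℝ} (hh : ContDiff ℝ 1 h) (c : ι) : Continuous (st h c) :=
  (cont_pd hh c).sub ((continuous_apply c).mul hh.continuous)

theorem supp_st {h : (ι → ℝ) → ℝ} (hc : HasCompactSupport h) (c : ι) :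
    HasCompactSupport (st h c) := (supp_pd hc c).sub hc.mul_left

theorem stein_g (ν : ι → Measure ℝ) [∀ c, IsProbabilityMeasure (ν c)] {c : ι}
    (hν : ν c = gaussianReal 0 1) {h : (ι → ℝ) → ℝ} (hh : ContDiff ℝ 1 h)
    (hc : HasCompactSupport h) : ∫ y, st h c y ∂Measure.pi ν = 0 := by
  obtain ⟨C, hC⟩ := hh.continuous.bounded_above_of_compact_support hc
  obtain ⟨C', hC'⟩ := (cont_pd hh c).bounded_above_of_compact_support (supp_pd hc c)
  obtain ⟨C'', hC''⟩ := (cont_st hh c).bounded_above_of_compact_support (supp_st hc c)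
  rw [int_upd ν c (int_cc (cont_st hh c) (supp_st hc c)), hν]
  refine integral_eq_zero_of_ae (.of_forall fun y => ?_)
  have cu : Continuous fun t : ℝ => update y c t := continuous_const.update c continuous_id
  have c1 := (cont_pd hh c).comp cu
  have c2 := (cont_st hh c).comp cu
  have i1 : Integrable (fun t => pd h c (update y c t)) (gaussianReal 0 1) :=
    (integrable_const C').mono' c1.aestronglyMeasurable (.of_forall fun t => hC' _)
  have i2 : Integrable (fun t => st h c (update y c t)) (gaussianReal 0 1) :=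
    (integrable_const C'').mono' c2.aestronglyMeasurable (.of_forall fun t => hC'' _)
  have i3 : Integrable (fun t => t * h (update y c t)) (gaussianReal 0 1) :=
    (i1.sub i2).congr (.of_forall fun t => by simp [st])
  have := R339.Guerra.stein1 (f := fun t => h (update y c t)) (f' := fun t => pd h c (update y c t))
    (fun t => hasDerivAt_pd y c t (hh.differentiable (by simp) _)) c1.measurable
    (fun t => hC _) fun t => hC' _
  simp only [st, update_self, Pi.zero_apply]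
  rw [integral_sub i1 i3, this, sub_self]

theorem stein_c (ν : ι → Measure ℝ) [∀ c, IsProbabilityMeasure (ν c)] {c : ι}
    (hν : ν c = coin) {h : (ι → ℝ) → ℝ} (hh : ContDiff ℝ 1 h)
    (hc : HasCompactSupport h) : ∫ y, st h c y ∂Measure.pi ν = ∫ y, er h c y ∂Measure.pi ν := by
  rw [int_upd ν c (int_cc (cont_st hh c) (supp_st hc c)), hν]
  refine integral_congr_ae (.of_forall fun y => ?_)
  have cu : Continuous fun t : ℝ => update y c t := continuous_const.update c continuous_id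
  have := int_coin _ ((cont_st hh c).comp cu).measurable
  refine this.trans ?_
  simp only [comp_def, st, er, update_self]
  ring

theorem cont_er {h : (ι → ℝ) → ℝ} (hh : ContDiff ℝ 1 h) (c : ι) : Continuous (er h c) := by
  have cu : ∀ t : ℝ, Continuous fun y : ι → ℝ => update y c t := fun t =>
    continuous_id.update c continuous_const
  exact ((((cont_pd hh c).comp (cu 1)).add ((cont_pd hh c).comp (cu (-1)))).div_const 2).sub
    (((hh.continuous.comp (cu 1)).sub (hh.continuous.comp (cu (-1)))).div_const 2)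

theorem int_er {μ : Measure (ι → ℝ)} [IsFiniteMeasure μ] {h : (ι → ℝ) → ℝ} (hh : ContDiff ℝ 1 h)
    (hc : HasCompactSupport h) (c : ι) : Integrable (er h c) μ := by
  obtain ⟨C, hC⟩ := hh.continuous.bounded_above_of_compact_support hc
  obtain ⟨C', hC'⟩ := (cont_pd hh c).bounded_above_of_compact_support (supp_pd hc c)
  refine (integrable_const (C' + C)).mono' (cont_er hh c).aestronglyMeasurable
    (.of_forall fun y => ?_)
  have a1 := abs_le.1 (hC (update y c 1))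
  have a2 := abs_le.1 (hC (update y c (-1)))
  have a3 := abs_le.1 (hC' (update y c 1))
  have a4 := abs_le.1 (hC' (update y c (-1)))
  rw [Real.norm_eq_abs, abs_le, er]
  constructor <;> linarith [a1.1, a1.2, a2.1, a2.2, a3.1, a3.2, a4.1, a4.2]

/-- derivative of a mean in a parameter -/
theorem hasDerivAt_int {E : Type} [NormedAddCommGroup E] [NormedSpace ℝ E] [MeasurableSpace E]
    [BorelSpace E] [SecondCountableTopology E] (μ : Measure E) [IsFiniteMeasure μ]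
    {G : ℝ × E → ℝ} (hG : ContDiff ℝ 1 G) {K : Set E} (hK : IsCompact K)
    (h0 : ∀ φ y, y ∉ K → G (φ, y) = 0) (φ : ℝ) :
    HasDerivAt (fun φ => ∫ y, G (φ, y) ∂μ) (∫ y, fderiv ℝ G (φ, y) (1, 0) ∂μ) φ := by
  have c1 : Continuous fun p : ℝ × E => fderiv ℝ G p (1, 0) :=
    (hG.continuous_fderiv (by simp)).clm_apply continuous_const
  have hd : ∀ y ψ, HasDerivAt (fun ψ => G (ψ, y)) (fderiv ℝ G (ψ, y) (1, 0)) ψ := fun y ψ =>
    (hG.differentiable (by simp) (ψ, y)).hasFDerivAt.comp_hasDerivAt ψ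
      ((hasDerivAt_id ψ).prodMk (hasDerivAt_const ψ y))
  have z : ∀ ψ y, y ∉ K → fderiv ℝ G (ψ, y) (1, 0) = 0 := fun ψ y hy =>
    (hd y ψ).unique (by simpa only [h0 _ y hy] using hasDerivAt_const ψ (0 : ℝ))
  have hc := (isCompact_closedBall φ 1).prod hK
  obtain ⟨B, hB⟩ := hc.exists_bound_of_continuousOn c1.continuousOn
  obtain ⟨B', hB'⟩ := hc.exists_bound_of_continuousOn hG.continuous.continuousOn
  have cG : ∀ ψ, Continuous fun y => G (ψ, y) := fun ψ => hG.continuous.comp (by fun_prop)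
  refine (hasDerivAt_integral_of_dominated_loc_of_deriv_le (bound := fun _ => |B|)
    (F' := fun ψ y => fderiv ℝ G (ψ, y) (1, 0)) (Metric.ball_mem_nhds φ one_pos)
    (.of_forall fun ψ => (cG ψ).aestronglyMeasurable) ?_
    (c1.comp (by fun_prop : Continuous fun y : E => (φ, y))).aestronglyMeasurable
    (.of_forall fun y ψ hψ => ?_) (integrable_const _) (.of_forall fun y ψ _ => hd y ψ)).2
  · refine (integrable_const |B'|).mono' (cG φ).aestronglyMeasurable (.of_forall fun y => ?_)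
    by_cases hy : y ∈ K
    · exact (hB' _ ⟨Metric.mem_closedBall_self zero_le_one, hy⟩).trans (le_abs_self _)
    · simp [h0 _ _ hy]
  · by_cases hy : y ∈ K
    · exact (hB _ ⟨Metric.ball_subset_closedBall hψ, hy⟩).trans (le_abs_self _)
    · simp [z _ _ hy]

end Crest.Agent.T157.Sw77

end
end

-- ▼ part T157/SwB_77
section

/-!
# Row 157, part C, SWAP for coins (helper77), B: smoothness of the objects of the swap
-/

set_option autoImplicit false
set_option linter.all false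

noncomputable section

namespace Crest.Agent.T157.Sw77

open Matrix Filter Topology Finset Real Function
open Crest.ProbabilityR.SpinGlassDynamics Crest.Agent.T157.E Crest.Agent.T157.Eig
open Crest.Agent.T157.St Crest.Agent.T157.Ed Crest.Agent.T157.Cond Crest.Agent.T157.Cq

variable {F : Type} [NormedAddCommGroup F] [NormedSpace ℝ F] {p : F} {n : ℕ}

/-- a vector with smooth entries -/
def SV {κ : Type} (v : F → κ → ℝ) (p : F) : Prop := ∀ i, ContDiffAt ℝ (⊤ : ℕ∞) (fun q => v q i) p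
/-- a matrix with smooth entries -/
def SM (M : F → Mat n) (p : F) : Prop := ∀ i j, ContDiffAt ℝ (⊤ : ℕ∞) (fun q => M q i j) p

variable {u v : F → Fin n → ℝ} {M N : F → Mat n} {c : F → ℝ}

theorem SV.const {κ : Type} (v : κ → ℝ) : SV (fun _ : F => v) p := fun _ => contDiffAt_const
theorem SM.const (M : Mat n) : SM (fun _ : F => M) p := fun _ _ => contDiffAt_const
theorem SV.sub (h : SV u p) (h' : SV v p) : SV (fun q => u q - v q) p := fun i =>
  ContDiffAt.sub (h i) (h' i)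
theorem SV.smul (hc : ContDiffAt ℝ (⊤ : ℕ∞) c p) (h : SV u p) : SV (fun q => c q • u q) p := fun i =>
  hc.mul (h i)
theorem SV.dot (h : SV u p) (h' : SV v p) : ContDiffAt ℝ (⊤ : ℕ∞) (fun q => u q ⬝ᵥ v q) p :=
  ContDiffAt.sum fun i _ => (h i).mul (h' i)
theorem SM.add (h : SM M p) (h' : SM N p) : SM (fun q => M q + N q) p := fun i j =>
  ContDiffAt.add (h i j) (h' i j)
theorem SM.sub (h : SM M p) (h' : SM N p) : SM (fun q => M q - N q) p := fun i j =>
  ContDiffAt.sub (h i j) (h' i j)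
theorem SM.smul (hc : ContDiffAt ℝ (⊤ : ℕ∞) c p) (h : SM M p) : SM (fun q => c q • M q) p := fun i j =>
  hc.mul (h i j)
theorem SM.mul (h : SM M p) (h' : SM N p) : SM (fun q => M q * N q) p := fun i j =>
  ContDiffAt.sum (s := univ) (f := fun k q => M q i k * N q k j) fun k _ => (h i k).mul (h' k j)
theorem SM.tr (h : SM M p) : SM (fun q => (M q)ᵀ) p := fun i j => h j i
theorem SM.mulVec (h : SM M p) (h' : SV v p) : SV (fun q => M q *ᵥ v q) p := fun i =>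
  ContDiffAt.sum (s := univ) (f := fun k q => M q i k * v q k) fun k _ => (h i k).mul (h' k)
theorem SV.vmv (h : SV u p) (h' : SV v p) : SM (fun q => vecMulVec (u q) (v q)) p := fun i j =>
  (h i).mul (h' j)

theorem SM.det (h : SM M p) : ContDiffAt ℝ (⊤ : ℕ∞) (fun q => (M q).det) p := by
  simp only [Matrix.det_apply']
  exact ContDiffAt.sum fun σ _ => contDiffAt_const.mul (contDiffAt_prod fun i _ => h _ _)

theorem SM.inv (h : SM M p) (hd : (M p).det ≠ 0) : SM (fun q => (M q)⁻¹) p := fun a b => by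
  have h1 : (fun q => (M q)⁻¹ a b) = fun q => ((M q).det)⁻¹ * (M q).adjugate a b := by
    funext q
    rw [Matrix.inv_def, Ring.inverse_eq_inv', Matrix.smul_apply, smul_eq_mul]
  rw [h1]
  refine (h.det.inv hd).mul ?_
  simp only [Matrix.adjugate_apply]
  refine SM.det fun c d => ?_
  by_cases hc : c = b
  · subst hc
    simp only [Matrix.updateRow_self]
    exact contDiffAt_const
  · simp only [Matrix.updateRow_ne hc]
    exact h c d

theorem SM.fl (h : SM M p) (hM : ∀ q, (M q).IsHermitian) {l : ℝ} (hl : l ≠ 0) :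
    SM (fun q => fl n l (M q)) p := by
  simp only [Swap44.fl_eq (hM _) hl]
  have h1 : SM (fun q => tau n • ((2 : ℝ) • (1 : Mat n) - M q)) p :=
    SM.smul contDiffAt_const ((SM.const _).sub h)
  refine SM.smul contDiffAt_const (SM.inv ((h1.mul h1).add (SM.const _)) ?_)
  have := fnK_isUnit_det (hM p) (f := fun x => (tau n * (2 - x)) ^ 2 + l ^ 2)
    fun k _ => by positivity
  rw [← Swap44.den_eq (hM p)] at this
  exact this.ne_zero

theorem SV.unitv (h : SV u p) (h0 : u p ≠ 0) : SV (fun q => unitv (u q)) p := by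
  have h1 : u p ⬝ᵥ u p ≠ 0 := fun e => h0 (dotProduct_self_eq_zero.1 e)
  exact SV.smul (((h.dot h).sqrt h1).inv fun e => h0 (len_eq_zero.1 e)) h

theorem SV.prp (h : SV u p) (h' : SV v p) (h0 : 0 < u p ⬝ᵥ u p)
    (h1 : (u p ⬝ᵥ v p) ^ 2 < u p ⬝ᵥ u p * v p ⬝ᵥ v p) : SV (fun q => prp (u q) (v q)) p := by
  refine SV.unitv (h'.sub (SV.smul ((h.dot h').div (h.dot h) h0.ne') h)) fun e => ?_
  have := (Swap44.frame h0 h1).2.1
  rw [Cq.prp, e, unitv_zero] at this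
  simp at this

theorem SV.rot (h : SV u p) (h' : SV v p) (hc : ContDiffAt ℝ (⊤ : ℕ∞) c p) :
    SM (fun q => rot (u q) (v q) (c q)) p :=
  ((SM.const _).add (SM.smul (hc.cos.sub contDiffAt_const) ((h.vmv h).add (h'.vmv h')))).add
    (SM.smul hc.sin ((h'.vmv h).sub (h.vmv h')))

theorem SM.ising (h : SM M p) : SV (fun q => ising (M q) 0) p := fun x =>
  ((contDiffAt_const.mul ((SV.const _).dot (h.mulVec (SV.const _)))).add contDiffAt_const).exp

theorem SM.kil (h : SM M p) {V : F → Cube n → ℝ} (hV : SV V p) (m : ℕ) :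
    SV (fun q => kil (E.ising (M q) 0) (V q) m) p := by
  induction m with
  | zero => exact SV.const _
  | succ m ih =>
    intro x
    simp only [Cq.kil, iterate_succ_apply'] at ih ⊢
    refine ((hV x).div_const _).neg.exp.mul (contDiffAt_const.mul (ContDiffAt.sum fun l _ => ?_))
    exact (((h.ising _).mul (ih _)).add ((h.ising _).mul (ih _))).div
      ((h.ising _).add (h.ising _)) (add_pos (exp_pos _) (exp_pos _)).ne'

theorem SM.kap (h : SM M p) (ε : ℝ) {V : F → Cube n → ℝ} (hV : SV V p) :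
    ContDiffAt ℝ (⊤ : ℕ∞) (fun q => kap (M q) ε (V q)) p :=
  contDiffAt_const.sub (ContDiffAt.sum fun x _ => contDiffAt_const.mul (h.kil hV _ x))

theorem SV.sl (h : SV u p) (s : ℝ) : SV (fun q x => s * sl (u q) x) p := fun x =>
  contDiffAt_const.mul ((h.dot (SV.const _)).pow 2)

theorem SV.contDiffAt {κ : Type} [Fintype κ] {v : F → κ → ℝ} (h : SV v p) : ContDiffAt ℝ (⊤ : ℕ∞) v p :=
  contDiffAt_pi.2 h

end Crest.Agent.T157.Sw77

end
end

-- ▼ part T157/SwC_77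
section

/-!
# Row 157, part C, SWAP for coins (helper77), C: coordinates, the action of the orthogonal group,
the vector field of the swap and its divergence
-/

set_option autoImplicit false
set_option linter.all false

noncomputable section

namespace Crest.Agent.T157.Sw77

open Matrix Filter Topology Finset Real Function
open Crest.ProbabilityR.SpinGlassDynamics Crest.Agent.T157.E Crest.Agent.T157.Eig
open Crest.Agent.T157.St Crest.Agent.T157.Ed Crest.Agent.T157.Cond Crest.Agent.T157.Cq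

variable {n : ℕ}

/-- all independent coordinates -/
abbrev Jx (n : ℕ) : Type := Sw14.I4 n
/-- the matrix -/
def Wq (y : Jx n → ℝ) : Mat n := Wmat n (fun p => y (.inl (.inl p))) fun i => y (.inl (.inr i))
/-- first Gaussian vector -/
def x1 (y : Jx n → ℝ) : Fin n → ℝ := fun i => y (.inr (.inl i))
/-- second Gaussian vector -/
def x2 (y : Jx n → ℝ) : Fin n → ℝ := fun i => y (.inr (.inr i))
/-- coordinates of a triple -/
def co (S : Mat n) (u v : Fin n → ℝ) : Jx n → ℝ :=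
  Sum.elim (Sum.elim (fun p => √(n : ℝ) * S p.1.1 p.1.2) fun i => √(n : ℝ) / √2 * S i i)
    (Sum.elim u v)
/-- action of a matrix -/
def act (R : Mat n) (y : Jx n → ℝ) : Jx n → ℝ := co (R * Wq y * Rᵀ) (R *ᵥ x1 y) (R *ᵥ x2 y)
/-- infinitesimal action -/
def gen (θ : Mat n) (y : Jx n → ℝ) : Jx n → ℝ :=
  co (θ * Wq y - Wq y * θ) (θ *ᵥ x1 y) (θ *ᵥ x2 y)

theorem Wq_herm (y : Jx n → ℝ) : (Wq y).IsHermitian := Wmat_isHermitian _ _
theorem Wq_tr (y : Jx n → ℝ) : (Wq y)ᵀ = Wq y := Wmat_transpose _ _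

theorem Wq_lt (y : Jx n → ℝ) {i j : Fin n} (h : i < j) :
    Wq y i j = y (.inl (.inl ⟨(i, j), h⟩)) / √(n : ℝ) := by
  simp [Wq, Wmat, Jmat_apply_lt _ h, diagonal_apply_ne _ (ne_of_lt h)]

theorem Wq_diag (y : Jx n → ℝ) (i : Fin n) : Wq y i i = √2 * y (.inl (.inr i)) / √(n : ℝ) := by
  simp [Wq, Wmat, Jmat_diag]

theorem Wq_symm (y : Jx n → ℝ) (i j : Fin n) : Wq y i j = Wq y j i := herm_apply (Wq_herm y) i j

theorem sq_ne (i : Fin n) : √(n : ℝ) ≠ 0 := (sqrt_pos.2 (by exact_mod_cast i.pos)).ne'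

theorem Wq_co {S : Mat n} (hS : Sᵀ = S) (u v : Fin n → ℝ) : Wq (co S u v) = S := by
  have h2 : √(2 : ℝ) ≠ 0 := by positivity
  ext k l
  have h0 := sq_ne k
  rcases lt_trichotomy k l with h | h | h
  · rw [Wq_lt _ h]; simp only [co, Sum.elim_inl]; field_simp
  · subst h
    rw [Wq_diag]; simp only [co, Sum.elim_inl, Sum.elim_inr]; field_simp
  · have : S l k = S k l := congrFun (congrFun hS k) l
    rw [Wq_symm, Wq_lt _ h, ← this]; simp only [co, Sum.elim_inl]; field_simp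

theorem x1_co (S : Mat n) (u v : Fin n → ℝ) : x1 (co S u v) = u := rfl
theorem x2_co (S : Mat n) (u v : Fin n → ℝ) : x2 (co S u v) = v := rfl

theorem co_self (y : Jx n → ℝ) : co (Wq y) (x1 y) (x2 y) = y := by
  have h2 : √(2 : ℝ) ≠ 0 := by positivity
  funext c
  rcases c with (p | i) | i | i
  · have := sq_ne p.1.1
    simp only [co, Sum.elim_inl, Wq_lt _ p.2]; field_simp
  · have := sq_ne i
    simp only [co, Sum.elim_inl, Sum.elim_inr, Wq_diag]; field_simp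
  · rfl
  · rfl

theorem co_dot {S T : Mat n} (hS : Sᵀ = S) (hT : Tᵀ = T) (u v u' v' : Fin n → ℝ) :
    co S u v ⬝ᵥ co T u' v' = n / 2 * (S * T).trace + u ⬝ᵥ u' + v ⬝ᵥ v' := by
  have s1 : ∀ i j, S j i = S i j := fun i j => congrFun (congrFun hS i) j
  have s2 : ∀ i j, T j i = T i j := fun i j => congrFun (congrFun hT i) j
  have h := sum_sum_eq_two_mul_pair (fun i j => S i j * T i j - if i = j then S i i * T i i else 0)
    (fun i j => by
      by_cases e : i = j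
      · subst e; rfl
      · rw [if_neg e, if_neg (Ne.symm e), s1 i j, s2 i j]) fun i => by simp
  simp only [sum_sub_distrib, sum_ite_eq, mem_univ, if_true] at h
  have h3 : ∑ p : Pair n, (if p.1.1 = p.1.2 then S p.1.1 p.1.1 * T p.1.1 p.1.1 else 0) = 0 :=
    sum_eq_zero fun p _ => if_neg (ne_of_lt p.2)
  have ht : (S * T).trace = ∑ i, ∑ j, S i j * T i j := by
    simp only [trace, Matrix.diag_apply, mul_apply, s2]
  have e1 : ∀ a b : ℝ, √(n : ℝ) * a * (√(n : ℝ) * b) = n * (a * b) := fun a b => by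
    rw [mul_mul_mul_comm, mul_self_sqrt (Nat.cast_nonneg n)]
  have e2 : ∀ a b : ℝ, √(n : ℝ) / √2 * a * (√(n : ℝ) / √2 * b) = n / 2 * (a * b) := fun a b => by
    rw [mul_mul_mul_comm, div_mul_div_comm, mul_self_sqrt (Nat.cast_nonneg n),
      mul_self_sqrt (by norm_num)]
  simp only [dotProduct, Fintype.sum_sum_type, co, Sum.elim_inl, Sum.elim_inr, e1, e2, ← mul_sum]
  rw [h3] at h
  rw [ht]
  linear_combination (-(n : ℝ) / 2) * h

theorem conj_tr (R : Mat n) (y : Jx n → ℝ) : (R * Wq y * Rᵀ)ᵀ = R * Wq y * Rᵀ := by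
  simp only [transpose_mul, transpose_transpose, Wq_tr, Matrix.mul_assoc]

theorem Wq_act (R : Mat n) (y : Jx n → ℝ) : Wq (act R y) = R * Wq y * Rᵀ := Wq_co (conj_tr R y) _ _

theorem act_one (y : Jx n → ℝ) : act 1 y = y := by
  simp only [act, Matrix.one_mul, transpose_one, Matrix.mul_one, one_mulVec, co_self]

theorem act_dot {R : Mat n} (hR : Rᵀ * R = 1) (y : Jx n → ℝ) : act R y ⬝ᵥ act R y = y ⬝ᵥ y := by
  conv_rhs => rw [← co_self y]
  rw [act, co_dot (conj_tr R y) (conj_tr R y), co_dot (Wq_tr y) (Wq_tr y), Swap44.dot_orth hR,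
    Swap44.dot_orth hR]
  have : (R * Wq y * Rᵀ * (R * Wq y * Rᵀ)).trace = (Wq y * Wq y).trace := by
    have e : R * Wq y * Rᵀ * (R * Wq y * Rᵀ) = R * (Wq y * (Rᵀ * R) * Wq y * Rᵀ) := by
      simp only [Matrix.mul_assoc]
    rw [e, hR, trace_mul_comm, Matrix.mul_assoc, hR, Matrix.mul_one, Matrix.mul_one]
  rw [this]

theorem dot_gen {θ : Mat n} (hθ : θᵀ = -θ) (y : Jx n → ℝ) : y ⬝ᵥ gen θ y = 0 := by
  have k : ∀ u : Fin n → ℝ, u ⬝ᵥ θ *ᵥ u = 0 := fun u => by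
    have : u ⬝ᵥ θ *ᵥ u = -(u ⬝ᵥ θ *ᵥ u) := by
      conv_lhs => rw [dotProduct_mulVec, ← mulVec_transpose, hθ, neg_mulVec, neg_dotProduct,
        dotProduct_comm]
    linarith
  have hs : (θ * Wq y - Wq y * θ)ᵀ = θ * Wq y - Wq y * θ := by
    simp only [transpose_sub, transpose_mul, Wq_tr, hθ, Matrix.mul_neg, Matrix.neg_mul]; abel
  conv_lhs => enter [1]; rw [← co_self y]
  rw [gen, co_dot (Wq_tr y) hs, k, k, Matrix.mul_sub, trace_sub, ← Matrix.mul_assoc,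
    trace_mul_comm (Wq y * θ)]
  simp

/-- generator of the rotation from `a` to `b` -/
def th (a b : Fin n → ℝ) : Mat n := vecMulVec b a - vecMulVec a b

theorem th_tr (a b : Fin n → ℝ) : (th a b)ᵀ = -th a b := by
  simp [th, transpose_sub, transpose_vecMulVec]

theorem rd_zero (a b : Fin n → ℝ) : Rd7.rd a b 0 = th a b := by simp [Rd7.rd, th]

theorem Nm_zero (a b : Fin n → ℝ) (H : Mat n) : Rd7.Nm a b H 0 = th a b * H - H * th a b := by
  rw [Rd7.Nm, rd_zero, Rd7.rot_zero, th_tr]; simp [sub_eq_add_neg]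

theorem hasDerivAt_act (a b : Fin n → ℝ) (y : Jx n → ℝ) :
    HasDerivAt (fun t => act (rot a b t) y) (gen (th a b) y) 0 := by
  have k : ∀ (u : Fin n → ℝ) (i : Fin n),
      HasDerivAt (fun t => (rot a b t *ᵥ u) i) ((th a b *ᵥ u) i) 0 := fun u i => by
    rw [← rd_zero]
    exact HasDerivAt.fun_sum (u := univ) (A := fun k t => rot a b t i k * u k)
      fun k _ => (Rd7.hasDerivAt_rot a b 0 i k).mul_const (u k)
  refine hasDerivAt_pi.2 fun c => ?_
  rcases c with (p | i) | i | i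
  · have := (Rd7.hasDerivAt_conj a b (Wq y) 0 p.1.1 p.1.2).const_mul √(n : ℝ)
    rwa [Nm_zero] at this
  · have := (Rd7.hasDerivAt_conj a b (Wq y) 0 i i).const_mul (√(n : ℝ) / √2)
    rwa [Nm_zero] at this
  · exact k _ i
  · exact k _ i

theorem Wq_lin : IsLinearMap ℝ (Wq : (Jx n → ℝ) → Mat n) := by
  constructor
  · intro y z
    ext k l
    rcases lt_trichotomy k l with h | h | h
    · simp [Wq_lt _ h, add_div]
    · subst h; simp [Wq_diag, mul_add, add_div]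
    · simp [Wq_symm _ k l, Wq_lt _ h, add_div]
  · intro c y
    ext k l
    rcases lt_trichotomy k l with h | h | h
    · simp [Wq_lt _ h, mul_div_assoc]
    · subst h; simp only [Wq_diag, Pi.smul_apply, smul_eq_mul, Matrix.smul_apply]; ring
    · simp [Wq_symm _ k l, Wq_lt _ h, mul_div_assoc]

theorem co_add (S T : Mat n) (u v u' v' : Fin n → ℝ) :
    co (S + T) (u + u') (v + v') = co S u v + co T u' v' := by
  funext c
  rcases c with (p | i) | i | i <;> simp [co, mul_add]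

theorem co_smul (r : ℝ) (S : Mat n) (u v : Fin n → ℝ) :
    co (r • S) (r • u) (r • v) = r • co S u v := by
  funext c
  rcases c with (p | i) | i | i <;> simp [co, mul_left_comm]

theorem gen_lin (θ : Mat n) : IsLinearMap ℝ (gen θ) := by
  constructor
  · intro y z
    rw [gen, gen, gen, ← co_add, Wq_lin.map_add, ← mulVec_add, ← mulVec_add]
    congr 1
    simp only [Matrix.mul_add, Matrix.add_mul]; abel
  · intro c y
    rw [gen, gen, ← co_smul, Wq_lin.map_smul, ← mulVec_smul, ← mulVec_smul]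
    congr 1
    simp only [Matrix.mul_smul, Matrix.smul_mul, smul_sub]

theorem gen_lin' (y : Jx n → ℝ) : IsLinearMap ℝ fun θ : Mat n => gen θ y := by
  constructor
  · intro θ θ'
    rw [gen, gen, gen, ← co_add, add_mulVec, add_mulVec]
    congr 1
    simp only [Matrix.mul_add, Matrix.add_mul]; abel
  · intro c θ
    rw [gen, gen, ← co_smul, smul_mulVec, smul_mulVec]
    congr 1
    simp only [Matrix.mul_smul, Matrix.smul_mul, smul_sub]

theorem hasFDerivAt_gen (θ : Mat n) (y : Jx n → ℝ) : ∃ L : (Jx n → ℝ) →L[ℝ] (Jx n → ℝ),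
    (∀ z, L z = gen θ z) ∧ HasFDerivAt (gen θ) L y :=
  ⟨LinearMap.toContinuousLinearMap ((gen_lin θ).mk' _), fun _ => rfl,
    (LinearMap.toContinuousLinearMap ((gen_lin θ).mk' _)).hasFDerivAt⟩

theorem pd_gen {θ : Mat n} (hθ : θᵀ = -θ) (y : Jx n → ℝ) (c : Jx n) :
    DifferentiableAt ℝ (fun y => gen θ y c) y ∧ pd (fun y => gen θ y c) c y = 0 := by
  obtain ⟨L, h1, h2⟩ := hasFDerivAt_gen θ y
  have h3 := (hasFDerivAt_pi'.1 h2) c
  refine ⟨h3.differentiableAt, ?_⟩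
  rw [pd, h3.fderiv]
  simpa [h1] using dot_gen hθ (Pi.single c 1)

/-! ### smoothness -/

section smooth
variable {F : Type} [NormedAddCommGroup F] [NormedSpace ℝ F] {p : F} {Y : F → Jx n → ℝ}

theorem SV.Wq (h : SV Y p) : SM (fun q => Wq (Y q)) p := fun k l => by
  rcases lt_trichotomy k l with e | e | e
  · simp only [Wq_lt _ e]; exact (h _).div_const _
  · subst e; simp only [Wq_diag]; exact (contDiffAt_const.mul (h _)).div_const _
  · simp only [Wq_symm _ k l, Wq_lt _ e]; exact (h _).div_const _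

theorem SV.x1 (h : SV Y p) : SV (fun q => x1 (Y q)) p := fun _ => h _
theorem SV.x2 (h : SV Y p) : SV (fun q => x2 (Y q)) p := fun _ => h _

theorem SV.gen (h : SV Y p) {θ : F → Mat n} (hθ : SM θ p) : SV (fun q => gen (θ q) (Y q)) p := by
  intro c
  rcases c with (e | i) | i | i
  · exact contDiffAt_const.mul (((hθ.mul h.Wq).sub (h.Wq.mul hθ)) _ _)
  · exact contDiffAt_const.mul (((hθ.mul h.Wq).sub (h.Wq.mul hθ)) _ _)
  · exact hθ.mulVec h.x1 i
  · exact hθ.mulVec h.x2 i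

end smooth

theorem SV.id {ι : Type} [Fintype ι] (y : ι → ℝ) : SV (fun y : ι → ℝ => y) y := fun i =>
  contDiffAt_apply ℝ ℝ i y

/-! ### the vector field -/

/-- `f_l(W) ξ` -/
def av (l : ℝ) (y : Jx n → ℝ) : Fin n → ℝ := fl n l (Wq y) *ᵥ x1 y
/-- `f_l(W) ξ'` -/
def bv (l : ℝ) (y : Jx n → ℝ) : Fin n → ℝ := fl n l (Wq y) *ᵥ x2 y
/-- the field of the swap, not normalised -/
def X0 (l l' : ℝ) (y : Jx n → ℝ) : Jx n → ℝ := gen (th (av l' y) (bv l y)) y

variable {l l' : ℝ}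

theorem av_act {R : Mat n} (hR : Rᵀ * R = 1) (hl : l ≠ 0) (y : Jx n → ℝ) :
    av l (act R y) = R *ᵥ av l y := by
  rw [av, Wq_act, Swap44.fl_conj hR hl, act, x1_co, av]
  simp only [mulVec_mulVec, Matrix.mul_assoc, hR, Matrix.mul_one]

theorem bv_act {R : Mat n} (hR : Rᵀ * R = 1) (hl : l ≠ 0) (y : Jx n → ℝ) :
    bv l (act R y) = R *ᵥ bv l y := by
  rw [bv, Wq_act, Swap44.fl_conj hR hl, act, x2_co, bv]
  simp only [mulVec_mulVec, Matrix.mul_assoc, hR, Matrix.mul_one]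

section smooth
variable {F : Type} [NormedAddCommGroup F] [NormedSpace ℝ F] {p : F} {Y : F → Jx n → ℝ}

theorem SV.av (h : SV Y p) (hl : l ≠ 0) : SV (fun q => av l (Y q)) p :=
  (h.Wq.fl (fun _ => Wq_herm _) hl).mulVec h.x1
theorem SV.bv (h : SV Y p) (hl : l ≠ 0) : SV (fun q => bv l (Y q)) p :=
  (h.Wq.fl (fun _ => Wq_herm _) hl).mulVec h.x2
theorem SV.th {u v : F → Fin n → ℝ} (h : SV u p) (h' : SV v p) :
    SM (fun q => th (u q) (v q)) p := (h'.vmv h).sub (h.vmv h')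
theorem SV.X0 (h : SV Y p) (hl : l ≠ 0) (hl' : l' ≠ 0) : SV (fun q => X0 l l' (Y q)) p :=
  h.gen ((h.av hl').th (h.bv hl))

end smooth

theorem rot_orth' {a b : Fin n → ℝ} (h : Rd7.ON a b) (s : ℝ) : (rot a b s)ᵀ * rot a b s = 1 :=
  mul_eq_one_comm.1 (h.rot_orth s)

theorem skew_eq {Ω : Mat n} (h : Ωᵀ = -Ω) :
    Ω = ∑ j, ∑ k, (Ω k j / 2) • th (Pi.single j 1) (Pi.single k 1) := by
  ext r s
  have e : Ω s r = -Ω r s := congrFun (congrFun h r) s
  simp only [Matrix.sum_apply, Matrix.smul_apply, th, Matrix.sub_apply, vecMulVec_apply,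
    Pi.single_apply, smul_eq_mul, mul_sub, sum_sub_distrib, mul_ite, mul_one, mul_zero, ite_mul,
    one_mul, zero_mul, sum_ite_eq, sum_ite_eq', mem_univ, if_true]
  rw [sum_comm (f := fun j k => if s = j then if r = k then Ω k j / 2 else 0 else 0)]
  simp only [sum_ite_eq, mem_univ, if_true, e]
  ring

/-- **the field is divergence free** -/
theorem div_X0 (hl : l ≠ 0) (hl' : l' ≠ 0) (y : Jx n → ℝ) :
    ∑ c, pd (fun y => X0 l l' y c) c y = 0 := by
  set Ω : (Jx n → ℝ) → Mat n := fun y => th (av l' y) (bv l y) with hΩ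
  have sΩ : SM Ω y := ((SV.id y).av hl').th ((SV.id y).bv hl)
  have dΩ : ∀ j k, DifferentiableAt ℝ (fun y => Ω y k j / 2) y := fun j k =>
    ((sΩ k j).div_const 2).differentiableAt (by simp)
  have e : ∀ c, (fun y => X0 l l' y c) = fun y =>
      ∑ j, ∑ k, Ω y k j / 2 * gen (th (Pi.single j 1) (Pi.single k 1)) y c := fun c => by
    funext z
    have := congrArg ((gen_lin' z).mk' _) (skew_eq (th_tr (av l' z) (bv l z)))
    simp only [map_sum, map_smul, IsLinearMap.mk'_apply] at this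
    rw [X0, this]
    simp only [Finset.sum_apply, Pi.smul_apply, smul_eq_mul, hΩ]
  have e2 : ∀ c, pd (fun y => X0 l l' y c) c y = ∑ j, ∑ k,
      gen (th (Pi.single j 1) (Pi.single k 1)) y c * pd (fun y => Ω y k j / 2) c y := fun c => by
    have d := fun j k => (dΩ j k).fun_mul (pd_gen (th_tr (Pi.single j 1) (Pi.single k 1)) y c).1
    rw [e c, pd, fderiv_fun_sum fun j _ => DifferentiableAt.fun_sum fun k _ => d j k,
      ContinuousLinearMap.sum_apply]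
    refine sum_congr rfl fun j _ => ?_
    rw [fderiv_fun_sum fun k _ => d j k, ContinuousLinearMap.sum_apply]
    refine sum_congr rfl fun k _ => ?_
    obtain ⟨g1, g2⟩ := pd_gen (th_tr (Pi.single j 1) (Pi.single k 1)) y c
    rw [fderiv_fun_mul (dΩ j k) g1]
    simp only [pd] at g2 ⊢
    simp [g2]
  simp only [e2]
  rw [sum_comm]
  refine sum_eq_zero fun j _ => ?_
  rw [sum_comm]
  refine sum_eq_zero fun k _ => ?_
  rw [sum_pd]
  by_cases hjk : j = k
  · subst hjk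
    have : gen (th (Pi.single j 1) (Pi.single j 1)) y = 0 := by
      rw [th, sub_self]; exact (gen_lin' y).map_zero
    rw [this, map_zero]
  · have hon : Rd7.ON (Pi.single j 1 : Fin n → ℝ) (Pi.single k 1) :=
      ⟨by simp, by simp, by simp [Pi.single_apply, hjk, Ne.symm hjk]⟩
    have h1 := hasDerivAt_act (Pi.single j 1) (Pi.single k 1) y
    have h2 := (dΩ j k).hasFDerivAt.comp_hasDerivAt_of_eq 0 h1 (by rw [Rd7.rot_zero, act_one])
    have h3 := (Rd7.hasDerivAt_conj (Pi.single j 1) (Pi.single k 1) (Ω y) 0 k j).div_const 2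
    have h4 : ((fun y => Ω y k j / 2) ∘ fun t => act (rot (Pi.single j 1) (Pi.single k 1) t) y) =
        fun t => (rot (Pi.single j 1) (Pi.single k 1) t * Ω y *
          (rot (Pi.single j 1) (Pi.single k 1) t)ᵀ) k j / 2 := by
      funext t
      simp only [Function.comp_apply, hΩ, av_act (rot_orth' hon t) hl', bv_act (rot_orth' hon t) hl, th,
        Swap44.vmv_conj, Matrix.mul_sub, Matrix.sub_mul]
    rw [h4] at h2
    rw [h2.unique h3, Nm_zero]
    simp [th, hΩ, Matrix.sub_mul, Matrix.mul_sub, vecMulVec_mul, mul_vecMulVec, vecMulVec_apply,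
      Pi.single_apply, hjk, Ne.symm hjk, vecMul, mulVec, dotProduct, mul_comm]

end Crest.Agent.T157.Sw77

end
end

-- ▼ part T157/SwF_77

/-!
# Row 157, part C, SWAP for coins (helper77), F: the flow identity; the block (F) of `SwDef_14`
-/

set_option autoImplicit false
set_option linter.all false

noncomputable section

namespace Crest.Agent.T157.Sw77

open MeasureTheory ProbabilityTheory Matrix Filter Topology Finset Real Function
open Crest.ProbabilityR.SpinGlassDynamics Crest.Agent.T157.E Crest.Agent.T157.Eig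
open Crest.Agent.T157.St Crest.Agent.T157.Ed Crest.Agent.T157.Cond Crest.Agent.T157.Cq

variable {n : ℕ} {l l' ε s : ℝ}

/-- the rotation of the swap -/
def Rq (l l' φ : ℝ) (y : Jx n → ℝ) : Mat n := rot (unitv (av l' y)) (prp (av l' y) (bv l y)) φ
/-- the killing probability along the flow -/
def Kp (ε s l l' φ : ℝ) (y : Jx n → ℝ) : ℝ :=
  kap (Rq l l' φ y * Wq y * (Rq l l' φ y)ᵀ) ε fun x => s * sl (Rq l l' φ y *ᵥ unitv (av l' y)) x
/-- the nondegenerate region -/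
def UU (l l' : ℝ) (y : Jx n → ℝ) : Prop :=
  0 < av l' y ⬝ᵥ av l' y ∧ (av l' y ⬝ᵥ bv l y) ^ 2 < av l' y ⬝ᵥ av l' y * bv l y ⬝ᵥ bv l y
/-- area of the parallelogram -/
def Dq (l l' : ℝ) (y : Jx n → ℝ) : ℝ :=
  √(av l' y ⬝ᵥ av l' y * bv l y ⬝ᵥ bv l y - (av l' y ⬝ᵥ bv l y) ^ 2)

/-- an invariant cutoff -/
structure Cut (l l' : ℝ) (χ : (Jx n → ℝ) → ℝ) : Prop where
  sm : ContDiff ℝ (⊤ : ℕ∞) χ
  cs : HasCompactSupport χ
  su : ∀ y ∈ tsupport χ, UU l l' y
  inv : ∀ R : Mat n, Rᵀ * R = 1 → ∀ y, χ (act R y) = χ y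

theorem UU.on {y : Jx n → ℝ} (h : UU l l' y) :
    Rd7.ON (unitv (av l' y)) (prp (av l' y) (bv l y)) :=
  ⟨(Swap44.frame h.1 h.2).1, (Swap44.frame h.1 h.2).2.1, (Swap44.frame h.1 h.2).2.2⟩

theorem rot_add {a b : Fin n → ℝ} (h : Rd7.ON a b) (s t : ℝ) :
    rot a b s * rot a b t = rot a b (s + t) := by
  have : ∀ y, (rot a b s * rot a b t) *ᵥ y = rot a b (s + t) *ᵥ y := fun y => by
    rw [← mulVec_mulVec, Rd7.rot_mulVec, Rd7.rot_mulVec, Rd7.rot_mulVec]
    simp only [dotProduct_add, dotProduct_smul, smul_eq_mul, h.aa, h.bb, h.ab, dotProduct_comm b a,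
      cos_add, sin_add]
    ext i
    simp only [Pi.add_apply, Pi.smul_apply, smul_eq_mul]
    ring
  ext i j
  have h1 := congrFun (this (Pi.single j 1)) i
  simpa [mulVec_single_one] using h1

theorem Kp_act (hl : l ≠ 0) (hl' : l' ≠ 0) {y : Jx n → ℝ} (h : UU l l' y) (φ ψ : ℝ) :
    Kp ε s l l' φ (act (Rq l l' ψ y) y) = Kp ε s l l' (ψ + φ) y := by
  have hR : (Rq l l' ψ y)ᵀ * Rq l l' ψ y = 1 := rot_orth' h.on ψ
  have c : ∀ X : Mat n, (Rq l l' ψ y)ᵀ * (Rq l l' ψ y * X) = X := fun X => by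
    rw [← Matrix.mul_assoc, hR, Matrix.one_mul]
  have e : Rq l l' φ (act (Rq l l' ψ y) y) = Rq l l' ψ y * Rq l l' φ y * (Rq l l' ψ y)ᵀ := by
    rw [Rq, av_act hR hl', bv_act hR hl, Swap44.unitv_orth hR, Swap44.prp_orth hR,
      Swap44.rot_orth hR, Rq, Rq]
  have e2 : Rq l l' (ψ + φ) y = Rq l l' ψ y * Rq l l' φ y := (rot_add h.on ψ φ).symm
  rw [Kp, Kp, e, e2, Wq_act, av_act hR hl', Swap44.unitv_orth hR]
  simp only [transpose_mul, transpose_transpose, Matrix.mul_assoc, c, mulVec_mulVec, hR,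
    Matrix.mul_one]

theorem th_unit {y : Jx n → ℝ} (h : UU l l' y) :
    th (av l' y) (bv l y) = Dq l l' y • th (unitv (av l' y)) (prp (av l' y) (bv l y)) := by
  obtain ⟨h0, h1⟩ := h
  rw [Dq]
  generalize av l' y = a at *
  generalize bv l y = b at *
  have hw : (b - ((a ⬝ᵥ b) / (a ⬝ᵥ a)) • a) ⬝ᵥ (b - ((a ⬝ᵥ b) / (a ⬝ᵥ a)) • a) =
      (a ⬝ᵥ a * b ⬝ᵥ b - (a ⬝ᵥ b) ^ 2) / (a ⬝ᵥ a) := by
    simp only [sub_dotProduct, dotProduct_sub, smul_dotProduct, dotProduct_smul, smul_eq_mul,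
      dotProduct_comm b a]
    field_simp
    ring
  have p1 : 0 < √(a ⬝ᵥ a) := sqrt_pos.2 h0
  have p2 : 0 < √(a ⬝ᵥ a * b ⬝ᵥ b - (a ⬝ᵥ b) ^ 2) := sqrt_pos.2 (by linarith)
  ext i j
  simp only [th, prp, unitv, len, hw, Matrix.sub_apply, Matrix.smul_apply, vecMulVec_apply,
    Pi.smul_apply, Pi.sub_apply, smul_eq_mul, sqrt_div' _ h0.le]
  field_simp
  ring

section smooth
variable {F : Type} [NormedAddCommGroup F] [NormedSpace ℝ F] {p : F} {Y : F → Jx n → ℝ}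

theorem SV.Kp (h : SV Y p) (hl : l ≠ 0) (hl' : l' ≠ 0) (hU : UU l l' (Y p)) {c : F → ℝ}
    (hc : ContDiffAt ℝ (⊤ : ℕ∞) c p) : ContDiffAt ℝ (⊤ : ℕ∞) (fun q => Kp ε s l l' (c q) (Y q)) p := by
  have h1 := (h.av hl').unitv fun e => by simpa [e] using hU.1
  have h2 : SM (fun q => Rq l l' (c q) (Y q)) p := h1.rot ((h.av hl').prp (h.bv hl) hU.1 hU.2) hc
  exact ((h2.mul h.Wq).mul h2.tr).kap ε ((h2.mulVec h1).sl s)

theorem SV.Dq (h : SV Y p) (hl : l ≠ 0) (hl' : l' ≠ 0) (hU : UU l l' (Y p)) :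
    ContDiffAt ℝ (⊤ : ℕ∞) (fun q => Dq l l' (Y q)) p :=
  ((((h.av hl').dot (h.av hl')).mul ((h.bv hl).dot (h.bv hl))).sub
    (((h.av hl').dot (h.bv hl)).pow 2)).sqrt (sub_pos.2 hU.2).ne'

theorem cut_mul {χ : (Jx n → ℝ) → ℝ} (hχ : Cut l l' χ) (hY : ContDiff ℝ (⊤ : ℕ∞) Y) {f : F → ℝ}
    (hf : ∀ p, UU l l' (Y p) → ContDiffAt ℝ (⊤ : ℕ∞) f p) :
    ContDiff ℝ (⊤ : ℕ∞) fun q => χ (Y q) * f q := by
  refine contDiff_iff_contDiffAt.2 fun p => ?_
  by_cases hp : Y p ∈ tsupport χ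
  · exact (hχ.sm.comp hY).contDiffAt.mul (hf p (hχ.su _ hp))
  · have := hY.continuous.continuousAt.eventually (notMem_tsupport_iff_eventuallyEq.1 hp)
    exact (contDiffAt_const (c := (0 : ℝ))).congr_of_eventuallyEq
      (this.mono fun q hq => by simp only [hq, Pi.zero_apply, zero_mul])

end smooth

variable {χ : (Jx n → ℝ) → ℝ}

theorem sm_G (hl : l ≠ 0) (hl' : l' ≠ 0) (hχ : Cut l l' χ) :
    ContDiff ℝ (⊤ : ℕ∞) fun p : ℝ × (Jx n → ℝ) => χ p.2 * Kp ε s l l' p.1 p.2 := by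
  refine cut_mul hχ contDiff_snd fun p hp => ?_
  have h : SV (fun p : ℝ × (Jx n → ℝ) => p.2) p := fun c =>
    (contDiffAt_apply ℝ ℝ c p.2).comp p contDiffAt_snd
  exact h.Kp hl hl' hp contDiffAt_fst

/-- **the flow identity** -/
theorem flow (hl : l ≠ 0) (hl' : l' ≠ 0) (hχ : Cut l l' χ) (φ : ℝ) (y : Jx n → ℝ) :
    HasDerivAt (fun ψ => Dq l l' y * (χ y * Kp ε s l l' ψ y))
      (fderiv ℝ (fun y => χ y * Kp ε s l l' φ y) y (X0 l l' y)) φ := by
  have dG : DifferentiableAt ℝ (fun y => χ y * Kp ε s l l' φ y) y :=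
    (cut_mul hχ contDiff_id fun y hy =>
      (SV.id y).Kp hl hl' hy contDiffAt_const).differentiable (by simp) y
  by_cases hy : y ∈ tsupport χ
  · have hU := hχ.su y hy
    have h1 := hasDerivAt_act (unitv (av l' y)) (prp (av l' y) (bv l y)) y
    have h2 := dG.hasFDerivAt.comp_hasDerivAt_of_eq 0 h1 (by rw [Rd7.rot_zero, act_one])
    have h4 : ((fun y => χ y * Kp ε s l l' φ y) ∘
        fun t => act (rot (unitv (av l' y)) (prp (av l' y) (bv l y)) t) y) =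
        fun t => χ y * Kp ε s l l' (t + φ) y := by
      funext t
      rw [Function.comp_apply, hχ.inv _ (rot_orth' hU.on t), ← Kp_act hl hl' hU, Rq]
    rw [h4, ← sub_self φ] at h2
    have h5 := (h2.comp_sub_const φ φ).const_mul (Dq l l' y)
    rw [X0, th_unit hU, (gen_lin' y).map_smul, map_smul, smul_eq_mul]
    simpa only [sub_add_cancel] using h5
  · have h0 := notMem_tsupport_iff_eventuallyEq.1 hy
    have h1 : (fun y => χ y * Kp ε s l l' φ y) =ᶠ[𝓝 y] fun _ => 0 :=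
      h0.mono fun q hq => by simp only [hq, Pi.zero_apply, zero_mul]
    rw [h1.fderiv_eq, h0.eq_of_nhds]
    simpa using hasDerivAt_const φ (0 : ℝ)


/-! ### the words of `SwDef_14` -/

open Sw14 (Par Adm wt q4 Xf Hf Rt Og ps trp P4 isC ip hp Er)

variable {c : Par} {ω : (Fin 4 → ℝ) → ℝ}

theorem l_ne (h : c.Ok) : c.l ≠ 0 := by linarith [h.2.2.2.1]
theorem l_ne' (h : c.Ok) : c.l' ≠ 0 := by linarith [h.2.2.2.2]


theorem Rt_eq {y : Jx n → ℝ} (h : UU l l' y) (φ : ℝ) : Rt φ (av l' y) (bv l y) = Rq l l' φ y := by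
  have hD : Dq l l' y ≠ 0 := (sqrt_pos.2 (sub_pos.2 h.2)).ne'
  have e1 : Og (av l' y) (bv l y) = _ := th_unit h
  have e2 : ps (av l' y) (bv l y) = (Dq l l' y)⁻¹ := rfl
  have o := h.on
  rw [Rt, e1, e2, Rq]
  generalize unitv (av l' y) = a at *
  generalize prp (av l' y) (bv l y) = b at *
  have hba : b ⬝ᵥ a = 0 := by rw [dotProduct_comm, o.ab]
  have e3 : th a b * th a b = -(vecMulVec a a + vecMulVec b b) := by
    simp only [th, Matrix.mul_sub, Matrix.sub_mul, vecMulVec_mul_vecMulVec, o.aa, o.bb, o.ab, hba,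
      one_smul, zero_smul, vecMulVec_zero]
    abel
  rw [Matrix.smul_mul, Matrix.mul_smul, e3, rot, smul_smul, smul_smul, smul_smul, ← th]
  have f1 : sin φ * (Dq l l' y)⁻¹ * Dq l l' y = sin φ := by field_simp
  have f2 : (1 - cos φ) * (Dq l l' y)⁻¹ ^ 2 * Dq l l' y * Dq l l' y = 1 - cos φ := by field_simp
  rw [f1, f2]
  module

theorem Kp_eq {y : Jx n → ℝ} (h : UU c.l c.l' y) (φ : ℝ) :
    Sw14.Kp c φ y = Kp c.ε c.s c.l c.l' φ y := by
  have e : Rt φ (Sw14.av c y) (Sw14.bv c y) = Rq c.l c.l' φ y := Rt_eq h φ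
  rw [Sw14.Kp, e, Kp, unitv, mulVec_smul]
  rfl

theorem UU_of (hω : Adm ω) {y : Jx n → ℝ} (h : q4 c y ∈ tsupport ω) : UU c.l c.l' y :=
  ⟨(hω.2.2 h).1, (hω.2.2 h).2.1⟩

theorem Hf_eq (hω : Adm ω) (φ : ℝ) (y : Jx n → ℝ) :
    Hf c ω φ y = ω (q4 c y) * Kp c.ε c.s c.l c.l' φ y := by
  by_cases h : ω (q4 c y) = 0
  · simp [Hf, h]
  · rw [Hf, Kp_eq (UU_of hω (subset_tsupport _ h))]

theorem sm_q4 (hc : c.Ok) : ContDiff ℝ (⊤ : ℕ∞) (q4 (n := n) c) := by
  refine contDiff_iff_contDiffAt.2 fun y => contDiffAt_pi.2 fun i => ?_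
  have ha := (SV.id y).av (l_ne' hc)
  have hb := (SV.id y).bv (l_ne hc)
  fin_cases i
  · exact ha.dot ha
  · exact hb.dot hb
  · exact ha.dot hb
  · exact (ContDiffAt.sum (s := univ) (f := fun k (y : Jx n → ℝ) => y k * y k)
      fun k _ => (SV.id y k).mul (SV.id y k)).div_const _

theorem q4_act (hc : c.Ok) {R : Mat n} (hR : Rᵀ * R = 1) (y : Jx n → ℝ) :
    q4 c (act R y) = q4 c y := by
  have ea : Sw14.av c (act R y) = R *ᵥ Sw14.av c y := av_act hR (l_ne' hc) y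
  have eb : Sw14.bv c (act R y) = R *ᵥ Sw14.bv c y := bv_act hR (l_ne hc) y
  rw [q4, q4, ea, eb, act_dot hR]
  simp only [Swap44.dot_orth hR]

theorem tsupp_q4 (hc : c.Ok) {y : Jx n → ℝ} (h : y ∈ tsupport fun y => ω (q4 c y)) :
    q4 c y ∈ tsupport ω := by
  by_contra h0
  exact notMem_tsupport_iff_eventuallyEq.2 ((sm_q4 hc).continuous.continuousAt.eventually
    (notMem_tsupport_iff_eventuallyEq.1 h0)) h

theorem cut_q4 (hn : 1 ≤ n) (hc : c.Ok) (hω : Adm ω) :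
    Cut c.l c.l' fun y : Jx n → ℝ => ω (q4 c y) := by
  refine ⟨hω.1.comp (sm_q4 hc), ?_, fun y hy => UU_of hω (tsupp_q4 hc hy),
    fun R hR y => by rw [q4_act hc hR]⟩
  refine (isCompact_closedBall (0 : Jx n → ℝ) (1 + 2 * n ^ 3)).of_isClosed_subset
    (isClosed_tsupport _) fun y hy => ?_
  have h1 : y ⬝ᵥ y / (n : ℝ) ^ 3 ≤ 2 := (hω.2.2 (tsupp_q4 hc hy)).2.2
  have n0 : (0 : ℝ) < n := by exact_mod_cast hn
  rw [div_le_iff₀ (by positivity)] at h1
  rw [mem_closedBall_zero_iff, pi_norm_le_iff_of_nonneg (by positivity)]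
  intro k
  have h2 : y k * y k ≤ y ⬝ᵥ y :=
    single_le_sum (f := fun k => y k * y k) (fun _ _ => mul_self_nonneg _) (mem_univ k)
  rw [Real.norm_eq_abs]
  nlinarith [abs_mul_abs_self (y k), abs_nonneg (y k), sq_nonneg (|y k| - 1)]

theorem wtStmt : Sw14.WtStmt := fun ω hω => by
  refine ⟨contDiff_iff_contDiffAt.2 fun q => ?_, hω.2.1.mul_right,
    (tsupport_mul_subset_left (f := ω)).trans hω.2.2⟩
  by_cases hq : q ∈ tsupport ω
  · have h1 := sub_pos.2 (hω.2.2 hq).2.1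
    have a := fun i => contDiffAt_apply ℝ ℝ (n := (⊤ : ℕ∞)) i q
    exact hω.1.contDiffAt.mul
      (((((a 0).mul (a 1)).sub ((a 2).pow 2)).sqrt h1.ne').inv (sqrt_pos.2 h1).ne')
  · exact (contDiffAt_const (c := (0 : ℝ))).congr_of_eventuallyEq
      ((notMem_tsupport_iff_eventuallyEq.1 hq).mono fun q hq => by
        simp only [wt, hq, Pi.zero_apply, zero_mul])

theorem smStmt : Sw14.SmStmt := fun n c hn hc => by
  refine ⟨contDiff_iff_contDiffAt.2 fun y => ((SV.id y).X0 (l_ne hc) (l_ne' hc)).contDiffAt,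
    sm_q4 hc, fun ω hω => ?_⟩
  simp only [Hf_eq hω]
  exact sm_G (l_ne hc) (l_ne' hc) (cut_q4 hn hc hω)

theorem deriv_self {ι : Type} [Fintype ι] [DecidableEq ι] {h : (ι → ℝ) → ℝ} (y : ι → ℝ) (k : ι)
    (hd : DifferentiableAt ℝ h y) : deriv (fun t => h (update y k t)) (y k) = pd h k y := by
  rw [deriv_upd y k (y k) (by rwa [update_eq_self]), update_eq_self]

theorem divStmt : Sw14.DivStmt := fun n c y hn hc => by
  refine ⟨?_, dot_gen (th_tr _ _) y⟩
  rw [← div_X0 (l_ne hc) (l_ne' hc) y]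
  exact sum_congr rfl fun k _ => deriv_self (h := fun y => X0 c.l c.l' y k) y k
    (((SV.id y).X0 (l_ne hc) (l_ne' hc) k).differentiableAt (by simp))

theorem flowStmt : Sw14.FlowStmt := fun n c ω φ y hn hc hω => by
  have hw := wtStmt ω hω
  have h := flow (ε := c.ε) (s := c.s) (l_ne hc) (l_ne' hc) (cut_q4 hn hc hw) φ y
  rw [show Hf c (wt ω) φ = _ from funext fun y => Hf_eq hw φ y]
  refine h.congr_of_eventuallyEq (.of_forall fun ψ => ?_)
  simp only [Hf_eq hω]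
  by_cases h0 : ω (q4 c y) = 0
  · simp [wt, h0]
  · have hD : Dq c.l c.l' y ≠ 0 :=
      (sqrt_pos.2 (sub_pos.2 (UU_of hω (subset_tsupport _ h0)).2)).ne'
    have e : wt ω (q4 c y) = ω (q4 c y) * (Dq c.l c.l' y)⁻¹ := rfl
    rw [e]; field_simp

theorem flowGlue : Sw14.FlowGlue := fun _ _ => flowStmt

theorem steinStmt : Sw14.SteinStmt := by
  intro ι _ _ b H X hH hc hX hd ho
  have s1 : ∀ k, ContDiff ℝ 1 fun y => X y k := fun k => contDiff_pi.1 hX k
  have s2 : ∀ k, ContDiff ℝ 1 fun y => X y k * H y := fun k => (s1 k).mul hH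
  have c2 : ∀ k, HasCompactSupport fun y => X y k * H y := fun k => hc.mul_left
  have e : ∀ k y, trp (fun t => X (update y k t) k * H (update y k t)) =
      er (fun y => X y k * H y) k y := fun k y => by
    rw [trp, er, deriv_upd (h := fun y => X y k * H y) y k 1 ((s2 k).differentiable (by simp) _),
      deriv_upd (h := fun y => X y k * H y) y k (-1) ((s2 k).differentiable (by simp) _)]
  simp only [e]
  refine ⟨fun k => int_er (s2 k) (c2 k) k, ?_⟩
  have e2 : ∀ y, fderiv ℝ H y (X y) = ∑ k, st (fun y => X y k * H y) k y := fun y => by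
    have e3 : ∀ k, st (fun y => X y k * H y) k y =
        X y k * pd H k y + H y * (pd (fun y => X y k) k y - y k * X y k) := fun k => by
      rw [st, pd, fderiv_fun_mul ((s1 k).differentiable (by simp) y) (hH.differentiable (by simp) y)]
      simp only [pd, ContinuousLinearMap.add_apply, ContinuousLinearMap.smul_apply, smul_eq_mul]
      ring
    have e4 : ∑ k, pd (fun y => X y k) k y = 0 := by
      rw [← hd y]
      exact sum_congr rfl fun k _ => (deriv_self y k ((s1 k).differentiable (by simp) y)).symm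
    have e5 : ∑ k, y k * X y k = 0 := ho y
    simp only [e3, sum_add_distrib, ← mul_sum, sum_sub_distrib, e4, e5, sub_self, mul_zero,
      add_zero, sum_pd]
  simp only [e2]
  rw [integral_finset_sum _ fun k _ => int_cc (cont_st (s2 k) k) (supp_st (c2 k) k), sum_filter]
  refine sum_congr rfl fun k _ => ?_
  split_ifs with hb
  · exact stein_c _ (by simp [hb, entryLaw]) (s2 k) (c2 k)
  · exact stein_g _ (by simp [hb, entryLaw]) (s2 k) (c2 k)

theorem sum_isC {n : ℕ} (f : Sw14.I4 n → ℝ) :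
    ∑ k ∈ univ.filter (fun k => isC k = true), f k = ∑ p, f (ip p) := by
  rw [sum_filter, Fintype.sum_sum_type, Fintype.sum_sum_type]
  simp [isC]

theorem cs_Hf {n : ℕ} {c : Par} {ω : (Fin 4 → ℝ) → ℝ} (hn : 1 ≤ n) (hc : c.Ok) (hω : Adm ω)
    (φ : ℝ) : HasCompactSupport (Hf (n := n) c ω φ) := by
  have h : HasCompactSupport fun y : Sw14.I4 n → ℝ => ω (q4 c y) := (cut_q4 hn hc hω).cs
  exact HasCompactSupport.mul_right (f := fun y : Sw14.I4 n → ℝ => ω (q4 c y))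
    (f' := Sw14.Kp c φ) h

theorem sm_Hf {n : ℕ} {c : Par} {ω : (Fin 4 → ℝ) → ℝ} (hn : 1 ≤ n) (hc : c.Ok) (hω : Adm ω) :
    ContDiff ℝ 1 fun z : ℝ × (Sw14.I4 n → ℝ) => Hf c ω z.1 z.2 :=
  ((smStmt n c hn hc).2.2 ω hω).of_le (by simp)

theorem sm_Hf' {n : ℕ} {c : Par} {ω : (Fin 4 → ℝ) → ℝ} (hn : 1 ≤ n) (hc : c.Ok) (hω : Adm ω)
    (φ : ℝ) : ContDiff ℝ 1 (Hf (n := n) c ω φ) :=
  ContDiff.comp (g := fun z : ℝ × (Sw14.I4 n → ℝ) => Hf c ω z.1 z.2) (f := fun y => (φ, y))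
    (sm_Hf hn hc hω) (contDiff_const.prodMk contDiff_id)

theorem deriv_int {n : ℕ} {c : Par} {ω : (Fin 4 → ℝ) → ℝ} (hn : 1 ≤ n) (hc : c.Ok) (hω : Adm ω)
    (φ : ℝ) : HasDerivAt (fun φ => ∫ y, Hf c ω φ y ∂P4 n)
      (∫ y, fderiv ℝ (Hf c (wt ω) φ) y (Xf c y) ∂P4 n) φ := by
  have hH := sm_Hf hn hc hω
  have h : HasCompactSupport fun y : Sw14.I4 n → ℝ => ω (q4 c y) := (cut_q4 hn hc hω).cs
  have h0 : ∀ ψ, ∀ y ∉ tsupport fun y : Sw14.I4 n → ℝ => ω (q4 c y), Hf c ω ψ y = 0 :=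
    fun ψ y hy => by
      have : ω (q4 c y) = 0 :=
        image_eq_zero_of_notMem_tsupport (f := fun y : Sw14.I4 n → ℝ => ω (q4 c y)) hy
      rw [Hf, this, zero_mul]
  refine (hasDerivAt_int (P4 n) hH h.isCompact h0 φ).congr_deriv ?_
  refine integral_congr_ae (.of_forall fun y => ?_)
  have hd' : HasDerivAt ((fun z : ℝ × (Sw14.I4 n → ℝ) => Hf c ω z.1 z.2) ∘ fun ψ : ℝ => (ψ, y))
      (fderiv ℝ (fun z : ℝ × (Sw14.I4 n → ℝ) => Hf c ω z.1 z.2) (φ, y) (1, 0)) φ :=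
    HasFDerivAt.comp_hasDerivAt φ (hH.differentiable (by simp) (φ, y)).hasFDerivAt
      ((hasDerivAt_id' φ).prodMk (hasDerivAt_const φ y))
  exact hd'.unique (flowStmt n c ω φ y hn hc hω)

theorem bound_int {n : ℕ} {c : Par} {ω : (Fin 4 → ℝ) → ℝ} (hn : 1 ≤ n) (hc : c.Ok) (hω : Adm ω)
    {A : Set (Sw14.I4 n → ℝ)} {B₁ B₂ φ : ℝ} (h1 : 0 ≤ B₁) (h2 : ∀ y : Sw14.I4 n → ℝ, Er c ω φ y ≤ B₂)
    (h3 : ∀ y ∈ A, Er c ω φ y ≤ B₁) :
    ‖∫ y, fderiv ℝ (Hf c ω φ) y (Xf c y) ∂P4 n‖ ≤ B₁ + B₂ * (P4 n).real Aᶜ := by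
  have B0 : 0 ≤ B₂ := (sum_nonneg fun _ _ => abs_nonneg _).trans (h2 0)
  obtain ⟨i1, e1⟩ := steinStmt _ isC (Hf c ω φ) (Xf c) (sm_Hf' hn hc hω φ) (cs_Hf hn hc hω φ)
    ((smStmt n c hn hc).1.of_le (by simp))
    (fun y => (divStmt n c y hn hc).1) fun y => (divStmt n c y hn hc).2
  have i1' : ∀ p, Integrable (fun y => trp (hp c ω φ y p)) (P4 n) := fun p => i1 (ip p)
  have e2 : ∫ y, fderiv ℝ (Hf c ω φ) y (Xf c y) ∂P4 n =
      ∫ y, ∑ p, trp (hp c ω φ y p) ∂P4 n := by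
    rw [integral_finset_sum _ fun p _ => i1' p]
    exact e1.trans (sum_isC _)
  rw [e2]
  have m := measurableSet_toMeasurable (P4 n) Aᶜ
  have i2 : Integrable ((toMeasurable (P4 n) Aᶜ).indicator fun _ => B₂) (P4 n) :=
    (integrable_const _).indicator m
  refine (norm_integral_le_of_norm_le ((integrable_const B₁).add i2) (.of_forall fun y => ?_)).trans
    (le_of_eq ?_)
  · refine (abs_sum_le_sum_abs _ _).trans ?_
    by_cases hy : y ∈ A
    · exact (h3 y hy).trans (le_add_of_nonneg_right (Set.indicator_nonneg (fun _ _ => B0) _))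
    · rw [Pi.add_apply, Set.indicator_of_mem (subset_toMeasurable _ _ hy)]
      exact (h2 y).trans (le_add_of_nonneg_left h1)
  · simp only [Pi.add_apply]
    rw [integral_add (integrable_const _) i2, integral_indicator_const _ m, integral_const]
    simp [Measure.real, measure_toMeasurable, mul_comm]

theorem fStmt : Sw14.FStmt := by
  intro n c ω hn hc hω A B₁ B₂ h1 h2 h3
  have B0 : 0 ≤ B₂ := (sum_nonneg fun _ _ => abs_nonneg _).trans (h2 0 0)
  have p0 : (0 : ℝ) ≤ π / 2 := by positivity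
  have h := (convex_Icc 0 (π / 2)).norm_image_sub_le_of_norm_hasDerivWithin_le
    (fun φ _ => (deriv_int hn hc hω φ).hasDerivWithinAt)
    (fun φ _ => bound_int hn hc (wtStmt ω hω) h1 (h2 φ) (h3 φ))
    (Set.left_mem_Icc.2 p0) (Set.right_mem_Icc.2 p0)
  have i : ∀ φ, Integrable (Hf c ω φ) (P4 n) := fun φ =>
    int_cc (sm_Hf' hn hc hω φ).continuous (cs_Hf hn hc hω φ)
  rw [sub_zero, norm_of_nonneg p0] at h
  rw [integral_sub (i _) (i _)]
  have : 0 ≤ B₁ + B₂ * (P4 n).real Aᶜ := by positivity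
  exact h.trans (by nlinarith [pi_le_four])

theorem fGlue : Sw14.FGlue := fun _ _ _ _ _ => fStmt

end Crest.Agent.T157.Sw77

end
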