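import Crest.Agent.T157.TaB_40

/-!
# Row 157, block B, S1 (T-a): controlled chains (helper40)

One step: draw `a` from a state-dependent finite law, draw a Gaussian vector `g`, move to `T a p g`.
-/

set_option autoImplicit false
set_option linter.unusedSectionVars false

noncomputable section

namespace Crest.Agent.T157.Ta

open MeasureTheory ProbabilityTheory Real Set
open Crest.Agent.T157.E Crest.Agent.T157.SL

/-- a controlled step -/
structure Stp (X A ι : Type*) [SeminormedAddCommGroup X] [MeasurableSpace X] [Fintype A] [Fintype ι] where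
  ρ : X → A → ℝ
  T : A → X → (ι → ℝ) → X
  C : ℝ
  isP : ∀ p, Chain22.IsP (ρ p)
  mρ : ∀ a, Measurable fun p => ρ p a
  mT : ∀ a, Measurable fun q : X × (ι → ℝ) => T a q.1 q.2
  C0 : 0 ≤ C
  gr : ∀ a p g, ‖T a p g‖ ≤ C + C * ‖p‖ + C * ‖g‖

variable {X A ι : Type*} [SeminormedAddCommGroup X] [MeasurableSpace X] [Fintype A] [Fintype ι]
  [DecidableEq ι] {F F' : X → ℝ}

/-- probability measures with all exponential moments -/
structure Nice (P : Measure X) : Prop where
  prob : IsProbabilityMeasure P
  int : ∀ F : X → ℝ, XG F → Integrable F P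

theorem nice_dirac [MeasurableSingletonClass X] (p : X) : Nice (Measure.dirac p) :=
  ⟨inferInstance, fun _ _ => integrable_dirac (by simp)⟩

theorem Nice.mono {P : Measure X} (h : Nice P) (hF : XG F) (hF' : XG F') (e : ∀ p, F p ≤ F' p) :
    ∫ p, F p ∂P ≤ ∫ p, F' p ∂P := integral_mono (h.int _ hF) (h.int _ hF') e

theorem Nice.add {P : Measure X} (h : Nice P) (hF : XG F) (hF' : XG F') :
    ∫ p, (F p + F' p) ∂P = ∫ p, F p ∂P + ∫ p, F' p ∂P := integral_add (h.int _ hF) (h.int _ hF')

theorem Nice.sub {P : Measure X} (h : Nice P) (hF : XG F) (hF' : XG F') :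
    ∫ p, (F p - F' p) ∂P = ∫ p, F p ∂P - ∫ p, F' p ∂P := integral_sub (h.int _ hF) (h.int _ hF')

theorem Nice.const {P : Measure X} (h : Nice P) (c : ℝ) : ∫ _, c ∂P = c := by
  have := h.prob; simp

namespace Stp

variable (S : Stp X A ι)

/-- the transition operator -/
def op (F : X → ℝ) (p : X) : ℝ := ∑ a, S.ρ p a * ∫ g, F (S.T a p g) ∂Gs ι

theorem mT' (a : A) (p : X) : Measurable (S.T a p) := (S.mT a).comp measurable_prodMk_left

theorem mg_T (hF : XG F) (a : A) (p : X) : MG fun g => F (S.T a p g) :=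
  (hF.comp (S.mT' a p) S.C0 (S.gr a p)).mg

/-- the transition kernel -/
def ker : Kernel X X where
  toFun p := ∑ a, ENNReal.ofReal (S.ρ p a) • (Gs ι).map (S.T a p)
  measurable' := Measure.measurable_of_measurable_coe _ fun s hs => by
    simp only [Measure.coe_finsetSum, Finset.sum_apply, Measure.smul_apply, smul_eq_mul,
      Measure.map_apply (S.mT' _ _) hs]
    exact Finset.measurable_sum _ fun a _ => (S.mρ a).ennreal_ofReal.mul
      (measurable_measure_prodMk_left (S.mT a hs))

theorem ker_apply (p : X) : S.ker p = ∑ a, ENNReal.ofReal (S.ρ p a) • (Gs ι).map (S.T a p) := rfl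

instance : IsMarkovKernel S.ker := ⟨fun p => ⟨by
  have := fun a => (Measure.isProbabilityMeasure_map (μ := Gs ι) (S.mT' a p).aemeasurable).measure_univ
  simp only [ker_apply, Measure.coe_finsetSum, Finset.sum_apply, Measure.smul_apply, this, smul_eq_mul,
    mul_one]
  rw [← ENNReal.ofReal_sum_of_nonneg fun a _ => (S.isP p).nn a, (S.isP p).sum1, ENNReal.ofReal_one]⟩⟩

theorem int_piece (hF : XG F) (p : X) (a : A) :
    Integrable F (ENNReal.ofReal (S.ρ p a) • (Gs ι).map (S.T a p)) :=
  ((integrable_map_measure hF.meas.aestronglyMeasurable (S.mT' a p).aemeasurable).2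
    (S.mg_T hF a p).int).smul_measure ENNReal.ofReal_ne_top

theorem int_ker (hF : XG F) (p : X) : Integrable F (S.ker p) :=
  integrable_finsetSum_measure.2 fun a _ => S.int_piece hF p a

theorem integral_ker (hF : XG F) (p : X) : ∫ q, F q ∂S.ker p = S.op F p := by
  rw [ker_apply, integral_finsetSum_measure fun a _ => S.int_piece hF p a]
  refine Finset.sum_congr rfl fun a _ => ?_
  rw [integral_smul_measure, integral_map (S.mT' a p).aemeasurable hF.meas.aestronglyMeasurable,
    ENNReal.toReal_ofReal ((S.isP p).nn a), smul_eq_mul]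

theorem xg_int (hF : XG F) (a : A) : XG fun p => ∫ g, F (S.T a p g) ∂Gs ι := by
  obtain ⟨C, k, c1, c2, c3⟩ := hF.bd
  have := S.C0
  refine ⟨(StronglyMeasurable.integral_prod_right (f := fun p g => F (S.T a p g))
    (hF.meas.comp (S.mT a)).stronglyMeasurable).measurable,
    C * ∫ g, exp (k * S.C) * exp (k * S.C * ‖g‖) ∂Gs ι, k * S.C, by positivity, by positivity,
    fun p => ?_⟩
  rw [mul_assoc, ← integral_mul_const, ← integral_const_mul]
  refine norm_integral_le_of_norm_le (f := fun g => F (S.T a p g))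
    ((((int_exp _).const_mul _).mul_const _).const_mul _) (.of_forall fun g => (c3 _).trans ?_)
  rw [← exp_add, ← exp_add]
  gcongr
  nlinarith [mul_le_mul_of_nonneg_left (S.gr a p g) c2]

theorem xg_op (hF : XG F) : XG (S.op F) :=
  XG.sum _ fun a _ => (XG.of_bdd (S.mρ a) 1 fun p => by
    rw [abs_of_nonneg ((S.isP p).nn a), ← (S.isP p).sum1]
    exact Finset.single_le_sum (fun a _ => (S.isP p).nn a) (Finset.mem_univ a)).mul (S.xg_int hF a)

/-- the law after one more step -/
def nx (P : Measure X) : Measure X := S.ker ∘ₘ P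

theorem nice_nx {P : Measure X} (h : Nice P) : Nice (S.nx P) := by
  have := h.prob
  refine ⟨by unfold nx; infer_instance, fun F hF => ?_⟩
  rw [nx, Measure.integrable_comp_iff hF.meas.aestronglyMeasurable]
  refine ⟨.of_forall (S.int_ker hF), ?_⟩
  simp only [Real.norm_eq_abs, S.integral_ker hF.abs]
  exact h.int _ (S.xg_op hF.abs)

theorem integral_nx {P : Measure X} (h : Nice P) (hF : XG F) :
    ∫ q, F q ∂S.nx P = ∫ p, S.op F p ∂P := by
  have h1 := (S.nice_nx h).int F hF
  rw [nx, Measure.comp_eq_comp_const_apply] at h1 ⊢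
  rw [Kernel.integral_comp h1]
  simp only [S.integral_ker hF, Kernel.const_apply]

/-- a pointwise drift inequality integrates -/
theorem integral_nx_le {P : Measure X} (h : Nice P) (hF : XG F) (hF' : XG F')
    (e : ∀ p, S.op F p ≤ F' p) : ∫ q, F q ∂S.nx P ≤ ∫ p, F' p ∂P := by
  rw [S.integral_nx h hF]; exact h.mono (S.xg_op hF) hF' e

theorem le_integral_nx {P : Measure X} (h : Nice P) (hF : XG F) (hF' : XG F')
    (e : ∀ p, F' p ≤ S.op F p) : ∫ p, F' p ∂P ≤ ∫ q, F q ∂S.nx P := by
  rw [S.integral_nx h hF]; exact h.mono hF' (S.xg_op hF) e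

end Stp

/-- the law after `k` steps -/
def run (S : ℕ → Stp X A ι) (P : Measure X) : ℕ → Measure X
  | 0 => P
  | k + 1 => (S k).nx (run S P k)



end Crest.Agent.T157.Ta
end
private theorem rz_cf94126892 : type_of% @_root_.Crest.Agent.T157.Ta.run.eq_def := @_root_.Crest.Agent.T157.Ta.run.eq_def -- L145
private theorem rz_eaad7cf515 : type_of% @_root_.Crest.Agent.T157.Ta.run.eq_1 := @_root_.Crest.Agent.T157.Ta.run.eq_1 -- L145
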