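import Crest.Agent.T157.SLC_23
import Crest.Agent.R148.BM
import Crest.Agent.T157.SLE_23
import Crest.Agent.T157.EigN_84

-- ▼ part T157/PaA_39
section

/-!
# Row 157, path layer, part A (helper39): Brownian motion with a filtration

`BM ι`: a `ι`-dimensional Brownian motion with continuous paths and a filtration; existence,
freezing lemma, the running supremum `S T` of `‖B‖` and its exponential moments.
-/

set_option autoImplicit false
set_option linter.unusedSectionVars false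

noncomputable section

namespace Crest.Agent.T157.Pa

open MeasureTheory ProbabilityTheory Filter Topology Set Real
open Crest.Agent.T157.SL (Gs Pt EG Ito MG)
open scoped NNReal ENNReal

/-- Brownian motion in `ι → ℝ` with a filtration -/
structure BM (ι : Type) [Fintype ι] where
  Ω : Type
  m : MeasurableSpace Ω
  P : Measure Ω
  prob : IsProbabilityMeasure P
  F : ℝ → MeasurableSpace Ω
  mono : Monotone F
  le : ∀ t, F t ≤ m
  B : ℝ → Ω → ι → ℝ
  cont : ∀ ω, Continuous fun t => B t ω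
  zero : ∀ ω, B 0 ω = 0
  meas : ∀ t, Measurable[F t] (B t)
  indep : ∀ s t, 0 ≤ s → s ≤ t →
    Indep (F s) (MeasurableSpace.comap (fun ω => B t ω - B s ω) inferInstance) P
  law : ∀ s t, 0 ≤ s → s ≤ t → P.map (fun ω => B t ω - B s ω) = (Gs ι).map fun z => √(t - s) • z

attribute [instance] BM.m BM.prob

theorem indepFun_pi {ι Ω α β : Type*} [Fintype ι] [MeasurableSpace Ω] [MeasurableSpace α]
    [MeasurableSpace β] {P : Measure Ω} [IsProbabilityMeasure P] {f : Ω → α} {g : Ω → β}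
    (hf : Measurable f) (hg : Measurable g) (h : IndepFun f g P) :
    IndepFun (fun (ω : ι → Ω) i => f (ω i)) (fun (ω : ι → Ω) i => g (ω i))
      (Measure.pi fun _ => P) := by
  have mf : Measurable fun (ω : ι → Ω) i => f (ω i) :=
    measurable_pi_lambda _ fun i => hf.comp (measurable_pi_apply i)
  have mg : Measurable fun (ω : ι → Ω) i => g (ω i) :=
    measurable_pi_lambda _ fun i => hg.comp (measurable_pi_apply i)
  have i1 : IsProbabilityMeasure (P.map f) := Measure.isProbabilityMeasure_map hf.aemeasurable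
  have i2 : IsProbabilityMeasure (P.map g) := Measure.isProbabilityMeasure_map hg.aemeasurable
  have i3 : IsProbabilityMeasure (P.map fun ω => (f ω, g ω)) :=
    Measure.isProbabilityMeasure_map (hf.prodMk hg).aemeasurable
  have mfg : Measurable fun (ω : ι → Ω) i => (f (ω i), g (ω i)) :=
    measurable_pi_lambda _ fun i => (hf.prodMk hg).comp (measurable_pi_apply i)
  rw [indepFun_iff_map_prod_eq_prod_map_map mf.aemeasurable mg.aemeasurable,
    Measure.pi_map_pi fun _ => hf.aemeasurable, Measure.pi_map_pi fun _ => hg.aemeasurable,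
    ← (measurePreserving_arrowProdEquivProdArrow α β ι (fun _ => P.map f) fun _ => P.map g).map_eq,
    ← (indepFun_iff_map_prod_eq_prod_map_map hf.aemeasurable hg.aemeasurable).1 h,
    ← Measure.pi_map_pi fun _ => (hf.prodMk hg).aemeasurable, Measure.map_map
      (MeasurableEquiv.measurable _) mfg]
  rfl

theorem mpi {α δ β : Type*} {m : MeasurableSpace α} [MeasurableSpace β] {f : α → δ → β}
    (h : ∀ i, Measurable[m] fun a => f a i) : Measurable[m] f := measurable_pi_lambda _ h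

theorem BM.nonempty (ι : Type) [Fintype ι] : Nonempty (BM ι) := by
  obtain ⟨Ω, mΩ, P, B, hP, hB, hm, hc, h0⟩ := Crest.Agent.R148.exists_brownian
  let past : (s : ℝ) → (ι → Ω) → ι → Iic s.toNNReal → ℝ := fun s ω i r => B r (ω i)
  have mpast : ∀ s, Measurable (past s) := fun s =>
    measurable_pi_lambda _ fun i => measurable_pi_lambda _ fun r =>
      (hm _).comp (measurable_pi_apply i)
  have key : ∀ (s : ℝ) (r : ℝ≥0), r ≤ s.toNNReal → ∀ i,
      Measurable[MeasurableSpace.comap (past s) inferInstance] fun ω => B r (ω i) := by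
    intro s r hr i
    have h1 : Measurable[MeasurableSpace.comap (past s) inferInstance] (past s) :=
      comap_measurable _
    exact ((measurable_pi_apply (⟨r, hr⟩ : Iic s.toNNReal)).comp (measurable_pi_apply i)).comp h1
  have hadd : ∀ s t : ℝ, 0 ≤ s → s ≤ t → s.toNNReal + (t - s).toNNReal = t.toNNReal := by
    intro s t hs hst
    rw [← Real.toNNReal_add hs (sub_nonneg.2 hst), add_sub_cancel]
  refine ⟨⟨ι → Ω, inferInstance, Measure.pi fun _ => P, inferInstance,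
    fun s => MeasurableSpace.comap (past s) inferInstance, fun s t hst => ?_,
    fun s => (mpast s).comap_le, fun t ω i => B t.toNNReal (ω i), fun ω => ?_, fun ω => ?_,
    fun t => ?_, fun s t hs hst => ?_, fun s t hs hst => ?_⟩⟩
  · refine Measurable.comap_le ?_
    exact mpi fun i => mpi fun r => key t r (r.2.trans (Real.toNNReal_le_toNNReal hst)) i
  · exact continuous_pi fun i => (hc (ω i)).comp continuous_real_toNNReal
  · ext i; simp [h0]
  · exact mpi fun i => key t _ le_rfl i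
  · have h1 := (hB.toIsPreBrownianReal.indepFun_shift s.toNNReal).symm
    have h2 := h1.comp measurable_id (measurable_pi_apply (t - s).toNNReal)
    have h3 := indepFun_pi (ι := ι) (measurable_pi_lambda _ fun r => hm _)
      ((hm (s.toNNReal + (t - s).toNNReal)).sub (hm s.toNNReal)) h2
    rw [hadd s t hs hst] at h3
    exact h3
  · have h1 : P.map (fun ω => B t.toNNReal ω - B s.toNNReal ω) =
        (gaussianReal 0 1).map fun x => √(t - s) * x := by
      rw [gaussianReal_map_const_mul]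
      have := (hB.toIsPreBrownianReal.hasLaw_sub t.toNNReal s.toNNReal).map_eq
      refine this.trans ?_
      congr 1
      · simp
      · ext
        simp only [NNReal.val_eq_coe, coe_nndist, mul_one, NNReal.coe_mk]
        rw [Real.coe_toNNReal _ hs, Real.coe_toNNReal _ (hs.trans hst), Real.dist_eq,
          abs_of_nonneg (sub_nonneg.2 hst), sq_sqrt (sub_nonneg.2 hst)]
    have i1 : IsProbabilityMeasure (P.map fun ω => B t.toNNReal ω - B s.toNNReal ω) :=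
      Measure.isProbabilityMeasure_map ((hm _).sub (hm _)).aemeasurable
    have i2 : IsProbabilityMeasure ((gaussianReal 0 1).map fun x => √(t - s) * x) :=
      Measure.isProbabilityMeasure_map (by fun_prop)
    have h2 := Measure.pi_map_pi (μ := fun _ : ι => P)
      (f := fun _ ω => B t.toNNReal ω - B s.toNNReal ω) fun _ => ((hm _).sub (hm _)).aemeasurable
    have h3 := Measure.pi_map_pi (μ := fun _ : ι => gaussianReal 0 1)
      (f := fun _ x => √(t - s) * x) fun _ => by fun_prop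
    simp only [h1] at h2
    exact h2.trans h3.symm

namespace BM

variable {ι : Type} [Fintype ι] (W : BM ι)

theorem meas_le {α : Type*} [MeasurableSpace α] {X : W.Ω → α} {s t : ℝ} (hX : Measurable[W.F s] X)
    (h : s ≤ t) : Measurable[W.F t] X := hX.mono (W.mono h) le_rfl

theorem meas_top {α : Type*} [MeasurableSpace α] {X : W.Ω → α} {s : ℝ} (hX : Measurable[W.F s] X) :
    Measurable X := hX.mono (W.le s) le_rfl

theorem measurable_B (t : ℝ) : Measurable (W.B t) := W.meas_top (W.meas t)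

/-- joint law of an `F s`-measurable variable and the increment after `s` -/
theorem map_pair {α : Type*} [MeasurableSpace α] {X : W.Ω → α} {s t : ℝ} (hs : 0 ≤ s) (hst : s ≤ t)
    (hX : Measurable[W.F s] X) : W.P.map (fun ω => (X ω, W.B t ω - W.B s ω)) =
      (W.P.map X).prod ((Gs ι).map fun z => √(t - s) • z) := by
  have h1 : IndepFun X (fun ω => W.B t ω - W.B s ω) W.P :=
    indep_of_indep_of_le_left (W.indep s t hs hst) hX.comap_le
  have h2 : Measurable fun ω => W.B t ω - W.B s ω := (W.measurable_B t).sub (W.measurable_B s)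
  rw [(indepFun_iff_map_prod_eq_prod_map_map (W.meas_top hX).aemeasurable h2.aemeasurable).1 h1,
    W.law s t hs hst]

theorem mp_pair {α : Type*} [MeasurableSpace α] {X : W.Ω → α} {s t : ℝ} (hs : 0 ≤ s) (hst : s ≤ t)
    (hX : Measurable[W.F s] X) : W.P.map (fun ω => (X ω, W.B t ω - W.B s ω)) =
      (W.P.prod (Gs ι)).map fun p => (X p.1, √(t - s) • p.2) := by
  rw [W.map_pair hs hst hX, Measure.map_prod_map _ _ (W.meas_top hX) (by fun_prop)]
  rfl


theorem int_freeze {α : Type*} [MeasurableSpace α] {X : W.Ω → α} {s t : ℝ} (hs : 0 ≤ s)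
    (hst : s ≤ t) (hX : Measurable[W.F s] X) {Ψ : α × (ι → ℝ) → ℝ} (hΨ : Measurable Ψ) :
    Integrable (fun ω => Ψ (X ω, W.B t ω - W.B s ω)) W.P ↔
      Integrable (fun p : W.Ω × (ι → ℝ) => Ψ (X p.1, √(t - s) • p.2)) (W.P.prod (Gs ι)) := by
  have m1 : Measurable fun ω => (X ω, W.B t ω - W.B s ω) :=
    (W.meas_top hX).prodMk ((W.measurable_B t).sub (W.measurable_B s))
  have m2 : Measurable fun p : W.Ω × (ι → ℝ) => (X p.1, √(t - s) • p.2) :=
    ((W.meas_top hX).comp measurable_fst).prodMk (by fun_prop)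
  have e1 := integrable_map_measure (μ := W.P) hΨ.aestronglyMeasurable m1.aemeasurable
  have e2 := integrable_map_measure (μ := W.P.prod (Gs ι)) hΨ.aestronglyMeasurable m2.aemeasurable
  rw [W.mp_pair hs hst hX] at e1
  exact e1.symm.trans e2

/-- **freezing lemma** -/
theorem freeze {α : Type*} [MeasurableSpace α] {X : W.Ω → α} {s t : ℝ} (hs : 0 ≤ s) (hst : s ≤ t)
    (hX : Measurable[W.F s] X) {Ψ : α × (ι → ℝ) → ℝ} (hΨ : Measurable Ψ)
    (hi : Integrable (fun ω => Ψ (X ω, W.B t ω - W.B s ω)) W.P) :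
    ∫ ω, Ψ (X ω, W.B t ω - W.B s ω) ∂W.P = ∫ ω, ∫ z, Ψ (X ω, √(t - s) • z) ∂Gs ι ∂W.P := by
  have m1 : Measurable fun ω => (X ω, W.B t ω - W.B s ω) :=
    (W.meas_top hX).prodMk ((W.measurable_B t).sub (W.measurable_B s))
  have m2 : Measurable fun p : W.Ω × (ι → ℝ) => (X p.1, √(t - s) • p.2) :=
    ((W.meas_top hX).comp measurable_fst).prodMk (by fun_prop)
  rw [← integral_map m1.aemeasurable hΨ.aestronglyMeasurable, W.mp_pair hs hst hX,
    integral_map m2.aemeasurable hΨ.aestronglyMeasurable,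
    integral_prod _ ((W.int_freeze hs hst hX hΨ).1 hi)]

theorem map_B {t : ℝ} (ht : 0 ≤ t) : W.P.map (W.B t) = (Gs ι).map fun z => √t • z := by
  have := W.law 0 t le_rfl ht
  simpa [W.zero] using this

theorem integral_B {t : ℝ} (ht : 0 ≤ t) {F : (ι → ℝ) → ℝ} (hF : Measurable F) :
    ∫ ω, F (W.B t ω) ∂W.P = ∫ z, F (√t • z) ∂Gs ι := by
  rw [← integral_map (W.measurable_B t).aemeasurable hF.aestronglyMeasurable, W.map_B ht,
    integral_map (by fun_prop) hF.aestronglyMeasurable]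

theorem integrable_B {t : ℝ} (ht : 0 ≤ t) {F : (ι → ℝ) → ℝ} (hF : MG F) :
    Integrable (fun ω => F (W.B t ω)) W.P := by
  have e1 := integrable_map_measure (μ := W.P) hF.meas.aestronglyMeasurable
    (W.measurable_B t).aemeasurable
  rw [W.map_B ht, integrable_map_measure hF.meas.aestronglyMeasurable (by fun_prop)] at e1
  refine e1.1 ?_
  classical
  simpa [Function.comp_def] using (hF.affine 0 √t).int

/-! ### the running supremum -/

/-- clamp to `[a, b]` -/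
def cl (a b t : ℝ) : ℝ := max a (min t b)

theorem cl_mem {a b : ℝ} (h : a ≤ b) (t : ℝ) : cl a b t ∈ Icc a b :=
  ⟨le_max_left _ _, max_le h (min_le_right _ _)⟩

theorem cl_eq {a b t : ℝ} (h : t ∈ Icc a b) : cl a b t = t := by
  rw [cl, min_eq_left h.2, max_eq_right h.1]

theorem continuous_cl (a b : ℝ) : Continuous (cl a b) := by unfold cl; fun_prop

/-- the supremum of `‖B‖` on `[0, T]` -/
def S (T : ℝ) (ω : W.Ω) : ℝ := ⨆ q : ℚ, ‖W.B (cl 0 (max T 0) q) ω‖

theorem bdd_S (T : ℝ) (ω : W.Ω) : BddAbove (range fun q : ℚ => ‖W.B (cl 0 (max T 0) q) ω‖) := by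
  obtain ⟨C, hC⟩ := (isCompact_Icc (a := 0) (b := max T 0)).exists_bound_of_continuousOn
    (W.cont ω).continuousOn
  exact ⟨C, by rintro _ ⟨q, rfl⟩; exact hC _ (cl_mem (le_max_right _ _) _)⟩

theorem S_nonneg (T : ℝ) (ω : W.Ω) : 0 ≤ W.S T ω :=
  (norm_nonneg _).trans (le_ciSup (W.bdd_S T ω) 0)


theorem measurable_S (T : ℝ) : Measurable (W.S T) :=
  Measurable.iSup fun _ => (W.measurable_B _).norm

theorem norm_le_S {T t : ℝ} (ht : t ∈ Icc 0 T) (ω : W.Ω) : ‖W.B t ω‖ ≤ W.S T ω := by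
  have hc : Continuous fun r : ℝ => ‖W.B (cl 0 (max T 0) r) ω‖ :=
    ((W.cont ω).comp (continuous_cl _ _)).norm
  have h : ∀ r : ℝ, ‖W.B (cl 0 (max T 0) r) ω‖ ≤ W.S T ω := fun r =>
    Rat.denseRange_cast.induction_on r (isClosed_le hc continuous_const)
      fun _ => le_ciSup (W.bdd_S T ω) _
  have := h t
  rwa [cl_eq ⟨ht.1, ht.2.trans (le_max_left _ _)⟩] at this

theorem S_mono {T T' : ℝ} (hT : 0 ≤ T) (h : T ≤ T') (ω : W.Ω) : W.S T ω ≤ W.S T' ω :=
  ciSup_le fun _ => W.norm_le_S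
    ⟨(cl_mem (le_max_right _ _) _).1, (cl_mem (le_max_right _ _) _).2.trans (max_le h (hT.trans h))⟩ ω

theorem mg_exp (θ : ℝ) (i : ι) : MG fun y : ι → ℝ => exp (θ * y i) :=
  ⟨by fun_prop, 1, |θ|, zero_le_one, abs_nonneg _, fun y => by
    rw [abs_of_pos (exp_pos _), one_mul, exp_le_exp]
    refine (le_abs_self _).trans ?_
    rw [abs_mul]
    gcongr
    exact norm_le_pi_norm y i⟩

theorem int_exp_coord (θ : ℝ) (i : ι) : ∫ z, exp (θ * z i) ∂Gs ι = exp (θ ^ 2 / 2) := by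
  have h := (measurePreserving_eval (μ := fun _ : ι => gaussianReal 0 1) i).map_eq
  have e : ∫ x, exp (θ * x) ∂(gaussianReal 0 1) = exp (θ ^ 2 / 2) := by
    have := congrFun (mgf_id_gaussianReal (μ := 0) (v := 1)) θ
    simpa [mgf] using this
  rw [← e, ← h, integral_map (measurable_pi_apply i).aemeasurable (by fun_prop)]

/-- grid maximal inequality for one coordinate -/
theorem grid_max (θ : ℝ) (i : ι) {h : ℝ} (hh : 0 ≤ h) (k : ℕ) (l : ℝ) :
    W.P {ω | ∃ j ≤ k, l ≤ θ * W.B (j * h) ω i} ≤ ENNReal.ofReal (exp (θ ^ 2 * (k * h) / 2 - l)) := by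
  let 𝒢 : Filtration ℕ W.m :=
    ⟨fun j => W.F (j * h), fun j j' hj => W.mono (by gcongr), fun j => W.le _⟩
  let f : ℕ → W.Ω → ℝ := fun j ω => exp (θ * W.B (j * h) ω i)
  have hj0 : ∀ j : ℕ, (0 : ℝ) ≤ j * h := fun j => by positivity
  have fm : ∀ j : ℕ, Measurable[W.F (j * h)] (f j) := fun j =>
    (show Measurable fun y : ι → ℝ => exp (θ * y i) by fun_prop).comp (W.meas _)
  have fi : ∀ j, Integrable (f j) W.P := fun j => W.integrable_B (hj0 j) (mg_exp θ i)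
  have hsub : Submartingale f 𝒢 W.P := by
    refine submartingale_of_setIntegral_le_succ (fun j => (fm j).stronglyMeasurable) fi
      fun j A hA => ?_
    have hA' : MeasurableSet A := W.le _ _ hA
    have hle : (j : ℝ) * h ≤ (j + 1 : ℕ) * h := by gcongr; simp
    have e : ∀ ω, A.indicator (f (j + 1)) ω = A.indicator (f j) ω *
        exp (θ * (W.B ((j + 1 : ℕ) * h) ω - W.B (j * h) ω) i) := fun ω => by
      by_cases hω : ω ∈ A
      · simp only [indicator_of_mem hω, f, ← exp_add, Pi.sub_apply]; congr 1; ring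
      · simp [hω]
    have hX : Measurable[W.F (j * h)] (A.indicator (f j)) := (fm j).indicator hA
    have hfr := W.freeze (hj0 j) hle hX (Ψ := fun p : ℝ × (ι → ℝ) => p.1 * exp (θ * p.2 i))
      (by fun_prop) (((fi (j + 1)).indicator hA').congr (.of_forall e))
    rw [← integral_indicator hA', ← integral_indicator hA']
    simp only [e]
    rw [hfr]
    refine integral_mono ((fi j).indicator hA') ?_ fun ω => ?_
    · simp only [integral_const_mul]
      exact ((fi j).indicator hA').mul_const _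
    · simp only [integral_const_mul, Pi.smul_apply, smul_eq_mul, ← mul_assoc, int_exp_coord]
      refine le_mul_of_one_le_right (indicator_nonneg (fun _ _ => (exp_pos _).le) _) ?_
      exact one_le_exp (by positivity)
  have hm := maximal_ineq hsub (fun j ω => (exp_pos _).le) (ε := (exp l).toNNReal) k
  have hsub2 : {ω | ∃ j ≤ k, l ≤ θ * W.B (j * h) ω i} ⊆ {ω | ((exp l).toNNReal : ℝ) ≤
      (Finset.range (k + 1)).sup' Finset.nonempty_range_add_one fun j => f j ω} := by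
    rintro ω ⟨j, hj, hl⟩
    rw [mem_ofPred_eq, Real.coe_toNNReal _ (exp_pos _).le]
    exact (exp_le_exp.2 hl).trans
      (Finset.le_sup' (fun j => f j ω) (Finset.mem_range.2 (Nat.lt_succ_of_le hj)))
  have hI : ∫ ω, f k ω ∂W.P = exp (θ ^ 2 * (k * h) / 2) := by
    rw [W.integral_B (hj0 k) (F := fun y => exp (θ * y i)) (by fun_prop)]
    simp only [Pi.smul_apply, smul_eq_mul, ← mul_assoc, int_exp_coord, mul_pow, sq_sqrt (hj0 k)]
  have h2 := hm.trans (ENNReal.ofReal_le_ofReal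
    ((setIntegral_le_integral (fi k) (.of_forall fun ω => (exp_pos _).le)).trans_eq hI))
  refine (measure_mono hsub2).trans ?_
  have e0 : ((exp l).toNNReal : ℝ≥0∞) = ENNReal.ofReal (exp l) := rfl
  rw [e0] at h2
  rw [exp_sub, ENNReal.ofReal_div_of_pos (exp_pos _), ENNReal.le_div_iff_mul_le
    (Or.inl (by simpa using exp_pos l)) (Or.inl ENNReal.ofReal_ne_top), mul_comm]
  exact h2

/-- maximal inequality for one coordinate -/
theorem coord_max (θ : ℝ) (i : ι) {T : ℝ} (hT : 0 ≤ T) (l : ℝ) :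
    W.P {ω | ∃ t ∈ Icc 0 T, l < θ * W.B t ω i} ≤ ENNReal.ofReal (exp (θ ^ 2 * T / 2 - l)) := by
  let A : ℕ → Set W.Ω := fun k => {ω | ∃ j ≤ k + 1, l ≤ θ * W.B (j * (T / (k + 1 : ℕ))) ω i}
  have hA : ∀ k, W.P (A k) ≤ ENNReal.ofReal (exp (θ ^ 2 * T / 2 - l)) := fun k => by
    have := W.grid_max θ i (h := T / (k + 1 : ℕ)) (by positivity) (k + 1) l
    rwa [mul_div_cancel₀ _ (by positivity)] at this
  have hsub : {ω | ∃ t ∈ Icc 0 T, l < θ * W.B t ω i} ⊆ ⋃ N, ⋂ k ≥ N, A k := by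
    rintro ω ⟨t, ht, hl⟩
    have hc : Continuous fun r => θ * W.B r ω i :=
      continuous_const.mul ((continuous_apply i).comp (W.cont ω))
    obtain ⟨δ, hδ, hd⟩ := Metric.eventually_nhds_iff.1 (hc.continuousAt.eventually
      (lt_mem_nhds hl))
    obtain ⟨N, hN⟩ := exists_nat_gt (T / δ)
    refine mem_iUnion.2 ⟨N, mem_iInter₂.2 fun k hk => ?_⟩
    have hk1 : (0 : ℝ) < (k + 1 : ℕ) := by positivity
    rcases hT.eq_or_lt with h0 | h0
    · refine ⟨0, by simp, ?_⟩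
      have : t = 0 := le_antisymm (h0 ▸ ht.2) ht.1
      simpa [this] using hl.le
    have hh : 0 < T / (k + 1 : ℕ) := by positivity
    refine ⟨⌊t / (T / (k + 1 : ℕ))⌋₊, ?_, (hd ?_).le⟩
    · refine Nat.floor_le_of_le ?_
      rw [div_le_iff₀ hh, mul_div_cancel₀ _ hk1.ne']
      exact ht.2
    · have h1 := Nat.floor_le (div_nonneg ht.1 hh.le)
      have h2 := Nat.lt_floor_add_one (t / (T / (k + 1 : ℕ)))
      rw [le_div_iff₀ hh] at h1
      rw [div_lt_iff₀ hh] at h2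
      have h3 : T / (k + 1 : ℕ) < δ := by
        rw [div_lt_iff₀ hδ] at hN
        rw [div_lt_iff₀ hk1]
        have : (N : ℝ) ≤ (k + 1 : ℕ) := by exact_mod_cast hk.trans (Nat.le_succ k)
        nlinarith
      rw [Real.dist_eq, abs_lt]
      constructor <;> nlinarith
  refine (measure_mono hsub).trans ?_
  rw [Monotone.measure_iUnion fun N N' h => biInter_subset_biInter_left fun k hk => h.trans hk]
  exact iSup_le fun N => (measure_mono (biInter_subset_of_mem (le_refl N))).trans (hA N)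

theorem tail_S {θ : ℝ} (hθ : 0 < θ) {T : ℝ} (hT : 0 ≤ T) {l : ℝ} (hl : 0 ≤ l) :
    W.P {ω | l < W.S T ω} ≤ ENNReal.ofReal (2 * Fintype.card ι * exp (θ ^ 2 * T / 2 - θ * l)) := by
  have hsub : {ω | l < W.S T ω} ⊆ ⋃ i : ι, ({ω | ∃ t ∈ Icc 0 T, θ * l < θ * W.B t ω i} ∪
      {ω | ∃ t ∈ Icc 0 T, θ * l < -θ * W.B t ω i}) := by
    intro ω hω
    obtain ⟨q, hq⟩ := exists_lt_of_lt_ciSup (show l < ⨆ q : ℚ, ‖W.B (cl 0 (max T 0) q) ω‖ from hω)
    have hm := cl_mem (le_max_right T 0) (q : ℝ)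
    rw [max_eq_left hT] at hm hq
    by_contra hcon
    simp only [mem_iUnion, mem_union, mem_ofPred_eq, not_exists, not_or, not_and, not_lt] at hcon
    refine absurd hq (not_lt.2 ((pi_norm_le_iff_of_nonneg hl).2 fun i => ?_))
    have h1 := (hcon i).1 _ hm
    have h2 := (hcon i).2 _ hm
    rw [Real.norm_eq_abs, abs_le]
    constructor <;> nlinarith
  refine (measure_mono hsub).trans ((measure_iUnion_fintype_le _ _).trans ?_)
  calc ∑ i : ι, W.P _ ≤ ∑ _i : ι, ENNReal.ofReal (2 * exp (θ ^ 2 * T / 2 - θ * l)) :=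
        Finset.sum_le_sum fun i _ => (measure_union_le _ _).trans (by
          rw [two_mul, ENNReal.ofReal_add (exp_pos _).le (exp_pos _).le]
          exact add_le_add (W.coord_max θ i hT _) (by simpa using W.coord_max (-θ) i hT (θ * l)))
    _ = _ := by
      rw [← ENNReal.ofReal_sum_of_nonneg fun _ _ => by positivity]
      simp only [Finset.sum_const, Finset.card_univ, nsmul_eq_mul]
      ring_nf

/-- all exponential moments of the running supremum are finite -/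
theorem int_exp_S (c T : ℝ) : Integrable (fun ω => exp (c * W.S T ω)) W.P := by
  wlog hT : 0 ≤ T generalizing T
  · have e : W.S T = W.S 0 := by
      funext ω; simp only [S, max_eq_right (not_le.1 hT).le, max_self]
    rw [e]; exact this 0 le_rfl
  wlog hc : 0 ≤ c generalizing c
  · refine (integrable_const (1 : ℝ)).mono' ((W.measurable_S T).const_mul c).exp.aestronglyMeasurable
      (.of_forall fun ω => ?_)
    rw [norm_of_nonneg (exp_pos _).le, exp_le_one_iff]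
    exact mul_nonpos_of_nonpos_of_nonneg (not_le.1 hc).le (W.S_nonneg T ω)
  have hm : Measurable fun ω => exp (c * W.S T ω) := ((W.measurable_S T).const_mul c).exp
  refine ⟨hm.aestronglyMeasurable, ?_⟩
  rw [hasFiniteIntegral_iff_ofReal (.of_forall fun ω => (exp_pos _).le)]
  have hpt : ∀ ω, ENNReal.ofReal (exp (c * W.S T ω)) ≤ 1 + ∑' k : ℕ,
      {ω | (k : ℝ) < W.S T ω}.indicator (fun _ => ENNReal.ofReal (exp (c * (k + 1)))) ω := by
    intro ω
    rcases (W.S_nonneg T ω).eq_or_lt with h0 | h0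
    · simp [← h0]
    · refine le_add_left (le_trans ?_ (ENNReal.le_tsum (⌈W.S T ω⌉₊ - 1)))
      have h1 : 1 ≤ ⌈W.S T ω⌉₊ := Nat.one_le_iff_ne_zero.2 (Nat.ceil_pos.2 h0).ne'
      have h2 : ((⌈W.S T ω⌉₊ - 1 : ℕ) : ℝ) = ⌈W.S T ω⌉₊ - 1 := by simp [h1]
      rw [indicator_of_mem (by
        simp only [mem_ofPred_eq, h2]
        linarith [Nat.ceil_lt_add_one h0.le]), h2, sub_add_cancel]
      gcongr
      exact Nat.le_ceil _
  refine (lintegral_mono hpt).trans_lt ?_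
  have hs : ∀ k : ℕ, MeasurableSet {ω | (k : ℝ) < W.S T ω} := fun k =>
    measurableSet_lt measurable_const (W.measurable_S T)
  rw [lintegral_add_left measurable_const, lintegral_tsum fun k =>
    (measurable_const.indicator (hs k)).aemeasurable]
  simp only [lintegral_indicator_const (hs _), lintegral_const, measure_univ, mul_one]
  refine ENNReal.add_lt_top.2 ⟨ENNReal.one_lt_top, ?_⟩
  set K : ℝ := 2 * Fintype.card ι * exp ((c + 1) ^ 2 * T / 2 + c)
  have hb : ∀ k : ℕ, ENNReal.ofReal (exp (c * (k + 1))) * W.P {ω | (k : ℝ) < W.S T ω} ≤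
      ENNReal.ofReal (K * exp (-1) ^ k) := fun k => by
    refine (mul_le_mul_right (W.tail_S (θ := c + 1) (by linarith) hT k.cast_nonneg) _).trans_eq ?_
    rw [← ENNReal.ofReal_mul (exp_pos _).le, ← exp_nat_mul, mul_left_comm, mul_assoc _ _ (exp _),
      ← exp_add, ← exp_add]
    congr 3; ring
  refine (ENNReal.tsum_le_tsum hb).trans_lt ?_
  have hsum : Summable fun k : ℕ => K * exp (-1) ^ k :=
    (summable_geometric_of_lt_one (exp_pos _).le (exp_lt_one_iff.2 (by norm_num))).mul_left K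
  rw [← ENNReal.ofReal_tsum_of_nonneg (fun k => by positivity) hsum]
  exact ENNReal.ofReal_lt_top

end BM

end Crest.Agent.T157.Pa

end
end

-- ▼ part T157/PaB_39
section

/-!
# Row 157, path layer, part B (helper39): adapted processes and semimartingales

`Gr` (growth `C exp (c sup ‖B‖)`), `Tm r H` (`F r`-measurable variable), `Ad a b X` (continuous
adapted), `Pr a b A` (progressive), `Nice Q`, `SM Q a b X A` (`X - ∫ A` is a `Q`-martingale),
`FV a b V V'` (finite variation), `St a b τ` (stopping time).  Closure: linear operations, product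
with a finite variation process, stopping.
-/

set_option autoImplicit false
set_option linter.unusedSectionVars false

noncomputable section

namespace Crest.Agent.T157.Pa

open MeasureTheory ProbabilityTheory Filter Topology Set Real
open scoped NNReal ENNReal

/-- integration by parts for primitives -/
theorem tri {f g : ℝ → ℝ} {r t : ℝ} (hf : IntervalIntegrable f volume r t)
    (hg : IntervalIntegrable g volume r t) :
    ∫ u in r..t, f u * ∫ w in u..t, g w = ∫ w in r..t, (∫ u in r..w, f u) * g w := by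
  have h1 := hf.absolutelyContinuousOnInterval_intervalIntegral (c := r) left_mem_uIcc
  have h2 := hg.absolutelyContinuousOnInterval_intervalIntegral (c := t) right_mem_uIcc
  have h3 := h1.integral_mul_deriv_eq_deriv_mul h2
  simp only [intervalIntegral.integral_same, mul_zero, zero_mul, sub_zero, zero_sub] at h3
  have e1 : ∫ x in r..t, (∫ v in r..x, f v) * deriv (fun x => ∫ v in t..x, g v) x =
      ∫ w in r..t, (∫ u in r..w, f u) * g w := by
    refine intervalIntegral.integral_congr_ae ?_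
    filter_upwards [hg.ae_hasDerivAt_integral] with x hx hx'
    rw [(hx (uIoc_subset_uIcc hx') t right_mem_uIcc).deriv]
  have e2 : ∫ x in r..t, deriv (fun x => ∫ v in r..x, f v) x * ∫ v in t..x, g v =
      -∫ u in r..t, f u * ∫ w in u..t, g w := by
    rw [← intervalIntegral.integral_neg]
    refine intervalIntegral.integral_congr_ae ?_
    filter_upwards [hf.ae_hasDerivAt_integral] with x hx hx'
    rw [(hx (uIoc_subset_uIcc hx') r left_mem_uIcc).deriv, intervalIntegral.integral_symm x t]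
    ring
  rw [e1, e2, neg_neg] at h3
  exact h3.symm


namespace BM

variable {ι : Type} [Fintype ι] {W : BM ι}

/-- growth bound, uniform over the index set `I` -/
def Gr (W : BM ι) {κ : Type*} (I : Set κ) (X : κ → W.Ω → ℝ) : Prop :=
  ∃ T C c : ℝ, 0 ≤ T ∧ 0 ≤ C ∧ 0 ≤ c ∧ ∀ t ∈ I, ∀ ω, |X t ω| ≤ C * exp (c * W.S T ω)

namespace Gr
variable {κ κ' : Type*} {I : Set κ} {X Y : κ → W.Ω → ℝ}

theorem of_bdd (C : ℝ) (h : ∀ t ∈ I, ∀ ω, |X t ω| ≤ C) : W.Gr I X :=
  ⟨0, |C|, 0, le_rfl, abs_nonneg _, le_rfl, fun t ht ω => by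
    simpa using (h t ht ω).trans (le_abs_self C)⟩

theorem const (c : ℝ) : W.Gr I fun _ _ => c := of_bdd |c| fun _ _ _ => le_rfl

theorem comp (h : W.Gr I X) {J : Set κ'} {Y : κ' → W.Ω → ℝ}
    (e : ∀ t ∈ J, ∀ ω, ∃ s ∈ I, |Y t ω| ≤ |X s ω|) : W.Gr J Y := by
  obtain ⟨T, C, c, h1, h2, h3, h4⟩ := h
  exact ⟨T, C, c, h1, h2, h3, fun t ht ω => by
    obtain ⟨s, hs, e⟩ := e t ht ω; exact e.trans (h4 s hs ω)⟩

theorem of_le (h : W.Gr I X) (e : ∀ t ∈ I, ∀ ω, |Y t ω| ≤ |X t ω|) : W.Gr I Y :=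
  h.comp fun t ht ω => ⟨t, ht, e t ht ω⟩

theorem mono (h : W.Gr I X) {J : Set κ} (hJ : J ⊆ I) : W.Gr J X :=
  h.comp fun t ht _ => ⟨t, hJ ht, le_rfl⟩

theorem both (h : W.Gr I X) {J : Set κ'} {Y : κ' → W.Ω → ℝ} (h' : W.Gr J Y) :
    ∃ T C c : ℝ, 0 ≤ T ∧ 0 ≤ C ∧ 0 ≤ c ∧ (∀ t ∈ I, ∀ ω, |X t ω| ≤ C * exp (c * W.S T ω)) ∧
      ∀ t ∈ J, ∀ ω, |Y t ω| ≤ C * exp (c * W.S T ω) := by
  obtain ⟨T, C, c, h1, h2, h3, h4⟩ := h
  obtain ⟨T', C', c', h1', h2', h3', h4'⟩ := h'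
  refine ⟨max T T', max C C', max c c', by positivity, by positivity, by positivity,
    fun t ht ω => (h4 t ht ω).trans ?_, fun t ht ω => (h4' t ht ω).trans ?_⟩
  · have := W.S_nonneg T ω
    gcongr
    exacts [le_max_left _ _, le_max_left _ _, W.S_mono h1 (le_max_left _ _) ω]
  · have := W.S_nonneg T' ω
    gcongr
    exacts [le_max_right _ _, le_max_right _ _, W.S_mono h1' (le_max_right _ _) ω]

theorem mul2 (h : W.Gr I X) {J : Set κ'} {Y : κ' → W.Ω → ℝ} (h' : W.Gr J Y) :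
    W.Gr (I ×ˢ J) fun p ω => X p.1 ω * Y p.2 ω := by
  obtain ⟨T, C, c, h1, h2, h3, h4, h5⟩ := h.both h'
  refine ⟨T, C * C, c + c, h1, by positivity, by positivity, fun p hp ω => ?_⟩
  rw [abs_mul, add_mul, exp_add, mul_mul_mul_comm]
  exact mul_le_mul (h4 _ hp.1 ω) (h5 _ hp.2 ω) (abs_nonneg _) (by positivity)

theorem add2 (h : W.Gr I X) {J : Set κ'} {Y : κ' → W.Ω → ℝ} (h' : W.Gr J Y) :
    W.Gr (I ×ˢ J) fun p ω => |X p.1 ω| + |Y p.2 ω| := by
  obtain ⟨T, C, c, h1, h2, h3, h4, h5⟩ := h.both h'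
  refine ⟨T, C + C, c, h1, by positivity, h3, fun p hp ω => ?_⟩
  rw [abs_of_nonneg (by positivity), add_mul]
  exact add_le_add (h4 _ hp.1 ω) (h5 _ hp.2 ω)

theorem mul (h : W.Gr I X) (h' : W.Gr I Y) : W.Gr I fun t ω => X t ω * Y t ω :=
  (h.mul2 h').comp fun t ht _ => ⟨(t, t), ⟨ht, ht⟩, le_rfl⟩

theorem add (h : W.Gr I X) (h' : W.Gr I Y) : W.Gr I fun t ω => X t ω + Y t ω :=
  (h.add2 h').comp fun t ht _ => ⟨(t, t), ⟨ht, ht⟩, (abs_add_le _ _).trans (le_abs_self _)⟩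

theorem neg (h : W.Gr I X) : W.Gr I fun t ω => -X t ω := h.of_le fun _ _ _ => (abs_neg _).le

theorem sub (h : W.Gr I X) (h' : W.Gr I Y) : W.Gr I fun t ω => X t ω - Y t ω := by
  simpa only [sub_eq_add_neg] using h.add h'.neg

theorem abs (h : W.Gr I X) : W.Gr I fun t ω => |X t ω| := h.of_le fun _ _ _ => (abs_abs _).le

theorem sum {σ : Type*} (s : Finset σ) {X : σ → κ → W.Ω → ℝ} (h : ∀ k ∈ s, W.Gr I (X k)) :
    W.Gr I fun t ω => ∑ k ∈ s, X k t ω := by
  classical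
  induction s using Finset.induction_on with
  | empty => simpa using const 0
  | insert k s hk ih =>
    simpa [Finset.sum_insert hk] using (h k (by simp)).add (ih fun j hj => h j (by simp [hj]))

/-- the exponential of a process of linear growth -/
theorem exp_of_le {T C c : ℝ} (hT : 0 ≤ T) (h : ∀ t ∈ I, ∀ ω, X t ω ≤ C + c * W.S T ω) :
    W.Gr I fun t ω => exp (X t ω) :=
  ⟨T, exp C, |c|, hT, (exp_pos _).le, abs_nonneg _, fun t ht ω => by
    rw [abs_of_pos (exp_pos _), ← exp_add, exp_le_exp]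
    have := W.S_nonneg T ω
    exact (h t ht ω).trans (by gcongr; exact le_abs_self c)⟩

end Gr

/-- measures under which all exponential moments of the running supremum are finite -/
structure Nice (W : BM ι) (Q : Measure W.Ω) : Prop where
  fin : IsFiniteMeasure Q
  int : ∀ c T, Integrable (fun ω => exp (c * W.S T ω)) Q

theorem nice_P (W : BM ι) : W.Nice W.P := ⟨inferInstance, W.int_exp_S⟩

/-- `F r`-measurable variables of controlled growth -/
structure Tm (W : BM ι) (r : ℝ) (H : W.Ω → ℝ) : Prop where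
  meas : Measurable[W.F r] H
  gr : W.Gr (univ : Set Unit) fun _ => H

/-- continuous adapted processes -/
structure Ad (W : BM ι) (a b : ℝ) (X : ℝ → W.Ω → ℝ) : Prop where
  cont : ∀ ω, ContinuousOn (fun t => X t ω) (Icc a b)
  meas : ∀ t ∈ Icc a b, Measurable[W.F t] (X t)
  gr : W.Gr (Icc a b) X

/-- the σ-algebra `Borel ⊗ F t` -/
abbrev PF (W : BM ι) (t : ℝ) : MeasurableSpace (ℝ × W.Ω) := @Prod.instMeasurableSpace ℝ W.Ω _ (W.F t)

/-- progressive processes -/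
structure Pr (W : BM ι) (a b : ℝ) (A : ℝ → W.Ω → ℝ) : Prop where
  meas : ∀ t ∈ Icc a b, Measurable[W.PF t] fun p : ℝ × W.Ω => A (cl a t p.1) p.2
  gr : W.Gr (Icc a b) A

variable {Q : Measure W.Ω} {a b r s t : ℝ} {H H' : W.Ω → ℝ} {X Y A A' V V' : ℝ → W.Ω → ℝ}

theorem Nice.integrable (hQ : W.Nice Q) {κ : Type*} {I : Set κ} {X : κ → W.Ω → ℝ} (h : W.Gr I X)
    {k : κ} (hk : k ∈ I) (hm : Measurable (X k)) : Integrable (X k) Q := by
  obtain ⟨T, C, c, -, -, -, h4⟩ := h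
  exact ((hQ.int c T).const_mul C).mono' hm.aestronglyMeasurable (.of_forall (h4 k hk))

namespace Tm

theorem measurable (h : W.Tm r H) : Measurable H := W.meas_top h.meas
theorem int (h : W.Tm r H) (hQ : W.Nice Q) : Integrable H Q :=
  hQ.integrable h.gr (mem_univ ()) h.measurable
theorem mono (h : W.Tm r H) (hr : r ≤ s) : W.Tm s H := ⟨W.meas_le h.meas hr, h.gr⟩
theorem const (c : ℝ) : W.Tm r fun _ => c := ⟨measurable_const, .const c⟩
theorem mul (h : W.Tm r H) (h' : W.Tm r H') : W.Tm r fun ω => H ω * H' ω :=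
  ⟨h.meas.mul h'.meas, h.gr.mul h'.gr⟩
theorem add (h : W.Tm r H) (h' : W.Tm r H') : W.Tm r fun ω => H ω + H' ω :=
  ⟨h.meas.add h'.meas, h.gr.add h'.gr⟩
theorem sub (h : W.Tm r H) (h' : W.Tm r H') : W.Tm r fun ω => H ω - H' ω :=
  ⟨h.meas.sub h'.meas, h.gr.sub h'.gr⟩
theorem neg (h : W.Tm r H) : W.Tm r fun ω => -H ω := ⟨h.meas.neg, h.gr.neg⟩
theorem abs (h : W.Tm r H) : W.Tm r fun ω => |H ω| := ⟨continuous_abs.measurable.comp h.meas, h.gr.abs⟩
theorem sum {σ : Type*} (S : Finset σ) {H : σ → W.Ω → ℝ} (h : ∀ k ∈ S, W.Tm r (H k)) :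
    W.Tm r fun ω => ∑ k ∈ S, H k ω :=
  ⟨Finset.measurable_sum _ fun k hk => (h k hk).meas, .sum S fun k hk => (h k hk).gr⟩
theorem of_le (h : W.Tm s H) (hm : Measurable[W.F r] H') (e : ∀ ω, |H' ω| ≤ |H ω|) : W.Tm r H' :=
  ⟨hm, h.gr.of_le fun _ _ => e⟩
theorem of_bdd (hm : Measurable[W.F r] H) (C : ℝ) (e : ∀ ω, |H ω| ≤ C) : W.Tm r H :=
  ⟨hm, .of_bdd C fun _ _ => e⟩
theorem ite (h : W.Tm r H) {p : W.Ω → Prop} [DecidablePred p] (hp : MeasurableSet[W.F r] {ω | p ω}) :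
    W.Tm r fun ω => if p ω then H ω else 0 :=
  h.of_le (Measurable.ite hp h.meas measurable_const) fun ω => by split_ifs <;> simp
theorem indicator (h : W.Tm r H) {E : Set W.Ω} (hE : MeasurableSet[W.F r] E) :
    W.Tm r (E.indicator H) :=
  h.of_le (h.meas.indicator hE) fun ω => by
    simpa only [Real.norm_eq_abs] using norm_indicator_le_norm_self H ω

end Tm

namespace Pr

theorem meas_at (h : W.Pr a b A) (ht : t ∈ Icc a b) : Measurable[W.F t] (A t) := by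
  have h1 : Measurable[W.F t, W.PF t] fun ω => (t, ω) := measurable_const.prodMk measurable_id
  have := (h.meas t ht).comp h1
  simpa only [Function.comp_def, cl_eq (⟨ht.1, le_rfl⟩ : t ∈ Icc a t)] using this

theorem tm (h : W.Pr a b A) (ht : t ∈ Icc a b) : W.Tm t (A t) :=
  ⟨h.meas_at ht, h.gr.comp fun _ _ _ => ⟨t, ht, le_rfl⟩⟩

/-- joint measurability -/
theorem jm (h : W.Pr a b A) (ht : t ∈ Icc a b) :
    Measurable fun p : ℝ × W.Ω => A (cl a t p.1) p.2 :=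
  (h.meas t ht).mono (sup_le_sup le_rfl (MeasurableSpace.comap_mono (W.le t))) le_rfl

theorem const (c : ℝ) : W.Pr a b fun _ _ => c := ⟨fun _ _ => measurable_const, .const c⟩
theorem mul (h : W.Pr a b A) (h' : W.Pr a b A') : W.Pr a b fun t ω => A t ω * A' t ω :=
  ⟨fun t ht => (h.meas t ht).mul (h'.meas t ht), h.gr.mul h'.gr⟩
theorem add (h : W.Pr a b A) (h' : W.Pr a b A') : W.Pr a b fun t ω => A t ω + A' t ω :=
  ⟨fun t ht => (h.meas t ht).add (h'.meas t ht), h.gr.add h'.gr⟩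
theorem sub (h : W.Pr a b A) (h' : W.Pr a b A') : W.Pr a b fun t ω => A t ω - A' t ω :=
  ⟨fun t ht => (h.meas t ht).sub (h'.meas t ht), h.gr.sub h'.gr⟩
theorem neg (h : W.Pr a b A) : W.Pr a b fun t ω => -A t ω :=
  ⟨fun t ht => (h.meas t ht).neg, h.gr.neg⟩
theorem abs (h : W.Pr a b A) : W.Pr a b fun t ω => |A t ω| :=
  ⟨fun t ht => continuous_abs.measurable.comp (h.meas t ht), h.gr.abs⟩
theorem sum {σ : Type*} (S : Finset σ) {A : σ → ℝ → W.Ω → ℝ} (h : ∀ k ∈ S, W.Pr a b (A k)) :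
    W.Pr a b fun t ω => ∑ k ∈ S, A k t ω :=
  ⟨fun t ht => Finset.measurable_sum _ fun k hk => (h k hk).meas t ht,
    .sum S fun k hk => (h k hk).gr⟩
theorem comp (h : W.Pr a b A) {φ : ℝ → ℝ} (hφ : Measurable φ)
    (hg : W.Gr (Icc a b) fun t ω => φ (A t ω)) : W.Pr a b fun t ω => φ (A t ω) :=
  ⟨fun t ht => hφ.comp (h.meas t ht), hg⟩

theorem mono {a' b' : ℝ} (h : W.Pr a b A) (ha : a ≤ a') (hb : b' ≤ b) : W.Pr a' b' A := by
  refine ⟨fun t ht => ?_, h.gr.mono (Icc_subset_Icc ha hb)⟩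
  have h1 : Measurable[W.PF t, W.PF t] fun p : ℝ × W.Ω => (cl a' t p.1, p.2) :=
    ((continuous_cl a' t).measurable.comp measurable_fst).prodMk measurable_snd
  have := (h.meas t ⟨ha.trans ht.1, ht.2.trans hb⟩).comp h1
  have e : ∀ u, cl a t (cl a' t u) = cl a' t u := fun u =>
    cl_eq ⟨ha.trans (cl_mem ht.1 u).1, (cl_mem ht.1 u).2⟩
  simpa only [Function.comp_def, e] using this

theorem congr (h : W.Pr a b A) (e : ∀ t ∈ Icc a b, ∀ ω, A' t ω = A t ω) : W.Pr a b A' :=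
  ⟨fun t ht => by
    have : ∀ p : ℝ × W.Ω, A' (cl a t p.1) p.2 = A (cl a t p.1) p.2 := fun p =>
      e _ ⟨(cl_mem ht.1 _).1, (cl_mem ht.1 _).2.trans ht.2⟩ _
    simpa only [this] using h.meas t ht, h.gr.of_le fun t ht ω => (e t ht ω).symm ▸ le_rfl⟩

theorem ii (h : W.Pr a b A) (hr : r ∈ Icc a b) (ht : t ∈ Icc a b) (ω : W.Ω) :
    IntervalIntegrable (fun u => A u ω) volume r t := by
  have hab := hr.1.trans hr.2
  obtain ⟨T, C, c, -, -, -, h4⟩ := h.gr
  have hm : Measurable fun u => A (cl a b u) ω :=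
    (h.jm ⟨hab, le_rfl⟩).comp (measurable_id.prodMk measurable_const)
  have hs : uIoc r t ⊆ Icc a b := uIoc_subset_uIcc.trans (uIcc_subset_Icc hr ht)
  refine (intervalIntegrable_congr (f := fun u => A (cl a b u) ω)
    fun u hu => by simp only [cl_eq (hs hu)]).1 ?_
  refine (intervalIntegrable_const (c := C * exp (c * W.S T ω))).mono_fun'
    hm.aestronglyMeasurable (.of_forall fun u => h4 _ (cl_mem hab u) ω)

theorem gr_int (h : W.Pr a b A) :
    W.Gr (Icc a b ×ˢ Icc a b) fun p ω => ∫ u in p.1..p.2, A u ω := by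
  obtain ⟨T, C, c, h1, h2, h3, h4⟩ := h.gr
  refine ⟨T, C * |b - a|, c, h1, by positivity, h3, fun p hp ω => ?_⟩
  have hs : uIoc p.1 p.2 ⊆ Icc a b := uIoc_subset_uIcc.trans (uIcc_subset_Icc hp.1 hp.2)
  refine (intervalIntegral.norm_integral_le_of_norm_le_const (f := fun u => A u ω)
    (C := C * exp (c * W.S T ω)) fun u hu => h4 u (hs hu) ω).trans ?_
  rw [mul_right_comm C |b - a|]
  refine mul_le_mul_of_nonneg_left ?_ (mul_nonneg h2 (exp_pos _).le)
  rw [abs_le]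
  constructor <;> linarith [hp.1.1, hp.1.2, hp.2.1, hp.2.2, le_abs_self (b - a)]

theorem tm_int (h : W.Pr a b A) (hr : a ≤ r) (hrt : r ≤ t) (ht : t ≤ b) :
    W.Tm t fun ω => ∫ u in r..t, A u ω := by
  refine ⟨?_, h.gr_int.comp fun _ _ _ => ⟨(r, t), ⟨⟨hr, hrt.trans ht⟩, ⟨hr.trans hrt, ht⟩⟩, le_rfl⟩⟩
  have e : (fun ω => ∫ u in r..t, A u ω) = fun ω => ∫ u in Ioc r t, A (cl a t u) ω := by
    funext ω
    rw [intervalIntegral.integral_of_le hrt]
    exact setIntegral_congr_fun measurableSet_Ioc fun u hu => by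
      simp only [cl_eq (⟨hr.trans hu.1.le, hu.2⟩ : u ∈ Icc a t)]
  rw [e]
  exact (@StronglyMeasurable.integral_prod_left' ℝ W.Ω ℝ _ (W.F t) _ _ _ _ _
    (h.meas t ⟨hr.trans hrt, ht⟩).stronglyMeasurable).measurable

/-- primitives of progressive processes -/
theorem prim (h : W.Pr a b A) : W.Ad a b fun t ω => ∫ u in a..t, A u ω := by
  refine ⟨fun ω => ?_, fun t ht => (h.tm_int le_rfl ht.1 ht.2).meas,
    h.gr_int.comp fun t ht _ => ⟨(a, t), ⟨⟨le_rfl, ht.1.trans ht.2⟩, ht⟩, le_rfl⟩⟩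
  rcases le_or_gt a b with hab | hab
  · have := intervalIntegral.continuousOn_primitive_interval'
      (h.ii (left_mem_Icc.2 hab) (right_mem_Icc.2 hab) ω) left_mem_uIcc
    rwa [uIcc_of_le hab] at this
  · simp [Icc_eq_empty (not_le.2 hab)]

theorem int_prod (h : W.Pr a b A) (hQ : W.Nice Q) (hr : r ∈ Icc a b) (t : ℝ) :
    Integrable (Function.uncurry fun u ω => A (cl a b u) ω) ((volume.restrict (uIoc r t)).prod Q) := by
  have hab := hr.1.trans hr.2
  obtain ⟨T, C, c, -, -, -, h4⟩ := h.gr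
  have := hQ.fin
  have i1 : IsFiniteMeasure (volume.restrict (uIoc r t)) := ⟨by simp [uIoc]⟩
  refine (((hQ.int c T).const_mul C).comp_snd _).mono' (h.jm ⟨hab, le_rfl⟩).aestronglyMeasurable
    (.of_forall fun p => h4 _ (cl_mem hab _) _)

/-- Fubini -/
theorem fubini (h : W.Pr a b A) (hQ : W.Nice Q) (hr : r ∈ Icc a b) (ht : t ∈ Icc a b) :
    ∫ ω, (∫ u in r..t, A u ω) ∂Q = ∫ u in r..t, ∫ ω, A u ω ∂Q := by
  have := hQ.fin
  have hs : uIoc r t ⊆ Icc a b := uIoc_subset_uIcc.trans (uIcc_subset_Icc hr ht)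
  have e1 : ∀ ω, ∫ u in r..t, A u ω = ∫ u in r..t, A (cl a b u) ω := fun ω =>
    intervalIntegral.integral_congr_ae (.of_forall fun u hu => by rw [cl_eq (hs hu)])
  have e2 : ∫ u in r..t, ∫ ω, A u ω ∂Q = ∫ u in r..t, ∫ ω, A (cl a b u) ω ∂Q :=
    intervalIntegral.integral_congr_ae (.of_forall fun u hu => by rw [cl_eq (hs hu)])
  simp only [e1, e2]
  exact (intervalIntegral_integral_swap (h.int_prod hQ hr t)).symm

theorem ii_int (h : W.Pr a b A) (hQ : W.Nice Q) (hr : r ∈ Icc a b) (ht : t ∈ Icc a b) :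
    IntervalIntegrable (fun u => ∫ ω, A u ω ∂Q) volume r t := by
  have := hQ.fin
  have hs : uIoc r t ⊆ Icc a b := uIoc_subset_uIcc.trans (uIcc_subset_Icc hr ht)
  refine (intervalIntegrable_congr (f := fun u => ∫ ω, A (cl a b u) ω ∂Q)
    fun u hu => by simp only [cl_eq (hs hu)]).1 ?_
  exact intervalIntegrable_iff.2 (h.int_prod hQ hr t).integral_prod_left

end Pr

theorem Tm.pr (h : W.Tm a H) : W.Pr a b fun _ => H :=
  ⟨fun _ ht => (W.meas_le h.meas ht.1).comp measurable_snd, h.gr.comp fun _ _ _ => ⟨(), trivial, le_rfl⟩⟩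

theorem Tm.ad (h : W.Tm a H) : W.Ad a b fun _ => H :=
  ⟨fun _ => continuousOn_const, fun _ ht => W.meas_le h.meas ht.1,
    h.gr.comp fun _ _ _ => ⟨(), trivial, le_rfl⟩⟩

namespace Ad

theorem pr (h : W.Ad a b X) : W.Pr a b X := by
  refine ⟨fun t ht => ?_, h.gr⟩
  have hm : ∀ u, cl a t u ∈ Icc a b := fun u => ⟨(cl_mem ht.1 u).1, (cl_mem ht.1 u).2.trans ht.2⟩
  exact measurable_uncurry_of_continuous_of_measurable (m := W.F t)
    (u := fun u ω => X (cl a t u) ω)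
    (fun ω => (h.cont ω).comp_continuous (continuous_cl a t) hm)
    fun u => W.meas_le (h.meas _ (hm u)) (cl_mem ht.1 u).2

theorem tm (h : W.Ad a b X) (ht : t ∈ Icc a b) : W.Tm t (X t) := h.pr.tm ht
theorem int (h : W.Ad a b X) (hQ : W.Nice Q) (ht : t ∈ Icc a b) : Integrable (X t) Q :=
  (h.tm ht).int hQ
theorem const (c : ℝ) : W.Ad a b fun _ _ => c := (Tm.const c).ad
theorem time {f : ℝ → ℝ} (hf : ContinuousOn f (Icc a b)) : W.Ad a b fun t _ => f t := by
  obtain ⟨C, hC⟩ := isCompact_Icc.exists_bound_of_continuousOn hf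
  exact ⟨fun _ => hf, fun _ _ => measurable_const, .of_bdd C fun t ht _ => hC t ht⟩
theorem mul (h : W.Ad a b X) (h' : W.Ad a b Y) : W.Ad a b fun t ω => X t ω * Y t ω :=
  ⟨fun ω => (h.cont ω).mul (h'.cont ω), fun t ht => (h.meas t ht).mul (h'.meas t ht), h.gr.mul h'.gr⟩
theorem add (h : W.Ad a b X) (h' : W.Ad a b Y) : W.Ad a b fun t ω => X t ω + Y t ω :=
  ⟨fun ω => (h.cont ω).add (h'.cont ω), fun t ht => (h.meas t ht).add (h'.meas t ht), h.gr.add h'.gr⟩
theorem sub (h : W.Ad a b X) (h' : W.Ad a b Y) : W.Ad a b fun t ω => X t ω - Y t ω :=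
  ⟨fun ω => (h.cont ω).sub (h'.cont ω), fun t ht => (h.meas t ht).sub (h'.meas t ht), h.gr.sub h'.gr⟩
theorem neg (h : W.Ad a b X) : W.Ad a b fun t ω => -X t ω :=
  ⟨fun ω => (h.cont ω).neg, fun t ht => (h.meas t ht).neg, h.gr.neg⟩
theorem abs (h : W.Ad a b X) : W.Ad a b fun t ω => |X t ω| :=
  ⟨fun ω => (h.cont ω).abs, fun t ht => continuous_abs.measurable.comp (h.meas t ht), h.gr.abs⟩
theorem sum {σ : Type*} (S : Finset σ) {X : σ → ℝ → W.Ω → ℝ} (h : ∀ k ∈ S, W.Ad a b (X k)) :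
    W.Ad a b fun t ω => ∑ k ∈ S, X k t ω :=
  ⟨fun ω => continuousOn_finsetSum _ fun k hk => (h k hk).cont ω,
    fun t ht => Finset.measurable_sum _ fun k hk => (h k hk).meas t ht,
    .sum S fun k hk => (h k hk).gr⟩
theorem comp (h : W.Ad a b X) {φ : ℝ → ℝ} (hφ : Continuous φ)
    (hg : W.Gr (Icc a b) fun t ω => φ (X t ω)) : W.Ad a b fun t ω => φ (X t ω) :=
  ⟨fun ω => hφ.comp_continuousOn (h.cont ω), fun t ht => hφ.measurable.comp (h.meas t ht), hg⟩
theorem mono {a' b' : ℝ} (h : W.Ad a b X) (ha : a ≤ a') (hb : b' ≤ b) : W.Ad a' b' X :=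
  ⟨fun ω => (h.cont ω).mono (Icc_subset_Icc ha hb), fun t ht => h.meas t (Icc_subset_Icc ha hb ht),
    h.gr.mono (Icc_subset_Icc ha hb)⟩
theorem congr (h : W.Ad a b X) (e : ∀ t ∈ Icc a b, ∀ ω, Y t ω = X t ω) : W.Ad a b Y :=
  ⟨fun ω => (h.cont ω).congr fun t ht => e t ht ω, fun t ht => by
    rw [show Y t = X t from funext (e t ht)]; exact h.meas t ht,
    h.gr.of_le fun t ht ω => (e t ht ω).symm ▸ le_rfl⟩

theorem continuousOn_int (h : W.Ad a b X) (hQ : W.Nice Q) :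
    ContinuousOn (fun t => ∫ ω, X t ω ∂Q) (Icc a b) := by
  obtain ⟨T, C, c, -, -, -, h4⟩ := h.gr
  exact continuousOn_of_dominated (fun t ht => (h.tm ht).measurable.aestronglyMeasurable)
    (fun t ht => .of_forall (h4 t ht)) ((hQ.int c T).const_mul C) (.of_forall h.cont)

end Ad

end BM

end Crest.Agent.T157.Pa

end
end

-- ▼ part T157/PaC_39
section

/-!
# Row 157, path layer, part C (helper39): semimartingales, products, stopping

`SM Q a b X A`: `X - ∫ A` is a `Q`-martingale on `[a, b]`; `FV a b V V'`: `V = V a + ∫ V'`;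
`St a b τ`: stopping time.  `SM.mul_fv`, `SM.stop`, `SM.expect`.
-/

set_option autoImplicit false
set_option linter.unusedSectionVars false

noncomputable section

namespace Crest.Agent.T157.Pa

open MeasureTheory ProbabilityTheory Filter Topology Set Real
open scoped NNReal ENNReal

namespace BM

variable {ι : Type} [Fintype ι] {W : BM ι}
variable {Q : Measure W.Ω} {a b r s t : ℝ} {H H' : W.Ω → ℝ} {X Y A A' U U' V V' : ℝ → W.Ω → ℝ}
  {τ : W.Ω → ℝ}

/-- jointly measurable processes (not necessarily adapted) -/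
structure Jm (W : BM ι) (a b : ℝ) (A : ℝ → W.Ω → ℝ) : Prop where
  meas : Measurable fun p : ℝ × W.Ω => A (cl a b p.1) p.2
  gr : W.Gr (Icc a b) A

theorem Pr.toJm (h : W.Pr a b A) (hab : a ≤ b) : W.Jm a b A := ⟨h.jm ⟨hab, le_rfl⟩, h.gr⟩
theorem Tm.jm (h : W.Tm r H) : W.Jm a b fun _ => H :=
  ⟨h.measurable.comp measurable_snd, h.gr.comp fun _ _ _ => ⟨(), trivial, le_rfl⟩⟩
theorem Jm.mul (h : W.Jm a b A) (h' : W.Jm a b A') : W.Jm a b fun t ω => A t ω * A' t ω :=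
  ⟨h.meas.mul h'.meas, h.gr.mul h'.gr⟩
theorem Jm.sub (h : W.Jm a b A) (h' : W.Jm a b A') : W.Jm a b fun t ω => A t ω - A' t ω :=
  ⟨h.meas.sub h'.meas, h.gr.sub h'.gr⟩
theorem Jm.add (h : W.Jm a b A) (h' : W.Jm a b A') : W.Jm a b fun t ω => A t ω + A' t ω :=
  ⟨h.meas.add h'.meas, h.gr.add h'.gr⟩

theorem Jm.int_prod (h : W.Jm a b A) (hQ : W.Nice Q) (hab : a ≤ b) :
    Integrable (Function.uncurry fun u ω => A (cl a b u) ω) ((volume.restrict (uIoc a b)).prod Q) := by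
  obtain ⟨T, C, c, -, -, -, h4⟩ := h.gr
  have := hQ.fin
  have i1 : IsFiniteMeasure (volume.restrict (uIoc a b)) := ⟨by simp [uIoc]⟩
  refine (((hQ.int c T).const_mul C).comp_snd _).mono' h.meas.aestronglyMeasurable
    (.of_forall fun p => h4 _ (cl_mem hab _) _)

theorem int_cl (f : ℝ → ℝ) (hab : a ≤ b) : ∫ u in a..b, f u = ∫ u in a..b, f (cl a b u) :=
  intervalIntegral.integral_congr_ae (.of_forall fun u hu => by
    rw [cl_eq (show u ∈ Icc a b from uIcc_of_le hab ▸ uIoc_subset_uIcc hu)])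

theorem Jm.fubini (h : W.Jm a b A) (hQ : W.Nice Q) (hab : a ≤ b) :
    ∫ ω, (∫ u in a..b, A u ω) ∂Q = ∫ u in a..b, ∫ ω, A u ω ∂Q := by
  have := hQ.fin
  rw [int_cl (fun u => ∫ ω, A u ω ∂Q) hab, intervalIntegral_integral_swap (h.int_prod hQ hab)]
  exact integral_congr_ae (.of_forall fun ω => int_cl (fun u => A u ω) hab)

theorem Jm.int (h : W.Jm a b A) (hQ : W.Nice Q) (hab : a ≤ b) :
    Integrable (fun ω => ∫ u in a..b, A u ω) Q := by
  have := hQ.fin
  refine (h.int_prod hQ hab).integral_prod_right.congr (.of_forall fun ω => ?_)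
  simp only [Function.uncurry]
  rw [int_cl (fun u => A u ω) hab, intervalIntegral.integral_of_le hab, uIoc_of_le hab]

/-- `X - ∫ A` is a `Q`-martingale on `[a, b]` -/
structure SM (W : BM ι) (Q : Measure W.Ω) (a b : ℝ) (X A : ℝ → W.Ω → ℝ) : Prop where
  ad : W.Ad a b X
  pr : W.Pr a b A
  mart : ∀ r t, a ≤ r → r ≤ t → t ≤ b → ∀ H, W.Tm r H →
    ∫ ω, H ω * (X t ω - X r ω - ∫ u in r..t, A u ω) ∂Q = 0

/-- adapted processes of finite variation -/
structure FV (W : BM ι) (a b : ℝ) (V V' : ℝ → W.Ω → ℝ) : Prop where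
  ad : W.Ad a b V
  pr : W.Pr a b V'
  eq : ∀ t ∈ Icc a b, ∀ ω, V t ω = V a ω + ∫ u in a..t, V' u ω

/-- stopping times -/
structure St (W : BM ι) (a b : ℝ) (τ : W.Ω → ℝ) : Prop where
  ge : ∀ ω, a ≤ τ ω
  meas : ∀ t ∈ Icc a b, MeasurableSet[W.F t] {ω | τ ω ≤ t}

theorem Pr.int_sub (h : W.Pr a b A) (hr : r ∈ Icc a b) (hs : s ∈ Icc a b) (ht : t ∈ Icc a b)
    (ω : W.Ω) : (∫ u in r..t, A u ω) - ∫ u in r..s, A u ω = ∫ u in s..t, A u ω :=
  intervalIntegral.integral_interval_sub_left (h.ii hr ht ω) (h.ii hr hs ω)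

namespace FV

theorem sub_eq (h : W.FV a b V V') (hr : r ∈ Icc a b) (ht : t ∈ Icc a b) (ω : W.Ω) :
    V t ω - V r ω = ∫ u in r..t, V' u ω := by
  rw [h.eq t ht, h.eq r hr, ← h.pr.int_sub ⟨le_rfl, hr.1.trans hr.2⟩ hr ht]; ring

theorem sm (h : W.FV a b V V') : W.SM Q a b V V' :=
  ⟨h.ad, h.pr, fun r t h1 h2 h3 H _ => by
    simp [h.sub_eq ⟨h1, h2.trans h3⟩ ⟨h1.trans h2, h3⟩]⟩

theorem mono {a' b' : ℝ} (h : W.FV a b V V') (ha : a ≤ a') (hb : b' ≤ b) : W.FV a' b' V V' :=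
  ⟨h.ad.mono ha hb, h.pr.mono ha hb, fun t ht ω => by
    rw [← h.sub_eq ⟨ha, (ht.1.trans ht.2).trans hb⟩ ⟨ha.trans ht.1, ht.2.trans hb⟩]; ring⟩

theorem of_tm (h : W.Tm a H) : W.FV a b (fun _ => H) fun _ _ => 0 :=
  ⟨h.ad, .const 0, fun _ _ _ => by simp⟩

theorem const (c : ℝ) : W.FV a b (fun _ _ => c) fun _ _ => 0 := of_tm (.const c)

theorem prim (h : W.Pr a b A) : W.FV a b (fun t ω => ∫ u in a..t, A u ω) A :=
  ⟨h.prim, h, fun _ _ _ => by simp⟩

/-- pathwise differentiable processes -/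
theorem of_deriv (h : W.Ad a b V) (h' : W.Pr a b V')
    (hd : ∀ ω, ∀ t ∈ Ioo a b, HasDerivAt (fun t => V t ω) (V' t ω) t) : W.FV a b V V' :=
  ⟨h, h', fun t ht ω => by
    rw [intervalIntegral.integral_eq_sub_of_hasDerivAt_of_le ht.1
      ((h.cont ω).mono (Icc_subset_Icc_right ht.2)) (fun u hu => hd ω u ⟨hu.1, hu.2.trans_le ht.2⟩)
      (h'.ii ⟨le_rfl, ht.1.trans ht.2⟩ ht ω)]
    ring⟩

theorem time {f f' : ℝ → ℝ} (hf : ContinuousOn f (Icc a b)) (hf' : ContinuousOn f' (Icc a b))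
    (hd : ∀ t ∈ Ioo a b, HasDerivAt f (f' t) t) : W.FV a b (fun t _ => f t) fun t _ => f' t :=
  of_deriv (.time hf) (Ad.time hf').pr fun _ => hd

theorem add (h : W.FV a b V V') (h' : W.FV a b U U') :
    W.FV a b (fun t ω => V t ω + U t ω) fun t ω => V' t ω + U' t ω :=
  ⟨h.ad.add h'.ad, h.pr.add h'.pr, fun t ht ω => by
    have ha : a ∈ Icc a b := ⟨le_rfl, ht.1.trans ht.2⟩
    rw [intervalIntegral.integral_add (h.pr.ii ha ht ω) (h'.pr.ii ha ht ω), h.eq t ht, h'.eq t ht]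
    ring⟩

theorem neg (h : W.FV a b V V') : W.FV a b (fun t ω => -V t ω) fun t ω => -V' t ω :=
  ⟨h.ad.neg, h.pr.neg, fun t ht ω => by rw [intervalIntegral.integral_neg, h.eq t ht]; ring⟩

theorem congr (h : W.FV a b V V') (e : ∀ t ∈ Icc a b, ∀ ω, U t ω = V t ω)
    (e' : ∀ t ∈ Icc a b, ∀ ω, U' t ω = V' t ω) : W.FV a b U U' :=
  ⟨h.ad.congr e, h.pr.congr e', fun t ht ω => by
    rw [e t ht, e a ⟨le_rfl, ht.1.trans ht.2⟩, h.eq t ht]
    congr 1
    exact intervalIntegral.integral_congr fun u hu => (e' u (by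
      rw [uIcc_of_le ht.1] at hu; exact ⟨hu.1, hu.2.trans ht.2⟩) ω).symm⟩

theorem sum {σ : Type*} (S : Finset σ) {V V' : σ → ℝ → W.Ω → ℝ}
    (h : ∀ k ∈ S, W.FV a b (V k) (V' k)) :
    W.FV a b (fun t ω => ∑ k ∈ S, V k t ω) fun t ω => ∑ k ∈ S, V' k t ω := by
  classical
  induction S using Finset.induction_on with
  | empty => simpa using const 0
  | insert k s hk ih =>
    simpa [Finset.sum_insert hk] using (h k (by simp)).add (ih fun j hj => h j (by simp [hj]))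

end FV

/-- pathwise product identity -/
theorem prod_id {X A V V' : ℝ → ℝ} (hrt : r ≤ t) (hX : ContinuousOn X (Icc r t))
    (hA : IntervalIntegrable A volume r t) (hV' : IntervalIntegrable V' volume r t)
    (hV : ∀ u ∈ Icc r t, V u - V r = ∫ w in r..u, V' w) :
    V t * X t - V r * X r - ∫ u in r..t, (V' u * X u + V u * A u) =
      V r * (X t - X r - ∫ u in r..t, A u) +
        ∫ u in r..t, V' u * (X t - X u - ∫ w in u..t, A w) := by
  have hu := uIcc_of_le hrt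
  have c1 : ContinuousOn (fun u => ∫ w in r..u, V' w) (uIcc r t) :=
    intervalIntegral.continuousOn_primitive_interval' hV' left_mem_uIcc
  have c2 : ContinuousOn (fun u => ∫ w in u..t, A w) (uIcc r t) := by
    simp only [intervalIntegral.integral_symm t]
    exact (intervalIntegral.continuousOn_primitive_interval' hA right_mem_uIcc).neg
  have i1 := hV'.mul_continuousOn (hu ▸ hX)
  have i2 := hV'.mul_continuousOn c2
  have i3 := hA.continuousOn_mul c1
  have e1 : ∫ u in r..t, (V' u * X u + V u * A u) =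
      ∫ u in r..t, (V' u * X u + (V r * A u + (∫ w in r..u, V' w) * A u)) :=
    intervalIntegral.integral_congr fun u hu' => by
      simp only [← hV u (hu ▸ hu')]; ring
  have e2 : ∫ u in r..t, V' u * (X t - X u - ∫ w in u..t, A w) =
      ∫ u in r..t, (V' u * X t - V' u * X u - V' u * ∫ w in u..t, A w) :=
    intervalIntegral.integral_congr fun u _ => by ring
  rw [e1, e2, intervalIntegral.integral_add i1 ((hA.const_mul _).add i3),
    intervalIntegral.integral_add (hA.const_mul _) i3,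
    intervalIntegral.integral_sub ((hV'.mul_const _).sub i1) i2,
    intervalIntegral.integral_sub (hV'.mul_const _) i1, tri hV' hA,
    intervalIntegral.integral_const_mul, intervalIntegral.integral_mul_const,
    ← hV t (right_mem_Icc.2 hrt)]
  ring

theorem FV.mul (h : W.FV a b V V') (h' : W.FV a b U U') :
    W.FV a b (fun t ω => V t ω * U t ω) fun t ω => V' t ω * U t ω + V t ω * U' t ω := by
  refine ⟨h.ad.mul h'.ad, (h.pr.mul h'.ad.pr).add (h.ad.pr.mul h'.pr), fun t ht ω => ?_⟩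
  have ha : a ∈ Icc a b := ⟨le_rfl, ht.1.trans ht.2⟩
  have := prod_id (X := fun u => U u ω) (A := fun u => U' u ω) (V := fun u => V u ω) ht.1
    ((h'.ad.cont ω).mono (Icc_subset_Icc_right ht.2)) (h'.pr.ii ha ht ω) (h.pr.ii ha ht ω)
    fun u hu => h.sub_eq ha ⟨hu.1, hu.2.trans ht.2⟩ ω
  have e : ∫ u in a..t, V' u ω * (U t ω - U u ω - ∫ w in u..t, U' w ω) = ∫ u in a..t, 0 :=
    intervalIntegral.integral_congr fun u hu => by
      rw [uIcc_of_le ht.1] at hu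
      simp [h'.sub_eq ⟨hu.1, hu.2.trans ht.2⟩ ht]
  rw [e, h'.sub_eq ha ht] at this
  simp only [sub_self, mul_zero, intervalIntegral.integral_zero, add_zero] at this
  linarith

namespace SM

theorem tm_incr (h : W.SM Q a b X A) (h1 : a ≤ r) (h2 : r ≤ t) (h3 : t ≤ b) :
    W.Tm t fun ω => X t ω - X r ω - ∫ u in r..t, A u ω :=
  ((h.ad.tm ⟨h1.trans h2, h3⟩).sub ((h.ad.tm ⟨h1, h2.trans h3⟩).mono h2)).sub (h.pr.tm_int h1 h2 h3)

theorem mono {a' b' : ℝ} (h : W.SM Q a b X A) (ha : a ≤ a') (hb : b' ≤ b) : W.SM Q a' b' X A :=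
  ⟨h.ad.mono ha hb, h.pr.mono ha hb, fun r t h1 h2 h3 => h.mart r t (ha.trans h1) h2 (h3.trans hb)⟩

theorem congr (h : W.SM Q a b X A) (e : ∀ t ∈ Icc a b, ∀ ω, Y t ω = X t ω)
    (e' : ∀ t ∈ Icc a b, ∀ ω, A' t ω = A t ω) : W.SM Q a b Y A' :=
  ⟨h.ad.congr e, h.pr.congr e', fun r t h1 h2 h3 H hH => by
    rw [← h.mart r t h1 h2 h3 H hH]
    congr 1; funext ω
    rw [e t ⟨h1.trans h2, h3⟩, e r ⟨h1, h2.trans h3⟩]
    congr 2
    exact intervalIntegral.integral_congr fun u hu => e' u (by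
      rw [uIcc_of_le h2] at hu; exact ⟨h1.trans hu.1, hu.2.trans h3⟩) ω⟩

theorem add (hQ : W.Nice Q) (h : W.SM Q a b X A) (h' : W.SM Q a b Y A') :
    W.SM Q a b (fun t ω => X t ω + Y t ω) fun t ω => A t ω + A' t ω := by
  refine ⟨h.ad.add h'.ad, h.pr.add h'.pr, fun r t h1 h2 h3 H hH => ?_⟩
  have hr : r ∈ Icc a b := ⟨h1, h2.trans h3⟩
  have ht : t ∈ Icc a b := ⟨h1.trans h2, h3⟩
  have := integral_add (((hH.mono h2).mul (h.tm_incr h1 h2 h3)).int hQ)
    (((hH.mono h2).mul (h'.tm_incr h1 h2 h3)).int hQ)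
  rw [h.mart r t h1 h2 h3 H hH, h'.mart r t h1 h2 h3 H hH, add_zero] at this
  rw [← this]
  congr 1; funext ω
  rw [intervalIntegral.integral_add (h.pr.ii hr ht ω) (h'.pr.ii hr ht ω)]
  ring

theorem tm_mul (h : W.SM Q a b X A) (hH : W.Tm a H) :
    W.SM Q a b (fun t ω => H ω * X t ω) fun t ω => H ω * A t ω := by
  refine ⟨hH.ad.mul h.ad, hH.pr.mul h.pr, fun r t h1 h2 h3 H' hH' => ?_⟩
  rw [← h.mart r t h1 h2 h3 _ (hH'.mul (hH.mono h1))]
  congr 1; funext ω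
  rw [intervalIntegral.integral_const_mul]
  ring

theorem const_mul (c : ℝ) (h : W.SM Q a b X A) :
    W.SM Q a b (fun t ω => c * X t ω) fun t ω => c * A t ω := h.tm_mul (.const c)

theorem neg (h : W.SM Q a b X A) : W.SM Q a b (fun t ω => -X t ω) fun t ω => -A t ω := by
  simpa using h.const_mul (-1)

theorem sub (hQ : W.Nice Q) (h : W.SM Q a b X A) (h' : W.SM Q a b Y A') :
    W.SM Q a b (fun t ω => X t ω - Y t ω) fun t ω => A t ω - A' t ω := by
  simpa only [sub_eq_add_neg] using h.add hQ h'.neg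

theorem sum (hQ : W.Nice Q) {σ : Type*} (S : Finset σ) {X A : σ → ℝ → W.Ω → ℝ}
    (h : ∀ k ∈ S, W.SM Q a b (X k) (A k)) :
    W.SM Q a b (fun t ω => ∑ k ∈ S, X k t ω) fun t ω => ∑ k ∈ S, A k t ω := by
  classical
  induction S using Finset.induction_on with
  | empty => simpa using (FV.const 0).sm
  | insert k s hk ih =>
    simpa [Finset.sum_insert hk] using (h k (by simp)).add hQ (ih fun j hj => h j (by simp [hj]))

/-- the expectation formula -/
theorem expect_tm (hQ : W.Nice Q) (h : W.SM Q a b X A) (h1 : a ≤ r) (h2 : r ≤ t) (h3 : t ≤ b)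
    (hH : W.Tm r H) : ∫ ω, H ω * X t ω ∂Q - ∫ ω, H ω * X r ω ∂Q =
      ∫ u in r..t, ∫ ω, H ω * A u ω ∂Q := by
  have hr : r ∈ Icc a b := ⟨h1, h2.trans h3⟩
  have ht : t ∈ Icc a b := ⟨h1.trans h2, h3⟩
  have i1 := ((hH.mono h2).mul (h.ad.tm ht)).int hQ
  have i2 := (hH.mul (h.ad.tm hr)).int hQ
  have i3 := ((hH.mono h2).mul (h.pr.tm_int h1 h2 h3)).int hQ
  have i4 : Integrable (fun ω => H ω * X t ω - H ω * X r ω) Q := i1.sub i2
  have := h.mart r t h1 h2 h3 H hH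
  simp only [mul_sub] at this
  rw [integral_sub i4 i3, integral_sub i1 i2, sub_eq_zero] at this
  rw [this, ← (hH.pr.mul (h.pr.mono h1 h3)).fubini hQ (left_mem_Icc.2 h2) (right_mem_Icc.2 h2)]
  simp only [intervalIntegral.integral_const_mul]

theorem expect (hQ : W.Nice Q) (h : W.SM Q a b X A) (h1 : a ≤ r) (h2 : r ≤ t) (h3 : t ≤ b) :
    ∫ ω, X t ω ∂Q - ∫ ω, X r ω ∂Q = ∫ u in r..t, ∫ ω, A u ω ∂Q := by
  simpa using h.expect_tm hQ h1 h2 h3 (.const 1)

theorem of_expect (hQ : W.Nice Q) (hX : W.Ad a b X) (hA : W.Pr a b A)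
    (h : ∀ r t, a ≤ r → r ≤ t → t ≤ b → ∀ H, W.Tm r H →
      ∫ ω, H ω * X t ω ∂Q - ∫ ω, H ω * X r ω ∂Q = ∫ u in r..t, ∫ ω, H ω * A u ω ∂Q) :
    W.SM Q a b X A := by
  refine ⟨hX, hA, fun r t h1 h2 h3 H hH => ?_⟩
  have hr : r ∈ Icc a b := ⟨h1, h2.trans h3⟩
  have ht : t ∈ Icc a b := ⟨h1.trans h2, h3⟩
  have i1 := ((hH.mono h2).mul (hX.tm ht)).int hQ
  have i2 := (hH.mul (hX.tm hr)).int hQ
  have i3 := ((hH.mono h2).mul (hA.tm_int h1 h2 h3)).int hQ
  have i4 : Integrable (fun ω => H ω * X t ω - H ω * X r ω) Q := i1.sub i2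
  simp only [mul_sub]
  rw [integral_sub i4 i3, integral_sub i1 i2, sub_eq_zero, h r t h1 h2 h3 H hH,
    ← (hH.pr.mul (hA.mono h1 h3)).fubini hQ (left_mem_Icc.2 h2) (right_mem_Icc.2 h2)]
  simp only [intervalIntegral.integral_const_mul]

/-- **product with a process of finite variation** -/
theorem mul_fv (hQ : W.Nice Q) (h : W.SM Q a b X A) (hV : W.FV a b V V') :
    W.SM Q a b (fun t ω => V t ω * X t ω) fun t ω => V' t ω * X t ω + V t ω * A t ω := by
  refine ⟨hV.ad.mul h.ad, (hV.pr.mul h.ad.pr).add (hV.ad.pr.mul h.pr), fun r t h1 h2 h3 H hH => ?_⟩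
  have hr : r ∈ Icc a b := ⟨h1, h2.trans h3⟩
  have ht : t ∈ Icc a b := ⟨h1.trans h2, h3⟩
  have hs : Icc r t ⊆ Icc a b := Icc_subset_Icc h1 h3
  have e : ∀ ω, H ω * (V t ω * X t ω - V r ω * X r ω -
      ∫ u in r..t, (V' u ω * X u ω + V u ω * A u ω)) =
      H ω * V r ω * (X t ω - X r ω - ∫ u in r..t, A u ω) +
        ∫ u in r..t, H ω * V' u ω * (X t ω - X u ω -
          ((∫ w in a..t, A w ω) - ∫ w in a..u, A w ω)) := fun ω => by
    rw [prod_id (X := fun u => X u ω) (A := fun u => A u ω) (V := fun u => V u ω) h2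
      ((h.ad.cont ω).mono hs) (h.pr.ii hr ht ω) (hV.pr.ii hr ht ω)
      fun u hu => hV.sub_eq hr (hs hu) ω, mul_add, mul_assoc, ← intervalIntegral.integral_const_mul]
    congr 1
    refine intervalIntegral.integral_congr fun u hu => ?_
    rw [uIcc_of_le h2] at hu
    simp only [h.pr.int_sub ⟨le_rfl, h1.trans hr.2⟩ (hs hu) ht, mul_assoc]
  have j : W.Jm r t fun u ω => H ω * V' u ω * (X t ω - X u ω -
      ((∫ w in a..t, A w ω) - ∫ w in a..u, A w ω)) :=
    (hH.jm.mul ((hV.pr.mono h1 h3).toJm h2)).mul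
      (((h.ad.tm ht).jm.sub ((h.ad.pr.mono h1 h3).toJm h2)).sub
        ((h.pr.prim.tm ht).jm.sub ((h.pr.prim.pr.mono h1 h3).toJm h2)))
  simp only [e]
  rw [integral_add ((((hH.mul (hV.ad.tm hr)).mono h2).mul (h.tm_incr h1 h2 h3)).int hQ) (j.int hQ h2),
    h.mart r t h1 h2 h3 _ (hH.mul (hV.ad.tm hr)), zero_add, j.fubini hQ h2]
  refine (intervalIntegral.integral_congr (g := fun _ => 0) fun u hu => ?_).trans (by simp)
  rw [uIcc_of_le h2] at hu
  simp only [h.pr.int_sub ⟨le_rfl, h1.trans hr.2⟩ (hs hu) ht]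
  exact h.mart u t (hs hu).1 hu.2 h3 _ ((hH.mono hu.1).mul (hV.pr.tm (hs hu)))

end SM

/-! ### stopping -/

namespace St




theorem const (hs : a ≤ s) : W.St a b fun _ => s :=
  ⟨fun _ => hs, fun t _ => @MeasurableSet.const _ (W.F t) _⟩

theorem min {τ' : W.Ω → ℝ} (h : W.St a b τ) (h' : W.St a b τ') :
    W.St a b fun ω => min (τ ω) (τ' ω) :=
  ⟨fun ω => le_min (h.ge ω) (h'.ge ω), fun t ht => by
    simpa only [min_le_iff, ofPred_or] using (h.meas t ht).union (h'.meas t ht)⟩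




end St



end BM

end Crest.Agent.T157.Pa

end
end

-- ▼ part T157/PaD_39
section

/-!
# Row 157, path layer, part D (helper39): Itô functions are semimartingales

`sm_P`: under the Wiener measure; `Dn` (a space-time harmonic density `L` with `dL = L d · dB`),
`QL`, `Dn.sm`; the localisation measure `W.Qsl φ v T` (`y = B`), `sm_sl`, marginals `int_sl`,
change of the driving law, decomposition over the planted point.
-/

set_option autoImplicit false
set_option linter.unusedSectionVars false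

noncomputable section

namespace Crest.Agent.T157.Pa

open MeasureTheory ProbabilityTheory Filter Topology Set Real
open Crest.Agent.T157.SL Crest.Agent.T157.E
open scoped NNReal ENNReal

variable {ι : Type} [Fintype ι] [DecidableEq ι] {I : Set ℝ} {G A L : Pt ι → ℝ}
  {β d : ι → Pt ι → ℝ} {a b r s t T : ℝ}

theorem eg_shift (h : EG I G) (q : Pt ι) : EG {u | q.1 + u ∈ I} fun p => G (q + p) :=
  h.comp (φ := fun p => q + p) (by fun_prop) (fun _ hp => hp) ‖q.2‖ 1 fun p _ => by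
    simpa using norm_add_le q.2 p.2

theorem ito_shift (h : Ito d I G A β) (q : Pt ι) :
    Ito (fun i p => d i (q + p)) {u | q.1 + u ∈ I} (fun p => G (q + p)) (fun p => A (q + p))
      fun i p => β i (q + p) := by
  obtain ⟨g, k, h1, h2, h3, h4, h5, h6, h7⟩ := h
  refine ⟨fun p => g (q + p), fun i p => k i (q + p), eg_shift h1 q, eg_shift h2 q,
    fun i => eg_shift (h3 i) q, fun i => eg_shift (h4 i) q,
    fun c c' s hc hs => h5 (fun s => q + c s) c' s (hc.const_add q) hs, fun i p hp => ?_,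
    fun p hp => h7 (q + p) hp⟩
  have e : ∀ s, q + (p.1, Function.update p.2 i s) =
      ((q + p).1, Function.update (q + p).2 i (q.2 i + s)) := fun s => by
    ext j
    · rfl
    · rcases eq_or_ne j i with rfl | hj <;> simp [*]
  simp only [e]
  exact ((h6 i (q + p) hp).comp (p.2 i) ((hasDerivAt_id' (p.2 i)).const_add (q.2 i))).congr_deriv
    (mul_one _)

/-- the heat formula started from `(r, y)` -/
theorem heat (h : Ito (fun _ _ => 0) (Icc r t) G A β) (hrt : r ≤ t) (y : ι → ℝ) :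
    ∫ z, G (t, y + √(t - r) • z) ∂Gs ι - G (r, y) =
      ∫ u in r..t, ∫ z, A (u, y + √(u - r) • z) ∂Gs ι := by
  have h1 := (ito_shift h (r, y)).mono (J := Icc 0 (t - r)) fun u hu =>
    ⟨by simpa using hu.1, by linarith [hu.2]⟩
  have hT : ∀ u ∈ Icc 0 (t - r), |u| ≤ t - r := fun u hu => (abs_of_nonneg hu.1).trans_le hu.2
  have c1 := (h1.eg.path 0 _ hT).continuousOn_int
  have c2 := ((h1.eg_a fun _ => .const 0).path 0 _ hT).continuousOn_int
  have := intervalIntegral.integral_eq_sub_of_hasDerivAt_of_le (sub_nonneg.2 hrt) c1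
    (fun u hu => (h1.hasDerivAt_int 0 hu.1 (Icc_mem_nhds hu.1 hu.2)).congr_deriv (by simp))
    (c2.intervalIntegrable_of_Icc (sub_nonneg.2 hrt))
  simp only [smul_zero, zero_add, Prod.mk_add_mk, add_sub_cancel, sqrt_zero, zero_smul, add_zero,
    integral_const, probReal_univ, one_smul] at this
  rw [← this]
  have e := intervalIntegral.integral_comp_add_left (a := 0) (b := t - r)
    (fun u => ∫ z, A (u, y + √(u - r) • z) ∂Gs ι) r
  simp only [add_zero, add_sub_cancel, add_sub_cancel_left] at e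
  exact e

theorem eg_heat (h : EG (Icc r t) A) :
    EG (Icc r t) fun p => ∫ z, A (p.1, p.2 + √(p.1 - r) • z) ∂Gs ι := by
  obtain ⟨C, c, c1, c2, c3⟩ := h.bd
  have hb : ∀ p : Pt ι, p.1 ∈ Icc r t → ∀ z, |A (p.1, p.2 + √(p.1 - r) • z)| ≤
      C * exp (c * ‖p.2‖) * exp (c * √(t - r) * ‖z‖) := fun p hp z => by
    refine (c3 (p.1, p.2 + √(p.1 - r) • z) hp).trans ?_
    rw [mul_assoc, ← exp_add, mul_assoc c, ← mul_add]
    gcongr
    refine (norm_add_le _ _).trans ?_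
    rw [norm_smul, norm_of_nonneg (sqrt_nonneg _)]
    gcongr
    exact hp.2
  have hm : ∀ p : Pt ι, p.1 ∈ Icc r t →
      AEStronglyMeasurable (fun z => A (p.1, p.2 + √(p.1 - r) • z)) (Gs ι) := fun p hp =>
    ((h.cont_at hp).comp (by fun_prop)).aestronglyMeasurable
  refine ⟨fun q hq => ?_, C * ∫ z, exp (c * √(t - r) * ‖z‖) ∂Gs ι, c, by positivity, c2,
    fun p hp => ?_⟩
  · refine continuousWithinAt_of_dominated
      (bound := fun z => C * exp (c * (‖q.2‖ + 1)) * exp (c * √(t - r) * ‖z‖))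
      (eventually_mem_nhdsWithin.mono fun p hp => hm p hp.1) ?_ ((int_exp _).const_mul _)
      (.of_forall fun z => (h.cont.comp (by fun_prop) fun p hp => ⟨hp.1, trivial⟩) q hq)
    have : ∀ᶠ p : Pt ι in 𝓝 q, ‖p.2‖ < ‖q.2‖ + 1 :=
      (continuous_snd.norm.tendsto q).eventually (gt_mem_nhds (lt_add_one _))
    filter_upwards [eventually_mem_nhdsWithin, mem_nhdsWithin_of_mem_nhds this] with p hp hp'
    refine .of_forall fun z => (hb p hp.1 z).trans ?_
    gcongr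
  · rw [mul_right_comm, ← integral_const_mul]
    exact norm_integral_le_of_norm_le (f := fun z => A (p.1, p.2 + √(p.1 - r) • z))
      ((int_exp _).const_mul _) (.of_forall (hb p hp))

namespace BM

variable {W : BM ι} {H : W.Ω → ℝ}

theorem gr_eg (h : EG I G) {κ : Type*} {J : Set κ} {p q : κ → ℝ} (hT : 0 ≤ T)
    (hp : ∀ k ∈ J, p k ∈ I) (hq : ∀ k ∈ J, q k ∈ Icc 0 T) :
    W.Gr J fun k ω => G (p k, W.B (q k) ω) := by
  obtain ⟨C, c, c1, c2, c3⟩ := h.bd
  refine ⟨T, C, c, hT, c1, c2, fun k hk ω => (c3 _ (hp k hk)).trans ?_⟩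
  gcongr
  exact W.norm_le_S (hq k hk) ω

/-- Markov functions are continuous adapted processes -/
theorem ad_eg (W : BM ι) (ha : 0 ≤ a) (h : EG (Icc a b) G) :
    W.Ad a b fun t ω => G (t, W.B t ω) :=
  ⟨fun ω => h.cont.comp (continuousOn_id.prodMk (W.cont ω).continuousOn) fun _ ht => ⟨ht, trivial⟩,
    fun t ht => (h.cont_at ht).measurable.comp (W.meas t),
    gr_eg h (le_max_right b 0) (fun _ ht => ht) fun _ ht =>
      ⟨ha.trans ht.1, ht.2.trans (le_max_left _ _)⟩⟩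

theorem ad_eg_frozen (W : BM ι) (ha : 0 ≤ s) (hs : s ≤ a) (h : EG (Icc a b) G) :
    W.Ad a b fun t ω => G (t, W.B s ω) :=
  ⟨fun _ => h.cont.comp (by fun_prop) fun _ ht => ⟨ht, trivial⟩,
    fun _ ht => (h.cont_at ht).measurable.comp (W.meas_le (W.meas s) (hs.trans ht.1)),
    gr_eg h ha (fun _ ht => ht) fun _ _ => ⟨ha, le_rfl⟩⟩

theorem tm_mg (W : BM ι) (ht : 0 ≤ t) {F : (ι → ℝ) → ℝ} (h : MG F) :
    W.Tm t fun ω => F (W.B t ω) := by
  obtain ⟨C, c, c1, c2, c3⟩ := h.bd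
  refine ⟨h.meas.comp (W.meas t), t, C, c, ht, c1, c2, fun _ _ ω => (c3 _).trans ?_⟩
  gcongr
  exact W.norm_le_S ⟨ht, le_rfl⟩ ω


/-- Markov property -/
theorem markov_mg (hr : 0 ≤ r) (hrt : r ≤ t) (hH : W.Tm r H) {F : (ι → ℝ) → ℝ} (h : MG F) :
    ∫ ω, H ω * F (W.B t ω) ∂W.P = ∫ ω, H ω * ∫ z, F (W.B r ω + √(t - r) • z) ∂Gs ι ∂W.P := by
  have := W.freeze hr hrt (X := fun ω => (H ω, W.B r ω)) (hH.meas.prodMk (W.meas r))
    (Ψ := fun p => p.1.1 * F (p.1.2 + p.2))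
    (measurable_fst.fst.mul (h.meas.comp (measurable_fst.snd.add measurable_snd)))
    (by simpa using ((hH.mono hrt).mul (W.tm_mg (hr.trans hrt) h)).int W.nice_P)
  simpa only [add_sub_cancel, integral_const_mul] using this

/-- **Itô functions under the Wiener measure** -/
theorem sm_P (W : BM ι) (ha : 0 ≤ a) (h : Ito (fun _ _ => 0) (Icc a b) G A β) :
    W.SM W.P a b (fun t ω => G (t, W.B t ω)) fun t ω => A (t, W.B t ω) := by
  have hA : EG (Icc a b) A := h.eg_a fun _ => .const 0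
  refine .of_expect W.nice_P (W.ad_eg ha h.eg) (W.ad_eg ha hA).pr fun r t h1 h2 h3 H hH => ?_
  have hr0 := ha.trans h1
  have hs : Icc r t ⊆ Icc a b := Icc_subset_Icc h1 h3
  have k1 := W.ad_eg_frozen hr0 le_rfl (eg_heat (h.eg.mono hs))
  have k2 := W.ad_eg_frozen hr0 le_rfl (eg_heat (hA.mono hs))
  have e : ∫ u in r..t, ∫ ω, H ω * A (u, W.B u ω) ∂W.P =
      ∫ u in r..t, ∫ ω, H ω * ∫ z, A (u, W.B r ω + √(u - r) • z) ∂Gs ι ∂W.P :=
    intervalIntegral.integral_congr fun u hu => by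
      rw [uIcc_of_le h2] at hu
      exact markov_mg hr0 hu.1 hH (hA.mg (hs hu))
  rw [e, ← (hH.pr.mul k2.pr).fubini W.nice_P (left_mem_Icc.2 h2) (right_mem_Icc.2 h2),
    markov_mg hr0 h2 hH (h.eg.mg (hs (right_mem_Icc.2 h2))),
    ← integral_sub (((hH.mono h2).mul (k1.tm (right_mem_Icc.2 h2))).int W.nice_P)
      ((hH.mul ((W.ad_eg ha h.eg).tm (hs (left_mem_Icc.2 h2)))).int W.nice_P)]
  refine integral_congr_ae (.of_forall fun ω => ?_)
  simp only [intervalIntegral.integral_const_mul, ← mul_sub]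
  rw [heat (h.mono hs) h2]

end BM

/-- space-time harmonic densities: `dL = L d · dB`, `L ≥ 0`, `L (0, 0) = 1` -/
structure Dn (T : ℝ) (L : Pt ι → ℝ) (d : ι → Pt ι → ℝ) : Prop where
  pos : 0 ≤ T
  nn : ∀ p, 0 ≤ L p
  one : L (0, 0) = 1
  eg : ∀ i, EG (Icc 0 T) (d i)
  ito : Ito (fun _ _ => 0) (Icc 0 T) L (fun _ => 0) fun i p => L p * d i p

namespace BM

variable (W : BM ι) {H : W.Ω → ℝ}

/-- the measure with density `L (T, B T)` -/
def QL (T : ℝ) (L : Pt ι → ℝ) : Measure W.Ω :=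
  W.P.withDensity fun ω => ENNReal.ofReal (L (T, W.B T ω))

variable {W}

theorem tm_L (h : Dn T L d) (ht : t ∈ Icc 0 T) : W.Tm t fun ω => L (t, W.B t ω) :=
  (W.ad_eg le_rfl h.ito.eg).tm ht

theorem int_QL' (h : Dn T L d) (H : W.Ω → ℝ) :
    ∫ ω, H ω ∂W.QL T L = ∫ ω, L (T, W.B T ω) * H ω ∂W.P := by
  rw [QL, integral_withDensity_eq_integral_toReal_smul
    (tm_L h (right_mem_Icc.2 h.pos)).measurable.ennreal_ofReal (.of_forall fun _ => by simp)]
  simp only [ENNReal.toReal_ofReal (h.nn _), smul_eq_mul]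

theorem integrable_QL (h : Dn T L d) (H : W.Ω → ℝ) :
    Integrable H (W.QL T L) ↔ Integrable (fun ω => L (T, W.B T ω) * H ω) W.P := by
  rw [QL, integrable_withDensity_iff_integrable_smul'
    (tm_L h (right_mem_Icc.2 h.pos)).measurable.ennreal_ofReal (.of_forall fun _ => by simp)]
  simp only [ENNReal.toReal_ofReal (h.nn _), smul_eq_mul]

theorem nice_QL (h : Dn T L d) : W.Nice (W.QL T L) := by
  have hL := tm_L (W := W) h (right_mem_Icc.2 h.pos)
  refine ⟨isFiniteMeasure_withDensity_ofReal (hL.int W.nice_P).2, fun c T' => ?_⟩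
  rw [integrable_QL h]
  have g : W.Gr (univ : Set Unit) fun _ ω => exp (c * W.S T' ω) :=
    Gr.exp_of_le (C := 0) (c := |c|) (le_max_right T' 0) fun _ _ ω => by
      have e : W.S (max T' 0) ω = W.S T' ω := by simp only [S, max_assoc, max_self]
      have := W.S_nonneg T' ω
      rw [e, zero_add]
      gcongr
      exact le_abs_self c
  exact W.nice_P.integrable (hL.gr.mul g) (mem_univ ())
    (hL.measurable.mul ((W.measurable_S T').const_mul c).exp)

/-- expectation of an `F t`-measurable variable -/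
theorem int_QL (h : Dn T L d) (ht : t ∈ Icc 0 T) (hH : W.Tm t H) :
    ∫ ω, H ω ∂W.QL T L = ∫ ω, H ω * L (t, W.B t ω) ∂W.P := by
  have := (W.sm_P le_rfl h.ito).expect_tm W.nice_P ht.1 ht.2 le_rfl hH
  simp only [mul_zero, integral_zero, intervalIntegral.integral_zero, sub_eq_zero] at this
  rw [int_QL' h, ← this]
  simp only [mul_comm]


/-- **Itô functions under a tilted measure** -/
theorem sm_QL (h : Dn T L d) (ha : 0 ≤ a) (hb : b ≤ T) (hG : Ito d (Icc a b) G A β) :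
    W.SM (W.QL T L) a b (fun t ω => G (t, W.B t ω)) fun t ω => A (t, W.B t ω) := by
  have hs : Icc a b ⊆ Icc 0 T := Icc_subset_Icc ha hb
  have hA : EG (Icc a b) A := hG.eg_a fun i => (h.eg i).mono hs
  have k1 := W.ad_eg ha hG.eg
  have k2 := W.ad_eg ha hA
  have hP : Ito (fun _ _ => 0) (Icc a b) (fun p => L p * G p) (fun p => L p * A p) _ :=
    ((h.ito.mono hs).mul (hG.drift fun _ _ => 0)).congr (fun p _ => by
      simp only [zero_mul, zero_add, zero_sub, mul_add, Finset.mul_sum, add_assoc,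
        ← Finset.sum_add_distrib, left_eq_add]
      exact Finset.sum_eq_zero fun i _ => by ring) fun _ _ _ => rfl
  refine .of_expect (nice_QL h) k1 k2.pr fun r t h1 h2 h3 H hH => ?_
  have hr : r ∈ Icc a b := ⟨h1, h2.trans h3⟩
  have ht : t ∈ Icc a b := ⟨h1.trans h2, h3⟩
  rw [int_QL h (hs ht) ((hH.mono h2).mul (k1.tm ht)), int_QL h (hs hr) (hH.mul (k1.tm hr))]
  have := (W.sm_P ha hP).expect_tm W.nice_P h1 h2 h3 hH
  simp only [mul_right_comm _ (G _), mul_assoc]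
  rw [this]
  refine intervalIntegral.integral_congr fun u hu => ?_
  rw [uIcc_of_le h2] at hu
  have hu' : u ∈ Icc a b := ⟨h1.trans hu.1, hu.2.trans h3⟩
  rw [int_QL h (hs hu') ((hH.mono hu.1).mul (k2.tm hu'))]
  simp only [mul_right_comm _ (A _), mul_assoc]

end BM

/-! ### the localisation measure -/

section sl
variable {Ω : Type*} [Fintype Ω] {φ : Ω → ι → ℝ} {v w f : Ω → ℝ}

/-- density of the localisation driven by `v` -/
def Lsl (φ : Ω → ι → ℝ) (v : Ω → ℝ) (p : Pt ι) : ℝ := (∑ x, pw φ v p x) / ∑ x, v x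

theorem ito_pw (hI : Bornology.IsBounded I) (v : Ω → ℝ) (x : Ω) :
    Ito (fun _ _ => 0) I (fun p => pw φ v p x) (fun _ => 0) fun i p => pw φ v p x * φ x i := by
  have h1 : Ito (fun _ _ => 0) I (fun p : Pt ι => p.2 ⬝ᵥ φ x - p.1 / 2 * (φ x ⬝ᵥ φ x))
      (fun _ => -(φ x ⬝ᵥ φ x) / 2) fun i _ => φ x i := by
    have t1 : Ito (fun _ _ => 0) I (fun p : Pt ι => p.1 / 2 * (φ x ⬝ᵥ φ x))
        (fun _ => 1 / 2 * (φ x ⬝ᵥ φ x)) fun _ _ => 0 := by
      obtain ⟨T, hT⟩ := hI.exists_norm_le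
      refine Ito.time (f := fun t => t / 2 * (φ x ⬝ᵥ φ x)) (f' := fun _ => 1 / 2 * (φ x ⬝ᵥ φ x))
        (fun t _ => ((hasDerivAt_id' t).div_const 2).mul_const _) ?_ (.const _)
      exact ((EG.time (f := fun t => t) continuousOn_id T hT).div_const 2).mul (.const _)
    refine ((Ito.sum Finset.univ fun j _ => (Ito.coord j).mul (Ito.const (φ x j))).sub t1).congr
      (fun p _ => by simp; ring) fun i p _ => by simp
  have e := eg_pw (φ := φ) hI (fun _ => 1) x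
  simp only [pw, post, one_mul] at e
  exact ((h1.exp e).const_mul (v x)).congr (fun p _ => by
    simp only [dotProduct, sq]; ring) fun i p _ => by simp only [pw, post]; ring

theorem dn_sl (hv : Wt v) (hT : 0 ≤ T) : Dn T (Lsl φ v) (md φ v) := by
  refine ⟨hT, fun p => div_nonneg (hv.post _ _ _).pos.le hv.pos.le, ?_, fun i => eg_md hv i, ?_⟩
  · simp only [Lsl, pw, post_zero]; exact div_self hv.pos.ne'
  · have h1 := (Ito.sum Finset.univ fun x _ => ito_pw (φ := φ)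
      (Metric.isBounded_Icc 0 T) v x).const_mul (∑ x, v x)⁻¹
    have e : Lsl φ v = fun p => (∑ x, v x)⁻¹ * ∑ x, pw φ v p x := by
      funext p; rw [Lsl, div_eq_inv_mul]
    rw [e]
    refine h1.congr (fun _ _ => by simp) fun i p _ => ?_
    rw [md, meanV, mean_eq_div, mul_assoc, mul_div_cancel₀ _ (hv.post _ _ _).pos.ne']

namespace BM
variable (W : BM ι) {H : W.Ω → ℝ}

/-- the law of the localisation driven by `v` up to time `T`; the process is `y = W.B` -/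
def Qsl (φ : Ω → ι → ℝ) (v : Ω → ℝ) (T : ℝ) : Measure W.Ω := W.QL T (Lsl φ v)

variable {W}

theorem nice_sl (hv : Wt v) (hT : 0 ≤ T) : W.Nice (W.Qsl φ v T) := nice_QL (dn_sl hv hT)


/-- **Itô functions along the localisation** -/
theorem sm_sl (hv : Wt v) (ha : 0 ≤ a) (hab : a ≤ b) (hb : b ≤ T) (hG : Ito (md φ v) (Icc a b) G A β) :
    W.SM (W.Qsl φ v T) a b (fun t ω => G (t, W.B t ω)) fun t ω => A (t, W.B t ω) :=
  sm_QL (dn_sl hv (ha.trans (hab.trans hb))) ha hb hG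

theorem int_sl_tm (hv : Wt v) (ht : t ∈ Icc 0 T) (hH : W.Tm t H) :
    ∫ ω, H ω ∂W.Qsl φ v T = ∫ ω, H ω * Lsl φ v (t, W.B t ω) ∂W.P :=
  int_QL (dn_sl hv (ht.1.trans ht.2)) ht hH

/-- one-time marginals -/
theorem int_sl (hv : Wt v) (ht : t ∈ Icc 0 T) {F : (ι → ℝ) → ℝ} (hF : MG F) :
    ∫ ω, F (W.B t ω) ∂W.Qsl φ v T = slE φ v t fun _ => F := by
  have hL : MG fun y => Lsl φ v (t, y) := (dn_sl hv (ht.1.trans ht.2)).ito.eg.mg ht
  rw [int_sl_tm hv ht (W.tm_mg ht.1 hF), W.integral_B ht.1 (hF.mul hL).meas,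
    slE_eq_ref' ht.1 (.of_mg fun _ => hF), ← integral_div]
  congr 1; funext z
  rw [Lsl, ← Finset.sum_mul]; ring

theorem int_sl_ex (hv : Wt v) (ht : t ∈ Icc 0 T) (hG : MG fun y => G (t, y)) :
    ∫ ω, G (t, W.B t ω) ∂W.Qsl φ v T = ex φ v G t := int_sl hv ht hG








end BM
end sl

end Crest.Agent.T157.Pa

end
end

-- ▼ part T157/PaE_39
section

/-!
# Row 157, path layer, part E (helper39): hitting times, maximal inequalities, Gronwall, chain rule
-/

set_option autoImplicit false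
set_option linter.unusedSectionVars false

noncomputable section

namespace Crest.Agent.T157.Pa

open MeasureTheory ProbabilityTheory Filter Topology Set Real
open Crest.Agent.T157.SL
open scoped NNReal ENNReal

/-- first time in `[a, b]` at which `Y ≥ l` (equal to `b` if there is none) -/
def hit {Ω : Type*} (a b l : ℝ) (Y : ℝ → Ω → ℝ) (ω : Ω) : ℝ :=
  sInf ({t | t ∈ Icc a b ∧ l ≤ Y t ω} ∪ {b})

section hit
variable {Ω : Type*} {a b l t : ℝ} {Y : ℝ → Ω → ℝ} {ω : Ω}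











end hit

namespace BM

variable {ι : Type} [Fintype ι] {W : BM ι}
variable {Q : Measure W.Ω} {a b l r s t : ℝ} {H : W.Ω → ℝ} {X Y A K V V' : ℝ → W.Ω → ℝ}
  {τ : W.Ω → ℝ}





namespace SM

theorem expect_le (hQ : W.Nice Q) (h : W.SM Q a b X A) (h1 : a ≤ r) (h2 : r ≤ t) (h3 : t ≤ b)
    {k : ℝ → ℝ} (hk : IntervalIntegrable k volume r t)
    (hle : ∀ u ∈ Ioo r t, ∫ ω, A u ω ∂Q ≤ k u) :
    ∫ ω, X t ω ∂Q ≤ ∫ ω, X r ω ∂Q + ∫ u in r..t, k u := by
  rw [← sub_le_iff_le_add', h.expect hQ h1 h2 h3]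
  exact intervalIntegral.integral_mono_on_of_le_Ioo h2
    (h.pr.ii_int hQ ⟨h1, h2.trans h3⟩ ⟨h1.trans h2, h3⟩) hk hle

/-- supermartingales -/
theorem anti (hQ : W.Nice Q) (h : W.SM Q a b X A) (h1 : a ≤ r) (h2 : r ≤ t) (h3 : t ≤ b)
    (hle : ∀ u ∈ Ioo r t, ∀ ω, A u ω ≤ 0) : ∫ ω, X t ω ∂Q ≤ ∫ ω, X r ω ∂Q := by
  simpa using h.expect_le hQ h1 h2 h3 (k := fun _ => 0) (by simp)
    fun u hu => integral_nonpos (hle u hu)







end SM

/-! ### chain rule for processes of finite variation -/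

namespace FV

theorem ae_deriv (h : W.FV a b V V') (ω : W.Ω) :
    ∀ᵐ t, t ∈ Ioo a b → HasDerivAt (fun t => V t ω) (V' t ω) t := by
  rcases le_or_gt a b with hab | hab
  swap
  · exact .of_forall fun t ht => absurd (ht.1.trans ht.2) (not_lt.2 hab.le)
  filter_upwards [(h.pr.ii (left_mem_Icc.2 hab) (right_mem_Icc.2 hab) ω).ae_hasDerivAt_integral]
    with t ht ht'
  rw [uIcc_of_le hab] at ht
  refine ((ht (Ioo_subset_Icc_self ht') a (left_mem_Icc.2 hab)).const_add (V a ω)).congr_of_eventuallyEq ?_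
  filter_upwards [Icc_mem_nhds ht'.1 ht'.2] with u hu using h.eq u hu ω

theorem lip (h : W.FV a b V V') (ω : W.Ω) :
    ∃ C : ℝ≥0, LipschitzOnWith C (fun t => V t ω) (Icc a b) := by
  obtain ⟨T, C, c, -, h2, -, h4⟩ := h.pr.gr
  refine ⟨⟨C * exp (c * W.S T ω), by positivity⟩, .of_dist_le_mul fun t ht r hr => ?_⟩
  rw [Real.dist_eq, Real.dist_eq, h.sub_eq hr ht]
  exact intervalIntegral.norm_integral_le_of_norm_le_const (f := fun u => V' u ω) fun u hu =>
    h4 u (uIcc_subset_Icc hr ht (uIoc_subset_uIcc hu)) ω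

theorem of_lip (h : W.Ad a b V) (h' : W.Pr a b V')
    (hl : ∀ ω, ∃ C : ℝ≥0, LipschitzOnWith C (fun t => V t ω) (Icc a b))
    (hd : ∀ ω, ∀ᵐ t, t ∈ Ioo a b → HasDerivAt (fun t => V t ω) (V' t ω) t) : W.FV a b V V' := by
  refine ⟨h, h', fun t ht ω => ?_⟩
  obtain ⟨C, hC⟩ := hl ω
  have ac : AbsolutelyContinuousOnInterval (fun t => V t ω) a t :=
    (hC.mono (uIcc_subset_Icc ⟨le_rfl, ht.1.trans ht.2⟩ ht)).absolutelyContinuousOnInterval
  have e : ∫ u in a..t, V' u ω = ∫ u in a..t, deriv (fun t => V t ω) u := by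
    refine intervalIntegral.integral_congr_ae ?_
    have : ∀ᵐ u : ℝ, u ≠ b := by simp [ae_iff]
    filter_upwards [hd ω, this] with u hu hb hu'
    rw [uIoc_of_le ht.1] at hu'
    exact (hu ⟨hu'.1, lt_of_le_of_ne (hu'.2.trans ht.2) hb⟩).deriv.symm
  rw [e, ac.integral_deriv_eq_sub]; ring

/-- chain rule -/
theorem comp (h : W.FV a b V V') {φ φ' : ℝ → ℝ} (hφ : ∀ x, HasDerivAt φ (φ' x) x)
    (hφ' : Continuous φ') (g0 : W.Gr (Icc a b) fun t ω => φ (V t ω))
    (g1 : W.Gr (Icc a b) fun t ω => φ' (V t ω)) :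
    W.FV a b (fun t ω => φ (V t ω)) fun t ω => φ' (V t ω) * V' t ω := by
  have hc : Continuous φ := continuous_iff_continuousAt.2 fun x => (hφ x).continuousAt
  refine of_lip (h.ad.comp hc g0) ((h.ad.comp hφ' g1).pr.mul h.pr) (fun ω => ?_) fun ω =>
    (h.ae_deriv ω).mono fun t ht ht' => (hφ _).comp t (ht ht')
  obtain ⟨C, hC⟩ := h.lip ω
  obtain ⟨R, hR⟩ := isCompact_Icc.exists_bound_of_continuousOn (h.ad.cont ω)
  obtain ⟨M, hM⟩ := (isCompact_Icc (a := -R) (b := R)).exists_bound_of_continuousOn hφ'.continuousOn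
  have hl : LipschitzOnWith M.toNNReal φ (Icc (-R) R) :=
    (convex_Icc _ _).lipschitzOnWith_of_nnnorm_hasDerivWithin_le
      (fun x _ => (hφ x).hasDerivWithinAt) fun x hx => by
        rw [← NNReal.coe_le_coe, coe_nnnorm]; exact (hM x hx).trans (Real.le_coe_toNNReal M)
  exact ⟨_, hl.comp hC fun t ht => abs_le.1 (hR t ht)⟩

theorem exp (h : W.FV a b V V') (g : W.Gr (Icc a b) fun t ω => exp (V t ω)) :
    W.FV a b (fun t ω => Real.exp (V t ω)) fun t ω => Real.exp (V t ω) * V' t ω :=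
  h.comp hasDerivAt_exp continuous_exp g g

theorem const_mul (c : ℝ) (h : W.FV a b V V') :
    W.FV a b (fun t ω => c * V t ω) fun t ω => c * V' t ω := by
  simpa using (const c).mul h

/-- killing functional `exp (-∫ K)` for `K` bounded below -/
theorem kill (hK : W.Pr a b K) {C : ℝ} (h0 : ∀ t ∈ Icc a b, ∀ ω, -C ≤ K t ω) :
    W.FV a b (fun t ω => Real.exp (-∫ u in a..t, K u ω))
      fun t ω => Real.exp (-∫ u in a..t, K u ω) * -K t ω :=
  (prim hK).neg.exp (.of_bdd (Real.exp (|C| * |b - a|)) fun t ht ω => by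
    rw [abs_of_pos (exp_pos _), exp_le_exp, neg_le]
    have h1 := intervalIntegral.integral_mono_on ht.1 (intervalIntegrable_const (c := -C))
      (hK.ii ⟨le_rfl, ht.1.trans ht.2⟩ ht ω) fun u hu => h0 u ⟨hu.1, hu.2.trans ht.2⟩ ω
    refine le_trans ?_ h1
    rw [intervalIntegral.integral_const, smul_eq_mul, mul_neg, neg_le_neg_iff, mul_comm]
    exact mul_le_mul (le_abs_self _) ((sub_le_sub_right ht.2 a).trans (le_abs_self _))
      (sub_nonneg.2 ht.1) (abs_nonneg _))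

end FV

end BM

end Crest.Agent.T157.Pa

end
namespace Crest.Agent.T157.Pa.BM.Ad
end Crest.Agent.T157.Pa.BM.Ad
end

-- ▼ part T157/PaF_39
section

/-!
# Row 157, path layer, part F (helper39): adapted linear ODE, exponential martingales
-/

set_option autoImplicit false
set_option linter.unusedSectionVars false

noncomputable section

namespace Crest.Agent.T157.Pa

open MeasureTheory ProbabilityTheory Filter Topology Set Real
open Crest.Agent.T157.SL Crest.Agent.T157.E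
open scoped NNReal ENNReal

theorem meas_lim {α : Type*} {m : MeasurableSpace α} {f : ℕ → α → ℝ} {g : α → ℝ}
    (hf : ∀ i, Measurable[m] (f i)) (lim : Tendsto f atTop (𝓝 g)) : Measurable[m] g :=
  measurable_of_tendsto_metrizable hf lim

namespace BM

variable {ι : Type} [Fintype ι] {W : BM ι}
variable {Q : Measure W.Ω} {a b l r s t : ℝ} {X Y A K V V' : ℝ → W.Ω → ℝ}

section ode
variable {κ : Type*} [Fintype κ] {M : ℝ → W.Ω → κ → κ → ℝ} {H : W.Ω → κ → ℝ} {C : ℝ}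

/-- Picard iterates -/
def pic (a : ℝ) (M : ℝ → W.Ω → κ → κ → ℝ) (H : W.Ω → κ → ℝ) : ℕ → ℝ → W.Ω → κ → ℝ
  | 0, _, ω, j => H ω j
  | m + 1, t, ω, j => ∫ u in a..t, ∑ k, M u ω j k * pic a M H m u ω k

theorem pic_ad (hM : ∀ j k, W.Pr a b fun t ω => M t ω j k) (hH : ∀ j, W.Tm a fun ω => H ω j) :
    ∀ m j, W.Ad a b fun t ω => pic a M H m t ω j
  | 0, j => (hH j).ad
  | m + 1, j => (Pr.sum Finset.univ fun k _ => (hM j k).mul (pic_ad hM hH m k).pr).prim

theorem pic_le (hM : ∀ j k, W.Pr a b fun t ω => M t ω j k) (hH : ∀ j, W.Tm a fun ω => H ω j)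
    (hC : ∀ t ∈ Icc a b, ∀ ω j, ∑ k, |M t ω j k| ≤ C) (ω : W.Ω) :
    ∀ m, ∀ t ∈ Icc a b, ∀ j, |pic a M H m t ω j| ≤ ‖H ω‖ * ((C * (t - a)) ^ m / m.factorial)
  | 0, _, _, j => by simpa [pic] using norm_le_pi_norm (H ω) j
  | m + 1, t, ht, j => by
    have ha : a ∈ Icc a b := ⟨le_rfl, ht.1.trans ht.2⟩
    have C0 : 0 ≤ C := (Finset.sum_nonneg fun _ _ => abs_nonneg _).trans (hC t ht ω j)
    have h1 : ∀ u ∈ Ioc a t, ‖∑ k, M u ω j k * pic a M H m u ω k‖ ≤
        ‖H ω‖ * C ^ (m + 1) / m.factorial * (u - a) ^ m := fun u hu => by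
      have hu' : u ∈ Icc a b := ⟨hu.1.le, hu.2.trans ht.2⟩
      have := sub_nonneg.2 hu.1.le
      calc ‖∑ k, M u ω j k * pic a M H m u ω k‖
          ≤ ∑ k, |M u ω j k| * (‖H ω‖ * ((C * (u - a)) ^ m / m.factorial)) := by
            refine (norm_sum_le _ _).trans (Finset.sum_le_sum fun k _ => ?_)
            rw [Real.norm_eq_abs, abs_mul]
            gcongr
            exact pic_le hM hH hC ω m u hu' k
        _ ≤ C * (‖H ω‖ * ((C * (u - a)) ^ m / m.factorial)) := by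
            rw [← Finset.sum_mul]; gcongr; exact hC u hu' ω j
        _ = _ := by rw [mul_pow]; ring
    refine (intervalIntegral.norm_integral_le_of_norm_le ht.1 (.of_forall h1)
      (Continuous.intervalIntegrable (by fun_prop) _ _)).trans_eq ?_
    rw [intervalIntegral.integral_const_mul, intervalIntegral.integral_comp_sub_right (· ^ m),
      integral_pow, sub_self, zero_pow m.succ_ne_zero, sub_zero, Nat.factorial_succ, mul_pow]
    push_cast
    field_simp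

/-- the solution of `V' = M V`, `V a = H` -/
def ode (a : ℝ) (M : ℝ → W.Ω → κ → κ → ℝ) (H : W.Ω → κ → ℝ) (t : ℝ) (ω : W.Ω) (j : κ) : ℝ :=
  ∑' m, pic a M H m t ω j

theorem ode_start (ω : W.Ω) : ode a M H a ω = H ω := by
  funext j
  rw [ode, tsum_eq_single 0 fun m hm => by
    obtain ⟨m, rfl⟩ := Nat.exists_eq_succ_of_ne_zero hm
    simp [pic]]
  rfl

/-- **adapted solution of a linear ODE** -/
theorem ode_fv (hM : ∀ j k, W.Pr a b fun t ω => M t ω j k) (hH : ∀ j, W.Tm a fun ω => H ω j)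
    (hC : ∀ t ∈ Icc a b, ∀ ω j, ∑ k, |M t ω j k| ≤ C) (j : κ) :
    W.FV a b (fun t ω => ode a M H t ω j) fun t ω => ∑ k, M t ω j k * ode a M H t ω k := by
  set bd : W.Ω → ℕ → ℝ := fun ω m => ‖H ω‖ * ((|C| * |b - a|) ^ m / m.factorial)
  have hs : ∀ ω, Summable (bd ω) := fun ω => (summable_pow_div_factorial _).mul_left _
  have hb : ∀ ω m, ∀ t ∈ Icc a b, ∀ j, ‖pic a M H m t ω j‖ ≤ bd ω m := fun ω m t ht j => by
    have C0 : 0 ≤ C := (Finset.sum_nonneg fun _ _ => abs_nonneg _).trans (hC t ht ω j)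
    refine (pic_le hM hH hC ω m t ht j).trans ?_
    have := sub_nonneg.2 ht.1
    simp only [bd]
    gcongr
    exacts [le_abs_self _, (sub_le_sub_right ht.2 a).trans (le_abs_self _)]
  have sm : ∀ ω, ∀ t ∈ Icc a b, ∀ j, Summable fun m => pic a M H m t ω j := fun ω t ht j =>
    .of_norm_bounded (hs ω) fun m => hb ω m t ht j
  have gH : W.Gr (univ : Set Unit) fun _ ω => ‖H ω‖ :=
    (Gr.sum Finset.univ fun k _ => (hH k).gr.abs).of_le fun _ _ ω => by
      rw [abs_norm, abs_of_nonneg (by positivity)]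
      exact (pi_norm_le_iff_of_nonneg (by positivity)).2 fun k =>
        Finset.single_le_sum (f := fun k => |H ω k|) (fun _ _ => abs_nonneg _) (Finset.mem_univ k)
  have ad : ∀ j, W.Ad a b fun t ω => ode a M H t ω j := fun j => by
    refine ⟨fun ω => continuousOn_tsum (fun m => (pic_ad hM hH m j).cont ω) (hs ω)
      fun m t ht => hb ω m t ht j, fun t ht => ?_,
      (gH.mul (.const (∑' m : ℕ, (|C| * |b - a|) ^ m / m.factorial))).comp
        fun t ht ω => ⟨(), trivial, ?_⟩⟩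
    · refine meas_lim (m := W.F t)
        (f := fun N ω => ∑ m ∈ Finset.range N, pic a M H m t ω j)
        (fun N => Finset.measurable_sum _ fun m _ => (pic_ad hM hH m j).meas t ht) ?_
      exact tendsto_pi_nhds.2 fun ω => (sm ω t ht j).hasSum.tendsto_sum_nat
    · refine (tsum_of_norm_bounded (hs ω).hasSum fun m => hb ω m t ht j).trans ?_
      rw [tsum_mul_left]
      exact le_abs_self _
  refine ⟨ad j, .sum _ fun k _ => (hM j k).mul (ad k).pr, fun t ht ω => ?_⟩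
  have ha : a ∈ Icc a b := ⟨le_rfl, ht.1.trans ht.2⟩
  have hu : ∀ u ∈ uIoc a t, u ∈ Icc a b := fun u hu => uIcc_subset_Icc ha ht (uIoc_subset_uIcc hu)
  have key := intervalIntegral.hasSum_integral_of_dominated_convergence (μ := volume) (a := a)
    (b := t) (F := fun m u => ∑ k, M u ω j k * pic a M H m u ω k)
    (f := fun u => ∑ k, M u ω j k * ode a M H u ω k) (fun m _ => C * bd ω m)
    (fun m => ((Pr.sum Finset.univ fun k _ => (hM j k).mul (pic_ad hM hH m k).pr).ii ha ht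
      ω).def'.aestronglyMeasurable)
    (fun m => .of_forall fun u hu' => by
      calc ‖∑ k, M u ω j k * pic a M H m u ω k‖ ≤ ∑ k, |M u ω j k| * bd ω m := by
            refine (norm_sum_le _ _).trans (Finset.sum_le_sum fun k _ => ?_)
            rw [norm_mul, Real.norm_eq_abs]
            gcongr
            exact hb ω m u (hu u hu') k
        _ ≤ C * bd ω m := by
            rw [← Finset.sum_mul]
            exact mul_le_mul_of_nonneg_right (hC u (hu u hu') ω j)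
              ((norm_nonneg _).trans (hb ω m u (hu u hu') j)))
    (.of_forall fun _ _ => (hs ω).mul_left C) intervalIntegrable_const
    (.of_forall fun u hu' => hasSum_sum fun k _ => (sm ω u (hu u hu') k).hasSum.mul_left _)
  rw [ode_start, ← key.tsum_eq, ode, (sm ω t ht j).tsum_eq_zero_add]
  rfl

end ode

/-! ### exponential martingales -/

variable [DecidableEq ι] {G a' : Pt ι → ℝ} {β d : ι → Pt ι → ℝ}

/-- linear growth on `[a, b]` -/
def Lg (a b : ℝ) (G : Pt ι → ℝ) : Prop := ∃ C c : ℝ, ∀ p : Pt ι, p.1 ∈ Icc a b → |G p| ≤ C + c * ‖p.2‖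

theorem Lg.of_bdd (C : ℝ) (h : ∀ p : Pt ι, p.1 ∈ Icc a b → |G p| ≤ C) : Lg a b G :=
  ⟨C, 0, fun p hp => by simpa using h p hp⟩

theorem Lg.coord (i : ι) : Lg a b fun p : Pt ι => p.2 i :=
  ⟨0, 1, fun p _ => by simpa using norm_le_pi_norm p.2 i⟩

theorem Lg.const_mul (h : Lg a b G) (θ : ℝ) : Lg a b fun p => θ * G p := by
  obtain ⟨C, c, h⟩ := h
  refine ⟨|θ| * C, |θ| * c, fun p hp => ?_⟩
  rw [abs_mul, mul_assoc, ← mul_add]
  exact mul_le_mul_of_nonneg_left (h p hp) (abs_nonneg _)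

theorem Lg.add {G' : Pt ι → ℝ} (h : Lg a b G) (h' : Lg a b G') : Lg a b fun p => G p + G' p := by
  obtain ⟨C, c, h⟩ := h
  obtain ⟨C', c', h'⟩ := h'
  exact ⟨C + C', c + c', fun p hp => (abs_add_le _ _).trans (by linarith [h p hp, h' p hp])⟩

theorem Lg.sum {σ : Type*} (S : Finset σ) {G : σ → Pt ι → ℝ} (h : ∀ k ∈ S, Lg a b (G k)) :
    Lg a b fun p => ∑ k ∈ S, G k p := by
  classical
  induction S using Finset.induction_on with
  | empty => exact .of_bdd 0 (by simp)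
  | insert k s hk ih =>
    simpa [Finset.sum_insert hk] using (h k (by simp)).add (ih fun j hj => h j (by simp [hj]))





section sl
variable {Ω : Type*} [Fintype Ω] {φ : Ω → ι → ℝ} {v : Ω → ℝ} {T : ℝ}


end sl

end BM

end Crest.Agent.T157.Pa

end
private theorem rz_d982e27de7 : type_of% @_root_.Crest.Agent.T157.Pa.BM.pic.eq_def := @_root_.Crest.Agent.T157.Pa.BM.pic.eq_def -- L31
private theorem rz_7fa68151b8 : type_of% @_root_.Crest.Agent.T157.Pa.BM.pic.eq_1 := @_root_.Crest.Agent.T157.Pa.BM.pic.eq_1 -- L31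
end

-- ▼ part T157/TrA_64
section

/-!
# Row 157, part C1 (helper64): scale transport along stochastic localisation, path facts

`X = r C_r`, `good = {‖X‖ ≤ 1 + ε r}`, `Y = 1_good X`, `W' = (Y - 1) W / r`.
-/

set_option autoImplicit false
set_option linter.unusedSectionVars false

noncomputable section

namespace Crest.Agent.T157.Tr

open MeasureTheory ProbabilityTheory Filter Topology Set Real Matrix
open Crest.Agent.T157.SL Crest.Agent.T157.E Crest.Agent.T157.Pa Crest.Agent.T157.Eig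

variable {Ω : Type*} [Fintype Ω] {ι : Type} [Fintype ι] [DecidableEq ι]

/-- `r C_r` -/
def Xp (φ : Ω → ι → ℝ) (w : Ω → ℝ) (p : Pt ι) : Matrix ι ι ℝ := p.1 • covMat (pw φ w p) φ
/-- `‖r C_r‖` -/
def nx (φ : Ω → ι → ℝ) (w : Ω → ℝ) (p : Pt ι) : ℝ := opn (Xp φ w p)
/-- indicator of the good event -/
def ig (φ : Ω → ι → ℝ) (w : Ω → ℝ) (ε : ℝ → ℝ) (p : Pt ι) : ℝ :=
  if nx φ w p ≤ 1 + ε p.1 then 1 else 0
/-- `1_good r C_r` -/
def Yp (φ : Ω → ι → ℝ) (w : Ω → ℝ) (ε : ℝ → ℝ) (p : Pt ι) : Matrix ι ι ℝ := ig φ w ε p • Xp φ w p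
/-- moment of the bad event at a fixed time -/
def pb (φ : Ω → ι → ℝ) (w : Ω → ℝ) (ε : ℝ → ℝ) (m : ℕ) (r : ℝ) : ℝ :=
  ex φ w (fun p => (1 - ig φ w ε p) * (1 + nx φ w p) ^ m) r
/-- `Cov_r (f, φ)` -/
def vv (φ : Ω → ι → ℝ) (w : Ω → ℝ) (f : Ω → ℝ) (p : Pt ι) : ι → ℝ := covV (pw φ w p) f φ

variable {φ : Ω → ι → ℝ} {w f : Ω → ℝ} {ε : ℝ → ℝ} {I : Set ℝ} {p : Pt ι} {a b r s t T : ℝ}

theorem nx_nonneg (p : Pt ι) : 0 ≤ nx φ w p := opn_nonneg _

theorem ig_cases (p : Pt ι) :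
    (nx φ w p ≤ 1 + ε p.1 ∧ ig φ w ε p = 1) ∨ (1 + ε p.1 < nx φ w p ∧ ig φ w ε p = 0) := by
  unfold ig
  by_cases h : nx φ w p ≤ 1 + ε p.1
  · exact Or.inl ⟨h, if_pos h⟩
  · exact Or.inr ⟨not_le.1 h, if_neg h⟩

theorem ig_nonneg (p : Pt ι) : 0 ≤ ig φ w ε p := by
  rcases ig_cases (φ := φ) (w := w) (ε := ε) p with h | h <;> simp [h.2]

theorem ig_le_one (p : Pt ι) : ig φ w ε p ≤ 1 := by
  rcases ig_cases (φ := φ) (w := w) (ε := ε) p with h | h <;> simp [h.2]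


theorem Xp_transpose (p : Pt ι) : (Xp φ w p)ᵀ = Xp φ w p := by
  rw [Xp, transpose_smul, covMat_transpose]

theorem Yp_transpose (p : Pt ι) : (Yp φ w ε p)ᵀ = Yp φ w ε p := by
  rw [Yp, transpose_smul, Xp_transpose]

theorem dot_symm {A : Matrix ι ι ℝ} (hA : Aᵀ = A) (u v : ι → ℝ) : (A *ᵥ u) ⬝ᵥ v = u ⬝ᵥ A *ᵥ v := by
  rw [dotProduct_mulVec, ← mulVec_transpose, hA]

theorem quad_X_nonneg (hw : Wt w) (hp : 0 ≤ p.1) (u : ι → ℝ) : 0 ≤ u ⬝ᵥ Xp φ w p *ᵥ u := by
  rw [Xp, smul_mulVec, dotProduct_smul, smul_eq_mul]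
  exact mul_nonneg hp ((hw.post φ _ _).covMat_quad_nonneg φ u)

theorem quad_X_le (u : ι → ℝ) : u ⬝ᵥ Xp φ w p *ᵥ u ≤ nx φ w p * (u ⬝ᵥ u) :=
  (le_abs_self _).trans (abs_quad_le _ u)

theorem opn_Y_le (h0 : 0 ≤ ε p.1) : opn (Yp φ w ε p) ≤ 1 + ε p.1 := by
  rcases ig_cases (φ := φ) (w := w) (ε := ε) p with h | h
  · rw [Yp, h.2, one_smul]; exact h.1
  · rw [Yp, h.2, zero_smul, opn_zero]; linarith

theorem quad_Y_nonneg (hw : Wt w) (hp : 0 ≤ p.1) (u : ι → ℝ) : 0 ≤ u ⬝ᵥ Yp φ w ε p *ᵥ u := by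
  rw [Yp, smul_mulVec, dotProduct_smul, smul_eq_mul]
  exact mul_nonneg (ig_nonneg p) (quad_X_nonneg hw hp u)

theorem quad_Y_le_X (hw : Wt w) (hp : 0 ≤ p.1) (u : ι → ℝ) :
    u ⬝ᵥ Yp φ w ε p *ᵥ u ≤ u ⬝ᵥ Xp φ w p *ᵥ u := by
  rw [Yp, smul_mulVec, dotProduct_smul, smul_eq_mul]
  have := quad_X_nonneg (φ := φ) hw hp u
  have := ig_le_one (φ := φ) (w := w) (ε := ε) p
  nlinarith

theorem quad_Y_le (h0 : 0 ≤ ε p.1) (u : ι → ℝ) :
    u ⬝ᵥ Yp φ w ε p *ᵥ u ≤ (1 + ε p.1) * (u ⬝ᵥ u) :=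
  ((le_abs_self _).trans (abs_quad_le _ u)).trans
    (mul_le_mul_of_nonneg_right (opn_Y_le h0) (SL.dot_self_nonneg u))

/-- Bessel: `r |v|² ≤ ‖X‖ Var f` -/
theorem vv_sq_le (hw : Wt w) (hp : 0 < p.1) (f : Ω → ℝ) :
    p.1 * (vv φ w f p ⬝ᵥ vv φ w f p) ≤ nx φ w p * var (pw φ w p) f := by
  have h := (hw.post φ p.1 p.2).covV_sq_le (φ := φ) f (κ := nx φ w p / p.1)
    (div_nonneg (nx_nonneg p) hp.le) fun u => by
      have := quad_X_le (φ := φ) (w := w) (p := p) u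
      rw [Xp, smul_mulVec, dotProduct_smul, smul_eq_mul] at this
      rw [div_mul_eq_mul_div, le_div_iff₀ hp]
      linarith
  have h2 := mul_le_mul_of_nonneg_left h hp.le
  rw [← mul_assoc, mul_div_cancel₀ _ hp.ne'] at h2
  exact h2

theorem X_mulVec (u : ι → ℝ) : Xp φ w p *ᵥ u = p.1 • vv φ w (fun x => u ⬝ᵥ φ x) p := by
  rw [Xp, smul_mulVec, covMat_mulVec, vv]

/-- `|X u|² ≤ ‖X‖ u·Xu` -/
theorem X_sq_le (hw : Wt w) (hp : 0 < p.1) (u : ι → ℝ) :
    (Xp φ w p *ᵥ u) ⬝ᵥ (Xp φ w p *ᵥ u) ≤ nx φ w p * (u ⬝ᵥ Xp φ w p *ᵥ u) := by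
  have h := vv_sq_le (φ := φ) hw hp fun x => u ⬝ᵥ φ x
  have e : u ⬝ᵥ Xp φ w p *ᵥ u = p.1 * var (pw φ w p) fun x => u ⬝ᵥ φ x := by
    rw [Xp, smul_mulVec, dotProduct_smul, smul_eq_mul, covMat_quad, var_eq_cov]
  rw [e, X_mulVec, smul_dotProduct, dotProduct_smul, smul_eq_mul, smul_eq_mul]
  nlinarith [mul_le_mul_of_nonneg_left h hp.le]

theorem Y_sq_le (hw : Wt w) (hp : 0 < p.1) (u : ι → ℝ) :
    (Yp φ w ε p *ᵥ u) ⬝ᵥ (Yp φ w ε p *ᵥ u) ≤ (1 + ε p.1) * (u ⬝ᵥ Yp φ w ε p *ᵥ u) := by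
  rcases ig_cases (φ := φ) (w := w) (ε := ε) p with h | h
  · rw [Yp, h.2, one_smul]
    exact (X_sq_le hw hp u).trans
      (mul_le_mul_of_nonneg_right h.1 (quad_X_nonneg hw hp.le u))
  · rw [Yp, h.2, zero_smul]; simp

/-! ### regularity -/

theorem cont_cov (hw : Wt w) (f g : Ω → ℝ) : Continuous fun p : Pt ι => cov (pw φ w p) f g := by
  have := (eg_cov (φ := φ) (I := univ) hw f g).cont
  rwa [univ_prod_univ, continuousOn_univ] at this

theorem cont_X (hw : Wt w) : Continuous (Xp φ w) :=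
  continuous_matrix fun _ _ => continuous_fst.mul (cont_cov hw _ _)

theorem cont_nx (hw : Wt w) : Continuous (nx φ w) := continuous_opn.comp (cont_X hw)

theorem eg_id (a b : ℝ) : EG (Icc a b) fun p : Pt ι => p.1 :=
  EG.time (f := fun t => t) continuousOn_id (|a| + |b|) fun t ht => by
    rw [abs_le]; constructor
    · linarith [neg_abs_le a, abs_nonneg b, ht.1]
    · linarith [le_abs_self b, abs_nonneg a, ht.2]

theorem eg_X (hw : Wt w) (i j : ι) : EG (Icc a b) fun p => Xp φ w p i j :=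
  (eg_id a b).mul (eg_cov hw _ _)

theorem eg_vv (hw : Wt w) (f : Ω → ℝ) (i : ι) : EG I fun p => vv φ w f p i := eg_cov hw _ _

theorem eg_nx (hw : Wt w) : EG (Icc a b) (nx φ w) := by
  refine EG.of_le (G := fun p => 1 + ∑ i, ∑ j, Xp φ w p i j ^ 2)
    ((EG.const 1).add (EG.sum _ fun i _ => EG.sum _ fun j _ => (eg_X hw i j).pow 2))
    (cont_nx hw).continuousOn fun p _ => ?_
  have h1 := opn_sq_le_frob (Xp φ w p)
  have h2 := nx_nonneg (φ := φ) (w := w) p
  rw [abs_of_nonneg h2]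
  refine le_trans ?_ (le_abs_self _)
  unfold nx at h2 ⊢
  nlinarith [sq_nonneg (opn (Xp φ w p) - 1)]

theorem mg_nx (hw : Wt w) (t : ℝ) : MG fun y => nx φ w (t, y) :=
  (eg_nx (a := t) (b := t) hw).mg ⟨le_rfl, le_rfl⟩

theorem mg_X (hw : Wt w) (t : ℝ) (i j : ι) : MG fun y => Xp φ w (t, y) i j :=
  (eg_X (a := t) (b := t) hw i j).mg ⟨le_rfl, le_rfl⟩

theorem mg_vv (hw : Wt w) (f : Ω → ℝ) (t : ℝ) (i : ι) : MG fun y => vv φ w f (t, y) i :=
  (eg_vv (I := univ) hw f i).mg trivial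

theorem mg_ig (hw : Wt w) (ε : ℝ → ℝ) (t : ℝ) : MG fun y => ig φ w ε (t, y) := by
  refine MG.of_bdd ?_ 1 fun y => ?_
  · exact Measurable.ite (measurableSet_le (mg_nx hw t).meas
      (measurable_const (a := 1 + ε t))) measurable_const
      measurable_const
  · rw [abs_of_nonneg (ig_nonneg _)]; exact ig_le_one _

theorem MG.pow' {F : (ι → ℝ) → ℝ} (h : MG F) (m : ℕ) : MG fun y => F y ^ m := by
  induction m with
  | zero => simpa using MG.const (ι := ι) 1
  | succ m ih => simpa [pow_succ] using ih.mul h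

theorem mg_pb (hw : Wt w) (ε : ℝ → ℝ) (m : ℕ) (t : ℝ) :
    MG fun y => (1 - ig φ w ε (t, y)) * (1 + nx φ w (t, y)) ^ m :=
  ((MG.const 1).sub (mg_ig hw ε t)).mul (MG.pow' ((MG.const 1).add (mg_nx hw t)) m)

theorem pb_nonneg (hw : Wt w) (m : ℕ) (r : ℝ) : 0 ≤ pb φ w ε m r :=
  ex_nonneg hw fun y => mul_nonneg (sub_nonneg.2 (ig_le_one _))
    (pow_nonneg (by linarith [nx_nonneg (φ := φ) (w := w) (r, y)]) _)


variable {W : BM ι} {Q : Measure W.Ω}

theorem pr_ig (hw : Wt w) (ha : 0 ≤ a) (hε : ContinuousOn ε (Icc a b)) :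
    W.Pr a b fun t ω => ig φ w ε (t, W.B t ω) := by
  have h1 : W.Ad a b fun t ω => nx φ w (t, W.B t ω) - ε t :=
    (W.ad_eg ha (eg_nx hw)).sub (BM.Ad.time hε)
  have h2 := h1.pr.comp (φ := fun x => if x ≤ 1 then (1 : ℝ) else 0)
    (Measurable.ite measurableSet_Iic measurable_const measurable_const)
    (BM.Gr.of_bdd 1 fun t _ ω => by split_ifs <;> simp)
  refine h2.congr fun t _ ω => ?_
  simp only [ig, sub_le_iff_le_add]

theorem pr_X (hw : Wt w) (ha : 0 ≤ a) (i j : ι) : W.Pr a b fun t ω => Xp φ w (t, W.B t ω) i j :=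
  (W.ad_eg ha (eg_X hw i j)).pr

theorem pr_Y (hw : Wt w) (ha : 0 ≤ a) (hε : ContinuousOn ε (Icc a b)) (i j : ι) :
    W.Pr a b fun t ω => Yp φ w ε (t, W.B t ω) i j :=
  (pr_ig hw ha hε).mul (pr_X hw ha i j)


theorem ad_inv (ha : 0 < a) : W.Ad a b fun t _ => t⁻¹ :=
  BM.Ad.time (continuousOn_id.inv₀ fun _ ht => (ha.trans_le ht.1).ne')

/-- generator of the transport -/
def Mt (W : BM ι) (φ : Ω → ι → ℝ) (w : Ω → ℝ) (ε : ℝ → ℝ) (t : ℝ) (ω : W.Ω) (j k : ι) : ℝ :=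
  t⁻¹ * (Yp φ w ε (t, W.B t ω) - 1 : Matrix ι ι ℝ) j k

/-- the transported vector, started from `H` at time `s` -/
def Tw (W : BM ι) (φ : Ω → ι → ℝ) (w : Ω → ℝ) (ε : ℝ → ℝ) (s : ℝ) (H : W.Ω → ι → ℝ) (t : ℝ)
    (ω : W.Ω) : ι → ℝ := BM.ode s (Mt W φ w ε) H t ω

variable {H : W.Ω → ι → ℝ}

theorem Tw_start (ω : W.Ω) : Tw W φ w ε s H s ω = H ω := BM.ode_start ω

theorem pr_Mt (hw : Wt w) (ha : 0 < a) (hε : ContinuousOn ε (Icc a b)) (j k : ι) :
    W.Pr a b fun t ω => Mt W φ w ε t ω j k :=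
  (ad_inv ha).pr.mul ((pr_Y hw ha.le hε j k).sub (BM.Pr.const ((1 : Matrix ι ι ℝ) j k)))

theorem fv_Tw (hw : Wt w) (ha : 0 < a) (hε : ContinuousOn ε (Icc a b))
    (ε0 : ∀ t ∈ Icc a b, 0 ≤ ε t) (hH : ∀ j, W.Tm a fun ω => H ω j) (j : ι) :
    W.FV a b (fun t ω => Tw W φ w ε a H t ω j)
      fun t ω => t⁻¹ * ((Yp φ w ε (t, W.B t ω) - 1) *ᵥ Tw W φ w ε a H t ω) j := by
  obtain ⟨C, hC⟩ := isCompact_Icc.exists_bound_of_continuousOn hε
  have h := BM.ode_fv (pr_Mt (φ := φ) hw ha hε) hH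
    (C := Fintype.card ι * (a⁻¹ * (2 + C))) (fun t ht ω j => ?_) j
  · refine h.congr (fun _ _ _ => rfl) fun t _ ω => ?_
    simp only [Mt, Tw, mulVec, dotProduct, Finset.mul_sum, mul_assoc]
  · have ht0 : 0 < t := ha.trans_le ht.1
    calc ∑ k, |Mt W φ w ε t ω j k| ≤ ∑ _k : ι, a⁻¹ * (2 + C) := by
          refine Finset.sum_le_sum fun k _ => ?_
          rw [Mt, abs_mul, abs_of_pos (inv_pos.2 ht0)]
          refine mul_le_mul (inv_anti₀ ha ht.1) ?_ (abs_nonneg _) (inv_pos.2 ha).le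
          refine (abs_entry_le _ j k).trans ((opn_sub_le _ _).trans ?_)
          have h1 := opn_Y_le (φ := φ) (w := w) (ε := ε) (p := (t, W.B t ω)) (ε0 t ht)
          have h2 := opn_one_le (ι := ι)
          have h3 := (le_abs_self _).trans (hC t ht)
          simp only at h1
          linarith
      _ = _ := by simp

section dot
variable {κ : Type*} [Fintype κ] {V V' v A : ℝ → W.Ω → κ → ℝ}

theorem sm_dot (hQ : W.Nice Q) (hV : ∀ j, W.FV a b (fun t ω => V t ω j) fun t ω => V' t ω j)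
    (hv : ∀ j, W.SM Q a b (fun t ω => v t ω j) fun t ω => A t ω j) :
    W.SM Q a b (fun t ω => V t ω ⬝ᵥ v t ω) fun t ω => V' t ω ⬝ᵥ v t ω + V t ω ⬝ᵥ A t ω := by
  refine (BM.SM.sum hQ Finset.univ fun j _ => (hv j).mul_fv hQ (hV j)).congr
    (fun _ _ _ => rfl) fun t _ ω => ?_
  simp only [dotProduct, Finset.sum_add_distrib]

theorem fv_dot (hV : ∀ j, W.FV a b (fun t ω => V t ω j) fun t ω => V' t ω j)
    (hv : ∀ j, W.FV a b (fun t ω => v t ω j) fun t ω => A t ω j) :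
    W.FV a b (fun t ω => V t ω ⬝ᵥ v t ω) fun t ω => V' t ω ⬝ᵥ v t ω + V t ω ⬝ᵥ A t ω := by
  refine (BM.FV.sum Finset.univ fun j _ => (hV j).mul (hv j)).congr
    (fun _ _ _ => rfl) fun t _ ω => ?_
  simp only [dotProduct, Finset.sum_add_distrib]

end dot

/-- energy identity -/
theorem fv_sq (hw : Wt w) (ha : 0 < a) (hε : ContinuousOn ε (Icc a b))
    (ε0 : ∀ t ∈ Icc a b, 0 ≤ ε t) (hH : ∀ j, W.Tm a fun ω => H ω j) :
    W.FV a b (fun t ω => Tw W φ w ε a H t ω ⬝ᵥ Tw W φ w ε a H t ω) fun t ω =>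
      2 * t⁻¹ * (Tw W φ w ε a H t ω ⬝ᵥ Yp φ w ε (t, W.B t ω) *ᵥ Tw W φ w ε a H t ω -
        Tw W φ w ε a H t ω ⬝ᵥ Tw W φ w ε a H t ω) := by
  refine (fv_dot (V' := fun t ω => t⁻¹ • ((Yp φ w ε (t, W.B t ω) - 1) *ᵥ Tw W φ w ε a H t ω))
    (A := fun t ω => t⁻¹ • ((Yp φ w ε (t, W.B t ω) - 1) *ᵥ Tw W φ w ε a H t ω))
    (fv_Tw hw ha hε ε0 hH) (fv_Tw hw ha hε ε0 hH)).congr (fun _ _ _ => rfl) fun t _ ω => ?_
  rw [dotProduct_comm (_ • _), dotProduct_smul, sub_mulVec, one_mulVec, dotProduct_sub, smul_eq_mul]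
  ring

/-- pathwise growth -/
theorem Tw_sq_le (hw : Wt w) (ha : 0 < a) (hε : ContinuousOn ε (Icc a b))
    (ε0 : ∀ t ∈ Icc a b, 0 ≤ ε t) (hH : ∀ j, W.Tm a fun ω => H ω j) (hr : a ≤ r) (hrt : r ≤ t)
    (ht : t ≤ b) (ω : W.Ω) : Tw W φ w ε a H t ω ⬝ᵥ Tw W φ w ε a H t ω ≤
      exp (2 * ∫ u in r..t, ε u / u) * (Tw W φ w ε a H r ω ⬝ᵥ Tw W φ w ε a H r ω) := by
  have hsub : Icc r t ⊆ Icc a b := Icc_subset_Icc hr ht
  have hc : ContinuousOn (fun u => ε u / u) (Icc r t) :=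
    (hε.mono hsub).div continuousOn_id fun u hu => (ha.trans_le (hr.trans hu.1)).ne'
  obtain ⟨p1, p2⟩ := prim hrt hc
  have h1 := (fv_sq (φ := φ) hw ha hε ε0 hH).mono hr ht
  have h2 : W.FV r t (fun u _ => exp (-(2 * ∫ q in r..u, ε q / q)))
      fun u _ => exp (-(2 * ∫ q in r..u, ε q / q)) * -(2 * (ε u / u)) :=
    BM.FV.time (f := fun u => exp (-(2 * ∫ q in r..u, ε q / q)))
      (f' := fun u => exp (-(2 * ∫ q in r..u, ε q / q)) * -(2 * (ε u / u)))
      (continuousOn_const.mul p1).neg.rexp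
      ((continuousOn_const.mul p1).neg.rexp.mul (continuousOn_const.mul hc).neg)
      fun u hu => ((p2 u hu).const_mul 2).neg.exp
  have h3 := (h2.mul h1).sub_eq ⟨le_rfl, hrt⟩ ⟨hrt, le_rfl⟩ ω
  have h4 : ∫ u in r..t, (exp (-(2 * ∫ q in r..u, ε q / q)) * -(2 * (ε u / u)) *
      (Tw W φ w ε a H u ω ⬝ᵥ Tw W φ w ε a H u ω) + exp (-(2 * ∫ q in r..u, ε q / q)) *
      (2 * u⁻¹ * (Tw W φ w ε a H u ω ⬝ᵥ Yp φ w ε (u, W.B u ω) *ᵥ Tw W φ w ε a H u ω -
        Tw W φ w ε a H u ω ⬝ᵥ Tw W φ w ε a H u ω))) ≤ 0 := by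
    rw [← neg_nonneg, ← intervalIntegral.integral_neg]
    refine intervalIntegral.integral_nonneg hrt fun u hu => ?_
    have hu0 : 0 < u := ha.trans_le (hr.trans hu.1)
    have h5 := quad_Y_le (φ := φ) (w := w) (ε := ε) (p := (u, W.B u ω)) (ε0 u (hsub hu))
      (Tw W φ w ε a H u ω)
    simp only at h5
    have h6 := exp_pos (-(2 * ∫ q in r..u, ε q / q))
    have h7 : 0 < u⁻¹ := inv_pos.2 hu0
    rw [div_eq_mul_inv]
    nlinarith [mul_le_mul_of_nonneg_left h5 (mul_pos h6 h7).le]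
  simp only [intervalIntegral.integral_same, mul_zero, neg_zero, exp_zero, one_mul] at h3
  have h8 : exp (-(2 * ∫ q in r..t, ε q / q)) * (Tw W φ w ε a H t ω ⬝ᵥ Tw W φ w ε a H t ω) ≤
      Tw W φ w ε a H r ω ⬝ᵥ Tw W φ w ε a H r ω := by linarith
  have h9 := mul_le_mul_of_nonneg_left h8 (exp_pos (2 * ∫ q in r..t, ε q / q)).le
  rwa [← mul_assoc, ← exp_add, add_neg_cancel, exp_zero, one_mul] at h9

/-- `r v_r (f)` is a semimartingale with drift `v - X v` -/
theorem sm_vv (hw : Wt w) (ha : 0 ≤ a) (hab : a ≤ b) (hb : b ≤ T) (f : Ω → ℝ) (j : ι) :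
    W.SM (W.Qsl φ w T) a b (fun t ω => (t • vv φ w f (t, W.B t ω)) j)
      fun t ω => (vv φ w f (t, W.B t ω) - Xp φ w (t, W.B t ω) *ᵥ vv φ w f (t, W.B t ω)) j := by
  have hQ := BM.nice_sl (W := W) (φ := φ) hw (ha.trans (hab.trans hb))
  have h1 := BM.sm_sl (W := W) hw ha hab hb (ito_cov (φ := φ) (I := Icc a b) hw f fun x => φ x j)
  have h2 : W.FV a b (fun t _ => t) fun _ _ => 1 :=
    BM.FV.time (f := fun t => t) (f' := fun _ => 1) continuousOn_id continuousOn_const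
      fun t _ => hasDerivAt_id t
  refine (h1.mul_fv hQ h2).congr (fun _ _ _ => rfl) fun t _ ω => ?_
  simp only [Pi.sub_apply, Xp, smul_mulVec, Pi.smul_apply, smul_eq_mul, vv, one_mul]
  have : (covMat (pw φ w (t, W.B t ω)) φ *ᵥ covV (pw φ w (t, W.B t ω)) f φ) j =
      covV (pw φ w (t, W.B t ω)) f φ ⬝ᵥ covV (pw φ w (t, W.B t ω)) (fun x => φ x j) φ := by
    rw [dotProduct_comm]; rfl
  rw [this]
  simp only [covV]
  ring

/-- conservation law -/
theorem sm_cons (hw : Wt w) (ha : 0 < a) (hab : a ≤ b) (hb : b ≤ T) (hε : ContinuousOn ε (Icc a b))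
    (ε0 : ∀ t ∈ Icc a b, 0 ≤ ε t) (hH : ∀ j, W.Tm a fun ω => H ω j) (f : Ω → ℝ) :
    W.SM (W.Qsl φ w T) a b (fun t ω => Tw W φ w ε a H t ω ⬝ᵥ t • vv φ w f (t, W.B t ω))
      fun t ω => -((1 - ig φ w ε (t, W.B t ω)) *
        (Tw W φ w ε a H t ω ⬝ᵥ Xp φ w (t, W.B t ω) *ᵥ vv φ w f (t, W.B t ω))) := by
  have hQ := BM.nice_sl (W := W) (φ := φ) hw (ha.le.trans (hab.trans hb))
  refine (sm_dot hQ (V' := fun t ω => t⁻¹ • ((Yp φ w ε (t, W.B t ω) - 1) *ᵥ Tw W φ w ε a H t ω))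
    (fv_Tw hw ha hε ε0 hH) (sm_vv hw ha.le hab hb f)).congr (fun _ _ _ => rfl) fun t ht ω => ?_
  have ht0 : t ≠ 0 := (ha.trans_le ht.1).ne'
  rw [smul_dotProduct, dotProduct_smul, smul_smul, inv_mul_cancel₀ ht0, one_smul, sub_mulVec,
    one_mulVec, sub_dotProduct, dot_symm (Yp_transpose _), dotProduct_sub, Yp, smul_mulVec,
    dotProduct_smul, smul_eq_mul]
  ring

end Crest.Agent.T157.Tr

end
end

-- ▼ part T157/TrB_64

/-!
# Row 157, part C1 (helper64): vector observables, conservation with bad events, crude bound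
-/

set_option autoImplicit false
set_option linter.unusedSectionVars false

noncomputable section

namespace Crest.Agent.T157.Tr

open MeasureTheory ProbabilityTheory Filter Topology Set Real Matrix
open Crest.Agent.T157.SL Crest.Agent.T157.E Crest.Agent.T157.Pa Crest.Agent.T157.Eig

theorem le_sqrt_of_forall {x a b : ℝ} (ha : 0 ≤ a) (hb : 0 ≤ b)
    (h : ∀ l : ℝ, 0 < l → x ≤ (l * a + b / l) / 2) : x ≤ √a * √b := by
  rcases le_or_gt x 0 with hx | hx
  · exact hx.trans (by positivity)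
  rcases ha.eq_or_lt with ha0 | ha0
  · exfalso
    have h1 := h ((b + 1) / x) (by positivity)
    rw [← ha0, mul_zero, zero_add, div_div_eq_mul_div, div_div, le_div_iff₀ (by positivity)] at h1
    nlinarith
  · have h1 := h (x / a) (by positivity)
    rw [div_mul_cancel₀ _ ha0.ne', div_div_eq_mul_div] at h1
    have h2 : x ≤ b * a / x := by linarith
    rw [le_div_iff₀ hx] at h2
    rw [← Real.sqrt_mul ha]
    exact Real.le_sqrt_of_sq_le (by nlinarith)

theorem int_le_sqrt {α : Type*} [MeasurableSpace α] {μ : Measure α} {F G H : α → ℝ}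
    (hF : Integrable F μ) (hG : Integrable G μ) (hH : Integrable H μ) (G0 : ∀ x, 0 ≤ G x)
    (H0 : ∀ x, 0 ≤ H x) (h : ∀ x, F x ^ 2 ≤ G x * H x) :
    ∫ x, F x ∂μ ≤ √(∫ x, G x ∂μ) * √(∫ x, H x ∂μ) := by
  refine le_sqrt_of_forall (integral_nonneg G0) (integral_nonneg H0) fun l hl => ?_
  rw [← integral_const_mul, ← integral_div, ← integral_add (hG.const_mul l) (hH.div_const l),
    ← integral_div]
  refine integral_mono hF (((hG.const_mul l).add (hH.div_const l)).div_const 2) fun x => ?_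
  have h1 : 0 ≤ (l * G x + H x / l) / 2 := by have := G0 x; have := H0 x; positivity
  refine (le_abs_self _).trans (abs_le_of_sq_le_sq' ?_ h1).2
  have h2 : G x * H x = (l * G x) * (H x / l) := by field_simp
  rw [sq_abs]
  nlinarith [h x, sq_nonneg (l * G x - H x / l)]

variable {Ω : Type*} [Fintype Ω] {ι : Type} [Fintype ι] [DecidableEq ι] {κ : Type*} [Fintype κ]

/-- Hilbert–Schmidt product of families of vectors -/
def dd (U V : κ → ι → ℝ) : ℝ := ∑ a, U a ⬝ᵥ V a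
/-- a matrix acting on a family of vectors -/
def mv (A : Matrix ι ι ℝ) (U : κ → ι → ℝ) : κ → ι → ℝ := fun a => A *ᵥ U a

section dd
variable (U V Z : κ → ι → ℝ) (A : Matrix ι ι ℝ) (c : ℝ)

theorem dd_comm : dd U V = dd V U := Finset.sum_congr rfl fun _ _ => dotProduct_comm _ _
theorem dd_self_nonneg : 0 ≤ dd U U := Finset.sum_nonneg fun _ _ => SL.dot_self_nonneg _
theorem dd_add_left : dd (U + V) Z = dd U Z + dd V Z := by
  simp only [dd, Pi.add_apply, add_dotProduct, Finset.sum_add_distrib]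
theorem dd_sub_left : dd (U - V) Z = dd U Z - dd V Z := by
  simp only [dd, Pi.sub_apply, sub_dotProduct, Finset.sum_sub_distrib]
theorem dd_sub_right : dd Z (U - V) = dd Z U - dd Z V := by
  rw [dd_comm, dd_sub_left, dd_comm U, dd_comm V]
theorem dd_smul_left : dd (c • U) V = c * dd U V := by
  simp only [dd, Pi.smul_apply, smul_dotProduct, smul_eq_mul, Finset.mul_sum]
theorem dd_smul_right : dd U (c • V) = c * dd U V := by rw [dd_comm, dd_smul_left, dd_comm]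

theorem dd_sq_le : dd U V ^ 2 ≤ dd U U * dd V V := by
  have e : ∀ U V : κ → ι → ℝ, dd U V = ∑ p : κ × ι, U p.1 p.2 * V p.1 p.2 := fun U V => by
    rw [Fintype.sum_prod_type]; rfl
  rw [e, e, e]
  simpa only [sq] using Finset.sum_mul_sq_le_sq_mul_sq Finset.univ (fun p : κ × ι => U p.1 p.2)
    fun p : κ × ι => V p.1 p.2

theorem dd_mv_le : dd (mv A U) (mv A U) ≤ opn A ^ 2 * dd U U := by
  rw [dd, dd, Finset.mul_sum]
  exact Finset.sum_le_sum fun a _ => mulVec_dot_le A (U a)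


theorem dd_add_le : dd (U + V) (U + V) ≤ 2 * dd U U + 2 * dd V V := by
  have h := dd_self_nonneg (U - V)
  rw [dd_sub_left, dd_sub_right, dd_sub_right, dd_comm V U] at h
  rw [dd_add_left, dd_comm U, dd_comm V, dd_add_left, dd_add_left, dd_comm V U]
  linarith

theorem mv_sub : mv A (U - V) = mv A U - mv A V := by
  funext a; simp only [mv, Pi.sub_apply, mulVec_sub]

theorem mv_one_sub : mv (1 - A) U = U - mv A U := by
  funext a; simp only [mv, Pi.sub_apply, sub_mulVec, one_mulVec]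

theorem mv_mul (B : Matrix ι ι ℝ) : mv (A * B) U = mv A (mv B U) := by
  funext a; simp only [mv, mulVec_mulVec]

theorem mv_smul : mv (c • A) U = c • mv A U := by
  funext a; simp only [mv, Pi.smul_apply, smul_mulVec]

end dd

variable {W : BM ι} {Q : Measure W.Ω} {r s t T : ℝ}

/-- families of random vectors known at time `r` -/
def TV (W : BM ι) (r : ℝ) (U : W.Ω → κ → ι → ℝ) : Prop := ∀ a j, W.Tm r fun ω => U ω a j

/-- `L²` product of families of random vectors -/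
def II (Q : Measure W.Ω) (U V : W.Ω → κ → ι → ℝ) : ℝ := ∫ ω, dd (U ω) (V ω) ∂Q

namespace TV
variable {U V Z : W.Ω → κ → ι → ℝ} {A : W.Ω → Matrix ι ι ℝ} {c : W.Ω → ℝ}

theorem mono (h : TV W r U) (hr : r ≤ s) : TV W s U := fun a j => (h a j).mono hr
theorem dd (h : TV W r U) (h' : TV W r V) : W.Tm r fun ω => dd (U ω) (V ω) :=
  BM.Tm.sum _ fun a _ => BM.Tm.sum _ fun j _ => (h a j).mul (h' a j)
theorem sub (h : TV W r U) (h' : TV W r V) : TV W r fun ω => U ω - V ω :=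
  fun a j => (h a j).sub (h' a j)
theorem add (h : TV W r U) (h' : TV W r V) : TV W r fun ω => U ω + V ω :=
  fun a j => (h a j).add (h' a j)
theorem smul (h : TV W r U) (hc : W.Tm r c) : TV W r fun ω => c ω • U ω :=
  fun a j => hc.mul (h a j)
theorem mv (h : TV W r U) (hA : ∀ i j, W.Tm r fun ω => A ω i j) : TV W r fun ω => mv (A ω) (U ω) :=
  fun a i => BM.Tm.sum _ fun j _ => (hA i j).mul (h a j)

theorem nonneg (U : W.Ω → κ → ι → ℝ) : 0 ≤ II Q U U := integral_nonneg fun _ => dd_self_nonneg _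

theorem cs (hQ : W.Nice Q) (h : TV W r U) (h' : TV W r V) : II Q U V ≤ √(II Q U U) * √(II Q V V) :=
  int_le_sqrt ((h.dd h').int hQ) ((h.dd h).int hQ) ((h'.dd h').int hQ)
    (fun _ => dd_self_nonneg _) (fun _ => dd_self_nonneg _) fun _ => dd_sq_le _ _

theorem II_sub (hQ : W.Nice Q) (h : TV W r U) (h' : TV W r V) (h'' : TV W r Z) :
    II Q (fun ω => U ω - V ω) Z = II Q U Z - II Q V Z := by
  simp only [II, dd_sub_left]
  exact integral_sub ((h.dd h'').int hQ) ((h'.dd h'').int hQ)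

end TV

variable {φ : Ω → ι → ℝ} {w : Ω → ℝ} {ε p : ℝ → ℝ} {g : κ → Ω → ℝ} {b s0 t1 ρ : ℝ}

/-- the covariance family of a vector observable -/
def Vg (φ : Ω → ι → ℝ) (w : Ω → ℝ) (g : κ → Ω → ℝ) (q : Pt ι) : κ → ι → ℝ :=
  fun a => vv φ w (g a) q
/-- `E |Cov_r (g, φ)|²` -/
def psi (φ : Ω → ι → ℝ) (w : Ω → ℝ) (g : κ → Ω → ℝ) (r : ℝ) : ℝ :=
  ex φ w (fun q => dd (Vg φ w g q) (Vg φ w g q)) r
/-- transported family -/
def TW (W : BM ι) (φ : Ω → ι → ℝ) (w : Ω → ℝ) (ε : ℝ → ℝ) (s : ℝ) (H : W.Ω → κ → ι → ℝ) (t : ℝ)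
    (ω : W.Ω) : κ → ι → ℝ := fun a => Tw W φ w ε s (fun ω => H ω a) t ω

theorem sum_var_le (hw : Wt w) (hb : ∀ x, ∑ a, g a x ^ 2 ≤ b ^ 2) : ∑ a, var w (g a) ≤ b ^ 2 := by
  calc ∑ a, var w (g a) ≤ ∑ a, mean w fun x => g a x ^ 2 :=
        Finset.sum_le_sum fun a _ => by simpa using hw.var_le_mean (g a) 0
    _ = mean w fun x => ∑ a, g a x ^ 2 := (mean_sum w _ _).symm
    _ ≤ b ^ 2 := hw.mean_le hb

theorem dd_Vg_le' (hw : Wt w) {q : Pt ι} (hq : 0 < q.1) (g : κ → Ω → ℝ) :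
    q.1 * dd (Vg φ w g q) (Vg φ w g q) ≤ nx φ w q * ∑ a, var (pw φ w q) (g a) := by
  rw [dd, Finset.mul_sum, Finset.mul_sum]
  exact Finset.sum_le_sum fun a _ => vv_sq_le hw hq (g a)

theorem dd_Vg_le (hw : Wt w) {q : Pt ι} (hq : 0 < q.1) (hb : ∀ x, ∑ a, g a x ^ 2 ≤ b ^ 2) :
    q.1 * dd (Vg φ w g q) (Vg φ w g q) ≤ nx φ w q * b ^ 2 :=
  (dd_Vg_le' hw hq g).trans
    (mul_le_mul_of_nonneg_left (sum_var_le (hw.post φ _ _) hb) (nx_nonneg q))

theorem eg_dd_Vg (hw : Wt w) (g : κ → Ω → ℝ) {I : Set ℝ} :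
    EG I fun q => dd (Vg φ w g q) (Vg φ w g q) :=
  EG.sum _ fun a _ => eg_covV_dot hw (g a) (g a)

theorem mg_dd_Vg (hw : Wt w) (g : κ → Ω → ℝ) (t : ℝ) :
    MG fun y => dd (Vg φ w g (t, y)) (Vg φ w g (t, y)) := (eg_dd_Vg (I := univ) hw g).mg trivial

theorem psi_nonneg (hw : Wt w) (r : ℝ) : 0 ≤ psi φ w g r := ex_nonneg hw fun _ => dd_self_nonneg _

theorem tv_Vg (hw : Wt w) (ht : 0 ≤ t) (g : κ → Ω → ℝ) :
    TV W t fun ω => Vg φ w g (t, W.B t ω) := fun a j => W.tm_mg ht (mg_vv hw (g a) t j)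

theorem tm_ig (hw : Wt w) (ht : 0 ≤ t) : W.Tm t fun ω => ig φ w ε (t, W.B t ω) :=
  W.tm_mg ht (mg_ig hw ε t)


theorem tm_X (hw : Wt w) (ht : 0 ≤ t) (i j : ι) : W.Tm t fun ω => Xp φ w (t, W.B t ω) i j :=
  W.tm_mg ht (mg_X hw t i j)

theorem tm_Y (hw : Wt w) (ht : 0 ≤ t) (i j : ι) : W.Tm t fun ω => Yp φ w ε (t, W.B t ω) i j :=
  (tm_ig hw ht).mul (tm_X hw ht i j)

theorem tm_pb (hw : Wt w) (ht : 0 ≤ t) (m : ℕ) :
    W.Tm t fun ω => (1 - ig φ w ε (t, W.B t ω)) * (1 + nx φ w (t, W.B t ω)) ^ m :=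
  W.tm_mg ht (mg_pb hw ε m t)

theorem int_pb (hw : Wt w) (ht : t ∈ Icc 0 T) (m : ℕ) :
    ∫ ω, (1 - ig φ w ε (t, W.B t ω)) * (1 + nx φ w (t, W.B t ω)) ^ m ∂W.Qsl φ w T =
      pb φ w ε m t :=
  BM.int_sl_ex (G := fun q => (1 - ig φ w ε q) * (1 + nx φ w q) ^ m) hw ht (mg_pb hw ε m t)

theorem II_Vg (hw : Wt w) (ht : t ∈ Icc 0 T) (g : κ → Ω → ℝ) :
    II (W.Qsl φ w T) (fun ω => t • Vg φ w g (t, W.B t ω)) (fun ω => t • Vg φ w g (t, W.B t ω)) =
      t ^ 2 * psi φ w g t := by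
  simp only [II, dd_smul_left, dd_smul_right, ← mul_assoc, integral_const_mul]
  rw [BM.int_sl_ex (G := fun q => dd (Vg φ w g q) (Vg φ w g q)) hw ht (mg_dd_Vg hw g t), sq]
  rfl

/-- the covariance bound (A) with fixed-time bad events on `[s0, t1]` -/
structure HA (φ : Ω → ι → ℝ) (w : Ω → ℝ) (ε p : ℝ → ℝ) (s0 t1 ρ : ℝ) : Prop where
  pos : 0 < s0
  cε : ContinuousOn ε (Icc s0 t1)
  ε0 : ∀ r ∈ Icc s0 t1, 0 ≤ ε r
  cp : ContinuousOn p (Icc s0 t1)
  le : ∀ r ∈ Icc s0 t1, pb φ w ε 3 r ≤ p r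
  ρ0 : 0 ≤ ρ
  sup : ∀ r ∈ Icc s0 t1, r * p r ≤ ρ ^ 2
  int : ∫ u in s0..t1, √(p u / u) ≤ ρ

namespace HA
variable {H : W.Ω → κ → ι → ℝ}

theorem p0 (hw : Wt w) (h : HA φ w ε p s0 t1 ρ) (hr : r ∈ Icc s0 t1) : 0 ≤ p r :=
  (pb_nonneg hw 3 r).trans (h.le r hr)

theorem c1 (h : HA φ w ε p s0 t1 ρ) : ContinuousOn (fun u => √(p u / u)) (Icc s0 t1) :=
  (h.cp.div continuousOn_id fun _ hu => (h.pos.trans_le hu.1).ne').sqrt

theorem c2 (h : HA φ w ε p s0 t1 ρ) : ContinuousOn (fun u => ε u / u) (Icc s0 t1) :=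
  h.cε.div continuousOn_id fun _ hu => (h.pos.trans_le hu.1).ne'

theorem int_sub_le {k : ℝ → ℝ} {a c : ℝ} (hk : ContinuousOn k (Icc a c))
    (k0 : ∀ u ∈ Icc a c, 0 ≤ k u) (h1 : a ≤ r) (h2 : r ≤ t) (h3 : t ≤ c) :
    ∫ u in r..t, k u ≤ ∫ u in a..c, k u := by
  have hac : a ≤ c := h1.trans (h2.trans h3)
  refine intervalIntegral.integral_mono_interval h1 h2 h3 ?_ (hk.intervalIntegrable_of_Icc hac)
  filter_upwards [ae_restrict_mem measurableSet_Ioc] with u hu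
  exact k0 u ⟨hu.1.le, hu.2⟩

theorem int_le (h : HA φ w ε p s0 t1 ρ) (h1 : s0 ≤ r) (h2 : r ≤ t) (h3 : t ≤ t1) :
    ∫ u in r..t, √(p u / u) ≤ ρ :=
  (int_sub_le h.c1 (fun _ _ => sqrt_nonneg _) h1 h2 h3).trans h.int

theorem eps_le (h : HA φ w ε p s0 t1 ρ) {a c : ℝ} (h0 : s0 ≤ a) (h1 : a ≤ r) (h2 : r ≤ t)
    (h3 : t ≤ c) (h4 : c ≤ t1) : ∫ u in r..t, ε u / u ≤ ∫ u in a..c, ε u / u :=
  int_sub_le (h.c2.mono (Icc_subset_Icc h0 h4)) (fun u hu =>
    div_nonneg (h.ε0 u ⟨h0.trans hu.1, hu.2.trans h4⟩) (h.pos.le.trans (h0.trans hu.1))) h1 h2 h3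

theorem eps_nonneg (h : HA φ w ε p s0 t1 ρ) (h1 : s0 ≤ r) (h2 : r ≤ t) (h3 : t ≤ t1) :
    0 ≤ ∫ u in r..t, ε u / u :=
  intervalIntegral.integral_nonneg h2 fun u hu =>
    div_nonneg (h.ε0 u ⟨h1.trans hu.1, hu.2.trans h3⟩) (h.pos.le.trans (h1.trans hu.1))

theorem mono (h : HA φ w ε p s0 t1 ρ) (h1 : s0 ≤ r) (h2 : r ≤ t) (h3 : t ≤ t1) :
    HA φ w ε p r t ρ :=
  have hs := Icc_subset_Icc h1 h3
  ⟨h.pos.trans_le h1, h.cε.mono hs, fun u hu => h.ε0 u (hs hu), h.cp.mono hs,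
    fun u hu => h.le u (hs hu), h.ρ0, fun u hu => h.sup u (hs hu), h.int_le h1 h2 h3⟩

theorem int_p_le (hw : Wt w) (h : HA φ w ε p s0 t1 ρ) (h2 : s0 ≤ t1) :
    ∫ u in s0..t1, p u ≤ ρ ^ 2 := by
  calc ∫ u in s0..t1, p u ≤ ∫ u in s0..t1, ρ * √(p u / u) := by
        refine intervalIntegral.integral_mono_on h2 (h.cp.intervalIntegrable_of_Icc h2)
          ((continuousOn_const.mul h.c1).intervalIntegrable_of_Icc h2) fun u hu => ?_
        have hu0 : 0 < u := h.pos.trans_le hu.1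
        have hp := h.p0 hw hu
        refine (abs_le_of_sq_le_sq' ?_ (mul_nonneg h.ρ0 (sqrt_nonneg _))).2
        rw [mul_pow, sq_sqrt (div_nonneg hp hu0.le)]
        calc p u ^ 2 = u * p u * (p u / u) := by field_simp
          _ ≤ _ := mul_le_mul_of_nonneg_right (h.sup u hu) (div_nonneg hp hu0.le)
    _ = ρ * ∫ u in s0..t1, √(p u / u) := intervalIntegral.integral_const_mul _ _
    _ ≤ ρ ^ 2 := by rw [sq]; exact mul_le_mul_of_nonneg_left h.int h.ρ0

theorem tv_TW (hw : Wt w) (h : HA φ w ε p s0 t1 ρ) (hH : TV W s0 H) (ht : t ∈ Icc s0 t1) :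
    TV W t (TW W φ w ε s0 H t) :=
  fun a j => (fv_Tw (φ := φ) hw h.pos h.cε h.ε0 (hH a) j).ad.tm ht

theorem TW_start (H : W.Ω → κ → ι → ℝ) : TW W φ w ε s0 H s0 = H := by
  funext ω a; exact Tw_start ω

theorem TW_le (hw : Wt w) (h : HA φ w ε p s0 t1 ρ) (hH : TV W s0 H) (h1 : s0 ≤ r) (h2 : r ≤ t)
    (h3 : t ≤ t1) (ω : W.Ω) : dd (TW W φ w ε s0 H t ω) (TW W φ w ε s0 H t ω) ≤
      exp (2 * ∫ u in r..t, ε u / u) * dd (TW W φ w ε s0 H r ω) (TW W φ w ε s0 H r ω) := by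
  rw [dd, dd, Finset.mul_sum]
  exact Finset.sum_le_sum fun a _ => Tw_sq_le hw h.pos h.cε h.ε0 (hH a) h1 h2 h3 ω

theorem II_TW_le (hw : Wt w) (h : HA φ w ε p s0 t1 ρ) (hQ : W.Nice Q) (hH : TV W s0 H)
    (h1 : s0 ≤ r) (h2 : r ≤ t) (h3 : t ≤ t1) :
    II Q (TW W φ w ε s0 H t) (TW W φ w ε s0 H t) ≤
      exp (2 * ∫ u in r..t, ε u / u) * II Q (TW W φ w ε s0 H r) (TW W φ w ε s0 H r) := by
  have a1 := h.tv_TW hw hH ⟨h1.trans h2, h3⟩
  have a2 := h.tv_TW hw hH ⟨h1, h2.trans h3⟩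
  rw [II, II, ← integral_const_mul]
  exact integral_mono ((a1.dd a1).int hQ) (((a2.dd a2).int hQ).const_mul _)
    fun ω => h.TW_le hw hH h1 h2 h3 ω

theorem sqrt_II_TW_le (hw : Wt w) (h : HA φ w ε p s0 t1 ρ) (hQ : W.Nice Q) (hH : TV W s0 H)
    (ht : t ∈ Icc s0 t1) : √(II Q (TW W φ w ε s0 H t) (TW W φ w ε s0 H t)) ≤
      exp (∫ u in s0..t1, ε u / u) * √(II Q H H) := by
  have h1 := h.II_TW_le hw hQ hH le_rfl ht.1 ht.2
  rw [TW_start] at h1
  have h2 := h.eps_le le_rfl le_rfl ht.1 ht.2 le_rfl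
  refine sqrt_le_iff.2 ⟨by positivity, h1.trans ?_⟩
  rw [mul_pow, sq_sqrt (TV.nonneg H), ← exp_nat_mul]
  exact mul_le_mul_of_nonneg_right (exp_le_exp.2 (by push_cast; linarith)) (TV.nonneg H)

theorem sm_vec (hw : Wt w) (h : HA φ w ε p s0 t1 ρ) (h01 : s0 ≤ t1) (hT : t1 ≤ T)
    (hH : TV W s0 H) (g : κ → Ω → ℝ) :
    W.SM (W.Qsl φ w T) s0 t1 (fun t ω => dd (TW W φ w ε s0 H t ω) (t • Vg φ w g (t, W.B t ω)))
      fun t ω => -((1 - ig φ w ε (t, W.B t ω)) *
        dd (TW W φ w ε s0 H t ω) (mv (Xp φ w (t, W.B t ω)) (Vg φ w g (t, W.B t ω)))) := by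
  have hQ := BM.nice_sl (W := W) (φ := φ) hw (h.pos.le.trans (h01.trans hT))
  refine (BM.SM.sum hQ Finset.univ fun a _ =>
    sm_cons hw h.pos h01 hT h.cε h.ε0 (hH a) (g a)).congr (fun _ _ _ => rfl) fun t _ ω => ?_
  simp only [dd, Finset.mul_sum, Finset.sum_neg_distrib]
  rfl

/-- conservation up to the bad events -/
theorem cons_le (hw : Wt w) (h : HA φ w ε p s0 t1 ρ) (h01 : s0 ≤ t1) (hT : t1 ≤ T)
    (hH : TV W s0 H) (hb0 : 0 ≤ b) (hb : ∀ x, ∑ a, g a x ^ 2 ≤ b ^ 2) :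
    II (W.Qsl φ w T) H (fun ω => s0 • Vg φ w g (s0, W.B s0 ω)) ≤
      II (W.Qsl φ w T) (TW W φ w ε s0 H t1) (fun ω => t1 • Vg φ w g (t1, W.B t1 ω)) +
        exp (∫ u in s0..t1, ε u / u) * √(II (W.Qsl φ w T) H H) * b * ρ := by
  have hQ := BM.nice_sl (W := W) (φ := φ) hw (h.pos.le.trans (h01.trans hT))
  set G := exp (∫ u in s0..t1, ε u / u) * √(II (W.Qsl φ w T) H H) * b with hG
  have G0 : 0 ≤ G := by positivity
  have h1 := (h.sm_vec hw h01 hT hH g).neg.expect_le hQ le_rfl h01 le_rfl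
    (k := fun u => G * √(p u / u)) ((continuousOn_const.mul h.c1).intervalIntegrable_of_Icc h01)
    fun u hu => ?_
  · simp only [integral_neg, TW_start, intervalIntegral.integral_const_mul] at h1
    have h2 := mul_le_mul_of_nonneg_left h.int G0
    unfold II
    linarith
  · have hu' : u ∈ Icc s0 t1 := ⟨hu.1.le, hu.2.le⟩
    have hu0 : 0 < u := h.pos.trans hu.1
    have a1 := h.tv_TW hw hH hu'
    have a2 := (tv_Vg (W := W) (φ := φ) hw hu0.le g).mv (tm_X (φ := φ) hw hu0.le)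
    have a3 := (BM.Tm.const (W := W) (r := u) 1).sub (tm_ig (φ := φ) (ε := ε) hw hu0.le)
    simp only [neg_neg]
    refine (int_le_sqrt ((a3.mul (a1.dd a2)).int hQ) ((a1.dd a1).int hQ)
      (((tm_pb (φ := φ) (ε := ε) hw hu0.le 3).int hQ).const_mul (b ^ 2 / u))
      (fun _ => dd_self_nonneg _) (fun ω => ?_) fun ω => ?_).trans ?_
    · have := nx_nonneg (φ := φ) (w := w) (u, W.B u ω)
      have := sub_nonneg.2 (ig_le_one (φ := φ) (w := w) (ε := ε) (u, W.B u ω))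
      positivity
    · have n0 := nx_nonneg (φ := φ) (w := w) (u, W.B u ω)
      have b1 := dd_sq_le (TW W φ w ε s0 H u ω)
        (mv (Xp φ w (u, W.B u ω)) (Vg φ w g (u, W.B u ω)))
      have b2 := dd_mv_le (Vg φ w g (u, W.B u ω)) (Xp φ w (u, W.B u ω))
      have b3 := dd_Vg_le (φ := φ) (q := (u, W.B u ω)) hw hu0 hb
      have b4 : dd (Vg φ w g (u, W.B u ω)) (Vg φ w g (u, W.B u ω)) ≤
          nx φ w (u, W.B u ω) * (b ^ 2 / u) := by
        rw [← mul_div_assoc, le_div_iff₀ hu0]; simp only at b3; linarith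
      have b5 : dd (mv (Xp φ w (u, W.B u ω)) (Vg φ w g (u, W.B u ω)))
          (mv (Xp φ w (u, W.B u ω)) (Vg φ w g (u, W.B u ω))) ≤
          b ^ 2 / u * (1 + nx φ w (u, W.B u ω)) ^ 3 := by
        refine b2.trans ((mul_le_mul_of_nonneg_left b4 (sq_nonneg _)).trans ?_)
        have : nx φ w (u, W.B u ω) ^ 3 ≤ (1 + nx φ w (u, W.B u ω)) ^ 3 :=
          pow_le_pow_left₀ n0 (by linarith) 3
        calc opn (Xp φ w (u, W.B u ω)) ^ 2 * (nx φ w (u, W.B u ω) * (b ^ 2 / u))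
            = b ^ 2 / u * nx φ w (u, W.B u ω) ^ 3 := by unfold nx; ring
          _ ≤ _ := mul_le_mul_of_nonneg_left this (by positivity)
      have b6 := b1.trans (mul_le_mul_of_nonneg_left b5 (dd_self_nonneg _))
      rcases ig_cases (φ := φ) (w := w) (ε := ε) (u, W.B u ω) with e | e
      · simp [e.2]
      · simpa [e.2] using b6
    · rw [integral_const_mul, int_pb hw ⟨hu0.le, hu'.2.trans hT⟩, hG]
      have c1 := h.sqrt_II_TW_le hw hQ hH hu'
      have c2 : √(b ^ 2 / u * pb φ w ε 3 u) ≤ b * √(p u / u) := by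
        refine sqrt_le_iff.2 ⟨by positivity, ?_⟩
        rw [mul_pow, sq_sqrt (div_nonneg (h.p0 hw hu') hu0.le)]
        calc b ^ 2 / u * pb φ w ε 3 u ≤ b ^ 2 / u * p u :=
              mul_le_mul_of_nonneg_left (h.le u hu') (by positivity)
          _ = _ := by ring
      calc _ ≤ (exp (∫ u in s0..t1, ε u / u) * √(II (W.Qsl φ w T) H H)) * (b * √(p u / u)) :=
            mul_le_mul c1 c2 (sqrt_nonneg _) (by positivity)
        _ = _ := by ring

end HA

/-- the starting family `s 1_good Cov_s (g, φ)` -/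
def H0 (W : BM ι) (φ : Ω → ι → ℝ) (w : Ω → ℝ) (ε : ℝ → ℝ) (g : κ → Ω → ℝ) (s : ℝ) (ω : W.Ω) :
    κ → ι → ℝ := ig φ w ε (s, W.B s ω) • s • Vg φ w g (s, W.B s ω)

theorem tv_H0 (hw : Wt w) (hs : 0 ≤ s) : TV W s (H0 W φ w ε g s) :=
  ((tv_Vg hw hs g).smul (BM.Tm.const s)).smul (tm_ig hw hs)

theorem II_H0 (g : κ → Ω → ℝ) : II Q (H0 W φ w ε g s) (fun ω => s • Vg φ w g (s, W.B s ω)) =
    II Q (H0 W φ w ε g s) (H0 W φ w ε g s) := by
  simp only [II, H0, dd_smul_left, dd_smul_right]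
  refine integral_congr_ae (Eventually.of_forall fun ω => ?_)
  rcases ig_cases (φ := φ) (w := w) (ε := ε) (s, W.B s ω) with e | e <;> simp [e.2]

theorem dd_H0_le (hw : Wt w) (hs : 0 < s) (ε0 : 0 ≤ ε s) (hb : ∀ x, ∑ a, g a x ^ 2 ≤ b ^ 2)
    (ω : W.Ω) : dd (H0 W φ w ε g s ω) (H0 W φ w ε g s ω) ≤ s * (1 + ε s) * b ^ 2 := by
  have b3 := dd_Vg_le (φ := φ) (q := (s, W.B s ω)) hw hs hb
  simp only [H0, dd_smul_left, dd_smul_right]
  rcases ig_cases (φ := φ) (w := w) (ε := ε) (s, W.B s ω) with e | e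
  · rw [e.2]
    have := mul_le_mul_of_nonneg_right e.1 (sq_nonneg b)
    simp only at b3 this
    nlinarith
  · rw [e.2]; simp only [zero_mul]; positivity

theorem psi_le_H0 (hw : Wt w) (hs : 0 < s) (hT : s ≤ T) (hb : ∀ x, ∑ a, g a x ^ 2 ≤ b ^ 2) :
    s ^ 2 * psi φ w g s ≤
      II (W.Qsl φ w T) (H0 W φ w ε g s) (H0 W φ w ε g s) + b ^ 2 * (s * pb φ w ε 3 s) := by
  have hQ := BM.nice_sl (W := W) (φ := φ) hw (hs.le.trans hT)
  have a1 := tv_H0 (W := W) (φ := φ) (ε := ε) (g := g) hw hs.le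
  have a2 := (tv_Vg (W := W) (φ := φ) hw hs.le g).smul (BM.Tm.const s)
  have a3 := (tm_pb (W := W) (φ := φ) (ε := ε) hw hs.le 3).int hQ
  rw [← II_Vg (W := W) hw ⟨hs.le, hT⟩, ← int_pb (W := W) hw ⟨hs.le, hT⟩, II, II, ← mul_assoc,
    ← integral_const_mul, ← integral_add ((a1.dd a1).int hQ) (a3.const_mul _)]
  refine integral_mono ((a2.dd a2).int hQ) (((a1.dd a1).int hQ).add (a3.const_mul _)) fun ω => ?_
  have b3 := dd_Vg_le (φ := φ) (q := (s, W.B s ω)) hw hs hb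
  have n0 := nx_nonneg (φ := φ) (w := w) (s, W.B s ω)
  simp only [H0, dd_smul_left, dd_smul_right]
  rcases ig_cases (φ := φ) (w := w) (ε := ε) (s, W.B s ω) with e | e
  · simp [e.2]
  · rw [e.2]
    have h3 : nx φ w (s, W.B s ω) ≤ (1 + nx φ w (s, W.B s ω)) ^ 3 := by nlinarith [sq_nonneg (nx φ w (s, W.B s ω)), mul_nonneg n0 (sq_nonneg (nx φ w (s, W.B s ω)))]
    have h4 := mul_le_mul_of_nonneg_right h3 (sq_nonneg b)
    simp only at b3
    nlinarith

/-- almost monotonicity of `s² E|v_s|²` -/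
theorem HA.crude (hw : Wt w) (h : HA φ w ε p s0 t1 ρ) (h01 : s0 ≤ t1) (hb0 : 0 ≤ b)
    (hb : ∀ x, ∑ a, g a x ^ 2 ≤ b ^ 2) : √(s0 ^ 2 * psi φ w g s0) ≤
      exp (∫ u in s0..t1, ε u / u) * (√(t1 ^ 2 * psi φ w g t1) + b * ρ) + b * ρ := by
  obtain ⟨W⟩ := BM.nonempty ι
  have ht1 : 0 ≤ t1 := h.pos.le.trans h01
  have hQ := BM.nice_sl (W := W) (φ := φ) hw ht1
  have a1 := tv_H0 (W := W) (φ := φ) (ε := ε) (g := g) hw h.pos.le
  have h1 := h.cons_le hw h01 le_rfl a1 hb0 hb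
  have h2 := TV.cs hQ (h.tv_TW hw a1 ⟨h01, le_rfl⟩) ((tv_Vg (φ := φ) hw ht1 g).smul (BM.Tm.const t1))
  have h3 := h.sqrt_II_TW_le hw hQ a1 ⟨h01, le_rfl⟩
  have h4 := psi_le_H0 (W := W) (φ := φ) (ε := ε) hw h.pos h01 hb
  rw [II_H0] at h1
  rw [II_Vg hw ⟨ht1, le_rfl⟩] at h2
  set A2 := II (W.Qsl φ w t1) (H0 W φ w ε g s0) (H0 W φ w ε g s0)
  set G := exp (∫ u in s0..t1, ε u / u)
  set α := √(t1 ^ 2 * psi φ w g t1)
  have A0 : 0 ≤ A2 := TV.nonneg _
  have G0 : 0 < G := exp_pos _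
  have α0 : 0 ≤ α := sqrt_nonneg _
  have ρ0 := h.ρ0
  have h5 : √A2 * √A2 ≤ √A2 * (G * (α + b * ρ)) := by
    rw [mul_self_sqrt A0]
    nlinarith [mul_le_mul_of_nonneg_right h3 α0]
  have h6 : √A2 ≤ G * (α + b * ρ) := by
    rcases (sqrt_nonneg A2).eq_or_lt with e | e
    · rw [← e]; positivity
    · exact le_of_mul_le_mul_left h5 e
  have h7 : s0 * pb φ w ε 3 s0 ≤ ρ ^ 2 :=
    (mul_le_mul_of_nonneg_left (h.le s0 ⟨le_rfl, h01⟩) h.pos.le).trans (h.sup s0 ⟨le_rfl, h01⟩)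
  have h8 : √(s0 ^ 2 * psi φ w g s0) ≤ √A2 + b * ρ := by
    refine sqrt_le_iff.2 ⟨by positivity, h4.trans ?_⟩
    have := mul_le_mul_of_nonneg_left h7 (sq_nonneg b)
    have := sq_sqrt A0
    have : 0 ≤ √A2 * (b * ρ) := by positivity
    nlinarith
  linarith

end Crest.Agent.T157.Tr

end
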