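import Crest.Agent.T157.CascA_65
import Crest.Agent.T157.ConcG_16

-- ▼ part T157/TreeA_58
section

/-!
# Row 157, part D (helper58): one path of nodes of a cascade

* `tm`: the tilted Gaussian law of a level; `node` is additive, satisfies the tower rule and the
  node laws form a martingale;
* `exists_path`: a path of states whose total cost is at most the expected cost;
* `node_exp_le`: exponential moments of the accumulated field under the tilt;
* `P_le`: pointwise domination of a node law by the Gibbs law of its state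
  (no factor depending on the number of levels).
-/

set_option autoImplicit false
set_option linter.unusedSectionVars false

noncomputable section

namespace Crest.Agent.T157.Tree

open MeasureTheory Real Set Finset
open Crest.Agent.T157.E Crest.Agent.T157.SL Crest.Agent.T157.Casc
open Crest.Agent.T157.Conc hiding gv ex

variable {Ω : Type*} [Fintype Ω] [DecidableEq Ω] {w : Ω → ℝ} {Φ Ψ : (Ω → ℝ) → ℝ}

/-! ### exponential growth -/

theorem toEG (h : Eg Φ) : EG Set.univ fun p : Pt Ω => Φ p.2 :=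
  ⟨(h.cont.comp continuous_snd).continuousOn,
    h.bd.imp fun _ => .imp fun _ h => ⟨h.1, h.2.1, fun p _ => h.2.2 p.2⟩⟩

theorem ofEG {G : Pt Ω → ℝ} (h : EG Set.univ G) : Eg fun u => G (0, u) :=
  ⟨(continuousOn_univ.1 (by simpa using h.cont)).comp (Continuous.prodMk_right 0),
    h.bd.imp fun _ => .imp fun _ h => ⟨h.1, h.2.1, fun u => h.2.2 (0, u) trivial⟩⟩

theorem eg_const (c : ℝ) : Eg fun _ : Ω → ℝ => c := ofEG (EG.const c)

theorem eg_add (h : Eg Φ) (h' : Eg Ψ) : Eg fun u => Φ u + Ψ u := ofEG ((toEG h).add (toEG h'))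

theorem eg_mul (h : Eg Φ) (h' : Eg Ψ) : Eg fun u => Φ u * Ψ u := ofEG ((toEG h).mul (toEG h'))

theorem eg_sum {κ : Type*} (s : Finset κ) {G : κ → (Ω → ℝ) → ℝ} (h : ∀ k ∈ s, Eg (G k)) :
    Eg fun u => ∑ k ∈ s, G k u := ofEG (EG.sum s fun k hk => toEG (h k hk))

theorem eg_exp (lam c : ℝ) (x : Ω) : Eg fun u : Ω → ℝ => exp (lam * (u x - c)) :=
  ofEG (EG.exp (G := fun p : Pt Ω => lam * (p.2 x - c)) (by fun_prop) (|lam| * |c|) |lam|
    fun p _ => by
      have h1 : |p.2 x| ≤ ‖p.2‖ := norm_le_pi_norm p.2 x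
      have h2 : |p.2 x - c| ≤ |c| + ‖p.2‖ := by
        have := abs_sub (p.2 x) c
        linarith
      refine (le_abs_self _).trans ?_
      rw [abs_mul, ← mul_add]
      gcongr)

theorem okC_cst (l : Lv Ω) : l.cst.OkC Set.univ :=
  ⟨fun _ _ => continuousOn_const, ‖l.A‖, fun _ _ x i =>
    (norm_le_pi_norm (l.A x) i).trans (norm_le_pi_norm l.A x)⟩

theorem atL_cst (L : List (Lv Ω)) (t : ℝ) : atL (L.map Lv.cst) t = L := by
  induction L with
  | nil => rfl
  | cons l L ih => exact congrArg (l :: ·) ih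

theorem lg_X (hw : Wt w) (L : List (Lv Ω)) : LG Set.univ fun p : Pt Ω => X w L p.2 := by
  have h := lg_XP (I := Set.univ) (L := L.map Lv.cst) hw fun k hk => by
    obtain ⟨l, -, rfl⟩ := List.mem_map.1 hk
    exact okC_cst l
  have e : XP w (L.map Lv.cst) = fun p : Pt Ω => X w L p.2 :=
    funext fun p => by rw [XP, atL_cst]
  rwa [e] at h

theorem eg_tE (hw : Wt w) (l : Lv Ω) (L : List (Lv Ω)) (h : Eg Φ) : Eg (tE l (X w L) Φ) :=
  ofEG ((lg_X hw L).eg_tP (okC_cst l) (toEG h))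

theorem eg_P (hw : Wt w) (L : List (Lv Ω)) (x : Ω) : Eg fun u => P w L u x := by
  have h := eg_PP (I := Set.univ) (L := L.map Lv.cst) hw (fun k hk => by
    obtain ⟨l, -, rfl⟩ := List.mem_map.1 hk
    exact okC_cst l) x
  have e : PP w (L.map Lv.cst) x = fun p : Pt Ω => P w L p.2 x :=
    funext fun p => by rw [PP, atL_cst]
  rw [e] at h
  exact ofEG h

theorem int_shift (l : Lv Ω) (h : Eg Φ) (u : Ω → ℝ) :
    Integrable (fun g => Φ (u + l.fld g)) (gv l.ι) := by
  classical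
  exact eg_int_g (p := (0, u)) ((okC_cst l).eg_sh (toEG h)) trivial

theorem eg_expX (hw : Wt w) (L : List (Lv Ω)) (m : ℝ) : Eg fun u => exp (m * X w L u) :=
  ofEG ((lg_X hw L).exp m)

theorem eg_X (hw : Wt w) (L : List (Lv Ω)) : Eg (X w L) := ofEG (lg_X hw L).eg

/-! ### the tilted law of a level -/

/-- the tilted Gaussian law -/
def tm (w : Ω → ℝ) (l : Lv Ω) (L : List (Lv Ω)) (u : Ω → ℝ) : Measure (l.ι → ℝ) :=
  (gv l.ι).tilted fun g => l.m * X w L (u + l.fld g)

theorem prob_tm (hw : Wt w) (l : Lv Ω) (L : List (Lv Ω)) (u : Ω → ℝ) :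
    IsProbabilityMeasure (tm w l L u) :=
  isProbabilityMeasure_tilted (int_shift l (eg_expX hw L l.m) u)

theorem tE_eq (w : Ω → ℝ) (l : Lv Ω) (L : List (Lv Ω)) (Φ : (Ω → ℝ) → ℝ) (u : Ω → ℝ) :
    tE l (X w L) Φ u = ∫ g, Φ (u + l.fld g) ∂tm w l L u := by
  rw [tm, integral_tilted, tE, ← integral_div]
  exact integral_congr_ae (.of_forall fun g => by simp only [smul_eq_mul]; ring)

theorem int_tm (hw : Wt w) (l : Lv Ω) (L : List (Lv Ω)) (h : Eg Φ) (u : Ω → ℝ) :
    Integrable (fun g => Φ (u + l.fld g)) (tm w l L u) :=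
  (integrable_tilted_iff (int_shift l (eg_expX hw L l.m) u) _).2
    (int_shift l (eg_mul (eg_expX hw L l.m) h) u)

/-! ### nodes -/

theorem node_zero (L : List (Lv Ω)) (Φ : (Ω → ℝ) → ℝ) : node w L 0 Φ = Φ := by
  cases L <;> rfl

theorem node_nil (j : ℕ) (Φ : (Ω → ℝ) → ℝ) : node w [] j Φ = Φ := by
  cases j <;> rfl

theorem node_cons (l : Lv Ω) (L : List (Lv Ω)) (j : ℕ) (Φ : (Ω → ℝ) → ℝ) :
    node w (l :: L) (j + 1) Φ = tE l (X w L) (node w L j Φ) := rfl

theorem eg_node (hw : Wt w) (h : Eg Φ) : ∀ (L : List (Lv Ω)) (j : ℕ), Eg (node w L j Φ)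
  | L, 0 => by rwa [node_zero]
  | [], j + 1 => by rwa [node_nil]
  | l :: L, j + 1 => eg_tE hw l L (eg_node hw h L j)

theorem node_add (hw : Wt w) (h : Eg Φ) (h' : Eg Ψ) : ∀ (L : List (Lv Ω)) (j : ℕ),
    node w L j (fun u => Φ u + Ψ u) = fun u => node w L j Φ u + node w L j Ψ u
  | L, 0 => by simp only [node_zero]
  | [], j + 1 => by simp only [node_nil]
  | l :: L, j + 1 => by
    funext u
    rw [node_cons, node_cons, node_cons, node_add hw h h' L j, tE_eq, tE_eq, tE_eq,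
      integral_add (int_tm hw l L (eg_node hw h L j) u) (int_tm hw l L (eg_node hw h' L j) u)]

theorem node_const_mul (c : ℝ) (Φ : (Ω → ℝ) → ℝ) : ∀ (L : List (Lv Ω)) (j : ℕ),
    node w L j (fun u => c * Φ u) = fun u => c * node w L j Φ u
  | L, 0 => by simp only [node_zero]
  | [], j + 1 => by simp only [node_nil]
  | l :: L, j + 1 => by
    funext u
    rw [node_cons, node_cons, node_const_mul c Φ L j, tE_eq, tE_eq, integral_const_mul]

theorem node_sum (hw : Wt w) {κ : Type*} (s : Finset κ) {G : κ → (Ω → ℝ) → ℝ}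
    (h : ∀ k ∈ s, Eg (G k)) (L : List (Lv Ω)) (j : ℕ) :
    node w L j (fun u => ∑ k ∈ s, G k u) = fun u => ∑ k ∈ s, node w L j (G k) u := by
  classical
  induction s using Finset.induction_on with
  | empty => simpa using node_const_mul (w := w) 0 (fun _ => 0) L j
  | insert k s hk ih =>
    simp only [Finset.sum_insert hk]
    rw [node_add hw (h k (by simp)) (eg_sum s fun j hj => h j (by simp [hj])),
      ih fun j hj => h j (by simp [hj])]

theorem node_tower (Φ : (Ω → ℝ) → ℝ) (j : ℕ) : ∀ (L : List (Lv Ω)) (i : ℕ),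
    node w L (i + j) Φ = node w L i (node w (L.drop i) j Φ)
  | L, 0 => by simp [node_zero]
  | [], i + 1 => by simp [node_nil]
  | l :: L, i + 1 => by
    rw [show i + 1 + j = (i + j) + 1 by omega, node_cons, node_cons, node_tower Φ j L i]
    rfl

theorem node_P (y : Ω) : ∀ (L : List (Lv Ω)) (j : ℕ),
    node w L j (fun u => P w (L.drop j) u y) = fun u => P w L u y
  | L, 0 => by simp [node_zero]
  | [], j + 1 => by simp [node_nil]
  | l :: L, j + 1 => by
    rw [node_cons, List.drop_succ_cons, node_P y L j]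
    rfl

theorem exists_le_node (hw : Wt w) (h : Eg Φ) : ∀ (L : List (Lv Ω)) (j : ℕ) (u : Ω → ℝ),
    ∃ u', Φ u' ≤ node w L j Φ u
  | L, 0, u => ⟨u, by rw [node_zero]⟩
  | [], j + 1, u => ⟨u, by rw [node_nil]⟩
  | l :: L, j + 1, u => by
    have := prob_tm hw l L u
    obtain ⟨g, hg⟩ := exists_le_integral (int_tm hw l L (eg_node hw h L j) u)
    obtain ⟨u', hu'⟩ := exists_le_node hw h L j (u + l.fld g)
    exact ⟨u', by rw [node_cons, tE_eq]; exact hu'.trans hg⟩

theorem P_nonneg (hw : Wt w) : ∀ (L : List (Lv Ω)) (u : Ω → ℝ) (x : Ω), 0 ≤ P w L u x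
  | [], u, x => (wt_exp hw u).prob_nonneg x
  | l :: L, u, x => by
    rw [P, tE_eq]
    exact integral_nonneg fun g => P_nonneg hw L _ x

theorem sum_P (hw : Wt w) : ∀ (L : List (Lv Ω)) (u : Ω → ℝ), ∑ x, P w L u x = 1
  | [], u => (wt_exp hw u).sum_prob
  | l :: L, u => by
    have := prob_tm hw l L u
    simp only [P, tE_eq]
    rw [← integral_finsetSum _ fun x _ => int_tm hw l L (eg_P hw L x) u]
    simp [sum_P hw L]

/-! ### the path -/

/-- expectation of a kernel under `p ⊗ q` -/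
def bil (p q : Ω → ℝ) (K : Ω → Ω → ℝ) : ℝ := ∑ x, ∑ y, p x * q y * K x y


theorem eg_bil (hw : Wt w) (p : Ω → ℝ) (L : List (Lv Ω)) (K : Ω → Ω → ℝ) :
    Eg fun u => bil p (P w L u) K :=
  eg_sum _ fun x _ => eg_sum _ fun y _ =>
    eg_mul (eg_mul (eg_const (p x)) (eg_P hw L y)) (eg_const (K x y))

theorem eg_qf (hw : Wt w) (L : List (Lv Ω)) (K : Ω → Ω → ℝ) : Eg fun u => qf (P w L u) K :=
  eg_sum _ fun x _ => eg_sum _ fun y _ =>
    eg_mul (eg_mul (eg_P hw L x) (eg_P hw L y)) (eg_const (K x y))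

theorem node_bil (hw : Wt w) (p : Ω → ℝ) (L : List (Lv Ω)) (j : ℕ) (K : Ω → Ω → ℝ)
    (u : Ω → ℝ) : node w L j (fun u => bil p (P w (L.drop j) u) K) u = bil p (P w L u) K := by
  unfold bil
  rw [node_sum hw _ fun x _ => eg_sum _ fun y _ =>
    eg_mul (eg_mul (eg_const (p x)) (eg_P hw _ y)) (eg_const (K x y))]
  refine Finset.sum_congr rfl fun x _ => ?_
  rw [node_sum hw _ fun y _ => eg_mul (eg_mul (eg_const (p x)) (eg_P hw _ y)) (eg_const (K x y))]
  refine Finset.sum_congr rfl fun y _ => ?_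
  have e : (fun u => p x * P w (L.drop j) u y * K x y) =
      fun u => (p x * K x y) * P w (L.drop j) u y := funext fun u => by ring
  rw [e, node_const_mul, node_P]
  ring

theorem exists_path (hw : Wt w) (M : ℕ) : ∀ (L : List (Lv Ω)) (p : ℕ → ℕ), Monotone p → p 0 = 0 →
    ∀ (T : ℕ → (Ω → ℝ) → ℝ), (∀ k, Eg (T k)) → ∀ (K : ℕ → Ω → Ω → ℝ) (u : Ω → ℝ),
    ∃ f : ℕ → Ω → ℝ, f 0 = u ∧
      ∑ k ∈ range M, (T k (f k) +
        bil (P w (L.drop (p k)) (f k)) (P w (L.drop (p (k + 1))) (f (k + 1))) (K k)) ≤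
      ∑ k ∈ range M, (node w L (p k) (T k) u + pi2 w L (p k) (K k) u) := by
  induction M with
  | zero => exact fun L p _ _ T _ K u => ⟨fun _ => u, rfl, by simp⟩
  | succ M ih =>
    intro L p hp h0 T hT K u
    set L' := L.drop (p 1)
    set p' : ℕ → ℕ := fun k => p (k + 1) - p 1
    have e1 : ∀ k, p 1 + p' k = p (k + 1) := fun k =>
      Nat.add_sub_cancel' (hp (by omega : 1 ≤ k + 1))
    have e2 : ∀ k, L'.drop (p' k) = L.drop (p (k + 1)) := fun k => by
      rw [List.drop_drop, e1]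
    set V : (Ω → ℝ) → ℝ := fun u' => ∑ k ∈ range M,
      (node w L' (p' k) (T (k + 1)) u' + pi2 w L' (p' k) (K (k + 1)) u')
    have hk : ∀ k, Eg fun u' =>
        node w L' (p' k) (T (k + 1)) u' + pi2 w L' (p' k) (K (k + 1)) u' := fun k =>
      eg_add (eg_node hw (hT _) _ _) (eg_node hw (eg_qf hw _ _) _ _)
    have hV : Eg V := eg_sum _ fun k _ => hk k
    obtain ⟨u', hu'⟩ := exists_le_node hw (eg_add (eg_bil hw (P w L u) L' (K 0)) hV) L (p 1) u
    rw [node_add hw (eg_bil hw (P w L u) L' (K 0)) hV] at hu'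
    simp only [] at hu'
    rw [node_bil hw, node_sum hw _ fun k _ => hk k] at hu'
    obtain ⟨f, hf0, hf⟩ := ih L' p' (fun a b hab => Nat.sub_le_sub_right (hp (by omega)) _)
      (Nat.sub_self _) (fun k => T (k + 1)) (fun k => hT _) (fun k => K (k + 1)) u'
    refine ⟨fun k => Nat.casesOn k u f, rfl, ?_⟩
    rw [sum_range_succ', sum_range_succ']
    simp only [e2] at hf
    have e3 : ∀ k, node w L (p 1) (fun u' =>
        node w L' (p' k) (T (k + 1)) u' + pi2 w L' (p' k) (K (k + 1)) u') u =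
        node w L (p (k + 1)) (T (k + 1)) u + pi2 w L (p (k + 1)) (K (k + 1)) u := fun k => by
      simp only [pi2]
      rw [node_add hw (eg_node hw (hT _) _ _) (eg_node hw (eg_qf hw _ _) _ _), e2,
        show node w L (p (k + 1)) = node w L (p 1 + p' k) by rw [e1], node_tower, node_tower]
    simp only [e3] at hu'
    have e4 : pi2 w L (p 0) (K 0) u = bil (P w L u) (P w L u) (K 0) := by
      rw [h0, pi2, node_zero]; rfl
    have e5 : node w L (p 0) (T 0) u = T 0 u := by rw [h0, node_zero]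
    have e6 : L.drop (p 0) = L := by rw [h0]; rfl
    rw [e4, e5, e6]
    subst hf0
    exact add_le_of_le_sub_right (hf.trans (by
      show V (f 0) ≤ _ - (T 0 u + bil (P w L u) (P w L' (f 0)) (K 0))
      linarith))

/-! ### variances -/

/-- largest variance of a level -/
def vm (l : Lv Ω) : ℝ := ⨆ x, l.cov x x

/-- total variance -/
def vs (L : List (Lv Ω)) : ℝ := (L.map vm).sum

theorem cov_nonneg (l : Lv Ω) (x : Ω) : 0 ≤ l.cov x x :=
  Finset.sum_nonneg fun _ _ => mul_self_nonneg _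

theorem le_vm (l : Lv Ω) (x : Ω) : l.cov x x ≤ vm l :=
  le_ciSup (f := fun x => l.cov x x) (Finite.bddAbove_range _) x

theorem vm_nonneg (l : Lv Ω) : 0 ≤ vm l := Real.iSup_nonneg (cov_nonneg l)

theorem vm_le (l : Lv Ω) {c : ℝ} (hc : 0 ≤ c) (h : ∀ x, l.cov x x ≤ c) : vm l ≤ c :=
  Real.iSup_le h hc

theorem vs_cons (l : Lv Ω) (L : List (Lv Ω)) : vs (l :: L) = vm l + vs L := by simp [vs]

theorem vs_nonneg : ∀ L : List (Lv Ω), 0 ≤ vs L
  | [] => le_rfl
  | l :: L => by rw [vs_cons]; exact add_nonneg (vm_nonneg l) (vs_nonneg L)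

theorem vs_drop_le : ∀ (L : List (Lv Ω)) (j : ℕ), vs (L.drop j) ≤ vs L
  | L, 0 => le_rfl
  | [], j + 1 => le_rfl
  | l :: L, j + 1 => by
    rw [List.drop_succ_cons, vs_cons]
    have := vs_drop_le L j
    have := vm_nonneg l
    linarith

theorem elip_fld (l : Lv Ω) (x : Ω) : ELip (sqrt (vm l)) fun g => l.fld g x :=
  (elip_dot (l.A x)).mono (sqrt_le_sqrt (by simpa [Lv.cov, sq] using le_vm l x))

theorem integral_fld (l : Lv Ω) (x : Ω) : ∫ g, l.fld g x ∂gv l.ι = 0 := by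
  unfold Lv.fld
  rw [integral_finsetSum _ fun i _ => (integrable_eval (μ := fun _ => _)
    (ProbabilityTheory.memLp_id_gaussianReal' 1 (by simp) |>.integrable le_rfl)).const_mul _]
  refine Finset.sum_eq_zero fun i _ => ?_
  rw [integral_const_mul, integral_eval]
  simp

theorem step_mono (hw : Wt w) (l : Lv Ω) (L : List (Lv Ω)) {u u' : Ω → ℝ} {c : ℝ}
    (h : ∀ g, X w L (u + l.fld g) ≤ X w L (u' + l.fld g) + c) :
    X w (l :: L) u ≤ X w (l :: L) u' + c := by
  simp only [X, step]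
  split_ifs with hm
  · refine (integral_mono (int_shift l (eg_X hw L) u)
      ((int_shift l (eg_X hw L) u').add (integrable_const c)) h).trans ?_
    simp only [Pi.add_apply]
    rw [integral_add (int_shift l (eg_X hw L) u') (integrable_const c)]
    simp
  · have i1 := int_shift l (eg_expX hw L l.m) u
    have i2 := int_shift l (eg_expX hw L l.m) u'
    have p1 := integral_exp_pos i1
    have p2 := integral_exp_pos i2
    have e : l.m⁻¹ * log (∫ g, exp (l.m * X w L (u' + l.fld g)) ∂gv l.ι) + c =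
        l.m⁻¹ * log (∫ g, exp (l.m * X w L (u' + l.fld g)) * exp (l.m * c) ∂gv l.ι) := by
      rw [integral_mul_const, log_mul p2.ne' (exp_pos _).ne', log_exp]
      field_simp
    rw [e]
    rcases lt_or_gt_of_ne hm with hm' | hm'
    · refine mul_le_mul_of_nonpos_left (log_le_log ?_ (integral_mono (i2.mul_const _) i1
        fun g => ?_)) (inv_nonpos.2 hm'.le)
      · rw [integral_mul_const]; positivity
      · simp only [← exp_add, exp_le_exp]
        nlinarith [h g]
    · refine mul_le_mul_of_nonneg_left (log_le_log p1 (integral_mono i1 (i2.mul_const _)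
        fun g => ?_)) (inv_nonneg.2 hm'.le)
      simp only [← exp_add, exp_le_exp]
      nlinarith [h g]

theorem X_le_add (hw : Wt w) {c : ℝ} : ∀ (L : List (Lv Ω)) (u u' : Ω → ℝ),
    (∀ x, u x ≤ u' x + c) → X w L u ≤ X w L u' + c
  | [], u, u', h => by
    simp only [X]
    rw [← log_exp c, ← log_mul (wt_exp hw u').pos.ne' (exp_pos _).ne', Finset.sum_mul]
    refine log_le_log (wt_exp hw u).pos (Finset.sum_le_sum fun x _ => ?_)
    rw [mul_assoc, ← exp_add]
    exact mul_le_mul_of_nonneg_left (exp_le_exp.2 (h x)) (hw.nn x)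
  | l :: L, u, u', h => step_mono hw l L fun g => X_le_add hw L _ _ fun x => by
    have := h x
    simp only [Pi.add_apply]
    linarith

theorem elip_X (hw : Wt w) (l : Lv Ω) (L : List (Lv Ω)) (u : Ω → ℝ) :
    ELip (sqrt (vm l)) fun g => X w L (u + l.fld g) := fun g g' => by
  have h1 := X_le_add hw (c := sqrt (vm l) * en (g - g')) L (u + l.fld g) (u + l.fld g') fun x => by
    have := (abs_le.1 (elip_fld l x g g')).2
    simp only [Pi.add_apply]
    linarith
  have h2 := X_le_add hw (c := sqrt (vm l) * en (g - g')) L (u + l.fld g') (u + l.fld g) fun x => by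
    have := (abs_le.1 (elip_fld l x g g')).1
    simp only [Pi.add_apply]
    linarith
  exact abs_le.2 ⟨by linarith, by linarith⟩

theorem mgf_le {ι : Type*} [Fintype ι] {c : ℝ} {F : (ι → ℝ) → ℝ} (h : ELip c F) :
    ∫ g, exp (F g) ∂gv ι ≤ exp ((∫ g, F g ∂gv ι) + c ^ 2 / 2) := by
  have h1 := mgf_lip h 1
  have e : ∀ g, exp (F g) = exp (∫ g, F g ∂gv ι) * exp (1 * (F g - ∫ g, F g ∂gv ι)) := fun g => by
    rw [← exp_add]; congr 1; ring
  rw [integral_congr_ae (.of_forall e), integral_const_mul, exp_add]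
  exact mul_le_mul_of_nonneg_left (by simpa using h1) (exp_pos _).le

/-- the basic tilt estimate -/
theorem tilt_le (hw : Wt w) (l : Lv Ω) (L : List (Lv Ω)) (u : Ω → ℝ) (x : Ω) (a b : ℝ) :
    ∫ g, exp (a * l.fld g x + b * X w L (u + l.fld g)) ∂tm w l L u ≤
      exp (b * (∫ g, X w L (u + l.fld g) ∂gv l.ι) + (|a| + |l.m + b|) ^ 2 * vm l / 2) := by
  have hX := elip_X hw l L u
  have hF := ((elip_fld l x).const_mul a).add (hX.const_mul (l.m + b))
  have h1 := mgf_le hF
  rw [integral_add (((elip_fld l x).const_mul a).integrable) (hX.const_mul (l.m + b)).integrable,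
    integral_const_mul, integral_const_mul, integral_fld, ← add_mul, mul_pow,
    sq_sqrt (vm_nonneg l)] at h1
  have h2 := exp_integral_le (hX.const_mul l.m).integrable (hX.integrable_exp l.m)
  rw [integral_const_mul] at h2
  rw [tm, integral_tilted]
  have e : ∀ g, (exp (l.m * X w L (u + l.fld g)) / ∫ g, exp (l.m * X w L (u + l.fld g)) ∂gv l.ι) •
      exp (a * l.fld g x + b * X w L (u + l.fld g)) =
      exp (a * l.fld g x + (l.m + b) * X w L (u + l.fld g)) /
        ∫ g, exp (l.m * X w L (u + l.fld g)) ∂gv l.ι := fun g => by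
    rw [smul_eq_mul, div_mul_eq_mul_div, ← exp_add]
    congr 2
    ring
  rw [integral_congr_ae (.of_forall e), integral_div, div_le_iff₀ ((exp_pos _).trans_le h2)]
  refine h1.trans (le_trans (le_of_eq ?_) (mul_le_mul_of_nonneg_left h2 (exp_pos _).le))
  rw [← exp_add]
  congr 1
  ring

theorem node_exp_le (hw : Wt w) (lam c : ℝ) (x : Ω) : ∀ (L : List (Lv Ω)) (j : ℕ) (u : Ω → ℝ),
    (∀ l ∈ L, 0 ≤ l.m ∧ l.m ≤ 1) → node w L j (fun u' => exp (lam * (u' x - c))) u ≤
      exp (lam * (u x - c) + (|lam| + 1) ^ 2 * vs L / 2)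
  | L, 0, u, _ => by
    rw [node_zero, exp_le_exp]
    have := vs_nonneg L
    exact le_add_of_nonneg_right (by positivity)
  | [], j + 1, u, _ => by simp [node_nil, vs]
  | l :: L, j + 1, u, hL => by
    have hl := hL l (by simp)
    have h1 := tilt_le hw l L u x lam 0
    simp only [zero_mul, add_zero, zero_add, abs_of_nonneg hl.1] at h1
    rw [node_cons, tE_eq]
    have i2 : Integrable (fun g => exp (lam * l.fld g x)) (tm w l L u) := by
      simpa using int_tm hw l L (eg_exp lam (u x) x) u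
    refine (integral_mono (int_tm hw l L (eg_node hw (eg_exp lam c x) L j) u)
      (i2.const_mul (exp (lam * (u x - c) + (|lam| + 1) ^ 2 * vs L / 2))) fun g =>
      (node_exp_le hw lam c x L j _ fun k hk => hL k (by simp [hk])).trans (le_of_eq ?_)).trans ?_
    · simp only [← exp_add, Pi.add_apply]
      congr 1
      ring
    · rw [integral_const_mul]
      refine (mul_le_mul_of_nonneg_left h1 (exp_pos _).le).trans ?_
      rw [← exp_add, exp_le_exp, vs_cons]
      have h2 : (|lam| + l.m) ^ 2 ≤ (|lam| + 1) ^ 2 :=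
        pow_le_pow_left₀ (add_nonneg (abs_nonneg _) hl.1) (by linarith) 2
      nlinarith [vm_nonneg l]

theorem mean_le_X (hw : Wt w) (l : Lv Ω) (L : List (Lv Ω)) (u : Ω → ℝ) (hl : 0 ≤ l.m) :
    ∫ g, X w L (u + l.fld g) ∂gv l.ι ≤ X w (l :: L) u := by
  simp only [X, step]
  split_ifs with hm
  · exact le_rfl
  · have hX := elip_X hw l L u
    have h2 := exp_integral_le (hX.const_mul l.m).integrable (hX.integrable_exp l.m)
    rw [integral_const_mul] at h2
    have hp : 0 < l.m := lt_of_le_of_ne hl (Ne.symm hm)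
    rw [le_inv_mul_iff₀ hp, le_log_iff_exp_le ((exp_pos _).trans_le h2)]
    exact h2

theorem X_le_mean (hw : Wt w) (l : Lv Ω) (L : List (Lv Ω)) (u : Ω → ℝ) (hl : 0 ≤ l.m) :
    X w (l :: L) u ≤ (∫ g, X w L (u + l.fld g) ∂gv l.ι) + l.m * vm l / 2 := by
  simp only [X, step]
  split_ifs with hm
  · simp [hm]
  · have hX := elip_X hw l L u
    have h1 := mgf_le (hX.const_mul l.m)
    rw [integral_const_mul, mul_pow, sq_sqrt (vm_nonneg l), sq_abs] at h1
    have hp : 0 < l.m := lt_of_le_of_ne hl (Ne.symm hm)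
    rw [inv_mul_le_iff₀ hp, log_le_iff_le_exp (integral_exp_pos (hX.integrable_exp l.m))]
    refine h1.trans (le_of_eq ?_)
    congr 1
    ring

theorem P_le_X (hw : Wt w) (x : Ω) : ∀ (L : List (Lv Ω)) (u : Ω → ℝ),
    (∀ l ∈ L, 0 ≤ l.m ∧ l.m ≤ 1) → P w L u x ≤ w x * exp (u x - X w L u + 5 / 2 * vs L)
  | [], u, _ => by
    simp only [P, X, prob, vs, List.map_nil, List.sum_nil, mul_zero, add_zero]
    rw [exp_sub, exp_log (wt_exp hw u).pos, mul_div_assoc]
  | l :: L, u, hL => by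
    have hl := hL l (by simp)
    have h1 := tilt_le hw l L u x 1 (-1)
    have h2 := X_le_mean hw l L u hl.1
    have i2 : Integrable (fun g => exp (1 * l.fld g x + -1 * X w L (u + l.fld g)))
        (tm w l L u) := by
      simpa [exp_add] using int_tm hw l L (eg_mul (eg_exp 1 (u x) x) (eg_expX hw L (-1))) u
    rw [P, tE_eq]
    refine (integral_mono (int_tm hw l L (eg_P hw L x) u)
      (i2.const_mul (w x * exp (u x + 5 / 2 * vs L))) fun g =>
      (P_le_X hw x L _ fun k hk => hL k (by simp [hk])).trans (le_of_eq ?_)).trans ?_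
    · simp only [mul_assoc (w x), ← exp_add, Pi.add_apply]
      congr 2
      ring
    · rw [integral_const_mul, mul_assoc]
      refine mul_le_mul_of_nonneg_left ((mul_le_mul_of_nonneg_left h1 (exp_pos _).le).trans ?_)
        (hw.nn x)
      rw [← exp_add, exp_le_exp, vs_cons]
      have h3 : (|(1 : ℝ)| + |l.m + -1|) ^ 2 ≤ 2 ^ 2 := by
        refine pow_le_pow_left₀ (by positivity) ?_ 2
        rw [abs_one, abs_of_nonpos (by linarith [hl.2])]
        linarith [hl.1]
      have h4 := mul_le_mul_of_nonneg_right h3 (vm_nonneg l)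
      have h5 := mul_le_mul_of_nonneg_right hl.2 (vm_nonneg l)
      generalize (|(1 : ℝ)| + |l.m + -1|) ^ 2 * vm l = A at h4 ⊢
      generalize l.m * vm l = B at h2 h5
      linarith

theorem tangent_le_X (hw : Wt w) (u : Ω → ℝ) : ∀ (L : List (Lv Ω)) (u' : Ω → ℝ),
    (∀ l ∈ L, 0 ≤ l.m) → X w [] u + ∑ x, P w [] u x * (u' x - u x) ≤ X w L u'
  | [], u', _ => by
    have hj := (convexOn_exp.map_sum_le (t := Finset.univ) (w := P w [] u)
      (p := fun x => u' x - u x) (fun x _ => P_nonneg hw [] u x) (sum_P hw [] u)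
      fun _ _ => Set.mem_univ _)
    simp only [smul_eq_mul] at hj
    have hp := (wt_exp hw u).pos
    simp only [X]
    rw [le_log_iff_exp_le (wt_exp hw u').pos, exp_add, exp_log hp]
    refine (mul_le_mul_of_nonneg_left hj hp.le).trans (le_of_eq ?_)
    rw [Finset.mul_sum]
    refine Finset.sum_congr rfl fun x _ => ?_
    simp only [P, prob, exp_sub]
    have := exp_pos (u x)
    field_simp
  | l :: L, u', hL => by
    refine le_trans ?_ (mean_le_X hw l L u' (hL l (by simp)))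
    have i1 : ∀ x, Integrable (fun g => P w [] u x * l.fld g x) (gv l.ι) := fun x =>
      (elip_fld l x).integrable.const_mul _
    have i2 := integrable_finsetSum Finset.univ fun x _ => i1 x
    have e : X w [] u + ∑ x, P w [] u x * (u' x - u x) = ∫ g, (X w [] u +
        ∑ x, P w [] u x * (u' x - u x) + ∑ x, P w [] u x * l.fld g x) ∂gv l.ι := by
      rw [integral_add (integrable_const _) i2, integral_finsetSum _ fun x _ => i1 x]
      simp [integral_const_mul, integral_fld]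
    rw [e]
    refine integral_mono ((integrable_const _).add i2) (elip_X hw l L u').integrable fun g => ?_
    refine le_trans (le_of_eq ?_) (tangent_le_X hw u L (u' + l.fld g) fun k hk => hL k (by simp [hk]))
    rw [add_assoc, ← Finset.sum_add_distrib]
    congr 1
    exact Finset.sum_congr rfl fun x _ => by simp only [Pi.add_apply]; ring

theorem nil_le_X (hw : Wt w) (L : List (Lv Ω)) (u : Ω → ℝ) (hL : ∀ l ∈ L, 0 ≤ l.m) :
    X w [] u ≤ X w L u := by simpa using tangent_le_X hw u L u hL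

/-- pointwise domination by the Gibbs law of a nearby state -/
theorem P_le (hw : Wt w) (L : List (Lv Ω)) (hL : ∀ l ∈ L, 0 ≤ l.m ∧ l.m ≤ 1) (u u0 : Ω → ℝ)
    {N : ℝ} (hN : ∀ x, |u x - u0 x| ≤ N) (x : Ω) :
    P w L u x ≤ exp (2 * N + 5 / 2 * vs L) * prob (fun y => w y * exp (u0 y)) x := by
  have h1 := nil_le_X hw L u fun l hl => (hL l hl).1
  have h2 := X_le_add hw (c := N) [] u0 u fun y => by linarith [(abs_le.1 (hN y)).1]
  have h3 : prob (fun y => w y * exp (u0 y)) x = w x * exp (u0 x - X w [] u0) := by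
    simp only [X, prob]
    rw [exp_sub, exp_log (wt_exp hw u0).pos, mul_div_assoc]
  refine (P_le_X hw x L u hL).trans ?_
  rw [h3, mul_left_comm, ← exp_add]
  exact mul_le_mul_of_nonneg_left (exp_le_exp.2 (by linarith [(abs_le.1 (hN x)).2])) (hw.nn x)

end Crest.Agent.T157.Tree

end
end

-- ▼ part T157/TreeB_58

/-!
# Row 157, part D (helper58): ancestors from small two-replica remainders

`tree_core` (any finite space) and `tree_cube` (overlaps and barycentres on the cube).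
-/

set_option autoImplicit false
set_option linter.unusedSectionVars false

noncomputable section

namespace Crest.Agent.T157.Tree

open MeasureTheory Real Set Finset Matrix
open Crest.Agent.T157.E Crest.Agent.T157.SL Crest.Agent.T157.Casc

section core
variable {Ω : Type*} [Fintype Ω] [DecidableEq Ω] {w : Ω → ℝ}

theorem bil_nonneg {p q : Ω → ℝ} (hp : ∀ x, 0 ≤ p x) (hq : ∀ x, 0 ≤ q x) {K : Ω → Ω → ℝ}
    (hK : ∀ x y, 0 ≤ K x y) : 0 ≤ bil p q K :=
  Finset.sum_nonneg fun x _ => Finset.sum_nonneg fun y _ =>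
    mul_nonneg (mul_nonneg (hp x) (hq y)) (hK x y)

/-- the exponent of the pointwise domination -/
def lamC (c S lam : ℝ) : ℝ := 2 * ((log c + (lam + 1) ^ 2 * S / 2) / lam) + 5 / 2 * S

/-- **one path of nodes** -/
theorem tree_core (hw : Wt w) (L : List (Lv Ω)) (hL : ∀ l ∈ L, 0 ≤ l.m ∧ l.m ≤ 1) (p : ℕ → ℕ)
    (hp : Monotone p) (M : ℕ) (K : ℕ → Ω → Ω → ℝ) (hK : ∀ k x y, 0 ≤ K k x y) (u0 : Ω → ℝ)
    {ρ lam : ℝ} (hρ : 0 < ρ) (hlam : 0 < lam) (h : ∀ k ≤ M, pi2 w L (p k) (K k) u0 ≤ ρ) :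
    ∃ γ : ℕ → Ω → ℝ, (∀ k x, 0 ≤ γ k x) ∧ (∀ k, ∑ x, γ k x = 1) ∧
      (∀ k ≤ M, bil (γ k) (γ k) (K k) ≤ 3 * (M + 1) * ρ) ∧
      (∀ k ≤ M, bil (γ k) (γ (k + 1)) (K k) ≤ 3 * (M + 1) * ρ) ∧
      ∀ k ≤ M, ∀ x, γ k x ≤ exp (lamC (6 * (M + 1) * Fintype.card Ω) (vs L) lam) *
        prob (fun y => w y * exp (u0 y)) x := by
  obtain ⟨x0, -⟩ := hw.exists_pos
  have hc : (0 : ℝ) < Fintype.card Ω := by exact_mod_cast Fintype.card_pos_iff.2 ⟨x0⟩
  set A := exp ((lam + 1) ^ 2 * vs L / 2) with hA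
  have hA0 : 0 < A := exp_pos _
  set c := ρ / (2 * Fintype.card Ω * A) with hcdef
  have hc0 : 0 < c := by positivity
  set e : (Ω → ℝ) → ℝ := fun u => ∑ x, (exp (lam * (u x - u0 x)) + exp (-lam * (u x - u0 x)))
  have he1 : ∀ x, Eg fun u : Ω → ℝ => exp (lam * (u x - u0 x)) + exp (-lam * (u x - u0 x)) :=
    fun x => eg_add (eg_exp _ _ x) (eg_exp _ _ x)
  have he : Eg e := eg_sum _ fun x _ => he1 x
  have he0 : ∀ u, 0 ≤ e u := fun u => Finset.sum_nonneg fun x _ => by positivity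
  have hne : ∀ j, node w L j e u0 ≤ 2 * Fintype.card Ω * A := fun j => by
    rw [node_sum hw _ fun x _ => he1 x]
    refine (Finset.sum_le_card_nsmul _ _ (2 * A) fun x _ => ?_).trans (le_of_eq ?_)
    · rw [node_add hw (eg_exp _ _ x) (eg_exp _ _ x)]
      have h1 := node_exp_le hw lam (u0 x) x L j u0 hL
      have h2 := node_exp_le hw (-lam) (u0 x) x L j u0 hL
      simp only [sub_self, mul_zero, zero_add, abs_neg, abs_of_pos hlam] at h1 h2
      simp only []
      linarith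
    · rw [nsmul_eq_mul, Finset.card_univ]
      ring
  set p' : ℕ → ℕ := fun k => Nat.casesOn k 0 p
  set T : ℕ → (Ω → ℝ) → ℝ := fun k => Nat.casesOn k (fun _ => 0)
    fun k u => qf (P w (L.drop (p k)) u) (K k) + c * e u
  set K' : ℕ → Ω → Ω → ℝ := fun k => Nat.casesOn k (fun _ _ => 0) K
  have hp' : Monotone p' := monotone_nat_of_le_succ fun k => by
    cases k with
    | zero => exact Nat.zero_le _
    | succ k => exact hp (Nat.le_succ k)
  have hT : ∀ k, Eg (T k) := fun k => by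
    cases k with
    | zero => exact eg_const 0
    | succ k => exact eg_add (eg_qf hw _ _) (eg_mul (eg_const c) he)
  obtain ⟨f, -, hf⟩ := exists_path hw (M + 2) L p' hp' rfl T hT K' u0
  rw [sum_range_succ', sum_range_succ' _ (M + 1)] at hf
  have z1 : T 0 (f 0) + bil (P w (L.drop (p' 0)) (f 0)) (P w (L.drop (p' (0 + 1))) (f (0 + 1)))
      (K' 0) = 0 := by simp [T, K', bil]
  have z2 : node w L (p' 0) (T 0) u0 + pi2 w L (p' 0) (K' 0) u0 = 0 := by
    simp [p', T, K', pi2, node_zero, qf]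
  rw [z1, z2, add_zero, add_zero] at hf
  set γ : ℕ → Ω → ℝ := fun k => P w (L.drop (p k)) (f (k + 1))
  have hγ : ∀ k x, 0 ≤ γ k x := fun k x => P_nonneg hw _ _ x
  have hR : ∑ k ∈ range (M + 1), (node w L (p' (k + 1)) (T (k + 1)) u0 +
      pi2 w L (p' (k + 1)) (K' (k + 1)) u0) ≤ 3 * (M + 1) * ρ := by
    refine (Finset.sum_le_card_nsmul _ _ (3 * ρ) fun k hk => ?_).trans (le_of_eq ?_)
    · have h1 := h k (Nat.lt_succ_iff.1 (mem_range.1 hk))
      have h2 : c * node w L (p k) e u0 ≤ ρ := by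
        refine (mul_le_mul_of_nonneg_left (hne _) hc0.le).trans (le_of_eq ?_)
        rw [hcdef]
        field_simp
      show node w L (p k) (fun u => qf (P w (L.drop (p k)) u) (K k) + c * e u) u0 +
        pi2 w L (p k) (K k) u0 ≤ 3 * ρ
      rw [node_add hw (eg_qf hw _ _) (eg_mul (eg_const c) he), node_const_mul]
      have h3 : node w L (p k) (fun u => qf (P w (L.drop (p k)) u) (K k)) u0 ≤ ρ := h1
      simp only []
      linarith
    · rw [nsmul_eq_mul, card_range]
      push_cast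
      ring
  have hk : ∀ k ≤ M, bil (γ k) (γ k) (K k) + c * e (f (k + 1)) + bil (γ k) (γ (k + 1)) (K k) ≤
      3 * (M + 1) * ρ := fun k hk =>
    (Finset.single_le_sum (f := fun k => bil (γ k) (γ k) (K k) + c * e (f (k + 1)) +
      bil (γ k) (γ (k + 1)) (K k)) (fun j _ => add_nonneg (add_nonneg
        (bil_nonneg (hγ j) (hγ j) (hK j)) (mul_nonneg hc0.le (he0 _)))
        (bil_nonneg (hγ j) (hγ _) (hK j))) (mem_range.2 (Nat.lt_succ_of_le hk))).trans
      (hf.trans hR)
  have n1 := fun k => bil_nonneg (hγ k) (hγ k) (hK k)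
  have n2 := fun k => bil_nonneg (hγ k) (hγ (k + 1)) (hK k)
  have n3 := fun k => mul_nonneg hc0.le (he0 (f (k + 1)))
  refine ⟨γ, hγ, fun k => sum_P hw _ _, fun k hkM => by linarith [hk k hkM, n2 k, n3 k],
    fun k hkM => by linarith [hk k hkM, n1 k, n3 k], fun k hkM x => ?_⟩
  have h1 : e (f (k + 1)) ≤ 6 * (M + 1) * Fintype.card Ω * A := by
    have h2 : c * e (f (k + 1)) ≤ 3 * (M + 1) * ρ := by linarith [hk k hkM, n1 k, n2 k]
    rw [← le_div_iff₀' hc0, hcdef] at h2
    refine h2.trans (le_of_eq ?_)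
    field_simp
    ring
  have h2 : ∀ y, |f (k + 1) y - u0 y| ≤
      (log (6 * (M + 1) * Fintype.card Ω) + (lam + 1) ^ 2 * vs L / 2) / lam := fun y => by
    have h3 : exp (lam * (f (k + 1) y - u0 y)) + exp (-lam * (f (k + 1) y - u0 y)) ≤
        e (f (k + 1)) := Finset.single_le_sum (f := fun x =>
          exp (lam * (f (k + 1) x - u0 x)) + exp (-lam * (f (k + 1) x - u0 x)))
        (fun x _ => by positivity) (Finset.mem_univ y)
    have h4 : exp (lam * |f (k + 1) y - u0 y|) ≤ 6 * (M + 1) * Fintype.card Ω * A := by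
      have := exp_pos (lam * (f (k + 1) y - u0 y))
      have := exp_pos (-lam * (f (k + 1) y - u0 y))
      rcases abs_cases (f (k + 1) y - u0 y) with h5 | h5 <;> rw [h5.1]
      · linarith
      · rw [show lam * -(f (k + 1) y - u0 y) = -lam * (f (k + 1) y - u0 y) by ring]
        linarith
    rw [le_div_iff₀' hlam, ← exp_le_exp, exp_add, exp_log (by positivity)]
    exact h4
  refine (P_le hw _ (fun l hl => hL l (List.mem_of_mem_drop hl)) _ u0 h2 x).trans
    (mul_le_mul_of_nonneg_right (exp_le_exp.2 ?_) ((wt_exp hw u0).prob_nonneg x))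
  have := vs_drop_le L (p k)
  unfold lamC
  linarith

theorem sq_bil_le {p q : Ω → ℝ} (hp : ∀ x, 0 ≤ p x) (hp1 : ∑ x, p x = 1) (hq : ∀ x, 0 ≤ q x)
    (hq1 : ∑ x, q x = 1) (F : Ω → Ω → ℝ) (a : ℝ) :
    (bil p q F - a) ^ 2 ≤ bil p q fun x y => (F x y - a) ^ 2 := by
  have h1 : ∑ x, ∑ y, p x * q y = 1 := by
    simp only [← Finset.mul_sum, hq1, mul_one, hp1]
  set b := bil p q F - a with hb
  have h2 : bil p q (fun x y => (F x y - a) ^ 2) - b ^ 2 =
      bil p q fun x y => (F x y - a - b) ^ 2 := by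
    have e : ∀ x y, p x * q y * (F x y - a - b) ^ 2 = p x * q y * (F x y - a) ^ 2 -
        2 * b * (p x * q y * F x y) + (2 * a * b + b ^ 2) * (p x * q y) := fun x y => by ring
    have h3 : ∑ x, ∑ y, p x * q y * F x y = b + a := by rw [hb]; simp [bil]
    simp only [bil, e, Finset.sum_add_distrib, Finset.sum_sub_distrib, ← Finset.mul_sum]
    simp only [Finset.mul_sum] at h1 h3 ⊢
    simp only [← Finset.mul_sum] at h1 h3 ⊢
    rw [h1, h3]
    ring
  have h4 := bil_nonneg hp hq (K := fun x y => (F x y - a - b) ^ 2) fun _ _ => sq_nonneg _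
  linarith

end core

variable {n : ℕ}

/-- normalised overlap -/
def ovl (x y : Cube n) : ℝ := (sv x ⬝ᵥ sv y) / n

theorem mag_eq {γ : Cube n → ℝ} (h : ∑ x, γ x = 1) (i : Fin n) :
    mag γ i = ∑ x, γ x * sv x i := by
  simp [mag, meanV, mean, prob, h]

theorem bil_ovl {p q : Cube n → ℝ} (hp : ∑ x, p x = 1) (hq : ∑ x, q x = 1) :
    bil p q ovl = (mag p ⬝ᵥ mag q) / n := by
  simp only [bil, ovl, dotProduct, mag_eq hp, mag_eq hq]
  simp only [Finset.sum_mul_sum]
  rw [Finset.sum_comm (s := Finset.univ (α := Fin n)), Finset.sum_div]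
  refine Finset.sum_congr rfl fun x _ => ?_
  rw [Finset.sum_comm (s := Finset.univ (α := Fin n)), Finset.sum_div]
  refine Finset.sum_congr rfl fun y _ => ?_
  rw [← mul_div_assoc, Finset.mul_sum]
  congr 1
  exact Finset.sum_congr rfl fun i _ => by ring

theorem abs_dot_mag_le {p q : Cube n → ℝ} (hp : ∀ x, 0 ≤ p x) (hp1 : ∑ x, p x = 1)
    (hq : ∀ x, 0 ≤ q x) (hq1 : ∑ x, q x = 1) {a r : ℝ}
    (h : bil p q (fun x y => (ovl x y - a) ^ 2) ≤ r) : |(mag p ⬝ᵥ mag q) / n - a| ≤ √r := by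
  rw [← bil_ovl hp1 hq1]
  exact Real.abs_le_sqrt ((sq_bil_le hp hp1 hq hq1 ovl a).trans h)

/-- a chain of laws: pure at the levels `q k`, consecutive ones overlapping at `q k`, all
dominated by `e^Λ μ` -/
structure Chain (μ : Cube n → ℝ) (q : ℕ → ℝ) (M : ℕ) (ρ Λ : ℝ) (γ : ℕ → Cube n → ℝ) : Prop where
  nn : ∀ k x, 0 ≤ γ k x
  one : ∀ k, ∑ x, γ k x = 1
  pure : ∀ k ≤ M, bil (γ k) (γ k) (fun x y => (ovl x y - q k) ^ 2) ≤ ρ
  cross : ∀ k ≤ M, bil (γ k) (γ (k + 1)) (fun x y => (ovl x y - q k) ^ 2) ≤ ρ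
  dom : ∀ k ≤ M, ∀ x, γ k x ≤ exp Λ * μ x

namespace Chain

variable {μ μ' : Cube n → ℝ} {q : ℕ → ℝ} {M : ℕ} {ρ ρ' Λ Λ' : ℝ} {γ : ℕ → Cube n → ℝ}

theorem mono (h : Chain μ q M ρ Λ γ) (hρ : ρ ≤ ρ') (hμ : ∀ x, exp Λ * μ x ≤ exp Λ' * μ' x) :
    Chain μ' q M ρ' Λ' γ :=
  ⟨h.nn, h.one, fun k hk => (h.pure k hk).trans hρ, fun k hk => (h.cross k hk).trans hρ,
    fun k hk x => (h.dom k hk x).trans (hμ x)⟩

theorem norm (h : Chain μ q M ρ Λ γ) {k : ℕ} (hk : k ≤ M) :
    |(mag (γ k) ⬝ᵥ mag (γ k)) / n - q k| ≤ √ρ :=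
  abs_dot_mag_le (h.nn k) (h.one k) (h.nn k) (h.one k) (h.pure k hk)

theorem dot (h : Chain μ q M ρ Λ γ) {k : ℕ} (hk : k ≤ M) :
    |(mag (γ k) ⬝ᵥ mag (γ (k + 1))) / n - q k| ≤ √ρ :=
  abs_dot_mag_le (h.nn k) (h.one k) (h.nn _) (h.one _) (h.cross k hk)

theorem incr (h : Chain μ q M ρ Λ γ) {k : ℕ} (hk : k < M) :
    |((mag (γ (k + 1)) - mag (γ k)) ⬝ᵥ (mag (γ (k + 1)) - mag (γ k))) / n - (q (k + 1) - q k)| ≤
      4 * √ρ := by
  have h1 := abs_le.1 (h.norm hk.le)
  have h2 := abs_le.1 (h.norm (Nat.succ_le_of_lt hk))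
  have h3 := abs_le.1 (h.dot hk.le)
  rw [sub_dotProduct, dotProduct_sub, dotProduct_sub,
    dotProduct_comm (mag (γ (k + 1))) (mag (γ k)), sub_div, sub_div, sub_div, abs_le]
  constructor <;> linarith [h1.1, h1.2, h2.1, h2.2, h3.1, h3.2]

theorem supp (h : Chain μ q M ρ Λ γ) {k : ℕ} (hk : k ≤ M) {x : Cube n} (hx : μ x = 0) :
    γ k x = 0 := le_antisymm (by simpa [hx] using h.dom k hk x) (h.nn k x)


end Chain

theorem tree_cube {w : Cube n → ℝ} (hw : Wt w) (L : List (Lv (Cube n)))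
    (hL : ∀ l ∈ L, 0 ≤ l.m ∧ l.m ≤ 1) (p : ℕ → ℕ) (hp : Monotone p) (M : ℕ) (q : ℕ → ℝ)
    (u0 : Cube n → ℝ) {ρ lam : ℝ} (hρ : 0 < ρ) (hlam : 0 < lam)
    (h : ∀ k ≤ M, pi2 w L (p k) (fun x y => (ovl x y - q k) ^ 2) u0 ≤ ρ) :
    ∃ γ, Chain (prob fun y => w y * exp (u0 y)) q M (3 * (M + 1) * ρ)
      (lamC (6 * (M + 1) * 2 ^ n) (vs L) lam) γ := by
  obtain ⟨γ, h1, h2, h3, h4, h5⟩ := tree_core hw L hL p hp M
    (fun k x y => (ovl x y - q k) ^ 2) (fun _ _ _ => sq_nonneg _) u0 hρ hlam h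
  refine ⟨γ, h1, h2, h3, h4, ?_⟩
  simpa using h5

end Crest.Agent.T157.Tree

end
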