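import Crest.Agent.R253.MAI_74

/-!
# Row 157, block B/S4 (helper30): baths, impurity forms, towers, `lam`; exact leaves

See `docs/T157_B_S4.md`.
-/

set_option autoImplicit false

noncomputable section

namespace Crest.Agent.T157.Tw

open MeasureTheory ProbabilityTheory Real Matrix Set Filter
open Crest.Agent.R238.Gap Crest.Agent.R238.GapPc Crest.Agent.R253.Meh74

/-! ### abstract pre-baths -/

section abs
variable {V V1 V2 : Type} [AddCommGroup V] [Module ℝ V] [AddCommGroup V1] [Module ℝ V1]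
  [AddCommGroup V2] [Module ℝ V2]

/-- scalar product `N`, energy `En`, marked vector `σ` -/
structure Pre (V : Type) [AddCommGroup V] [Module ℝ V] where
  N : V →ₗ[ℝ] V →ₗ[ℝ] ℝ
  En : V →ₗ[ℝ] V →ₗ[ℝ] ℝ
  σ : V

/-- the shifted energy -/
def Pre.Q (H : Pre V) (a : ℝ) (u : V) : ℝ := H.En u u - a * H.N u u
/-- rescale the marked vector -/
def Pre.scale (H : Pre V) (β : ℝ) : Pre V := ⟨H.N, H.En, β • H.σ⟩

structure Pre.Ok (H : Pre V) : Prop where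
  sN : ∀ u v, H.N u v = H.N v u
  sE : ∀ u v, H.En u v = H.En v u
  pN : ∀ u, 0 ≤ H.N u u
  pE : ∀ u, 0 ≤ H.En u u
  null : ∀ u, H.N u u = 0 → H.En u u = 0

/-- `W` witnesses `H1 ≤_a H2` -/
structure Mor (a : ℝ) (H1 : Pre V1) (H2 : Pre V2) (W : V1 →ₗ[ℝ] V2) : Prop where
  N : ∀ u, H2.N (W u) (W u) ≤ H1.N u u
  σ : ∀ u, H2.N H2.σ (W u) = H1.N H1.σ u
  Q : ∀ u, H2.Q a (W u) ≤ H1.Q a u

/-- finite bath -/
structure Bath where
  m : ℕ
  A : Matrix (Fin m) (Fin m) ℝ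
  g : Fin m → ℝ
  psd : A.PosSemidef

def Bath.pre (b : Bath) : Pre (Fin b.m → ℝ) :=
  ⟨dotProductBilin ℝ ℝ, Matrix.toLinearMap₂' ℝ b.A, b.g⟩
def Bath.scale (b : Bath) (β : ℝ) : Bath := ⟨b.m, b.A, β • b.g, b.psd⟩
def Bath.nil : Bath := ⟨0, 0, 0, PosSemidef.zero⟩
/-- `A ≥ a` -/
def Bath.Ge (b : Bath) (a : ℝ) : Prop := ∀ u, a * (u ⬝ᵥ u) ≤ u ⬝ᵥ b.A *ᵥ u
/-- the coupling vector in Euclidean space -/
def Bath.v (b : Bath) : E b.m := WithLp.toLp 2 b.g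

/-- `b` is the compression of `H` along the orthonormal family `f` -/
structure Comp (H : Pre V) (b : Bath) (f : Fin b.m → V) : Prop where
  on : ∀ k l, H.N (f k) (f l) = if k = l then 1 else 0
  en : ∀ k l, H.En (f k) (f l) = b.A k l
  g : ∀ k, H.N H.σ (f k) = b.g k

/-- `y` lies in the span of `f`, up to a null vector -/
def InSp (H : Pre V) {m : ℕ} (f : Fin m → V) (y : V) : Prop :=
  H.N (y - ∑ k, H.N y (f k) • f k) (y - ∑ k, H.N y (f k) • f k) = 0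

/-- bounded measurable -/
def BM (c : ℝ → ℝ) : Prop := Measurable c ∧ ∃ M, ∀ ξ, |c ξ| ≤ M

lemma BM.const (c : ℝ) : BM fun _ => c := ⟨measurable_const, |c|, fun _ => le_rfl⟩
lemma BM.add {c d : ℝ → ℝ} (hc : BM c) (hd : BM d) : BM fun ξ => c ξ + d ξ := by
  obtain ⟨M, hM⟩ := hc.2
  obtain ⟨M', hM'⟩ := hd.2
  exact ⟨hc.1.add hd.1, M + M', fun ξ => (abs_add_le _ _).trans (add_le_add (hM ξ) (hM' ξ))⟩
lemma BM.mul {c d : ℝ → ℝ} (hc : BM c) (hd : BM d) : BM fun ξ => c ξ * d ξ := by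
  obtain ⟨M, hM⟩ := hc.2
  obtain ⟨M', hM'⟩ := hd.2
  exact ⟨hc.1.mul hd.1, M * M', fun ξ => by
    rw [abs_mul]; exact mul_le_mul (hM ξ) (hM' ξ) (abs_nonneg _) ((abs_nonneg _).trans (hM ξ))⟩
lemma BM.int {c : ℝ → ℝ} (hc : BM c) (ν : Measure ℝ) [IsFiniteMeasure ν] : Integrable c ν := by
  obtain ⟨M, hM⟩ := hc.2
  exact (integrable_const M).mono' hc.1.aestronglyMeasurable (ae_of_all _ hM)

/-- families `ξ ↦ ∑ c_k(ξ) P_k` -/
def Fam (S : Submodule ℝ V) : Submodule ℝ (ℝ → V) :=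
  Submodule.span ℝ {F | ∃ c P, BM c ∧ P ∈ S ∧ F = fun ξ => c ξ • P}

lemma bm_fam {S : Submodule ℝ V} {B : ℝ → V →ₗ[ℝ] V →ₗ[ℝ] ℝ} (hB : ∀ P P', BM fun ξ => B ξ P P')
    {F G : ℝ → V} (hF : F ∈ Fam S) (hG : G ∈ Fam S) : BM fun ξ => B ξ (F ξ) (G ξ) := by
  refine Submodule.span_induction₂ (p := fun F G _ _ => BM fun ξ => B ξ (F ξ) (G ξ))
    ?_ ?_ ?_ ?_ ?_ ?_ ?_ hF hG
  · rintro _ _ ⟨c, P, hc, -, rfl⟩ ⟨d, P', hd, -, rfl⟩
    simpa using hd.mul (hc.mul (hB P P'))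
  · intro y _; simpa using BM.const 0
  · intro y _; simpa using BM.const 0
  · intro x y z _ _ _ h1 h2; simpa using h1.add h2
  · intro x y z _ _ _ h1 h2; simpa using h1.add h2
  · intro r x y _ _ h; simpa using (BM.const r).mul h
  · intro r x y _ _ h; simpa using (BM.const r).mul h

/-- averaged bilinear form -/
def avB (S : Submodule ℝ V) (ν : Measure ℝ) [IsFiniteMeasure ν] (B : ℝ → V →ₗ[ℝ] V →ₗ[ℝ] ℝ)
    (hB : ∀ P P', BM fun ξ => B ξ P P') : Fam S →ₗ[ℝ] Fam S →ₗ[ℝ] ℝ :=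
  LinearMap.mk₂ ℝ (fun F G => ∫ ξ, B ξ (F.1 ξ) (G.1 ξ) ∂ν)
    (fun F F' G => by
      rw [← integral_add ((bm_fam hB F.2 G.2).int ν) ((bm_fam hB F'.2 G.2).int ν)]; simp)
    (fun c F G => by simp [integral_const_mul])
    (fun F G G' => by
      rw [← integral_add ((bm_fam hB F.2 G.2).int ν) ((bm_fam hB F.2 G'.2).int ν)]; simp)
    (fun c F G => by simp [integral_const_mul])

lemma const_mem_fam {S : Submodule ℝ V} {P : V} (hP : P ∈ S) : (fun _ => P) ∈ Fam S :=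
  Submodule.subset_span ⟨fun _ => 1, P, BM.const 1, hP, by simp⟩

end abs

/-! ### the impurity model -/

variable {m : ℕ}

/-- the spin -/
def sg (s : Bool) : ℝ := if s then 1 else -1
/-- heat-bath weight in the field `h` -/
def hb (h : ℝ) (s : Bool) : ℝ := exp (sg s * h) / (2 * cosh h)
/-- `sech²` -/
def sech2 (ξ : ℝ) : ℝ := 1 / cosh ξ ^ 2

/-- continuous functions of polynomial growth -/
def CP (m : ℕ) : Submodule ℝ (Bool → E m → ℝ) where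
  carrier := {F | ∀ s, Continuous (F s) ∧ PG (F s)}
  add_mem' hF hG s := ⟨(hF s).1.add (hG s).1, (hF s).2.add (hG s).2⟩
  zero_mem' _ := ⟨continuous_const, pg_const 0⟩
  smul_mem' c _ hF s := ⟨continuous_const.mul (hF s).1, (pg_const c).mul (hF s).2⟩

/-- `C¹` functions of polynomial growth -/
def CV (m : ℕ) : Submodule ℝ (Bool → E m → ℝ) where
  carrier := {F | ∀ s, C1 (F s)}
  add_mem' hF hG s := (hF s).add (hG s)
  zero_mem' _ := c1_const 0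
  smul_mem' c _ hF s := (hF s).smul c

lemma pg_shift {f : E m → ℝ} (hf : PG f) (v : E m) : PG fun z => f (z + v) := by
  obtain ⟨K, k, hK0, hK⟩ := pg_nonneg hf
  refine ⟨K * (1 + ‖v‖) ^ k, k, fun z => (hK _).trans ?_⟩
  rw [mul_assoc, ← mul_pow]
  refine mul_le_mul_of_nonneg_left (pow_le_pow_left₀ (by positivity) ?_ k) hK0
  have := norm_add_le z v
  nlinarith [norm_nonneg z, norm_nonneg v, mul_nonneg (norm_nonneg z) (norm_nonneg v)]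

lemma int_shift {f : E m → ℝ} (hc : Continuous f) (hf : PG f) (v : E m) :
    Integrable (fun z => f (z + v)) (gam m) :=
  integrable_of_PG (hc.comp (continuous_id.add continuous_const)) (pg_shift hf v)

/-- expectation in the impurity model: `s ~ hb ξ`, `X = s g + Z` -/
def ex (b : Bath) (ξ : ℝ) (F : Bool → E b.m → ℝ) : ℝ :=
  ∑ s, hb ξ s * ∫ z, F s (z + sg s • b.v) ∂gam b.m

lemma cp_mul {F G : Bool → E m → ℝ} (hF : F ∈ CP m) (hG : G ∈ CP m) : F * G ∈ CP m :=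
  fun s => ⟨(hF s).1.mul (hG s).1, (hF s).2.mul (hG s).2⟩

lemma ex_add (b : Bath) (ξ : ℝ) {F G : Bool → E b.m → ℝ} (hF : F ∈ CP b.m) (hG : G ∈ CP b.m) :
    ex b ξ (F + G) = ex b ξ F + ex b ξ G := by
  unfold ex
  rw [← Finset.sum_add_distrib]
  refine Finset.sum_congr rfl fun s _ => ?_
  rw [← mul_add, ← integral_add (int_shift (hF s).1 (hF s).2 _) (int_shift (hG s).1 (hG s).2 _)]
  rfl

lemma ex_smul (b : Bath) (ξ c : ℝ) (F : Bool → E b.m → ℝ) : ex b ξ (c • F) = c * ex b ξ F := by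
  unfold ex
  rw [Finset.mul_sum]
  refine Finset.sum_congr rfl fun s _ => ?_
  simp only [Pi.smul_apply, smul_eq_mul, integral_const_mul]
  ring

/-- the expectation, as a linear form -/
def exL (b : Bath) (ξ : ℝ) : CP b.m →ₗ[ℝ] ℝ where
  toFun F := ex b ξ F
  map_add' F G := ex_add b ξ F.2 G.2
  map_smul' c F := ex_smul b ξ c F

/-- the product, as a bilinear map -/
def mulL (m : ℕ) : CP m →ₗ[ℝ] CP m →ₗ[ℝ] CP m :=
  LinearMap.mk₂ ℝ (fun F G => ⟨F.1 * G.1, cp_mul F.2 G.2⟩)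
    (fun _ _ _ => Subtype.ext (add_mul _ _ _)) (fun _ _ _ => Subtype.ext (smul_mul_assoc _ _ _))
    (fun _ _ _ => Subtype.ext (mul_add _ _ _)) (fun _ _ _ => Subtype.ext (mul_smul_comm _ _ _))

/-- `L²` scalar product -/
def ipL (b : Bath) (ξ : ℝ) : CP b.m →ₗ[ℝ] CP b.m →ₗ[ℝ] ℝ := (mulL b.m).compr₂ (exL b ξ)

def inc (m : ℕ) : CV m →ₗ[ℝ] CP m := Submodule.inclusion fun _ hF s => ⟨(hF s).cont, (hF s).g⟩

/-- partial derivative -/
def pdL (m : ℕ) (i : Fin m) : CV m →ₗ[ℝ] CP m where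
  toFun F := ⟨fun s => pd i (F.1 s), fun s => ⟨(F.2 s).contp i, (F.2 s).p i⟩⟩
  map_add' F G := Subtype.ext (funext fun s => funext fun x => (F.2 s).pd_add (G.2 s) i x)
  map_smul' c F := Subtype.ext (funext fun s => funext fun x => by
    have h := (c1_const c).pd_mul (F.2 s) i x
    rw [show pd i (fun _ : E m => c) x = 0 by simp [pd], zero_mul, zero_add] at h
    exact h)

lemma hb_pos (h : ℝ) (s : Bool) : 0 < hb h s := by
  unfold hb; have := cosh_pos h; positivity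

lemma hb_sum (h : ℝ) : hb h true + hb h false = 1 := by
  have := cosh_pos h
  simp only [hb, sg, if_true, Bool.false_eq_true, if_false, one_mul, neg_mul]
  rw [← add_div, div_eq_one_iff_eq (by positivity), cosh_eq]; ring

lemma hb_le (h : ℝ) (s : Bool) : hb h s ≤ 1 := by
  have h1 := hb_sum h
  have h2 := hb_pos h true
  have h3 := hb_pos h false
  cases s <;> linarith

lemma continuous_hb (s : Bool) : Continuous fun h => hb h s := by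
  unfold hb
  exact Continuous.div (by fun_prop) (by fun_prop) fun h => by have := cosh_pos h; positivity

/-- the local field -/
def fld (b : Bath) (ξ : ℝ) (X : E b.m) : ℝ := ξ + inner ℝ b.v X

lemma hb_cp (b : Bath) (ξ : ℝ) (t : Bool) : (fun _ X => hb (fld b ξ X) t) ∈ CP b.m := fun _ =>
  ⟨(continuous_hb t).comp (by unfold fld; fun_prop), PG.of_bdd (K := 1) fun _ => by
    rw [abs_of_pos (hb_pos _ _)]; exact hb_le _ _⟩

/-- `F - E[F | X]` -/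
def rsL (b : Bath) (ξ : ℝ) : CP b.m →ₗ[ℝ] CP b.m where
  toFun F := ⟨fun s X => F.1 s X - ∑ t, hb (fld b ξ X) t * F.1 t X, fun s =>
    ⟨(F.2 s).1.sub (continuous_finsetSum _ fun t _ => (hb_cp b ξ t s).1.mul (F.2 t).1),
      (F.2 s).2.sub (PG.sum _ fun t _ => (hb_cp b ξ t s).2.mul (F.2 t).2)⟩⟩
  map_add' F G := Subtype.ext (funext fun s => funext fun x => by
    simp [mul_add, Finset.sum_add_distrib]; ring)
  map_smul' c F := Subtype.ext (funext fun s => funext fun x => by simp; ring)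

/-- covariance -/
def covL (b : Bath) (ξ : ℝ) : CP b.m →ₗ[ℝ] CP b.m →ₗ[ℝ] ℝ :=
  ipL b ξ - (LinearMap.mul ℝ ℝ).compl₁₂ (exL b ξ) (exL b ξ)
/-- heat-bath energy of the spin, `E Var (F | X)` -/
def spinL (b : Bath) (ξ : ℝ) : CP b.m →ₗ[ℝ] CP b.m →ₗ[ℝ] ℝ :=
  (ipL b ξ).compl₁₂ (rsL b ξ) (rsL b ξ)
/-- Ornstein–Uhlenbeck energy of the bath, `E ⟨∇F, A ∇G⟩` -/
def bathL (b : Bath) (ξ : ℝ) : CV b.m →ₗ[ℝ] CV b.m →ₗ[ℝ] ℝ :=
  ∑ i, ∑ j, b.A i j • (ipL b ξ).compl₁₂ (pdL b.m i) (pdL b.m j)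

/-- the spin as a function -/
def sp (m : ℕ) : CV m := ⟨fun s _ => sg s, fun _ => c1_const _⟩
/-- linear functions of the bath -/
def lin (m : ℕ) : (Fin m → ℝ) →ₗ[ℝ] CV m where
  toFun u := ⟨fun _ X => ∑ i, u i * X i, fun _ => C1.sum fun i _ => (c1_coord i).smul (u i)⟩
  map_add' u v := Subtype.ext (funext fun s => funext fun x => by
    simp [add_mul, Finset.sum_add_distrib])
  map_smul' c u := Subtype.ext (funext fun s => funext fun x => by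
    simp [Finset.mul_sum, mul_assoc])

/-- **the impurity** with bath `b` and static field `ξ` -/
def imp (b : Bath) (ξ : ℝ) : Pre (CV b.m) :=
  ⟨(covL b ξ).compl₁₂ (inc _) (inc _), (spinL b ξ).compl₁₂ (inc _) (inc _) + bathL b ξ, sp _⟩

/-- a matrix acting on Euclidean spaces -/
def mv {k l : ℕ} (M : Matrix (Fin k) (Fin l) ℝ) : E l →L[ℝ] E k :=
  LinearMap.toContinuousLinearMap (Matrix.toEuclideanLin M)

/-- `G` is the Gaussian average of `F` along `X₁ = P X₂ + R Y` -/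
def IsLift {m1 m2 : ℕ} (P : Matrix (Fin m1) (Fin m2) ℝ) (R : Matrix (Fin m1) (Fin m1) ℝ)
    (F : CV m1) (G : CV m2) : Prop := ∀ s X, G.1 s X = ∫ y, F.1 s (mv P X + mv R y) ∂gam m1
/-- `G` is the odd part of `F` -/
def IsOddP (F G : CV m) : Prop := ∀ s X, G.1 s X = (F.1 s X - F.1 (!s) (-X)) / 2
/-- odd functions -/
def Od (m : ℕ) : Submodule ℝ (CV m) where
  carrier := {F | ∀ s X, F.1 (!s) (-X) = -F.1 s X}
  add_mem' {F G} hF hG s X := by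
    have h1 := hF s X; have h2 := hG s X
    simp only [Submodule.coe_add, Pi.add_apply]; linarith
  zero_mem' s X := by simp
  smul_mem' c F hF s X := by
    have h1 := hF s X
    simp only [Submodule.coe_smul, Pi.smul_apply, smul_eq_mul, h1]; ring

/-- a class of test functions -/
structure Cls where
  C : ∀ m, Submodule ℝ (CV m)
  sp : ∀ m, sp m ∈ C m
  lin : ∀ m u, lin m u ∈ C m
  odd : ∀ m (F G : CV m), IsOddP F G → F ∈ C m → G ∈ C m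
  lift : ∀ m1 m2 P R (F : CV m1) (G : CV m2), IsLift P R F G → F ∈ C m1 → G ∈ C m2

def Cls.top : Cls := ⟨fun _ => ⊤, fun _ => trivial, fun _ _ => trivial, fun _ _ _ _ _ => trivial,
  fun _ _ _ _ _ _ _ _ => trivial⟩

/-- polynomial functions -/
def PV (m : ℕ) : Submodule ℝ (CV m) where
  carrier := {F | ∀ s, ∃ p : MvPolynomial (Fin m) ℝ, ∀ X, F.1 s X = MvPolynomial.eval (fun i => X i) p}
  add_mem' {F G} hF hG s := by
    obtain ⟨p, hp⟩ := hF s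
    obtain ⟨q, hq⟩ := hG s
    exact ⟨p + q, fun X => by simp [hp, hq]⟩
  zero_mem' s := ⟨0, fun X => by simp⟩
  smul_mem' c F hF s := by
    obtain ⟨p, hp⟩ := hF s
    exact ⟨MvPolynomial.C c * p, fun X => by simp [hp]⟩

/-- measurability and boundedness in the static field -/
def AdmStmt : Prop := ∀ (b : Bath) (P P' : CV b.m),
  (BM fun ξ => (imp b ξ).N P P') ∧ BM fun ξ => (imp b ξ).En P P'

/-- **the impurity with a random static field** `ξ ~ ν` -/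
def lev (h : AdmStmt) (𝒞 : Cls) (ν : Measure ℝ) [IsFiniteMeasure ν] (b : Bath) :
    Pre (Fam (𝒞.C b.m)) :=
  ⟨avB _ ν (fun ξ => (imp b ξ).N) fun P P' => (h b P P').1,
    avB _ ν (fun ξ => (imp b ξ).En) fun P P' => (h b P P').2, ⟨_, const_mem_fam (𝒞.sp _)⟩⟩

/-- towers at zero field: odd functions of the class, the spin lies in the span -/
inductive Tw0 (𝒞 : Cls) (β : ℝ) : Bath → Prop
  | nil : Tw0 𝒞 β Bath.nil
  | step {b b' : Bath} {f : Fin b'.m → CV b.m} : Tw0 𝒞 β b → (∀ k, f k ∈ 𝒞.C b.m ⊓ Od b.m) →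
      Comp (imp b 0) b' f → InSp (imp b 0) f (sp _) → Tw0 𝒞 β (b'.scale β)

/-- towers with arbitrary laws of the static field -/
inductive TwL (h : AdmStmt) (𝒞 : Cls) (β : ℝ) : Bath → Prop
  | base {b : Bath} : Tw0 𝒞 β b → TwL h 𝒞 β b
  | step {b b' : Bath} (ν : Measure ℝ) [IsProbabilityMeasure ν] {f : Fin b'.m → Fam (𝒞.C b.m)} :
      TwL h 𝒞 β b → Comp (lev h 𝒞 ν b) b' f → TwL h 𝒞 β (b'.scale β)

/-- **the rate** -/
def lam (𝒞 : Cls) (β : ℝ) : ℝ :=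
  sInf {r | ∃ t, Tw0 𝒞 β t ∧ ∃ u : Fin t.m → ℝ, u ⬝ᵥ u = 1 ∧ r = u ⬝ᵥ t.A *ᵥ u}

/-- `sup ⟨s, (-L-a)⁻¹ s⟩` over the towers -/
def Gs (𝒞 : Cls) (β a : ℝ) : ℝ :=
  sSup {r | ∃ t, Tw0 𝒞 β t ∧ ∃ F ∈ 𝒞.C t.m ⊓ Od t.m,
    r = 2 * (imp t 0).N (sp _) F - (imp t 0).Q a F}

/-! ### leaves -/

def OkStmt : Prop := ∀ (b : Bath) (ξ : ℝ), (imp b ξ).Ok ∧ (imp b ξ).N (sp _) (sp _) = sech2 ξ ∧
  (imp b ξ).En (sp _) (sp _) ≤ 1


/-- Gram–Schmidt -/
def CompStmt : Prop := ∀ (V : Type) [AddCommGroup V] [Module ℝ V] (H : Pre V), H.Ok →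
  ∀ (S : Submodule ℝ V) (T : Set V), T.Finite → T ⊆ S →
    ∃ (b : Bath) (f : Fin b.m → V), Comp H b f ∧ (∀ k, f k ∈ S) ∧
      ∀ y ∈ Submodule.span ℝ T, InSp H f y

/-- **(M1)** monotonicity in the bath -/
def M1Stmt : Prop := ∀ (a : ℝ) (b1 b2 : Bath) (W : (Fin b1.m → ℝ) →ₗ[ℝ] (Fin b2.m → ℝ)),
  0 ≤ a → b2.Ge a → Mor a b1.pre b2.pre W →
    ∃ (P : Matrix (Fin b1.m) (Fin b2.m) ℝ) (R : Matrix (Fin b1.m) (Fin b1.m) ℝ)
      (L : CV b1.m →ₗ[ℝ] CV b2.m), (∀ F, IsLift P R F (L F)) ∧ ∀ ξ, Mor a (imp b1 ξ) (imp b2 ξ) L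

/-- **(M2)** zero field is the slowest -/
def M2Stmt : Prop := ∀ m : ℕ, ∃ O : CV m →ₗ[ℝ] CV m, (∀ F, IsOddP F (O F)) ∧ (∀ F, O F ∈ Od m) ∧
  ∀ (A : Matrix (Fin m) (Fin m) ℝ) (g : Fin m → ℝ) (hA : A.PosSemidef) (ξ : ℝ) (F : CV m),
    sech2 ξ * (imp ⟨m, A, g, hA⟩ 0).N (O F) (O F) ≤ (imp ⟨m, A, g, hA⟩ ξ).N F F ∧
    sech2 ξ * (imp ⟨m, A, g, hA⟩ 0).N (sp m) (O F) = (imp ⟨m, A, g, hA⟩ ξ).N (sp m) F ∧
    ∀ a, 0 ≤ a → Bath.Ge ⟨m, A, g, hA⟩ a →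
      sech2 ξ * (imp ⟨m, A, g, hA⟩ 0).Q a (O F) ≤ (imp ⟨m, A, g, hA⟩ ξ).Q a F

/-- linear functions (Stein) -/
def LinStmt : Prop := ∀ (b : Bath) (ξ : ℝ) (u : Fin b.m → ℝ), lin _ u ∈ Od b.m ∧
  (imp b ξ).N (sp _) (lin _ u) = sech2 ξ * (u ⬝ᵥ b.g) ∧
  (∀ v, (imp b ξ).N (lin _ u) (lin _ v) = u ⬝ᵥ v + sech2 ξ * ((u ⬝ᵥ b.g) * (v ⬝ᵥ b.g))) ∧
  ∀ F, (imp b ξ).En (lin _ u) F =
    (imp b ξ).N (lin _ (b.A *ᵥ u)) F - (b.A *ᵥ u) ⬝ᵥ b.g * (imp b ξ).N (sp _) F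

/-- without coupling the gap is at least `min (1, A)` -/
def ZeroStmt : Prop := ∀ (b : Bath) (ξ : ℝ), b.g = 0 → b.Ge 1 → ∀ F, 0 ≤ (imp b ξ).Q 1 F

/-- polynomials form a class -/
def PolyStmt : Prop := ∃ 𝒞 : Cls, ∀ m, 𝒞.C m = PV m

/-- **(M)**: every tower, at any level, is dominated by a zero-field tower -/
def DomStmt : Prop := ∀ (h : AdmStmt) (𝒞 : Cls) (β : ℝ) (b : Bath), TwL h 𝒞 β b →
  b.Ge (lam 𝒞 β) ∧ ∀ ξ, ∀ F ∈ 𝒞.C b.m, 0 ≤ (imp b ξ).Q (lam 𝒞 β) F ∧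
    ∀ a ∈ Ico 0 (lam 𝒞 β), 2 * (imp b ξ).N (sp _) F - (imp b ξ).Q a F ≤ sech2 ξ * Gs 𝒞 β a

/-- the bounds on `lam` and on the response -/
def LamStmt : Prop := ∀ (𝒞 : Cls) (β : ℝ), 0 ≤ β → β < 1 →
  0 ≤ lam 𝒞 β ∧ lam 𝒞 β ≤ (1 - β) ^ 2 ∧ (β = 0 → lam 𝒞 β = 1) ∧
    ∀ a ∈ Ico 0 (lam 𝒞 β), 1 ≤ Gs 𝒞 β a ∧ Gs 𝒞 β a ≤ 1 / (lam 𝒞 β - a) ∧
      β * (1 + a * Gs 𝒞 β a) ≤ 1 - β * (lam 𝒞 β - a)

def DomGlue : Prop := OkStmt → CompStmt → M1Stmt → M2Stmt → DomStmt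
def LamGlue : Prop := OkStmt → CompStmt → M1Stmt → M2Stmt → LinStmt → ZeroStmt → LamStmt

end Crest.Agent.T157.Tw
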