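import Crest.Agent.T157.HdI_20_Mg
import Crest.Agent.T157.TaA_40

/-!
# Row 157, part B: the untilted term `E^loc` on the cube (helper83)

`v = w f` with `f > 0` fixed (`ν^loc = μ^loc f`), `π = wt w G`.
-/

set_option autoImplicit false

noncomputable section

namespace Crest.Agent.T157.Ue

open MeasureTheory Real Matrix Function
open Crest.Agent.T157.E Crest.Agent.T157.SL Crest.Agent.T157.Ta
open Crest.Agent.T157.Ent (cnd)
open Crest.Agent.T157.Hd (klr hl)
open Crest.Agent.T157.Rec (grad)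

variable {n : ℕ}

/-- symmetrised relative entropy of the conditional laws at the site `i` -/
def es (v w : Cube n → ℝ) (i : Fin n) (x : Cube n) : ℝ := kls v w i x + kls w v i x

/-- the term of the site `i` with the weight `u` -/
def Es (u v w : Cube n → ℝ) (i : Fin n) : ℝ := mean v fun x => u x * es v w i x

/-- `E^loc` with site weights `r` -/
def El (r : Fin n → Cube n → ℝ) (v w : Cube n → ℝ) : ℝ := ∑ i, Es (r i) v w i

/-- the defect with site weights `r` -/
def Dw (r : Fin n → Cube n → ℝ) (v w : Cube n → ℝ) : ℝ :=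
  ∑ i, mean v fun x => r i x * max (kls v w i x - kls w v i x) 0

/-- the edge dissipation of `f` -/
def Dd (f : Cube n → ℝ) (i : Fin n) (x : Cube n) : ℝ :=
  grad f x i * grad (fun x => log (f x)) x i

/-- the edge is loud -/
def Ld (η : ℝ) (f : Cube n → ℝ) (i : Fin n) (x : Cube n) : Prop :=
  η ≤ |grad (fun x => log (f x)) x i|

open Classical in
/-- indicator of the loud edges -/
def Lw (η : ℝ) (f : Cube n → ℝ) (i : Fin n) (x : Cube n) : ℝ := if Ld η f i x then 1 else 0

open Classical in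
/-- the weight `r`: `θ` on loud edges, `1 - 2η` on quiet edges -/
def rw (η θ : ℝ) (f : Cube n → ℝ) (i : Fin n) (x : Cube n) : ℝ :=
  if Ld η f i x then θ else 1 - 2 * η

variable {v w u f G : Cube n → ℝ} {i j : Fin n} {x : Cube n} {η θ : ℝ}

theorem off_es (v w : Cube n → ℝ) (i : Fin n) : OffAt i (es v w i) :=
  (off_kls v w i).comp2 (off_kls w v i) _

theorem off_Dd (f : Cube n → ℝ) (i : Fin n) : OffAt i (Dd f i) :=
  (off_grad f i).comp2 (off_grad (fun x => log (f x)) i) _

theorem off_Ld (η : ℝ) (f : Cube n → ℝ) (i : Fin n) : OffAt i (Ld η f i) :=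
  (off_grad (fun x => log (f x)) i).comp fun t => η ≤ |t|

theorem off_Lw (η : ℝ) (f : Cube n → ℝ) : Off (Lw η f) := fun i x b => by
  rw [Lw, Lw, off_Ld η f i x b]

theorem off_rw (η θ : ℝ) (f : Cube n → ℝ) : Off (rw η θ f) := fun i x b => by
  rw [rw, rw, off_Ld η f i x b]

theorem Lw_mem (η : ℝ) (f : Cube n → ℝ) (i : Fin n) (x : Cube n) :
    0 ≤ Lw η f i x ∧ Lw η f i x ≤ 1 := by unfold Lw; split_ifs <;> norm_num

theorem rw_mem (h0 : 0 ≤ η) (h1 : η ≤ 1 / 2) (hθ : 0 ≤ θ) (hθ1 : θ ≤ 1) (f : Cube n → ℝ) (i : Fin n)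
    (x : Cube n) : 0 ≤ rw η θ f i x ∧ rw η θ f i x ≤ 1 := by
  unfold rw; split_ifs <;> constructor <;> linarith

theorem rw_eq (η θ : ℝ) (f : Cube n → ℝ) (i : Fin n) (x : Cube n) :
    rw η θ f i x = 1 - 2 * η - (1 - 2 * η - θ) * Lw η f i x := by
  unfold rw Lw; split_ifs <;> ring

theorem Dd_nonneg (hf : ∀ x, 0 < f x) (i : Fin n) (x : Cube n) : 0 ≤ Dd f i x := by
  simp only [Dd, grad, incr]
  rcases le_total (f (update x i true)) (f (update x i false)) with h | h
  · exact mul_nonneg_of_nonpos_of_nonpos (by linarith) (by linarith [log_le_log (hf _) h])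
  · exact mul_nonneg (by linarith) (by linarith [log_le_log (hf _) h])

theorem pr_mul (hw : Wt w) (hf : ∀ x, 0 < f x) (hv : v = fun x => w x * f x) : Pr v w ∧ Pr w v := by
  subst hv
  exact ⟨⟨hw.mul_pos hf, hw, fun x e => by simp [e]⟩,
    ⟨hw, hw.mul_pos hf, fun x e => (mul_eq_zero.1 e).resolve_right (hf x).ne'⟩⟩

/-- a pair with the same support is `(w f, w)` -/
theorem exists_dens (h : Pr v w) (h' : Pr w v) :
    ∃ f : Cube n → ℝ, (∀ x, 0 < f x) ∧ v = fun x => w x * f x := by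
  classical
  refine ⟨fun x => if w x = 0 then 1 else v x / w x, fun x => ?_, funext fun x => ?_⟩
  · dsimp only
    split_ifs with e
    · exact one_pos
    · exact div_pos (h'.pos e).2 (h'.pos e).1
  · dsimp only
    split_ifs with e
    · rw [h.ac x e, e, zero_mul]
    · rw [mul_div_cancel₀ _ e]

private lemma aux1 {a p S T : ℝ} (ha : 0 ≤ a) (hp : 0 < p) (hS : 0 < S) (hT : 0 < T) :
    a * p / T * log (a * p / T / (a / S)) = a * p / T * (log p + log S - log T) ∧
      a / S * log (a / S / (a * p / T)) = a / S * -(log p + log S - log T) := by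
  rcases ha.eq_or_lt with h | h
  · simp [← h]
  · have e1 : a * p / T / (a / S) = p * S / T := by field_simp
    have e2 : a / S / (a * p / T) = (p * S / T)⁻¹ := by field_simp
    rw [e1, e2, log_inv, log_div (by positivity) hT.ne', log_mul hp.ne' hS.ne']
    exact ⟨rfl, rfl⟩

/-- the edge identity -/
theorem es_mul (hw : Wt w) (hf : ∀ x, 0 < f x) (hv : v = fun x => w x * f x) (i : Fin n)
    (hx : w x ≠ 0) : es v w i x * siteM w f i x = Dd f i x * (1 - cm w i x ^ 2) := by
  subst hv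
  have hS := den_pos hw i hx
  have hT := den_pos (hw.mul_pos hf) i (mul_ne_zero hx (hf x).ne')
  simp only [den] at hS hT
  obtain ⟨a1, a2⟩ := aux1 (hw.nn (update x i true)) (hf (update x i true)) hS hT
  obtain ⟨b1, b2⟩ := aux1 (hw.nn (update x i false)) (hf (update x i false)) hS hT
  simp only [es, kls, Ent.kl, Fintype.sum_bool, cnd, a1, a2, b1, b2, Dd, grad, incr, Ta.cm, siteM, sv,
    update_self, Crest.ProbabilityR.SpinGlassDynamics.spin, if_true, Bool.false_eq_true, if_false]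
  field_simp
  ring

/-- **`E^loc` is a weighted conditional variance of `μ^loc`** -/
theorem Es_eq (hw : Wt w) (hf : ∀ x, 0 < f x) (hv : v = fun x => w x * f x) (hu : OffAt i u) :
    Es u v w i = Cs (fun x => u x * Dd f i x) w i / mean w f := by
  rw [Es, Cs]
  conv_lhs => rw [hv, mean_mul_weight _ _ _ hw.pos.ne', ← hv]
  congr 1
  simp only [mul_comm (f _)]
  rw [← mean_off hw (hu.mul (off_es v w i)) f]
  refine mean_congr_supp fun x hx => ?_
  rw [mul_assoc, es_mul hw hf hv i hx, mul_assoc]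

theorem es_nonneg (h : Pr v w) (h' : Pr w v) (i : Fin n) (hx : v x ≠ 0) : 0 ≤ es v w i x :=
  add_nonneg (h.kls_nonneg i hx) (h'.kls_nonneg i (h.pos hx).2.ne')

theorem Es_mono (h : Pr v w) (h' : Pr w v) {u' : Cube n → ℝ} (hu : ∀ x, u x ≤ u' x) (i : Fin n) :
    Es u v w i ≤ Es u' v w i :=
  mean_mono_supp h.hv fun x hx => mul_le_mul_of_nonneg_right (hu x) (es_nonneg h h' i hx)

theorem Es_nonneg (h : Pr v w) (h' : Pr w v) (hu : ∀ x, 0 ≤ u x) (i : Fin n) : 0 ≤ Es u v w i := by
  have := Es_mono h h' (u := fun _ => 0) hu i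
  rwa [Es, show (fun x => (0 : ℝ) * es v w i x) = fun _ => 0 by ext; ring, h.hv.mean_const] at this

theorem El_nonneg (h : Pr v w) (h' : Pr w v) {r : Fin n → Cube n → ℝ} (hr : ∀ i x, 0 ≤ r i x) :
    0 ≤ El r v w := Finset.sum_nonneg fun i _ => Es_nonneg h h' (hr i) i


/-- at level `0` and with weight `1`, `E^loc` is the entropy production -/
theorem El_one (hw : Wt w) (hf : ∀ x, 0 < f x) (hv : v = fun x => w x * f x) :
    El (fun _ _ => 1) v w = dir2 w f (fun x => log (f x)) / mean w f := by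
  rw [El, dir2, Finset.sum_div]
  refine Finset.sum_congr rfl fun i _ => ?_
  rw [Es_eq hw hf hv (OffAt.const i 1), Cs_eq hw ((OffAt.const i 1).mul (off_Dd f i))]
  congr 1
  refine mean_congr_supp fun x hx => ?_
  have e : ∀ F : Cube n → ℝ, F x - siteM w F i x = grad F x i * (sv x i - cm w i x) := fun F => by
    rw [siteM_lin hw hx]
    have : F x = F (update x i (x i)) := by rw [update_eq_self]
    rw [this]
    simp only [grad, incr, sv, Crest.ProbabilityR.SpinGlassDynamics.spin]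
    cases x i <;> simp <;> ring
  rw [e f, e fun x => log (f x), Dd]; ring

/-! ### supermartingale -/

section cut
variable {A : Type*} [Fintype A] [DecidableEq A] {ρ : Cube n → A}




/-- the term of `j` is a martingale under a reveal which does not involve `j` -/
theorem Es_cut (hv : Wt v) (hρ : OffAt j ρ) (u : A → Cube n → ℝ) (w : Cube n → ℝ) :
    ∑ a, push v ρ a * Es (u a) (cut v ρ a) (cut w ρ a) j = Es (fun x => u (ρ x) x) v w j := by
  refine (sum_push_mean hv ρ fun a x => u a x * es (cut v ρ a) (cut w ρ a) j x).trans ?_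
  simp only [Es, es, kls, cnd_cut hρ]

end cut

section channel
variable {ι : Type*} [Fintype ι] [DecidableEq ι] {φ : Cube n → ι → ℝ} {s : ℝ}

theorem mg_cm (hw : Wt w) (φ : Cube n → ι → ℝ) (s : ℝ) (i : Fin n) (x : Cube n) :
    MG fun y => cm (post φ w s y) i x :=
  .of_bdd (by simp only [Ta.cm, siteM, post, dotProduct]; fun_prop) 1
    fun y => abs_cm_le (hw.post φ s y).nn i x

theorem mg_Cs (hw : Wt w) (φ : Cube n → ι → ℝ) (s : ℝ) (u : Cube n → ℝ) (i : Fin n) :
    MG fun y => Cs u (post φ w s y) i :=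
  mg_mean hw s fun x => .const_mul _ ((MG.const 1).sub
    (by simpa only [sq] using (mg_cm hw φ s i x).mul (mg_cm hw φ s i x)))

theorem Cs_post_le (hw : Wt w) (hs : 0 ≤ s) (hu : OffAt i u) (h0 : ∀ x, 0 ≤ u x) :
    slE φ w s (fun _ y => Cs u (post φ w s y) i) ≤ Cs u w i := by
  rw [Cs_eq hw hu, ← slE_mean (φ := φ) hw hs]
  exact slE_mono hw (.of_mg fun _ => mg_Cs hw φ s u i)
    (.of_mg fun _ => mg_mean hw s fun _ => .const _)
    fun _ y => Cs_le (hw.post φ s y) hu h0 (off_cm w i)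

theorem mg_Es (h : Pr v w) (h' : Pr w v) (hu : OffAt i u) (φ : Cube n → ι → ℝ) (s : ℝ) :
    MG fun y => Es u (post φ v s y) (post φ w s y) i := by
  obtain ⟨f, hf, hv⟩ := exists_dens h h'
  have e : ∀ y, Es u (post φ v s y) (post φ w s y) i =
      Cs (fun x => u x * Dd f i x) (post φ w s y) i * (mean (post φ w s y) f)⁻¹ := fun y =>
    Es_eq (h.hw.post φ s y) hf (by rw [hv, post_mul]) hu
  simp only [e]
  exact (mg_Cs h.hw φ s _ i).mul ((eg_inv_mean (I := {s}) Bornology.isBounded_singleton h.hw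
    (fun x => (hf x).le) (mean_pos' h.hw hf)).mg rfl)

theorem mg_El (h : Pr v w) (h' : Pr w v) {r : Fin n → Cube n → ℝ} (hr : Off r)
    (φ : Cube n → ι → ℝ) (s : ℝ) : MG fun y => El r (post φ v s y) (post φ w s y) :=
  .sum _ fun i _ => mg_Es h h' (hr i) φ s

/-- **every Gaussian channel decreases `E^loc`** -/
theorem Es_post_le (h : Pr v w) (h' : Pr w v) (hs : 0 ≤ s) (hu : OffAt i u) (h0 : ∀ x, 0 ≤ u x) :
    slE φ v s (fun _ y => Es u (post φ v s y) (post φ w s y) i) ≤ Es u v w i := by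
  obtain ⟨f, hf, hv⟩ := exists_dens h h'
  have hK := mg_Es h h' hu φ s
  rw [Es_eq h.hw hf hv hu]
  conv_lhs => arg 2; rw [hv]
  rw [slE_mul_weight' h.hw hs f (.of_mg fun _ => hK)]
  refine div_le_div_of_nonneg_right (le_trans (le_of_eq ?_) (Cs_post_le (φ := φ) h.hw hs
    (hu.mul (off_Dd f i)) fun x => mul_nonneg (h0 x) (Dd_nonneg hf i x))) (mean_pos' h.hw hf).le
  congr 1; ext _ y
  rw [Es_eq (h.hw.post φ s y) hf (by rw [hv, post_mul]) hu,
    mul_div_cancel₀ _ (mean_pos' (h.hw.post φ s y) hf).ne']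

theorem El_post_le (h : Pr v w) (h' : Pr w v) (hs : 0 ≤ s) {r : Fin n → Cube n → ℝ} (hr : Off r)
    (h0 : ∀ i x, 0 ≤ r i x) :
    slE φ v s (fun _ y => El r (post φ v s y) (post φ w s y)) ≤ El r v w := by
  simp only [El]
  rw [slE_sum _ fun i _ => .of_mg fun _ => mg_Es h h' (hr i) φ s]
  exact Finset.sum_le_sum fun i _ => Es_post_le h h' hs (hr i) (h0 i)

theorem El_law_le (h : Pr v w) (h' : Pr w v) (hs : 0 ≤ s) {r : Fin n → Cube n → ℝ} (hr : Off r)
    (h0 : ∀ i x, 0 ≤ r i x) :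
    ∫ y, El r (post φ v s y) (post φ w s y) ∂law φ v s ≤ El r v w := by
  rw [integral_law h.hv (mg_El h h' hr φ s).meas (.of_mg fun _ => mg_El h h' hr φ s)]
  exact El_post_le h h' hs hr h0

end channel

theorem cnd_post_sv (w : Cube n → ℝ) (s : ℝ) (y : Fin n → ℝ) :
    cnd (post sv w s y) = cnd (tilt w y) := by
  ext i x b
  simp only [cnd, post_sv, ← add_mul]
  rw [mul_div_mul_right _ _ (exp_pos _).ne']

theorem El_post_sv (r : Fin n → Cube n → ℝ) (v w : Cube n → ℝ) (s : ℝ) (y : Fin n → ℝ) :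
    El r (post sv v s y) (post sv w s y) = El r (tilt v y) (tilt w y) := by
  simp only [El, Es, es, kls, mean_post_sv, cnd_post_sv]

theorem mg_El_tilt (h : Pr v w) (h' : Pr w v) {r : Fin n → Cube n → ℝ} (hr : Off r) :
    MG fun y => El r (tilt v y) (tilt w y) := by
  simpa only [El_post_sv] using mg_El h h' hr sv 0

theorem El_tilt_le (h : Pr v w) (h' : Pr w v) {s : ℝ} (hs : 0 ≤ s) {r : Fin n → Cube n → ℝ}
    (hr : Off r) (h0 : ∀ i x, 0 ≤ r i x) :
    ∫ y, El r (tilt v y) (tilt w y) ∂law sv v s ≤ El r v w := by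
  simpa only [El_post_sv] using El_law_le (φ := sv) h h' hs hr h0

/-- **the synchronous window decreases `E^loc`** (`w` = `μ^loc` follows the field of `ν`) -/
theorem El_win (h : Pr v w) (h' : Pr w v) {r r' : Fin n → Cube n → ℝ} (hr : Off r)
    (h0 : ∀ i x, 0 ≤ r i x) {w' : Cube n → ℝ} {τ ε : ℝ} (hτ : 0 ≤ τ) {P : Measure (P2 n)}
    (hP : Win r' v w' τ ε P) : Integrable (fun p : P2 n => El r (tilt v p.1) (tilt w p.1)) P ∧
      ∫ p, El r (tilt v p.1) (tilt w p.1) ∂P ≤ El r v w := by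
  have hK := mg_El_tilt h h' hr
  have hi : Integrable (fun y => El r (tilt v y) (tilt w y)) (P.map Prod.fst) := by
    rw [hP.fst]; exact hK.int_law
  refine ⟨(integrable_map_measure hK.meas.aestronglyMeasurable measurable_fst.aemeasurable).1 hi, ?_⟩
  rw [← integral_map (φ := Prod.fst) (f := fun y => El r (tilt v y) (tilt w y))
    measurable_fst.aemeasurable hK.meas.aestronglyMeasurable, hP.fst]
  exact El_tilt_le h h' hτ hr h0

end Crest.Agent.T157.Ue
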