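import Crest.Agent.T157.UeC_83

/-!
# Row 157, part B: (U) and the level-zero inequality on the cube (helper83)

`v = w f` (`ν^loc`, `μ^loc`), `π = wt w G`; true pins are allowed.
-/

set_option autoImplicit false

noncomputable section

namespace Crest.Agent.T157.Ue

open MeasureTheory Real Matrix Function
open Crest.Agent.T157.E Crest.Agent.T157.SL Crest.Agent.T157.Ta
open Crest.Agent.T157.Ent (cnd)
open Crest.Agent.T157.Hd (klr hl)
open Crest.Agent.T157.Rec (grad)
open Crest.ProbabilityR.SpinGlassDynamics (spin)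

variable {n : ℕ} {v w u f G : Cube n → ℝ} {i : Fin n} {x : Cube n} {η θ a a' κ ρ : ℝ}

lemma ab_eq {a b : ℝ} (ha : 0 < a) (hb : 0 < b) :
    tanh ((log a - log b) / 2) = (a - b) / (a + b) ∧
      log (cosh ((log a - log b) / 2)) = log (a + b) - (log a + log b) / 2 - log 2 := by
  set h := (log a - log b) / 2
  set m := (log a + log b) / 2
  have e1 : a = exp m * exp h := by rw [← exp_add, show m + h = log a by ring, exp_log ha]
  have e2 : b = exp m * exp (-h) := by rw [← exp_add, show m + -h = log b by ring, exp_log hb]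
  have s1 : a + b = 2 * (exp m * cosh h) := by rw [cosh_eq]; linarith
  have s2 : a - b = 2 * (exp m * sinh h) := by rw [sinh_eq]; linarith
  have hc := cosh_pos h
  have hm := exp_pos m
  constructor
  · rw [s1, s2, tanh_eq_sinh_div_cosh]; field_simp
  · rw [s1, log_mul two_ne_zero (by positivity), log_mul hm.ne' hc.ne', log_exp]; ring

/-- both ends of the edge carry mass -/
def Fr (w : Cube n → ℝ) (i : Fin n) (x : Cube n) : Prop :=
  0 < w (update x i true) ∧ 0 < w (update x i false)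

theorem Fr.cm (h : Fr w i x) : cm w i x = tanh (hl w i x) := by
  rw [hl, (ab_eq h.1 h.2).1]
  simp only [Ta.cm, siteM, sv, update_self, spin, if_true, Bool.false_eq_true, if_false]
  congr 1; ring

theorem Fr.kls (h : Fr v i x) (h' : Fr w i x) : kls v w i x = klr (hl w i x) (hl v i x) := by
  obtain ⟨h1, h2⟩ := h
  obtain ⟨h3, h4⟩ := h'
  simp only [klr, hl, (ab_eq h1 h2).1, (ab_eq h1 h2).2, (ab_eq h3 h4).2, Ta.kls, Ent.kl,
    Fintype.sum_bool, cnd]
  have s1 := add_pos h1 h2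
  have s2 := add_pos h3 h4
  rw [log_div (by positivity) (by positivity), log_div (by positivity) (by positivity),
    log_div (by positivity) (by positivity), log_div (by positivity) (by positivity),
    log_div (by positivity) (by positivity), log_div (by positivity) (by positivity)]
  field_simp
  ring

theorem Fr.mul (h : Fr w i x) (hf : ∀ x, 0 < f x) : Fr (fun x => w x * f x) i x :=
  ⟨mul_pos h.1 (hf _), mul_pos h.2 (hf _)⟩

theorem Fr.hl_mul (h : Fr w i x) (hf : ∀ x, 0 < f x) :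
    hl (fun x => w x * f x) i x = hl w i x + grad (fun x => log (f x)) x i := by
  simp only [hl, grad, incr, log_mul h.1.ne' (hf _).ne', log_mul h.2.ne' (hf _).ne']; ring

theorem pinned (hw : Wt w) (hx : w x ≠ 0) (h : ¬Fr w i x) : ∃ b : Bool, ∀ g : Cube n → ℝ,
    (∀ x, 0 < g x) → (cnd (fun x => w x * g x) i x = fun c => if c = b then 1 else 0) ∧
      cm (fun x => w x * g x) i x = spin b := by
  have hS := den_pos hw i hx
  have h1 := hw.nn (update x i true)
  have h2 := hw.nn (update x i false)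
  rw [den] at hS
  rcases h1.eq_or_lt with e | e
  · have e2 : 0 < w (update x i false) := by linarith
    refine ⟨false, fun g hg => ⟨funext fun c => ?_, ?_⟩⟩
    · cases c <;> simp [cnd, ← e, e2.ne', (hg _).ne']
    · have := mul_pos e2 (hg (update x i false))
      simp only [Ta.cm, siteM, ← e, sv, update_self, zero_mul, zero_add]
      exact mul_div_cancel_left₀ _ this.ne'
  · have e2 : w (update x i false) = 0 := by
      by_contra e2
      exact h ⟨e, h2.lt_of_ne' e2⟩
    refine ⟨true, fun g hg => ⟨funext fun c => ?_, ?_⟩⟩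
    · cases c <;> simp [cnd, e2, e.ne', (hg _).ne']
    · have := mul_pos e (hg (update x i true))
      simp only [Ta.cm, siteM, e2, sv, update_self, zero_mul, add_zero]
      exact mul_div_cancel_left₀ _ this.ne'

/-- **dictionary**: an edge in the support is either free (three fields) or pinned -/
theorem site_dict (hw : Wt w) (hf : ∀ x, 0 < f x) (hv : v = fun x => w x * f x) (G : Cube n → ℝ)
    (i : Fin n) (hx : v x ≠ 0) :
    (∃ p h k : ℝ, kls v (wt w G) i x = klr p k ∧ kls v w i x = klr h k ∧ kls w v i x = klr k h ∧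
      es v w i x = ee h k ∧ cm v i x = tanh k ∧ cm w i x = tanh h ∧ cm (wt w G) i x = tanh p ∧
      h - p = -grad G x i ∧ k - h = grad (fun x => log (f x)) x i) ∨
    (kls v (wt w G) i x = 0 ∧ kls v w i x = 0 ∧ kls w v i x = 0 ∧ es v w i x = 0 ∧
      ∃ b : Bool, cm v i x = spin b ∧ cm w i x = spin b ∧ cm (wt w G) i x = spin b) := by
  have hx' : w x ≠ 0 := fun e => hx (by simp [hv, e])
  by_cases h : Fr w i x
  · have h1 : Fr v i x := hv ▸ h.mul hf
    have h2 : Fr (wt w G) i x := h.mul fun x => exp_pos (G x)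
    refine .inl ⟨hl (wt w G) i x, hl w i x, hl v i x, h1.kls h2, h1.kls h, h.kls h1, ?_, h1.cm, h.cm,
      h2.cm, ?_, ?_⟩
    · rw [es, h1.kls h, h.kls h1, klr_add]
    · have := h.hl_mul fun x => exp_pos (G x)
      simp only [log_exp] at this
      rw [show hl (wt w G) i x = _ from this]; ring
    · rw [hv, h.hl_mul hf]; ring
  · obtain ⟨b, hb⟩ := pinned hw hx' h
    obtain ⟨c1, m1⟩ := hb f hf
    obtain ⟨c2, m2⟩ := hb (fun _ => 1) fun _ => one_pos
    obtain ⟨c3, m3⟩ := hb (fun x => exp (G x)) fun x => exp_pos _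
    simp only [mul_one] at c2 m2
    rw [← hv] at c1 m1
    have c3' : cnd (wt w G) i x = _ := c3
    have k1 : kls v w i x = 0 := by rw [kls, c1, c2, Ent.kl_self]
    have k2 : kls w v i x = 0 := by rw [kls, c1, c2, Ent.kl_self]
    exact .inr ⟨by rw [kls, c1, c3', Ent.kl_self], k1, k2, by rw [es, k1, k2, add_zero], b, m1, m2, m3⟩

theorem Lw_of (h : Ld η f i x) : Lw η f i x = 1 := if_pos h
theorem Lw_of_not (h : ¬Ld η f i x) : Lw η f i x = 0 := if_neg h
theorem rw_of (h : Ld η f i x) : rw η θ f i x = θ := if_pos h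
theorem rw_of_not (h : ¬Ld η f i x) : rw η θ f i x = 1 - 2 * η := if_neg h

/-- **(U) at a site** -/
theorem U_site (hw : Wt w) (hf : ∀ x, 0 < f x) (hv : v = fun x => w x * f x) (G : Cube n → ℝ)
    (ha : 0 ≤ a) (hκ : 0 < κ) (haa : a + κ ≤ a') (ha1 : a' + κ ≤ 1) (h0 : 0 < η) (h1 : η ≤ 1)
    (hq : a + 2 * η ≤ a') (i : Fin n) (hx : v x ≠ 0) :
    a * kls v (wt w G) i x + (1 - a') / 2 * (1 - κ) * chi v (wt w G) i x ^ 2 +
        κ / 4 * (Lw η f i x * es v w i x) - 2 / κ * (Lw η f i x * xs (κ / 64 * η) (grad G x i)) ≤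
      rw η (th a') f i x * kls v (wt w G) i x + (1 - th a') / 2 * (Lw η f i x * es v w i x) := by
  rcases site_dict hw hf hv G i hx with ⟨p, h, k, e1, -, -, e4, e5, -, e7, e8, e9⟩ |
    ⟨e1, -, -, e4, b, e5, -, e7⟩
  · rw [chi, e1, e4, e5, e7]
    by_cases hL : Ld η f i x
    · rw [Lw_of hL, rw_of hL, one_mul, one_mul, ← xs_neg, ← e8]
      exact U_mix ha hκ haa ha1 h0 h1 p (by rw [e9]; exact hL)
    · rw [Lw_of_not hL, rw_of_not hL]
      have := U_quiet (a := a) (a' := a') (r := 1 - 2 * η) hκ.le (by linarith) (by linarith) p k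
      linarith
  · rw [chi, e1, e4, e5, e7, sub_self]
    have := mul_nonneg (by positivity : 0 ≤ 2 / κ)
      (mul_nonneg (Lw_mem η f i x).1 (xs_nonneg (κ / 64 * η) (grad G x i)))
    linarith

/-- **(U), summed with arbitrary nonnegative weights `ω`** -/
theorem U_sum (hw : Wt w) (hf : ∀ x, 0 < f x) (hv : v = fun x => w x * f x) (G : Cube n → ℝ)
    (ha : 0 ≤ a) (hκ : 0 < κ) (haa : a + κ ≤ a') (ha1 : a' + κ ≤ 1) (h0 : 0 < η) (h1 : η ≤ 1)
    (hq : a + 2 * η ≤ a') {ω : Fin n → Cube n → ℝ} (hω : ∀ i x, 0 ≤ ω i x) :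
    a * Ar ω v (wt w G) + (1 - a') / 2 * (1 - κ) *
        (∑ i, mean v fun x => ω i x * chi v (wt w G) i x ^ 2) +
        κ / 4 * El (fun i x => ω i x * Lw η f i x) v w -
        2 / κ * ∑ i, mean v (fun x => ω i x * (Lw η f i x * xs (κ / 64 * η) (grad G x i))) ≤
      Ar (fun i x => ω i x * rw η (th a') f i x) v (wt w G) +
        (1 - th a') / 2 * El (fun i x => ω i x * Lw η f i x) v w := by
  simp only [Ar, As, El, Es, Finset.mul_sum, ← Finset.sum_add_distrib, ← Finset.sum_sub_distrib,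
    ← mean_const_mul, ← mean_add, ← mean_sub]
  refine Finset.sum_le_sum fun i _ => mean_mono_supp (pr_mul hw hf hv).1.hv fun x hx => ?_
  have := mul_le_mul_of_nonneg_left (U_site hw hf hv G ha hκ haa ha1 h0 h1 hq i hx) (hω i x)
  linarith

/-- **conversion to the plain `A`** (END, consumption) -/
theorem U_one (hw : Wt w) (hf : ∀ x, 0 < f x) (hv : v = fun x => w x * f x) (G : Cube n → ℝ)
    (ha : 0 ≤ a) (hκ : 0 < κ) (haa : a + κ ≤ a') (ha1 : a' + κ ≤ 1) (h0 : 0 < η) (h1 : η ≤ 1)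
    (hq : a + 2 * η ≤ a') :
    a * Ar (fun _ _ => 1) v (wt w G) + (1 - a') / 2 * (1 - κ) *
        (∑ i, mean v fun x => chi v (wt w G) i x ^ 2) + κ / 4 * El (Lw η f) v w -
        2 / κ * ∑ i, mean v (fun x => xs (κ / 64 * η) (grad G x i)) ≤
      Ar (rw η (th a') f) v (wt w G) + (1 - th a') / 2 * El (Lw η f) v w := by
  have h := U_sum hw hf hv G ha hκ haa ha1 h0 h1 hq (ω := fun _ _ => 1) fun _ _ => zero_le_one
  simp only [one_mul] at h
  have h2 : (∑ i, mean v fun x => Lw η f i x * xs (κ / 64 * η) (grad G x i)) ≤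
      ∑ i, mean v fun x => xs (κ / 64 * η) (grad G x i) :=
    Finset.sum_le_sum fun i _ => (pr_mul hw hf hv).1.hv.mean_mono fun x =>
      mul_le_of_le_one_left (xs_nonneg _ _) (Lw_mem η f i x).2
  have := mul_le_mul_of_nonneg_left h2 (by positivity : 0 ≤ 2 / κ)
  linarith

/-- **LEVEL 0** -/
theorem level0_cube (hw : Wt w) (hf : ∀ x, 0 < f x) (hv : v = fun x => w x * f x) (hθ : 0 ≤ θ)
    (η : ℝ) : 2 * Ar (rw η θ f) v w + (1 - θ) * El (Lw η f) v w ≤
      El (fun _ _ => 1) v w + θ * Dw (Lw η f) v w := by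
  simp only [Ar, As, El, Es, Dw, Finset.mul_sum, ← Finset.sum_add_distrib, ← mean_const_mul,
    ← mean_add]
  refine Finset.sum_le_sum fun i _ => mean_mono_supp (pr_mul hw hf hv).1.hv fun x hx => ?_
  rcases site_dict hw hf hv (fun _ => 0) i hx with ⟨p, h, k, -, e2, e3, e4, -, -, -, -, e9⟩ |
    ⟨-, e2, e3, e4, -⟩
  · rw [e2, e3, e4]
    by_cases hL : Ld η f i x
    · rw [Lw_of hL, rw_of hL]
      have := level0 hθ h k
      linarith
    · rw [Lw_of_not hL, rw_of_not hL]
      have := level0_quiet (η := η) (h := h) (k := k) (by rw [e9]; exact (not_le.1 hL).le)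
      linarith
  · rw [e2, e3, e4]; simp

theorem Dw_le_one (hv : Wt v) (w : Cube n → ℝ) {r : Fin n → Cube n → ℝ} (hr : ∀ i x, r i x ≤ 1) :
    Dw r v w ≤ ∑ i, mean v fun x => max (kls v w i x - kls w v i x) 0 :=
  Finset.sum_le_sum fun i _ => hv.mean_mono fun x =>
    mul_le_of_le_one_left (le_max_right _ _) (hr i x)

/-- the tilt error on loud edges (`g` = the gradient of the new tilt) -/
theorem tilt_err_site (hw : Wt w) (hf : ∀ x, 0 < f x) (hv : v = fun x => w x * f x)
    (G : Cube n → ℝ) (h0 : 0 < η) (h1 : η ≤ 1) (hρ0 : 0 < ρ) (hρ1 : ρ ≤ 1) (g : ℝ) (i : Fin n)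
    (hx : v x ≠ 0) : Lw η f i x * (|chi v (wt w G) i x| * |g|) ≤
      (ρ + exp 6 * ρ ^ 2) * (Lw η f i x * es v w i x) + 1 / ρ * xs (ρ * η) g +
        xs (ρ * η) (grad G x i) := by
  have z : 0 ≤ 1 / ρ * xs (ρ * η) g + xs (ρ * η) (grad G x i) :=
    add_nonneg (mul_nonneg (by positivity) (xs_nonneg _ _)) (xs_nonneg _ _)
  by_cases hL : Ld η f i x
  · rw [Lw_of hL, one_mul, one_mul]
    rcases site_dict hw hf hv G i hx with ⟨p, h, k, -, -, -, e4, e5, -, e7, e8, e9⟩ |
      ⟨-, -, -, e4, b, e5, -, e7⟩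
    · rw [chi, e4, e5, e7, ← xs_neg _ (grad G x i), ← e8]
      exact tilt_err h0 h1 hρ0 hρ1 p g (by rw [e9]; exact hL)
    · rw [chi, e4, e5, e7, sub_self, abs_zero]; linarith
  · rw [Lw_of_not hL]; linarith

theorem chi_loud_site (hw : Wt w) (hf : ∀ x, 0 < f x) (hv : v = fun x => w x * f x)
    (G : Cube n → ℝ) (h0 : 0 < η) (h1 : η ≤ 1) (hρ0 : 0 ≤ ρ) (hρ1 : ρ ≤ 1) (i : Fin n)
    (hx : v x ≠ 0) : Lw η f i x * chi v (wt w G) i x ^ 2 ≤
      2 * (1 + exp 6 * ρ ^ 2) * (Lw η f i x * es v w i x) + 2 * xs (ρ * η) (grad G x i) := by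
  have z := xs_nonneg (ρ * η) (grad G x i)
  by_cases hL : Ld η f i x
  · rw [Lw_of hL, one_mul, one_mul]
    rcases site_dict hw hf hv G i hx with ⟨p, h, k, -, -, -, e4, e5, -, e7, e8, e9⟩ |
      ⟨-, -, -, e4, b, e5, -, e7⟩
    · rw [chi, e4, e5, e7, ← xs_neg _ (grad G x i), ← e8]
      exact chi_loud h0 h1 hρ0 hρ1 p (by rw [e9]; exact hL)
    · rw [chi, e4, e5, e7, sub_self]; linarith
  · rw [Lw_of_not hL]; linarith


/-- a pinned site carries nothing -/
theorem Es_pinned (h : Pr v w) (h' : Pr w v) {b : Bool} (hb : ∀ x, w x ≠ 0 → x i = b)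
    (u : Cube n → ℝ) : Es u v w i = 0 := by
  obtain ⟨f, hf, hv⟩ := exists_dens h h'
  rw [Es, mean_congr_supp (g := fun _ => 0), h.hv.mean_const]
  intro x hx
  have hx' := (h.pos hx).2.ne'
  have hF : ¬Fr w i x := fun hF => by
    have e1 := hb _ hF.1.ne'
    have e2 := hb _ hF.2.ne'
    simp only [update_self] at e1 e2
    exact absurd (e1.trans e2.symm) (by simp)
  obtain ⟨c, hc⟩ := pinned h.hw hx' hF
  have c1 := (hc f hf).1
  have c2 := (hc (fun _ => 1) fun _ => one_pos).1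
  simp only [mul_one] at c2
  rw [← hv] at c1
  rw [es, kls, kls, c1, c2, Ent.kl_self, add_zero, mul_zero]

end Crest.Agent.T157.Ue
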