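import Crest.Agent.T157.UwA_98
import Crest.Agent.T157.SLA_23
import Crest.Agent.T157.ConcP_16

-- ▼ part T157/UwB_98
section

/-!
# Row 157, part B, block S3 (helper98): the second moment of the diagonal of a Wick word
-/

set_option autoImplicit false
set_option maxHeartbeats 400000
set_option linter.unusedSectionVars false

noncomputable section

namespace Crest.Agent.T157.Uw

open Matrix Finset MeasureTheory
open Crest.Agent.T157.Eig Crest.Agent.T157.Fr Crest.Agent.T157.Cond
open Crest.Agent.T157.Conc (en ELip)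
open Crest.Agent.T157.E (gv)
open Crest.Agent.T157.SL (EG Pt)

variable {ι : Type*} [Fintype ι] [DecidableEq ι] {s : ℝ}

/-! ### temperate functions, Stein's identity for the GOE -/

/-- continuous with exponential growth -/
def Pg {κ : Type*} [Fintype κ] (F : (κ → ℝ) → ℝ) : Prop := EG Set.univ fun p : Pt κ => F p.2

lemma Pg.int {κ : Type*} [Fintype κ] [DecidableEq κ] {F : (κ → ℝ) → ℝ} (h : Pg F) :
    Integrable F (gv κ) := EG.int h (Set.mem_univ 0)

/-- temperate matrix functions -/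
def PM (F : (ι × ι → ℝ) → Matrix ι ι ℝ) : Prop := ∀ i j, Pg fun x => F x i j

lemma PM.const (A : Matrix ι ι ℝ) : PM fun _ => A := fun i j => EG.const (A i j)
lemma PM.mul {F G : (ι × ι → ℝ) → Matrix ι ι ℝ} (h : PM F) (h' : PM G) : PM fun x => F x * G x :=
  fun i j => by
    simp only [mul_apply]
    exact EG.sum univ fun k _ => EG.mul (h i k) (h' k j)
lemma PM.sub {F G : (ι × ι → ℝ) → Matrix ι ι ℝ} (h : PM F) (h' : PM G) : PM fun x => F x - G x :=
  fun i j => EG.sub (h i j) (h' i j)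
lemma PM.smul {F : (ι × ι → ℝ) → Matrix ι ι ℝ} (h : PM F) (c : ℝ) : PM fun x => c • F x :=
  fun i j => EG.const_mul c (h i j)
lemma PM.sum {σ : Type*} (t : Finset σ) {F : σ → (ι × ι → ℝ) → Matrix ι ι ℝ} (h : ∀ q, PM (F q)) :
    PM fun x => ∑ q ∈ t, F q x := fun i j => by
  simp only [Matrix.sum_apply]
  exact EG.sum t fun q _ => h q i j
lemma pm_symG (s : ℝ) : PM (symG (ι := ι) s) := fun i j =>
  EG.const_mul _ (EG.add (EG.coord (i, j)) (EG.coord (j, i)))

lemma pm_VU (s t : ℝ) : ∀ l : List (ι → ℝ),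
    (PM fun x => Vk s (symG t x) l) ∧ PM fun x => Uk s (symG t x) l
  | [] => ⟨PM.const 1, PM.const 0⟩
  | a :: l => ⟨((pm_symG t).mul ((PM.const _).mul (pm_VU s t l).1)).sub ((pm_VU s t l).2.smul _),
      (PM.const (diagonal a)).mul (pm_VU s t l).1⟩

lemma pm_Tv (s t : ℝ) (H : Matrix ι ι ℝ) (l : List (ι → ℝ)) :
    PM fun x => Tv s (symG t x) (symG t x) H l :=
  PM.sum _ fun _ => ((pm_VU s t _).1.mul (PM.const H)).mul (pm_VU s t _).2
lemma pm_Tu (s t : ℝ) (H : Matrix ι ι ℝ) (l : List (ι → ℝ)) :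
    PM fun x => Tu s (symG t x) (symG t x) H l :=
  PM.sum _ fun _ => ((pm_VU s t _).2.mul (PM.const H)).mul (pm_VU s t _).2

lemma cont_VU {X : Type*} [TopologicalSpace X] {J : X → Matrix ι ι ℝ} (hJ : Continuous J) (s : ℝ) :
    ∀ l : List (ι → ℝ), (Continuous fun x => Vk s (J x) l) ∧ Continuous fun x => Uk s (J x) l
  | [] => ⟨continuous_const, continuous_const⟩
  | a :: l => ⟨(hJ.matrix_mul (continuous_const.matrix_mul (cont_VU hJ s l).1)).sub
      ((cont_VU hJ s l).2.fun_const_smul _), continuous_const.matrix_mul (cont_VU hJ s l).1⟩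

lemma hasDerivAt_of_mul {f φ : ℝ → ℝ} (hφ : Continuous φ) (h : ∀ t, f t - f 0 = t * φ t) :
    HasDerivAt f (φ 0) 0 := by
  rw [hasDerivAt_iff_tendsto_slope]
  refine ((hφ.tendsto 0).mono_left nhdsWithin_le_nhds).congr' ?_
  filter_upwards [self_mem_nhdsWithin] with t ht
  have ht' : t ≠ 0 := ht
  rw [slope_def_field, h, sub_zero]
  field_simp

lemma deriv_VU (s : ℝ) (J H : Matrix ι ι ℝ) (l : List (ι → ℝ)) (i j : ι) :
    HasDerivAt (fun t : ℝ => Vk s (J + t • H) l i j) (Tv s J J H l i j) 0 ∧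
    HasDerivAt (fun t : ℝ => Uk s (J + t • H) l i j) (Tu s J J H l i j) 0 := by
  have hc : Continuous fun t : ℝ => J + t • H := by fun_prop
  constructor
  · have := hasDerivAt_of_mul (f := fun t : ℝ => Vk s (J + t • H) l i j)
      (φ := fun t => Tv s (J + t • H) J H l i j) (Continuous.matrix_elem (continuous_finsetSum _
        fun q _ => ((cont_VU hc s _).1.matrix_mul continuous_const).matrix_mul continuous_const) i j)
      fun t => by
        rw [zero_smul, add_zero, ← Matrix.sub_apply, (tele s _ J l).1, add_sub_cancel_left, Tv_smul]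
        rfl
    simpa using this
  · have := hasDerivAt_of_mul (f := fun t : ℝ => Uk s (J + t • H) l i j)
      (φ := fun t => Tu s (J + t • H) J H l i j) (Continuous.matrix_elem (continuous_finsetSum _
        fun q _ => ((cont_VU hc s _).2.matrix_mul continuous_const).matrix_mul continuous_const) i j)
      fun t => by
        rw [zero_smul, add_zero, ← Matrix.sub_apply, (tele s _ J l).2, add_sub_cancel_left, Tu_smul]
        rfl
    simpa using this

/-- the symmetric elementary matrix -/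
def Se (i j : ι) : Matrix ι ι ℝ := single i j 1 + single j i 1

lemma mul_Se_mul (A B : Matrix ι ι ℝ) (i j k l : ι) :
    (A * Se i j * B) k l = A k i * B j l + A k j * B i l := by
  simp only [Se, Matrix.mul_add, Matrix.add_mul, Matrix.add_apply, mul_apply, single_apply, mul_ite,
    ite_mul, mul_one, mul_zero, zero_mul, ite_and, sum_ite_eq, mem_univ, if_true, sum_ite_irrel,
    sum_const_zero, add_mul, sum_add_distrib]

lemma symG_single (s : ℝ) (i j : ι) : symG s (Pi.single (i, j) 1) = (s / √2) • Se i j := by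
  ext a b
  simp only [symG, of_apply, Se, Matrix.smul_apply, Matrix.add_apply, Matrix.single_apply, Pi.single_apply,
    Prod.mk.injEq, smul_eq_mul]
  congr 2
  · simp only [eq_comm]
  · simp only [eq_comm, and_comm]

/-- **Stein's identity for the GOE** -/
theorem stein_goe (s : ℝ) (i j : ι) {G G' : Matrix ι ι ℝ → ℝ} (hG : Pg fun x => G (symG s x))
    (hG' : Pg fun x => G' (symG s x))
    (hd : ∀ J, HasDerivAt (fun t : ℝ => G (J + t • Se i j)) (G' J) 0) :
    ∫ x, symG s x i j * G (symG s x) ∂gv (ι × ι) = s ^ 2 * ∫ x, G' (symG s x) ∂gv (ι × ι) := by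
  have key : ∀ p : ι × ι, symG s (Pi.single p 1) = (s / √2) • Se i j →
      ∫ x, x p * G (symG s x) ∂gv (ι × ι) = s / √2 * ∫ x, G' (symG s x) ∂gv (ι × ι) := fun p hp => by
    rw [← integral_const_mul]
    refine SL.stein hG (EG.const_mul (s / √2) hG') (Set.mem_univ 0) p fun y => ?_
    have e : ∀ u, symG s (Function.update y p u) = symG s y + ((u - y p) * (s / √2)) • Se i j :=
      fun u => by rw [← smul_smul, ← hp, ← symG_update, add_sub_cancel]
    simp only [e]
    have h1 : HasDerivAt (fun u : ℝ => (u - y p) * (s / √2)) (s / √2) (y p) := by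
      simpa using ((hasDerivAt_id (y p)).sub_const (y p)).mul_const (s / √2)
    have h2 := (hd (symG s y)).comp_of_eq (y p) h1 (by simp)
    rw [mul_comm] at h2
    exact h2
  have h1 := key (i, j) (symG_single s i j)
  have h2 := key (j, i) (by rw [symG_single, Se, Se, add_comm])
  have e : ∀ x : ι × ι → ℝ, symG s x i j * G (symG s x) =
      s / √2 * (x (i, j) * G (symG s x) + x (j, i) * G (symG s x)) := fun x => by
    conv_lhs => enter [1]; rw [symG, of_apply]
    ring
  simp only [e]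
  have hi : ∀ p : ι × ι, Pg fun x => x p * G (symG s x) := fun p => EG.mul (EG.coord p) hG
  rw [integral_const_mul, integral_add (hi _).int (hi _).int, h1, h2]
  have : √2 ^ 2 = 2 := Real.sq_sqrt (by norm_num)
  field_simp
  rw [this]; ring

/-! ### moments of the operator norm -/

lemma exp_opn (hs : s ^ 2 * Fintype.card ι ≤ 1) {μ : ℝ} (hμ : 0 ≤ μ) :
    ∫ x, Real.exp (μ * opn (symG (ι := ι) s x)) ∂gv (ι × ι) ≤ 2 * Real.exp (2 * μ + s ^ 2 * μ ^ 2) := by
  have key : ∀ t : ℝ, t ^ 2 = s ^ 2 → Integrable (fun x => Real.exp (μ * lam (symG (ι := ι) t x) 0))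
      (gv (ι × ι)) ∧ ∫ x, Real.exp (μ * lam (symG (ι := ι) t x) 0) ∂gv (ι × ι) ≤
        Real.exp (2 * μ + s ^ 2 * μ ^ 2) := fun t ht => by
    have h := Nrm.elip_lam_symG (ι := ι) isHermitian_zero t 0
    simp only [zero_add] at h
    refine ⟨h.integrable_exp μ, ?_⟩
    have h1 := Conc.mgf_lip h μ
    have h2 := Nrm.E_lam_symG (ι := ι) t
    have h3 : |t| * √(Fintype.card ι) ≤ 1 := by
      rw [← Real.sqrt_sq_eq_abs, ← Real.sqrt_mul (sq_nonneg t), ht]
      exact Real.sqrt_le_one.2 hs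
    set m := ∫ x, lam (symG (ι := ι) t x) 0 ∂gv (ι × ι)
    simp only [mul_sub, Real.exp_sub] at h1
    rw [integral_div, div_le_iff₀ (Real.exp_pos _), ← Real.exp_add] at h1
    refine h1.trans (Real.exp_le_exp.2 ?_)
    rw [mul_pow, Real.sq_sqrt (by norm_num), sq_abs, ht]
    nlinarith [mul_le_mul_of_nonneg_left (show m ≤ 2 by linarith) hμ]
  obtain ⟨i1, b1⟩ := key s rfl
  obtain ⟨i2, b2⟩ := key (-s) (neg_sq s)
  refine le_trans (integral_mono_of_nonneg (ae_of_all _ fun x => (Real.exp_pos _).le) (i1.add i2)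
    (ae_of_all _ fun x => ?_)) (by rw [integral_add' i1 i2]; linarith)
  have e : symG (-s) x = -symG s x := by ext i j; simp [symG, neg_div]
  simp only [Pi.add_apply, e]
  rw [opn_eq_max (Nrm.symG_herm s x)]
  rcases le_total (lam (symG s x) 0) (lam (-symG s x) 0) with h | h
  · rw [max_eq_right h]; linarith [Real.exp_pos (μ * lam (symG s x) 0)]
  · rw [max_eq_left h]; linarith [Real.exp_pos (μ * lam (-symG s x) 0)]

/-- `1 + ‖J‖` -/
def Bn (s : ℝ) (x : ι × ι → ℝ) : ℝ := 1 + opn (symG s x)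

lemma one_le_Bn (s : ℝ) (x : ι × ι → ℝ) : 1 ≤ Bn s x := le_add_of_nonneg_right (opn_nonneg _)

/-- the tail weight -/
def Tl (s : ℝ) (x : ι × ι → ℝ) : ℝ :=
  Real.exp ((Fintype.card ι / 2 + 1) * opn (symG s x) + (1 - 3 * (Fintype.card ι / 2)))

lemma pow_Bn_le (s : ℝ) (x : ι × ι → ℝ) (m : ℕ) (h : 4 ≤ Bn s x) :
    Bn s x ^ m ≤ m.factorial * Tl s x := by
  have h1 := Real.pow_div_factorial_le_exp (Bn s x) (by linarith) m
  rw [div_le_iff₀' (by positivity)] at h1
  refine h1.trans (mul_le_mul_of_nonneg_left (Real.exp_le_exp.2 ?_) (by positivity))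
  unfold Bn at *
  nlinarith [mul_nonneg (Nat.cast_nonneg (α := ℝ) (Fintype.card ι))
    (show 0 ≤ opn (symG s x) - 3 by linarith)]

lemma int_Tl (hs : s ^ 2 * Fintype.card ι ≤ 1) (hn : 1 ≤ Fintype.card ι) :
    Integrable (Tl (ι := ι) s) (gv (ι × ι)) ∧
      Fintype.card ι * ∫ x, Tl (ι := ι) s x ∂gv (ι × ι) ≤ 8 * Real.exp 6 := by
  have h := Nrm.elip_opn_symG (ι := ι) 0 s
  simp only [zero_add] at h
  have n1 : (1 : ℝ) ≤ Fintype.card ι := by exact_mod_cast hn
  unfold Tl
  set n : ℝ := (Fintype.card ι : ℝ) with hn'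
  simp only [Real.exp_add]
  refine ⟨(h.integrable_exp _).mul_const _, ?_⟩
  rw [integral_mul_const]
  have h1 := exp_opn hs (μ := n / 2 + 1) (by positivity)
  have h2 : s ^ 2 * (n / 2 + 1) ^ 2 ≤ n / 4 + 2 := by
    have : s ^ 2 ≤ 1 := by nlinarith [sq_nonneg s]
    nlinarith
  have h3 : n / 4 ≤ Real.exp (n / 4) := by linarith [Real.add_one_le_exp (n / 4)]
  calc _ ≤ 4 * Real.exp (n / 4) * (2 * Real.exp (2 * (n / 2 + 1) + (n / 4 + 2)) *
        Real.exp (1 - 3 * (n / 2))) := by
        gcongr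
        · linarith
        · exact h1.trans (by gcongr)
    _ = 8 * Real.exp (n / 4 + (2 * (n / 2 + 1) + (n / 4 + 2)) + (1 - 3 * (n / 2))) := by
        simp only [Real.exp_add]; ring
    _ ≤ _ := by gcongr; linarith

/-! ### the second moment -/

/-- squared norm of the diagonal -/
def Dq (s : ℝ) (l : List (ι → ℝ)) (x : ι × ι → ℝ) : ℝ := ∑ i, Vk s (symG s x) l i i ^ 2

lemma Dq_eq (s : ℝ) (l : List (ι → ℝ)) (x : ι × ι → ℝ) :
    Dq s l x = nrm (Vk s (symG s x) l).diag ^ 2 := by
  rw [nrm_sq]; simp [Dq, dotProduct, sq]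

lemma pg_Dq (s : ℝ) (l : List (ι → ℝ)) : Pg (Dq s l) :=
  EG.sum univ fun i _ => EG.pow ((pm_VU s s l).1 i i) 2

/-- the Stein remainder -/
def Rm (s : ℝ) (J : Matrix ι ι ℝ) (a : ι → ℝ) (m : List (ι → ℝ)) (i : ι) : ℝ :=
  (s ^ 2 * ∑ j, Tu s J J (Se i j) (a :: m) j i - eta s a * Uk s J m i i) * Vk s J (a :: m) i i +
    s ^ 2 * ∑ j, Uk s J (a :: m) j i * Tv s J J (Se i j) (a :: m) i i

lemma int_sq_eq (s : ℝ) (a : ι → ℝ) (m : List (ι → ℝ)) (i : ι) :
    (Pg fun x => Rm s (symG s x) a m i) ∧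
    ∫ x, Vk s (symG s x) (a :: m) i i ^ 2 ∂gv (ι × ι) = ∫ x, Rm s (symG s x) a m i ∂gv (ι × ι) := by
  have pV := (pm_VU s s (a :: m)).1 i i
  have pU := fun j => (pm_VU s s (a :: m)).2 j i
  have p1 : ∀ j, Pg fun x => Tu s (symG s x) (symG s x) (Se i j) (a :: m) j i *
      Vk s (symG s x) (a :: m) i i + Uk s (symG s x) (a :: m) j i *
        Tv s (symG s x) (symG s x) (Se i j) (a :: m) i i := fun j =>
    EG.add (EG.mul (pm_Tu s s _ _ j i) pV) (EG.mul (pU j) (pm_Tv s s _ _ i i))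
  have p2 : Pg fun x => eta s a * (Uk s (symG s x) m i i * Vk s (symG s x) (a :: m) i i) :=
    EG.const_mul _ (EG.mul ((pm_VU s s m).2 i i) pV)
  have p3 : ∀ j, Pg fun x => symG s x i j *
      (Uk s (symG s x) (a :: m) j i * Vk s (symG s x) (a :: m) i i) := fun j =>
    EG.mul (pm_symG s i j) (EG.mul (pU j) pV)
  have e1 : ∀ J, Rm s J a m i = ∑ j, s ^ 2 * (Tu s J J (Se i j) (a :: m) j i * Vk s J (a :: m) i i +
      Uk s J (a :: m) j i * Tv s J J (Se i j) (a :: m) i i) -
      eta s a * (Uk s J m i i * Vk s J (a :: m) i i) := fun J => by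
    simp only [Rm, mul_add, sum_add_distrib, ← mul_sum, ← sum_mul]; ring
  have e2 : ∀ J, Vk s J (a :: m) i i ^ 2 = ∑ j, J i j * (Uk s J (a :: m) j i * Vk s J (a :: m) i i) -
      eta s a * (Uk s J m i i * Vk s J (a :: m) i i) := fun J => by
    simp only [← mul_assoc, ← sum_mul, ← sub_mul, sq]
    congr 1
  simp only [e1, e2]
  refine ⟨EG.sub (EG.sum univ fun j _ => EG.const_mul _ (p1 j)) p2, ?_⟩
  rw [integral_sub (integrable_finsetSum _ fun j _ => (p3 j).int) p2.int,
    integral_sub (integrable_finsetSum _ fun j _ => (p1 j).int.const_mul _) p2.int,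
    integral_finsetSum _ fun j _ => (p3 j).int,
    integral_finsetSum _ fun j _ => (p1 j).int.const_mul _]
  congr 1
  refine sum_congr rfl fun j _ => ?_
  rw [integral_const_mul]
  exact stein_goe s i j (G := fun J => Uk s J (a :: m) j i * Vk s J (a :: m) i i)
    (G' := fun J => Tu s J J (Se i j) (a :: m) j i * Vk s J (a :: m) i i +
      Uk s J (a :: m) j i * Tv s J J (Se i j) (a :: m) i i) (EG.mul (pU j) pV) (p1 j) fun J => by
    simpa using (deriv_VU s J (Se i j) (a :: m) j i).2.fun_mul (deriv_VU s J (Se i j) (a :: m) i i).1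

lemma abs_col_le {A B : Matrix ι ι ℝ} {a b : ℝ} (hA : opn A ≤ a) (hB : opn B ≤ b) (i : ι) :
    |∑ j, A j i * B j i| ≤ a * b :=
  (abs_entry_le (Aᵀ * B) i i).trans (opn_mul_le' (by rwa [opn_transpose]) hB)

lemma abs_trace_le (A : Matrix ι ι ℝ) : |∑ j, A j j| ≤ √(Fintype.card ι) * nrm A.diag := by
  have := abs_dot_le (fun _ : ι => (1 : ℝ)) A.diag
  simpa [dotProduct, nrm] using this

/-- pointwise bound of the Stein remainder -/
lemma Rm_le (hs : s ^ 2 * Fintype.card ι ≤ 1) {J : Matrix ι ι ℝ} {a : ι → ℝ} {m : List (ι → ℝ)}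
    (h : Bd (a :: m)) (i : ι) {B : ℝ} (hB : B = (1 + opn J) ^ (m.length + 1)) :
    Rm s J a m i ≤ s ^ 2 * (B * (m.length + 1 + √(Fintype.card ι) *
      ∑ q ∈ range (m.length - 1), nrm (Vk s J (m.take (q + 1))).diag) * |Vk s J (a :: m) i i| +
        2 * (m.length + 1) * B ^ 2) := by
  have N0 := opn_nonneg J
  have B1 : 1 ≤ B := hB ▸ one_le_pow₀ (by linarith)
  have hp : ∀ q ∈ range (m.length + 1), (1 + opn J) ^ ((a :: m).take q).length *
      (1 + opn J) ^ ((a :: m).drop q).length = B := fun q _ => by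
    rw [← pow_add, ← List.length_append, List.take_append_drop, hB, List.length_cons]
  have hT := fun q => opn_VU hs le_rfl (J := J) (h.take q)
  have hD := fun q => (opn_VU hs le_rfl (J := J) (h.drop q)).2
  have hY : opn (Uk s J (a :: m)) ≤ B := hB ▸ (opn_VU hs le_rfl h).2
  have c1 : ∑ j, Uk s J (a :: m) j i * Tv s J J (Se i j) (a :: m) i i ≤ 2 * (m.length + 1) * B ^ 2 := by
    simp only [Tv, Matrix.sum_apply, mul_Se_mul, mul_sum, List.length_cons]
    rw [sum_comm]
    refine (sum_le_card_nsmul _ _ (2 * B ^ 2) fun q hq => ?_).trans (by simp; linarith)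
    have e : ∑ j, Uk s J (a :: m) j i * (Vk s J ((a :: m).take q) i i * Uk s J ((a :: m).drop q) j i +
        Vk s J ((a :: m).take q) i j * Uk s J ((a :: m).drop q) i i) =
        Vk s J ((a :: m).take q) i i * ∑ j, Uk s J (a :: m) j i * Uk s J ((a :: m).drop q) j i +
        (Vk s J ((a :: m).take q) * Uk s J (a :: m)) i i * Uk s J ((a :: m).drop q) i i := by
      rw [mul_apply, mul_sum, sum_mul, ← sum_add_distrib]
      exact sum_congr rfl fun j _ => by ring
    have b1 := mul_le_mul ((abs_entry_le _ i i).trans (hT q).1) (abs_col_le hY (hD q) i)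
      (abs_nonneg _) (by positivity)
    have b2 := mul_le_mul ((abs_entry_le _ i i).trans (opn_mul_le' (hT q).1 hY))
      ((abs_entry_le _ i i).trans (hD q)) (abs_nonneg _) (by positivity)
    rw [← abs_mul, mul_left_comm, hp q hq] at b1
    rw [← abs_mul, mul_right_comm, hp q hq] at b2
    rw [e]
    linarith [le_abs_self (Vk s J ((a :: m).take q) i i *
      ∑ j, Uk s J (a :: m) j i * Uk s J ((a :: m).drop q) j i), le_abs_self
      ((Vk s J ((a :: m).take q) * Uk s J (a :: m)) i i * Uk s J ((a :: m).drop q) i i)]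
  have c2 : |s ^ 2 * ∑ j, Tu s J J (Se i j) (a :: m) j i - eta s a * Uk s J m i i| ≤
      s ^ 2 * (B * (m.length + 1 + √(Fintype.card ι) *
        ∑ q ∈ range (m.length - 1), nrm (Vk s J (m.take (q + 1))).diag)) := by
    have e : ∑ j, Tu s J J (Se i j) (a :: m) j i = ∑ q ∈ range (m.length + 1),
        ∑ j, Uk s J ((a :: m).take q) j i * Uk s J ((a :: m).drop q) j i +
        ∑ q ∈ range (m.length + 1), (∑ j, Uk s J ((a :: m).take q) j j) *
          Uk s J ((a :: m).drop q) i i := by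
      simp only [Tu, Matrix.sum_apply, mul_Se_mul, List.length_cons, sum_add_distrib, sum_mul]
      rw [sum_comm, sum_comm (s := univ)]
    have b1 : |∑ q ∈ range (m.length + 1),
        ∑ j, Uk s J ((a :: m).take q) j i * Uk s J ((a :: m).drop q) j i| ≤ (m.length + 1) * B :=
      (abs_sum_le_sum_abs _ _).trans ((sum_le_card_nsmul _ _ B fun q hq =>
        (abs_col_le (hT q).2 (hD q) i).trans (hp q hq).le).trans (by simp))
    have e2 : s ^ 2 * ∑ q ∈ range (m.length + 1), (∑ j, Uk s J ((a :: m).take q) j j) *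
        Uk s J ((a :: m).drop q) i i - eta s a * Uk s J m i i = s ^ 2 * ∑ q ∈ range (m.length - 1),
          (∑ j, Uk s J (a :: m.take (q + 1)) j j) * Uk s J (m.drop (q + 1)) i i := by
      cases m with
      | nil => simp
      | cons b m =>
        simp only [List.length_cons, sum_range_succ', List.take_succ_cons, List.drop_succ_cons,
          List.take_zero, List.drop_zero, Uk_nil, Matrix.zero_apply, sum_const_zero, zero_mul,
          add_zero, Nat.add_sub_cancel, Uk_cons a [], Vk_nil, Matrix.mul_one, diagonal_apply_eq, eta]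
        ring
    have b2 : |∑ q ∈ range (m.length - 1), (∑ j, Uk s J (a :: m.take (q + 1)) j j) *
        Uk s J (m.drop (q + 1)) i i| ≤ B * (√(Fintype.card ι) *
          ∑ q ∈ range (m.length - 1), nrm (Vk s J (m.take (q + 1))).diag) := by
      rw [mul_sum, mul_sum]
      refine (abs_sum_le_sum_abs _ _).trans (sum_le_sum fun q _ => ?_)
      rw [abs_mul, mul_comm B]
      refine mul_le_mul ((abs_trace_le _).trans (mul_le_mul_of_nonneg_left
        (nrm_diag_mul (bd_cons.1 h).1 _) (Real.sqrt_nonneg _))) ((abs_entry_le _ i i).trans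
          ((opn_VU hs le_rfl ((bd_cons.1 h).2.drop _)).2.trans ?_)) (abs_nonneg _)
        (mul_nonneg (Real.sqrt_nonneg _) (nrm_nonneg _))
      rw [hB]
      exact pow_le_pow_right₀ (by linarith) (by rw [List.length_drop]; omega)
    rw [e, mul_add, add_sub_assoc, e2, ← mul_add, abs_mul, abs_of_nonneg (sq_nonneg s)]
    exact mul_le_mul_of_nonneg_left ((abs_add_le _ _).trans (by linarith)) (sq_nonneg s)
  have c3 := mul_le_mul_of_nonneg_right c2 (abs_nonneg (Vk s J (a :: m) i i))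
  rw [← abs_mul] at c3
  have c4 := mul_le_mul_of_nonneg_left c1 (sq_nonneg s)
  rw [Rm]
  linarith [le_abs_self ((s ^ 2 * ∑ j, Tu s J J (Se i j) (a :: m) j i - eta s a * Uk s J m i i) *
    Vk s J (a :: m) i i)]

lemma sum_Rm_le (hs : s ^ 2 * Fintype.card ι ≤ 1) (hn : 1 ≤ Fintype.card ι) {a : ι → ℝ}
    {m : List (ι → ℝ)} (h : Bd (a :: m)) (x : ι × ι → ℝ) {k : ℕ} (hk : k = m.length + 1) :
    ∑ i, Rm s (symG s x) a m i ≤ Dq s (a :: m) x / 2 + (k * 16 ^ k *
      ∑ q ∈ range (m.length - 1), Dq s (m.take (q + 1)) x + (k ^ 2 + 2 * k) * 16 ^ k +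
        (2 * k ^ 2 + 2 * k) * (4 * k).factorial * (Fintype.card ι * Tl s x)) := by
  have n1 : (1 : ℝ) ≤ Fintype.card ι := by exact_mod_cast hn
  set n : ℝ := (Fintype.card ι : ℝ) with hn'
  set B := Bn s x ^ k with hB
  have B0 := one_le_Bn s x
  have B1 : 1 ≤ B := one_le_pow₀ B0
  set S := ∑ q ∈ range (m.length - 1), nrm (Vk s (symG s x) (m.take (q + 1))).diag with hS
  have S0 : 0 ≤ S := sum_nonneg fun _ _ => nrm_nonneg _
  set D := nrm (Vk s (symG s x) (a :: m)).diag with hD
  have k1 : (k : ℝ) = m.length + 1 := by rw [hk]; push_cast; ring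
  have k0 : (0 : ℝ) ≤ k := by positivity
  have r0 : 0 ≤ √n := Real.sqrt_nonneg _
  have rr : √n * √n = n := Real.mul_self_sqrt (by linarith)
  have r1 : s ^ 2 * √n ≤ 1 := by
    have : √n ≤ n := by nlinarith [Real.one_le_sqrt.2 n1]
    nlinarith [sq_nonneg s]
  have h1 : ∑ i, |Vk s (symG s x) (a :: m) i i| ≤ √n * D := by
    have := abs_dot_le (fun _ : ι => (1 : ℝ)) fun i => |Vk s (symG s x) (a :: m) i i|
    simp only [nrm, dotProduct, one_mul, mul_one, sum_const, card_univ, nsmul_eq_mul,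
      abs_mul_abs_self] at this
    exact (le_abs_self _).trans this
  have h2 : ∑ i, Rm s (symG s x) a m i ≤ B * (k + S) * D + 2 * k * B ^ 2 := by
    refine (sum_le_sum fun i _ => Rm_le hs h i (B := B) (by rw [hB, hk, Bn])).trans ?_
    rw [← mul_sum, sum_add_distrib, ← mul_sum, sum_const, card_univ, nsmul_eq_mul, ← hn', ← hS, ← k1]
    have D0 : 0 ≤ D := nrm_nonneg _
    have b1 := mul_le_mul_of_nonneg_left h1 (show 0 ≤ s ^ 2 * (B * (k + √n * S)) by positivity)
    have b2 := mul_le_mul_of_nonneg_right r1 (show 0 ≤ B * k * D by positivity)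
    have b3 := mul_le_mul_of_nonneg_right hs (show 0 ≤ B * S * D by positivity)
    have b4 := mul_le_mul_of_nonneg_right hs (show 0 ≤ 2 * k * B ^ 2 by positivity)
    have e : s ^ 2 * (B * (k + √n * S)) * (√n * D) =
        s ^ 2 * √n * (B * k * D) + s ^ 2 * (√n * √n) * (B * S * D) := by ring
    rw [rr] at e
    nlinarith
  have h3 : S ^ 2 ≤ k * ∑ q ∈ range (m.length - 1), Dq s (m.take (q + 1)) x := by
    simp only [Dq_eq]
    refine (sq_sum_le_card_mul_sum_sq).trans (mul_le_mul_of_nonneg_right ?_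
      (sum_nonneg fun _ _ => sq_nonneg _))
    rw [card_range, hk]; exact_mod_cast (by omega)
  set Sg := ∑ q ∈ range (m.length - 1), Dq s (m.take (q + 1)) x with hSg
  have Sg0 : 0 ≤ Sg := sum_nonneg fun _ _ => sum_nonneg fun _ _ => sq_nonneg _
  have h4 : B * (k + S) * D ≤ D ^ 2 / 2 + B ^ 2 * (k ^ 2 + k * Sg) := by
    nlinarith [sq_nonneg (B * (k + S) - D), mul_nonneg (sq_nonneg B) (sq_nonneg (k - S)),
      mul_le_mul_of_nonneg_left h3 (sq_nonneg B)]
  have T0 : 0 ≤ ((4 * k).factorial : ℝ) * (n * Tl s x) := by unfold Tl; positivity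
  rw [Dq_eq, ← hD]
  rcases le_total (Bn s x) 4 with h5 | h5
  · have : B ^ 2 ≤ 16 ^ k := by
      rw [hB, ← pow_mul, mul_comm, pow_mul]
      exact pow_le_pow_left₀ (by positivity) (by nlinarith) k
    nlinarith [mul_le_mul_of_nonneg_right this (show 0 ≤ (k : ℝ) ^ 2 + k * Sg + 2 * k by positivity),
      mul_nonneg (show 0 ≤ 2 * (k : ℝ) ^ 2 + 2 * k by positivity) T0]
  · have b1 : B ^ 4 ≤ (4 * k).factorial * Tl s x := by
      rw [hB, ← pow_mul, mul_comm k]; exact pow_Bn_le s x _ h5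
    have b2 : Sg ≤ k * (n * B ^ 2) := by
      refine (sum_le_card_nsmul _ _ (n * B ^ 2) fun q _ => ?_).trans ?_
      · have b3 := (opn_VU hs le_rfl (J := symG s x) ((bd_cons.1 h).2.take (q + 1))).1
        have b4 : opn (Vk s (symG s x) (m.take (q + 1))) ≤ B := b3.trans
          (pow_le_pow_right₀ B0 (by rw [List.length_take]; omega))
        rw [Dq_eq, ← rr, ← sq, ← mul_pow]
        exact pow_le_pow_left₀ (nrm_nonneg _)
          ((dg_le _).trans (mul_le_mul_of_nonneg_left b4 r0)) 2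
      · rw [card_range, nsmul_eq_mul]
        exact mul_le_mul_of_nonneg_right (by rw [hk]; exact_mod_cast (by omega)) (by positivity)
    have b5 : n * B ^ 4 ≤ (4 * k).factorial * (n * Tl s x) := by
      rw [mul_left_comm]; exact mul_le_mul_of_nonneg_left b1 (by linarith)
    have b6 : B ^ 2 ≤ n * B ^ 4 := by
      have : B ^ 2 ≤ B ^ 4 := pow_le_pow_right₀ B1 (by norm_num)
      nlinarith [pow_nonneg (zero_le_one.trans B1) 4]
    have b7 := mul_le_mul_of_nonneg_left b2 (show 0 ≤ B ^ 2 * k by positivity)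
    have b8 := mul_le_mul_of_nonneg_left b5 (show 0 ≤ 2 * (k : ℝ) ^ 2 + 2 * k by positivity)
    have b9 := mul_le_mul_of_nonneg_left b6 (show 0 ≤ (k : ℝ) ^ 2 + 2 * k by positivity)
    have p1 : 0 ≤ (k : ℝ) * 16 ^ k * Sg := by positivity
    have p2 : 0 ≤ ((k : ℝ) ^ 2 + 2 * k) * 16 ^ k := by positivity
    nlinarith

universe u in
/-- **the second moment of the diagonal is bounded** -/
theorem mom (k : ℕ) : ∃ M : ℝ, 0 ≤ M ∧ ∀ (ι : Type u) [Fintype ι] [DecidableEq ι] (s : ℝ),
    s ^ 2 * Fintype.card ι ≤ 1 → 1 ≤ Fintype.card ι → ∀ l : List (ι → ℝ), l ≠ [] → l.length ≤ k →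
      Bd l → ∫ x, Dq s l x ∂gv (ι × ι) ≤ M := by
  induction k with
  | zero => exact ⟨0, le_rfl, fun ι _ _ s _ _ l h0 h1 _ => absurd (List.length_eq_zero_iff.1
      (Nat.le_zero.1 h1)) h0⟩
  | succ k ih =>
    obtain ⟨M, M0, hM⟩ := ih
    refine ⟨M + 2 * ((k + 1 : ℕ) * 16 ^ (k + 1) * (k * M) + ((k + 1 : ℕ) ^ 2 + 2 * (k + 1 : ℕ)) *
      16 ^ (k + 1) + (2 * (k + 1 : ℕ) ^ 2 + 2 * (k + 1 : ℕ)) * (4 * (k + 1)).factorial *
        (8 * Real.exp 6)), by positivity, fun ι _ _ s hs hn l h0 h1 h2 => ?_⟩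
    rcases Nat.lt_or_eq_of_le h1 with h3 | h3
    · exact (hM ι s hs hn l h0 (by omega) h2).trans (le_add_of_nonneg_right (by positivity))
    obtain ⟨a, m, rfl⟩ := List.exists_cons_of_ne_nil h0
    have hk : k + 1 = m.length + 1 := by simpa using h3.symm
    obtain ⟨t1, t2⟩ := int_Tl hs hn
    have i1 := (pg_Dq s (a :: m)).int
    have i2 : Integrable (fun x => ∑ q ∈ range (m.length - 1), Dq s (m.take (q + 1)) x)
        (gv (ι × ι)) := integrable_finsetSum _ fun q _ => (pg_Dq s _).int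
    have e : ∫ x, Dq s (a :: m) x ∂gv (ι × ι) = ∫ x, ∑ i, Rm s (symG s x) a m i ∂gv (ι × ι) := by
      unfold Dq
      have hp : ∀ i, Pg fun x => Vk s (symG s x) (a :: m) i i ^ 2 :=
        fun i => EG.pow ((pm_VU s s _).1 i i) 2
      rw [integral_finsetSum _ fun i _ => (hp i).int,
        integral_finsetSum _ fun i _ => (int_sq_eq s a m i).1.int]
      exact sum_congr rfl fun i _ => (int_sq_eq s a m i).2
    have b := integral_mono (integrable_finsetSum univ fun i _ => (int_sq_eq s a m i).1.int)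
      ((i1.div_const 2).add (((i2.const_mul _).add (integrable_const _)).add
        ((t1.const_mul _).const_mul _))) fun x => sum_Rm_le hs hn h2 x hk
    rw [← e, integral_add' (i1.div_const 2) (((i2.const_mul _).add (integrable_const _)).add
      ((t1.const_mul _).const_mul _)), integral_add' ((i2.const_mul _).add (integrable_const _))
      ((t1.const_mul _).const_mul _), integral_add' (i2.const_mul _) (integrable_const _),
      integral_div, integral_const_mul, integral_const_mul, integral_const_mul, integral_const,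
      probReal_univ, one_smul, integral_finsetSum _ fun q _ => (pg_Dq s _).int] at b
    simp only [integral_const_mul] at b
    have b2 : ∑ q ∈ range (m.length - 1), ∫ x, Dq s (m.take (q + 1)) x ∂gv (ι × ι) ≤ k * M := by
      refine (sum_le_card_nsmul _ _ M fun q hq => hM ι s hs hn _ ?_ ?_
        ((bd_cons.1 h2).2.take _)).trans ?_
      · have := mem_range.1 hq
        exact List.ne_nil_of_length_pos (by rw [List.length_take]; omega)
      · rw [List.length_take]; omega
      · rw [card_range, nsmul_eq_mul]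
        exact mul_le_mul_of_nonneg_right (by exact_mod_cast (by omega)) M0
    have b3 := mul_le_mul_of_nonneg_left b2
      (show 0 ≤ ((k + 1 : ℕ) : ℝ) * 16 ^ (k + 1) by positivity)
    have b4 := mul_le_mul_of_nonneg_left t2 (show 0 ≤ (2 * ((k + 1 : ℕ) : ℝ) ^ 2 + 2 * (k + 1 : ℕ)) *
      (4 * (k + 1)).factorial by positivity)
    linarith

end Crest.Agent.T157.Uw
end
end

-- ▼ part T157/UwC_98

/-!
# Row 157, part B, block S3 (helper98): (UW) holds with high probability

`uw_goe`, `uw_Wmat`, `uw_Jmat`: uniformly over all bounded diagonals the diagonal of a Wick word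
has Euclidean norm at most `K √(log n)`.
-/

set_option autoImplicit false
set_option maxHeartbeats 400000
set_option linter.unusedSectionVars false

noncomputable section

namespace Crest.Agent.T157.Uw

open Matrix Finset MeasureTheory Filter
open Crest.ProbabilityR.SpinGlassDynamics
open Crest.Agent.T157.Eig Crest.Agent.T157.Fr Crest.Agent.T157.Cond
open Crest.Agent.T157.Conc (en ELip en_nonneg)
open Crest.Agent.T157.E (gv Jmat Wmat)

variable {ι : Type*} [Fintype ι] [DecidableEq ι] {s : ℝ}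

/-- concentration of a function which is Lipschitz on a large set -/
theorem loc_tail {κ : Type*} [Fintype κ] {G A : Set (κ → ℝ)} {F : (κ → ℝ) → ℝ} {L M t : ℝ}
    (hL : 0 < L) (hA : 1 / 2 ≤ (gv κ).real A) (h : ∀ x ∈ G, ∀ y ∈ A, F x ≤ M + L * en (x - y))
    (ht : 0 ≤ t) : (gv κ).real {x | x ∈ G ∧ M + L * (2 + t) ≤ F x} ≤ Real.exp (-t ^ 2 / 2) := by
  have hne : A.Nonempty := by
    by_contra h0
    rw [Set.not_nonempty_iff_eq_empty.1 h0, measureReal_empty] at hA
    linarith
  haveI := hne.to_subtype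
  set d : (κ → ℝ) → ℝ := fun x => ⨅ y : A, en (x - y.1) with hd
  have bd : ∀ x : κ → ℝ, BddBelow (Set.range fun y : A => en (x - y.1)) := fun x =>
    ⟨0, by rintro _ ⟨y, rfl⟩; exact en_nonneg _⟩
  have d1 : ∀ x x', d x - en (x - x') ≤ d x' := fun x x' => le_ciInf fun y => by
    have h1 : d x ≤ en (x - y.1) := ciInf_le (bd x) y
    have h2 := Conc.en_add_le (x - x') (x' - y.1)
    rw [sub_add_sub_cancel] at h2
    linarith
  have hl : ELip 1 d := fun x x' => by
    have := d1 x' x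
    rw [Conc.en_sub_comm] at this
    rw [one_mul, abs_le]
    exact ⟨by linarith, by linarith [d1 x x']⟩
  set m := ∫ y, d y ∂gv κ with hm
  have m2 : m ≤ 2 := by
    by_contra h0
    push Not at h0
    have h1 := Conc.tail_lip_lower hl (t := m) (by linarith)
    have h2 : (gv κ).real A ≤ (gv κ).real {x | d x - m ≤ -m} := measureReal_mono fun x hx => by
      have : d x ≤ en (x - x) := ciInf_le (bd x) (⟨x, hx⟩ : A)
      simp only [sub_self, Conc.en_zero] at this
      simp only [Set.mem_setOf_eq]; linarith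
    have h3 : Real.exp (-m ^ 2 / (2 * 1 ^ 2)) ≤ Real.exp (-2) := Real.exp_le_exp.2 (by nlinarith)
    have h4 : Real.exp (-2) * 3 ≤ 1 := by
      rw [Real.exp_neg, inv_mul_le_iff₀ (Real.exp_pos _)]; linarith [Real.add_one_le_exp (2 : ℝ)]
    linarith [h2.trans h1]
  have h1 := Conc.tail_lip hl ht
  rw [one_pow, mul_one] at h1
  refine le_trans (measureReal_mono fun x hx => ?_) h1
  have : 2 + t ≤ d x := le_ciInf fun y =>
    le_of_mul_le_mul_left (by linarith [h x hx.1 y y.2, hx.2]) hL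
  simp only [Set.mem_setOf_eq]; linarith

lemma opn_tail (hs0 : 0 < s) (hs : s ^ 2 * Fintype.card ι ≤ 1) :
    (goe ι s).real {W | 3 < opn W} ≤ 2 * Real.exp (-(Fintype.card ι / 4)) := by
  have h3 : |s| * √(Fintype.card ι) ≤ 1 := by
    rw [← Real.sqrt_sq_eq_abs, ← Real.sqrt_mul (sq_nonneg s)]
    exact Real.sqrt_le_one.2 hs
  refine le_trans (measureReal_mono fun W hW => ?_) ((Nrm.goe_opn_tail s zero_le_one).trans ?_)
  · simp only [Set.mem_setOf_eq] at hW ⊢; linarith
  · gcongr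
    rw [div_le_iff₀ (by positivity)]
    nlinarith

lemma one_tail (hs0 : 0 < s) (hs : s ^ 2 * Fintype.card ι ≤ 1) (hn : 16 ≤ Fintype.card ι)
    {l : List (ι → ℝ)} (h0 : l ≠ []) (hl : Bd l) {M t : ℝ} (M0 : 0 ≤ M)
    (hM : ∫ x, Dq s l x ∂gv (ι × ι) ≤ M) (ht : 0 ≤ t) :
    (goe ι s).real {W | opn W ≤ 3 ∧ √(4 * M + 1) + l.length * 4 ^ l.length * (√2 * s) * (2 + t) ≤
      nrm (Vk s W l).diag} ≤ Real.exp (-t ^ 2 / 2) := by
  have hc : Continuous fun W : Matrix ι ι ℝ => nrm (Vk s W l).diag :=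
    continuous_nrm.comp (cont_VU continuous_id s l).1.matrix_diag
  have hms : MeasurableSet {W : Matrix ι ι ℝ | opn W ≤ 3 ∧ √(4 * M + 1) +
      l.length * 4 ^ l.length * (√2 * s) * (2 + t) ≤ nrm (Vk s W l).diag} :=
    (measurableSet_le continuous_opn.measurable measurable_const).inter
      (measurableSet_le measurable_const hc.measurable)
  rw [goe, map_measureReal_apply (measurable_symG s) hms]
  have l0 : (0 : ℝ) < l.length := by exact_mod_cast List.length_pos_iff.2 h0
  refine loc_tail (G := {x | opn (symG s x) ≤ 3}) (A := {x | opn (symG s x) ≤ 3 ∧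
    Dq s l x ≤ 4 * M + 1}) (F := fun x => nrm (Vk s (symG s x) l).diag) (by positivity) ?_
    (fun x hx y hy => ?_) ht
  · have h1 : (gv (ι × ι)).real {x | 3 < opn (symG s x)} ≤ 2 * Real.exp (-(Fintype.card ι / 4)) :=
      (real_preimage_le (ν := goe ι s) ⟨measurable_symG s, rfl⟩ {W | 3 < opn W}).trans
        (opn_tail hs0 hs)
    have h2 := mul_meas_ge_le_integral_of_nonneg (μ := gv (ι × ι)) (f := Dq s l)
      (ae_of_all _ fun x => sum_nonneg fun _ _ => sq_nonneg _) (pg_Dq s l).int (4 * M + 1)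
    have h3 : Real.exp (-(Fintype.card ι / 4 : ℝ)) ≤ 1 / 8 := by
      have : (16 : ℝ) ≤ Fintype.card ι := by exact_mod_cast hn
      have h4 : (3 : ℝ) ≤ Real.exp 2 := by linarith [Real.add_one_le_exp (2 : ℝ)]
      have h5 : Real.exp (2 + 2) ≤ Real.exp (Fintype.card ι / 4) := Real.exp_le_exp.2 (by linarith)
      rw [Real.exp_add] at h5
      rw [Real.exp_neg, one_div]
      exact inv_anti₀ (by norm_num) (by nlinarith)
    have h4 : (gv (ι × ι)).real {x | 4 * M + 1 ≤ Dq s l x} ≤ 1 / 4 := by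
      nlinarith [measureReal_nonneg (μ := gv (ι × ι)) (s := {x | 4 * M + 1 ≤ Dq s l x})]
    have h5 : (gv (ι × ι)).real Set.univ ≤ (gv (ι × ι)).real {x | opn (symG s x) ≤ 3 ∧
        Dq s l x ≤ 4 * M + 1} + ((gv (ι × ι)).real {x | 3 < opn (symG s x)} +
          (gv (ι × ι)).real {x | 4 * M + 1 ≤ Dq s l x}) := by
      refine le_trans (measureReal_mono fun x _ => ?_) ((measureReal_union_le _ _).trans
        (add_le_add le_rfl (measureReal_union_le _ _)))
      simp only [Set.mem_union, Set.mem_setOf_eq]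
      rcases le_or_gt (opn (symG s x)) 3 with a | a
      · rcases le_total (Dq s l x) (4 * M + 1) with b | b
        · exact Or.inl ⟨a, b⟩
        · exact Or.inr (Or.inr b)
      · exact Or.inr (Or.inl a)
    rw [probReal_univ] at h5
    linarith
  · have h1 := dg_sub_le hs (R := 3) hx hy.1 hl
    have h2 := hs_symG_le s (x - y)
    rw [← symG_sub, abs_of_pos hs0] at h2
    have h3 : nrm (Vk s (symG s y) l).diag ≤ √(4 * M + 1) :=
      Real.le_sqrt_of_sq_le (by rw [← Dq_eq]; exact hy.2)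
    have h4 := nrm_add_le (Vk s (symG s y) l).diag
      ((Vk s (symG s x) l).diag - (Vk s (symG s y) l).diag)
    rw [add_sub_cancel] at h4
    have h5 := mul_le_mul_of_nonneg_left h2 (show (0 : ℝ) ≤ l.length * 4 ^ l.length by positivity)
    norm_num at h1
    linarith

lemma exists_net (hn : 16 ≤ Fintype.card ι) (k : ℕ) : ∃ T : Finset (List (ι → ℝ)),
    (T.card : ℝ) ≤ Real.exp (2 * Fintype.card ι * k * Real.log (Fintype.card ι)) ∧
    (∀ l ∈ T, Bd l ∧ l.length = k) ∧ ∀ l, l.length = k → Bd l → ∃ l' ∈ T,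
      List.Forall₂ (fun a a' => ∀ i, |a i - a' i| ≤ 2 / √(Fintype.card ι)) l l' := by
  classical
  have n1 : (16 : ℝ) ≤ Fintype.card ι := by exact_mod_cast hn
  set n : ℝ := (Fintype.card ι : ℝ) with hn'
  have r4 : 4 ≤ √n := Real.le_sqrt_of_sq_le (by linarith)
  obtain ⟨T0, h1, h2, h3⟩ := exists_net_C {z | z.im = 0 ∧ |z.re| ≤ 1} (A := 1) (δ := 1 / √n)
    zero_le_one (by positivity) fun z hz => by
      refine (Complex.norm_le_abs_re_add_abs_im z).trans ?_
      rw [hz.1, abs_zero, add_zero]; exact hz.2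
  have c0 : (T0.card : ℝ) ≤ n ^ 2 := h2.trans (pow_le_pow_left₀ (by positivity) (by
    have := Real.mul_self_sqrt (show 0 ≤ n by linarith)
    rw [mul_one, div_div_eq_mul_div, div_one]; nlinarith) 2)
  set T1 := Fintype.piFinset fun _ : ι => T0.image Complex.re with hT1
  have c1 : (T1.card : ℝ) ≤ Real.exp (2 * n * Real.log n) := by
    rw [hT1, Fintype.card_piFinset, prod_const, card_univ, show 2 * n * Real.log n =
      (Fintype.card ι : ℕ) * Real.log (n ^ 2) by rw [Real.log_pow]; push_cast; ring,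
      Real.exp_nat_mul, Real.exp_log (by positivity)]
    push_cast
    exact pow_le_pow_left₀ (by positivity) (le_trans (by exact_mod_cast card_image_le) c0) _
  induction k with
  | zero => exact ⟨{[]}, by simp, by simp [Bd.nil], fun l hl _ => ⟨[], by simp, by
      rw [List.length_eq_zero_iff.1 hl]; exact List.Forall₂.nil⟩⟩
  | succ k ih =>
    obtain ⟨T, c2, b2, a2⟩ := ih
    refine ⟨image₂ List.cons T1 T, ?_, fun l hl => ?_, fun l hl hb => ?_⟩
    · refine le_trans (by exact_mod_cast card_image₂_le List.cons T1 T)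
        ((mul_le_mul c1 c2 (by positivity) (by positivity)).trans (le_of_eq ?_))
      rw [← Real.exp_add]; push_cast; ring_nf
    · obtain ⟨a, ha, m, hm, rfl⟩ := mem_image₂.1 hl
      refine ⟨bd_cons.2 ⟨fun i => ?_, (b2 m hm).1⟩, by simp [(b2 m hm).2]⟩
      obtain ⟨z, hz, e⟩ := mem_image.1 (Fintype.mem_piFinset.1 ha i)
      exact e ▸ (h1 z hz).2
    · obtain ⟨a, m, rfl⟩ := List.exists_cons_of_length_eq_add_one hl
      obtain ⟨m', hm', f⟩ := a2 m (by simpa using hl) (bd_cons.1 hb).2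
      choose z hz hz' using fun i => h3 (a i : ℂ) ⟨by simp, by simpa using (bd_cons.1 hb).1 i⟩
      refine ⟨(fun i => (z i).re) :: m', mem_image₂_of_mem (Fintype.mem_piFinset.2 fun i =>
        mem_image_of_mem _ (hz i)) hm', List.Forall₂.cons (fun i => ?_) f⟩
      have := (Complex.abs_re_le_norm _).trans (hz' i)
      simpa [div_eq_mul_inv] using this

universe u

theorem uw_len (k : ℕ) : ∃ K : ℝ, 0 ≤ K ∧ ∀ (ι : Type u) [Fintype ι] [DecidableEq ι] (s : ℝ),
    0 < s → s ^ 2 * Fintype.card ι ≤ 1 → 16 ≤ Fintype.card ι →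
    (goe ι s).real {W | opn W ≤ 3 ∧ ∃ l : List (ι → ℝ), l.length = k + 1 ∧ Bd l ∧
      K * √(Real.log (Fintype.card ι)) < nrm (Vk s W l).diag} ≤ Real.exp (-Fintype.card ι) := by
  obtain ⟨M, M0, hM⟩ := mom.{u} (k + 1)
  set c : ℝ := (k + 1 : ℕ) * 4 ^ (k + 1) with hc
  have c0 : 0 ≤ c := by positivity
  refine ⟨√(4 * M + 1) + c * (√2 * (2 * k + 6)) + 2 * c, by positivity, fun ι _ _ s hs0 hs hn => ?_⟩
  obtain ⟨T, c2, b2, a2⟩ := exists_net hn (k + 1)
  have n1 : (16 : ℝ) ≤ Fintype.card ι := by exact_mod_cast hn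
  have hM' := hM ι s hs (by omega)
  set n : ℝ := (Fintype.card ι : ℝ) with hn'
  have l1 : 1 ≤ Real.log n := by
    rw [Real.le_log_iff_exp_le (by linarith)]; linarith [Real.exp_one_lt_d9]
  set r := √(Real.log n) with hr
  have r1 : 1 ≤ r := Real.one_le_sqrt.2 l1
  have rr : r ^ 2 = Real.log n := Real.sq_sqrt (by linarith)
  set t := √(2 * (n * (2 * (k + 1 : ℕ) * Real.log n + 1))) with ht
  have tt : t ^ 2 = 2 * (n * (2 * (k + 1 : ℕ) * Real.log n + 1)) := Real.sq_sqrt (by positivity)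
  have t0 : 0 ≤ t := Real.sqrt_nonneg _
  have s1 : s ≤ 1 := by nlinarith
  have st : s * t ≤ (2 * k + 4) * r := by
    refine le_of_sq_le_sq ?_ (by positivity)
    rw [mul_pow, mul_pow, tt, rr]
    push_cast
    have k0 : (0 : ℝ) ≤ k := by positivity
    have h1 := mul_le_mul_of_nonneg_right hs
      (show 0 ≤ 2 * (2 * ((k : ℝ) + 1) * Real.log n + 1) by positivity)
    nlinarith [mul_nonneg (mul_nonneg k0 k0) (zero_le_one.trans l1),
      mul_nonneg k0 (zero_le_one.trans l1)]
  refine le_trans (measureReal_mono (s₂ := ⋃ l ∈ T, {W | opn W ≤ 3 ∧ √(4 * M + 1) +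
    l.length * 4 ^ l.length * (√2 * s) * (2 + t) ≤ nrm (Vk s W l).diag}) (fun W hW => ?_)
    (measure_ne_top _ _)) ((measureReal_biUnion_finset_le _ _).trans ((sum_le_card_nsmul _ _ (Real.exp (-t ^ 2 / 2))
      fun l hl => one_tail hs0 hs hn (List.ne_nil_of_length_pos (by rw [(b2 l hl).2]; omega))
        (b2 l hl).1 M0 (hM' l (List.ne_nil_of_length_pos (by rw [(b2 l hl).2]; omega))
          (b2 l hl).2.le (b2 l hl).1) t0).trans ?_))
  · obtain ⟨h3, l, h1, h2, h4⟩ := hW
    obtain ⟨l', hl', f⟩ := a2 l h1 h2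
    refine Set.mem_biUnion hl' ⟨h3, ?_⟩
    have h5 := (opn_sub_VU hs h3 (by positivity) f h2 (b2 l' hl').1).1
    have r0 : 0 < √n := by positivity
    have h6 := (dg_le _).trans (mul_le_mul_of_nonneg_left h5 r0.le)
    have h7 := nrm_add_le (Vk s W l').diag ((Vk s W l - Vk s W l').diag)
    rw [diag_sub, add_sub_cancel, ← diag_sub] at h7
    rw [h1, show (1 + 3 : ℝ) = 4 by norm_num, ← hc, mul_left_comm, mul_div_cancel₀ _ r0.ne'] at h6
    rw [(b2 l' hl').2, ← hc]
    have h8 : c * (√2 * s) * (2 + t) ≤ c * (√2 * (2 * k + 6)) * r := by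
      have : s * (2 + t) ≤ (2 * k + 6) * r := by nlinarith
      have := mul_le_mul_of_nonneg_left this (show 0 ≤ c * √2 by positivity)
      linarith
    nlinarith [mul_le_mul_of_nonneg_left r1 (Real.sqrt_nonneg (4 * M + 1)),
      mul_le_mul_of_nonneg_left r1 c0]
  · rw [nsmul_eq_mul]
    refine (mul_le_mul_of_nonneg_right c2 (Real.exp_pos _).le).trans (le_of_eq ?_)
    rw [← Real.exp_add, tt]; congr 1; ring

/-- **(UW) for the GOE** -/
theorem uw_goe (k : ℕ) : ∃ K : ℝ, 0 ≤ K ∧ ∀ (ι : Type u) [Fintype ι] [DecidableEq ι] (s : ℝ),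
    0 < s → s ^ 2 * Fintype.card ι ≤ 1 → 16 ≤ Fintype.card ι →
    (goe ι s).real {W | ¬ UW s W 3 k (K * √(Real.log (Fintype.card ι)))} ≤
      2 * Real.exp (-(Fintype.card ι / 4)) + k * Real.exp (-Fintype.card ι) := by
  induction k with
  | zero =>
    refine ⟨0, le_rfl, fun ι _ _ s hs0 hs _ => ?_⟩
    rw [Nat.cast_zero, zero_mul, zero_mul, add_zero]
    refine le_trans (measureReal_mono fun W hW => ?_) (opn_tail hs0 hs)
    by_contra h
    exact hW ⟨not_lt.1 h, fun l h0 h1 _ =>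
      absurd (List.length_eq_zero_iff.1 (Nat.le_zero.1 h1)) h0⟩
  | succ k ih =>
    obtain ⟨K, K0, hK⟩ := ih
    obtain ⟨K', K0', hK'⟩ := uw_len.{u} k
    refine ⟨K + K', by positivity, fun ι _ _ s hs0 hs hn => ?_⟩
    refine le_trans ((measureReal_mono fun W hW => ?_).trans (measureReal_union_le _ _))
      ((add_le_add (hK ι s hs0 hs hn) (hK' ι s hs0 hs hn)).trans (by push_cast; linarith))
    by_contra h
    simp only [Set.mem_union, Set.mem_setOf_eq, not_or, not_not, not_and, not_exists, not_lt] at h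
    have r0 := Real.sqrt_nonneg (Real.log (Fintype.card ι))
    refine hW ⟨h.1.op, fun l h0 h1 h2 => ?_⟩
    rcases Nat.lt_or_eq_of_le h1 with h3 | h3
    · exact (h.1.dg l h0 (by omega) h2).trans (by nlinarith)
    · exact (h.2 h.1.op l h3 h2).trans (by nlinarith)

lemma sq_param {β : ℝ} (h1 : β ^ 2 ≤ 1) (n : ℕ) : (β / √n) ^ 2 * Fintype.card (Fin n) ≤ 1 := by
  rw [div_pow, Real.sq_sqrt (by positivity), Fintype.card_fin]
  rcases Nat.eq_zero_or_pos n with h | h
  · simp [h]
  · rwa [div_mul_cancel₀ _ (by positivity)]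

/-- **(UW) for `β Wmat`** -/
theorem uw_Wmat (k : ℕ) : ∃ K : ℝ, 0 ≤ K ∧ ∀ (n : ℕ) (β : ℝ), 0 < β → β ≤ 1 → 16 ≤ n →
    ((disorderLaw n).prod (gv (Fin n))).real
      {p | ¬ UW (β / √n) (β • Wmat n p.1 p.2) 3 k (K * √(Real.log n))} ≤
      2 * Real.exp (-(n / 4)) + k * Real.exp (-n) := by
  obtain ⟨K, K0, hK⟩ := uw_goe.{0} k
  refine ⟨K, K0, fun n β h0 h1 hn => ?_⟩
  have : (0 : ℝ) < n := by exact_mod_cast (by omega : 0 < n)
  have h := hK (Fin n) (β / √n) (by positivity) (sq_param (by nlinarith) n) (by simpa using hn)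
  rw [Fintype.card_fin] at h
  exact (real_preimage_le (mp_smul_Wmat β) _).trans h

/-- **(UW) for `β Jmat`** -/
theorem uw_Jmat (k : ℕ) : ∃ K : ℝ, 0 ≤ K ∧ ∀ (n : ℕ) (β : ℝ), 0 < β → β ≤ 1 → 16 ≤ n →
    (disorderLaw n).real {g | ¬ UW (β / √n) (β • Jmat n g) 3 k (K * √(Real.log n))} ≤
      (k + 5) * Real.exp (-(n / 4)) := by
  obtain ⟨K, K0, hK⟩ := uw_Wmat k
  refine ⟨K + k * (1 + 3) ^ k * 3, by positivity, fun n β h0 h1 hn => ?_⟩
  have n1 : (16 : ℝ) ≤ n := by exact_mod_cast hn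
  have hsq : 0 < √(n : ℝ) := by positivity
  set S := {g | ¬ UW (β / √n) (β • Jmat n g) 3 k ((K + k * (1 + 3) ^ k * 3) * √(Real.log n))}
  have h2 : ((disorderLaw n).prod (gv (Fin n))).real (Set.univ ×ˢ {z | 2 * √n ≤ en z}) ≤
      Real.exp (-(n / 2)) := by
    rw [measureReal_prod_prod, probReal_univ, one_mul]; exact en_tail n
  have h3 : (disorderLaw n).real S = ((disorderLaw n).prod (gv (Fin n))).real (S ×ˢ Set.univ) := by
    rw [measureReal_prod_prod, probReal_univ, mul_one]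
  have h4 : ((disorderLaw n).prod (gv (Fin n))).real ({g | 2 + 1 ≤ opn (Jmat n g)} ×ˢ Set.univ) ≤
      2 * Real.exp (-(n * 1 ^ 2 / 4)) := by
    rw [measureReal_prod_prod, probReal_univ, mul_one]; exact Nrm.Jmat_opn_tail zero_le_one
  rw [h3]
  refine le_trans ((measureReal_mono ?_).trans ((measureReal_union_le _ _).trans
    (add_le_add le_rfl (measureReal_union_le _ _)))) ((add_le_add (hK n β h0 h1 hn)
      (add_le_add h2 h4)).trans ?_)
  · rintro ⟨g, z⟩ ⟨hg, -⟩
    by_contra h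
    simp only [Set.mem_union, Set.mem_setOf_eq, Set.mem_prod, Set.mem_univ, true_and, and_true,
      not_or, not_not, not_le] at h
    obtain ⟨a1, a2, a3⟩ := h
    have r1 : 1 ≤ √(Real.log n) := Real.one_le_sqrt.2 (by
      rw [Real.le_log_iff_exp_le (by linarith)]; linarith [Real.exp_one_lt_d9])
    refine hg ((a1.perturb (sq_param (by nlinarith) n) (J' := β • Jmat n g) (c := 3) ?_ ?_).mono
      le_rfl le_rfl ?_)
    · rw [opn_smul, abs_of_pos h0]; nlinarith [opn_nonneg (Jmat n g)]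
    · refine Real.sqrt_le_iff.2 ⟨by norm_num, ?_⟩
      have e : ∀ i j, ‖cx (β • Jmat n g - β • Wmat n g z) i j‖ ^ 2 =
          if i = j then β ^ 2 * 2 / n * z i ^ 2 else 0 := fun i j => by
        by_cases hij : i = j
        · subst hij
          simp only [cx, E.Wmat, map_apply, Matrix.sub_apply, Matrix.smul_apply, Matrix.add_apply,
            diagonal_apply_eq, smul_eq_mul, Complex.norm_real, Real.norm_eq_abs, sq_abs, if_true]
          have e1 : √2 ^ 2 = 2 := Real.sq_sqrt (by norm_num)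
          have e2 : √(n : ℝ) ^ 2 = n := Real.sq_sqrt (by positivity)
          field_simp
          rw [e2]
          linear_combination (z i ^ 2 * n) * e1
        · simp [cx, E.Wmat, hij]
      simp only [e, sum_ite_eq, mem_univ, if_true, ← mul_sum, ← Conc.en_sq]
      have b1 : en z ^ 2 ≤ (2 * √n) ^ 2 := pow_le_pow_left₀ (en_nonneg z) a2.le 2
      rw [mul_pow, Real.sq_sqrt (by positivity)] at b1
      rw [div_mul_eq_mul_div, div_le_iff₀ (by positivity)]
      nlinarith [mul_le_mul (show β ^ 2 ≤ 1 by nlinarith) b1 (by positivity) zero_le_one]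
    · nlinarith [mul_le_mul_of_nonneg_left r1 (show (0 : ℝ) ≤ k * (1 + 3) ^ k * 3 by positivity)]
  · have e1 : Real.exp (-(n : ℝ)) ≤ Real.exp (-(n / 4)) := Real.exp_le_exp.2 (by linarith)
    have e2 : Real.exp (-(n / 2 : ℝ)) ≤ Real.exp (-(n / 4)) := Real.exp_le_exp.2 (by linarith)
    rw [one_pow, mul_one]
    nlinarith [mul_le_mul_of_nonneg_left e1 (Nat.cast_nonneg (α := ℝ) k)]

end Crest.Agent.T157.Uw
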